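import Crest.Agent.R143.G6T_408
import Crest.Agent.R143.PP0_831

/-!
# Row 143 (S0194), block G6/D4: official black region and chains of black cells (helper408)

* `isClosed_cell`, `convex_cell`, `points_lf`, `cell_ball`
* `blk` black sites, `blackRegion_eq`, `isClosed_blackRegion`
* `chain_of_crossing` : an official crossing gives a chain of black sites, consecutive cells meeting
  in `closure D`
* `crossing_of_cont` : a continuum in the black region which crosses `D` gives the official crossing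
* `crossing_of_chain` : a chain of black cells crossing `D` gives the official crossing
* `shrink` : an official crossing of `D` gives a connected crossing of a domain which is shorter
-/

set_option autoImplicit false

open Set Topology Metric

namespace Crest.Agent.R143.G6Vx408

open Crest.ProbabilityR.Voronoi Crest.Agent.R143.PP0x831 Crest.Agent.R143.G6Tx408

/-! ### Voronoi cells of an arbitrary set -/

section cells

variable {S : Set ℂ}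

theorem isClosed_cell (S : Set ℂ) (v : ℂ) : IsClosed (voronoiCell S v) := by
  have : voronoiCell S v = ⋂ w ∈ S, {z | ‖z - v‖ ≤ ‖z - w‖} := by
    ext z; simp [voronoiCell]
  rw [this]
  exact isClosed_biInter fun w _ => isClosed_le (by fun_prop) (by fun_prop)


theorem sq_diff (z v w : ℂ) : ‖z - w‖ ^ 2 - ‖z - v‖ ^ 2 =
    ‖w‖ ^ 2 - ‖v‖ ^ 2 + 2 * (z.re * (v.re - w.re) + z.im * (v.im - w.im)) := by
  simp only [← Complex.normSq_eq_norm_sq, Complex.normSq_apply, Complex.sub_re, Complex.sub_im]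
  ring

theorem le_iff {z v w : ℂ} : ‖z - v‖ ≤ ‖z - w‖ ↔
    0 ≤ ‖w‖ ^ 2 - ‖v‖ ^ 2 + 2 * (z.re * (v.re - w.re) + z.im * (v.im - w.im)) := by
  rw [← sq_diff, sub_nonneg, sq_le_sq₀ (norm_nonneg _) (norm_nonneg _)]

theorem convex_cell (S : Set ℂ) (v : ℂ) : Convex ℝ (voronoiCell S v) := by
  intro x hx y hy a b ha hb hab w hw
  have h1 := le_iff.1 (hx w hw)
  have h2 := le_iff.1 (hy w hw)
  rw [le_iff]
  simp only [Complex.add_re, Complex.add_im, Complex.real_smul, Complex.mul_re, Complex.mul_im,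
    Complex.ofReal_re, Complex.ofReal_im, zero_mul, sub_zero, add_zero]
  have h3 := add_nonneg (mul_nonneg ha h1) (mul_nonneg hb h2)
  have hb' : b = 1 - a := by linarith
  subst hb'
  linarith

theorem self_mem_cell (S : Set ℂ) (v : ℂ) : v ∈ voronoiCell S v := by
  intro w _; simp


theorem cell_finite (hS : ∀ r : ℝ, (S ∩ closedBall 0 r).Finite) (hne : S.Nonempty) {C : Set ℂ}
    (hC : Bornology.IsBounded C) : {v ∈ S | (voronoiCell S v ∩ C).Nonempty}.Finite := by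
  obtain ⟨s0, hs0⟩ := hne
  obtain ⟨r, hr⟩ := hC.subset_closedBall 0
  refine (hS (2 * r + ‖s0‖)).subset ?_
  rintro v ⟨hv, z, hz, hzC⟩
  refine ⟨hv, ?_⟩
  have h1 := hz s0 hs0
  have h2 : ‖z‖ ≤ r := by simpa using hr hzC
  rw [mem_closedBall_zero_iff]
  calc ‖v‖ = ‖z - (z - v)‖ := by congr 1; ring
    _ ≤ ‖z‖ + ‖z - v‖ := norm_sub_le _ _
    _ ≤ ‖z‖ + ‖z - s0‖ := by linarith
    _ ≤ ‖z‖ + (‖z‖ + ‖s0‖) := by linarith [norm_sub_le z s0]
    _ ≤ 2 * r + ‖s0‖ := by linarith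

end cells

/-! ### the official configuration -/

/-- the sample is locally finite -/
theorem points_lf {ε : ℝ} (hε : 0 < ε) (ω : Sample) (r : ℝ) :
    (points ε ω ∩ closedBall 0 r).Finite := by
  set M : ℤ := ⌈r / ε⌉ + 1 with hM
  have hfin : (⋃ k ∈ (Set.Icc (-M) M ×ˢ Set.Icc (-M) M : Set (ℤ × ℤ)),
      (fun j : ℕ => point ε ω k j) '' Set.Iio (ω.1 k)).Finite := by
    refine Set.Finite.biUnion ((Set.finite_Icc _ _).prod (Set.finite_Icc _ _)) fun k _ => ?_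
    exact (Set.finite_Iio _).image _
  refine hfin.subset ?_
  rintro z ⟨⟨⟨k1, k2, j⟩, hp, rfl⟩, hz⟩
  rw [mem_closedBall_zero_iff] at hz
  have hp' : j < ω.1 (k1, k2) := hp
  have key : ∀ (k : ℤ) (u : ℝ), 0 ≤ u → u ≤ 1 → |ε * ((k : ℝ) + u)| ≤ r → k ∈ Set.Icc (-M) M := by
    intro k u h0 h1 h
    rw [abs_mul, abs_of_pos hε] at h
    have h2 : |(k : ℝ) + u| ≤ r / ε := by rw [le_div_iff₀ hε]; linarith
    have h3 : r / ε ≤ ⌈r / ε⌉ := Int.le_ceil _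
    rw [abs_le] at h2
    constructor
    · have : (-M : ℝ) ≤ (k : ℝ) := by rw [hM]; push_cast; linarith [h2.1]
      exact_mod_cast this
    · have : (k : ℝ) ≤ (M : ℝ) := by rw [hM]; push_cast; linarith [h2.2]
      exact_mod_cast this
  have hre := (Complex.abs_re_le_norm _).trans hz
  have him := (Complex.abs_im_le_norm _).trans hz
  have e1 : (point ε ω (k1, k2) j).re = ε * ((k1 : ℝ) + (ω.2 (k1, k2) j 0 : ℝ)) := by
    simp [point, -Complex.ofReal_add]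
  have e2 : (point ε ω (k1, k2) j).im = ε * ((k2 : ℝ) + (ω.2 (k1, k2) j 1 : ℝ)) := by
    simp [point, -Complex.ofReal_add]
  rw [e1] at hre
  rw [e2] at him
  refine mem_biUnion (x := (k1, k2)) ⟨?_, ?_⟩ ⟨j, hp', rfl⟩
  · exact key k1 _ (ω.2 (k1, k2) j 0).2.1 (ω.2 (k1, k2) j 0).2.2 hre
  · exact key k2 _ (ω.2 (k1, k2) j 1).2.1 (ω.2 (k1, k2) j 1).2.2 him

/-- the black sites -/
def blk (ε : ℝ) (ω : Sample) : Set ℂ := {v | (v, true) ∈ cfg ε ω}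

theorem mem_blk {ε : ℝ} {ω : Sample} {v : ℂ} : v ∈ blk ε ω ↔ ∃ p ∈ present ω,
    (ω.2 (p.1, p.2.1) p.2.2 2 : ℝ) < 1 / 2 ∧ point ε ω (p.1, p.2.1) p.2.2 = v := by
  constructor
  · rintro ⟨p, hp, h⟩
    have h' := Prod.ext_iff.1 h
    refine ⟨p, hp, ?_, h'.1⟩
    have h2 : col ω (p.1, p.2.1) p.2.2 = true := h'.2
    simpa [col] using h2
  · rintro ⟨p, hp, h1, h2⟩
    refine ⟨p, hp, Prod.ext h2 ?_⟩
    show col ω (p.1, p.2.1) p.2.2 = true
    simpa [col] using h1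

theorem blk_sub (ε : ℝ) (ω : Sample) : blk ε ω ⊆ points ε ω := by
  intro v hv
  obtain ⟨p, hp, -, h⟩ := mem_blk.1 hv
  exact ⟨p, hp, h⟩

theorem blackRegion_eq (ε : ℝ) (ω : Sample) :
    blackRegion ε ω = ⋃ v ∈ blk ε ω, voronoiCell (points ε ω) v := by
  ext z
  simp only [blackRegion, mem_iUnion, exists_prop]
  constructor
  · rintro ⟨p, hp, hz⟩
    exact ⟨_, mem_blk.2 ⟨p, hp.1, hp.2, rfl⟩, hz⟩
  · rintro ⟨v, hv, hz⟩
    obtain ⟨p, hp, h1, rfl⟩ := mem_blk.1 hv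
    exact ⟨p, ⟨hp, h1⟩, hz⟩

theorem blk_cell_finite {ε : ℝ} (hε : 0 < ε) (ω : Sample) {C : Set ℂ}
    (hC : Bornology.IsBounded C) :
    {v ∈ blk ε ω | (voronoiCell (points ε ω) v ∩ C).Nonempty}.Finite := by
  rcases (points ε ω).eq_empty_or_nonempty with h | h
  · have : blk ε ω = ∅ := subset_empty_iff.1 (h ▸ blk_sub ε ω)
    rw [this]
    simp
  · exact (cell_finite (points_lf hε ω) h hC).subset fun v hv => ⟨blk_sub ε ω hv.1, hv.2⟩


/-- a chain of black sites, the cells meet in `B` -/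
def BChain (ε : ℝ) (ω : Sample) (B : Set ℂ) : ℂ → ℂ → Prop :=
  Relation.ReflTransGen (fun v w => v ∈ blk ε ω ∧ w ∈ blk ε ω ∧
    (voronoiCell (points ε ω) v ∩ voronoiCell (points ε ω) w ∩ B).Nonempty)

theorem BChain.mono {ε : ℝ} {ω : Sample} {B B' : Set ℂ} (h : B ⊆ B') {v w : ℂ}
    (hc : BChain ε ω B v w) : BChain ε ω B' v w :=
  Relation.ReflTransGen.mono
    (fun _ _ h' => ⟨h'.1, h'.2.1, h'.2.2.mono (inter_subset_inter_right _ h)⟩) _ _ hc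

/-- **a bounded connected subset of the black region gives chains of black sites** -/
theorem chain_of_conn {ε : ℝ} (hε : 0 < ε) {ω : Sample} {S : Set ℂ} (hS : IsPreconnected S)
    (hSb : Bornology.IsBounded S) (hSB : S ⊆ blackRegion ε ω) {v w : ℂ} (hv : v ∈ blk ε ω)
    (hw : w ∈ blk ε ω) (h1 : (S ∩ voronoiCell (points ε ω) v).Nonempty)
    (h2 : (S ∩ voronoiCell (points ε ω) w).Nonempty) : BChain ε ω S v w := by
  have h3 := chain_of_cover (blk_cell_finite hε ω hSb) (F := voronoiCell (points ε ω))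
    (fun i _ => isClosed_cell _ _) hS ?_ (i := v) (j := w) ⟨hv, by rwa [inter_comm]⟩
    ⟨hw, by rwa [inter_comm]⟩ h1 h2
  · exact Relation.ReflTransGen.mono (fun _ _ h' => ⟨h'.1.1, h'.2.1.1, h'.2.2⟩) _ _ h3
  · intro z hz
    have := hSB hz
    rw [blackRegion_eq] at this
    obtain ⟨u, hu, hzu⟩ := mem_iUnion₂.1 this
    exact mem_biUnion (x := u) ⟨hu, z, hzu, hz⟩ hzu

/-- **an official crossing gives a chain of black sites** -/
theorem chain_of_crossing {ε : ℝ} (hε : 0 < ε) {ω : Sample} {D A₁ A₂ : Set ℂ}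
    (hD : Bornology.IsBounded D) (h : ω ∈ crossingEvent ε D A₁ A₂) :
    ∃ v ∈ blk ε ω, ∃ w ∈ blk ε ω,
      (voronoiCell (points ε ω) v ∩ (closure D ∩ A₁)).Nonempty ∧
      (voronoiCell (points ε ω) w ∩ (closure D ∩ A₂)).Nonempty ∧
      BChain ε ω (closure D) v w := by
  obtain ⟨S, hS, hSB, ⟨x, hx, hx1⟩, ⟨y, hy, hy2⟩⟩ := h
  have h1 := (hSB hx).1
  have h2 := (hSB hy).1
  rw [blackRegion_eq] at h1 h2
  obtain ⟨v, hv, hxv⟩ := mem_iUnion₂.1 h1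
  obtain ⟨w, hw, hyw⟩ := mem_iUnion₂.1 h2
  refine ⟨v, hv, w, hw, ⟨x, hxv, (hSB hx).2, hx1⟩, ⟨y, hyw, (hSB hy).2, hy2⟩, ?_⟩
  refine BChain.mono (fun z hz => (hSB hz).2) (chain_of_conn hε hS.isPreconnected ?_
    (fun z hz => (hSB hz).1) hv hw ⟨x, hx, hxv⟩ ⟨y, hy, hyw⟩)
  exact hD.closure.subset fun z hz => (hSB hz).2

/-- **a continuum in the black region which crosses `D`** -/
theorem crossing_of_cont {ε : ℝ} {ω : Sample} {D A₁ A₂ K V₁ V₂ : Set ℂ} (hD : IsOpen D)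
    (hK : IsCompact K) (hKc : IsPreconnected K) (hKB : K ⊆ blackRegion ε ω)
    (hV₁ : IsClosed V₁) (hV₂ : IsClosed V₂) (hV : K \ D ⊆ V₁ ∪ V₂)
    (hd : K \ D ∩ V₁ ∩ V₂ = ∅) (h₁ : (K \ D ∩ V₁).Nonempty) (h₂ : (K \ D ∩ V₂).Nonempty)
    (hA₁ : K ∩ frontier D ∩ V₁ ⊆ A₁) (hA₂ : K ∩ frontier D ∩ V₂ ⊆ A₂) :
    ω ∈ crossingEvent ε D A₁ A₂ := by
  have hc : IsCompact (K \ D) := hK.diff hD
  obtain ⟨S, hS, hSK, ⟨x, hx, hx1⟩, ⟨y, hy, hy2⟩⟩ := crosscut (D := D) (U₁ := K \ D ∩ V₁)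
    (U₂ := K \ D ∩ V₂) hK hKc (hc.inter_right hV₁) (hc.inter_right hV₂)
    (fun z hz => by
      rcases hV hz with h | h
      · exact Or.inl ⟨hz, h⟩
      · exact Or.inr ⟨hz, h⟩)
    (by
      rw [Set.disjoint_left]
      rintro z hz1 hz2
      have : z ∈ K \ D ∩ V₁ ∩ V₂ := ⟨hz1, hz2.2⟩
      rw [hd] at this
      exact this)
    (h₁.mono fun z hz => ⟨hz.1.1, hz⟩) (h₂.mono fun z hz => ⟨hz.1.1, hz⟩)
  refine ⟨S, hS, fun z hz => ⟨hKB (hSK hz).1, (hSK hz).2⟩, ⟨x, hx, hA₁ ⟨⟨hx1.1.1, ?_⟩, hx1.2⟩⟩,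
    ⟨y, hy, hA₂ ⟨⟨hy2.1.1, ?_⟩, hy2.2⟩⟩⟩
  · exact ⟨(hSK hx).2, by rw [hD.interior_eq]; exact hx1.1.2⟩
  · exact ⟨(hSK hy).2, by rw [hD.interior_eq]; exact hy2.1.2⟩

/-- the union of the cells of a chain is a continuum -/
theorem cont_of_chain {P T : Set ℂ} (hT : ∀ u ∈ T, Bornology.IsBounded (voronoiCell P u)) {v w : ℂ}
    (hv : v ∈ T) (hc : Relation.ReflTransGen
      (fun a b => b ∈ T ∧ (voronoiCell P a ∩ voronoiCell P b).Nonempty) v w) :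
    ∃ K : Set ℂ, IsCompact K ∧ IsPreconnected K ∧ K ⊆ ⋃ u ∈ T, voronoiCell P u ∧
      voronoiCell P v ⊆ K ∧ voronoiCell P w ⊆ K ∧ w ∈ T := by
  induction hc with
  | refl =>
    exact ⟨voronoiCell P v, isCompact_of_isClosed_isBounded (isClosed_cell _ _) (hT v hv),
      (convex_cell P v).isPreconnected, subset_biUnion_of_mem (u := voronoiCell P) hv, subset_rfl,
      subset_rfl, hv⟩
  | @tail b c _ h2 ih =>
    obtain ⟨K, hK, hKc, hKT, hvK, hbK, hb⟩ := ih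
    refine ⟨K ∪ voronoiCell P c, hK.union (isCompact_of_isClosed_isBounded (isClosed_cell _ _)
      (hT c h2.1)), ?_, union_subset hKT (subset_biUnion_of_mem (u := voronoiCell P) h2.1),
      hvK.trans subset_union_left, subset_union_right, h2.1⟩
    obtain ⟨z, hz1, hz2⟩ := h2.2
    exact IsPreconnected.union z (hbK hz1) hz2 hKc (convex_cell P c).isPreconnected

/-- **a chain of black cells which crosses `D`** -/
theorem crossing_of_chain {ε : ℝ} {ω : Sample} {D A₁ A₂ T V₁ V₂ : Set ℂ} (hD : IsOpen D)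
    (hTb : T ⊆ blk ε ω) (hT : ∀ u ∈ T, Bornology.IsBounded (voronoiCell (points ε ω) u)) {v w : ℂ}
    (hv : v ∈ T) (hc : Relation.ReflTransGen (fun a b => b ∈ T ∧
      (voronoiCell (points ε ω) a ∩ voronoiCell (points ε ω) b).Nonempty) v w)
    (hV₁ : IsClosed V₁) (hV₂ : IsClosed V₂)
    (hV : ∀ u ∈ T, voronoiCell (points ε ω) u \ D ⊆ V₁ ∪ V₂)
    (hd : ∀ u ∈ T, voronoiCell (points ε ω) u \ D ∩ V₁ ∩ V₂ = ∅)
    (h₁ : (voronoiCell (points ε ω) v \ D ∩ V₁).Nonempty)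
    (h₂ : (voronoiCell (points ε ω) w \ D ∩ V₂).Nonempty)
    (hA₁ : ∀ u ∈ T, voronoiCell (points ε ω) u ∩ frontier D ∩ V₁ ⊆ A₁)
    (hA₂ : ∀ u ∈ T, voronoiCell (points ε ω) u ∩ frontier D ∩ V₂ ⊆ A₂) :
    ω ∈ crossingEvent ε D A₁ A₂ := by
  obtain ⟨K, hK, hKc, hKT, hvK, hwK, -⟩ := cont_of_chain hT hv hc
  refine crossing_of_cont hD hK hKc ?_ hV₁ hV₂ ?_ ?_ ?_ ?_ ?_ ?_
  · rw [blackRegion_eq]
    intro z hz
    obtain ⟨u, hu, hzu⟩ := mem_iUnion₂.1 (hKT hz)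
    exact mem_biUnion (x := u) (hTb hu) hzu
  · rintro z ⟨hz, hzD⟩
    obtain ⟨u, hu, hzu⟩ := mem_iUnion₂.1 (hKT hz)
    exact hV u hu ⟨hzu, hzD⟩
  · rw [← subset_empty_iff]
    rintro z ⟨⟨⟨hz, hzD⟩, hz1⟩, hz2⟩
    obtain ⟨u, hu, hzu⟩ := mem_iUnion₂.1 (hKT hz)
    rw [← hd u hu]
    exact ⟨⟨⟨hzu, hzD⟩, hz1⟩, hz2⟩
  · exact h₁.mono fun z hz => ⟨⟨hvK hz.1.1, hz.1.2⟩, hz.2⟩
  · exact h₂.mono fun z hz => ⟨⟨hwK hz.1.1, hz.1.2⟩, hz.2⟩
  · rintro z ⟨⟨hz, hzf⟩, hz1⟩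
    obtain ⟨u, hu, hzu⟩ := mem_iUnion₂.1 (hKT hz)
    exact hA₁ u hu ⟨⟨hzu, hzf⟩, hz1⟩
  · rintro z ⟨⟨hz, hzf⟩, hz1⟩
    obtain ⟨u, hu, hzu⟩ := mem_iUnion₂.1 (hKT hz)
    exact hA₂ u hu ⟨⟨hzu, hzf⟩, hz1⟩



end Crest.Agent.R143.G6Vx408
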