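import Crest.Agent.R143.Spine_422
import Crest.Agent.R143.G6V_408
import Crest.Agent.R158.Sp7_896
import Crest.Agent.R158.Sp4_896

/-!
# Row 143 (S0194), BLOCK D: interface (helper416)

* `Cfg n` : `n` tentacles (`n = 3` : reference domain; `n = 4` : the quadrilateral, tentacles
  `0, 1, 2, 3` at the marks `a, b, c, d`, `R 0 = ab`, `R 1 = bc`, `R 2 = cd`, `R 3 = da`).
* `Cfg.dom` : the `Dom` of the network: marks = tentacles `0, -2, -1` (`n = 3` : all; `n = 4` :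
  `a, c, d`), arc `0` = all other regions.
* `Cfg.cls` : class `i` = sites whose cell meets `R i` and hull sites between the rays `i`, `i + 1`
* `Cfg.inn` : inner sites = sites in no class
* `Cfg.Crs S T i` : chain of sites of `T` from the class `i` to the class `i + 2`
* `Cfg.pr S i` : its probability
* `D1`, `D2` (722), `P2b` (117), `ALB`, `VAL` (802), `D4LO`, `D4UP` (719, 408, 723), macroscopic
  geometry `Mac`, leaves `CARA`, `POLY`, `TENT`, `SWL`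
-/

set_option autoImplicit false

noncomputable section

open scoped Classical

namespace Crest.Agent.R143.Cfgx416

open Set Filter Topology MeasureTheory
open Crest.ProbabilityR.Voronoi
open Crest.Agent.R143.B0x346 Crest.Agent.R143.B0Dx346
open Crest.Agent.R143.Spinex422

/-! ### configurations -/

/-- `n` tentacles -/
structure Cfg (n : ℕ) where
  /-- centre of the big disc -/
  c : ℂ
  /-- radius of the big disc -/
  L : ℝ
  /-- outside regions, `R k` between the tentacles `k` and `k + 1` (counterclockwise) -/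
  R : ZMod n → Set ℂ
  /-- directions of the tentacles -/
  q : ZMod n → ℂ

variable {n : ℕ}

/-- the outside -/
def Cfg.out (C : Cfg n) : Set ℂ := ⋃ i, C.R i

/-- the cone of the tentacle `k` -/
def Cfg.cone (C : Cfg n) (δ : ℝ) (k : ZMod n) : Set ℂ :=
  {z | C.L / 2 < ‖z - C.c‖ ∧ ∃ t : ℝ, 0 ≤ t ∧ ‖z - (C.c + t * C.q k)‖ ≤ δ / C.L * ‖z - C.c‖}

/-- admissible configuration: the fields of `Dom.OK` (cones) and the lifted directions -/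
structure Cfg.OK (C : Cfg n) (δ : ℝ) : Prop where
  Lpos : 0 < C.L
  dpos : 0 < δ
  opn : ∀ i, IsOpen (C.R i)
  con : ∀ i, IsConnected (C.R i)
  qn : ∀ k, ‖C.q k‖ = 1
  ang : ∃ th : ℤ → ℝ, StrictMono th ∧ (∀ k, th (k + n) = th k + 2 * Real.pi) ∧
    ∀ k : ℤ, C.q (k : ZMod n) = Complex.exp (th k * Complex.I)
  far : ∀ i j, i ≠ j → ∀ z ∈ C.R i, ∀ w ∈ C.R j, δ ≤ ‖z - w‖
  tent : ∀ z : ℂ, C.L / 2 < ‖z - C.c‖ → ((∀ i, z ∉ C.R i) ↔ ∃ k : ZMod n, ∃ t : ℝ, 0 ≤ t ∧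
    ‖z - (C.c + t * C.q k)‖ ≤ δ / C.L * ‖z - C.c‖)
  sect : ∀ k : ZMod n, ∀ r : ℝ, C.L / 2 < r → ∃ e > 0, ∀ ψ : ℝ, Real.arcsin (δ / C.L) < ψ →
    ψ < Real.arcsin (δ / C.L) + e →
    C.c + r * C.q k * Complex.exp (ψ * Complex.I) ∈ C.R k ∧
    C.c + r * C.q k * Complex.exp (-(ψ * Complex.I)) ∈ C.R (k - 1)

/-- the domain of the network: marks `0, -2, -1` -/
def Cfg.dom (C : Cfg n) : Dom where
  c := C.c
  L := C.L
  R := fun i => if i = 1 then C.R (-2) else if i = 2 then C.R (-1) else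
    ⋃ j ∈ {j : ZMod n | j ≠ -2 ∧ j ≠ -1}, C.R j
  q := fun i => if i = 1 then C.q (-2) else if i = 2 then C.q (-1) else C.q 0

/-- admissible `Dom` (the parameter `Adm` of the spine) -/
def AdmC (D : Dom) (δ : ℝ) : Prop := ∃ (n : ℕ) (C : Cfg n), 3 ≤ n ∧ C.OK δ ∧ C.dom = D

/-- admissible `Dom` for some width -/
def Adm (D : Dom) : Prop := ∃ δ : ℝ, AdmC D δ

theorem Cfg.dom_out (C : Cfg n) : C.dom.out = C.out := by
  ext z
  simp only [Dom.out, Cfg.out, mem_iUnion, Cfg.dom]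
  constructor
  · rintro ⟨i, hi⟩
    split_ifs at hi
    · exact ⟨_, hi⟩
    · exact ⟨_, hi⟩
    · simp only [mem_iUnion] at hi
      obtain ⟨j, -, hj⟩ := hi
      exact ⟨j, hj⟩
  · rintro ⟨j, hj⟩
    by_cases h1 : j = -2
    · exact ⟨1, by rw [if_pos rfl, ← h1]; exact hj⟩
    by_cases h2 : j = -1
    · exact ⟨2, by rw [if_neg (by decide), if_pos rfl, ← h2]; exact hj⟩
    · refine ⟨0, ?_⟩
      rw [if_neg (by decide), if_neg (by decide)]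
      simp only [mem_iUnion]
      exact ⟨j, ⟨h1, h2⟩, hj⟩

/-- the hull edge crossed by the ray `k` -/
def Cfg.ray (C : Cfg n) (S : Finset ℂ) (k : ZMod n) : ℂ × ℂ := rayMark S C.c (C.q k)

/-- Voronoi cell -/
def cell (S : Finset ℂ) (v : ℂ) : Set ℂ := voronoiCell (S : Set ℂ) v

/-- hull sites between the hull edges of the rays `i` and `i + 1` -/
def Cfg.harc (C : Cfg n) (S : Finset ℂ) (i : ZMod n) : Set ℂ :=
  {v | Relation.ReflTransGen (fun a b => hullE S a b ∧ ∀ k, C.ray S k ≠ (a, b)) (C.ray S i).2 v}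

/-- the class `i` -/
def Cfg.cls (C : Cfg n) (S : Finset ℂ) (i : ZMod n) : Set ℂ :=
  {v | v ∈ S ∧ (cell S v ∩ C.R i).Nonempty} ∪ C.harc S i

/-- the inner sites -/
def Cfg.inn (C : Cfg n) (S : Finset ℂ) : Finset ℂ := S.filter fun v => ∀ i, v ∉ C.cls S i

/-- undirected Delaunay edge -/
def Adj (S : Finset ℂ) (a b : ℂ) : Prop := ∃ c, (a, b, c) ∈ delT S ∨ (b, a, c) ∈ delT S

/-! ### D1, D2 (722) -/

/-- **D1** -/
def D1 : Prop := ∀ (n : ℕ) (C : Cfg n) (δ ε d M : ℝ) (ω : Sample), 3 ≤ n → C.OK δ →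
  Env ε d M C.c C.L ω → 40000 * C.L ^ 5 * d ≤ δ ^ 6 →
  HNet (C.dom.sites ε ω) (C.dom.netS (C.dom.sites ε ω))

/-- output of **D2** -/
structure Cfg.Out (C : Cfg n) (S : Finset ℂ) : Prop where
  gp : GP (S : Set ℂ)
  hnet : HNet S (C.dom.netS S)
  ray : ∀ k, crossRay S C.c (C.q k) (C.ray S k)
  /-- the classes are disjoint, contained in `S` -/
  sub : ∀ i, C.cls S i ⊆ S
  disj : ∀ i j, i ≠ j → Disjoint (C.cls S i) (C.cls S j)
  /-- the ends of the ray edges: right class `k - 1`, left class `k`; all their edges (except the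
  hull edges) are live -/
  end1 : ∀ k, (C.ray S k).1 ∈ C.cls S (k - 1)
  end2 : ∀ k, (C.ray S k).2 ∈ C.cls S k
  miss1 : ∀ k, Disjoint (cell S (C.ray S k).1) C.out
  miss2 : ∀ k, Disjoint (cell S (C.ray S k).2) C.out
  /-- a hull edge which is not a ray edge joins two sites of the same class -/
  hull : ∀ a b, hullE S a b → (∃ k, C.ray S k = (a, b)) ∨ ∃ i, a ∈ C.cls S i ∧ b ∈ C.cls S i
  /-- a killed Delaunay edge joins two sites of the same class -/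
  kill : ∀ a b, Adj S a b → (a, b) ∈ C.dom.kl S → ∃ i, a ∈ C.cls S i ∧ b ∈ C.cls S i
  /-- the classes are connected by dead edges -/
  con : ∀ i, ∀ v ∈ C.cls S i, ∀ w ∈ C.cls S i, Relation.ReflTransGen (fun a b =>
    a ∈ C.cls S i ∧ b ∈ C.cls S i ∧ ((Adj S a b ∧ (a, b) ∈ C.dom.kl S) ∨
      ((hullE S a b ∨ hullE S b a) ∧ ∀ k, C.ray S k ≠ (a, b) ∧ C.ray S k ≠ (b, a)))) v w
  /-- inner sites: no killed edge, a ring with all triangles -/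
  inn : ∀ v ∈ C.inn S, (∀ u, (v, u) ∉ C.dom.kl S) ∧ ∃ (d : ℕ) (u : ℤ → ℂ),
    Ring (C.dom.netS S).toTrg v d u ∧
    ∀ x y, (v, x, y) ∈ delT S → ∃ i : ℤ, x = u i ∧ y = u (i + 1)

/-- **D2** (the smallness of `d` may be changed) -/
def D2 : Prop := ∀ (n : ℕ) (C : Cfg n) (δ : ℝ), 3 ≤ n → C.OK δ → ∃ d0 > 0, ∀ (ε d M : ℝ)
  (ω : Sample), Env ε d M C.c C.L ω → d ≤ d0 → C.Out (C.dom.sites ε ω)

/-! ### network crossing and its probability (117) -/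

/-- chain of sites of `T` from the class `i` to the class `i + 2` -/
def Cfg.Crs (C : Cfg 4) (S : Finset ℂ) (T : Set ℂ) (i : ZMod 4) : Prop :=
  ∃ a ∈ C.cls S i, ∃ b ∈ C.cls S (i + 2), Relation.ReflTransGen
    (fun x y => Adj S x y ∧ (y ∈ T ∨ y ∈ C.cls S i ∨ y ∈ C.cls S (i + 2))) a b

/-- its probability: fair colours of the inner sites -/
def Cfg.pr (C : Cfg 4) (S : Finset ℂ) (i : ZMod 4) : ℝ :=
  (((C.inn S).powerset.filter fun T : Finset ℂ => C.Crs S (T : Set ℂ) i).card : ℝ) /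
    2 ^ (C.inn S).card

/-- **P2b** -/
def P2b : Prop := ∀ (C : Cfg 4) (S : Finset ℂ), C.Out S →
  C.pr S 0 + C.pr S 1 = 1 ∧
  ∀ x, ((C.ray S 1).1, (C.ray S 1).2, x) ∈ delT S →
    (C.dom.netS S).F (C.ray S 1).2 x = 1 + (C.pr S 0 : ℂ) * (om - 1) ∧
    (C.dom.netS S).F x (C.ray S 1).1 = 1 + (C.pr S 0 : ℂ) * (om - 1)

/-- the network crossing with the official colours -/
def Cfg.NX (C : Cfg 4) (i : ZMod 4) (ε : ℝ) : Set Sample :=
  {ω | C.Crs (C.dom.sites ε ω) (G6Vx408.blk ε ω ∩ (C.inn (C.dom.sites ε ω) : Set ℂ)) i}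

/-! ### pieces of the body near a boundary point (802) -/

/-- `G` = a piece of the body (plus parts of the arcs). Within the ball `B(p, r)`, the piece `G` only
touches the regions `R i`, `i ∈ I`, with margin `κ` -/
structure Cfg.Near (C : Cfg n) (G : Set ℂ) (p : ℂ) (r κ : ℝ) (I : Set (ZMod n)) : Prop where
  out : ∀ y ∈ G, dist y p ≤ r → ∀ w, dist w y < κ → w ∈ G ∨ ∃ i ∈ I, w ∈ C.R i
  no : ∀ y ∈ G, dist y p ≤ r → ∀ w, dist w y < κ → ∀ j ∉ I, w ∉ C.R j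

/-- **VAL** (802), quenched form, one configuration, one point: `Q` = body near `b` (no outside
points), `TB` = tentacle `1` with its cone -/
def VAL : Prop := ∀ η > 0, ∃ Λ > 1, ∀ (C : Cfg 4) (δ : ℝ), C.OK δ →
  ∀ (b : ℂ) (R0 s κ : ℝ) (Q TB : Set ℂ), 0 < s → R0 ≤ 1 → Λ * s ≤ R0 → 0 < κ →
  Metric.closedBall b R0 ⊆ Metric.closedBall C.c (C.L / 2) → Disjoint (Q ∪ TB) C.out →
  (∀ y ∈ Q, ∀ y', dist y y' < κ → dist y' b < R0 →
    y' ∈ Q ∨ y' ∈ TB ∨ y' ∈ C.R 0 ∨ y' ∈ C.R 1) →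
  (∀ y ∈ TB, ∀ y', dist y y' < κ →
    y' ∈ TB ∨ y' ∈ C.R 0 ∨ y' ∈ C.R 1 ∨ (y' ∈ Q ∧ dist y' b < s)) →
  C.cone δ 1 ⊆ TB →
  ((C.R 0 ∩ Metric.ball b s).Nonempty ∧ (C.R 1 ∩ Metric.ball b s).Nonempty) →
  ∀ (z : ℂ) (P : Set ℂ), dist z b < s → IsPreconnected P → z ∈ P →
  P ⊆ (Q ∩ Metric.ball b s) ∪ TB → P ⊆ Metric.closedBall C.c (3 / 4 * C.L) →
  C.c + ((3 / 4 * C.L : ℝ) : ℂ) * C.q 1 ∈ P →
  (∀ y ∈ P, Disjoint (Metric.ball y κ) C.out) → Linked C.dom κ z →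
  ∀ᶠ ε : ℝ in 𝓝[>] 0, ∃ E : Set Sample, sampleLaw E ≤ ENNReal.ofReal η ∧ ∀ ω ∉ E,
    dist (C.dom.h ε ω z) (1 + (C.pr (C.dom.sites ε ω) 0 : ℂ) * (om - 1)) ≤ η

/-! ### comparison with the official event (719, 408, 723) -/

/-- macroscopic conditions for: network crossing `i` implies official crossing -/
structure MacLO (C : Cfg 4) (δ : ℝ) (D A₁ A₂ : Set ℂ) (i : ZMod 4) (κ : ℝ) (E₁ E₂ : Set ℂ) :
    Prop where
  kpos : 0 < κ
  bd : closure D ⊆ Metric.closedBall C.c (C.L / 4)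
  c1 : IsClosed E₁
  c2 : IsClosed E₂
  sep : ∀ x ∈ E₁, ∀ y ∈ E₂, κ ≤ dist x y
  cov : C.outᶜ \ D ⊆ E₁ ∪ E₂
  fr1 : C.outᶜ ∩ frontier D ∩ E₁ ⊆ A₁
  fr2 : C.outᶜ ∩ frontier D ∩ E₂ ⊆ A₂
  nr1 : ∀ z ∉ C.out, (∃ w ∈ C.R i, dist z w < κ) → z ∈ E₁ \ D
  nr2 : ∀ z ∉ C.out, (∃ w ∈ C.R (i + 2), dist z w < κ) → z ∈ E₂ \ D
  tn1 : C.cone δ i ∪ C.cone δ (i + 1) ⊆ E₁
  tn2 : C.cone δ (i + 2) ∪ C.cone δ (i + 3) ⊆ E₂

/-- **D4, lower** (deterministic) -/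
def D4LO : Prop := ∀ (C : Cfg 4) (δ : ℝ) (D A₁ A₂ : Set ℂ) (i : ZMod 4) (κ : ℝ) (E₁ E₂ : Set ℂ),
  C.OK δ → IsOpen D → Bornology.IsBounded D → MacLO C δ D A₁ A₂ i κ E₁ E₂ →
  ∃ d0 > 0, ∀ (ε d M : ℝ) (ω : Sample), 0 < ε → Env ε d M C.c C.L ω → d ≤ d0 →
    ω ∈ C.NX i ε → ω ∈ crossingEvent ε D A₁ A₂

/-- macroscopic conditions for: official crossing implies network crossing `i` -/
structure MacUP (C : Cfg 4) (D A₁ A₂ : Set ℂ) (i : ZMod 4) (κ : ℝ) : Prop where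
  kpos : 0 < κ
  bd : closure D ⊆ Metric.closedBall C.c (C.L / 4)
  s1 : A₁ ⊆ C.R i
  s2 : A₂ ⊆ C.R (i + 2)
  fr : ∀ z ∈ closure D, ∀ w ∈ C.R (i + 1) ∪ C.R (i + 3), κ ≤ dist z w

/-- **D4, upper** (deterministic) -/
def D4UP : Prop := ∀ (C : Cfg 4) (δ : ℝ) (D A₁ A₂ : Set ℂ) (i : ZMod 4) (κ : ℝ),
  C.OK δ → IsOpen D → Bornology.IsBounded D → MacUP C D A₁ A₂ i κ →
  ∃ d0 > 0, ∀ (ε d M : ℝ) (ω : Sample), 0 < ε → Env ε d M C.c C.L ω → d ≤ d0 →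
    ω ∈ crossingEvent ε D A₁ A₂ → ω ∈ C.NX i ε

/-- **D4, colours**: the expectation of `pr` is the probability of `NX` -/
def D4COL : Prop := ∀ (C : Cfg 4) (δ : ℝ), C.OK δ → ∀ i : ZMod 4, ∃ Pm : ℝ → Set Sample,
  (∀ ε, MeasurableSet (Pm ε)) ∧
  (∀ᶠ ε : ℝ in 𝓝[>] 0, sampleLaw (Pm ε)ᶜ ≤ ENNReal.ofReal (ε ^ (10 : ℝ))) ∧
  (∀ d > 0, ∀ᶠ ε : ℝ in 𝓝[>] 0, ∀ ω ∈ Pm ε, ∃ M : ℝ, Env ε d M C.c C.L ω) ∧
  ∀ᶠ ε : ℝ in 𝓝[>] 0,
    AEStronglyMeasurable (fun ω => C.pr (C.dom.sites ε ω) i) (sampleLaw.restrict (Pm ε)) ∧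
    MeasurableSet (C.NX i ε ∩ Pm ε) ∧
    ∫ ω in Pm ε, C.pr (C.dom.sites ε ω) i ∂sampleLaw = sampleLaw.real (C.NX i ε ∩ Pm ε)

/-! ### macroscopic geometry -/

/-- the configuration `C` at precision `e` for the Jordan domain `D` with the four boundary arcs
`A i` (counterclockwise, `A (i-1) ∩ A i = {m i}`); the arcs `i ∈ T` are swallowed (`T = {0, 2}` or
`{1, 3}`), the regions of the other two are outside `closure D`. `G` = polygon, neighbourhood of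
`closure D`; `B k` = tentacle `k` with its cone; `K` = compact subset of `D`; `md` = modulus of local
connectedness at the marks -/
structure Mac (D : Set ℂ) (A : ZMod 4 → Set ℂ) (m : ZMod 4 → ℂ) (T : Set (ZMod 4)) (md : ℝ → ℝ)
    (e : ℝ) (K : Set ℂ) (C : Cfg 4) (δ κ : ℝ) (G : Set ℂ) (B : ZMod 4 → Set ℂ) : Prop where
  ok : C.OK δ
  kpos : 0 < κ
  ke : κ < e
  bd : closure D ⊆ Metric.closedBall C.c (C.L / 4)
  Gc : IsCompact G
  DG : closure D ⊆ interior G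
  Gbd : G ⊆ Metric.closedBall C.c (C.L / 3)
  Ge : ∀ z ∈ G, Metric.infDist z (closure D) < e
  Bc : ∀ k, IsClosed (B k)
  body : C.outᶜ = (G \ C.out) ∪ ⋃ k, B k
  /-- swallowed arcs: the region contains everything of `G` near the arc, and nothing else -/
  sw : ∀ i ∈ T, A i ⊆ C.R i
  sw' : ∀ i ∈ T, ∀ z ∈ G, Metric.infDist z (A i) ≤ κ → z ∈ C.R i
  /-- a point of `G ∖ D` outside the regions is near a non swallowed arc, far from the others -/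
  ns : ∀ z ∈ G, z ∉ C.out → z ∉ D → ∃ i ∉ T, Metric.infDist z (A i) < e
  /-- the other regions do not meet `G` -/
  ot : ∀ i ∉ T, Disjoint (C.R i) G
  otD : ∀ i ∉ T, ∀ z ∈ closure D, ∀ w ∈ C.R i, κ ≤ dist z w
  /-- a region only comes near `G` close to its arc -/
  nr : ∀ i, ∀ y ∈ G, ∀ w ∈ C.R i, dist w y < κ → Metric.infDist y (A i) < e
  nr' : ∀ i, ∀ p ∈ A i, ∃ w ∈ C.R i, dist w p < e
  /-- exits from `G` : into a region, or into a tentacle close to its mark -/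
  ex : ∀ y ∈ G, ∀ w, dist w y < κ → w ∈ G ∨ w ∈ C.out ∨ ∃ k, w ∈ B k ∧ dist w (m k) < e
  /-- the tentacles -/
  tb : ∀ k, ∀ y ∈ B k, ∀ w, dist w y < κ →
    w ∈ B k ∨ w ∈ C.R (k - 1) ∨ w ∈ C.R k ∨ (w ∈ G ∧ dist w (m k) < e)
  tbn : ∀ k, ∀ y ∈ B k, ∀ w, dist w y < κ → ∀ j, j ≠ k - 1 → j ≠ k → w ∉ C.R j
  tbt : ∀ j k, j ≠ k → ∀ y ∈ B j, ∀ w ∈ B k, κ ≤ dist y w
  tbc : ∀ k, C.cone δ k ⊆ B k
  tbD : ∀ k, ∀ y ∈ B k, ∀ z ∈ closure D, κ ≤ dist y z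
  /-- the tentacle `k` only comes near `G` close to its mark -/
  tg : ∀ k, ∀ y ∈ B k, ∀ z ∈ G, dist y z < κ → dist z (m k) < e
  /-- inside `D` the regions are near the boundary -/
  inD : ∀ z ∈ D, z ∈ C.out → Metric.infDist z (frontier D) < e
  /-- every point of `K` is joined to the four tentacles -/
  lk : ∀ z ∈ K, ∃ P : Set ℂ, IsPreconnected P ∧ z ∈ P ∧ P ⊆ Metric.closedBall C.c (3 / 4 * C.L) ∧
    (∀ k, C.c + ((3 / 4 * C.L : ℝ) : ℂ) * C.q k ∈ P) ∧ ∀ y ∈ P, Disjoint (Metric.ball y κ) C.out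
  /-- a point of `K` near the mark `k` is joined to the tentacle `k` near the mark -/
  lkm : ∀ k, ∀ s > 0, ∀ z ∈ K, dist z (m k) < md s → ∃ P : Set ℂ, IsPreconnected P ∧ z ∈ P ∧
    P ⊆ (G ∩ Metric.ball (m k) (s + e)) ∪ B k ∧ P ⊆ Metric.closedBall C.c (3 / 4 * C.L) ∧
    C.c + ((3 / 4 * C.L : ℝ) : ℂ) * C.q k ∈ P ∧ ∀ y ∈ P, Disjoint (Metric.ball y κ) C.out

/-- orientation: relabelling of the arcs -/
def rvA (rv : Bool) (A : ZMod 4 → Set ℂ) : ZMod 4 → Set ℂ := fun i => if rv then A (1 - i) else A i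

/-- orientation: relabelling of the marks -/
def rvm (rv : Bool) (m : ZMod 4 → ℂ) : ZMod 4 → ℂ := fun i => if rv then m (2 - i) else m i

/-- orientation: relabelling of the swallowed arcs -/
def rvT (rv : Bool) (T : Set (ZMod 4)) : Set (ZMod 4) := {i | (if rv then 1 - i else i) ∈ T}

/-- **GEO** (output of CARA, POLY, TENT, SWL, LINK): macroscopic configurations for the arcs `A` of
the Jordan curve `g` -/
def GEO : Prop := ∀ (g : ℝ → ℂ) (f : ℂ → ℂ), Crest.Agent.R158.Jt785.Unif g f →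
  ∀ (D : Set ℂ) (A : ZMod 4 → Set ℂ) (m : ZMod 4 → ℂ),
  D = Crest.ProbabilityR.Percolation.jordanInterior g →
  (∀ i : ZMod 4, A i = Crest.Agent.R158.Sp896.arc g ((i.val : ℝ) / 4) (((i.val : ℝ) + 1) / 4)) →
  (∀ i : ZMod 4, m i = g ((i.val : ℝ) / 4)) →
  ∃ md : ℝ → ℝ, (∀ s > 0, 0 < md s) ∧ ∀ (T : Set (ZMod 4)), T = {0, 2} ∨ T = {1, 3} →
    ∀ (e : ℝ), 0 < e → ∀ K : Set ℂ, IsCompact K → K ⊆ D →
    ∃ (rv : Bool) (C : Cfg 4) (δ κ : ℝ) (G : Set ℂ) (B : ZMod 4 → Set ℂ),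
      Mac D (rvA rv A) (rvm rv m) (rvT rv T) md e K C δ κ G B

/-- **CARA** -/
def CARA : Prop := ∀ (S : Dat) (b : ℂ), b ∈ frontier S.D → b ≠ S.d → S.φ b = S.x →
  ∃ (g : ℝ → ℂ) (f : ℂ → ℂ), Crest.Agent.R158.Jt785.Unif g f ∧
    Crest.ProbabilityR.Percolation.jordanInterior g = S.D ∧
    g (1 / 4) = b ∧ g (3 / 4) = S.d ∧
    Crest.Agent.R158.Sp896.arc g 0 (1 / 4) = S.A1 ∧
    Crest.Agent.R158.Sp896.arc g (1 / 4) (1 / 2) =
      {z | z ∈ frontier S.D ∧ z ≠ S.d ∧ (S.φ z).im = 0 ∧ S.x ≤ (S.φ z).re ∧ (S.φ z).re ≤ 1} ∧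
    Crest.Agent.R158.Sp896.arc g (1 / 2) (3 / 4) = S.A2 ∧
    Crest.Agent.R158.Sp896.arc g (3 / 4) 1 =
      {z | z ∈ frontier S.D ∧ z ≠ S.d ∧ (S.φ z).im = 0 ∧ (S.φ z).re ≤ 0} ∪ {S.d}

end Crest.Agent.R143.Cfgx416
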