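import Crest.Agent.R143.DomA_722

/-!
# Row 143 (S0194), SPINE: admissible domains, weak form (helper422)

* `Dom.W D δ` : the part of `Dom.OK` which the networks of the reference domains and of the
  quadrilaterals (416: `Cfg 4`, whose `Dom` is not `OK`) have in common
* `Dom.OK.w : D.OK δ → D.W δ`
* `d1_S`, `d1` : D1 of 722 for `Dom.W` (his proof)
-/

set_option autoImplicit false

noncomputable section

open scoped Classical

namespace Crest.Agent.R143.B0Dx346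

open Crest.ProbabilityR.Voronoi
open Crest.Agent.R143.B0x346

/-- weakly admissible domain data -/
structure Dom.W (D : Dom) (δ : ℝ) : Prop where
  Lpos : 0 < D.L
  dpos : 0 < δ
  lt : δ < D.L
  opn : ∀ i, IsOpen (D.R i)
  qn : ∀ k, ‖D.q k‖ = 1
  far : ∀ i j, i ≠ j → ∀ z ∈ D.R i, ∀ w ∈ D.R j, δ ≤ ‖z - w‖
  /-- the cones are free -/
  tent : ∀ z : ℂ, D.L / 2 < ‖z - D.c‖ → (∃ k : ZMod 3, ∃ t : ℝ, 0 ≤ t ∧
    ‖z - (D.c + t * D.q k)‖ ≤ δ / D.L * ‖z - D.c‖) → ∀ i, z ∉ D.R i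
  sep : ∀ i j, i ≠ j → 2 * (δ / D.L) ≤ ‖D.q i - D.q j‖
  ccw : 0 < cr (D.q 1 - D.q 0) (D.q 2 - D.q 0)

theorem Dom.W.eta_pos {D : Dom} {δ : ℝ} (hD : D.W δ) : 0 < δ / D.L := div_pos hD.dpos hD.Lpos

theorem Dom.W.eta_lt {D : Dom} {δ : ℝ} (hD : D.W δ) : δ / D.L < 1 := by
  rw [div_lt_one hD.Lpos]; exact hD.lt



/-- **every admissible domain is weakly admissible** -/
theorem Dom.OK.w {D : Dom} {δ : ℝ} (hD : D.OK δ) : D.W δ where
  Lpos := hD.Lpos
  dpos := hD.dpos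
  lt := DomAx722.lt_L hD
  opn := hD.opn
  qn := hD.qn
  far := hD.far
  tent z hz h := (hD.tent z hz).2 h
  sep _ _ hij := DomAx722.q_sep hD hij
  ccw := DomAx722.q_ccw hD

end Crest.Agent.R143.B0Dx346

namespace Crest.Agent.R143.Adx422

open Crest.ProbabilityR.Voronoi MeasureTheory
open Crest.Agent.R143.B0x346 Crest.Agent.R143.B0Dx346 Crest.Agent.R143.DelGx806
open Crest.Agent.R143.DelRx806 Crest.Agent.R143.DomAx722

variable {S : Finset ℂ}

theorem q_cr {D : Dom} {δ : ℝ} (hD : D.W δ) :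
    (δ / D.L) ^ 3 / 2 ≤ cr (D.q 1 - D.q 0) (D.q 2 - D.q 0) := by
  have hL := hD.Lpos
  have hd := hD.dpos
  have h0 := hD.ccw
  have hη := hD.eta_pos
  have h1 := hD.sep 1 0 (by decide)
  have h2 := hD.sep 2 0 (by decide)
  have h3 := hD.sep 2 1 (by decide)
  have h4 := cr_units (hD.qn 0) (hD.qn 1) (hD.qn 2)
  have h5 : 2 * cr (D.q 1 - D.q 0) (D.q 2 - D.q 0) =
      ‖D.q 1 - D.q 0‖ * ‖D.q 2 - D.q 0‖ * ‖D.q 2 - D.q 1‖ := by
    rw [sq_eq_sq₀ (by linarith) (by positivity)] at h4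
    exact h4
  have h6 : (δ / D.L) ^ 3 ≤ ‖D.q 1 - D.q 0‖ * ‖D.q 2 - D.q 0‖ * ‖D.q 2 - D.q 1‖ := by
    have hx : 0 ≤ δ / D.L := by positivity
    calc (δ / D.L) ^ 3 = δ / D.L * (δ / D.L) * (δ / D.L) := by ring
      _ ≤ _ := by gcongr <;> linarith
  linarith

/-- **D1 for a finite set of sites** -/
theorem d1_S {D : Dom} {δ d : ℝ} (hD : D.W δ) (hS : Dns S D.c D.L d)
    (hd : 40000 * D.L ^ 5 * d ≤ δ ^ 6) : HNet S (D.netS S) := by
  have hδ := hD.lt.le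
  have hL := hD.Lpos
  have hδ0 := hD.dpos
  have hdp := hS.dpos
  have hm : ∀ k, crossRay S D.c (D.q k) ((D.netS S).ex k) := fun k => by
    rw [netS_ex hS.gp]
    exact rayMark_spec (crossRay_exists hS (hD.qn k))
  refine ⟨hS.gp, netS_T hS.gp, fun k => (hm k).1, fun k h => ?_, ?_⟩
  · rw [netS_kl hS.gp] at h
    exact h.2.1 k (netS_ex hS.gp k).symm
  · -- margin
    set E : ℝ := Real.sqrt (D.L * d) with hE
    have hE0 : 0 ≤ E := Real.sqrt_nonneg _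
    have hE2 : E ^ 2 = D.L * d := Real.sq_sqrt (by positivity)
    have hn := fun k => crossRay_near hS (hD.qn k) (hm k)
    rw [← hE] at hn
    set e : ZMod 3 → ℂ := fun k => mid ((D.netS S).ex k) - (D.c + D.L * D.q k) with he
    have hek : ∀ k, mid ((D.netS S).ex k) = D.c + D.L * D.q k + e k := fun k => by
      rw [he]; ring
    have hne : ∀ k, ‖e k‖ ≤ 4 * E := fun k => hn k
    rw [hek 0, hek 1, hek 2]
    have r1 : D.c + D.L * D.q 1 + e 1 - (D.c + D.L * D.q 0 + e 0) =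
        (D.L : ℂ) * (D.q 1 - D.q 0) + (e 1 - e 0) := by ring
    have r2 : D.c + D.L * D.q 2 + e 2 - (D.c + D.L * D.q 0 + e 0) =
        (D.L : ℂ) * (D.q 2 - D.q 0) + (e 2 - e 0) := by ring
    rw [r1, r2, cr_add_left, cr_add_right, cr_add_right, cr_smul_left, cr_smul_right,
      cr_smul_left, cr_smul_right]
    have b1 : ‖e 1 - e 0‖ ≤ 8 * E := by
      have := norm_sub_le (e 1) (e 0)
      linarith [hne 1, hne 0]
    have b2 : ‖e 2 - e 0‖ ≤ 8 * E := by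
      have := norm_sub_le (e 2) (e 0)
      linarith [hne 2, hne 0]
    have c1 : ‖D.q 1 - D.q 0‖ ≤ 2 := by
      have := norm_sub_le (D.q 1) (D.q 0)
      linarith [hD.qn 1, hD.qn 0]
    have c2 : ‖D.q 2 - D.q 0‖ ≤ 2 := by
      have := norm_sub_le (D.q 2) (D.q 0)
      linarith [hD.qn 2, hD.qn 0]
    have k1 := neg_abs_le (cr (D.q 1 - D.q 0) (e 2 - e 0))
    have k2 := neg_abs_le (cr (e 1 - e 0) (D.q 2 - D.q 0))
    have k3 := neg_abs_le (cr (e 1 - e 0) (e 2 - e 0))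
    have l1 : |cr (D.q 1 - D.q 0) (e 2 - e 0)| ≤ 2 * (8 * E) :=
      (abs_cr_le _ _).trans (by gcongr)
    have l2 : |cr (e 1 - e 0) (D.q 2 - D.q 0)| ≤ 8 * E * 2 :=
      (abs_cr_le _ _).trans (by gcongr)
    have l3 : |cr (e 1 - e 0) (e 2 - e 0)| ≤ 8 * E * (8 * E) :=
      (abs_cr_le _ _).trans (by gcongr)
    have hq := q_cr hD
    have hEL : E ≤ D.L := by
      have h8 := small_d hL hδ0 hδ hd
      have : E ^ 2 ≤ D.L ^ 2 := by rw [hE2]; nlinarith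
      exact le_of_sq_le_sq this hL.le
    -- `200 L² E ≤ δ³`
    have hEd : 200 * D.L ^ 2 * E ≤ δ ^ 3 := by
      have h9 : (200 * D.L ^ 2 * E) ^ 2 ≤ (δ ^ 3) ^ 2 := by
        calc (200 * D.L ^ 2 * E) ^ 2 = 40000 * D.L ^ 4 * E ^ 2 := by ring
          _ = 40000 * D.L ^ 5 * d := by rw [hE2]; ring
          _ ≤ δ ^ 6 := hd
          _ = (δ ^ 3) ^ 2 := by ring
      exact le_of_sq_le_sq h9 (by positivity)
    have h10 : D.L * (D.L * ((δ / D.L) ^ 3 / 2)) ≤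
        D.L * (D.L * cr (D.q 1 - D.q 0) (D.q 2 - D.q 0)) := by gcongr
    have h11 : D.L * (D.L * ((δ / D.L) ^ 3 / 2)) = δ ^ 3 / (2 * D.L) := by
      field_simp
    have h12 : 100 * D.L * E ≤ δ ^ 3 / (2 * D.L) := by
      rw [le_div_iff₀ (by positivity)]
      nlinarith
    have hEp : 0 < E := Real.sqrt_pos.2 (by positivity)
    have h13 : 8 * E * (8 * E) ≤ 64 * D.L * E := by nlinarith
    have h14 : D.L * -(2 * (8 * E)) ≤ D.L * cr (D.q 1 - D.q 0) (e 2 - e 0) :=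
      mul_le_mul_of_nonneg_left (by linarith) hL.le
    have h15 : D.L * -(8 * E * 2) ≤ D.L * cr (e 1 - e 0) (D.q 2 - D.q 0) :=
      mul_le_mul_of_nonneg_left (by linarith) hL.le
    have h16 : 0 < D.L * E := by positivity
    nlinarith

/-- **D1** -/
theorem d1 {D : Dom} {δ ε d M : ℝ} {ω : Sample} (hD : D.W δ)
    (hE : Env ε d M D.c D.L ω) (hd : 40000 * D.L ^ 5 * d ≤ δ ^ 6) :
    HNet (D.sites ε ω) (D.netS (D.sites ε ω)) :=
  d1_S hD (dns_of_env hD.Lpos (small_d hD.Lpos hD.dpos hD.lt.le hd) hE) hd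


end Crest.Agent.R143.Adx422
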