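import Crest.Agent.R143.DefsN_346

/-!
# Row 143 (S0194), CORE-C, item (4) of note 3019: the end algebra (helper133)

Notation of `DefsN_346` : `a = T` (small field), `b = T'` (big field), `D k` = mean displacement of
the root block of type `k`, `om ^ (2 k) a = E V (γ_k)`, `om ^ k b = E V' (γ_k)`,
`V' - V = - 2 hi D` (`2 hi = i √3`), i.e. `2 hi * D k = omz k ^ 2 * a - omz k * b`.

* `alt` : `‖omz k ^ 2 * a - κ * D k‖ ≤ η` for the three `k` gives `‖(2 hi - κ) a‖ ≤ √3 η` and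
  `‖κ b‖ ≤ √3 η`;
* `a_eq`, `b_eq` : if `D k = m (k + 2) - m (k + 1)` (`m j` = mean end point on the arc `j`) then
  `a = - Σ omz j * m j` and `b = - Σ omz j ^ 2 * m j`;
* `b_lower` : convexity (660): `m 0`, `m 1`, `m 2` in the hulls of the bottom side, the right side and
  the two other sides of a square (counterclockwise) : `‖Σ omz j ^ 2 * m j‖ ≥ side / 4`;
* `kill` : hence `‖a_U‖ ≤ 2 η` for every other domain with the same `κ`.
-/

set_option autoImplicit false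

noncomputable section

namespace Crest.Agent.R143.Alg4x133

open Crest.Agent.R143.B0x346 Crest.Agent.R143.DefsNx346 Finset

theorem hi_sq : (2 * hi) ^ 2 = -3 := by
  have h1 := om2_val
  rw [om_val] at h1
  linear_combination 4 * h1

theorem norm_hi : ‖2 * hi‖ = Real.sqrt 3 := by
  have h2 : ‖2 * hi‖ ^ 2 = 3 := by
    rw [← norm_pow, hi_sq]; simp
  rw [← h2, Real.sqrt_sq (norm_nonneg _)]

theorem sqrt3_lo : (1.7 : ℝ) ≤ Real.sqrt 3 := by
  apply Real.le_sqrt_of_sq_le; norm_num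


theorem omz0 : omz 0 = 1 := by unfold omz; simp
theorem omz1 : omz 1 = om := by
  unfold omz
  have : (1 : ZMod 3).val = 1 := rfl
  rw [this, pow_one]
theorem omz2 : omz 2 = om ^ 2 := by
  unfold omz
  have : (2 : ZMod 3).val = 2 := rfl
  rw [this]

theorem omz_cube (k : ZMod 3) : omz k ^ 3 = 1 := by
  unfold omz
  rw [← pow_mul, mul_comm, pow_mul, om3, one_pow]

theorem norm_om : ‖om‖ = 1 := by
  unfold om; exact Complex.norm_exp_ofReal_mul_I _

theorem norm_omz (k : ZMod 3) : ‖omz k‖ = 1 := by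
  unfold omz; rw [norm_pow, norm_om, one_pow]

theorem sum3 {A : Type} [AddCommMonoid A] (f : ZMod 3 → A) : ∑ k : ZMod 3, f k = f 0 + f 1 + f 2 := by
  exact Fin.sum_univ_three f

theorem sum_omz : ∑ k : ZMod 3, omz k = 0 := by
  rw [sum3, omz0, omz1, omz2, om2_val, om_val]; ring

theorem sum_omz2 : ∑ k : ZMod 3, omz k ^ 2 = 0 := by
  rw [sum3, omz0, omz1, omz2]
  have e : (om ^ 2) ^ 2 = om := by
    calc (om ^ 2) ^ 2 = om ^ 3 * om := by ring
      _ = om := by rw [om3, one_mul]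
  rw [e, om2_val, om_val]; ring

/-- Fourier inversion on `ZMod 3` with bounds -/
theorem fourier {p q : ℂ} {η : ℝ} (h : ∀ k : ZMod 3, ‖omz k ^ 2 * p + omz k * q‖ ≤ η) :
    ‖p‖ ≤ η ∧ ‖q‖ ≤ η := by
  have key : ∀ (f : ZMod 3 → ℂ) (g : ZMod 3 → ℂ) (x : ℂ), (∀ k, ‖f k‖ ≤ η) → (∀ k, ‖g k‖ = 1) →
      ∑ k, g k * f k = 3 * x → ‖x‖ ≤ η := by
    intro f g x hf hg hx
    have h1 : ‖∑ k, g k * f k‖ ≤ ∑ k : ZMod 3, η :=
      (norm_sum_le _ _).trans (Finset.sum_le_sum fun k _ => by rw [norm_mul, hg, one_mul]; exact hf k)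
    rw [hx, norm_mul] at h1
    simp only [Finset.sum_const, Finset.card_univ, ZMod.card, nsmul_eq_mul] at h1
    have h3 : ‖(3 : ℂ)‖ = 3 := by simp
    rw [h3] at h1
    push_cast at h1
    linarith
  refine ⟨key _ omz p h norm_omz ?_, key _ (fun k => omz k ^ 2) q h
    (fun k => by rw [norm_pow, norm_omz, one_pow]) ?_⟩
  · have e : ∀ k : ZMod 3, omz k * (omz k ^ 2 * p + omz k * q) = p + omz k ^ 2 * q := by
      intro k
      linear_combination p * omz_cube k
    rw [Finset.sum_congr rfl fun k _ => e k, Finset.sum_add_distrib, ← Finset.sum_mul, sum_omz2]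
    simp
  · have e : ∀ k : ZMod 3, omz k ^ 2 * (omz k ^ 2 * p + omz k * q) = omz k * p + q := by
      intro k
      linear_combination (omz k * p + q) * omz_cube k
    rw [Finset.sum_congr rfl fun k _ => e k, Finset.sum_add_distrib, ← Finset.sum_mul, sum_omz]
    simp

/-- relation between the amplitudes `a`, `b` and the displacements -/
def Rl (a b : ℂ) (D : ZMod 3 → ℂ) : Prop := ∀ k : ZMod 3, 2 * hi * D k = omz k ^ 2 * a - omz k * b

/-- the dichotomy -/
theorem alt {a b κ : ℂ} {D : ZMod 3 → ℂ} {η : ℝ} (hD : Rl a b D)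
    (h : ∀ k : ZMod 3, ‖omz k ^ 2 * a - κ * D k‖ ≤ η) :
    ‖(2 * hi - κ) * a‖ ≤ Real.sqrt 3 * η ∧ ‖κ * b‖ ≤ Real.sqrt 3 * η := by
  refine fourier fun k => ?_
  have e : omz k ^ 2 * ((2 * hi - κ) * a) + omz k * (κ * b) =
      2 * hi * (omz k ^ 2 * a - κ * D k) := by
    linear_combination κ * hD k
  rw [e, norm_mul, norm_hi]
  exact mul_le_mul_of_nonneg_left (h k) (Real.sqrt_nonneg 3)

theorem hi2 : hi ^ 2 = -(3 / 4) := by
  have := hi_sq
  linear_combination this / 4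




/-- conversely the mean end points define the amplitudes -/
theorem rl_of {D m : ZMod 3 → ℂ} (hm : ∀ k, D k = m (k + 2) - m (k + 1)) :
    Rl (-∑ j, omz j * m j) (-∑ j, omz j ^ 2 * m j) D := by
  have e5 : (om ^ 2) ^ 2 = om := by
    calc (om ^ 2) ^ 2 = om ^ 3 * om := by ring
      _ = om := by rw [om3, one_mul]
  have e1 : (1 : ZMod 3) + 2 = 0 := rfl
  have e2 : (1 : ZMod 3) + 1 = 2 := rfl
  have e3 : (2 : ZMod 3) + 2 = 1 := rfl
  have e4 : (2 : ZMod 3) + 1 = 0 := rfl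
  intro k
  rw [hm, sum3, sum3, omz0, omz1, omz2, e5]
  have hk : k = 0 ∨ k = 1 ∨ k = 2 := by
    revert k; decide
  rcases hk with rfl | rfl | rfl
  · rw [zero_add, zero_add, omz0, om2_val, om_val]; ring
  · rw [e1, e2, omz1, om2_val, om_val]
    ring
  · rw [e3, e4, omz2, e5, om2_val, om_val]
    ring

/-! ### convexity -/













/-! ### conclusion -/


/-- the dichotomy for one domain -/
theorem dich {a b κ : ℂ} {D : ZMod 3 → ℂ} {η : ℝ} (hD : Rl a b D)
    (h : ∀ k : ZMod 3, ‖omz k ^ 2 * a - κ * D k‖ ≤ η) :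
    (Real.sqrt 3 / 2 ≤ ‖2 * hi - κ‖ → ‖a‖ ≤ 2 * η) ∧ (Real.sqrt 3 / 2 ≤ ‖κ‖ → ‖b‖ ≤ 2 * η) ∧
      (Real.sqrt 3 / 2 ≤ ‖2 * hi - κ‖ ∨ Real.sqrt 3 / 2 ≤ ‖κ‖) := by
  obtain ⟨h1, h2⟩ := alt hD h
  have hs3 := sqrt3_lo
  rw [norm_mul] at h1 h2
  refine ⟨fun h5 => ?_, fun h5 => ?_, ?_⟩
  · have h6 := (mul_le_mul_of_nonneg_right h5 (norm_nonneg a)).trans h1
    nlinarith
  · have h6 := (mul_le_mul_of_nonneg_right h5 (norm_nonneg b)).trans h2
    nlinarith
  · by_contra hcon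
    push Not at hcon
    have := norm_add_le (2 * hi - κ) κ
    rw [sub_add_cancel, norm_hi] at this
    linarith [hcon.1, hcon.2]

end Crest.Agent.R143.Alg4x133
end
namespace Crest.Agent.R143.Alg4x133.Rl
end Crest.Agent.R143.Alg4x133.Rl
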