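import Crest.Agent.R143.ES_831
import Crest.Agent.R143.Law_831

-- ▼ part R143/Rev_831
section

/-!
# R143 (helper831, BC8): the level-one revealment inequality for stopping sets

`J : configurations → sets of coordinates` is a stopping set for `f` if configurations that agree
on `J x` have the same `J` and the same `f`. No decision tree is needed:
`∑_{i ∈ F} (E f s_i)^2 ≤ max_{i ∈ F} P(i ∈ J) * E f^2` for centred `s_i(x_i)`, `|s_i| ≤ 1`.
-/

set_option autoImplicit false
set_option linter.unusedSectionVars false

open MeasureTheory ProbabilityTheory Filter Topology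
open scoped ENNReal

namespace Crest.Agent.R143.Revx831

open Crest.Agent.R143.ESx831

variable {I : Type*} [DecidableEq I] {X : I → Type*} [∀ i, MeasurableSpace (X i)]
  (μ : ∀ i, Measure (X i)) [∀ i, IsProbabilityMeasure (μ i)]


section stopping

variable {J : (∀ i, X i) → Set I}



open Classical in
/-- indicator of a set of configurations -/
noncomputable def ind (A : Set (∀ i, X i)) (x : ∀ i, X i) : ℝ := if x ∈ A then 1 else 0







end stopping

end Crest.Agent.R143.Revx831
end

-- ▼ part R143/Var_831
section

/-!
# R143 (helper831, BC8): quenched variance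

Colours: `c : I → [0,1]`, black = mark `< 1/2`. `half` is the centred colour.
* `int_split` : average over one colour
* `telescope` : all black minus all white on a finite set `T` is at most
  `2^|T| ∑_{i ∈ T} E φ half_i`
-/

set_option autoImplicit false
set_option linter.unusedSectionVars false

noncomputable section

namespace Crest.Agent.R143.Varx831

open MeasureTheory Set Function
open Crest.ProbabilityR.Voronoi
open Crest.Agent.R143.ESx831 Crest.Agent.R143.Revx831 Crest.Agent.R143.Lawx831
open scoped ENNReal

open Classical in
/-- centred colour: `1` = black -/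
def half (t : unitInterval) : ℝ := if (t : ℝ) < 1 / 2 then 1 else -1


lemma measurableSet_black : MeasurableSet {t : unitInterval | (t : ℝ) < 1 / 2} :=
  measurableSet_lt measurable_subtype_coe measurable_const



lemma volume_black : (volume : Measure unitInterval).real {t : unitInterval | (t : ℝ) < 1 / 2} =
    1 / 2 := by
  have h : {t : unitInterval | (t : ℝ) < 1 / 2} =
      Set.Iio (⟨1 / 2, by norm_num, by norm_num⟩ : unitInterval) := by
    ext t
    simp only [Set.mem_ofPred_eq, Set.mem_Iio, ← Subtype.coe_lt_coe]
  rw [h, Measure.real, unitInterval.volume_Iio]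
  simp


variable {I : Type*} [DecidableEq I]

/-- the law of the colours -/
def cl (I : Type*) : Measure (I → unitInterval) :=
  Measure.infinitePi fun _ : I => (volume : Measure unitInterval)

instance : IsProbabilityMeasure (cl I) := by unfold cl; infer_instance

/-- `φ` sees the mark `i` only through its colour -/
def ColDep (φ : (I → unitInterval) → ℝ) (i : I) : Prop :=
  ∀ (c : I → unitInterval) (t t' : unitInterval), ((t : ℝ) < 1 / 2 ↔ (t' : ℝ) < 1 / 2) →
    φ (update c i t) = φ (update c i t')


variable {φ : (I → unitInterval) → ℝ} {C : ℝ}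



/-- set the colours in `T` to `v` -/
def setc (T : Finset I) (v : unitInterval) (c : I → unitInterval) : I → unitInterval :=
  T.piecewise (fun _ => v) c







end Crest.Agent.R143.Varx831
end
end

-- ▼ part R143/Var2_831

/-!
# R143 (helper831, M1c): quenched variance of a monotone functional of the black region

`Quen F` : `F : Sample → ℝ` measurable, values in `[0,1]`, sees only the colours (not the marks),
is monotone in every colour, and deletion of a block is sandwiched between all white / all black.
`q F p` : quenched expectation given the positions `p`.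
Main result `dvar_q_le`.
-/

set_option autoImplicit false
set_option linter.unusedSectionVars false

noncomputable section

namespace Crest.Agent.R143.Var2x831

open MeasureTheory Set Function
open Crest.ProbabilityR.Voronoi
open Crest.Agent.R151.V
open Crest.Agent.R143.ESx831 Crest.Agent.R143.Revx831 Crest.Agent.R143.Lawx831
open Crest.Agent.R143.Varx831
open scoped ENNReal

local notation "smk" => Crest.Agent.R143.Lawx831.mk

/-- the present indices of block `k` -/
def Tk (p : Pos) (k : ℤ × ℤ) : Finset ((ℤ × ℤ) × ℕ) :=
  (Finset.range (p k).1).map ⟨fun j => (k, j), fun _ _ h => (Prod.ext_iff.1 h).2⟩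



/-- delete the points of block `k` -/
def del (k : ℤ × ℤ) (p : Pos) : Pos := update p k (0, fun _ => 0)



/-- monotone functionals of the black region -/
structure Quen (F : Sample → ℝ) : Prop where
  meas : Measurable F
  nonneg : ∀ ω, 0 ≤ F ω
  le_one : ∀ ω, F ω ≤ 1
  col : ∀ p i, ColDep (fun c => F (smk p c)) i
  mono : ∀ p i c, F (smk p (update c i 1)) ≤ F (smk p (update c i 0))
  lo : ∀ p k c, F (smk p (setc (Tk p k) 1 c)) ≤ F (smk (del k p) c)
  hi : ∀ p k c, F (smk (del k p) c) ≤ F (smk p (setc (Tk p k) 0 c))

variable {F : Sample → ℝ}

/-- quenched expectation -/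
def q (F : Sample → ℝ) (p : Pos) : ℝ := ∫ c, F (smk p c) ∂colLaw

lemma Quen.abs_le (h : Quen F) (ω : Sample) : |F ω| ≤ 1 := by
  rw [abs_of_nonneg (h.nonneg ω)]; exact h.le_one ω




lemma q_nonneg (h : Quen F) (p : Pos) : 0 ≤ q F p := integral_nonneg fun _ => h.nonneg _








/-- a finite family of stopping sets for the colours at the positions `p`, with revealment at most
`δ` for one of them at every index of `T` -/
structure Algs (F : Sample → ℝ) (p : Pos) (nA : ℕ) (δ : ℝ) (T : Set ((ℤ × ℤ) × ℕ))
    (J : Fin nA → Col → Set ((ℤ × ℤ) × ℕ)) : Prop where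
  meas : ∀ a i, MeasurableSet {c | i ∈ J a c}
  stop : ∀ a, ∀ x y : Col, (∀ i ∈ J a x, x i = y i) → J a y = J a x
  det : ∀ a, ∀ x y : Col, (∀ i ∈ J a x, x i = y i) → F (smk p y) = F (smk p x)
  rev : ∀ i ∈ T, ∃ a, colLaw.real {c | i ∈ J a c} ≤ δ




/-- the present indices in the blocks `K` -/
def TK (p : Pos) (K : Finset (ℤ × ℤ)) : Finset ((ℤ × ℤ) × ℕ) := K.biUnion (Tk p)




end Crest.Agent.R143.Var2x831
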