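import Crest.Agent.R143.Y0_831
import Crest.Agent.R143.Var2_831

-- ▼ part R143/Y5a_315
section

/-!
# R143, block Y5 (helper315), part a: finite colourings and white clusters

* `wht V0 ix c` : the elements of `V0` whose colour `c (ix v)` is white
* `real_wht` : its law is uniform on the subsets of `V0` (`ix` injective on `V0`)
* `real_wht_eq`, `real_wht_glue_le` : the colours of `a` and `b` identified
* `Cl_congr`, `Tch_congr` : the explored cluster is a stopping set
-/

set_option autoImplicit false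

noncomputable section

open scoped Classical

namespace Crest.Agent.R143.Y5ax315

open MeasureTheory Set Function
open Crest.Agent.R143.B0x346 Crest.Agent.R143.Y0x831 Crest.Agent.R143.Varx831

section fin

variable {I V : Type*}

/-- the white elements of `V0` -/
def wht (V0 : Finset V) (ix : V → I) (c : I → unitInterval) : Finset V :=
  V0.filter fun v => ¬ ((c (ix v) : unitInterval) : ℝ) < 1 / 2

lemma mem_wht {V0 : Finset V} {ix : V → I} {c : I → unitInterval} {v : V} :
    v ∈ wht V0 ix c ↔ v ∈ V0 ∧ ¬ ((c (ix v) : unitInterval) : ℝ) < 1 / 2 := by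
  unfold wht; simp

lemma wht_subset (V0 : Finset V) (ix : V → I) (c : I → unitInterval) : wht V0 ix c ⊆ V0 :=
  Finset.filter_subset _ _

/-- the cylinder of a colouring -/
def cyl (ix : V → I) (β : Finset V) (i : I) : Set unitInterval :=
  {x | (x : ℝ) < 1 / 2 ↔ ¬ ∃ v ∈ β, ix v = i}

lemma measurableSet_cyl (ix : V → I) (β : Finset V) (i : I) : MeasurableSet (cyl ix β i) := by
  unfold cyl
  by_cases h : ∃ v ∈ β, ix v = i
  · simp only [h, not_true_eq_false, iff_false]
    exact measurableSet_black.compl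
  · simp only [h, not_false_eq_true, iff_true]
    exact measurableSet_black

lemma volume_cyl (ix : V → I) (β : Finset V) (i : I) :
    (volume : Measure unitInterval) (cyl ix β i) = ENNReal.ofReal (1 / 2) := by
  unfold cyl
  have hb : (volume : Measure unitInterval) {t : unitInterval | (t : ℝ) < 1 / 2} =
      ENNReal.ofReal (1 / 2) := by
    have h := volume_black
    rw [Measure.real] at h
    exact (ENNReal.ofReal_toReal (measure_ne_top _ _)).symm.trans (by rw [h])
  by_cases h : ∃ v ∈ β, ix v = i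
  · simp only [h, not_true_eq_false, iff_false]
    have h1 : {x : unitInterval | ¬ (x : ℝ) < 1 / 2} = {x : unitInterval | (x : ℝ) < 1 / 2}ᶜ := rfl
    rw [h1, prob_compl_eq_one_sub measurableSet_black, hb, ← ENNReal.ofReal_one,
      ← ENNReal.ofReal_sub _ (by norm_num)]
    norm_num
  · simp only [h, not_false_eq_true, iff_true]
    exact hb

lemma wht_eq_iff {V0 : Finset V} {ix : V → I} (hix : Set.InjOn ix V0) {β : Finset V}
    (hβ : β ⊆ V0) (c : I → unitInterval) :
    wht V0 ix c = β ↔ c ∈ Set.pi (V0.image ix : Finset I) (cyl ix β) := by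
  simp only [Set.mem_pi, Finset.coe_image, Set.mem_image, Finset.mem_coe, forall_exists_index,
    and_imp, forall_apply_eq_imp_iff₂]
  constructor
  · rintro rfl v hv
    unfold cyl
    simp only [Set.mem_ofPred_eq]
    constructor
    · rintro h1 ⟨u, hu, he⟩
      rw [mem_wht] at hu
      have : u = v := hix hu.1 hv he
      subst this
      exact hu.2 h1
    · intro h1
      by_contra h2
      exact h1 ⟨v, mem_wht.2 ⟨hv, h2⟩, rfl⟩
  · intro h
    ext v
    rw [mem_wht]
    constructor
    · rintro ⟨hv, h2⟩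
      by_contra h3
      have h4 := h v hv
      unfold cyl at h4
      simp only [Set.mem_ofPred_eq] at h4
      apply h2
      rw [h4]
      rintro ⟨u, hu, he⟩
      have : u = v := hix (hβ hu) hv he
      subst this
      exact h3 hu
    · intro hv
      refine ⟨hβ hv, ?_⟩
      have h4 := h v (hβ hv)
      unfold cyl at h4
      simp only [Set.mem_ofPred_eq] at h4
      rw [h4]
      exact fun h5 => h5 ⟨v, hv, rfl⟩

/-- measurability of the events that depend on the colours of `V0` -/
theorem meas_wht (V0 : Finset V) (ix : V → I) (P : Finset V → Prop) :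
    MeasurableSet {c : I → unitInterval | P (wht V0 ix c)} := by
  have h1 : {c : I → unitInterval | P (wht V0 ix c)} =
      ⋃ β ∈ V0.powerset.filter P, ⋂ v ∈ V0,
        {c : I → unitInterval | (¬ ((c (ix v) : unitInterval) : ℝ) < 1 / 2) ↔ v ∈ β} := by
    ext c
    simp only [Set.mem_ofPred_eq, Set.mem_iUnion, Finset.mem_filter, Finset.mem_powerset,
      Set.mem_iInter, exists_prop]
    constructor
    · intro h
      exact ⟨wht V0 ix c, ⟨wht_subset _ _ _, h⟩, fun v hv => by rw [mem_wht]; simp [hv]⟩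
    · rintro ⟨β, ⟨hβ, hP⟩, h⟩
      have : wht V0 ix c = β := by
        ext v
        rw [mem_wht]
        constructor
        · rintro ⟨hv, h2⟩; exact (h v hv).1 h2
        · intro hv; exact ⟨hβ hv, (h v (hβ hv)).2 hv⟩
      rw [this]; exact hP
  rw [h1]
  refine Finset.measurableSet_biUnion _ fun β _ => Finset.measurableSet_biInter _ fun v _ => ?_
  have hp : Measurable (fun c : I → unitInterval => c (ix v)) := measurable_pi_apply (ix v)
  have hm : MeasurableSet {c : I → unitInterval | ((c (ix v) : unitInterval) : ℝ) < 1 / 2} :=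
    hp measurableSet_black
  by_cases hv : v ∈ β
  · simp only [hv, iff_true]
    exact hm.compl
  · simp only [hv, iff_false, not_not]
    exact hm

lemma measure_wht_eq {V0 : Finset V} {ix : V → I} (hix : Set.InjOn ix V0) {β : Finset V}
    (hβ : β ⊆ V0) :
    (cl I) {c | wht V0 ix c = β} = ENNReal.ofReal ((1 / 2) ^ V0.card) := by
  have h1 : {c : I → unitInterval | wht V0 ix c = β} =
      Set.pi (V0.image ix : Finset I) (cyl ix β) := by
    ext c
    exact wht_eq_iff hix hβ c
  rw [h1]
  unfold cl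
  rw [Measure.infinitePi_pi _ (fun i _ => measurableSet_cyl ix β i),
    Finset.prod_congr rfl (fun i _ => volume_cyl ix β i), Finset.prod_const,
    Finset.card_image_of_injOn hix, ENNReal.ofReal_pow (by norm_num)]

/-- **the colours of `V0` are uniform** -/
theorem real_wht {V0 : Finset V} {ix : V → I} (hix : Set.InjOn ix V0) (P : Finset V → Prop) :
    (cl I).real {c | P (wht V0 ix c)} = ((V0.powerset.filter P).card : ℝ) / 2 ^ V0.card := by
  have h1 : {c : I → unitInterval | P (wht V0 ix c)} =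
      ⋃ β ∈ V0.powerset.filter P, {c : I → unitInterval | wht V0 ix c = β} := by
    ext c
    simp only [Set.mem_ofPred_eq, Set.mem_iUnion, Finset.mem_filter, Finset.mem_powerset,
      exists_prop]
    constructor
    · intro h
      exact ⟨wht V0 ix c, ⟨wht_subset _ _ _, h⟩, rfl⟩
    · rintro ⟨β, ⟨_, hP⟩, h⟩
      rw [h]; exact hP
  rw [h1, measureReal_biUnion_finset]
  · have h2 : ∀ β ∈ V0.powerset.filter P,
        (cl I).real {c : I → unitInterval | wht V0 ix c = β} = (1 / 2) ^ V0.card := by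
      intro β hβ
      rw [Measure.real, measure_wht_eq hix (Finset.mem_powerset.1 (Finset.mem_filter.1 hβ).1),
        ENNReal.toReal_ofReal (by positivity)]
    rw [Finset.sum_congr rfl h2, Finset.sum_const, nsmul_eq_mul]
    rw [one_div, inv_pow]
    rfl
  · intro β _ β' _ hne
    rw [Function.onFun, Set.disjoint_left]
    intro c hc hc'
    exact hne (hc.symm.trans hc')
  · intro β _
    exact meas_wht V0 ix (fun γ => γ = β)

/-! ### two identified colours -/

/-- identify `b` with `a` -/
def glue (a b : V) : V → V := Function.update id b a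









end fin

/-! ### explored clusters -/

section cluster

variable {V : Type}




lemma Nb.symm {G : Trg V} {x y : V} (h : Nb G x y) : Nb G y x := by
  unfold Nb Trg.E at *
  simp only [Finset.mem_union, Finset.mem_image, Prod.mk.injEq] at *
  rcases h with ⟨t, ht, h1, h2⟩ | ⟨t, ht, h1, h2⟩
  · exact Or.inr ⟨t, ht, h2, h1⟩
  · exact Or.inl ⟨t, ht, h2, h1⟩


end cluster

end Crest.Agent.R143.Y5ax315
end
end

-- ▼ part R143/Har_315

/-!
# R143, block X (helper315): fair colourings of a finite set, Harris inequality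

A colouring of the finite set `V` is a subset `β ⊆ V` (the sites of one fixed colour).
* `nb V A` : number of colourings with `A`; `pr V A = nb V A / 2 ^ #V`
* `Up V A`, `Dn V A` : increasing / decreasing; `Dep V W A` : `A` only looks at `β ∩ W`
* `harris_up`, `harris_dn`, `harris_mix`, families `harris_prod_up`, `harris_prod_dn`, `sqrt_trick`
* `pr_flip` : exchange of the colours; `pr_sum` : fix the colours of `W`; `pr_dep` : marginal;
  `pr_indep`, `pr_indep_prod` : independence
* `cond_ge`, `cond_le` : bounds given the colours outside; `cond_harris` : Harris given the outside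
* `IsStop V J`, `stop_sum`, `stop_ge`, `stop_le` : strong Markov property for explored sets
* `real_eq_pr` : `pr` as a probability for the colours `cl I`
-/

set_option autoImplicit false

noncomputable section

open scoped Classical

namespace Crest.Agent.R143.Harx315

open Finset

variable {α : Type*}

/-- the colourings with `A` -/
def fl (V : Finset α) (A : Finset α → Prop) : Finset (Finset α) := V.powerset.filter A

/-- number of colourings -/
def nb (V : Finset α) (A : Finset α → Prop) : ℕ := (fl V A).card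

/-- probability -/
def pr (V : Finset α) (A : Finset α → Prop) : ℝ := (nb V A : ℝ) / 2 ^ V.card

/-- increasing -/
def Up (V : Finset α) (A : Finset α → Prop) : Prop := ∀ β β', β ⊆ β' → β' ⊆ V → A β → A β'

/-- decreasing -/
def Dn (V : Finset α) (A : Finset α → Prop) : Prop := ∀ β β', β ⊆ β' → β' ⊆ V → A β' → A β

/-- `A` only looks at the colours of `W` -/
def Dep (V W : Finset α) (A : Finset α → Prop) : Prop := ∀ β, β ⊆ V → (A β ↔ A (β ∩ W))

variable {V W : Finset α} {A B C : Finset α → Prop}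

lemma mem_fil {β : Finset α} : β ∈ fl V A ↔ β ⊆ V ∧ A β := by
  unfold fl; simp

lemma fl_or : fl V (fun β => A β ∨ B β) = fl V A ∪ fl V B := by
  ext β
  rw [mem_union, mem_fil, mem_fil, mem_fil]
  tauto

lemma fl_and : fl V (fun β => A β ∧ B β) = fl V A ∩ fl V B := by
  ext β
  rw [mem_inter, mem_fil, mem_fil, mem_fil]
  tauto

lemma nb_mono (h : ∀ β, β ⊆ V → A β → B β) : nb V A ≤ nb V B := by
  unfold nb
  apply card_le_card
  intro β hβ
  rw [mem_fil] at hβ ⊢
  exact ⟨hβ.1, h β hβ.1 hβ.2⟩

lemma nb_congr (h : ∀ β, β ⊆ V → (A β ↔ B β)) : nb V A = nb V B :=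
  le_antisymm (nb_mono fun β h1 h2 => (h β h1).1 h2) (nb_mono fun β h1 h2 => (h β h1).2 h2)

lemma nb_true : nb V (fun _ => True) = 2 ^ V.card := by
  unfold nb fl; simp

lemma nb_add_not (V : Finset α) (A : Finset α → Prop) : nb V A + nb V (fun β => ¬ A β) = 2 ^ V.card := by
  unfold nb fl
  rw [card_filter_add_card_filter_not, card_powerset]

lemma two_pos' (V : Finset α) : (0 : ℝ) < 2 ^ V.card := by positivity

lemma pr_nonneg : 0 ≤ pr V A := by unfold pr; positivity

lemma pr_mono (h : ∀ β, β ⊆ V → A β → B β) : pr V A ≤ pr V B := by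
  unfold pr
  have : (nb V A : ℝ) ≤ nb V B := by exact_mod_cast nb_mono h
  gcongr

lemma pr_congr (h : ∀ β, β ⊆ V → (A β ↔ B β)) : pr V A = pr V B := by
  unfold pr; rw [nb_congr h]

lemma pr_true (V : Finset α) : pr V (fun _ => True) = 1 := by
  unfold pr
  rw [nb_true]
  push_cast
  exact div_self (two_pos' V).ne'

lemma pr_le_one : pr V A ≤ 1 := by
  rw [← pr_true V]
  exact pr_mono fun _ _ _ => trivial

lemma pr_false (V : Finset α) : pr V (fun _ => False) = 0 := by
  unfold pr nb fl; simp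

lemma pr_not (V : Finset α) (A : Finset α → Prop) : pr V (fun β => ¬ A β) = 1 - pr V A := by
  have h1 : (nb V A : ℝ) + nb V (fun β => ¬ A β) = 2 ^ V.card := by
    exact_mod_cast nb_add_not V A
  unfold pr
  have h2 := two_pos' V
  field_simp
  linarith

lemma pr_or_le : pr V (fun β => A β ∨ B β) ≤ pr V A + pr V B := by
  unfold pr
  rw [← add_div]
  have h1 : nb V (fun β => A β ∨ B β) ≤ nb V A + nb V B := by
    unfold nb
    rw [fl_or]
    exact card_union_le _ _
  have h2 : (nb V (fun β => A β ∨ B β) : ℝ) ≤ nb V A + nb V B := by exact_mod_cast h1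
  gcongr

/-- union bound -/
lemma pr_exists_le {ι : Type*} (s : Finset ι) (A : ι → Finset α → Prop) :
    pr V (fun β => ∃ i ∈ s, A i β) ≤ ∑ i ∈ s, pr V (A i) := by
  induction s using Finset.induction_on with
  | empty => simp [pr_false]
  | insert i s hi ih =>
      rw [sum_insert hi]
      have h1 : pr V (fun β => ∃ j ∈ insert i s, A j β) ≤
          pr V (fun β => A i β ∨ ∃ j ∈ s, A j β) := by
        apply pr_mono
        rintro β _ ⟨j, hj, hA⟩
        rcases mem_insert.1 hj with rfl | hj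
        · exact Or.inl hA
        · exact Or.inr ⟨j, hj, hA⟩
      exact h1.trans (pr_or_le.trans (add_le_add le_rfl ih))


/-! ### exchange of the colours -/

theorem nb_flip (V : Finset α) (A : Finset α → Prop) : nb V (fun β => A (V \ β)) = nb V A := by
  unfold nb
  apply card_bij (fun β _ => V \ β)
  · intro β hβ
    rw [mem_fil] at hβ ⊢
    exact ⟨sdiff_subset, hβ.2⟩
  · intro β hβ β' hβ' h
    rw [mem_fil] at hβ hβ'
    rw [← Finset.sdiff_sdiff_eq_self hβ.1, ← Finset.sdiff_sdiff_eq_self hβ'.1, h]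
  · intro β hβ
    rw [mem_fil] at hβ
    refine ⟨V \ β, ?_, Finset.sdiff_sdiff_eq_self hβ.1⟩
    rw [mem_fil]
    refine ⟨sdiff_subset, ?_⟩
    rw [Finset.sdiff_sdiff_eq_self hβ.1]
    exact hβ.2

theorem pr_flip (V : Finset α) (A : Finset α → Prop) : pr V (fun β => A (V \ β)) = pr V A := by
  unfold pr; rw [nb_flip]

lemma Up.flip (h : Up V A) : Dn V (fun β => A (V \ β)) := fun _ _ h1 _ h3 =>
  h _ _ (sdiff_subset_sdiff subset_rfl h1) sdiff_subset h3

lemma Dn.flip (h : Dn V A) : Up V (fun β => A (V \ β)) := fun _ _ h1 _ h3 =>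
  h _ _ (sdiff_subset_sdiff subset_rfl h1) sdiff_subset h3

lemma Up.not (h : Up V A) : Dn V (fun β => ¬ A β) := fun _ _ h1 h2 h3 h4 => h3 (h _ _ h1 h2 h4)
lemma Dn.not (h : Dn V A) : Up V (fun β => ¬ A β) := fun _ _ h1 h2 h3 h4 => h3 (h _ _ h1 h2 h4)

lemma Up.and (h : Up V A) (h' : Up V B) : Up V (fun β => A β ∧ B β) :=
  fun _ _ h1 h2 h3 => ⟨h _ _ h1 h2 h3.1, h' _ _ h1 h2 h3.2⟩
lemma Dn.and (h : Dn V A) (h' : Dn V B) : Dn V (fun β => A β ∧ B β) :=
  fun _ _ h1 h2 h3 => ⟨h _ _ h1 h2 h3.1, h' _ _ h1 h2 h3.2⟩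
lemma Up.or (h : Up V A) (h' : Up V B) : Up V (fun β => A β ∨ B β) :=
  fun _ _ h1 h2 h3 => h3.imp (h _ _ h1 h2) (h' _ _ h1 h2)
lemma Dn.or (h : Dn V A) (h' : Dn V B) : Dn V (fun β => A β ∨ B β) :=
  fun _ _ h1 h2 h3 => h3.imp (h _ _ h1 h2) (h' _ _ h1 h2)
lemma Up.all {ι : Type*} {s : Finset ι} {A : ι → Finset α → Prop} (h : ∀ i ∈ s, Up V (A i)) :
    Up V (fun β => ∀ i ∈ s, A i β) := fun _ _ h1 h2 h3 i hi => h i hi _ _ h1 h2 (h3 i hi)
lemma Dn.all {ι : Type*} {s : Finset ι} {A : ι → Finset α → Prop} (h : ∀ i ∈ s, Dn V (A i)) :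
    Dn V (fun β => ∀ i ∈ s, A i β) := fun _ _ h1 h2 h3 i hi => h i hi _ _ h1 h2 (h3 i hi)
lemma Up.ex {ι : Type*} {s : Finset ι} {A : ι → Finset α → Prop} (h : ∀ i ∈ s, Up V (A i)) :
    Up V (fun β => ∃ i ∈ s, A i β) := fun _ _ h1 h2 ⟨i, hi, h3⟩ => ⟨i, hi, h i hi _ _ h1 h2 h3⟩
lemma Dn.ex {ι : Type*} {s : Finset ι} {A : ι → Finset α → Prop} (h : ∀ i ∈ s, Dn V (A i)) :
    Dn V (fun β => ∃ i ∈ s, A i β) := fun _ _ h1 h2 ⟨i, hi, h3⟩ => ⟨i, hi, h i hi _ _ h1 h2 h3⟩
lemma Up.const (p : Prop) : Up V (fun _ => p) := fun _ _ _ _ h => h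
lemma Dn.const (p : Prop) : Dn V (fun _ => p) := fun _ _ _ _ h => h

/-! ### Harris -/

theorem nb_harris_dn (hA : Dn V A) (hB : Dn V B) :
    nb V A * nb V B ≤ 2 ^ V.card * nb V (fun β => A β ∧ B β) := by
  unfold nb
  have h1 : ∀ {A : Finset α → Prop}, Dn V A →
      IsLowerSet ((fl V A : Finset (Finset α)) : Set (Finset α)) := by
    intro A hA β β' hle hβ
    rw [mem_coe, mem_fil] at hβ ⊢
    exact ⟨hle.trans hβ.1, hA _ _ hle hβ.1 hβ.2⟩
  have h2 := (h1 hA).le_card_inter_finset' (h1 hB) (s := V)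
    (fun t ht => (mem_fil.1 ht).1) (fun t ht => (mem_fil.1 ht).1)
  rw [fl_and]
  exact h2

/-- **Harris, decreasing events** -/
theorem harris_dn (hA : Dn V A) (hB : Dn V B) : pr V A * pr V B ≤ pr V (fun β => A β ∧ B β) := by
  have h1 : (nb V A : ℝ) * nb V B ≤ 2 ^ V.card * nb V (fun β => A β ∧ B β) := by
    exact_mod_cast nb_harris_dn hA hB
  unfold pr
  have h2 := two_pos' V
  rw [div_mul_div_comm, div_le_div_iff₀ (by positivity) h2]
  nlinarith

/-- **Harris, increasing events** -/
theorem harris_up (hA : Up V A) (hB : Up V B) : pr V A * pr V B ≤ pr V (fun β => A β ∧ B β) := by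
  rw [← pr_flip V A, ← pr_flip V B, ← pr_flip V (fun β => A β ∧ B β)]
  exact harris_dn hA.flip hB.flip



/-- several increasing events -/
theorem harris_prod_up {ι : Type*} (s : Finset ι) {A : ι → Finset α → Prop}
    (h : ∀ i ∈ s, Up V (A i)) : ∏ i ∈ s, pr V (A i) ≤ pr V (fun β => ∀ i ∈ s, A i β) := by
  induction s using Finset.induction_on with
  | empty => simp [pr_true]
  | insert i s hi ih =>
      rw [prod_insert hi]
      have h1 := ih fun j hj => h j (mem_insert_of_mem hj)
      have h2 := harris_up (h i (mem_insert_self i s))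
        (Up.all fun j hj => h j (mem_insert_of_mem hj))
      have h3 : pr V (fun β => A i β ∧ ∀ j ∈ s, A j β) =
          pr V (fun β => ∀ j ∈ insert i s, A j β) := by
        apply pr_congr
        intro β _
        simp
      rw [← h3]
      exact (mul_le_mul_of_nonneg_left h1 pr_nonneg).trans h2



/-! ### fixing colours -/

/-- colourings of `V` = colourings of `V \ W` and of `W` -/
theorem nb_sum (hW : W ⊆ V) (A : Finset α → Prop) :
    nb V A = ∑ γ ∈ W.powerset, nb (V \ W) (fun β => A (β ∪ γ)) := by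
  unfold nb
  rw [card_eq_sum_card_fiberwise (f := fun β => β ∩ W) (t := W.powerset)]
  · apply sum_congr rfl
    intro γ hγ
    rw [mem_powerset] at hγ
    symm
    apply card_bij (fun β _ => β ∪ γ)
    · intro β hβ
      rw [mem_fil] at hβ
      rw [mem_filter, mem_fil]
      refine ⟨⟨union_subset (hβ.1.trans sdiff_subset) (hγ.trans hW), hβ.2⟩, ?_⟩
      ext x
      simp only [mem_inter, mem_union]
      constructor
      · rintro ⟨h1 | h1, h2⟩
        · exact absurd h2 (mem_sdiff.1 (hβ.1 h1)).2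
        · exact h1
      · intro h1; exact ⟨Or.inr h1, hγ h1⟩
    · intro β hβ β' hβ' h
      rw [mem_fil] at hβ hβ'
      have key : ∀ {δ : Finset α}, δ ⊆ V \ W → (δ ∪ γ) \ W = δ := by
        intro δ hδ
        ext x
        simp only [mem_sdiff, mem_union]
        constructor
        · rintro ⟨h1 | h1, h2⟩
          · exact h1
          · exact absurd (hγ h1) h2
        · intro h1; exact ⟨Or.inl h1, (mem_sdiff.1 (hδ h1)).2⟩
      rw [← key hβ.1, ← key hβ'.1, h]
    · intro β hβ
      rw [mem_filter, mem_fil] at hβ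
      have he : β \ W ∪ γ = β := by
        rw [← hβ.2]
        exact sdiff_union_inter β W
      refine ⟨β \ W, ?_, he⟩
      rw [mem_fil]
      exact ⟨sdiff_subset_sdiff hβ.1.1 subset_rfl, by rw [he]; exact hβ.1.2⟩
  · intro β _
    simp only [coe_powerset, Set.mem_preimage, Set.mem_powerset_iff, coe_subset]
    exact inter_subset_right

theorem pr_sum (hW : W ⊆ V) (A : Finset α → Prop) :
    pr V A = (∑ γ ∈ W.powerset, pr (V \ W) (fun β => A (β ∪ γ))) / 2 ^ W.card := by
  unfold pr
  rw [nb_sum hW, ← sum_div, div_div, ← pow_add]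
  push_cast
  congr 2
  rw [card_sdiff_of_subset hW]
  have := card_le_card hW
  omega

/-- the law of the colours of `W` -/
theorem pr_dep (hW : W ⊆ V) (h : Dep V W A) : pr V A = pr W A := by
  have h1 : V \ W ⊆ V := sdiff_subset
  rw [pr_sum h1]
  have h2 : V \ (V \ W) = W := Finset.sdiff_sdiff_eq_self hW
  rw [h2]
  have h3 : ∀ γ ∈ (V \ W).powerset, pr W (fun β => A (β ∪ γ)) = pr W A := by
    intro γ hγ
    rw [mem_powerset] at hγ
    apply pr_congr
    intro β hβ
    have e1 : (β ∪ γ) ∩ W = β := by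
      ext x
      simp only [mem_inter, mem_union]
      constructor
      · rintro ⟨h4 | h4, h5⟩
        · exact h4
        · exact absurd h5 (mem_sdiff.1 (hγ h4)).2
      · intro h4; exact ⟨Or.inl h4, hβ h4⟩
    have e2 := h (β ∪ γ) (union_subset (hβ.trans hW) (hγ.trans sdiff_subset))
    rw [e1] at e2
    exact e2
  rw [sum_congr rfl h3, sum_const, card_powerset, nsmul_eq_mul]
  push_cast
  rw [mul_comm, mul_div_assoc, div_self (two_pos' _).ne', mul_one]

lemma Dep.and (hA : Dep V W A) (hB : Dep V W B) : Dep V W (fun β => A β ∧ B β) := fun β hβ => by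
  simp only [← hA β hβ, ← hB β hβ]
lemma Dep.not (hA : Dep V W A) : Dep V W (fun β => ¬ A β) := fun β hβ => by
  simp only [← hA β hβ]
lemma Dep.or (hA : Dep V W A) (hB : Dep V W B) : Dep V W (fun β => A β ∨ B β) := fun β hβ => by
  simp only [← hA β hβ, ← hB β hβ]

lemma Dep.mono {W' : Finset α} (h : Dep V W A) (hW : W ⊆ W') : Dep V W' A := by
  intro β hβ
  rw [h β hβ, h (β ∩ W') (inter_subset_left.trans hβ)]
  have : β ∩ W' ∩ W = β ∩ W := by
    rw [inter_assoc, inter_eq_right.2 hW]
  rw [this]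

lemma Dep.all {ι : Type*} {s : Finset ι} {A : ι → Finset α → Prop} (h : ∀ i ∈ s, Dep V W (A i)) :
    Dep V W (fun β => ∀ i ∈ s, A i β) := by
  intro β hβ
  constructor
  · intro h1 i hi; exact (h i hi β hβ).1 (h1 i hi)
  · intro h1 i hi; exact (h i hi β hβ).2 (h1 i hi)

/-- **independence** -/
theorem pr_indep {W' : Finset α} (hd : Disjoint W W') (hA : Dep V W A) (hB : Dep V W' B) :
    pr V (fun β => A β ∧ B β) = pr V A * pr V B := by
  have hV : V ∩ W ⊆ V := inter_subset_left
  have hA' : Dep V (V ∩ W) A := by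
    intro β hβ
    have : β ∩ (V ∩ W) = β ∩ W := by rw [← inter_assoc, inter_eq_left.2 hβ]
    rw [this]; exact hA β hβ
  rw [pr_dep hV hA', pr_sum hV]
  have h1 : ∀ γ ∈ (V ∩ W).powerset, pr (V \ (V ∩ W)) (fun β => A (β ∪ γ) ∧ B (β ∪ γ)) =
      if A γ then pr V B else 0 := by
    intro γ hγ
    rw [mem_powerset] at hγ
    have hγW : γ ⊆ W := hγ.trans inter_subset_right
    have hγV : γ ⊆ V := hγ.trans hV
    have hsub : ∀ {β : Finset α}, β ⊆ V \ (V ∩ W) → β ∪ γ ⊆ V := fun h =>
      union_subset (h.trans sdiff_subset) hγV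
    have hβW : ∀ {β : Finset α}, β ⊆ V \ (V ∩ W) → ∀ x ∈ β, x ∉ W := by
      intro β hβ x hx hxW
      have := mem_sdiff.1 (hβ hx)
      exact this.2 (mem_inter.2 ⟨this.1, hxW⟩)
    have e1 : ∀ {β : Finset α}, β ⊆ V \ (V ∩ W) → (A (β ∪ γ) ↔ A γ) := by
      intro β hβ
      rw [hA _ (hsub hβ)]
      have : (β ∪ γ) ∩ W = γ := by
        ext x
        simp only [mem_inter, mem_union]
        constructor
        · rintro ⟨h4 | h4, h5⟩
          · exact absurd h5 (hβW hβ x h4)
          · exact h4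
        · intro h4; exact ⟨Or.inr h4, hγW h4⟩
      rw [this]
    have e2 : ∀ {β : Finset α}, β ⊆ V \ (V ∩ W) → (B (β ∪ γ) ↔ B β) := by
      intro β hβ
      rw [hB _ (hsub hβ), hB β (hβ.trans sdiff_subset)]
      have : (β ∪ γ) ∩ W' = β ∩ W' := by
        ext x
        simp only [mem_inter, mem_union]
        constructor
        · rintro ⟨h4 | h4, h5⟩
          · exact ⟨h4, h5⟩
          · exact absurd h5 (disjoint_left.1 hd (hγW h4))
        · rintro ⟨h4, h5⟩; exact ⟨Or.inl h4, h5⟩
      rw [this]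
    have e3 : pr (V \ (V ∩ W)) B = pr V B := by
      symm
      apply pr_dep sdiff_subset
      intro β hβ
      rw [hB β hβ, hB (β ∩ (V \ (V ∩ W))) (inter_subset_left.trans hβ)]
      have : β ∩ (V \ (V ∩ W)) ∩ W' = β ∩ W' := by
        ext x
        simp only [mem_inter, mem_sdiff, not_and]
        constructor
        · rintro ⟨⟨h4, _⟩, h5⟩; exact ⟨h4, h5⟩
        · rintro ⟨h4, h5⟩
          exact ⟨⟨h4, hβ h4, fun _ h6 => disjoint_left.1 hd h6 h5⟩, h5⟩
      rw [this]
    split_ifs with hAγ
    · rw [← e3]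
      apply pr_congr
      intro β hβ
      rw [e1 hβ, e2 hβ]
      simp [hAγ]
    · rw [← pr_false (V \ (V ∩ W))]
      apply pr_congr
      intro β hβ
      rw [e1 hβ]
      simp [hAγ]
  rw [sum_congr rfl h1, ← sum_filter, sum_const, nsmul_eq_mul]
  have e4 : (((V ∩ W).powerset.filter A).card : ℝ) = nb (V ∩ W) A := rfl
  rw [e4]
  unfold pr
  ring

/-- independence of several events with disjoint supports -/
theorem pr_indep_prod {ι : Type*} (s : Finset ι) {A : ι → Finset α → Prop} {W : ι → Finset α}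
    (hd : ∀ i ∈ s, ∀ j ∈ s, i ≠ j → Disjoint (W i) (W j)) (h : ∀ i ∈ s, Dep V (W i) (A i)) :
    pr V (fun β => ∀ i ∈ s, A i β) = ∏ i ∈ s, pr V (A i) := by
  induction s using Finset.induction_on with
  | empty => simp [pr_true]
  | insert i s hi ih =>
      rw [prod_insert hi, ← ih (fun j hj k hk => hd j (mem_insert_of_mem hj) k
        (mem_insert_of_mem hk)) (fun j hj => h j (mem_insert_of_mem hj))]
      have h3 : pr V (fun β => ∀ j ∈ insert i s, A j β) =
          pr V (fun β => A i β ∧ ∀ j ∈ s, A j β) := by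
        apply pr_congr
        intro β _
        simp
      rw [h3]
      refine pr_indep (W := W i) (W' := s.biUnion W) ?_ (h i (mem_insert_self i s)) ?_
      · rw [disjoint_biUnion_right]
        intro j hj
        exact hd i (mem_insert_self i s) j (mem_insert_of_mem hj) (fun e => hi (e ▸ hj))
      · apply Dep.all
        intro j hj
        exact (h j (mem_insert_of_mem hj)).mono (subset_biUnion_of_mem W hj)

/-! ### bounds given the colours outside of `V \ W` -/

/-- lower bound given the colours of `W` -/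
theorem cond_ge (hW : W ⊆ V) {b : ℝ}
    (h : ∀ γ, γ ⊆ W → b * pr (V \ W) (fun β => A (β ∪ γ)) ≤
      pr (V \ W) (fun β => A (β ∪ γ) ∧ B (β ∪ γ))) :
    b * pr V A ≤ pr V (fun β => A β ∧ B β) := by
  rw [pr_sum hW, pr_sum hW (A := fun β => A β ∧ B β), ← mul_div_assoc, mul_sum]
  apply div_le_div_of_nonneg_right _ (two_pos' W).le
  exact sum_le_sum fun γ hγ => h γ (mem_powerset.1 hγ)



/-! ### explored sets -/

/-- `J` is an exploration: `J β` only depends on the colours in `J β` -/
structure IsStop (V : Finset α) (J : Finset α → Finset α) : Prop where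
  sub : ∀ β, β ⊆ V → J β ⊆ V
  stop : ∀ β β', β ⊆ V → β' ⊆ V → β ∩ J β = β' ∩ J β → J β' = J β

variable {J : Finset α → Finset α}

/-- the possible results of the exploration (explored set, colours on it) -/
def outc (V : Finset α) (J : Finset α → Finset α) : Finset (Finset α × Finset α) :=
  V.powerset.image fun β => (J β, β ∩ J β)

lemma outc_sub (hJ : IsStop V J) {x : Finset α × Finset α} (hx : x ∈ outc V J) :
    x.1 ⊆ V ∧ x.2 ⊆ x.1 := by
  unfold outc at hx
  rw [mem_image] at hx
  obtain ⟨β, hβ, rfl⟩ := hx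
  exact ⟨hJ.sub β (mem_powerset.1 hβ), inter_subset_right⟩

lemma outc_iff (hJ : IsStop V J) {x : Finset α × Finset α} (hx : x ∈ outc V J) {β : Finset α}
    (hβ : β ⊆ V) : (J β, β ∩ J β) = x ↔ β ∩ x.1 = x.2 := by
  unfold outc at hx
  rw [mem_image] at hx
  obtain ⟨β0, hβ0, rfl⟩ := hx
  rw [mem_powerset] at hβ0
  constructor
  · intro h
    have h1 : J β = J β0 := (Prod.ext_iff.1 h).1
    have h2 : β ∩ J β = β0 ∩ J β0 := (Prod.ext_iff.1 h).2
    simp only
    rw [← h1, h2, h1]
  · intro h
    simp only at h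
    have h1 := hJ.stop β0 β hβ0 hβ h.symm
    rw [h1, h]

/-- **strong Markov property** -/
theorem stop_sum (hJ : IsStop V J) (A : Finset α → Prop) :
    nb V A = ∑ x ∈ outc V J, nb (V \ x.1) (fun β => A (β ∪ x.2)) := by
  unfold nb
  rw [card_eq_sum_card_fiberwise (f := fun β => (J β, β ∩ J β)) (t := outc V J)]
  · apply sum_congr rfl
    intro x hx
    obtain ⟨hx1, hx2⟩ := outc_sub hJ hx
    symm
    apply card_bij (fun β _ => β ∪ x.2)
    · intro β hβ
      rw [mem_fil] at hβ
      rw [mem_filter, mem_fil]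
      have hs : β ∪ x.2 ⊆ V := union_subset (hβ.1.trans sdiff_subset) (hx2.trans hx1)
      refine ⟨⟨hs, hβ.2⟩, ?_⟩
      rw [outc_iff hJ hx hs]
      ext y
      simp only [mem_inter, mem_union]
      constructor
      · rintro ⟨h1 | h1, h2⟩
        · exact absurd h2 (mem_sdiff.1 (hβ.1 h1)).2
        · exact h1
      · intro h1; exact ⟨Or.inr h1, hx2 h1⟩
    · intro β hβ β' hβ' h
      rw [mem_fil] at hβ hβ'
      have key : ∀ {δ : Finset α}, δ ⊆ V \ x.1 → (δ ∪ x.2) \ x.1 = δ := by
        intro δ hδ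
        ext y
        simp only [mem_sdiff, mem_union]
        constructor
        · rintro ⟨h1 | h1, h2⟩
          · exact h1
          · exact absurd (hx2 h1) h2
        · intro h1; exact ⟨Or.inl h1, (mem_sdiff.1 (hδ h1)).2⟩
      rw [← key hβ.1, ← key hβ'.1, h]
    · intro β hβ
      rw [mem_filter, mem_fil] at hβ
      have h1 := (outc_iff hJ hx hβ.1.1).1 hβ.2
      have he : β \ x.1 ∪ x.2 = β := by
        rw [← h1]
        exact sdiff_union_inter β x.1
      refine ⟨β \ x.1, ?_, he⟩
      rw [mem_fil]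
      exact ⟨sdiff_subset_sdiff hβ.1.1 subset_rfl, by rw [he]; exact hβ.1.2⟩
  · intro β hβ
    rw [mem_coe, mem_fil] at hβ
    simp only [mem_coe]
    unfold outc
    exact mem_image_of_mem _ (mem_powerset.2 hβ.1)

theorem stop_pr (hJ : IsStop V J) (A : Finset α → Prop) :
    pr V A = ∑ x ∈ outc V J, pr (V \ x.1) (fun β => A (β ∪ x.2)) / 2 ^ x.1.card := by
  unfold pr
  rw [stop_sum hJ]
  push_cast
  rw [sum_div]
  apply sum_congr rfl
  intro x hx
  rw [div_div, ← pow_add]
  congr 2
  have h1 := (outc_sub hJ hx).1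
  rw [card_sdiff_of_subset h1]
  have := card_le_card h1
  omega

/-- lower bound given the result of the exploration -/
theorem stop_ge (hJ : IsStop V J) {b : ℝ}
    (h : ∀ x ∈ outc V J, b * pr (V \ x.1) (fun β => A (β ∪ x.2)) ≤
      pr (V \ x.1) (fun β => A (β ∪ x.2) ∧ B (β ∪ x.2))) :
    b * pr V A ≤ pr V (fun β => A β ∧ B β) := by
  rw [stop_pr hJ, stop_pr hJ (A := fun β => A β ∧ B β), mul_sum]
  apply sum_le_sum
  intro x hx
  rw [← mul_div_assoc]
  exact div_le_div_of_nonneg_right (h x hx) (by positivity)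

/-- upper bound given the result of the exploration -/
theorem stop_le (hJ : IsStop V J) {b : ℝ}
    (h : ∀ x ∈ outc V J, pr (V \ x.1) (fun β => A (β ∪ x.2) ∧ B (β ∪ x.2)) ≤
      b * pr (V \ x.1) (fun β => A (β ∪ x.2))) :
    pr V (fun β => A β ∧ B β) ≤ b * pr V A := by
  rw [stop_pr hJ, stop_pr hJ (A := A), mul_sum]
  apply sum_le_sum
  intro x hx
  rw [← mul_div_assoc]
  exact div_le_div_of_nonneg_right (h x hx) (by positivity)

/-- `A` is decided by the exploration -/
def Decided (V : Finset α) (J : Finset α → Finset α) (A : Finset α → Prop) : Prop :=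
  ∀ β β', β ⊆ V → β' ⊆ V → β ∩ J β = β' ∩ J β → (A β ↔ A β')

lemma Decided.outc (hA : Decided V J A) {β0 : Finset α}
    (hβ0 : β0 ⊆ V) {β : Finset α} (hβ : β ⊆ V \ J β0) :
    A (β ∪ (β0 ∩ J β0)) ↔ A β0 := by
  symm
  apply hA β0 _ hβ0
  · exact union_subset (hβ.trans sdiff_subset) (inter_subset_left.trans hβ0)
  · ext y
    simp only [mem_inter, mem_union]
    constructor
    · rintro ⟨h1, h2⟩; exact ⟨Or.inr ⟨h1, h2⟩, h2⟩
    · rintro ⟨h1 | h1, h2⟩
      · exact absurd h2 (mem_sdiff.1 (hβ h1)).2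
      · exact ⟨h1.1, h2⟩

/-- lower bound given the result of the exploration, `A` decided by the exploration -/
theorem stop_ge' (hJ : IsStop V J) (hA : Decided V J A) {b : ℝ}
    (h : ∀ β0, β0 ⊆ V → A β0 → b ≤ pr (V \ J β0) (fun β => B (β ∪ (β0 ∩ J β0)))) :
    b * pr V A ≤ pr V (fun β => A β ∧ B β) := by
  apply stop_ge hJ
  intro x hx
  unfold Harx315.outc at hx
  rw [mem_image] at hx
  obtain ⟨β0, hβ0, rfl⟩ := hx
  rw [mem_powerset] at hβ0
  simp only
  by_cases hA0 : A β0
  · have h1 : pr (V \ J β0) (fun β => A (β ∪ β0 ∩ J β0)) = 1 := by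
      rw [← pr_true (V \ J β0)]
      apply pr_congr
      intro β hβ
      simp only [hA.outc hβ0 hβ, hA0]
    have h2 : pr (V \ J β0) (fun β => A (β ∪ β0 ∩ J β0) ∧ B (β ∪ β0 ∩ J β0)) =
        pr (V \ J β0) (fun β => B (β ∪ β0 ∩ J β0)) := by
      apply pr_congr
      intro β hβ
      simp only [hA.outc hβ0 hβ, hA0, true_and]
    rw [h1, h2, mul_one]
    exact h β0 hβ0 hA0
  · have h1 : pr (V \ J β0) (fun β => A (β ∪ β0 ∩ J β0)) = 0 := by
      rw [← pr_false (V \ J β0)]
      apply pr_congr
      intro β hβ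
      simp only [hA.outc hβ0 hβ, hA0]
    rw [h1, mul_zero]
    exact pr_nonneg

/-- upper bound given the result of the exploration, `A` decided by the exploration -/
theorem stop_le' (hJ : IsStop V J) (hA : Decided V J A) {b : ℝ}
    (h : ∀ β0, β0 ⊆ V → A β0 → pr (V \ J β0) (fun β => B (β ∪ (β0 ∩ J β0))) ≤ b) :
    pr V (fun β => A β ∧ B β) ≤ b * pr V A := by
  apply stop_le hJ
  intro x hx
  unfold Harx315.outc at hx
  rw [mem_image] at hx
  obtain ⟨β0, hβ0, rfl⟩ := hx
  rw [mem_powerset] at hβ0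
  simp only
  by_cases hA0 : A β0
  · have h1 : pr (V \ J β0) (fun β => A (β ∪ β0 ∩ J β0)) = 1 := by
      rw [← pr_true (V \ J β0)]
      apply pr_congr
      intro β hβ
      simp only [hA.outc hβ0 hβ, hA0]
    have h2 : pr (V \ J β0) (fun β => A (β ∪ β0 ∩ J β0) ∧ B (β ∪ β0 ∩ J β0)) =
        pr (V \ J β0) (fun β => B (β ∪ β0 ∩ J β0)) := by
      apply pr_congr
      intro β hβ
      simp only [hA.outc hβ0 hβ, hA0, true_and]
    rw [h1, h2, mul_one]
    exact h β0 hβ0 hA0
  · have h1 : pr (V \ J β0) (fun β => A (β ∪ β0 ∩ J β0)) = 0 := by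
      rw [← pr_false (V \ J β0)]
      apply pr_congr
      intro β hβ
      simp only [hA.outc hβ0 hβ, hA0]
    have h2 : pr (V \ J β0) (fun β => A (β ∪ β0 ∩ J β0) ∧ B (β ∪ β0 ∩ J β0)) = 0 := by
      rw [← pr_false (V \ J β0)]
      apply pr_congr
      intro β hβ
      simp only [hA.outc hβ0 hβ, hA0, false_and]
    rw [h1, h2, mul_zero]

/-! ### other forms -/




/-! ### the colours of the sample -/

theorem real_eq_pr {I : Type*} {ix : α → I} (hix : Set.InjOn ix V) (A : Finset α → Prop) :
    (Varx831.cl I).real {c | A (Y5ax315.wht V ix c)} = pr V A :=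
  Y5ax315.real_wht hix A

end Crest.Agent.R143.Harx315
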