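import Crest.Agent.R143.B0_346
import Crest.Agent.R143.Har_315

-- ▼ part R143/Alg_915
section

/-!
# Row 143 (S0194), CORE-C: end game algebra (helper915, after helper660 3160 (1), helper782 3019 (4))

`om` = third root of unity. `T m = m 0 + om m 1 + om² m 2`, `T' m = m 0 + om² m 1 + om m 2`
(`m k` = mean end point on the arc `A k`).

* `alt_T`, `alt_T'` : if `c0 D_i = om^i T' - om^(2i) T` and `‖om^(2i) T - κ D_i‖ ≤ e`, `i = 0, 1, 2`,
  then `‖(c0 + κ) T‖ ≤ ‖c0‖ e` and `‖κ T'‖ ≤ ‖c0‖ e`;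
* `sq_add`, `sq_sub` : `‖T‖² + ‖T'‖² = Σ ‖m i - m j‖²`, `‖T'‖² - ‖T‖² = 2 √3 cr (m1 - m0) (m2 - m0)`;
* `square` : for a square with marks at three corners `‖T'‖² ≥ s² / 6`;
* `kill` : hence `‖κ‖ ≤ 3 ‖c0‖ e / s` and `‖T U‖ ≤ 2 e` for all `U`.
-/

set_option autoImplicit false

noncomputable section

open Complex

namespace Crest.Agent.R143.Algx915

open Crest.Agent.R143.B0x346

theorem om_eq : om = ⟨-(1 / 2), Real.sqrt 3 / 2⟩ := by
  have h1 : Real.cos (2 * Real.pi / 3) = -(1 / 2) := by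
    rw [show 2 * Real.pi / 3 = Real.pi - Real.pi / 3 by ring, Real.cos_pi_sub,
      Real.cos_pi_div_three]
  have h2 : Real.sin (2 * Real.pi / 3) = Real.sqrt 3 / 2 := by
    rw [show 2 * Real.pi / 3 = Real.pi - Real.pi / 3 by ring, Real.sin_pi_sub,
      Real.sin_pi_div_three]
  unfold om
  rw [Complex.exp_mul_I, ← Complex.ofReal_cos, ← Complex.ofReal_sin, h1, h2]
  apply Complex.ext <;> simp

theorem om_re : om.re = -(1 / 2) := by rw [om_eq]
theorem om_im : om.im = Real.sqrt 3 / 2 := by rw [om_eq]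

theorem s3 : Real.sqrt 3 * Real.sqrt 3 = 3 := Real.mul_self_sqrt (by norm_num)

theorem om_sq : om ^ 2 = ⟨-(1 / 2), -(Real.sqrt 3 / 2)⟩ := by
  rw [sq, om_eq]
  apply Complex.ext
  · simp only [Complex.mul_re]
    nlinarith [s3]
  · simp only [Complex.mul_im]
    ring

theorem om2_re : (om ^ 2).re = -(1 / 2) := by rw [om_sq]
theorem om2_im : (om ^ 2).im = -(Real.sqrt 3 / 2) := by rw [om_sq]

theorem om_sum0 : 1 + om + om ^ 2 = 0 := by
  apply Complex.ext
  · simp only [Complex.add_re, Complex.one_re, om_re, om2_re, Complex.zero_re]; norm_num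
  · simp only [Complex.add_im, Complex.one_im, om_im, om2_im, Complex.zero_im]; ring

theorem om_cube : om ^ 3 = 1 := by
  have h := om_sum0
  linear_combination (om - 1) * h

theorem om_norm : ‖om‖ = 1 := by
  have h : ‖om‖ ^ 3 = 1 := by rw [← norm_pow, om_cube, norm_one]
  exact (pow_eq_one_iff_of_nonneg (norm_nonneg _) (by norm_num)).1 h

/-- **alternative**, first half -/
theorem alt {T T' κ c0 : ℂ} {D : ℕ → ℂ} {e : ℝ}
    (h : ∀ i, i < 3 → c0 * D i = om ^ i * T' - om ^ (2 * i) * T)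
    (hk : ∀ i, i < 3 → ‖om ^ (2 * i) * T - κ * D i‖ ≤ e) :
    ‖(c0 + κ) * T‖ ≤ ‖c0‖ * e ∧ ‖κ * T'‖ ≤ ‖c0‖ * e := by
  have key : ∀ i, i < 3 → ‖om ^ (2 * i) * ((c0 + κ) * T) - om ^ i * (κ * T')‖ ≤ ‖c0‖ * e := by
    intro i hi
    have e1 : om ^ (2 * i) * ((c0 + κ) * T) - om ^ i * (κ * T') =
        c0 * (om ^ (2 * i) * T - κ * D i) := by
      have := h i hi
      linear_combination κ * this
    rw [e1, norm_mul]
    exact mul_le_mul_of_nonneg_left (hk i hi) (norm_nonneg _)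
  have k0 := key 0 (by norm_num)
  have k1 := key 1 (by norm_num)
  have k2 := key 2 (by norm_num)
  simp only [Nat.mul_zero, pow_zero, one_mul, Nat.mul_one, pow_one] at k0 k1 k2
  set a := (c0 + κ) * T
  set b := κ * T'
  have h3 := om_cube
  have hs := om_sum0
  constructor
  · have e3 : (3 : ℂ) * a = (a - b) + om * (om ^ 2 * a - om * b) +
        om ^ 2 * (om ^ (2 * 2) * a - om ^ 2 * b) := by
      have e4 : om ^ 2 * om ^ (2 * 2) = 1 := by
        calc om ^ 2 * om ^ (2 * 2) = (om ^ 3) ^ 2 := by ring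
          _ = 1 := by rw [h3, one_pow]
      have e5 : om * om ^ 2 = 1 := by rw [← h3]; ring
      have e6 : om ^ 2 * om ^ 2 = om := by
        calc om ^ 2 * om ^ 2 = om ^ 3 * om := by ring
          _ = om := by rw [h3, one_mul]
      linear_combination (-a) * e4 - a * e5 + b * e6 + b * hs
    have n3 : ‖(3 : ℂ) * a‖ ≤ 3 * (‖c0‖ * e) := by
      rw [e3]
      calc _ ≤ ‖(a - b) + om * (om ^ 2 * a - om * b)‖ +
            ‖om ^ 2 * (om ^ (2 * 2) * a - om ^ 2 * b)‖ := norm_add_le _ _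
        _ ≤ ‖a - b‖ + ‖om * (om ^ 2 * a - om * b)‖ +
            ‖om ^ 2 * (om ^ (2 * 2) * a - om ^ 2 * b)‖ := by
            gcongr
            exact norm_add_le _ _
        _ = ‖a - b‖ + ‖om ^ 2 * a - om * b‖ + ‖om ^ (2 * 2) * a - om ^ 2 * b‖ := by
            rw [norm_mul, norm_mul, norm_pow, om_norm, one_mul, one_pow, one_mul]
        _ ≤ _ := by linarith
    rw [norm_mul] at n3
    have : ‖(3 : ℂ)‖ = 3 := by norm_num
    rw [this] at n3
    linarith
  · have e3 : -((3 : ℂ) * b) = (a - b) + om ^ 2 * (om ^ 2 * a - om * b) +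
        om * (om ^ (2 * 2) * a - om ^ 2 * b) := by
      have e5 : om * om ^ 2 = 1 := by rw [← h3]; ring
      have e6 : om ^ 2 * om ^ 2 = om := by
        calc om ^ 2 * om ^ 2 = om ^ 3 * om := by ring
          _ = om := by rw [h3, one_mul]
      have e7 : om * om ^ (2 * 2) = om ^ 2 := by
        calc om * om ^ (2 * 2) = om ^ 3 * om ^ 2 := by ring
          _ = om ^ 2 := by rw [h3, one_mul]
      linear_combination (-a) * e6 - a * e7 + 2 * b * e5 - a * hs
    have n3 : ‖(3 : ℂ) * b‖ ≤ 3 * (‖c0‖ * e) := by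
      rw [← norm_neg, e3]
      calc _ ≤ ‖(a - b) + om ^ 2 * (om ^ 2 * a - om * b)‖ +
            ‖om * (om ^ (2 * 2) * a - om ^ 2 * b)‖ := norm_add_le _ _
        _ ≤ ‖a - b‖ + ‖om ^ 2 * (om ^ 2 * a - om * b)‖ +
            ‖om * (om ^ (2 * 2) * a - om ^ 2 * b)‖ := by
            gcongr
            exact norm_add_le _ _
        _ = ‖a - b‖ + ‖om ^ 2 * a - om * b‖ + ‖om ^ (2 * 2) * a - om ^ 2 * b‖ := by
            rw [norm_mul, norm_mul, norm_pow, om_norm, one_mul, one_pow, one_mul]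
        _ ≤ _ := by linarith
    rw [norm_mul] at n3
    have : ‖(3 : ℂ)‖ = 3 := by norm_num
    rw [this] at n3
    linarith

/-- `m 0 + om m 1 + om² m 2` -/
def T3 (m0 m1 m2 : ℂ) : ℂ := m0 + om * m1 + om ^ 2 * m2








end Crest.Agent.R143.Algx915
end
end

-- ▼ part R143/Appl1_359

/-!
# Row 143 (S0194), CONT (note 3434): the analytic end (helper359)

`ex V f` = mean of `f` over the fair colours of `V`,
`ST V y = 3 * ∑ i, om ^ i * ex V (y i)` = the static `T` of three random points.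
* `ex_dep`     : a function of the colours of `V' ⊆ V`
* `ex_near`    : `‖ex V f - ex V g‖ ≤ η + D * P(‖f - g‖ > η)`
* `st_near`    : `‖ST V y - ST V' y'‖ ≤ 3 * ∑ i, (η + D * P(‖y i - y' i‖ > η))`
* `st_shift`   : `ST` does not feel a translation, `st_le` : `‖ST V y‖ ≤ 9 D`
* `four`       : the choice of the scales in CONT, `C (d / D) ^ c`
* `st_pow`     : CONT, analytic form
* `E_near`     : mean over the points, with an exceptional event
-/

set_option autoImplicit false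

noncomputable section

open scoped Classical

namespace Crest.Agent.R143.Applx359

open Finset MeasureTheory
open Crest.Agent.R143.Harx315
open Crest.Agent.R143.B0x346 (om omz)

section fin

variable {α : Type*} {V V' : Finset α} {f g : Finset α → ℂ} {η D : ℝ}

/-- mean over the colours of `V` -/
def ex (V : Finset α) (f : Finset α → ℂ) : ℂ := (∑ β ∈ V.powerset, f β) / 2 ^ V.card


theorem ex_congr (h : ∀ β ⊆ V, f β = g β) : ex V f = ex V g := by
  unfold ex
  rw [sum_congr rfl fun β hβ => h β (mem_powerset.1 hβ)]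


theorem ex_sub : ex V (fun β => f β - g β) = ex V f - ex V g := by
  unfold ex
  rw [sum_sub_distrib, sub_div]




theorem norm_pw (V : Finset α) : ‖(2 : ℂ) ^ V.card‖ = 2 ^ V.card := by
  rw [norm_pow]
  norm_num

theorem norm_ex_le {F : Finset α → ℝ} (h : ∀ β ⊆ V, ‖f β‖ ≤ F β) :
    ‖ex V f‖ ≤ (∑ β ∈ V.powerset, F β) / 2 ^ V.card := by
  unfold ex
  rw [norm_div, norm_pw]
  exact div_le_div_of_nonneg_right ((norm_sum_le _ _).trans
    (sum_le_sum fun β hβ => h β (mem_powerset.1 hβ))) (by positivity)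


/-- **a function of the colours of a subset** -/
theorem ex_dep (hV : V' ⊆ V) : ex V (fun β => f (β ∩ V')) = ex V' f := by
  have h1 : ∑ β ∈ V.powerset, f (β ∩ V') =
      ∑ x ∈ V'.powerset ×ˢ (V \ V').powerset, f x.1 := by
    refine sum_bij' (fun β _ => (β ∩ V', β \ V')) (fun x _ => x.1 ∪ x.2) ?_ ?_ ?_ ?_ ?_
    · intro β hβ
      rw [mem_powerset] at hβ
      rw [mem_product, mem_powerset, mem_powerset]
      exact ⟨inter_subset_right, sdiff_subset_sdiff hβ subset_rfl⟩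
    · intro x hx
      rw [mem_product, mem_powerset, mem_powerset] at hx
      rw [mem_powerset]
      exact union_subset (hx.1.trans hV) (hx.2.trans sdiff_subset)
    · intro β hβ
      show (β ∩ V') ∪ (β \ V') = β
      ext x
      simp only [mem_union, mem_inter, mem_sdiff]
      tauto
    · intro x hx
      rw [mem_product, mem_powerset, mem_powerset] at hx
      refine Prod.ext ?_ ?_
      · show (x.1 ∪ x.2) ∩ V' = x.1
        ext a
        simp only [mem_union, mem_inter]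
        constructor
        · rintro ⟨h | h, h'⟩
          · exact h
          · exact absurd h' (mem_sdiff.1 (hx.2 h)).2
        · intro h
          exact ⟨Or.inl h, hx.1 h⟩
      · show (x.1 ∪ x.2) \ V' = x.2
        ext a
        simp only [mem_union, mem_sdiff]
        constructor
        · rintro ⟨h | h, h'⟩
          · exact absurd (hx.1 h) h'
          · exact h
        · intro h
          exact ⟨Or.inr h, (mem_sdiff.1 (hx.2 h)).2⟩
    · intro β _
      rfl
  unfold ex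
  rw [h1, sum_product]
  simp only [sum_const, card_powerset, nsmul_eq_mul]
  rw [← mul_sum, card_sdiff_of_subset hV]
  have h2 := card_le_card hV
  have h3 : (2 : ℂ) ^ V.card = 2 ^ (V.card - V'.card) * 2 ^ V'.card := by
    rw [← pow_add]
    congr 1
    omega
  rw [h3]
  push_cast
  rw [mul_div_mul_left _ _ (pow_ne_zero _ two_ne_zero)]

/-- **two fields which are close with high probability** -/
theorem ex_near (hη : 0 ≤ η) (hD : ∀ β ⊆ V, ‖f β - g β‖ ≤ D) :
    ‖ex V f - ex V g‖ ≤ η + D * pr V (fun β => η < ‖f β - g β‖) := by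
  rw [← ex_sub]
  refine (norm_ex_le (F := fun β => η + D * (if η < ‖f β - g β‖ then 1 else 0)) ?_).trans ?_
  · intro β hβ
    have h0 : 0 ≤ D := (norm_nonneg _).trans (hD β hβ)
    by_cases h : η < ‖f β - g β‖
    · rw [if_pos h]
      have := hD β hβ
      linarith
    · rw [if_neg h]
      push Not at h
      linarith
  · apply le_of_eq
    rw [sum_add_distrib, sum_const, card_powerset, nsmul_eq_mul, ← mul_sum, add_div]
    congr 1
    · push_cast
      rw [mul_comm, mul_div_assoc, div_self (by positivity), mul_one]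
    · rw [mul_div_assoc]
      congr 1
      unfold pr nb fl
      rw [sum_boole]

/-! ### the static `T` -/

/-- static `T` of three random points -/
def ST (V : Finset α) (y : ZMod 3 → Finset α → ℂ) : ℂ := 3 * ∑ i : ZMod 3, omz i * ex V (y i)

variable {y y' : ZMod 3 → Finset α → ℂ}

theorem norm_omz (i : ZMod 3) : ‖omz i‖ = 1 := by
  unfold omz
  rw [norm_pow, Crest.Agent.R143.Algx915.om_norm, one_pow]



/-- **`ST` of two triples** -/
theorem st_near (hV : V' ⊆ V) (hη : 0 ≤ η) (hD : ∀ i, ∀ β ⊆ V, ‖y i β - y' i (β ∩ V')‖ ≤ D) :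
    ‖ST V y - ST V' y'‖ ≤
      3 * ∑ i : ZMod 3, (η + D * pr V (fun β => η < ‖y i β - y' i (β ∩ V')‖)) := by
  have h0 : ST V y - ST V' y' =
      3 * ∑ i : ZMod 3, omz i * (ex V (y i) - ex V (fun β => y' i (β ∩ V'))) := by
    unfold ST
    rw [← mul_sub, ← sum_sub_distrib]
    congr 1
    refine sum_congr rfl fun i _ => ?_
    rw [ex_dep hV]
    ring
  rw [h0, norm_mul]
  have h2 : ‖(3 : ℂ)‖ = 3 := by norm_num
  rw [h2]
  refine mul_le_mul_of_nonneg_left ((norm_sum_le _ _).trans (sum_le_sum fun i _ => ?_))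
    (by norm_num)
  rw [norm_mul, norm_omz, one_mul]
  exact ex_near hη (hD i)

theorem st_near_le {q : ℝ} (hV : V' ⊆ V) (hη : 0 ≤ η) (hD0 : 0 ≤ D)
    (hD : ∀ i, ∀ β ⊆ V, ‖y i β - y' i (β ∩ V')‖ ≤ D)
    (hq : ∀ i, pr V (fun β => η < ‖y i β - y' i (β ∩ V')‖) ≤ q) :
    ‖ST V y - ST V' y'‖ ≤ 9 * (η + D * q) := by
  refine (st_near hV hη hD).trans ?_
  have h1 : ∑ i : ZMod 3, (η + D * pr V (fun β => η < ‖y i β - y' i (β ∩ V')‖)) ≤
      ∑ _i : ZMod 3, (η + D * q) :=
    sum_le_sum fun i _ => by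
      have := mul_le_mul_of_nonneg_left (hq i) hD0
      linarith
  rw [sum_const, card_univ, ZMod.card, nsmul_eq_mul] at h1
  push_cast at h1
  linarith



/-! ### the scales -/

/-- **the choice of the scales in CONT** : `d << ρ₁ << ρ₂ << η`, ratios `(d / D) ^ (1 / 4)` -/
theorem four {d D c C : ℝ} (hd : 0 < d) (hdD : d ≤ D) (hC : 0 ≤ C) (hc : 0 ≤ c) {N : ℝ}
    (h : ∀ ρ1 ρ2 η : ℝ, d ≤ ρ1 → ρ1 ≤ ρ2 → ρ2 ≤ η → η ≤ D →
      N ≤ η + D * (C * ((d / η) ^ c + (d / ρ1) ^ c + (ρ1 / ρ2) ^ c + (ρ2 / η) ^ c))) :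
    N ≤ (1 + 4 * C) * D * (d / D) ^ (min c 1 / 4) := by
  have hD : 0 < D := hd.trans_le hdD
  set t : ℝ := d / D with ht
  have t0 : 0 < t := div_pos hd hD
  have t1 : t ≤ 1 := (div_le_one hD).2 hdD
  have r1 : t ^ (1 / 4 : ℝ) ≤ 1 := Real.rpow_le_one t0.le t1 (by norm_num)
  have r0 : 0 < t ^ (1 / 4 : ℝ) := Real.rpow_pos_of_pos t0 _
  set s : ℝ := t ^ (1 / 4 : ℝ) with hs
  have hs4 : s ^ 4 = t := by
    rw [hs, ← Real.rpow_natCast, ← Real.rpow_mul t0.le]
    norm_num
  have hdt : d = D * s ^ 4 := by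
    rw [hs4, ht]
    field_simp
  have e1 := h (D * s ^ 3) (D * s ^ 2) (D * s) (by
      rw [hdt]
      exact mul_le_mul_of_nonneg_left (pow_le_pow_of_le_one r0.le r1 (by norm_num)) hD.le)
    (mul_le_mul_of_nonneg_left (pow_le_pow_of_le_one r0.le r1 (by norm_num)) hD.le)
    (by
      have := pow_le_pow_of_le_one r0.le r1 (show 1 ≤ 2 by norm_num)
      rw [pow_one] at this
      exact mul_le_mul_of_nonneg_left this hD.le)
    (by nlinarith)
  have q1 : d / (D * s) = s ^ 3 := by rw [hdt]; field_simp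
  have q2 : d / (D * s ^ 3) = s := by rw [hdt]; field_simp
  have q3 : D * s ^ 3 / (D * s ^ 2) = s := by field_simp
  have q4 : D * s ^ 2 / (D * s) = s := by field_simp
  rw [q1, q2, q3, q4] at e1
  have p1 : s ^ c ≤ s ^ min c 1 := Real.rpow_le_rpow_of_exponent_ge r0 r1 (min_le_left _ _)
  have p2 : (s ^ 3) ^ c ≤ s ^ c := by
    refine Real.rpow_le_rpow (by positivity) ?_ hc
    have := pow_le_pow_of_le_one r0.le r1 (show 1 ≤ 3 by norm_num)
    rwa [pow_one] at this
  have p3 : s ≤ s ^ min c 1 := by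
    have := Real.rpow_le_rpow_of_exponent_ge r0 r1 (min_le_right c 1)
    rwa [Real.rpow_one] at this
  have p4 : s ^ min c 1 = t ^ (min c 1 / 4) := by
    rw [hs, ← Real.rpow_mul t0.le]
    congr 1
    ring
  rw [← p4]
  set X := s ^ min c 1
  have u1 : D * s ≤ D * X := mul_le_mul_of_nonneg_left p3 hD.le
  have u2 : C * ((s ^ 3) ^ c + s ^ c + s ^ c + s ^ c) ≤ C * (4 * X) :=
    mul_le_mul_of_nonneg_left (by linarith) hC
  have u3 := mul_le_mul_of_nonneg_left u2 hD.le
  calc N ≤ _ := e1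
    _ ≤ D * X + D * (C * (4 * X)) := add_le_add u1 u3
    _ = (1 + 4 * C) * D * X := by ring

/-- **CONT, analytic form**: the probability bound of note 3434 at all scales gives a power -/
theorem st_pow {V V' : Finset α} {y y' : ZMod 3 → Finset α → ℂ} {d D c C : ℝ} (hV : V' ⊆ V)
    (hd : 0 < d) (hdD : d ≤ D) (hC : 0 ≤ C) (hc : 0 ≤ c)
    (hD : ∀ i, ∀ β ⊆ V, ‖y i β - y' i (β ∩ V')‖ ≤ D)
    (hq : ∀ i, ∀ ρ1 ρ2 η : ℝ, d ≤ ρ1 → ρ1 ≤ ρ2 → ρ2 ≤ η → η ≤ D →
      pr V (fun β => η < ‖y i β - y' i (β ∩ V')‖) ≤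
        C * ((d / η) ^ c + (d / ρ1) ^ c + (ρ1 / ρ2) ^ c + (ρ2 / η) ^ c)) :
    ‖ST V y - ST V' y'‖ ≤ 9 * ((1 + 4 * C) * D * (d / D) ^ (min c 1 / 4)) := by
  have hD0 : 0 ≤ D := (hd.trans_le hdD).le
  have h1 : ‖ST V y - ST V' y'‖ / 9 ≤ (1 + 4 * C) * D * (d / D) ^ (min c 1 / 4) := by
    refine four hd hdD hC hc fun ρ1 ρ2 η h1 h2 h3 h4 => ?_
    have hη : 0 ≤ η := hd.le.trans (h1.trans (h2.trans h3))
    have := st_near_le hV hη hD0 hD (fun i => hq i ρ1 ρ2 η h1 h2 h3 h4)
    linarith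
  linarith

end fin

/-! ### mean over the points -/

section pts

variable {Ω : Type*} [MeasurableSpace Ω] {μ : Measure Ω} [IsProbabilityMeasure μ]



end pts

end Crest.Agent.R143.Applx359
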