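import Crest.Agent.R143.K33D_877
import Crest.Agent.R143.Har_315

/-!
# Row 143 (S0194): FROZEN OBJECT of CORE-C : three giants on a finite set of sites (helper346)

385's universal object, 395's / 54's / 660's static form, in 877's language (`K33D_877`).
No hull, no tentacles, no marks, no root face: `S : Finset ℂ`, giants `A : ZMod 3 → Set ℂ`.

* `ff S A` : the free sites as a `Finset` (`K33x877.fr S A`);
* `HitO S A i T t` : **ORIENTED** hit triple `t = (u, b, v) ∈ delT S` (counterclockwise), `u ∈ A i`,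
  `b` joined to `A (i + 1)` by black (`T`) free sites, `v` joined to `A (i + 2)` by white free sites
  (= 877's `Hit S A (i + 1) (i + 2) i T b v u` + orientation; a root face `o` of the giants is
  negative, hence never a hit);
* `Ey S A z i` : mean of `z u` over the fair colourings `T ⊆ ff S A` (sum over all the hit triples:
  exactly one, by K33);
* **`TS S A z = 3 * ∑ i, om ^ i * Ey S A z i`** : `T = TS S A id`, `T' = TS S A conj`;
* `G3 S A` : disjoint connected giants; `Hex S A` : exactly one oriented hit triple for every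
  colouring (to be delivered: `Tr` by 877 / 137, HNet by 54, root face by 137 / 395);
* `cls S U L j` : sites of `S` off the fresh region `U`, label `j` (grid / brick polygons).
-/

set_option autoImplicit false

noncomputable section

open scoped Classical

namespace Crest.Agent.R143.NetUx346

open Crest.Agent.R143.B0x346 Crest.Agent.R143.DelGx806 Crest.Agent.R143.DelRx806
open Crest.Agent.R143.JColx54 (Adj)
open Crest.Agent.R143.RE0x723 (Pth)
open Crest.Agent.R143.K33x877 (Clu Hit fr)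

/-- the free sites -/
def ff (S : Finset ℂ) (A : ZMod 3 → Set ℂ) : Finset ℂ := S.filter fun v => ∀ i, v ∉ A i

/-- **the oriented hit triple** of the giant `i` in the colouring with black set `T` -/
def HitO (S : Finset ℂ) (A : ZMod 3 → Set ℂ) (i : ZMod 3) (T : Set ℂ) (t : ℂ × ℂ × ℂ) : Prop :=
  t ∈ delT S ∧ t.1 ∈ A i ∧ t.2.1 ∈ Clu S (fr S A ∩ T) (A (i + 1)) ∧
    t.2.2 ∈ Clu S (fr S A \ T) (A (i + 2))

/-- the hit triples -/
def hits (S : Finset ℂ) (A : ZMod 3 → Set ℂ) (i : ZMod 3) (T : Set ℂ) : Finset (ℂ × ℂ × ℂ) :=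
  (delT S).filter (HitO S A i T)

/-- mean over the fair colourings -/
def exC (V : Finset ℂ) (f : Finset ℂ → ℂ) : ℂ := (∑ T ∈ V.powerset, f T) / 2 ^ V.card

/-- mean end point on the giant `i` -/
def Ey (S : Finset ℂ) (A : ZMod 3 → Set ℂ) (z : ℂ → ℂ) (i : ZMod 3) : ℂ :=
  exC (ff S A) fun T => ∑ t ∈ hits S A i (T : Set ℂ), z t.1

/-- **`T` (`z = id`) and `T'` (`z = conj`) of the net of the three giants** -/
def TS (S : Finset ℂ) (A : ZMod 3 → Set ℂ) (z : ℂ → ℂ) : ℂ :=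
  3 * ∑ i : ZMod 3, omz i * Ey S A z i

/-- three giants -/
structure G3 (S : Finset ℂ) (A : ZMod 3 → Set ℂ) : Prop where
  gp : GP (S : Set ℂ)
  sub : ∀ i, A i ⊆ (S : Set ℂ)
  disj : ∀ i j, i ≠ j → Disjoint (A i) (A j)
  con : ∀ i, ∀ x ∈ A i, ∀ y ∈ A i, Pth S (A i) x y

/-- exactly one oriented hit triple for every colouring of the free sites -/
def Hex (S : Finset ℂ) (A : ZMod 3 → Set ℂ) : Prop :=
  ∀ i, ∀ T : Finset ℂ, T ⊆ ff S A → ∃! t, HitO S A i (T : Set ℂ) t

/-- sites of `S` off the fresh region `U`, with label `j` -/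
def cls (S : Finset ℂ) (U : Set ℂ) (L : ℂ → ZMod 3) (j : ZMod 3) : Set ℂ :=
  {x | x ∈ S ∧ x ∉ U ∧ L x = j}

/-! ### first properties -/

variable {S : Finset ℂ} {A : ZMod 3 → Set ℂ} {i : ZMod 3}

theorem mem_ff {v : ℂ} : v ∈ ff S A ↔ v ∈ fr S A := by
  unfold ff fr
  rw [Finset.mem_filter]
  rfl

theorem hitO_iff (hS : GP (S : Set ℂ)) {T : Set ℂ} {t : ℂ × ℂ × ℂ} : HitO S A i T t ↔
    Hit S A (i + 1) (i + 2) i T t.2.1 t.2.2 t.1 ∧ t ∈ delT S := by
  constructor
  · rintro ⟨h1, h2, h3, h4⟩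
    refine ⟨⟨?_, h3, h4, h2⟩, h1⟩
    left
    exact Crest.Agent.R143.JColx54.delT_rot hS h1
  · rintro ⟨h, h1⟩
    exact ⟨h1, h.hu, h.hb, h.hv⟩

theorem mem_hits {T : Set ℂ} {t : ℂ × ℂ × ℂ} : t ∈ hits S A i T ↔ HitO S A i T t := by
  unfold hits
  rw [Finset.mem_filter]
  exact ⟨fun h => h.2, fun h => ⟨h.1, h⟩⟩

/-- the hit vertex -/
def hv (S : Finset ℂ) (A : ZMod 3 → Set ℂ) (i : ZMod 3) (T : Set ℂ) : ℂ :=
  if h : ∃ t, HitO S A i T t then h.choose.1 else 0

theorem hv_eq (hX : Hex S A) {T : Finset ℂ} (hT : T ⊆ ff S A) {t : ℂ × ℂ × ℂ}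
    (ht : HitO S A i T t) : hv S A i T = t.1 := by
  obtain ⟨t', h, hu⟩ := hX i T hT
  have hex : ∃ t, HitO S A i T t := ⟨t, ht⟩
  unfold hv
  rw [dif_pos hex, hu _ hex.choose_spec, ← hu _ ht]

theorem sum_hits (hX : Hex S A) (z : ℂ → ℂ) {T : Finset ℂ} (hT : T ⊆ ff S A) :
    ∑ t ∈ hits S A i (T : Set ℂ), z t.1 = z (hv S A i T) := by
  obtain ⟨t, h, hu⟩ := hX i T hT
  have e : hits S A i (T : Set ℂ) = {t} := by
    ext t'
    rw [mem_hits, Finset.mem_singleton]
    exact ⟨hu t', fun e => e ▸ h⟩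
  rw [e, Finset.sum_singleton, hv_eq hX hT h]

theorem hv_mem (hX : Hex S A) {T : Finset ℂ} (hT : T ⊆ ff S A) : hv S A i T ∈ A i := by
  obtain ⟨t, h, -⟩ := hX i T hT
  rw [hv_eq hX hT h]
  exact h.2.1

/-- **`E z (y_i)`** -/
theorem Ey_eq (hX : Hex S A) (z : ℂ → ℂ) (i : ZMod 3) :
    Ey S A z i = exC (ff S A) fun T => z (hv S A i T) := by
  unfold Ey exC
  congr 1
  exact Finset.sum_congr rfl fun T hT => sum_hits hX z (Finset.mem_powerset.1 hT)

/-- the mean of any function which is the value at a hit triple -/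
theorem Ey_of (hX : Hex S A) (z : ℂ → ℂ) (i : ZMod 3) (y : Finset ℂ → ℂ)
    (hy : ∀ T ⊆ ff S A, ∃ b v, HitO S A i (T : Set ℂ) (y T, b, v)) :
    Ey S A z i = exC (ff S A) fun T => z (y T) := by
  rw [Ey_eq hX]
  unfold exC
  congr 1
  refine Finset.sum_congr rfl fun T hT => ?_
  obtain ⟨b, v, h⟩ := hy T (Finset.mem_powerset.1 hT)
  show z (hv S A i (T : Set ℂ)) = z (y T)
  rw [hv_eq hX (Finset.mem_powerset.1 hT) h]

/-! ### means -/

theorem exC_const (V : Finset ℂ) (c : ℂ) : exC V (fun _ => c) = c := by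
  unfold exC
  rw [Finset.sum_const, Finset.card_powerset, nsmul_eq_mul]
  push_cast
  field_simp

theorem exC_sub (V : Finset ℂ) (f g : Finset ℂ → ℂ) :
    exC V (fun T => f T - g T) = exC V f - exC V g := by
  unfold exC
  rw [Finset.sum_sub_distrib, sub_div]


theorem exC_mul (V : Finset ℂ) (c : ℂ) (f : Finset ℂ → ℂ) :
    exC V (fun T => c * f T) = c * exC V f := by
  unfold exC
  rw [← Finset.mul_sum, mul_div_assoc]

/-- `‖E f‖ ≤ E ‖f‖` -/
theorem norm_exC_le (V : Finset ℂ) (f : Finset ℂ → ℂ) :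
    ‖exC V f‖ ≤ (∑ T ∈ V.powerset, ‖f T‖) / 2 ^ V.card := by
  unfold exC
  rw [norm_div, norm_pow, Complex.norm_ofNat]
  gcongr
  exact norm_sum_le _ _

theorem norm_exC (V : Finset ℂ) (f : Finset ℂ → ℂ) {B : ℝ} (h : ∀ T ⊆ V, ‖f T‖ ≤ B) :
    ‖exC V f‖ ≤ B := by
  refine (norm_exC_le V f).trans ?_
  rw [div_le_iff₀ (by positivity)]
  refine (Finset.sum_le_sum fun T hT => h T (Finset.mem_powerset.1 hT)).trans ?_
  rw [Finset.sum_const, Finset.card_powerset, nsmul_eq_mul]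
  push_cast
  exact le_of_eq (mul_comm _ _)

theorem norm_omz (i : ZMod 3) : ‖omz i‖ = 1 := by
  unfold omz om
  rw [norm_pow, Complex.norm_exp_ofReal_mul_I, one_pow]



end Crest.Agent.R143.NetUx346
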