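import Crest.Agent.R143.K33_877
import Crest.Agent.R143.NetU_346
import Crest.Agent.R143.CNT_930
import Crest.Agent.R143.Alg4_133

/-!
# Row 143 (S0194), CONT (C): small centre ⇒ `T` small (802's 39384, shadow version, helper496)

* `det_t` : `c` a rainbow triangle ⇒ every oriented hit triple is `c` (up to rotation)
* `det_x` : `X` a connected free centre ⇒ a black chain from `X` to the black vertex of the hit triple
  or a white chain from `X` to its white vertex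
* `SmC S A p ρ` : a centre (`CtrT` or `CtrX`) inside the ball
* `small` : `‖TS S A z‖ ≤ 9 (η + M q)`, `q` = probability of an arm of one of the two colours
  (`CNTx930.Arm2`, bound `CNTx930.arm2`), `z = id` or `conj`
-/

set_option autoImplicit false

noncomputable section

open scoped Classical

namespace Crest.Agent.R143.CenSx496

open Crest.Agent.R143.B0x346 Crest.Agent.R143.DelGx806 Crest.Agent.R143.DelRx806
open Crest.Agent.R143.Harx315
open Crest.Agent.R143.JColx54 (Adj)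
open Crest.Agent.R143.RE0x723 (Pth)
open Crest.Agent.R143.RB2x54 (Vt)
open Crest.Agent.R143.D3Fx802 (CArm)
open Crest.Agent.R143.K33x877 (Clu Hit fr Tr CtrT CtrX)
open Crest.Agent.R143.NetUx346

variable {S : Finset ℂ} {A : ZMod 3 → Set ℂ} {i : ZMod 3} {X F B T : Set ℂ} {t : ℂ × ℂ × ℂ}
  {b x y : ℂ}

/-- the component of `b` -/
def Kp (S : Finset ℂ) (F : Set ℂ) (b : ℂ) : Set ℂ := {v | Pth S F v b}

theorem kp_sub : Kp S F b ⊆ F := fun _ h => h.1

theorem kp_self (h : Pth S F x b) : Pth S (Kp S F b) x b :=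
  (h.self).mono fun _ hv => hv.2


theorem clu_out (h : b ∈ Clu S F B) : b ∈ B ∨ ∃ a ∈ B, ∃ v, Adj S a v ∧ v ∈ Kp S F b := by
  obtain ⟨a, h1, h2⟩ := h
  refine h2.ind (P := fun x => x ∈ B ∨ ∃ a ∈ B, ∃ v, Adj S a v ∧ v ∈ Kp S F x) (Or.inl h1) ?_
  rintro u w _ hw huw ih
  rcases hw with hw | hw
  · right
    rcases ih with ih | ⟨a, ha, v, h3, h4⟩
    · exact ⟨u, ih, w, huw, Pth.refl hw⟩
    · exact ⟨a, ha, v, h3, Pth.tail (S := S) h4 huw hw⟩
  · exact Or.inl hw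

/-- a class with the component of a site of its cluster is connected -/
theorem con_kp (hB : ∀ x ∈ B, ∀ y ∈ B, Pth S B x y) (hF : Disjoint F B) (hb : b ∈ Clu S F B) :
    ∀ x ∈ B ∪ Kp S F b, ∀ y ∈ B ∪ Kp S F b, Pth S (B ∪ Kp S F b) x y := by
  rcases clu_out hb with h | ⟨a, ha, v, h1, h2⟩
  · have e : Kp S F b = ∅ := by
      rw [Set.eq_empty_iff_forall_notMem]
      intro v hv
      exact Set.disjoint_left.1 hF (Pth.snd (S := S) hv) h
    rw [e, Set.union_empty]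
    exact hB
  · have key : ∀ x ∈ B ∪ Kp S F b, Pth S (B ∪ Kp S F b) x a := by
      rintro x (hx | hx)
      · exact (hB x hx a ha).mono Set.subset_union_left
      · have h3 : Pth S (B ∪ Kp S F b) x b := (kp_self hx).mono Set.subset_union_right
        have h4 : Pth S (B ∪ Kp S F b) v b := (kp_self h2).mono Set.subset_union_right
        exact (h3.trans h4.symm).tail h1.symm (Or.inl ha)
    intro x hx y hy
    exact (key x hx).trans (key y hy).symm

/-- the enlarged classes -/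
def En (S : Finset ℂ) (A : ZMod 3 → Set ℂ) (i : ZMod 3) (T : Set ℂ) (t : ℂ × ℂ × ℂ) (j : ZMod 3) :
    Set ℂ :=
  if j = i + 1 then A (i + 1) ∪ Kp S (fr S A ∩ T) t.2.1
  else if j = i + 2 then A (i + 2) ∪ Kp S (fr S A \ T) t.2.2
  else A j

theorem ne1 : i + 1 ≠ i := by revert i; decide
theorem ne2 : i + 2 ≠ i := by revert i; decide
theorem ne3 : i + 2 ≠ i + 1 := by revert i; decide
theorem three_cases (i j : ZMod 3) : j = i ∨ j = i + 1 ∨ j = i + 2 := by revert i j; decide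

theorem en0 : En S A i T t i = A i := by
  unfold En
  rw [if_neg ne1.symm, if_neg ne2.symm]

theorem en1 : En S A i T t (i + 1) = A (i + 1) ∪ Kp S (fr S A ∩ T) t.2.1 := by
  unfold En
  rw [if_pos rfl]

theorem en2 : En S A i T t (i + 2) = A (i + 2) ∪ Kp S (fr S A \ T) t.2.2 := by
  unfold En
  rw [if_neg ne3, if_pos rfl]

theorem sub_en (j : ZMod 3) : A j ⊆ En S A i T t j := by
  rcases three_cases i j with rfl | rfl | rfl
  · rw [en0]
  · rw [en1]; exact Set.subset_union_left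
  · rw [en2]; exact Set.subset_union_left

theorem en_cases {j : ZMod 3} (h : x ∈ En S A i T t j) : x ∈ A j ∨
    (j = i + 1 ∧ x ∈ Kp S (fr S A ∩ T) t.2.1) ∨ (j = i + 2 ∧ x ∈ Kp S (fr S A \ T) t.2.2) := by
  rcases three_cases i j with rfl | rfl | rfl
  · rw [en0] at h; exact Or.inl h
  · rw [en1] at h
    rcases h with h | h
    · exact Or.inl h
    · exact Or.inr (Or.inl ⟨rfl, h⟩)
  · rw [en2] at h
    rcases h with h | h
    · exact Or.inl h
    · exact Or.inr (Or.inr ⟨rfl, h⟩)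

theorem en_free {j : ZMod 3} (h : x ∈ En S A i T t j) : x ∈ A j ∨ x ∈ fr S A := by
  rcases en_cases h with h | ⟨-, h⟩ | ⟨-, h⟩
  · exact Or.inl h
  · exact Or.inr (kp_sub h).1
  · exact Or.inr (kp_sub h).1

theorem fr_disj : Disjoint (fr S A) (A i) := Set.disjoint_left.2 fun _ hx => hx.2 i

/-- **the enlarged classes** -/
theorem tr_en (hT : Tr S A) (h : HitO S A i T t) : Tr S (En S A i T t) := by
  obtain ⟨h1, h2, h3, h4⟩ := h
  have hullA : ∀ {u w : ℂ} {j : ZMod 3}, (hullE S u w ∨ hullE S w u) → u ∈ En S A i T t j →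
      u ∈ A j := by
    intro u w j hu hj
    rcases en_free hj with hj' | hj'
    · exact hj'
    · obtain ⟨m, hm⟩ := hT.hull_mem hu
      exact absurd hm (hj'.2 m)
  refine ⟨hT.gp, ?_, ?_, ?_, ?_, ?_⟩
  · intro j v hv
    rcases en_free hv with hv | hv
    · exact hT.sub j hv
    · exact hv.1
  · intro j k hjk
    rw [Set.disjoint_left]
    intro v hv hv'
    rcases en_cases hv with a1 | ⟨e1, a1⟩ | ⟨e1, a1⟩ <;>
      rcases en_cases hv' with a2 | ⟨e2, a2⟩ | ⟨e2, a2⟩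
    · exact Set.disjoint_left.1 (hT.disj j k hjk) a1 a2
    · exact (kp_sub a2).1.2 j a1
    · exact (kp_sub a2).1.2 j a1
    · exact (kp_sub a1).1.2 k a2
    · exact hjk (e1.trans e2.symm)
    · exact (kp_sub a2).2 (kp_sub a1).2
    · exact (kp_sub a1).1.2 k a2
    · exact (kp_sub a1).2 (kp_sub a2).2
    · exact hjk (e1.trans e2.symm)
  · intro j
    rcases three_cases i j with rfl | rfl | rfl
    · rw [en0]; exact hT.con _
    · rw [en1]
      exact con_kp (hT.con _) ((fr_disj (S := S) (A := A)).mono_left Set.inter_subset_left) h3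
    · rw [en2]
      exact con_kp (hT.con _) ((fr_disj (S := S) (A := A)).mono_left Set.sdiff_subset) h4
  · intro u w huw
    obtain ⟨m, hm⟩ := hT.hull u w huw
    exact ⟨m, sub_en m hm⟩
  · intro j k hjk
    obtain ⟨u, w, hh, hu, hw, huniq⟩ := hT.one j k hjk
    refine ⟨u, w, hh, sub_en j hu, sub_en k hw, ?_⟩
    intro u' w' hh' hu' hw'
    exact huniq u' w' hh' (hullA hh' hu') (hullA hh'.symm hw')

/-- the hit triple is a centre of the enlarged classes -/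
theorem ctr_en (h : HitO S A i T t) : CtrT S (En S A i T t) t := by
  obtain ⟨h1, h2, h3, h4⟩ := h
  refine ⟨h1, fun j => ?_⟩
  rcases three_cases i j with rfl | rfl | rfl
  · exact ⟨t.1, Or.inl rfl, by rw [en0]; exact h2⟩
  · refine ⟨t.2.1, Or.inr (Or.inl rfl), ?_⟩
    rw [en1]
    obtain ⟨a, ha, hp⟩ := h3
    rcases hp.snd with h5 | h5
    · exact Or.inr (Pth.refl h5)
    · exact Or.inl h5
  · refine ⟨t.2.2, Or.inr (Or.inr rfl), ?_⟩
    rw [en2]
    obtain ⟨a, ha, hp⟩ := h4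
    rcases hp.snd with h5 | h5
    · exact Or.inr (Pth.refl h5)
    · exact Or.inl h5

/-- **a rainbow triangle is the hit triple** -/
theorem det_t (hT : Tr S A) {c : ℂ × ℂ × ℂ} (hc : CtrT S A c) (h : HitO S A i T t) :
    t ∈ rots c := by
  refine Crest.Agent.R143.K33x877.ktt S _ (tr_en hT h) c t ⟨hc.1, fun j => ?_⟩ (ctr_en h)
  obtain ⟨v, hv, hv'⟩ := hc.2 j
  exact ⟨v, hv, sub_en j hv'⟩

/-- **a connected free centre is joined to the hit triple by one colour** -/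
theorem det_x (hT : Tr S A) (hX : CtrX S A X) (h : HitO S A i T t) :
    (∃ x ∈ X, Pth S (fr S A ∩ T) x t.2.1) ∨ ∃ x ∈ X, Pth S (fr S A \ T) x t.2.2 := by
  by_contra hc
  push Not at hc
  refine Crest.Agent.R143.K33x877.ktx S _ (tr_en hT h) t X (ctr_en h) ⟨fun j => ?_, hX.2.1, ?_⟩
  · rw [Set.disjoint_left]
    intro x hx hx'
    rcases en_cases hx' with h5 | ⟨-, h5⟩ | ⟨-, h5⟩
    · exact Set.disjoint_left.1 (hX.1 j) hx h5
    · exact hc.1 x hx h5
    · exact hc.2 x hx h5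
  · intro j
    obtain ⟨x, hx, y, hy, hxy⟩ := hX.2.2 j
    exact ⟨x, hx, y, sub_en j hy, hxy⟩

/-! ### probability -/

open Crest.Agent.R143.Lawx872 (ConnIn)
open Crest.Agent.R143.CNTx930 (Arm2)

/-- mean of a function which is small off an event -/
theorem norm_exC_split {V : Finset ℂ} {f : Finset ℂ → ℂ} {P : Finset ℂ → Prop} {η M : ℝ}
    (hη : 0 ≤ η) (h1 : ∀ T ⊆ V, ‖f T‖ ≤ M) (h2 : ∀ T ⊆ V, ¬ P T → ‖f T‖ ≤ η) :
    ‖exC V f‖ ≤ η + M * pr V P := by
  refine (norm_exC_le V f).trans ?_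
  have h3 : pr V P = (∑ T ∈ V.powerset, if P T then (1 : ℝ) else 0) / 2 ^ V.card :=
    (XW1x315.ex_ind (V := V) P).symm
  rw [h3, ← mul_div_assoc]
  have h4 : η = (∑ T ∈ V.powerset, η) / 2 ^ V.card := by
    rw [Finset.sum_const, Finset.card_powerset, nsmul_eq_mul]
    push_cast
    field_simp
  rw [h4, ← add_div, Finset.mul_sum, ← Finset.sum_add_distrib]
  gcongr with T hT
  have hT' := Finset.mem_powerset.1 hT
  by_cases hP : P T
  · rw [if_pos hP, mul_one]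
    linarith [h1 T hT']
  · rw [if_neg hP, mul_zero, add_zero]
    exact h2 T hT' hP

theorem conn_of_pth {F : Set ℂ} {W : Finset ℂ} (hF : F ⊆ W) (h : Pth S F x y) :
    x ∈ W ∧ y ∈ W ∧ ConnIn S W x y := by
  refine ⟨hF h.1, hF h.snd, ?_⟩
  have hx : x ∈ F := h.1
  refine h.ind (P := fun y => ConnIn S W x y) Relation.ReflTransGen.refl ?_
  intro u w hu hw huw ih
  exact ih.tail ⟨huw, hF hu, hF hw⟩

/-- the hit vertex is near a connected free centre, or a chain of one colour goes away from it -/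
theorem near_x (hT : Tr S A) (hX : CtrX S A X) {p : ℂ} {ρ d η : ℝ} (hρ : ∀ x ∈ X, ‖x - p‖ ≤ ρ)
    (hd : ∀ u v, Adj S u v → ‖u - p‖ < η - d → ‖v - u‖ ≤ d) {T : Finset ℂ}
    (h : HitO S A i (T : Set ℂ) t) (hfar : η < ‖t.1 - p‖) : Arm2 S (ff S A) p ρ (η - d) T := by
  have hgp := hT.gp
  have far : ∀ b : ℂ, Adj S b t.1 → η - d ≤ ‖b - p‖ := by
    intro b hb
    by_contra hc
    push Not at hc
    have h1 := hd b t.1 hb hc
    have h2 : ‖t.1 - p‖ ≤ ‖t.1 - b‖ + ‖b - p‖ := by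
      have : t.1 - p = (t.1 - b) + (b - p) := by ring
      rw [this]; exact norm_add_le _ _
    linarith
  have e1 : Adj S t.2.1 t.1 := Or.inr ⟨_, h.1⟩
  have e2 : Adj S t.2.2 t.1 := Or.inl ⟨_, JColx54.delT_rot hgp (JColx54.delT_rot hgp h.1)⟩
  rcases det_x hT hX h with ⟨x, hx, hp⟩ | ⟨x, hx, hp⟩
  · left
    obtain ⟨h1, h2, h3⟩ := conn_of_pth (W := T) (fun _ hv => hv.2) hp
    exact ⟨x, _, h1, h2, hρ x hx, far _ e1, h3⟩
  · right
    obtain ⟨h1, h2, h3⟩ := conn_of_pth (W := ff S A \ T) (fun v hv => by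
      rw [Finset.coe_sdiff]
      exact ⟨mem_ff.2 hv.1, hv.2⟩) hp
    exact ⟨x, _, h1, h2, hρ x hx, far _ e2, h3⟩

theorem ts_sub (hE : Hex S A) (z : ℂ → ℂ) (c : ℂ) :
    TS S A z = 3 * ∑ i : ZMod 3, omz i * exC (ff S A) fun T => z (hv S A i T) - c := by
  unfold TS
  congr 1
  have h1 : ∀ i : ZMod 3, (exC (ff S A) fun T => z (hv S A i T) - c) = Ey S A z i - c := by
    intro i
    rw [exC_sub, exC_const, Ey_eq hE]
  have h2 : ∑ i : ZMod 3, omz i * c = 0 := by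
    rw [← Finset.sum_mul, Alg4x133.sum_omz, zero_mul]
  have h3 : ∑ i : ZMod 3, omz i * (exC (ff S A) fun T => z (hv S A i T) - c) =
      ∑ i : ZMod 3, omz i * Ey S A z i - ∑ i : ZMod 3, omz i * c := by
    rw [← Finset.sum_sub_distrib]
    refine Finset.sum_congr rfl fun i _ => ?_
    rw [h1 i, mul_sub]
  rw [h3, h2, sub_zero]

/-- `‖T‖ ≤ 9 ε` if all the means are within `ε` of the same value -/
theorem ts_le (hE : Hex S A) {z : ℂ → ℂ} {c : ℂ} {ε : ℝ}
    (h : ∀ i, ‖exC (ff S A) fun T => z (hv S A i T) - c‖ ≤ ε) : ‖TS S A z‖ ≤ 9 * ε := by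
  rw [ts_sub hE z c, norm_mul, Complex.norm_ofNat]
  have h2 : ‖∑ i : ZMod 3, omz i * exC (ff S A) fun T => z (hv S A i T) - c‖ ≤ 3 * ε := by
    refine (norm_sum_le _ _).trans ?_
    have h3 : ∀ i ∈ (Finset.univ : Finset (ZMod 3)),
        ‖omz i * exC (ff S A) fun T => z (hv S A i T) - c‖ ≤ ε := by
      intro i _
      rw [norm_mul, norm_omz, one_mul]
      exact h i
    refine (Finset.sum_le_sum h3).trans ?_
    rw [Finset.sum_const, Finset.card_univ, ZMod.card, nsmul_eq_mul]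
    push_cast
    exact le_rfl
  linarith

/-- **(C), connected free centre** -/
theorem small_x (hT : Tr S A) (hE : Hex S A) (hX : CtrX S A X) {p : ℂ} {ρ d η M q : ℝ}
    (hη : 0 ≤ η) (hρ : ∀ x ∈ X, ‖x - p‖ ≤ ρ)
    (hd : ∀ u v, Adj S u v → ‖u - p‖ < η - d → ‖v - u‖ ≤ d)
    (hM : ∀ i, ∀ v ∈ A i, ‖v - p‖ ≤ M) (hM0 : 0 ≤ M)
    (hq : pr (ff S A) (Arm2 S (ff S A) p ρ (η - d)) ≤ q) {z : ℂ → ℂ}
    (hz : ∀ u v, ‖z u - z v‖ ≤ ‖u - v‖) : ‖TS S A z‖ ≤ 9 * (η + M * q) := by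
  refine ts_le hE (c := z p) fun i => ?_
  refine (norm_exC_split (P := Arm2 S (ff S A) p ρ (η - d)) (M := M) hη ?_ ?_).trans ?_
  · intro T hTf
    exact (hz _ _).trans (hM i _ (hv_mem hE hTf))
  · intro T hTf hP
    refine (hz _ _).trans ?_
    by_contra hc
    push Not at hc
    obtain ⟨t, ht, -⟩ := hE i T hTf
    rw [hv_eq hE hTf ht] at hc
    exact hP (near_x hT hX hρ hd ht hc)
  · gcongr

/-- **(C), rainbow triangle** -/
theorem small_t (hT : Tr S A) (hE : Hex S A) {c : ℂ × ℂ × ℂ} (hc : CtrT S A c) {p : ℂ} {η : ℝ}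
    (hη : ∀ v, Vt c v → ‖v - p‖ ≤ η) {z : ℂ → ℂ} (hz : ∀ u v, ‖z u - z v‖ ≤ ‖u - v‖) :
    ‖TS S A z‖ ≤ 9 * η := by
  refine ts_le hE (c := z p) fun i => norm_exC _ _ fun T hTf => ?_
  obtain ⟨t, ht, -⟩ := hE i T hTf
  show ‖z (hv S A i (T : Set ℂ)) - z p‖ ≤ η
  rw [hv_eq hE hTf ht]
  refine (hz _ _).trans (hη _ ?_)
  rcases det_t hT hc ht with e | e | e
  · exact Or.inl (by rw [e])
  · exact Or.inr (Or.inl (by rw [e]))
  · exact Or.inr (Or.inr (by rw [e]))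

/-- a centre (triangle or connected free set) inside the ball -/
def SmC (S : Finset ℂ) (A : ZMod 3 → Set ℂ) (p : ℂ) (ρ : ℝ) : Prop :=
  (∃ c, CtrT S A c ∧ ∀ v, Vt c v → ‖v - p‖ ≤ ρ) ∨ ∃ X, CtrX S A X ∧ ∀ x ∈ X, ‖x - p‖ ≤ ρ

/-- **(C) SMALL CENTRE ⇒ `T` SMALL** -/
theorem small (hT : Tr S A) (hE : Hex S A) {p : ℂ} {ρ d η M q : ℝ} (hC : SmC S A p ρ)
    (hρη : ρ ≤ η) (hη : 0 ≤ η)
    (hd : ∀ u v, Adj S u v → ‖u - p‖ < η - d → ‖v - u‖ ≤ d)
    (hM : ∀ i, ∀ v ∈ A i, ‖v - p‖ ≤ M) (hM0 : 0 ≤ M)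
    (hq : pr (ff S A) (Arm2 S (ff S A) p ρ (η - d)) ≤ q) {z : ℂ → ℂ}
    (hz : ∀ u v, ‖z u - z v‖ ≤ ‖u - v‖) : ‖TS S A z‖ ≤ 9 * (η + M * q) := by
  rcases hC with ⟨c, hc, hc'⟩ | ⟨X, hX, hX'⟩
  · refine (small_t hT hE hc (fun v hv => (hc' v hv).trans hρη) hz).trans ?_
    have h1 : 0 ≤ M * q := by
      refine mul_nonneg hM0 (le_trans ?_ hq)
      unfold pr
      positivity
    linarith
  · exact small_x hT hE hX hη hX' hd hM hM0 hq hz

end Crest.Agent.R143.CenSx496
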