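import Crest.Agent.R143.NetH_346
import Crest.Agent.R143.K33R_877
import Crest.Agent.R143.AsmD_377
import Crest.Agent.R143.CenS_496
import Crest.Agent.R143.RB0_838

-- ▼ part R143/NetH2_346
section

/-!
# Row 143 (S0194): bridge HNet -> frozen static `TS`, without hypothesis (helper346)
-/

set_option autoImplicit false

noncomputable section

open scoped Classical

namespace Crest.Agent.R143.NetH2x346

open Crest.Agent.R143.B0x346 Crest.Agent.R143.DelRx806 Crest.Agent.R143.Bsumx848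
open Crest.Agent.R143.K33x877 Crest.Agent.R143.HitLx54 Crest.Agent.R143.NetUx346
open Crest.Agent.R143.NetHx346

variable {S In : Finset ℂ} {N : Net ℂ}

theorem hitu' : HITU := by
  first
    | exact Crest.Agent.R143.K33Rx877.hitu
    | exact Crest.Agent.R143.K33x877.hitu

theorem hex_net (h : HNet S N) (hd : Dj N) (F : Crsx117.Free S N In) : Hex S (sA S N) :=
  hex_of hitu' h hd F


end Crest.Agent.R143.NetH2x346
end
end

-- ▼ part R143/ArmsE_377

/-!
# Row 143 (S0194), CONT: one arm up to the hull circle, small centres (helper377)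

* `HM S x0 L C4 b0` : the size of the triangles of `delT S` at all scales `b ∈ [b0, 1]`, up to the
  circle; **leaf `HULLM Adm`** (helper93, helper66)
* **leaf `HARM`** (helper802) : one arm near the circle, literal of his message
* `Arms S x0 L C c r0` : the one-arm bound at all points of the disc, all scales `≥ r0`, all sets of
  free sites; `arms_det` : from `HARM`
* `ARMS Adm` : the environment event; `arms_of : HARM → HULLM Adm → ARMS Adm`
* `Sm1 S A ρ` : a centre of size `ρ`; **`small_of : HARM → HULLM Adm → SMALL Sm1 z Adm`**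
-/

set_option autoImplicit false

noncomputable section

open scoped Classical

namespace Crest.Agent.R143.Mabx377

open Complex Set Filter Topology MeasureTheory
open Crest.ProbabilityR.Voronoi
open Crest.Agent.R143.B0x346 Crest.Agent.R143.B0Dx346 Crest.Agent.R143.PP1x831
open Crest.Agent.R143.J1x872 Crest.Agent.R143.J4x872 Crest.Agent.R143.JWalkx872
open Crest.Agent.R143.JCardx872 Crest.Agent.R143.Oscx63
open Crest.Agent.R143.DelGx806 Crest.Agent.R143.DelRx806 Crest.Agent.R143.JColx54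
open Crest.Agent.R143.Circx63 (cT)
open Crest.Agent.R143.Scalx63 (dm)
open Crest.Agent.R143.Sidesx697 (Wall Side)
open Crest.Agent.R143.B6Ix903 (net)
open Crest.Agent.R143.DicCx831 (rad_small rad_pos ev_unit)
open Crest.Agent.R143.DicDx831 (hnet_ev good_ev)
open Crest.Agent.R143.HitLx54 (Dj sA)
open Crest.Agent.R143.K33x877 (HITU Tr CtrT CtrX fr)
open Crest.Agent.R143.RB2x54 (Vt)
open Crest.Agent.R143.NetUx346 (TS ff Hex)
open Crest.Agent.R143.D3Fx802 (CArm)
open Crest.Agent.R143.Harx315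
open Crest.Agent.R143.CNTx930 (Arm2)
open Crest.Agent.R143.CenSx496 (SmC)

/-- size of the triangles up to the circle, scales `b0` to `1` -/
def HM (S : Finset ℂ) (x0 : ℂ) (L C4 b0 : ℝ) : Prop :=
  ∀ z : ℂ, ‖z - x0‖ ≤ L → ∀ b : ℝ, b0 ≤ b → b ≤ 1 →
    ∑ t ∈ (delT S).filter (fun t => (cT t ∩ Metric.closedBall z b).Nonempty), dm t ^ 2 ≤
      C4 * b ^ 2

/-- **leaf HULLM** -/
def HULLM (Adm : Dom → ℝ → Prop) : Prop := ∀ (D : Dom) (δ : ℝ), Adm D δ →
  ∃ C4 : ℝ, 0 ≤ C4 ∧ ∀ b0 > 0, ∀ η > 0, ∀ᶠ ε : ℝ in 𝓝[>] 0,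
    sampleLaw {ω | ¬ HM (D.sites ε ω) D.c D.L C4 b0} ≤ ENNReal.ofReal η

/-- **leaf HARM**: one arm near the circle -/
def HARM : Prop := ∀ C4 : ℝ, 0 ≤ C4 → ∃ C c c2 A : ℝ, 0 < C ∧ 0 < c ∧ 0 < c2 ∧ 1 ≤ A ∧
  ∀ (S : Finset ℂ) (x0 : ℂ) (L e r R : ℝ), DomAx722.Dns S x0 L e → A * √(L * e) ≤ r → r ≤ R →
    A * R ≤ L →
    (∀ z, ‖z - x0‖ ≤ L → ∀ b, c2 * r ≤ b → b ≤ R →
      ∑ t ∈ (delT S).filter (fun t => (cT t ∩ Metric.closedBall z b).Nonempty), dm t ^ 2 ≤
        C4 * b ^ 2) →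
    ∀ p, ‖p - x0‖ ≤ L → ∀ V ⊆ S, (∀ v ∈ V, ∀ u, ¬ hullE S v u ∧ ¬ hullE S u v) →
      pr V (fun β => CArm S β p r R) ≤ C * (r / R) ^ c

/-- the one-arm bound at all points of the disc -/
def Arms (S : Finset ℂ) (x0 : ℂ) (L C c r0 : ℝ) : Prop :=
  ∀ p, ‖p - x0‖ ≤ L → ∀ r R : ℝ, r0 ≤ r → r ≤ R → ∀ V ⊆ S,
    (∀ v ∈ V, ∀ u, ¬ hullE S v u ∧ ¬ hullE S u v) →
      pr V (fun β => CArm S β p r R) ≤ C * (r / R) ^ c

theorem carm_le {S β : Finset ℂ} {p : ℂ} {r R R' : ℝ} (h : R' ≤ R) (hc : CArm S β p r R) :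
    CArm S β p r R' := by
  obtain ⟨x, y, h1, h2, h3, h4, h5⟩ := hc
  exact ⟨x, y, h1, h2, h3, h.trans h4, h5⟩

theorem pr_zero {V : Finset ℂ} {P : Finset ℂ → Prop} (h : ∀ β ⊆ V, ¬ P β) : pr V P = 0 := by
  have h1 : nb V P = 0 := by
    unfold nb fl
    rw [Finset.card_eq_zero, Finset.filter_eq_empty_iff]
    intro β hβ
    exact h β (Finset.mem_powerset.1 hβ)
  unfold pr
  rw [h1]
  simp

/-- **the one-arm bound for all scales** -/
theorem arms_det (hH : HARM) {C4 L : ℝ} (hC4 : 0 ≤ C4) (hL : 0 < L) :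
    ∃ C c c2 A : ℝ, 1 ≤ C ∧ 0 < c ∧ 0 < c2 ∧ 1 ≤ A ∧ ∀ (S : Finset ℂ) (x0 : ℂ) (e r0 : ℝ),
      DomAx722.Dns S x0 L e → 0 < r0 → A * √(L * e) ≤ r0 → HM S x0 L C4 (c2 * r0) →
      Arms S x0 L C c r0 := by
  obtain ⟨C, c, c2, A, hC, hc, hc2, hA, H⟩ := hH C4 hC4
  have hA0 : 0 < A := by linarith
  set R1 : ℝ := min (L / A) 1 with hR1
  have hR1p : 0 < R1 := lt_min (by positivity) one_pos
  have hR1A : A * R1 ≤ L := by
    have h1 := min_le_left (L / A) 1
    rw [← hR1] at h1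
    calc A * R1 ≤ A * (L / A) := mul_le_mul_of_nonneg_left h1 hA0.le
      _ = L := by field_simp
  have hR1L : R1 ≤ L := by nlinarith
  set Q : ℝ := (2 * L / R1) ^ c with hQ
  have hQ1 : 1 ≤ Q := by
    refine Real.one_le_rpow ?_ hc.le
    rw [one_le_div hR1p]
    linarith
  refine ⟨max C 1 * Q, c, c2, A, ?_, hc, hc2, hA, ?_⟩
  · have := le_max_right C 1
    nlinarith
  intro S x0 e r0 hS hr0 hr0e hM p hp r R hr hrR V hV hVh
  have hrp : 0 < r := by linarith
  have hRp : 0 < R := by linarith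
  have hC1 : C ≤ max C 1 := le_max_left _ _
  have hone : (1 : ℝ) ≤ max C 1 := le_max_right _ _
  have hfp : 0 ≤ (r / R) ^ c := Real.rpow_nonneg (by positivity) _
  rcases le_total R R1 with hRR | hRR
  · have h1 := H S x0 L e r R hS (hr0e.trans hr) hrR
      ((mul_le_mul_of_nonneg_left hRR hA0.le).trans hR1A) (by
        intro z hz b hb1 hb2
        refine hM z hz b ((mul_le_mul_of_nonneg_left hr hc2.le).trans hb1) (hb2.trans ?_)
        exact hRR.trans (min_le_right _ _)) p hp V hV hVh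
    refine h1.trans ?_
    refine mul_le_mul_of_nonneg_right ?_ hfp
    nlinarith
  · rcases lt_or_ge (2 * L) R with hbig | hbig
    · -- no site at this distance
      rw [pr_zero]
      · positivity
      · rintro β hβ ⟨x, y, -, hy, -, h4, -⟩
        have h5 := hS.sub y (hV (hβ hy))
        have h6 : ‖y - p‖ ≤ ‖y - x0‖ + ‖p - x0‖ := by
          have : y - p = (y - x0) - (p - x0) := by ring
          rw [this]
          exact norm_sub_le _ _
        linarith
    · have key : (r / R1) ^ c ≤ Q * (r / R) ^ c := by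
        rw [hQ, ← Real.mul_rpow (by positivity) (by positivity)]
        refine Real.rpow_le_rpow (by positivity) ?_ hc.le
        rw [div_mul_div_comm, div_le_div_iff₀ hR1p (by positivity)]
        have : R ≤ 2 * L := hbig
        nlinarith [mul_pos hrp hR1p]
      rcases le_total r R1 with hrR1 | hrR1
      · have h1 := H S x0 L e r R1 hS (hr0e.trans hr) hrR1 hR1A (by
          intro z hz b hb1 hb2
          refine hM z hz b ((mul_le_mul_of_nonneg_left hr hc2.le).trans hb1) (hb2.trans ?_)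
          exact min_le_right _ _) p hp V hV hVh
        have h2 : pr V (fun β => CArm S β p r R) ≤ pr V (fun β => CArm S β p r R1) :=
          pr_mono fun β _ h => carm_le hRR h
        refine (h2.trans h1).trans ?_
        calc C * (r / R1) ^ c ≤ max C 1 * (Q * (r / R) ^ c) :=
              mul_le_mul hC1 key (Real.rpow_nonneg (by positivity) _) (by positivity)
          _ = max C 1 * Q * (r / R) ^ c := by ring
      · refine pr_le_one.trans ?_
        have h3 : 1 ≤ (r / R1) ^ c := Real.one_le_rpow ((one_le_div hR1p).2 hrR1) hc.le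
        calc (1 : ℝ) ≤ max C 1 * (Q * (r / R) ^ c) := by
              have := h3.trans key
              nlinarith
          _ = max C 1 * Q * (r / R) ^ c := by ring

/-- both colours -/
theorem Arms.two {S : Finset ℂ} {x0 : ℂ} {L C c r0 : ℝ} (h : Arms S x0 L C c r0) {p : ℂ}
    (hp : ‖p - x0‖ ≤ L) {r R : ℝ} (hr : r0 ≤ r) (hR : r ≤ R) {V : Finset ℂ} (hV : V ⊆ S)
    (hVh : ∀ v ∈ V, ∀ u, ¬ hullE S v u ∧ ¬ hullE S u v) :
    pr V (Arm2 S V p r R) ≤ 2 * C * (r / R) ^ c := by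
  have h1 := h p hp r R hr hR V hV hVh
  have h2 : pr V (fun β => CArm S (V \ β) p r R) ≤ C * (r / R) ^ c := by
    rw [pr_flip V fun β => CArm S β p r R]
    exact h1
  have h3 : pr V (Arm2 S V p r R) ≤ pr V (fun β => CArm S β p r R) +
      pr V (fun β => CArm S (V \ β) p r R) := pr_or_le
  linarith

/-- the environment event -/
def ARMS (Adm : Dom → ℝ → Prop) : Prop := ∀ (D : Dom) (δ : ℝ), Adm D δ →
  ∃ C c : ℝ, 1 ≤ C ∧ 0 < c ∧ ∀ r0 > 0, ∀ η > 0, ∀ᶠ ε : ℝ in 𝓝[>] 0,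
    sampleLaw {ω | ¬ Arms (D.sites ε ω) D.c D.L C c r0} ≤ ENNReal.ofReal η

/-- short edges from `HM` -/
theorem edge_of_hm {S : Finset ℂ} {x0 : ℂ} {L C4 b0 : ℝ} (hS : ∀ s ∈ S, ‖s - x0‖ ≤ L)
    (h : HM S x0 L C4 b0) (hb0 : 0 < b0) (hb1 : b0 ≤ 1) {u v : ℂ} (huv : Adj S u v) :
    ‖v - u‖ ≤ √C4 * b0 := by
  have key : ∀ {u v c : ℂ}, (u, v, c) ∈ delT S → ‖v - u‖ ≤ √C4 * b0 := by
    intro u v c ht
    have hu := (mem_delT.1 ht).1
    have h1 := h u (hS u hu) b0 le_rfl hb1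
    have hmem : (u, v, c) ∈ (delT S).filter
        (fun t => (cT t ∩ Metric.closedBall u b0).Nonempty) := by
      refine Finset.mem_filter.2 ⟨ht, u, ?_, Metric.mem_closedBall_self hb0.le⟩
      change InT u u v c
      have hc := (mem_delT.1 ht).2.2.2.1
      refine ⟨?_, ?_, ?_⟩
      · rw [sub_self]
        unfold cr
        simp
      · have e : cr (c - v) (u - v) = cr (v - u) (c - u) := by
          unfold cr
          simp only [Complex.sub_re, Complex.sub_im]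
          ring
        rw [e]
        exact hc.le
      · unfold cr
        simp only [Complex.sub_re, Complex.sub_im]
        ring_nf
        exact le_refl _
    have h2 : dm (u, v, c) ^ 2 ≤ ∑ t ∈ (delT S).filter
        (fun t => (cT t ∩ Metric.closedBall u b0).Nonempty), dm t ^ 2 :=
      Finset.single_le_sum (f := fun t => dm t ^ 2) (fun _ _ => sq_nonneg _) hmem
    have h3 : ‖v - u‖ ≤ dm (u, v, c) := by
      unfold dm
      rw [norm_sub_rev]
      exact (le_max_left _ _).trans (le_max_left _ _)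
    have h4 : dm (u, v, c) ^ 2 ≤ C4 * b0 ^ 2 := h2.trans h1
    have h5 : dm (u, v, c) ≤ √(C4 * b0 ^ 2) := Real.le_sqrt_of_sq_le h4
    rw [Real.sqrt_mul' _ (sq_nonneg _), Real.sqrt_sq hb0.le] at h5
    exact h3.trans h5
  rcases huv with ⟨c, hc⟩ | ⟨c, hc⟩
  · exact key hc
  · rw [norm_sub_rev]
    exact key hc

/-- **the environment event of the arms** -/
theorem arms_of {Adm : Dom → ℝ → Prop} (hAdm : ∀ D δ, Adm D δ → D.Ad δ) (hH : HARM)
    (hM : HULLM Adm) : ARMS Adm := by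
  intro D δ hD
  have hOK := hAdm D δ hD
  have hL := hOK.w.Lpos
  have hδ := hOK.w.dpos
  obtain ⟨C4, hC4, h1⟩ := hM D δ hD
  obtain ⟨C, c, c2, A, hC, hc, hc2, hA, H⟩ := arms_det hH hC4 hL
  refine ⟨C, c, hC, hc, ?_⟩
  intro r0 hr0 η hη
  obtain ⟨C', K, a, C4', hC', hK, ha, hC4', hgood⟩ := good_ev D hL
  have hr1 : (0 : ℝ) < (r0 / A) ^ 2 / D.L := by
    have : 0 < A := by linarith
    positivity
  filter_upwards [h1 (c2 * r0) (by positivity) (η / 2) (by positivity), hgood,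
    (rad_small C').eventually (ge_mem_nhds (show (0 : ℝ) < δ ^ 6 / (40000 * D.L ^ 5) by positivity)),
    (rad_small C').eventually (ge_mem_nhds hr1),
    (tendsto_id.mono_left nhdsWithin_le_nhds : Tendsto (fun ε : ℝ => ε) (𝓝[>] 0) (𝓝 0)).eventually
      (ge_mem_nhds (show (0 : ℝ) < η / 2 by positivity))] with ε g1 g2 g3 g4 g5
  rw [le_div_iff₀ (by positivity)] at g3
  have hd : 40000 * D.L ^ 5 * rad C' ε ≤ δ ^ 6 := by linarith
  have hsub : {ω | ¬ Arms (D.sites ε ω) D.c D.L C c r0} ⊆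
      {ω | ¬ HM (D.sites ε ω) D.c D.L C4 (c2 * r0)} ∪ {ω | ¬ Y0x831.Good D ε C' K a C4' ω} := by
    intro ω hω
    by_contra hcon
    simp only [mem_union, mem_ofPred_eq, not_or, not_not] at hcon
    obtain ⟨c1, c3⟩ := hcon
    refine hω ?_
    have hS := DomAx722.dns_of_env hL (DomAx722.small_d hL hδ hOK.w.lt.le hd) c3.env
    refine H _ _ _ r0 hS hr0 ?_ c1
    have hA0 : 0 < A := by linarith
    have h5 : √(D.L * rad C' ε) ≤ r0 / A := by
      rw [Real.sqrt_le_left (by positivity)]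
      rw [le_div_iff₀ hL] at g4
      linarith
    calc A * √(D.L * rad C' ε) ≤ A * (r0 / A) := mul_le_mul_of_nonneg_left h5 hA0.le
      _ = r0 := by field_simp
  have h3 : ENNReal.ofReal η = ENNReal.ofReal (η / 2) + ENNReal.ofReal (η / 2) := by
    rw [← ENNReal.ofReal_add (by positivity) (by positivity)]
    congr 1
    ring
  rw [h3]
  refine (measure_mono hsub).trans ((measure_union_le _ _).trans ?_)
  exact add_le_add g1 (g2.trans (ENNReal.ofReal_le_ofReal g5))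

/-! ### small centres -/

/-- a centre of size `ρ` -/
def Sm1 (S : Finset ℂ) (A : ZMod 3 → Set ℂ) (ρ : ℝ) : Prop := ∃ p, SmC S A p ρ

/-- a centre is near one of its sites -/
theorem smc_site {S : Finset ℂ} {A : ZMod 3 → Set ℂ} {ρ : ℝ} (h : Sm1 S A ρ) :
    ∃ p ∈ S, SmC S A p (2 * ρ) := by
  have tri : ∀ {a b p : ℂ}, ‖a - p‖ ≤ ρ → ‖b - p‖ ≤ ρ → ‖a - b‖ ≤ 2 * ρ := by
    intro a b p h1 h2
    have : a - b = (a - p) - (b - p) := by ring
    rw [this]
    exact (norm_sub_le _ _).trans (by linarith)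
  obtain ⟨p, ⟨t, ht, h1⟩ | ⟨X, hX, h1⟩⟩ := h
  · refine ⟨t.1, (mem_delT.1 ht.1).1, Or.inl ⟨t, ht, fun v hv => ?_⟩⟩
    exact tri (h1 v hv) (h1 _ (Or.inl rfl))
  · obtain ⟨x, hx, y, -, hxy⟩ := hX.2.2 0
    exact ⟨x, hxy.mem.1, Or.inr ⟨X, hX, fun v hv => tri (h1 v hv) (h1 x hx)⟩⟩

theorem exists_rho {C c M η : ℝ} (hC : 0 < C) (hc : 0 < c) (hM : 0 < M) (hη : 0 < η) :
    ∃ ρ > 0, 4 * ρ ≤ η ∧ 9 * (M * (2 * C * (2 * ρ / (η / 2)) ^ c)) ≤ 18 * η := by
  set κ : ℝ := η / (C * M) with hκ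
  have hκ0 : 0 < κ := by positivity
  refine ⟨min (η / 4) (η / 4 * κ ^ (1 / c)), by positivity, ?_, ?_⟩
  · have := min_le_left (η / 4) (η / 4 * κ ^ (1 / c))
    linarith
  · set ρ := min (η / 4) (η / 4 * κ ^ (1 / c)) with hρ
    have hρ0 : 0 < ρ := by positivity
    have h1 : ρ ≤ η / 4 * κ ^ (1 / c) := min_le_right _ _
    have h2 : 2 * ρ / (η / 2) ≤ κ ^ (1 / c) := by
      rw [div_le_iff₀ (by positivity)]
      linarith
    have h3 : (2 * ρ / (η / 2)) ^ c ≤ κ := by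
      calc (2 * ρ / (η / 2)) ^ c ≤ (κ ^ (1 / c)) ^ c :=
            Real.rpow_le_rpow (by positivity) h2 hc.le
        _ = κ := by
            rw [← Real.rpow_mul hκ0.le, one_div, inv_mul_cancel₀ hc.ne', Real.rpow_one]
    calc 9 * (M * (2 * C * (2 * ρ / (η / 2)) ^ c)) ≤ 9 * (M * (2 * C * κ)) := by gcongr
      _ = 18 * η := by
          rw [hκ]
          field_simp
          ring

/-- **leaf SMALL** -/
theorem small_of {Adm : Dom → ℝ → Prop} (hAdm : ∀ D δ, Adm D δ → D.Ad δ) (hA : ARMS Adm)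
    (hM : HULLM Adm) {z : ℂ → ℂ} (hz : ∀ u v, ‖z u - z v‖ ≤ ‖u - v‖) : SMALL Sm1 z Adm := by
  intro D δ hD η hη
  have hOK := hAdm D δ hD
  have hL := hOK.w.Lpos
  have hδ := hOK.w.dpos
  obtain ⟨C, c, hC, hc, h1⟩ := hA D δ hD
  obtain ⟨C4, hC4, h2⟩ := hM D δ hD
  have hC0 : 0 < C := by linarith
  set η1 : ℝ := η / 36 with hη1
  have hη1p : 0 < η1 := by positivity
  obtain ⟨ρ, hρ, hρ1, hρ2⟩ := exists_rho (M := 2 * D.L) hC0 hc (by positivity) hη1p
  refine ⟨ρ, hρ, ?_⟩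
  set b0 : ℝ := min 1 (η1 / 2 / (√C4 + 1)) with hb0
  have hsq : 0 ≤ √C4 := Real.sqrt_nonneg _
  have hb0p : 0 < b0 := by positivity
  obtain ⟨C', K, a, C4', hC', hK, ha, hC4', hgood⟩ := good_ev D hL
  filter_upwards [h1 (2 * ρ) (by positivity) (η / 3) (by positivity),
    h2 b0 hb0p (η / 3) (by positivity), hgood, hnet_ev hOK.w hC',
    (rad_small C').eventually (ge_mem_nhds (show (0 : ℝ) < δ ^ 6 / (40000 * D.L ^ 5) by positivity)),
    (tendsto_id.mono_left nhdsWithin_le_nhds : Tendsto (fun ε : ℝ => ε) (𝓝[>] 0) (𝓝 0)).eventually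
      (ge_mem_nhds (show (0 : ℝ) < η / 3 by positivity))] with ε g1 g2 g3 g4 g5 g6
  rw [le_div_iff₀ (by positivity)] at g5
  have hd : 40000 * D.L ^ 5 * rad C' ε ≤ δ ^ 6 := by linarith
  have hsub : {ω | ∃ x : St ℂ, Ok (net D ε ω) x.1 x.2 ∧ Alive (D.sites ε ω) (net D ε ω) x ∧
      Sm1 (D.sites ε ω) (sx (D.sites ε ω) (net D ε ω) x) ρ ∧
      η < ‖TS (D.sites ε ω) (sx (D.sites ε ω) (net D ε ω) x) z‖} ⊆
      ({ω | ¬ Arms (D.sites ε ω) D.c D.L C c (2 * ρ)} ∪
        {ω | ¬ HM (D.sites ε ω) D.c D.L C4 b0}) ∪ {ω | ¬ Y0x831.Good D ε C' K a C4' ω} := by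
    rintro ω ⟨x, hok, hAl, hSm, hbig⟩
    by_contra hcon
    simp only [mem_union, mem_ofPred_eq, not_or, not_not] at hcon
    obtain ⟨⟨c1, c2⟩, c3⟩ := hcon
    have hN := g4 K a C4' ω c3
    have hS := DomAx722.dns_of_env hL (DomAx722.small_d hL hδ hOK.w.lt.le hd) c3.env
    have hkl := hkl_dom hOK hS hd hN
    obtain ⟨hK', -, hdj, hF, hT, -⟩ := alive_net hN hkl hok hAl
    have hE := NetH2x346.hex_net hK' hdj hF
    obtain ⟨p, hp, hC'⟩ := smc_site hSm
    have hpL := hS.sub p hp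
    have hsubA : ∀ i, ∀ v ∈ sx (D.sites ε ω) (net D ε ω) x i, v ∈ D.sites ε ω := fun i v hv =>
      hT.sub i hv
    have e1 : η1 - η1 / 2 = η1 / 2 := by ring
    have hq := c1.two hpL (r := 2 * ρ) (R := η1 / 2) le_rfl (by linarith)
      (V := ff (D.sites ε ω) (sx (D.sites ε ω) (net D ε ω) x)) (Finset.filter_subset _ _) (by
        intro v hv u
        have hv' := (Finset.mem_filter.1 hv).2
        constructor
        · intro h
          obtain ⟨i, hi⟩ := hT.hull v u h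
          exact hv' i hi
        · intro h
          obtain ⟨i, hi⟩ := hT.hull_mem (Or.inr h)
          exact hv' i hi)
    have h3 := CenSx496.small hT hE hC' (η := η1) (d := η1 / 2) (M := 2 * D.L)
      (q := 2 * C * (2 * ρ / (η1 / 2)) ^ c) (by linarith) hη1p.le (by
        intro u v huv _
        have h4 := edge_of_hm hS.sub c2 hb0p (min_le_left _ _) huv
        refine h4.trans ?_
        have h5 : b0 ≤ η1 / 2 / (√C4 + 1) := min_le_right _ _
        calc √C4 * b0 ≤ (√C4 + 1) * (η1 / 2 / (√C4 + 1)) := by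
              apply mul_le_mul _ h5 hb0p.le (by positivity)
              linarith
          _ = η1 / 2 := by field_simp) (by
        intro i v hv
        have h6 := hS.sub v (hsubA i v hv)
        have : v - p = (v - D.c) - (p - D.c) := by ring
        rw [this]
        exact (norm_sub_le _ _).trans (by linarith)) (by positivity) (by
        rw [e1]
        exact hq) hz
    have h7 : ‖TS (D.sites ε ω) (sx (D.sites ε ω) (net D ε ω) x) z‖ ≤ 9 * η1 + 18 * η1 := by
      refine h3.trans ?_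
      linarith
    rw [hη1] at h7
    linarith
  have h3 : ENNReal.ofReal η =
      ENNReal.ofReal (η / 3) + ENNReal.ofReal (η / 3) + ENNReal.ofReal (η / 3) := by
    rw [← ENNReal.ofReal_add (by positivity) (by positivity),
      ← ENNReal.ofReal_add (by positivity) (by positivity)]
    congr 1
    ring
  rw [h3]
  refine (measure_mono hsub).trans ((measure_union_le _ _).trans ?_)
  refine add_le_add ((measure_union_le _ _).trans (add_le_add g1 g2)) ?_
  exact g3.trans (ENNReal.ofReal_le_ofReal g6)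

/-- **SMALL from the two leaves** -/
theorem small_id {Adm : Dom → ℝ → Prop} (hAdm : ∀ D δ, Adm D δ → D.Ad δ) (hH : HARM)
    (hM : HULLM Adm) : SMALL Sm1 id Adm :=
  small_of hAdm (arms_of hAdm hH hM) hM fun _ _ => le_rfl

theorem small_conj {Adm : Dom → ℝ → Prop} (hAdm : ∀ D δ, Adm D δ → D.Ad δ) (hH : HARM)
    (hM : HULLM Adm) : SMALL Sm1 (starRingEnd ℂ) Adm :=
  small_of hAdm (arms_of hAdm hH hM) hM fun u v => by rw [← map_sub, Complex.norm_conj]

/-- **CONT, weight `we`** -/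
theorem cont_we' {U : Type} {T : U → ℝ → Sample → ℂ} {Adm : Dom → ℝ → Prop}
    (hAdm : ∀ D δ, Adm D δ → D.Ad δ) (hH : HARM) (hM : HULLM Adm) (h2 : VIS Sm1 T id Adm) :
    AsmNx758.CONT AsmNx758.we T Adm :=
  cont_we NetH2x346.hitu' hAdm (small_id hAdm hH hM) h2

/-- **CONT, weight `wd`** -/
theorem cont_wd' {U : Type} {T : U → ℝ → Sample → ℂ} {Adm : Dom → ℝ → Prop}
    (hAdm : ∀ D δ, Adm D δ → D.Ad δ) (hH : HARM) (hM : HULLM Adm)
    (h2 : VIS Sm1 T (starRingEnd ℂ) Adm) : AsmNx758.CONT AsmNx758.wd T Adm :=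
  cont_wd NetH2x346.hitu' hAdm (small_conj hAdm hH hM) h2

end Crest.Agent.R143.Mabx377
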