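import Crest.Agent.R143.AsmO_758

/-!
# Row 143 (S0194), CONT, top assembly 1 (helper758)

* `leg N J` : the complete leg of `J` from `ex 0` to `ex 1`; `Shl`, `shal` : live triangles near the
  outside of the domain, near the circle or near the leg, and their energy
* **leaf `AREA Adm`** : the mean over `J` of the shallow energy is small for small scales
* **leaf `DC w T Adm`** : in most environments, for ALL `J` and all live states with the tip in the
  ball, the total is at most `η + A ∑ ‖T u‖ + 2 √(shal s J)`
* `cont_of : DC w T Adm → AREA Adm → CONT w T Adm`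
-/

set_option autoImplicit false

noncomputable section

open scoped Classical

namespace Crest.Agent.R143.AsmNx758

open Complex Set Filter Topology MeasureTheory
open scoped ENNReal
open Crest.ProbabilityR.Voronoi
open Crest.Agent.R143.B0x346 Crest.Agent.R143.B0Dx346 Crest.Agent.R143.PP1x831
open Crest.Agent.R143.J1x872 (sd)
open Crest.Agent.R143.Mabx377
open Crest.Agent.R143.Spinex422 (Room Linked)
open Crest.Agent.R143.B6Ix903 (net)
open Crest.Agent.R143.DicBx831 (cc)







theorem Bad.mono {S : Finset ℂ} {N : Net ℂ} {w : ℂ × ℂ × ℂ → ℂ} {l : ℝ} {z : ℂ} {R θ θ' : ℝ}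
    {J : Finset (ℂ × ℂ)} (h : Bad S N w l z R θ' J) (hθ : θ ≤ θ') : Bad S N w l z R θ J := by
  obtain ⟨j, h1, h2, h3, h4⟩ := h
  exact ⟨j, h1, h2, h3, lt_of_le_of_lt hθ h4⟩



end Crest.Agent.R143.AsmNx758
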