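import Crest.Agent.R143.BC0_336
import Mathlib
import Crest.Agent.R158.Cd9_83
import Crest.Agent.Lib.InjHolo
import Crest.Agent.R143.DbarMor_63

-- ▼ part R143/EndA_336
section

/-!
# Row 143 (S0194), BC6: the end theorem of the analysis (helper336)

* `ulim` : pointwise limits of bounded families along an ultrafilter
* `unif_of_equi` : asymptotic equicontinuity makes the pointwise limit along an ultrafilter
  uniform on compact sets
* `end_core` : END THEOREM : the discrete observables `H i`, smooth approximations `g i` with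
  vanishing `dbar`, asymptotic boundary conditions, and the value `c i` (crossing probability)
  read off near `b` : `c i → crossingFormula x`
-/

set_option autoImplicit false

noncomputable section

namespace Crest.Agent.R143.EndAx336

open Complex Set Filter Topology MeasureTheory
open Crest.ProbabilityR.Voronoi Crest.Agent.R143.BC0x336

variable {ι : Type} {D : Set ℂ} {H : ι → ℂ → ℂ} {M : ℝ}

/-- pointwise limits of bounded families along an ultrafilter -/
theorem exists_ulim (U : Ultrafilter ι) (hM : ∀ i, ∀ z ∈ D, ‖H i z‖ ≤ M) :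
    ∃ h : ℂ → ℂ, (∀ z ∈ D, ‖h z‖ ≤ M) ∧ ∀ z ∈ D, Tendsto (fun i => H i z) U (𝓝 (h z)) := by
  have key : ∀ z : ℂ, ∃ y : ℂ, z ∈ D → (‖y‖ ≤ M ∧ Tendsto (fun i => H i z) U (𝓝 y)) := by
    intro z
    by_cases hz : z ∈ D
    · have h1 : ((U.map fun i => H i z : Ultrafilter ℂ) : Filter ℂ) ≤
          𝓟 (Metric.closedBall 0 M) := by
        rw [le_principal_iff]
        show (fun i => H i z) ⁻¹' Metric.closedBall 0 M ∈ (U : Filter ι)
        refine Filter.univ_mem' fun i => ?_
        show H i z ∈ Metric.closedBall 0 M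
        rw [mem_closedBall_zero_iff]
        exact hM i z hz
      obtain ⟨y, hy, hy2⟩ := (isCompact_closedBall (0 : ℂ) M).ultrafilter_le_nhds _ h1
      refine ⟨y, fun _ => ⟨by rwa [mem_closedBall_zero_iff] at hy, hy2⟩⟩
    · exact ⟨0, fun h => absurd h hz⟩
  choose h hh using key
  exact ⟨h, fun z hz => (hh z hz).1, fun z hz => (hh z hz).2⟩

/-- asymptotic equicontinuity on compact sets -/
def AEqui (D : Set ℂ) (l : Filter ι) (H : ι → ℂ → ℂ) : Prop :=
  ∀ K, IsCompact K → K ⊆ D → ∀ η > 0, ∃ δ > 0, ∀ᶠ i in l, ∀ z ∈ K, ∀ w ∈ K, dist z w < δ →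
    dist (H i z) (H i w) ≤ η

theorem AEqui.mono {l l' : Filter ι} (h : AEqui D l H) (hl : l' ≤ l) : AEqui D l' H := by
  intro K hK hKD η hη
  obtain ⟨δ, hδ, h1⟩ := h K hK hKD η hη
  exact ⟨δ, hδ, hl h1⟩

/-- pointwise convergence and asymptotic equicontinuity give uniform convergence on compact sets -/
theorem unif_of_equi {l : Filter ι} [l.NeBot] (he : AEqui D l H) {h : ℂ → ℂ}
    (hp : ∀ z ∈ D, Tendsto (fun i => H i z) l (𝓝 (h z))) {K : Set ℂ} (hK : IsCompact K)
    (hKD : K ⊆ D) : TendstoUniformlyOn H h l K := by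
  rw [Metric.tendstoUniformlyOn_iff]
  intro η hη
  obtain ⟨δ, hδ, h1⟩ := he K hK hKD (η / 4) (by linarith)
  -- modulus of continuity of the limit
  have h2 : ∀ z ∈ K, ∀ w ∈ K, dist z w < δ → dist (h z) (h w) ≤ η / 4 := by
    intro z hz w hw hzw
    refine le_of_tendsto ((hp z (hKD hz)).dist (hp w (hKD hw))) ?_
    filter_upwards [h1] with i hi using hi z hz w hw hzw
  obtain ⟨t, htK, htf, ht⟩ := hK.finite_cover_balls hδ
  have h3 : ∀ᶠ i in l, ∀ z ∈ t, dist (h z) (H i z) < η / 4 := by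
    rw [eventually_all_finite htf]
    intro z hz
    have := (hp z (hKD (htK hz)))
    filter_upwards [Metric.tendsto_nhds.1 this (η / 4) (by linarith)] with i hi
    rwa [dist_comm]
  filter_upwards [h1, h3] with i hi1 hi3 z hz
  obtain ⟨c, hc, hzc⟩ : ∃ c ∈ t, z ∈ Metric.ball c δ := by simpa using ht hz
  have hzc' : dist z c < δ := hzc
  calc dist (h z) (H i z) ≤ dist (h z) (h c) + dist (h c) (H i c) + dist (H i c) (H i z) :=
        dist_triangle4 _ _ _ _
    _ ≤ η / 4 + η / 4 + η / 4 := by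
        refine add_le_add (add_le_add (h2 z hz c (htK hc) hzc') (hi3 c hc).le) ?_
        exact hi1 c (htK hc) z hz (by rwa [dist_comm])
    _ < η := by linarith

/-- asymptotic boundary condition at `p` -/
def ALB (D : Set ℂ) (l : Filter ι) (H : ι → ℂ → ℂ) (A B p : ℂ) : Prop :=
  ∀ η > 0, ∃ δ > 0, ∀ᶠ i in l, ∀ z ∈ D, dist z p < δ → |((H i z - A) / B).im| ≤ η

theorem ALB.mono {l l' : Filter ι} {A B p : ℂ} (h : ALB D l H A B p) (hl : l' ≤ l) :
    ALB D l' H A B p := by
  intro η hη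
  obtain ⟨δ, hδ, h1⟩ := h η hη
  exact ⟨δ, hδ, hl h1⟩

theorem ALB.LB {l : Filter ι} [l.NeBot] {A B p : ℂ} (hA : ALB D l H A B p) {h : ℂ → ℂ}
    (hp : ∀ z ∈ D, Tendsto (fun i => H i z) l (𝓝 (h z))) : LB D h A B p := by
  unfold BC0x336.LB
  rw [Metric.tendsto_nhds]
  intro η hη
  obtain ⟨δ, hδ, h1⟩ := hA (η / 2) (by linarith)
  have h2 : Metric.ball p δ ∩ D ∈ 𝓝[D] p := by
    rw [inter_comm]
    exact inter_mem_nhdsWithin D (Metric.ball_mem_nhds p hδ)
  filter_upwards [h2] with z hz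
  have h3 : Tendsto (fun i => |((H i z - A) / B).im|) l (𝓝 |((h z - A) / B).im|) := by
    have h4 : Continuous fun y : ℂ => |((y - A) / B).im| := by fun_prop
    exact (h4.tendsto _).comp (hp z hz.2)
  have h5 : |((h z - A) / B).im| ≤ η / 2 := by
    refine le_of_tendsto h3 ?_
    filter_upwards [h1] with i hi using hi z hz.2 hz.1
  rw [Real.dist_eq, sub_zero]
  linarith

/-- the hypotheses of the end theorem -/
structure EndH (D : Set ℂ) (φ : ℂ → ℂ) (d b : ℂ) (l : Filter ι) (H g : ι → ℂ → ℂ) (c : ι → ℝ) :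
    Prop where
  bd : ∃ M : ℝ, ∀ i, ∀ z ∈ D, ‖H i z‖ ≤ M
  equi : AEqui D l H
  smooth : ∀ i, ContDiff ℝ 1 (g i)
  close : ∀ K, IsCompact K → K ⊆ D → ∀ η > 0, ∀ᶠ i in l, ∀ z ∈ K, dist (g i z) (H i z) ≤ η
  dbar0 : ∀ K, IsCompact K → K ⊆ D → Tendsto (fun i => ∫ z in K, ‖dbar (g i) z‖) l (𝓝 0)
  b1 : ∀ p ∈ frontier D, p ≠ d → (φ p).im = 0 → 0 < (φ p).re → (φ p).re < 1 →
    ALB D l H 1 (tau3 - 1) p
  b2 : ∀ p ∈ frontier D, p ≠ d → (φ p).im = 0 → 1 < (φ p).re →
    ALB D l H tau3 (tau3 ^ 2 - tau3) p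
  b3 : ∀ p ∈ frontier D, p ≠ d → (φ p).im = 0 → (φ p).re < 0 →
    ALB D l H (tau3 ^ 2) (1 - tau3 ^ 2) p
  /-- the value near `b` is the crossing probability -/
  val : ∀ η > 0, ∃ δ > 0, ∀ᶠ i in l, ∀ z ∈ D, dist z b < δ →
    dist (H i z) (1 + (c i : ℂ) * (tau3 - 1)) ≤ η

theorem EndH.mono {φ : ℂ → ℂ} {d b : ℂ} {l l' : Filter ι} {g : ι → ℂ → ℂ} {c : ι → ℝ}
    (h : EndH D φ d b l H g c) (hl : l' ≤ l) : EndH D φ d b l' H g c where
  bd := h.bd
  equi := h.equi.mono hl
  smooth := h.smooth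
  close K hK hKD η hη := hl (h.close K hK hKD η hη)
  dbar0 K hK hKD := (h.dbar0 K hK hKD).mono_left hl
  b1 p hp h1 h2 h3 h4 := (h.b1 p hp h1 h2 h3 h4).mono hl
  b2 p hp h1 h2 h3 := (h.b2 p hp h1 h2 h3).mono hl
  b3 p hp h1 h2 h3 := (h.b3 p hp h1 h2 h3).mono hl
  val η hη := by
    obtain ⟨δ, hδ, h1⟩ := h.val η hη
    exact ⟨δ, hδ, hl h1⟩

theorem tau3_eq : tau3 = ⟨-1/2, Real.sqrt 3 / 2⟩ := by
  have h : (2 * Real.pi / 3 : ℝ) = Real.pi - Real.pi / 3 := by ring
  apply Complex.ext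
  · rw [tau3, Complex.exp_ofReal_mul_I_re, h, Real.cos_pi_sub, Real.cos_pi_div_three]; norm_num
  · rw [tau3, Complex.exp_ofReal_mul_I_im, h, Real.sin_pi_sub, Real.sin_pi_div_three]

theorem tau3_ne_one : tau3 - 1 ≠ 0 := by
  rw [tau3_eq, sub_ne_zero]
  intro h
  have := congrArg Complex.re h
  simp at this
  norm_num at this


/-! ### the front of S0194 -/

/-- the law of a sample is a probability measure -/
instance : IsProbabilityMeasure sampleLaw := by
  unfold sampleLaw
  infer_instance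


end Crest.Agent.R143.EndAx336
end
end

-- ▼ part R143/IdentD_439
section

/-!
# Row 143 (S0194), BC5: identification of the limit on `D` (helper439)

`bc5 : BC5` : a bounded function on `D`, holomorphic or antiholomorphic, with the boundary lines of
the triangle `1, tau3, tau3 ^ 2` on the three open arcs tends to
`1 + crossingFormula x * (tau3 - 1)` at the boundary points over `x ∈ (0, 1)`.
-/

set_option autoImplicit false

noncomputable section

namespace Crest.Agent.R143.IdentDx439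

open Complex Set Filter Topology MeasureTheory
open Crest.ProbabilityR.Voronoi Crest.ProbabilityR.Percolation
open Crest.Agent.R158.Cd83
open Crest.Agent.R143.BC0x336
open scoped ComplexConjugate

theorem tau3_eq : tau3 = om := rfl

/-- Cayley transform -/
def cay (z : ℂ) : ℂ := (z - I) / (z + I)

/-- inverse Cayley transform -/
def icay (w : ℂ) : ℂ := I * (1 + w) / (1 - w)

theorem add_I_ne {z : ℂ} (hz : 0 ≤ z.im) : z + I ≠ 0 := by
  intro h
  have := congrArg Complex.im h
  simp at this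
  linarith

theorem icay_cay {z : ℂ} (hz : 0 ≤ z.im) : icay (cay z) = z := by
  have h1 := add_I_ne hz
  unfold icay cay
  have h2 : (1:ℂ) - (z - I) / (z + I) = 2 * I / (z + I) := by field_simp; ring
  have h3 : (1:ℂ) + (z - I) / (z + I) = 2 * z / (z + I) := by field_simp; ring
  rw [h2, h3]
  field_simp

theorem norm_cay {z : ℂ} (hz : 0 < z.im) : ‖cay z‖ < 1 := by
  unfold cay
  rw [norm_div, div_lt_one (norm_pos_iff.2 (add_I_ne hz.le))]
  rw [← sq_lt_sq₀ (norm_nonneg _) (norm_nonneg _), ← Complex.normSq_eq_norm_sq,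
    ← Complex.normSq_eq_norm_sq, Complex.normSq_apply, Complex.normSq_apply]
  simp
  nlinarith

theorem norm_cay_le {z : ℂ} (hz : 0 ≤ z.im) : ‖cay z‖ ≤ 1 := by
  unfold cay
  rw [norm_div, div_le_one (norm_pos_iff.2 (add_I_ne hz))]
  rw [← sq_le_sq₀ (norm_nonneg _) (norm_nonneg _), ← Complex.normSq_eq_norm_sq,
    ← Complex.normSq_eq_norm_sq, Complex.normSq_apply, Complex.normSq_apply]
  simp
  nlinarith

theorem one_sub_ne {w : ℂ} (hw : ‖w‖ < 1) : (1:ℂ) - w ≠ 0 := by
  intro h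
  have : w = 1 := (sub_eq_zero.1 h).symm
  rw [this] at hw
  simp at hw

theorem icay_im {w : ℂ} (hw : ‖w‖ < 1) : 0 < (icay w).im := by
  have h1 := one_sub_ne hw
  have h2 : (icay w).im = (1 - Complex.normSq w) / Complex.normSq (1 - w) := by
    unfold icay
    rw [Complex.div_im]
    have h3 : Complex.normSq (1 - w) ≠ 0 := (Complex.normSq_pos.2 h1).ne'
    field_simp
    simp [Complex.normSq_apply]
    ring
  rw [h2]
  apply div_pos _ (Complex.normSq_pos.2 h1)
  rw [Complex.normSq_eq_norm_sq]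
  have := norm_nonneg w
  nlinarith

theorem icay_diff : DifferentiableOn ℂ icay (Metric.ball 0 1) := by
  intro w hw
  have h1 : (1:ℂ) - w ≠ 0 := one_sub_ne (by simpa using hw)
  unfold icay
  exact ((((differentiableAt_const _).mul ((differentiableAt_const _).add differentiableAt_id)).div
    ((differentiableAt_const _).sub differentiableAt_id) h1)).differentiableWithinAt

theorem icay_contAt {w : ℂ} (hw : w ≠ 1) : ContinuousAt icay w := by
  have h1 : (1:ℂ) - w ≠ 0 := sub_ne_zero.2 hw.symm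
  unfold icay
  exact ((continuousAt_const.mul (continuousAt_const.add continuousAt_id)).div
    (continuousAt_const.sub continuousAt_id) h1)

/-- the point of the circle over the real point `tan u` -/
theorem icay_exp {u : ℝ} (hc : Real.cos u ≠ 0) :
    exp (((Real.pi + 2 * u : ℝ) : ℂ) * I) ≠ 1 ∧
      icay (exp (((Real.pi + 2 * u : ℝ) : ℂ) * I)) = ((Real.tan u : ℝ) : ℂ) := by
  have h0 : exp (((Real.pi + 2 * u : ℝ) : ℂ) * I) = - exp ((u : ℂ) * I) ^ 2 := by
    have : (((Real.pi + 2 * u : ℝ) : ℂ) * I) = Real.pi * I + 2 * ((u : ℂ) * I) := by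
      push_cast; ring
    rw [this, Complex.exp_add, Complex.exp_pi_mul_I, ← Complex.exp_nat_mul]
    push_cast
    ring
  have he : exp ((u : ℂ) * I) = (Real.cos u : ℂ) + (Real.sin u : ℂ) * I := by
    rw [Complex.exp_mul_I, Complex.ofReal_cos, Complex.ofReal_sin]
  have hcs : (Real.cos u : ℂ) ^ 2 + (Real.sin u : ℂ) ^ 2 = 1 := by
    have := Real.cos_sq_add_sin_sq u
    exact_mod_cast this
  have hI : I ^ 2 = -1 := Complex.I_sq
  have hcc : (Real.cos u : ℂ) ≠ 0 := by exact_mod_cast hc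
  have hen : exp ((u : ℂ) * I) ≠ 0 := Complex.exp_ne_zero _
  have hminus : (1:ℂ) - exp (((Real.pi + 2 * u : ℝ) : ℂ) * I) =
      2 * (Real.cos u : ℂ) * exp ((u : ℂ) * I) := by
    rw [h0, he]
    linear_combination (Real.sin u : ℂ) ^ 2 * hI - hcs
  have hplus : (1:ℂ) + exp (((Real.pi + 2 * u : ℝ) : ℂ) * I) =
      -2 * I * (Real.sin u : ℂ) * exp ((u : ℂ) * I) := by
    rw [h0, he]
    linear_combination (Real.sin u : ℂ) ^ 2 * hI - hcs
  constructor
  · intro hcon
    rw [hcon, sub_self] at hminus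
    exact (mul_ne_zero (mul_ne_zero two_ne_zero hcc) hen) hminus.symm
  · unfold icay
    rw [hminus, hplus, Real.tan_eq_sin_div_cos, Complex.ofReal_div,
      div_eq_div_iff (mul_ne_zero (mul_ne_zero two_ne_zero hcc) hen) hcc]
    linear_combination (-2 * (Real.sin u : ℂ) * exp ((u : ℂ) * I) * (Real.cos u : ℂ)) * hI

/-- continuity of the inverse of `φ` at the boundary, in the form of the radial condition. -/
theorem rad {D : Set ℂ} (hD : IsOpen D) (hDb : Bornology.IsBounded D) {φ ψ : ℂ → ℂ} {d : ℂ}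
    (hd : d ∈ frontier D) (hφD : φ '' D = {z : ℂ | 0 < z.im})
    (hψ : ∀ w : ℂ, 0 < w.im → ψ w ∈ D ∧ φ (ψ w) = w)
    (hφc : ContinuousOn φ (closure D \ {d}))
    (hφd : Tendsto (fun z => ‖φ z‖) (𝓝[D] d) atTop)
    {g : ℂ → ℂ} {A B : ℂ} {u : ℝ} (hc : Real.cos u ≠ 0)
    (hb : ∀ p ∈ frontier D, p ≠ d → φ p = ((Real.tan u : ℝ) : ℂ) →
      Tendsto (fun z => ((g z - A) / B).im) (𝓝[D] p) (𝓝 0)) :
    RB (fun w => g (ψ (icay w))) A B (Real.pi + 2 * u) := by
  obtain ⟨hne, hval⟩ := icay_exp hc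
  set e : ℂ := exp (((Real.pi + 2 * u : ℝ) : ℂ) * I) with he
  have hnD : d ∉ D := by
    rw [hD.frontier_eq] at hd
    exact hd.2
  have hcpt : IsCompact (closure D) := hDb.isCompact_closure
  have hlim : Tendsto (fun r : ℝ => icay ((r : ℂ) * e)) (𝓝[<] 1) (𝓝 ((Real.tan u : ℝ) : ℂ)) := by
    have h1 : Tendsto (fun r : ℝ => (r : ℂ) * e) (𝓝[<] 1) (𝓝 e) := by
      have : Continuous (fun r : ℝ => (r : ℂ) * e) := by fun_prop
      have h0 := this.tendsto 1
      simp only [Complex.ofReal_one, one_mul] at h0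
      exact h0.mono_left nhdsWithin_le_nhds
    have h2 := (icay_contAt hne).tendsto.comp h1
    rw [hval] at h2
    exact h2
  have hev : ∀ᶠ r : ℝ in 𝓝[<] 1, ψ (icay ((r : ℂ) * e)) ∈ D ∧
      φ (ψ (icay ((r : ℂ) * e))) = icay ((r : ℂ) * e) := by
    filter_upwards [ev_lt_one 0 zero_lt_one] with r hr
    apply hψ
    apply icay_im
    rw [he, norm_rexp hr.1.le]
    exact hr.2
  unfold RB
  rw [tendsto_iff_ultrafilter]
  intro U hU
  have hmapD : ((U.map (fun r : ℝ => ψ (icay ((r : ℂ) * e))) : Ultrafilter ℂ) : Filter ℂ) ≤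
      𝓟 (closure D) := by
    rw [le_principal_iff, Ultrafilter.coe_map, mem_map]
    exact hU (hev.mono (fun r hr => subset_closure hr.1))
  obtain ⟨p, hp, hpl⟩ := hcpt.ultrafilter_le_nhds _ hmapD
  rw [Ultrafilter.coe_map] at hpl
  have hz : Tendsto (fun r : ℝ => ψ (icay ((r : ℂ) * e))) (U : Filter ℝ) (𝓝[D] p) := by
    rw [tendsto_nhdsWithin_iff]
    exact ⟨hpl, hU (hev.mono (fun r hr => hr.1))⟩
  have hφz : Tendsto (fun r : ℝ => φ (ψ (icay ((r : ℂ) * e)))) (U : Filter ℝ)
      (𝓝 ((Real.tan u : ℝ) : ℂ)) := by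
    refine (hlim.mono_left hU).congr' ?_
    exact hU (hev.mono (fun r hr => hr.2.symm))
  have hpd : p ≠ d := by
    rintro rfl
    have h1 : Tendsto (fun r : ℝ => ‖φ (ψ (icay ((r : ℂ) * e)))‖) (U : Filter ℝ) atTop :=
      hφd.comp hz
    exact not_tendsto_atTop_of_tendsto_nhds hφz.norm h1
  have hφp : φ p = ((Real.tan u : ℝ) : ℂ) := by
    have h1 : Tendsto φ (𝓝[D] p) (𝓝 (φ p)) := by
      have h2 : Tendsto φ (𝓝[closure D \ {d}] p) (𝓝 (φ p)) := hφc p ⟨hp, hpd⟩
      refine h2.mono_left (nhdsWithin_mono _ ?_)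
      intro z hz
      exact ⟨subset_closure hz, fun h => hnD (h ▸ hz)⟩
    exact tendsto_nhds_unique (h1.comp hz) hφz
  have hpD : p ∉ D := by
    intro hcon
    have : φ p ∈ φ '' D := mem_image_of_mem _ hcon
    rw [hφD, hφp] at this
    simp at this
  have hpf : p ∈ frontier D := by
    rw [hD.frontier_eq]
    exact ⟨hp, hpD⟩
  exact (hb p hpf hpd hφp).comp hz

theorem marks : Marks Real.pi (3 * Real.pi / 2) (2 * Real.pi) := by
  have := Real.pi_pos
  refine ⟨?_, ?_, ?_⟩ <;> linarith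

theorem param (s : ℝ) : ∃ u : ℝ, s = Real.pi + 2 * u := ⟨(s - Real.pi) / 2, by ring⟩

theorem conj_om' : conj om = om ^ 2 := by
  have h3 : (Real.sqrt 3 : ℝ) ^ 2 = 3 := Real.sq_sqrt (by norm_num)
  rw [om_eq]
  apply Complex.ext
  · simp [pow_two]; nlinarith
  · simp [pow_two]; ring

theorem crossRatio_val (x : ℝ) :
    crossRatioAt (exp ((Real.pi : ℂ) * I)) (cay x) (exp (((3 * Real.pi / 2 : ℝ) : ℂ) * I))
      (exp (((2 * Real.pi : ℝ) : ℂ) * I)) = x := by
  have h1 : exp ((Real.pi : ℂ) * I) = -1 := Complex.exp_pi_mul_I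
  have h2 : exp (((2 * Real.pi : ℝ) : ℂ) * I) = 1 := by
    have := Complex.exp_two_pi_mul_I
    push_cast
    exact this
  have h3 : exp (((3 * Real.pi / 2 : ℝ) : ℂ) * I) = -I := by
    have : (((3 * Real.pi / 2 : ℝ) : ℂ) * I) = Real.pi * I + Real.pi / 2 * I := by
      push_cast; ring
    rw [this, Complex.exp_add, Complex.exp_pi_mul_I, Complex.exp_pi_div_two_mul_I]
    ring
  have h4 : (x : ℂ) + I ≠ 0 := add_I_ne (by simp)
  have h5 : (1:ℂ) + I ≠ 0 := by
    intro h; have := congrArg Complex.re h; simp at this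
  have h6 : (1:ℂ) - I ≠ 0 := by
    intro h; have := congrArg Complex.re h; simp at this
  unfold crossRatioAt
  rw [h1, h2, h3]
  unfold cay
  have e : ((((x:ℂ) - I) / (x + I) - -1) * (-I - 1)) / ((((x:ℂ) - I) / (x + I) - 1) * (-I - -1)) =
      x := by
    have e1 : (((x:ℂ) - I) / (x + I) - -1) = 2 * x / (x + I) := by field_simp; ring
    have e2 : (((x:ℂ) - I) / (x + I) - 1) = -2 * I / (x + I) := by field_simp; ring
    rw [e1, e2, show (-I - -1 : ℂ) = 1 - I by ring]
    have hI : I ≠ 0 := Complex.I_ne_zero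
    rw [div_mul_eq_mul_div, div_mul_eq_mul_div, div_div_div_cancel_right₀ h4]
    rw [div_eq_iff (mul_ne_zero (mul_ne_zero (by norm_num) hI) h6)]
    linear_combination (-2 * (x:ℂ)) * Complex.I_sq
  rw [e, Complex.ofReal_re]

theorem arcs {D : Set ℂ} {φ : ℂ → ℂ} {d : ℂ} {g : ℂ → ℂ} {A B : ℂ} {P : ℝ → Prop}
    (h : ∀ p ∈ frontier D, p ≠ d → (φ p).im = 0 → P (φ p).re →
      Tendsto (fun z => ((g z - A) / B).im) (𝓝[D] p) (𝓝 0)) {t : ℝ} (ht : P t) :
    ∀ p ∈ frontier D, p ≠ d → φ p = ((t : ℝ) : ℂ) →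
      Tendsto (fun z => ((g z - A) / B).im) (𝓝[D] p) (𝓝 0) := by
  intro p hp hpd hv
  apply h p hp hpd
  · rw [hv]; simp
  · rw [hv]; simpa using ht

/-- the radial conditions of the three arcs -/
theorem rads {D : Set ℂ} (hD : IsOpen D) (hDb : Bornology.IsBounded D) {φ ψ : ℂ → ℂ} {d : ℂ}
    (hd : d ∈ frontier D) (hφD : φ '' D = {z : ℂ | 0 < z.im})
    (hψ : ∀ w : ℂ, 0 < w.im → ψ w ∈ D ∧ φ (ψ w) = w)
    (hφc : ContinuousOn φ (closure D \ {d}))
    (hφd : Tendsto (fun z => ‖φ z‖) (𝓝[D] d) atTop)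
    {g : ℂ → ℂ} {A1 B1 A2 B2 A3 B3 : ℂ}
    (b1 : ∀ p ∈ frontier D, p ≠ d → (φ p).im = 0 → (0 < (φ p).re ∧ (φ p).re < 1) →
      Tendsto (fun z => ((g z - A1) / B1).im) (𝓝[D] p) (𝓝 0))
    (b2 : ∀ p ∈ frontier D, p ≠ d → (φ p).im = 0 → 1 < (φ p).re →
      Tendsto (fun z => ((g z - A2) / B2).im) (𝓝[D] p) (𝓝 0))
    (b3 : ∀ p ∈ frontier D, p ≠ d → (φ p).im = 0 → (φ p).re < 0 →
      Tendsto (fun z => ((g z - A3) / B3).im) (𝓝[D] p) (𝓝 0)) :
    (∀ s ∈ Ioo Real.pi (3 * Real.pi / 2), RB (fun w => g (ψ (icay w))) A1 B1 s) ∧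
    (∀ s ∈ Ioo (3 * Real.pi / 2) (2 * Real.pi), RB (fun w => g (ψ (icay w))) A2 B2 s) ∧
    (∀ s ∈ Ioo (2 * Real.pi) (Real.pi + 2 * Real.pi), RB (fun w => g (ψ (icay w))) A3 B3 s) := by
  have hpi := Real.pi_pos
  refine ⟨?_, ?_, ?_⟩
  · intro s hs
    obtain ⟨u, rfl⟩ := param s
    have hu0 : 0 < u := by linarith [hs.1]
    have hu1 : u < Real.pi / 4 := by linarith [hs.2]
    have hcu : 0 < Real.cos u := Real.cos_pos_of_mem_Ioo ⟨by linarith, by linarith⟩
    have ht0 : 0 < Real.tan u := Real.tan_pos_of_pos_of_lt_pi_div_two hu0 (by linarith)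
    have ht1 : Real.tan u < 1 := by
      rw [← Real.tan_pi_div_four]
      exact Real.tan_lt_tan_of_lt_of_lt_pi_div_two (by linarith) (by linarith) hu1
    exact rad hD hDb hd hφD hψ hφc hφd hcu.ne'
      (arcs (P := fun t => 0 < t ∧ t < 1) b1 ⟨ht0, ht1⟩)
  · intro s hs
    obtain ⟨u, rfl⟩ := param s
    have hu0 : Real.pi / 4 < u := by linarith [hs.1]
    have hu1 : u < Real.pi / 2 := by linarith [hs.2]
    have hcu : 0 < Real.cos u := Real.cos_pos_of_mem_Ioo ⟨by linarith, by linarith⟩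
    have ht1 : 1 < Real.tan u := by
      rw [← Real.tan_pi_div_four]
      exact Real.tan_lt_tan_of_lt_of_lt_pi_div_two (by linarith) (by linarith) hu0
    exact rad hD hDb hd hφD hψ hφc hφd hcu.ne' (arcs (P := fun t => 1 < t) b2 ht1)
  · intro s hs
    obtain ⟨u, rfl⟩ := param s
    have hu0 : Real.pi / 2 < u := by linarith [hs.1]
    have hu1 : u < Real.pi := by linarith [hs.2]
    have hcu : Real.cos u < 0 :=
      Real.cos_neg_of_pi_div_two_lt_of_lt hu0 (by linarith)
    have ht1 : Real.tan u < 0 := by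
      rw [← Real.tan_sub_pi u]
      exact Real.tan_neg_of_neg_of_pi_div_two_lt (by linarith) (by linarith)
    exact rad hD hDb hd hφD hψ hφc hφd hcu.ne (arcs (P := fun t => t < 0) b3 ht1)

theorem bc5 : BC5 := by
  classical
  intro D hD hDb hDc φ hφ hφi hφD d hd hφc hφd h hT hhol b hb hbd x hx0 hx1 hbx
  have hpi := Real.pi_pos
  have hom3 := om_cube
  set ψ : ℂ → ℂ := Function.invFunOn φ D with hψdef
  have hψl : ∀ z ∈ D, ψ (φ z) = z := fun z hz => hφi.leftInvOn_invFunOn hz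
  have hψ : ∀ w : ℂ, 0 < w.im → ψ w ∈ D ∧ φ (ψ w) = w := by
    intro w hw
    have hmem : w ∈ φ '' D := by rw [hφD]; exact hw
    obtain ⟨z, hz, rfl⟩ := hmem
    rw [hψl z hz]
    exact ⟨hz, rfl⟩
  have hψd : DifferentiableOn ℂ ψ {z : ℂ | 0 < z.im} := by
    have := Crest.Agent.Lib.differentiableOn_inverse_of_injOn (g := ψ) hD hφ hφi hψl
    rwa [hφD] at this
  have hcomp : DifferentiableOn ℂ (fun w => ψ (icay w)) (Metric.ball 0 1) :=
    hψd.comp icay_diff (fun w hw => icay_im (by simpa using hw))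
  have hmaps : MapsTo (fun w => ψ (icay w)) (Metric.ball 0 1) D :=
    fun w hw => (hψ _ (icay_im (by simpa using hw))).1
  obtain ⟨M, hM⟩ := hT.bd
  have hnD : d ∉ D := by
    rw [hD.frontier_eq] at hd
    exact hd.2
  rcases hhol with hol | hol
  · obtain ⟨r1, r2, r3⟩ := rads hD hDb hd hφD hψ hφc hφd (g := h)
      (fun p h1 h2 h3 h4 => hT.b1 p h1 h2 h3 h4.1 h4.2) hT.b2 hT.b3
    have hf := disc_match marks (f := fun w => h (ψ (icay w))) (hol.comp hcomp hmaps)
      (fun w hw => hM _ (hmaps hw)) r1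
      (by intro s hs; have := r2 s hs; rwa [tau3_eq, show om ^ 2 - om = om * (om - 1) by ring] at this)
      (by
        intro s hs
        have := r3 s hs
        rwa [tau3_eq, show (1:ℂ) - om ^ 2 = om ^ 2 * (om - 1) by linear_combination -hom3] at this)
    -- the value of `h`
    have hval : ∀ z ∈ D, tri Real.pi (3 * Real.pi / 2) (2 * Real.pi) (cay (φ z)) = h z := by
      intro z hz
      have him : 0 < (φ z).im := by
        have : φ z ∈ φ '' D := mem_image_of_mem _ hz
        rw [hφD] at this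
        exact this
      have h1 := hf (cay (φ z)) (by simpa using norm_cay him)
      simp only [icay_cay him.le, hψl z hz] at h1
      exact h1.symm
    obtain ⟨tc, -, t1, -⟩ := tri_main marks
    have hφb : Tendsto φ (𝓝[D] b) (𝓝 (x : ℂ)) := by
      have h1 : Tendsto φ (𝓝[closure D \ {d}] b) (𝓝 (φ b)) :=
        hφc b ⟨frontier_subset_closure hb, hbd⟩
      rw [hbx] at h1
      refine h1.mono_left (nhdsWithin_mono _ ?_)
      intro z hz
      exact ⟨subset_closure hz, fun hh => hnD (hh ▸ hz)⟩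
    have hxI : (x : ℂ) + I ≠ 0 := add_I_ne (by simp)
    have hcayc : ContinuousAt cay (x : ℂ) := by
      unfold cay
      exact (continuousAt_id.sub continuousAt_const).div (continuousAt_id.add continuousAt_const) hxI
    have hcb : Tendsto (fun z => cay (φ z)) (𝓝[D] b) (𝓝[Metric.closedBall 0 1] (cay x)) := by
      rw [tendsto_nhdsWithin_iff]
      refine ⟨hcayc.tendsto.comp hφb, ?_⟩
      filter_upwards [self_mem_nhdsWithin] with z hz
      have him : 0 < (φ z).im := by
        have : φ z ∈ φ '' D := mem_image_of_mem _ hz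
        rw [hφD] at this
        exact this
      rw [mem_closedBall_zero_iff]
      exact norm_cay_le him.le
    have hlim := (tc (cay x) (by rw [mem_closedBall_zero_iff]; exact norm_cay_le (by simp))).tendsto.comp hcb
    -- the parameter
    set u : ℝ := Real.arctan x with hu
    have hcu : 0 < Real.cos u := Real.cos_arctan_pos x
    have hex : exp (((Real.pi + 2 * u : ℝ) : ℂ) * I) = cay x := by
      obtain ⟨hne, hv⟩ := icay_exp hcu.ne'
      rw [hu, Real.tan_arctan] at hv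
      rw [← hv]
      set w : ℂ := exp (((Real.pi + 2 * u : ℝ) : ℂ) * I) with hw
      have h1 : (1:ℂ) - w ≠ 0 := sub_ne_zero.2 hne.symm
      unfold cay icay
      have e1 : I * (1 + w) / (1 - w) - I = 2 * I * w / (1 - w) := by field_simp; ring
      have e2 : I * (1 + w) / (1 - w) + I = 2 * I / (1 - w) := by field_simp; ring
      rw [e1, e2]
      field_simp
    have hs : Real.pi + 2 * u ∈ Icc Real.pi (3 * Real.pi / 2) := by
      have h1 : 0 ≤ u := by rw [hu]; exact Real.arctan_nonneg.2 hx0.le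
      have h2 : u ≤ Real.pi / 4 := by
        rw [hu, ← Real.arctan_one]
        exact Real.arctan_strictMono.monotone hx1.le
      constructor <;> linarith
    have ht1 := t1 _ hs
    rw [hex, crossRatio_val] at ht1
    rw [ht1] at hlim
    have hfin : (1 + (crossingFormula x : ℂ) * (tau3 - 1)) =
        1 + (om - 1) * ((cardyRatio x : ℝ) : ℂ) := by
      rw [tau3_eq]
      have : crossingFormula x = cardyRatio x := rfl
      rw [this]; ring
    rw [hfin]
    refine hlim.congr' ?_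
    filter_upwards [self_mem_nhdsWithin] with z hz
    exact hval z hz
  · exfalso
    have cA1 : conj (om - 1) = om ^ 2 - 1 := by rw [map_sub, conj_om', map_one]
    have cA3 : conj (om ^ 2) = om := by
      rw [map_pow, conj_om']; linear_combination om * hom3
    have cA2 : conj (om ^ 2 - om) = om - om ^ 2 := by
      rw [map_sub, cA3, conj_om']
    have cA4 : conj (1 - om ^ 2) = 1 - om := by
      rw [map_sub, cA3, map_one]
    have cj : ∀ (A B : ℂ) (p : ℂ), LB D h A B p →
        Tendsto (fun z => ((conj (h z) - conj A) / conj B).im) (𝓝[D] p) (𝓝 0) := by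
      intro A B p hp
      have h1 : ∀ z, ((conj (h z) - conj A) / conj B).im = -((h z - A) / B).im := by
        intro z
        have : (conj (h z) - conj A) / conj B = conj ((h z - A) / B) := by
          simp [map_div₀, map_sub]
        rw [this, Complex.conj_im]
      simp only [h1]
      have h2 : Tendsto (fun z => ((h z - A) / B).im) (𝓝[D] p) (𝓝 0) := hp
      simpa using h2.neg
    obtain ⟨r1, r2, r3⟩ := rads hD hDb hd hφD hψ hφc hφd (g := fun z => conj (h z))
      (A1 := 1) (B1 := om ^ 2 - 1) (A2 := om ^ 2) (B2 := om - om ^ 2) (A3 := om) (B3 := 1 - om)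
      (fun p h1 h2 h3 h4 => by
        have := cj _ _ p (hT.b1 p h1 h2 h3 h4.1 h4.2)
        rwa [map_one, tau3_eq, cA1] at this)
      (fun p h1 h2 h3 h4 => by
        have := cj _ _ p (hT.b2 p h1 h2 h3 h4)
        rwa [tau3_eq, conj_om', cA2] at this)
      (fun p h1 h2 h3 h4 => by
        have := cj _ _ p (hT.b3 p h1 h2 h3 h4)
        rwa [tau3_eq, cA3, cA4] at this)
    exact disc_mismatch marks (f := fun w => conj (h (ψ (icay w)))) (hol.comp hcomp hmaps)
      (M := M) (fun w hw => by rw [Complex.norm_conj]; exact hM _ (hmaps hw)) r1 r2 r3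

end Crest.Agent.R143.IdentDx439
end
end

-- ▼ part R143/Front_336
section

/-!
# Row 143 (S0194): the front of S0194 (helper336)

* `exists_bdry` : every real number is a boundary value of `φ` at a frontier point `≠ d`
* `front194` : S0194 follows from two families of discrete observables with `EndH` (hypotheses of
  S0194 literal; the good boundary point `b` is provided, `b = d` in S0194 does not matter)
* `alb_of_bary`, `val_of_bary` : boundary conditions from barycentric coordinates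
-/

set_option autoImplicit false

noncomputable section

namespace Crest.Agent.R143.Frontx336

open Complex Set Filter Topology MeasureTheory
open Crest.ProbabilityR.Voronoi Crest.Agent.R143.BC0x336 Crest.Agent.R143.EndAx336

/-- every real number is a boundary value of `φ` at a frontier point `≠ d` -/
theorem exists_bdry {D : Set ℂ} (hD : IsOpen D) (hDb : Bornology.IsBounded D) {φ : ℂ → ℂ}
    (hφ : DifferentiableOn ℂ φ D) (hφD : φ '' D = {z : ℂ | 0 < z.im}) {d : ℂ}
    (hφc : ContinuousOn φ (closure D \ {d}))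
    (hφd : Tendsto (fun z => ‖φ z‖) (𝓝[D] d) atTop) (s : ℝ) :
    ∃ p ∈ frontier D, p ≠ d ∧ φ p = s := by
  have h1 : ∀ n : ℕ, ∃ z ∈ D, φ z = (s : ℂ) + (1 / ((n : ℝ) + 1) : ℝ) * I := by
    intro n
    have : (s : ℂ) + (1 / ((n : ℝ) + 1) : ℝ) * I ∈ φ '' D := by
      rw [hφD]
      show 0 < ((s : ℂ) + (1 / ((n : ℝ) + 1) : ℝ) * I).im
      have h0 : (0 : ℝ) < 1 / ((n : ℝ) + 1) := by positivity
      rw [Complex.add_im, Complex.ofReal_im, zero_add, Complex.im_ofReal_mul, Complex.I_im, mul_one]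
      exact h0
    obtain ⟨z, hz, hz2⟩ := this
    exact ⟨z, hz, hz2⟩
  choose z hzD hz using h1
  have hlim : Tendsto (fun n => φ (z n)) atTop (𝓝 (s : ℂ)) := by
    have h2 : Tendsto (fun n : ℕ => (1 / ((n : ℝ) + 1) : ℝ)) atTop (𝓝 0) :=
      tendsto_one_div_add_atTop_nhds_zero_nat
    have h3 : Tendsto (fun n : ℕ => (s : ℂ) + (1 / ((n : ℝ) + 1) : ℝ) * I) atTop
        (𝓝 ((s : ℂ) + ((0 : ℝ) : ℂ) * I)) := by
      refine tendsto_const_nhds.add (Tendsto.mul_const I ?_)
      exact (Complex.continuous_ofReal.tendsto 0).comp h2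
    rw [Complex.ofReal_zero, zero_mul, add_zero] at h3
    exact h3.congr fun n => (hz n).symm
  obtain ⟨p, hp, k, hk, hpk⟩ := hDb.isCompact_closure.tendsto_subseq
    (fun n => subset_closure (hzD n))
  have hlk : Tendsto (fun n => φ (z (k n))) atTop (𝓝 (s : ℂ)) := hlim.comp hk.tendsto_atTop
  have hpk' : Tendsto (fun n => z (k n)) atTop (𝓝[D] p) :=
    tendsto_nhdsWithin_iff.2 ⟨hpk, Eventually.of_forall fun n => hzD _⟩
  have hpd : p ≠ d := by
    rintro rfl
    have h4 := hφd.comp hpk'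
    exact not_tendsto_nhds_of_tendsto_atTop h4 ‖(s : ℂ)‖ hlk.norm
  have hpD : p ∉ D := by
    intro hpD
    have h4 : Tendsto (fun n => φ (z (k n))) atTop (𝓝 (φ p)) :=
      ((hφ.differentiableAt (hD.mem_nhds hpD)).continuousAt.tendsto).comp hpk
    have h5 := tendsto_nhds_unique h4 hlk
    have h6 : φ p ∈ φ '' D := ⟨p, hpD, rfl⟩
    rw [hφD, h5] at h6
    simp at h6
  refine ⟨p, ⟨hp, fun h => hpD (interior_subset h)⟩, hpd, ?_⟩
  have h4 : Tendsto (fun n => z (k n)) atTop (𝓝[closure D \ {d}] p) := by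
    rw [tendsto_nhdsWithin_iff]
    refine ⟨hpk, ?_⟩
    filter_upwards [hpk.eventually_ne hpd] with n hn
    exact ⟨subset_closure (hzD _), hn⟩
  exact tendsto_nhds_unique ((hφc p ⟨hp, hpd⟩).tendsto.comp h4) hlk


/-! ### barycentric coordinates -/

variable {ι : Type} {D : Set ℂ} {l : Filter ι}



end Crest.Agent.R143.Frontx336
end
end

-- ▼ part R143/EndB_336

/-!
# Row 143 (S0194): end theorem with the alternative holomorphic / antiholomorphic (helper336)

* `del` : the operator `∂/∂z`; `dbar_conj`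
* `EndM` : as `EndH`, but only the minimum of the two masses tends to zero
* `end_coreM`, `frontM`, `front194M`
-/

set_option autoImplicit false

noncomputable section

namespace Crest.Agent.R143.EndBx336

open Complex Set Filter Topology MeasureTheory
open Crest.ProbabilityR.Voronoi Crest.Agent.R143.BC0x336 Crest.Agent.R143.EndAx336

/-- the operator `∂/∂z` -/
def del (f : ℂ → ℂ) (z : ℂ) : ℂ := (fderiv ℝ f z 1 - I * fderiv ℝ f z I) / 2

/-- complex conjugate of a function -/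
def cj (f : ℂ → ℂ) : ℂ → ℂ := fun z => (starRingEnd ℂ) (f z)

theorem fderiv_cj {f : ℂ → ℂ} {z : ℂ} (hf : DifferentiableAt ℝ f z) (v : ℂ) :
    fderiv ℝ (cj f) z v = (starRingEnd ℂ) (fderiv ℝ f z v) := by
  have h : HasFDerivAt (cj f) ((Complex.conjCLE : ℂ →L[ℝ] ℂ).comp (fderiv ℝ f z)) z :=
    (Complex.conjCLE : ℂ →L[ℝ] ℂ).hasFDerivAt.comp z hf.hasFDerivAt
  rw [h.fderiv]
  rfl

theorem dbar_cj {f : ℂ → ℂ} (hf : ContDiff ℝ 1 f) (z : ℂ) :
    dbar (cj f) z = (starRingEnd ℂ) (del f z) := by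
  have hd : DifferentiableAt ℝ f z := (hf.differentiable (by norm_num)) z
  unfold dbar del
  rw [fderiv_cj hd, fderiv_cj hd]
  simp only [map_div₀, map_sub, map_mul, Complex.conj_I, map_ofNat]
  ring

theorem norm_dbar_cj {f : ℂ → ℂ} (hf : ContDiff ℝ 1 f) (z : ℂ) :
    ‖dbar (cj f) z‖ = ‖del f z‖ := by
  rw [dbar_cj hf, Complex.norm_conj]

theorem contDiff_cj {f : ℂ → ℂ} (hf : ContDiff ℝ 1 f) : ContDiff ℝ 1 (cj f) :=
  (Complex.conjCLE : ℂ →L[ℝ] ℂ).contDiff.comp hf

variable {ι : Type} {D : Set ℂ}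

/-- hypotheses of the end theorem, alternative version -/
structure EndM (D : Set ℂ) (φ : ℂ → ℂ) (d b : ℂ) (l : Filter ι) (H g : ι → ℂ → ℂ) (c : ι → ℝ) :
    Prop where
  bd : ∃ M : ℝ, ∀ i, ∀ z ∈ D, ‖H i z‖ ≤ M
  equi : AEqui D l H
  smooth : ∀ i, ContDiff ℝ 1 (g i)
  close : ∀ K, IsCompact K → K ⊆ D → ∀ η > 0, ∀ᶠ i in l, ∀ z ∈ K, dist (g i z) (H i z) ≤ η
  /-- holomorphic or antiholomorphic -/
  mn : ∀ K, IsCompact K → K ⊆ D →
    Tendsto (fun i => min (∫ z in K, ‖dbar (g i) z‖) (∫ z in K, ‖del (g i) z‖)) l (𝓝 0)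
  b1 : ∀ p ∈ frontier D, p ≠ d → (φ p).im = 0 → 0 < (φ p).re → (φ p).re < 1 →
    ALB D l H 1 (tau3 - 1) p
  b2 : ∀ p ∈ frontier D, p ≠ d → (φ p).im = 0 → 1 < (φ p).re →
    ALB D l H tau3 (tau3 ^ 2 - tau3) p
  b3 : ∀ p ∈ frontier D, p ≠ d → (φ p).im = 0 → (φ p).re < 0 →
    ALB D l H (tau3 ^ 2) (1 - tau3 ^ 2) p
  /-- the value near `b` is the crossing probability -/
  val : ∀ η > 0, ∃ δ > 0, ∀ᶠ i in l, ∀ z ∈ D, dist z b < δ →
    dist (H i z) (1 + (c i : ℂ) * (tau3 - 1)) ≤ η

theorem EndM.mono {φ : ℂ → ℂ} {d b : ℂ} {l l' : Filter ι} {H g : ι → ℂ → ℂ} {c : ι → ℝ}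
    (h : EndM D φ d b l H g c) (hl : l' ≤ l) : EndM D φ d b l' H g c where
  bd := h.bd
  equi := h.equi.mono hl
  smooth := h.smooth
  close K hK hKD η hη := hl (h.close K hK hKD η hη)
  mn K hK hKD := (h.mn K hK hKD).mono_left hl
  b1 p hp h1 h2 h3 h4 := (h.b1 p hp h1 h2 h3 h4).mono hl
  b2 p hp h1 h2 h3 := (h.b2 p hp h1 h2 h3).mono hl
  b3 p hp h1 h2 h3 := (h.b3 p hp h1 h2 h3).mono hl
  val η hη := by
    obtain ⟨δ, hδ, h1⟩ := h.val η hη
    exact ⟨δ, hδ, hl h1⟩


/-- integrability of the norm of a continuous function on a compact set -/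
theorem intOn_dbar {f : ℂ → ℂ} (hf : ContDiff ℝ 1 f) {K : Set ℂ} (hK : IsCompact K) :
    IntegrableOn (fun z => ‖dbar f z‖) K := by
  have h1 : Continuous (fderiv ℝ f) := hf.continuous_fderiv (by norm_num)
  have h2 : Continuous fun z => dbar f z := by
    unfold dbar
    have e1 : Continuous fun z => fderiv ℝ f z 1 := h1.clm_apply continuous_const
    have e2 : Continuous fun z => fderiv ℝ f z I := h1.clm_apply continuous_const
    fun_prop
  exact h2.norm.continuousOn.integrableOn_compact hK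

theorem intOn_del {f : ℂ → ℂ} (hf : ContDiff ℝ 1 f) {K : Set ℂ} (hK : IsCompact K) :
    IntegrableOn (fun z => ‖del f z‖) K := by
  have h1 : Continuous (fderiv ℝ f) := hf.continuous_fderiv (by norm_num)
  have h2 : Continuous fun z => del f z := by
    unfold del
    have e1 : Continuous fun z => fderiv ℝ f z 1 := h1.clm_apply continuous_const
    have e2 : Continuous fun z => fderiv ℝ f z I := h1.clm_apply continuous_const
    fun_prop
  exact h2.norm.continuousOn.integrableOn_compact hK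

/-- compact exhaustion of an open set, as a sequence: every compact subset is contained in a member -/
theorem exists_exh (hD : IsOpen D) : ∃ E : ℕ → Set ℂ, (∀ n, IsCompact (E n)) ∧ (∀ n, E n ⊆ D) ∧
    Monotone E ∧ ∀ K, IsCompact K → K ⊆ D → ∃ n, K ⊆ E n := by
  refine ⟨fun n => Metric.closedBall 0 n ∩ {z | ∀ w ∉ D, 1 / ((n : ℝ) + 1) ≤ dist z w},
    ?_, ?_, ?_, ?_⟩
  · intro n
    refine (isCompact_closedBall _ _).inter_right ?_
    have : {z : ℂ | ∀ w ∉ D, 1 / ((n : ℝ) + 1) ≤ dist z w} =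
        ⋂ w ∈ Dᶜ, {z | 1 / ((n : ℝ) + 1) ≤ dist z w} := by
      ext z; simp
    rw [this]
    exact isClosed_biInter fun w _ => isClosed_le continuous_const (by fun_prop)
  · rintro n z ⟨_, hz⟩
    by_contra hzD
    have h1 := hz z hzD
    rw [dist_self] at h1
    have : (0 : ℝ) < 1 / ((n : ℝ) + 1) := by positivity
    linarith
  · intro m n hmn z hz
    have hmn' : (m : ℝ) ≤ n := by exact_mod_cast hmn
    refine ⟨Metric.closedBall_subset_closedBall hmn' hz.1, fun w hw => ?_⟩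
    refine le_trans ?_ (hz.2 w hw)
    exact one_div_le_one_div_of_le (by positivity) (by linarith)
  · intro K hK hKD
    obtain ⟨δ, hδ, hδK⟩ := hK.exists_thickening_subset_open hD hKD
    obtain ⟨R, hR⟩ := hK.isBounded.subset_closedBall (0 : ℂ)
    obtain ⟨n, hn⟩ := exists_nat_gt (max R (1 / δ))
    refine ⟨n, fun z hz => ⟨?_, fun w hw => ?_⟩⟩
    · exact Metric.closedBall_subset_closedBall ((le_max_left _ _).trans hn.le) (hR hz)
    · by_contra hlt
      push Not at hlt
      have h1 : 1 / δ < (n : ℝ) + 1 := ((le_max_right _ _).trans_lt hn).trans (by linarith)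
      have h2 : 1 / ((n : ℝ) + 1) < δ := by
        rw [div_lt_iff₀ (by positivity)]
        rw [div_lt_iff₀ hδ] at h1
        linarith
      apply hw
      apply hδK
      rw [Metric.mem_thickening_iff]
      exact ⟨z, hz, by rw [dist_comm]; exact hlt.trans h2⟩

/-- along an ultrafilter, one of the two alternatives holds for all compact sets -/
theorem alt_of_min (hD : IsOpen D) {U : Ultrafilter ι} {g : ι → ℂ → ℂ}
    (hs : ∀ i, ContDiff ℝ 1 (g i))
    (h : ∀ K, IsCompact K → K ⊆ D →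
      Tendsto (fun i => min (∫ z in K, ‖dbar (g i) z‖) (∫ z in K, ‖del (g i) z‖)) U (𝓝 0)) :
    (∀ K, IsCompact K → K ⊆ D → Tendsto (fun i => ∫ z in K, ‖dbar (g i) z‖) U (𝓝 0)) ∨
    (∀ K, IsCompact K → K ⊆ D → Tendsto (fun i => ∫ z in K, ‖del (g i) z‖) U (𝓝 0)) := by
  -- monotonicity in the compact set
  have mono1 : ∀ K L, IsCompact L → K ⊆ L → IsCompact K →
      Tendsto (fun i => ∫ z in L, ‖dbar (g i) z‖) U (𝓝 0) →
      Tendsto (fun i => ∫ z in K, ‖dbar (g i) z‖) U (𝓝 0) := by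
    intro K L hL hKL _ hlim
    refine squeeze_zero (fun i => integral_nonneg fun _ => norm_nonneg _) (fun i => ?_) hlim
    exact setIntegral_mono_set (intOn_dbar (hs i) hL)
      (Eventually.of_forall fun _ => norm_nonneg _) (LE.le.eventuallyLE hKL)
  have mono2 : ∀ K L, IsCompact L → K ⊆ L → IsCompact K →
      Tendsto (fun i => ∫ z in L, ‖del (g i) z‖) U (𝓝 0) →
      Tendsto (fun i => ∫ z in K, ‖del (g i) z‖) U (𝓝 0) := by
    intro K L hL hKL _ hlim
    refine squeeze_zero (fun i => integral_nonneg fun _ => norm_nonneg _) (fun i => ?_) hlim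
    exact setIntegral_mono_set (intOn_del (hs i) hL)
      (Eventually.of_forall fun _ => norm_nonneg _) (LE.le.eventuallyLE hKL)
  -- for one compact set
  have one : ∀ K, IsCompact K → K ⊆ D →
      Tendsto (fun i => ∫ z in K, ‖dbar (g i) z‖) U (𝓝 0) ∨
      Tendsto (fun i => ∫ z in K, ‖del (g i) z‖) U (𝓝 0) := by
    intro K hK hKD
    have h1 := h K hK hKD
    rcases U.eventually_or.1 (Eventually.of_forall fun i =>
      le_total (∫ z in K, ‖dbar (g i) z‖) (∫ z in K, ‖del (g i) z‖)) with h2 | h2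
    · left
      refine h1.congr' ?_
      filter_upwards [h2] with i hi using min_eq_left hi
    · right
      refine h1.congr' ?_
      filter_upwards [h2] with i hi using min_eq_right hi
  obtain ⟨E, hE1, hE2, hE3, hE4⟩ := exists_exh hD
  by_cases hall : ∀ n, Tendsto (fun i => ∫ z in E n, ‖dbar (g i) z‖) U (𝓝 0)
  · left
    intro K hK hKD
    obtain ⟨n, hn⟩ := hE4 K hK hKD
    exact mono1 K (E n) (hE1 n) hn hK (hall n)
  · right
    push Not at hall
    obtain ⟨m, hm⟩ := hall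
    intro K hK hKD
    obtain ⟨n, hn⟩ := hE4 K hK hKD
    have h3 : ¬ Tendsto (fun i => ∫ z in E (max m n), ‖dbar (g i) z‖) U (𝓝 0) := fun h4 =>
      hm (mono1 _ _ (hE1 _) (hE3 (le_max_left m n)) (hE1 m) h4)
    have h5 := (one (E (max m n)) (hE1 _) (hE2 _)).resolve_left h3
    exact mono2 K _ (hE1 _) (hn.trans (hE3 (le_max_right m n))) hK h5




end Crest.Agent.R143.EndBx336
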