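import Mathlib

/-!
# Row 143 (S0194), PART B: frozen combinatorial interface (helper346)

Site percolation at `p = 1/2` on a finite triangulated region = uniform "joins".

* `Trg V` : finite set of oriented (counterclockwise) triangles; `T` closed under rotation, every
  directed edge `(a, b)` has at most one triangle `(a, b, c)` on its left.
* A walker at the directed edge `(l, r)` is about to enter the triangle on the LEFT of `l → r`
  (so it looks in the direction of the left normal; `l` is the site at its left hand, `r` the site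
  at its right hand).
* A join `J : Finset (V × V)` : `(a, b) ∈ J` means: seen from the triangle on the left of `(a, b)`,
  the (half) edge dual to `{a, b}` is occupied. `J` is symmetric except at the marks `D`
  (`(a, b) ∈ D` : occupied seen from the left triangle of `(a, b)`, not occupied seen from the other
  side); killed edges `kl` are empty; even number of occupied sides at every triangle, odd at the
  triangles of `O`.
* `Step`, `Leads` : the walker follows the occupied edges.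
* `Fob` : the observable at an edge: a leg from the middle of the edge ends at one of the marks.
* `triA` : normalised number of joins with three legs from `t` to the marks.
* `Conv` : (E3) the polygon of the values of `Fob` around a vertex is convex with turning angles
  in `[0, 2π/3]` and total turning `2π`.
* `Del` : Delaunay triangles of a finite set of points.
-/

set_option autoImplicit false

noncomputable section

open scoped Classical

namespace Crest.Agent.R143.B0x346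

/-- finite set of oriented triangles -/
structure Trg (V : Type) where
  T : Finset (V × V × V)
  rot : ∀ {a b c : V}, (a, b, c) ∈ T → (b, c, a) ∈ T
  uniq : ∀ {a b c d : V}, (a, b, c) ∈ T → (a, b, d) ∈ T → c = d
  ne : ∀ {a b c : V}, (a, b, c) ∈ T → a ≠ b

variable {V : Type}

/-- directed edges with a triangle on one of the two sides -/
def Trg.E (G : Trg V) : Finset (V × V) :=
  G.T.image (fun t => (t.1, t.2.1)) ∪ G.T.image (fun t => (t.2.1, t.1))

/-- joins: odd triangles `O`, marks `D`, killed edges `kl` -/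
structure IsJoin (G : Trg V) (kl : Set (V × V)) (O : Set (V × V × V)) (D : Set (V × V))
    (J : Finset (V × V)) : Prop where
  sub : J ⊆ G.E
  sym : ∀ a b : V, (a, b) ∉ D → (b, a) ∉ D → ((a, b) ∈ J ↔ (b, a) ∈ J)
  mark : ∀ a b : V, (a, b) ∈ D → (a, b) ∈ J ∧ (b, a) ∉ J
  /-- a boundary edge is empty unless it is a mark -/
  bdr : ∀ a b : V, (∀ c, (b, a, c) ∉ G.T) → (a, b) ∉ D → (a, b) ∉ J ∧ (b, a) ∉ J
  kill : ∀ a b : V, (a, b) ∈ kl → (a, b) ∉ D → (b, a) ∉ D → (a, b) ∉ J ∧ (b, a) ∉ J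
  par : ∀ a b c : V, (a, b, c) ∈ G.T →
    (((if (a, b) ∈ J then 1 else 0) + (if (b, c) ∈ J then 1 else 0) +
      (if (c, a) ∈ J then 1 else 0) : ℕ) % 2 = if (a, b, c) ∈ O then 1 else 0)

/-- the finite set of joins -/
def joins (G : Trg V) (kl : Set (V × V)) (O : Set (V × V × V)) (D : Set (V × V)) :
    Finset (Finset (V × V)) :=
  G.E.powerset.filter (IsJoin G kl O D)

/-- one step of the walker `(l, r)` : it crosses the triangle `(l, r, c)` (which must not be in
`O`) and leaves through the occupied side; it stops at a mark (`(r, l) ∈ D`) -/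
def Step (G : Trg V) (O : Set (V × V × V)) (D : Set (V × V)) (J : Finset (V × V))
    (p q : V × V) : Prop :=
  ∃ c, (p.1, p.2, c) ∈ G.T ∧ (p.1, p.2, c) ∉ O ∧ (p.2, p.1) ∉ D ∧
    (((p.2, c) ∈ J ∧ q = (c, p.2)) ∨ ((c, p.1) ∈ J ∧ (p.2, c) ∉ J ∧ q = (p.1, c)))

/-- the walker at `p` arrives at `q` -/
def Leads (G : Trg V) (O : Set (V × V × V)) (D : Set (V × V)) (J : Finset (V × V))
    (p q : V × V) : Prop :=
  Relation.ReflTransGen (Step G O D J) p q

/-- the walker at `p` leaves through the mark `x` (a directed edge whose left triangle is alive) -/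
def Ends (G : Trg V) (O : Set (V × V × V)) (D : Set (V × V)) (J : Finset (V × V))
    (p x : V × V) : Prop :=
  Leads G O D J p (x.2, x.1)

/-- rotations of an oriented triangle -/
def rots (t : V × V × V) : Set (V × V × V) :=
  {t, (t.2.1, t.2.2, t.1), (t.2.2, t.1, t.2.1)}

/-- a network with three marks `ex 0, ex 1, ex 2` in counterclockwise order along the boundary -/
structure Net (V : Type) extends Trg V where
  kl : Set (V × V)
  klsym : ∀ a b : V, (a, b) ∈ kl → (b, a) ∈ kl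
  ex : ZMod 3 → V × V

/-- the marks of a network as a set -/
def Net.exS (N : Net V) : Set (V × V) := Set.range N.ex

/-- third root of unity -/
def om : ℂ := Complex.exp (((2 * Real.pi / 3 : ℝ) : ℂ) * Complex.I)

/-- `om ^ k` for `k : ZMod 3` -/
def omz (k : ZMod 3) : ℂ := om ^ k.val

/-- joins with a half leg at the edge `{a, b}`, on the left side of `(a, b)` -/
def Net.hj (N : Net V) (a b : V) : Finset (Finset (V × V)) :=
  joins N.toTrg N.kl ∅ (N.exS ∪ {(a, b)})

/-- number of joins whose leg from the middle of `{a, b}`, starting to the left of `(a, b)`, ends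
at the mark `ex k` -/
def Net.cnt (N : Net V) (a b : V) (k : ZMod 3) : ℕ :=
  ((N.hj a b).filter fun J => Ends N.toTrg ∅ (N.exS ∪ {(a, b)}) J (a, b) (N.ex k)).card

/-- the observable at the edge `{a, b}` -/
def Net.Fob (N : Net V) (a b : V) : ℂ :=
  (∑ k : ZMod 3, ((N.cnt a b k + N.cnt b a k : ℕ) : ℂ) * omz k) /
    (((N.hj a b).card + (N.hj b a).card : ℕ) : ℂ)

/-- the observable, with its values `om ^ k` at the marks -/
def Net.F (N : Net V) (a b : V) : ℂ :=
  if h : ∃ k, N.ex k = (a, b) ∨ N.ex k = (b, a) then omz h.choose else N.Fob a b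

/-- joins with the odd triangle `t` -/
def Net.tj (N : Net V) (t : V × V × V) : Finset (Finset (V × V)) :=
  joins N.toTrg N.kl (rots t) N.exS

/-- three legs from `t = (a, b, c)` : the leg through the side `i` (`0 = {a,b}`, `1 = {b,c}`,
`2 = {c,a}`) ends at the mark `ex (i + k)` -/
def Net.Tri3 (N : Net V) (t : V × V × V) (k : ZMod 3) (J : Finset (V × V)) : Prop :=
  (t.1, t.2.1) ∈ J ∧ (t.2.1, t.2.2) ∈ J ∧ (t.2.2, t.1) ∈ J ∧
  Ends N.toTrg (rots t) N.exS J (t.2.1, t.1) (N.ex (0 + k)) ∧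
  Ends N.toTrg (rots t) N.exS J (t.2.2, t.2.1) (N.ex (1 + k)) ∧
  Ends N.toTrg (rots t) N.exS J (t.1, t.2.2) (N.ex (2 + k))

/-- normalised number of joins with three legs from `t`, rotation `k` -/
def Net.triA (N : Net V) (t : V × V × V) (k : ZMod 3) : ℝ :=
  (((N.tj t).filter (N.Tri3 t k)).card : ℝ) / ((N.tj t).card : ℝ)

/-- the spin one amplitude of the triangle `t` -/
def Net.Q (N : Net V) (t : V × V × V) : ℂ := ∑ k : ZMod 3, (N.triA t k : ℂ) * omz k

/-! ### (E3) -/

/-- (E3) at the vertex `v` with the neighbours `u i` (counterclockwise, period `d`): the polygon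
`F v (u i)` is convex, positively oriented, with turning angles at most `2π/3` and total turning
`2π` -/
def Net.Conv (N : Net V) (v : V) (d : ℕ) (u : ℤ → V) : Prop :=
  ∃ al : ℤ → ℝ, (∀ i, al i ≤ al (i + 1) ∧ al (i + 1) ≤ al i + 2 * Real.pi / 3) ∧
    (∀ i, al (i + d) = al i + 2 * Real.pi) ∧
    ∀ i, ∃ r : ℝ, 0 ≤ r ∧ N.F v (u (i + 1)) - N.F v (u i) =
      (r : ℂ) * Complex.exp ((al i : ℂ) * Complex.I)

/-- the ring of the inner vertex `v` -/
structure Ring (G : Trg V) (v : V) (d : ℕ) (u : ℤ → V) : Prop where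
  pos : 0 < d
  per : ∀ i, u (i + d) = u i
  inj : ∀ i j : ℤ, 0 ≤ i → i < d → 0 ≤ j → j < d → u i = u j → i = j
  mem : ∀ i, (v, u i, u (i + 1)) ∈ G.T

/-! ### Delaunay triangulations -/

/-- cross product -/
def cr (u v : ℂ) : ℝ := u.re * v.im - u.im * v.re

/-- counterclockwise Delaunay triangle of `S` -/
def Del (S : Set ℂ) (a b c : ℂ) : Prop :=
  a ∈ S ∧ b ∈ S ∧ c ∈ S ∧ 0 < cr (b - a) (c - a) ∧
    ∃ o : ℂ, ‖b - o‖ = ‖a - o‖ ∧ ‖c - o‖ = ‖a - o‖ ∧ ∀ s ∈ S, ‖a - o‖ ≤ ‖s - o‖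

/-- general position -/
structure GP (S : Set ℂ) : Prop where
  line : ∀ a ∈ S, ∀ b ∈ S, ∀ c ∈ S, a ≠ b → b ≠ c → a ≠ c → cr (b - a) (c - a) ≠ 0
  circ : ∀ a ∈ S, ∀ b ∈ S, ∀ c ∈ S, ∀ e ∈ S, a ≠ b → a ≠ c → a ≠ e → b ≠ c → b ≠ e → c ≠ e →
    ∀ o : ℂ, ¬ (‖b - o‖ = ‖a - o‖ ∧ ‖c - o‖ = ‖a - o‖ ∧ ‖e - o‖ = ‖a - o‖)

/-- the Delaunay triangles of a finite set -/
def delT (S : Finset ℂ) : Finset (ℂ × ℂ × ℂ) :=
  (S ×ˢ (S ×ˢ S)).filter fun t => Del (S : Set ℂ) t.1 t.2.1 t.2.2

/-- **leaf G1**: the Delaunay triangles of a finite set in general position form a `Trg` -/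
def G1 : Prop := ∀ S : Finset ℂ, GP (S : Set ℂ) →
  (∀ a b c : ℂ, (a, b, c) ∈ delT S → (b, c, a) ∈ delT S) ∧
  (∀ a b c e : ℂ, (a, b, c) ∈ delT S → (a, b, e) ∈ delT S → c = e) ∧
  (∀ a b c : ℂ, (a, b, c) ∈ delT S → a ≠ b)

/-- the power of the point `x` with respect to the circumcircle of `(a, b, c)`: the value of
`‖x - o‖ ^ 2 - ‖a - o‖ ^ 2` -/
def IsPow (x a b c : ℂ) (w : ℝ) : Prop :=
  ∃ o : ℂ, ‖b - o‖ = ‖a - o‖ ∧ ‖c - o‖ = ‖a - o‖ ∧ w = ‖x - o‖ ^ 2 - ‖a - o‖ ^ 2

/-- `x` is strictly to the left of `a → b` -/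
def Lft (x a b : ℂ) : Prop := 0 < cr (b - a) (x - a)

/-- **leaf G2** (power order, Edelsbrunner): two Delaunay triangles with the common edge `{a, b}`:
the triangle on the side of `x` has the smaller power -/
def G2 : Prop := ∀ S : Finset ℂ, GP (S : Set ℂ) → ∀ a b c e x : ℂ, ∀ w w' : ℝ,
  (a, b, c) ∈ delT S → (b, a, e) ∈ delT S → Lft x a b → IsPow x a b c w → IsPow x b a e w' → w < w'

/-- SPLIT: `(a, b, c)` is seen from `x` through the side `(a, b)` -/
def splitAt (x a b c : ℂ) : Prop := Lft x b a ∧ Lft x b c ∧ Lft x c a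

/-- MERGE: `(a, b, c)` is seen from `x` through the sides `(a, b)` and `(b, c)` -/
def mergeAt (x a b c : ℂ) : Prop := Lft x b a ∧ Lft x c b ∧ Lft x c a

/-! ### networks on Delaunay triangulations -/

/-- directed hull edge (its left triangle exists, the right one does not) -/
def hullE (S : Finset ℂ) (a b : ℂ) : Prop :=
  (∃ c, (a, b, c) ∈ delT S) ∧ ∀ c, (b, a, c) ∉ delT S

/-- middle of a pair -/
def mid (p : ℂ × ℂ) : ℂ := (p.1 + p.2) / 2

/-- network on the Delaunay triangulation of `S` : arbitrary killed edges, three marks on the hull,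
counterclockwise. (A domain = killed edges outside and along its boundary; an explored leg = killed
sides along its path.) -/
structure HNet (S : Finset ℂ) (N : Net ℂ) : Prop where
  gp : GP (S : Set ℂ)
  tri : N.T = delT S
  hex : ∀ k, hullE S (N.ex k).1 (N.ex k).2
  live : ∀ k, N.ex k ∉ N.kl
  ccw : 0 < cr (mid (N.ex 1) - mid (N.ex 0)) (mid (N.ex 2) - mid (N.ex 0))

/-- **PART A, first output (E3)** -/
def E3 : Prop := ∀ (S : Finset ℂ) (N : Net ℂ), HNet S N → ∀ (v : ℂ) (d : ℕ) (u : ℤ → ℂ),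
  Ring N.toTrg v d u → (∀ i, (v, u i) ∉ N.kl) → N.Conv v d u

/-- the walker at `p` arrives at `q` and turns by the angle `θ` around `x` -/
inductive LeadsA (G : Trg ℂ) (O : Set (ℂ × ℂ × ℂ)) (D : Set (ℂ × ℂ)) (J : Finset (ℂ × ℂ)) (x : ℂ) :
    ℂ × ℂ → ℂ × ℂ → ℝ → Prop
  | refl (p : ℂ × ℂ) : LeadsA G O D J x p p 0
  | tail (p q r : ℂ × ℂ) (θ : ℝ) : LeadsA G O D J x p q θ → Step G O D J q r →
      LeadsA G O D J x p r (θ + ((mid r - x) / (mid q - x)).arg)

/-- lifted directions of the marks seen from `x` -/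
structure Lift (N : Net ℂ) (x : ℂ) (lf : ℤ → ℝ) : Prop where
  mono : StrictMono lf
  per : ∀ k, lf (k + 3) = lf k + 2 * Real.pi
  dir : ∀ k : ℤ, ∃ r : ℝ, 0 < r ∧ mid (N.ex (k : ZMod 3)) - x = (r : ℂ) * Complex.exp (lf k * Complex.I)

/-- three legs from `t`; `a0` is a lifted argument of the middle of the side `0`; the leg `0` ends at
the lifted mark `k` -/
def Net.TriK (N : Net ℂ) (t : ℂ × ℂ × ℂ) (x : ℂ) (lf : ℤ → ℝ) (a0 : ℝ) (k : ℤ)
    (J : Finset (ℂ × ℂ)) : Prop :=
  N.Tri3 t (k : ZMod 3) J ∧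
    LeadsA N.toTrg (rots t) N.exS J x (t.2.1, t.1) ((N.ex (k : ZMod 3)).2, (N.ex (k : ZMod 3)).1)
      (lf k - a0)

/-- coefficients of the winding polynomial -/
def Net.cntK (N : Net ℂ) (t : ℂ × ℂ × ℂ) (x : ℂ) (lf : ℤ → ℝ) (a0 : ℝ) (k : ℤ) : ℕ :=
  ((N.tj t).filter (N.TriK t x lf a0 k)).card

/-- the winding polynomial -/
def Net.X (N : Net ℂ) (t : ℂ × ℂ × ℂ) (x : ℂ) (lf : ℤ → ℝ) (a0 : ℝ) (z : ℂ) : ℂ :=
  (∑ᶠ k : ℤ, (N.cntK t x lf a0 k : ℂ) * z ^ k) / ((N.tj t).card : ℂ)



/-! ### leaves on joins (block J, any `Trg`) -/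

/-- **leaf J1**: local identity at a triangle with three live sides -/
def J1 : Prop := ∀ (N : Net ℂ) (S : Finset ℂ), HNet S N → ∀ t ∈ delT S,
  (t.1, t.2.1) ∉ N.kl → (t.2.1, t.2.2) ∉ N.kl → (t.2.2, t.1) ∉ N.kl →
  ∃ h : ℂ, N.F t.1 t.2.1 = h + N.Q t ∧ N.F t.2.1 t.2.2 = h + om * N.Q t ∧
    N.F t.2.2 t.1 = h + om ^ 2 * N.Q t

/-- **leaf J2**: a triangle with exactly one killed side -/
def J2 : Prop := ∀ (N : Net ℂ) (S : Finset ℂ), HNet S N → ∀ a b c : ℂ, (a, b, c) ∈ delT S →
  (a, b) ∈ N.kl → (b, c) ∉ N.kl → (c, a) ∉ N.kl → N.F b c = N.F c a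

end Crest.Agent.R143.B0x346
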