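import Mathlib
import Crest.Agent.R143.B0_346

-- ▼ part R143/LenArea_63
section

/-!
# Row 143 (S0194), leaf BC10: the length-area lemma, abstract (helper63)

* `mean_le` : general form: for a measurable set `A` of positive finite measure and measurable sets
  `B t`, some `ρ ∈ A` has `(∑_{t : ρ ∈ B t} q t) μ(A) ≤ ∑ q t μ(A ∩ B t)`.
* `len_area` : `A = [r, R]` with the measure `dρ / ρ`, faces with radii intervals `[a t, b t]`.
* `len_area_dyadic` : good dyadic annuli `K`, allowed radii `A k ⊆ [2 ^ k, 2 ^ (k + 1)]`.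
-/

set_option autoImplicit false

noncomputable section

namespace Crest.Agent.R143.LenAreax63

open Set Filter Topology MeasureTheory
open scoped Classical

variable {ι : Type}

/-- mean value form of the length-area lemma -/
theorem mean_le {X : Type} [MeasurableSpace X] (μ : Measure X) (s : Finset ι) (q : ι → ℝ)
    (B : ι → Set X) (hB : ∀ t ∈ s, MeasurableSet (B t)) (A : Set X)
    (hA : MeasurableSet A) (h0 : μ A ≠ 0) (h1 : μ A ≠ ⊤) :
    ∃ ρ ∈ A, (∑ t ∈ s.filter (fun t => ρ ∈ B t), q t) * μ.real A ≤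
      ∑ t ∈ s, q t * μ.real (A ∩ B t) := by
  by_contra hcon
  push Not at hcon
  have hpos : 0 < μ.real A := by
    rw [measureReal_def]; exact ENNReal.toReal_pos h0 h1
  set f : X → ℝ := fun ρ => ∑ t ∈ s, (B t).indicator (fun _ => q t) ρ with hf
  have hfeq : ∀ ρ, f ρ = ∑ t ∈ s.filter (fun t => ρ ∈ B t), q t := by
    intro ρ
    rw [hf, Finset.sum_filter]
    apply Finset.sum_congr rfl
    intro t _
    simp [Set.indicator_apply]
  have hint : ∀ t ∈ s, IntegrableOn ((B t).indicator (fun _ => q t)) A μ := by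
    intro t ht
    have : IntegrableOn (fun _ : X => q t) A μ := by
      rw [integrableOn_const_iff]
      right
      exact lt_top_iff_ne_top.mpr h1
    exact this.indicator (hB t ht)
  have hfint : IntegrableOn f A μ := by
    have := integrable_finsetSum (μ := μ.restrict A) s hint
    simpa [hf, IntegrableOn] using this
  have hI : ∫ ρ in A, f ρ ∂μ = ∑ t ∈ s, q t * μ.real (A ∩ B t) := by
    rw [hf, integral_finsetSum s hint]
    apply Finset.sum_congr rfl
    intro t ht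
    rw [setIntegral_indicator (hB t ht), setIntegral_const, smul_eq_mul, mul_comm]
  set M : ℝ := (∑ t ∈ s, q t * μ.real (A ∩ B t)) / μ.real A with hM
  have hlt : ∀ ρ ∈ A, M < f ρ := by
    intro ρ hρ
    rw [hM, div_lt_iff₀ hpos, hfeq]
    exact hcon ρ hρ
  have hconst : IntegrableOn (fun _ : X => M) A μ := by
    rw [integrableOn_const_iff]
    right
    exact lt_top_iff_ne_top.mpr h1
  have h2 : ∫ ρ in A, (f ρ - M) ∂μ = 0 := by
    rw [integral_sub hfint hconst, hI, setIntegral_const, smul_eq_mul, hM]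
    field_simp
    ring
  have h3 : 0 ≤ᵐ[μ.restrict A] fun ρ => f ρ - M := by
    rw [Filter.EventuallyLE, ae_restrict_iff' hA]
    exact Filter.Eventually.of_forall fun ρ hρ => by
      simpa using (hlt ρ hρ).le
  rw [integral_eq_zero_iff_of_nonneg_ae h3 (hfint.sub hconst)] at h2
  have h4 : ∀ᵐ ρ ∂(μ.restrict A), False := by
    have h5 : ∀ᵐ ρ ∂(μ.restrict A), ρ ∈ A := ae_restrict_mem hA
    filter_upwards [h2, h5] with ρ h6 h7
    have := hlt ρ h7
    have h6' : f ρ - M = 0 := h6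
    linarith
  have h5 : μ.restrict A = 0 := by
    rwa [Filter.eventually_false_iff_eq_bot, ae_eq_bot] at h4
  rw [Measure.restrict_eq_zero] at h5
  exact h0 h5

/-- Cauchy-Schwarz -/
theorem cs (s : Finset ι) (f g : ι → ℝ) :
    ∑ t ∈ s, f t * g t ≤ Real.sqrt (∑ t ∈ s, f t ^ 2) * Real.sqrt (∑ t ∈ s, g t ^ 2) := by
  exact Real.sum_mul_le_sqrt_mul_sqrt s f g


/-- number of good dyadic annuli met by one face -/
theorem card_met {C x y : ℝ} (hC : 0 ≤ C) (K : Finset ℤ)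
    (hm : ∀ k ∈ K, x ≤ (2 : ℝ) ^ (k + 1) ∧ (2 : ℝ) ^ k ≤ y)
    (hd : ∀ k ∈ K, (y - x) ^ 2 ≤ C * (4 : ℝ) ^ k) : (K.card : ℝ) ≤ Real.sqrt C + 2 := by
  rcases K.eq_empty_or_nonempty with h | hne
  · subst h; simp; positivity
  set k0 := K.min' hne with hk0
  have hk0K : k0 ∈ K := K.min'_mem hne
  have h2k : (0 : ℝ) < (2 : ℝ) ^ k0 := by positivity
  have h4 : (4 : ℝ) ^ k0 = ((2 : ℝ) ^ k0) ^ 2 := by
    rw [← zpow_natCast, ← zpow_mul, mul_comm k0 _, zpow_mul]; norm_num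
  have hdd : y - x ≤ Real.sqrt C * (2 : ℝ) ^ k0 := by
    have h5 : (y - x) ^ 2 ≤ (Real.sqrt C * (2 : ℝ) ^ k0) ^ 2 := by
      rw [mul_pow, Real.sq_sqrt hC, ← h4]; exact hd k0 hk0K
    exact (abs_le_of_sq_le_sq' h5 (by positivity)).2
  -- every `k ∈ K` is `k0 + j` with `j + 1 ≤ sqrt C + 2`
  have hj : ∀ k ∈ K, ((k - k0 : ℤ) : ℝ) + 1 ≤ Real.sqrt C + 2 := by
    intro k hk
    have hle : k0 ≤ k := K.min'_le k hk
    obtain ⟨j, hj⟩ := Int.eq_ofNat_of_zero_le (sub_nonneg.mpr hle)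
    have hkj : k = k0 + j := by omega
    have h6 : (2 : ℝ) ^ k ≤ (Real.sqrt C + 2) * (2 : ℝ) ^ k0 := by
      have h7 := (hm k hk).2
      have h8 := (hm k0 hk0K).1
      rw [zpow_add₀ (by norm_num : (2 : ℝ) ≠ 0), zpow_one] at h8
      nlinarith
    rw [hkj, zpow_add₀ (by norm_num : (2 : ℝ) ≠ 0), zpow_natCast, mul_comm] at h6
    have h9 : (2 : ℝ) ^ j ≤ Real.sqrt C + 2 := le_of_mul_le_mul_right h6 h2k
    have h10 : ((j + 1 : ℕ) : ℝ) ≤ (2 : ℝ) ^ j := by
      exact_mod_cast Nat.lt_two_pow_self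
    have h11 : ((k - k0 : ℤ) : ℝ) = (j : ℝ) := by rw [hj]; simp
    rw [h11]
    push_cast at h10
    linarith
  -- `K` is contained in an interval
  set m : ℕ := ⌊Real.sqrt C + 2⌋₊ with hmdef
  have hsub : K ⊆ Finset.Ico k0 (k0 + m) := by
    intro k hk
    rw [Finset.mem_Ico]
    refine ⟨K.min'_le k hk, ?_⟩
    have h12 := hj k hk
    have h13 : ((k - k0 + 1).toNat : ℝ) ≤ Real.sqrt C + 2 := by
      have h14 : (0 : ℤ) ≤ k - k0 + 1 := by
        have : k0 ≤ k := K.min'_le k hk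
        omega
      have h15 : (((k - k0 + 1).toNat : ℤ) : ℝ) = ((k - k0 + 1 : ℤ) : ℝ) := by
        rw [Int.toNat_of_nonneg h14]
      rw [Int.cast_natCast] at h15
      rw [h15]
      push_cast
      push_cast at h12
      linarith
    have h16 : (k - k0 + 1).toNat ≤ m := Nat.le_floor h13
    omega
  have hcard := Finset.card_le_card hsub
  rw [Int.card_Ico] at hcard
  have h17 : (K.card : ℝ) ≤ (m : ℝ) := by
    have : (k0 + (m : ℤ) - k0).toNat = m := by omega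
    rw [this] at hcard
    exact_mod_cast hcard
  exact h17.trans (Nat.floor_le (by positivity))

/-- **length-area**, dyadic form: `K` good annuli, `A k` allowed radii in the annulus `k` -/
theorem len_area_dyadic (s : Finset ι) (q a b : ι → ℝ) (hq : ∀ t ∈ s, 0 ≤ q t)
    (hab : ∀ t ∈ s, a t ≤ b t) {C : ℝ} (hC : 0 ≤ C) (K : Finset ℤ) (hK : K.Nonempty)
    (hd : ∀ k ∈ K, ∑ t ∈ s.filter (fun t => a t ≤ (2 : ℝ) ^ (k + 1) ∧ (2 : ℝ) ^ k ≤ b t),
      (b t - a t) ^ 2 ≤ C * (4 : ℝ) ^ k)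
    (A : ℤ → Set ℝ) (hA : ∀ k ∈ K, MeasurableSet (A k))
    (hAs : ∀ k ∈ K, A k ⊆ Icc ((2 : ℝ) ^ k) ((2 : ℝ) ^ (k + 1)))
    {c : ℝ} (hc : 0 < c) (hAc : ∀ k ∈ K, c * (2 : ℝ) ^ k ≤ (volume : Measure ℝ).real (A k)) :
    ∃ k ∈ K, ∃ ρ ∈ A k, ∑ t ∈ s.filter (fun t => a t ≤ ρ ∧ ρ ≤ b t), q t ≤
      c⁻¹ * Real.sqrt (C * (Real.sqrt C + 2) * (∑ t ∈ s, q t ^ 2) / K.card) := by
  set S : ℤ → Finset ι :=
    fun k => s.filter (fun t => a t ≤ (2 : ℝ) ^ (k + 1) ∧ (2 : ℝ) ^ k ≤ b t) with hS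
  set E : ℤ → ℝ := fun k => ∑ t ∈ S k, q t ^ 2 with hE
  have hKpos : (0 : ℝ) < K.card := by exact_mod_cast hK.card_pos
  -- total energy of the good annuli
  have hsum : ∑ k ∈ K, E k ≤ (Real.sqrt C + 2) * ∑ t ∈ s, q t ^ 2 := by
    have h1 : ∑ k ∈ K, E k = ∑ t ∈ s, ∑ k ∈ K,
        if (a t ≤ (2 : ℝ) ^ (k + 1) ∧ (2 : ℝ) ^ k ≤ b t) then q t ^ 2 else 0 := by
      rw [Finset.sum_comm]
      apply Finset.sum_congr rfl
      intro k _
      rw [hE, hS]
      simp only [Finset.sum_filter]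
    rw [h1, Finset.mul_sum]
    apply Finset.sum_le_sum
    intro t ht
    rw [← Finset.sum_filter, Finset.sum_const, nsmul_eq_mul]
    apply mul_le_mul_of_nonneg_right _ (sq_nonneg _)
    apply card_met hC (x := a t) (y := b t)
    · intro k hk; exact (Finset.mem_filter.mp hk).2
    · intro k hk
      obtain ⟨h2, h3⟩ := Finset.mem_filter.mp hk
      refine le_trans ?_ (hd k h2)
      exact Finset.single_le_sum (f := fun t => (b t - a t) ^ 2) (fun i _ => sq_nonneg _)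
        (Finset.mem_filter.mpr ⟨ht, h3⟩)
  -- an annulus of small energy
  obtain ⟨k, hk, hEk⟩ : ∃ k ∈ K, E k ≤ (Real.sqrt C + 2) * (∑ t ∈ s, q t ^ 2) / K.card := by
    by_contra hcon
    push Not at hcon
    have h2 : ∑ k ∈ K, (Real.sqrt C + 2) * (∑ t ∈ s, q t ^ 2) / K.card < ∑ k ∈ K, E k :=
      Finset.sum_lt_sum_of_nonempty hK hcon
    rw [Finset.sum_const, nsmul_eq_mul, mul_div_cancel₀ _ hKpos.ne'] at h2
    linarith
  have h2k : (0 : ℝ) < (2 : ℝ) ^ k := by positivity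
  have hAk : (0 : ℝ) < (volume : Measure ℝ).real (A k) := lt_of_lt_of_le (by positivity) (hAc k hk)
  have hAtop : (volume : Measure ℝ) (A k) ≠ ⊤ := by
    intro h
    rw [measureReal_def, h] at hAk
    simp at hAk
  have hA0 : (volume : Measure ℝ) (A k) ≠ 0 := by
    intro h
    rw [measureReal_def, h] at hAk
    simp at hAk
  obtain ⟨ρ, hρ, h3⟩ := mean_le (volume : Measure ℝ) (S k) q
    (fun t => Icc (a t) (b t)) (fun t _ => measurableSet_Icc) (A k) (hA k hk) hA0 hAtop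
  refine ⟨k, hk, ρ, hρ, ?_⟩
  have h4 : s.filter (fun t => a t ≤ ρ ∧ ρ ≤ b t) =
      (S k).filter (fun t => ρ ∈ Icc (a t) (b t)) := by
    ext t
    simp only [hS, Finset.mem_filter, mem_Icc]
    have h5 := hAs k hk hρ
    constructor
    · rintro ⟨h6, h7, h8⟩
      exact ⟨⟨h6, h7.trans h5.2, h5.1.trans h8⟩, h7, h8⟩
    · rintro ⟨⟨h6, -, -⟩, h7, h8⟩
      exact ⟨h6, h7, h8⟩
  rw [h4]
  set Q1 := ∑ t ∈ (S k).filter (fun t => ρ ∈ Icc (a t) (b t)), q t with hQ1
  have hQ0 : 0 ≤ Q1 := Finset.sum_nonneg fun t ht =>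
    hq t (Finset.mem_filter.mp (Finset.mem_filter.mp ht).1).1
  have h5 : ∑ t ∈ S k, q t * (volume : Measure ℝ).real (A k ∩ Icc (a t) (b t)) ≤
      Real.sqrt (E k) * Real.sqrt (C * (4 : ℝ) ^ k) := by
    calc ∑ t ∈ S k, q t * (volume : Measure ℝ).real (A k ∩ Icc (a t) (b t))
        ≤ ∑ t ∈ S k, q t * (b t - a t) := by
          apply Finset.sum_le_sum
          intro t ht
          have ht' := (Finset.mem_filter.mp ht).1
          apply mul_le_mul_of_nonneg_left _ (hq t ht')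
          calc (volume : Measure ℝ).real (A k ∩ Icc (a t) (b t))
              ≤ (volume : Measure ℝ).real (Icc (a t) (b t)) := by
                exact measureReal_mono inter_subset_right
                  (by rw [Real.volume_Icc]; exact ENNReal.ofReal_ne_top)
            _ = b t - a t := Real.volume_real_Icc_of_le (hab t ht')
      _ ≤ Real.sqrt (∑ t ∈ S k, q t ^ 2) * Real.sqrt (∑ t ∈ S k, (b t - a t) ^ 2) :=
          cs (S k) q fun t => b t - a t
      _ ≤ Real.sqrt (E k) * Real.sqrt (C * (4 : ℝ) ^ k) := by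
          apply mul_le_mul_of_nonneg_left _ (Real.sqrt_nonneg _)
          exact Real.sqrt_le_sqrt (hd k hk)
  have h6 : Real.sqrt (C * (4 : ℝ) ^ k) = Real.sqrt C * (2 : ℝ) ^ k := by
    rw [Real.sqrt_mul hC]
    congr 1
    have h4' : (4 : ℝ) ^ k = ((2 : ℝ) ^ k) ^ 2 := by
      rw [← zpow_natCast, ← zpow_mul, mul_comm k _, zpow_mul]; norm_num
    rw [h4', Real.sqrt_sq h2k.le]
  have h3' : Q1 * (volume : Measure ℝ).real (A k) ≤
      ∑ t ∈ S k, q t * (volume : Measure ℝ).real (A k ∩ Icc (a t) (b t)) := by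
    rw [hQ1]; convert h3
  have h7 : Q1 * (c * (2 : ℝ) ^ k) ≤ Real.sqrt (E k) * (Real.sqrt C * (2 : ℝ) ^ k) := by
    calc Q1 * (c * (2 : ℝ) ^ k) ≤ Q1 * (volume : Measure ℝ).real (A k) :=
          mul_le_mul_of_nonneg_left (hAc k hk) hQ0
      _ ≤ ∑ t ∈ S k, q t * (volume : Measure ℝ).real (A k ∩ Icc (a t) (b t)) := h3'
      _ ≤ Real.sqrt (E k) * (Real.sqrt C * (2 : ℝ) ^ k) := by rw [← h6]; exact h5
  have h8 : Q1 * c ≤ Real.sqrt (E k) * Real.sqrt C := by
    have : (Q1 * c) * (2 : ℝ) ^ k ≤ (Real.sqrt (E k) * Real.sqrt C) * (2 : ℝ) ^ k := by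
      linarith
    exact le_of_mul_le_mul_right this h2k
  have h9 : Q1 ≤ c⁻¹ * (Real.sqrt C * Real.sqrt (E k)) := by
    rw [← div_eq_inv_mul, le_div_iff₀ hc]
    linarith
  refine h9.trans ?_
  apply mul_le_mul_of_nonneg_left _ (by positivity)
  rw [← Real.sqrt_mul hC]
  apply Real.sqrt_le_sqrt
  calc C * E k ≤ C * ((Real.sqrt C + 2) * (∑ t ∈ s, q t ^ 2) / K.card) :=
        mul_le_mul_of_nonneg_left hEk hC
    _ = C * (Real.sqrt C + 2) * (∑ t ∈ s, q t ^ 2) / K.card := by ring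

end Crest.Agent.R143.LenAreax63
end
end

-- ▼ part R143/Osc_63

/-!
# Row 143 (S0194), leaf T4 : oscillation of the observable along dual paths (helper63)

* `walk_bound` : abstract: a walk through the sets of a finite family `A`, each of `F`-diameter
  `≤ q t`, has `F`-diameter `≤ ∑ q t` (every set is counted once).
* `family` : for a finite weighted family of subfamilies, one of them has
  `∑ q t ≤ √(∑ c²) √(∑ q²)`.
* `F_comm`, `Q_rot`, `step`, `step'` : the observable at two live sides of a triangle differs by at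
  most `√3 ‖Q t‖` (leaves J1, J2).
* `osc_conn`, `T4`, `T4_circles`.
-/

set_option autoImplicit false

noncomputable section

namespace Crest.Agent.R143.Oscx63

open Set Filter Topology MeasureTheory
open scoped Classical
open Crest.Agent.R143.B0x346 Crest.Agent.R143.LenAreax63

/-! ### abstract part -/

theorem walk_aux {E T : Type} (A : Finset T) (inc : T → E → Prop) (F : E → ℂ) (q : T → ℝ)
    (hq : ∀ t ∈ A, 0 ≤ q t)
    (h : ∀ t ∈ A, ∀ e e', inc t e → inc t e' → ‖F e - F e'‖ ≤ q t) {x y : E}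
    (hxy : Relation.ReflTransGen (fun e e' => ∃ t ∈ A, inc t e ∧ inc t e') x y) :
    ∃ B : Finset T, B ⊆ A ∧ (∀ t ∈ B, ∀ e, inc t e → ‖F x - F e‖ ≤ ∑ t ∈ B, q t) ∧
      (y = x ∨ ∃ t ∈ B, inc t y) := by
  induction hxy with
  | refl => exact ⟨∅, by simp, by simp, Or.inl rfl⟩
  | @tail y y' _ hstep ih =>
    obtain ⟨B, hBA, hB, hy⟩ := ih
    obtain ⟨t, htA, hty, hty'⟩ := hstep
    by_cases htB : t ∈ B
    · exact ⟨B, hBA, hB, Or.inr ⟨t, htB, hty'⟩⟩
    · have hB0 : 0 ≤ ∑ t ∈ B, q t := Finset.sum_nonneg fun s hs => hq s (hBA hs)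
      have hxy : ‖F x - F y‖ ≤ ∑ t ∈ B, q t := by
        rcases hy with rfl | ⟨s, hs, hsy⟩
        · simpa using hB0
        · exact hB s hs y hsy
      refine ⟨insert t B, Finset.insert_subset htA hBA, ?_, Or.inr ⟨t, by simp, hty'⟩⟩
      intro s hs e hse
      rw [Finset.sum_insert htB]
      rcases Finset.mem_insert.mp hs with rfl | hs'
      · calc ‖F x - F e‖ = ‖(F x - F y) + (F y - F e)‖ := by ring_nf
          _ ≤ ‖F x - F y‖ + ‖F y - F e‖ := norm_add_le _ _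
          _ ≤ ∑ t ∈ B, q t + q s := add_le_add hxy (h s htA y e hty hse)
          _ = q s + ∑ t ∈ B, q t := by ring
      · have := hB s hs' e hse
        have := hq t htA
        linarith

/-- a walk through the sets of the family `A` -/
theorem walk_bound {E T : Type} (A : Finset T) (inc : T → E → Prop) (F : E → ℂ) (q : T → ℝ)
    (hq : ∀ t ∈ A, 0 ≤ q t)
    (h : ∀ t ∈ A, ∀ e e', inc t e → inc t e' → ‖F e - F e'‖ ≤ q t) {x y : E}
    (hxy : Relation.ReflTransGen (fun e e' => ∃ t ∈ A, inc t e ∧ inc t e') x y) :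
    ‖F x - F y‖ ≤ ∑ t ∈ A, q t := by
  obtain ⟨B, hBA, hB, hy⟩ := walk_aux A inc F q hq h hxy
  have h1 : ∑ t ∈ B, q t ≤ ∑ t ∈ A, q t :=
    Finset.sum_le_sum_of_subset_of_nonneg hBA fun t ht _ => hq t ht
  rcases hy with rfl | ⟨t, ht, hty⟩
  · simpa using Finset.sum_nonneg hq
  · exact (hB t ht y hty).trans h1

/-- one member of a weighted family has a small sum -/
theorem family {I T : Type} (J : Finset I) (lam : I → ℝ) (hl : ∀ i ∈ J, 0 ≤ lam i)
    (hs : ∑ i ∈ J, lam i = 1) (A : I → Finset T) (U : Finset T) (hU : ∀ i ∈ J, A i ⊆ U)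
    (q : T → ℝ) :
    ∃ i ∈ J, ∑ t ∈ A i, q t ≤
      Real.sqrt (∑ t ∈ U, (∑ i ∈ J.filter (fun i => t ∈ A i), lam i) ^ 2) *
      Real.sqrt (∑ t ∈ U, q t ^ 2) := by
  by_contra hcon
  push Not at hcon
  set M := Real.sqrt (∑ t ∈ U, (∑ i ∈ J.filter (fun i => t ∈ A i), lam i) ^ 2) *
      Real.sqrt (∑ t ∈ U, q t ^ 2) with hM
  have h1 : ∑ i ∈ J, lam i * ∑ t ∈ A i, q t ≤ M := by
    have h2 : ∑ i ∈ J, lam i * ∑ t ∈ A i, q t =
        ∑ t ∈ U, (∑ i ∈ J.filter (fun i => t ∈ A i), lam i) * q t := by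
      have h3 : ∀ i ∈ J, lam i * ∑ t ∈ A i, q t =
          ∑ t ∈ U, if t ∈ A i then lam i * q t else 0 := by
        intro i hi
        rw [Finset.mul_sum, ← Finset.sum_filter]
        apply Finset.sum_congr _ fun _ _ => rfl
        ext t
        simp only [Finset.mem_filter]
        exact ⟨fun h => ⟨hU i hi h, h⟩, fun h => h.2⟩
      rw [Finset.sum_congr rfl h3, Finset.sum_comm]
      apply Finset.sum_congr rfl
      intro t _
      rw [Finset.sum_mul, Finset.sum_filter]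
    rw [h2]
    exact cs U _ _
  have hne : ∃ i ∈ J, 0 < lam i := by
    by_contra hc
    push Not at hc
    have : ∑ i ∈ J, lam i ≤ 0 := Finset.sum_nonpos hc
    linarith
  have h4 : M < ∑ i ∈ J, lam i * ∑ t ∈ A i, q t := by
    calc M = ∑ i ∈ J, lam i * M := by rw [← Finset.sum_mul, hs, one_mul]
      _ < ∑ i ∈ J, lam i * ∑ t ∈ A i, q t := by
        apply Finset.sum_lt_sum
        · intro i hi
          exact mul_le_mul_of_nonneg_left (hcon i hi).le (hl i hi)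
        · obtain ⟨i, hi, hi0⟩ := hne
          exact ⟨i, hi, mul_lt_mul_of_pos_left (hcon i hi) hi0⟩
  linarith

/-! ### the observable -/

theorem om_pow_three : om ^ 3 = 1 := by
  rw [om, ← Complex.exp_nat_mul]
  rw [show ((3 : ℕ) : ℂ) * (((2 * Real.pi / 3 : ℝ) : ℂ) * Complex.I) =
    2 * Real.pi * Complex.I by push_cast; ring]
  exact Complex.exp_two_pi_mul_I

theorem norm_om : ‖om‖ = 1 := by
  rw [om]; exact Complex.norm_exp_ofReal_mul_I _

theorem om_re : om.re = -1 / 2 := by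
  rw [om, Complex.exp_ofReal_mul_I_re]
  rw [show (2 * Real.pi / 3 : ℝ) = Real.pi - Real.pi / 3 by ring, Real.cos_pi_sub,
    Real.cos_pi_div_three]
  norm_num

theorem norm_one_sub_om : ‖1 - om‖ = Real.sqrt 3 := by
  have h1 : ‖1 - om‖ ^ 2 = 3 := by
    rw [← Complex.normSq_eq_norm_sq, Complex.normSq_sub]
    have h2 : Complex.normSq om = 1 := by rw [Complex.normSq_eq_norm_sq, norm_om]; norm_num
    rw [h2]
    simp [om_re]
    norm_num
  rw [← h1, Real.sqrt_sq (norm_nonneg _)]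

theorem omz_add_one (k : ZMod 3) : omz (k + 1) = om * omz k := by
  have h3 := om_pow_three
  fin_cases k
  · change om ^ (ZMod.val (1 : ZMod 3)) = om * om ^ (ZMod.val (0 : ZMod 3))
    have e1 : ZMod.val (1 : ZMod 3) = 1 := rfl
    have e0 : ZMod.val (0 : ZMod 3) = 0 := rfl
    rw [e1, e0]; ring
  · change om ^ (ZMod.val (2 : ZMod 3)) = om * om ^ (ZMod.val (1 : ZMod 3))
    have e1 : ZMod.val (1 : ZMod 3) = 1 := rfl
    have e2 : ZMod.val (2 : ZMod 3) = 2 := rfl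
    rw [e1, e2]; ring
  · change om ^ (ZMod.val (0 : ZMod 3)) = om * om ^ (ZMod.val (2 : ZMod 3))
    have e0 : ZMod.val (0 : ZMod 3) = 0 := rfl
    have e2 : ZMod.val (2 : ZMod 3) = 2 := rfl
    rw [e0, e2, pow_zero, ← h3]; ring

variable {V : Type}

theorem Fob_comm (N : Net V) (a b : V) : N.Fob a b = N.Fob b a := by
  unfold Net.Fob
  congr 1
  · apply Finset.sum_congr rfl
    intro k _
    rw [add_comm]
  · rw [add_comm]

theorem choose_congr {P Q : ZMod 3 → Prop} (e : P = Q) (h : ∃ k, P k) (h' : ∃ k, Q k) :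
    h.choose = h'.choose := by
  subst e; rfl

theorem F_comm (N : Net V) (a b : V) : N.F a b = N.F b a := by
  unfold Net.F
  by_cases h : ∃ k, N.ex k = (a, b) ∨ N.ex k = (b, a)
  · have h' : ∃ k, N.ex k = (b, a) ∨ N.ex k = (a, b) := by
      obtain ⟨k, hk⟩ := h
      exact ⟨k, hk.symm⟩
    rw [dif_pos h, dif_pos h']
    congr 1
    exact choose_congr (funext fun k => propext or_comm) h h'
  · have h' : ¬ ∃ k, N.ex k = (b, a) ∨ N.ex k = (a, b) := by
      rintro ⟨k, hk⟩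
      exact h ⟨k, hk.symm⟩
    rw [dif_neg h, dif_neg h', Fob_comm]

theorem rots_rot (a b c : V) : rots (b, c, a) = rots (a, b, c) := by
  ext t
  simp only [rots, Set.mem_insert_iff, Set.mem_singleton_iff]
  tauto

theorem tj_rot (N : Net V) (a b c : V) : N.tj (b, c, a) = N.tj (a, b, c) := by
  unfold Net.tj
  rw [rots_rot]

theorem Tri3_rot (N : Net V) (a b c : V) (k : ZMod 3) (J : Finset (V × V)) :
    N.Tri3 (b, c, a) (k + 1) J ↔ N.Tri3 (a, b, c) k J := by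
  unfold Net.Tri3
  rw [rots_rot]
  have e0 : (0 : ZMod 3) + (k + 1) = 1 + k := by ring
  have e1 : (1 : ZMod 3) + (k + 1) = 2 + k := by ring
  have e2 : (2 : ZMod 3) + (k + 1) = 0 + k := by
    have : (3 : ZMod 3) = 0 := rfl
    calc (2 : ZMod 3) + (k + 1) = 3 + k := by ring
      _ = 0 + k := by rw [this]
  simp only [e0, e1, e2]
  tauto

theorem triA_rot (N : Net V) (a b c : V) (k : ZMod 3) :
    N.triA (b, c, a) (k + 1) = N.triA (a, b, c) k := by
  unfold Net.triA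
  rw [tj_rot]
  have : (N.tj (a, b, c)).filter (N.Tri3 (b, c, a) (k + 1)) =
      (N.tj (a, b, c)).filter (N.Tri3 (a, b, c) k) := by
    apply Finset.filter_congr
    intro J _
    exact Tri3_rot N a b c k J
  rw [this]

theorem Q_rot (N : Net V) (a b c : V) : N.Q (b, c, a) = om * N.Q (a, b, c) := by
  unfold Net.Q
  rw [Finset.mul_sum]
  rw [← Equiv.sum_comp (Equiv.addRight (1 : ZMod 3))]
  apply Finset.sum_congr rfl
  intro k _
  simp only [Equiv.coe_addRight]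
  rw [triA_rot, omz_add_one]
  ring

theorem norm_Q_rot (N : Net V) (a b c : V) : ‖N.Q (b, c, a)‖ = ‖N.Q (a, b, c)‖ := by
  rw [Q_rot, norm_mul, norm_om, one_mul]

/-! ### one triangle -/

/-- the relations J1 and J2 at the triangle `t`. (For networks this is `relAt_of` in `Rel_63`: the
versions `J1`, `J2` of `B0_346` without the nonemptiness hypothesis are false, see `J1_872`.) -/
structure RelAt (N : Net V) (t : V × V × V) : Prop where
  j1 : (t.1, t.2.1) ∉ N.kl → (t.2.1, t.2.2) ∉ N.kl → (t.2.2, t.1) ∉ N.kl →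
    ∃ h : ℂ, N.F t.1 t.2.1 = h + N.Q t ∧ N.F t.2.1 t.2.2 = h + om * N.Q t ∧
      N.F t.2.2 t.1 = h + om ^ 2 * N.Q t
  j2 : ∀ a b c : V, (a, b, c) ∈ rots t → (a, b) ∈ N.kl → (b, c) ∉ N.kl → (c, a) ∉ N.kl →
    N.F b c = N.F c a

theorem RelAt.rot {N : Net V} {a b c : V} (h : RelAt N (a, b, c)) : RelAt N (b, c, a) where
  j1 := by
    intro h1 h2 h3
    simp only at h1 h2 h3 ⊢
    obtain ⟨g, e1, e2, e3⟩ := h.j1 h3 h1 h2
    simp only at e1 e2 e3
    refine ⟨g, ?_, ?_, ?_⟩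
    · rw [e2, Q_rot N a b c]
    · rw [e3, Q_rot N a b c]; ring
    · rw [e1, Q_rot N a b c]
      have := om_pow_three
      linear_combination (-N.Q (a, b, c)) * this
  j2 := by
    intro x y z hx
    rw [rots_rot] at hx
    exact h.j2 x y z hx

/-- two live sides of a triangle -/
theorem step {N : Net V} {a b c : V} (hR : RelAt N (a, b, c)) (h1 : (a, b) ∉ N.kl)
    (h2 : (b, c) ∉ N.kl) : ‖N.F a b - N.F b c‖ ≤ Real.sqrt 3 * ‖N.Q (a, b, c)‖ := by
  by_cases h3 : (c, a) ∈ N.kl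
  · have h4 := hR.j2 c a b (by simp [rots]) h3 h1 h2
    rw [h4, sub_self, norm_zero]
    positivity
  · obtain ⟨h, e1, e2, -⟩ := hR.j1 h1 h2 h3
    simp only at e1 e2
    rw [e1, e2]
    have : h + N.Q (a, b, c) - (h + om * N.Q (a, b, c)) = (1 - om) * N.Q (a, b, c) := by ring
    rw [this, norm_mul, norm_one_sub_om]

/-- `e` is a live side of `t` (in one of the two directions) -/
def LSide (N : Net V) (t : V × V × V) (e : V × V) : Prop :=
  e ∉ N.kl ∧ (e = (t.1, t.2.1) ∨ e = (t.2.1, t.2.2) ∨ e = (t.2.2, t.1) ∨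
    e = (t.2.1, t.1) ∨ e = (t.2.2, t.2.1) ∨ e = (t.1, t.2.2))

theorem step' {N : Net V} {t : V × V × V} (hR : RelAt N t) {e e' : V × V} (he : LSide N t e)
    (he' : LSide N t e') : ‖N.F e.1 e.2 - N.F e'.1 e'.2‖ ≤ Real.sqrt 3 * ‖N.Q t‖ := by
  obtain ⟨a, b, c⟩ := t
  -- reduce to the three standard sides
  have key : ∀ {e : V × V}, LSide N (a, b, c) e → ∃ f : V × V, N.F e.1 e.2 = N.F f.1 f.2 ∧
      f ∉ N.kl ∧ (f = (a, b) ∨ f = (b, c) ∨ f = (c, a)) := by
    intro e ⟨h1, h2⟩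
    simp only at h2
    rcases h2 with h | h | h | h | h | h
    · exact ⟨e, rfl, h1, Or.inl h⟩
    · exact ⟨e, rfl, h1, Or.inr (Or.inl h)⟩
    · exact ⟨e, rfl, h1, Or.inr (Or.inr h)⟩
    · refine ⟨(a, b), ?_, ?_, Or.inl rfl⟩
      · rw [h]; exact F_comm N b a
      · intro h3; exact h1 (h ▸ N.klsym a b h3)
    · refine ⟨(b, c), ?_, ?_, Or.inr (Or.inl rfl)⟩
      · rw [h]; exact F_comm N c b
      · intro h3; exact h1 (h ▸ N.klsym b c h3)
    · refine ⟨(c, a), ?_, ?_, Or.inr (Or.inr rfl)⟩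
      · rw [h]; exact F_comm N a c
      · intro h3; exact h1 (h ▸ N.klsym c a h3)
  obtain ⟨f, hf, hfk, hf3⟩ := key he
  obtain ⟨f', hf', hfk', hf3'⟩ := key he'
  rw [hf, hf']
  have n1 : ‖N.Q (b, c, a)‖ = ‖N.Q (a, b, c)‖ := norm_Q_rot N a b c
  have n2 : ‖N.Q (c, a, b)‖ = ‖N.Q (a, b, c)‖ := by rw [norm_Q_rot N b c a, n1]
  have hpos : 0 ≤ Real.sqrt 3 * ‖N.Q (a, b, c)‖ := by positivity
  rcases hf3 with rfl | rfl | rfl <;> rcases hf3' with rfl | rfl | rfl
  · simp only [sub_self, norm_zero]; exact hpos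
  · exact step hR hfk hfk'
  · rw [norm_sub_rev, ← n2]; exact step hR.rot.rot hfk' hfk
  · rw [norm_sub_rev]; exact step hR hfk' hfk
  · simp only [sub_self, norm_zero]; exact hpos
  · rw [← n1]; exact step hR.rot hfk hfk'
  · rw [← n2]; exact step hR.rot.rot hfk hfk'
  · rw [norm_sub_rev, ← n1]; exact step hR.rot hfk' hfk
  · simp only [sub_self, norm_zero]; exact hpos

/-- `e` and `e'` are connected through live sides of triangles of `A` -/
def Conn (N : Net V) (A : Finset (V × V × V)) (e e' : V × V) : Prop :=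
  Relation.ReflTransGen (fun e e' => ∃ t ∈ A, LSide N t e ∧ LSide N t e') e e'

/-- oscillation on a connected set of triangles -/
theorem osc_conn {N : Net V} (A : Finset (V × V × V)) (hA : ∀ t ∈ A, RelAt N t) {e e' : V × V}
    (h : Conn N A e e') :
    ‖N.F e.1 e.2 - N.F e'.1 e'.2‖ ≤ Real.sqrt 3 * ∑ t ∈ A, ‖N.Q t‖ := by
  rw [Finset.mul_sum]
  exact walk_bound A (LSide N) (fun e => N.F e.1 e.2) (fun t => Real.sqrt 3 * ‖N.Q t‖)
    (fun t _ => by positivity) (fun t ht e e' he he' => step' (hA t ht) he he') h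

/-- **T4** for finite families (one oriented representative per triangle in `A i` is enough) -/
theorem T4 {N : Net V} {I : Type} (J : Finset I) (lam : I → ℝ) (hl : ∀ i ∈ J, 0 ≤ lam i)
    (hs : ∑ i ∈ J, lam i = 1) (A : I → Finset (V × V × V)) (U : Finset (V × V × V))
    (hU : ∀ i ∈ J, A i ⊆ U) (hR : ∀ t ∈ U, RelAt N t) :
    ∃ i ∈ J, ∀ e e' : V × V, Conn N (A i) e e' → ‖N.F e.1 e.2 - N.F e'.1 e'.2‖ ≤
      Real.sqrt 3 * (Real.sqrt (∑ t ∈ U, (∑ i ∈ J.filter (fun i => t ∈ A i), lam i) ^ 2) *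
      Real.sqrt (∑ t ∈ U, ‖N.Q t‖ ^ 2)) := by
  obtain ⟨i, hi, h⟩ := family J lam hl hs A U hU (fun t => ‖N.Q t‖)
  refine ⟨i, hi, fun e e' hc => ?_⟩
  refine (osc_conn (A i) (fun t ht => hR t (hU i hi ht)) hc).trans ?_
  refine mul_le_mul_of_nonneg_left (le_trans h (le_of_eq ?_)) (Real.sqrt_nonneg _)
  congr!

/-- **T4** for circles: `[a t, b t]` = range of the distance to the centre on the face `t`, `K` =
dyadic scales with `∑ diam² ≤ C 4 ^ k`, `A k` = allowed radii -/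
theorem T4_circles {N : Net V} (U : Finset (V × V × V)) (hR : ∀ t ∈ U, RelAt N t)
    (a b : V × V × V → ℝ)
    (hab : ∀ t ∈ U, a t ≤ b t) {C : ℝ} (hC : 0 ≤ C) (K : Finset ℤ) (hK : K.Nonempty)
    (hd : ∀ k ∈ K, ∑ t ∈ U.filter (fun t => a t ≤ (2 : ℝ) ^ (k + 1) ∧ (2 : ℝ) ^ k ≤ b t),
      (b t - a t) ^ 2 ≤ C * (4 : ℝ) ^ k)
    (A : ℤ → Set ℝ) (hA : ∀ k ∈ K, MeasurableSet (A k))
    (hAs : ∀ k ∈ K, A k ⊆ Icc ((2 : ℝ) ^ k) ((2 : ℝ) ^ (k + 1)))
    {c : ℝ} (hc : 0 < c) (hAc : ∀ k ∈ K, c * (2 : ℝ) ^ k ≤ (volume : Measure ℝ).real (A k)) :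
    ∃ k ∈ K, ∃ ρ ∈ A k, ∀ e e' : V × V,
      Conn N (U.filter (fun t => a t ≤ ρ ∧ ρ ≤ b t)) e e' →
      ‖N.F e.1 e.2 - N.F e'.1 e'.2‖ ≤ Real.sqrt 3 *
      (c⁻¹ * Real.sqrt (C * (Real.sqrt C + 2) * (∑ t ∈ U, ‖N.Q t‖ ^ 2) / K.card)) := by
  obtain ⟨k, hk, ρ, hρ, h⟩ := len_area_dyadic U (fun t => ‖N.Q t‖) a b (fun t _ => norm_nonneg _)
    hab hC K hK hd A hA hAs hc hAc
  refine ⟨k, hk, ρ, hρ, fun e e' hcn => ?_⟩
  refine (osc_conn _ (fun t ht => hR t (Finset.mem_filter.mp ht).1) hcn).trans ?_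
  apply mul_le_mul_of_nonneg_left _ (Real.sqrt_nonneg _)
  convert h

end Crest.Agent.R143.Oscx63
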