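import Crest.Prelude.Def_Voronoi
import Crest.Agent.R143.B0_346

/-!
# R143 (helper831, captain of block M): literal statements of the leaves M3, M4

All probabilities are outer measures (no measurability needed).
-/

set_option autoImplicit false

noncomputable section

namespace Crest.Agent.R143.PP1x831

open MeasureTheory Set Filter Topology
open Crest.ProbabilityR.Voronoi
open Crest.Agent.R143.B0x346
open scoped ENNReal

/-- (M3a) almost sure general position -/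
def M3a : Prop := ∀ ε : ℝ, 0 < ε → ∀ᵐ ω ∂sampleLaw, GP (points ε ω) ∧
  (∀ p ∈ present ω, ∀ q ∈ present ω,
    point ε ω (p.1, p.2.1) p.2.2 = point ε ω (q.1, q.2.1) q.2.2 → p = q) ∧
  (∀ r : ℝ, (points ε ω ∩ Metric.closedBall 0 r).Finite)


/-- the radius `C ε sqrt(log(1/ε))` -/
def rad (C ε : ℝ) : ℝ := C * ε * √(Real.log (1 / ε))

/-- (M3c) no empty balls of radius `rad C ε` -/
def M3c : Prop := ∀ R A : ℝ, ∃ C : ℝ, 0 < C ∧ ∀ᶠ ε : ℝ in 𝓝[>] 0,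
  sampleLaw {ω | ∃ z ∈ Metric.closedBall (0 : ℂ) R,
    points ε ω ∩ Metric.ball z (rad C ε) = ∅} ≤ ENNReal.ofReal (ε ^ A)

/-- (M3d) at most `K log(1/ε)` points in balls of radius `rad C ε` -/
def M3d : Prop := ∀ R A C : ℝ, ∃ K : ℝ, 0 < K ∧ ∀ᶠ ε : ℝ in 𝓝[>] 0,
  sampleLaw {ω | ¬ ∀ z ∈ Metric.closedBall (0 : ℂ) R,
    (points ε ω ∩ Metric.ball z (rad C ε)).encard ≤ ((⌊K * Real.log (1 / ε)⌋₊ : ℕ) : ℕ∞)} ≤
      ENNReal.ofReal (ε ^ A)

/-- squared diameters of the cells of the Delaunay triangles (ordered triples) one of whose cells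
meets `W` -/
def diamSum (S : Set ℂ) (W : Set ℂ) : ℝ≥0∞ :=
  ∑' t : {t : ℂ × ℂ × ℂ | Del S t.1 t.2.1 t.2.2 ∧
    ((voronoiCell S t.1 ∪ voronoiCell S t.2.1 ∪ voronoiCell S t.2.2) ∩ W).Nonempty},
    (Metric.ediam (voronoiCell S t.1.1)) ^ 2

/-- (M4) the sum of the squared diameters is at most `C ρ ^ 2` in all balls of radius
`ρ ≥ ε (log(1/ε)) ^ a` -/
def M4 : Prop := ∃ a : ℝ, 0 < a ∧ ∀ R A : ℝ, ∃ C : ℝ, 0 < C ∧ ∀ᶠ ε : ℝ in 𝓝[>] 0,
  sampleLaw {ω | ¬ ∀ z ∈ Metric.closedBall (0 : ℂ) R, ∀ ρ : ℝ,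
    ε * Real.log (1 / ε) ^ a ≤ ρ → ρ ≤ 1 →
      diamSum (points ε ω) (Metric.ball z ρ) ≤ ENNReal.ofReal (C * ρ ^ 2)} ≤
        ENNReal.ofReal (ε ^ A)

end Crest.Agent.R143.PP1x831
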