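import Mathlib
import Crest.Agent.R143.B0D_346
import Crest.Agent.R143.PP1_831
import Crest.Agent.R143.Moll_887
import Crest.Agent.R143.EndB_336
import Crest.Agent.R143.Osc_63

-- ▼ part R143/TwoC_640
section

/-!
Row 143, B4 of CORE-B: transport of a small log-ratio from the real segment `[1, 1+d]` to an
arbitrary point of a simply connected domain on which the functions have no zero
(log branch + Borel--Caratheodory chain + two constants theorem).
-/

open Complex Set Metric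
open scoped Topology Real

namespace Crest.Agent.R143.TwoCx640

/-! ### three circles and segment to disc -/

/-- Three circles (disc to disc): `g` holomorphic on `ball q R`, bounded by `M` there and by `η`
on `ball q r`. -/
theorem tc_disc {g : ℂ → ℂ} {q : ℂ} {r ρ R' R M η : ℝ} (hr : 0 < r) (hρ : ρ < R') (hrR : r < R')
    (hR : R' < R) (hg : DifferentiableOn ℂ g (ball q R)) (hM : ∀ z ∈ ball q R, ‖g z‖ ≤ M)
    (hη0 : 0 < η) (hηM : η ≤ M) (hη : ∀ z ∈ closedBall q r, ‖g z‖ ≤ η) {w : ℂ}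
    (hw : w ∈ closedBall q ρ) :
    ‖g w‖ ≤ η ^ (1 - (Real.log (max ρ r) - Real.log r) / (Real.log R' - Real.log r)) *
      M ^ ((Real.log (max ρ r) - Real.log r) / (Real.log R' - Real.log r)) := by
  have hM0 : 0 < M := lt_of_lt_of_le hη0 hηM
  have hR'0 : 0 < R' := hr.trans hrR
  have hlog : Real.log r < Real.log R' := Real.log_lt_log hr hrR
  have hden : 0 < Real.log R' - Real.log r := by linarith
  have hmaxr : r ≤ max ρ r := le_max_right _ _
  have hmaxR : max ρ r < R' := max_lt hρ hrR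
  have hmax0 : 0 < max ρ r := lt_of_lt_of_le hr hmaxr
  -- monotonicity in the exponent
  have hmono : ∀ s t : ℝ, s ≤ t → η ^ (1 - s) * M ^ s ≤ η ^ (1 - t) * M ^ t := by
    intro s t hst
    have h1 : η ^ (1 - s) = η ^ (1 - t) * η ^ (t - s) := by
      rw [← Real.rpow_add hη0]; ring_nf
    have h2 : M ^ t = M ^ s * M ^ (t - s) := by
      rw [← Real.rpow_add hM0]; ring_nf
    rw [h1, h2]
    have h3 : η ^ (t - s) ≤ M ^ (t - s) := Real.rpow_le_rpow hη0.le hηM (by linarith)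
    have h4 : 0 < η ^ (1 - t) := Real.rpow_pos_of_pos hη0 _
    have h5 : 0 < M ^ s := Real.rpow_pos_of_pos hM0 _
    calc η ^ (1 - t) * η ^ (t - s) * M ^ s = (η ^ (1 - t) * M ^ s) * η ^ (t - s) := by ring
      _ ≤ (η ^ (1 - t) * M ^ s) * M ^ (t - s) := by gcongr
      _ = η ^ (1 - t) * (M ^ s * M ^ (t - s)) := by ring
  rw [mem_closedBall, dist_eq_norm] at hw
  by_cases hwr : ‖w - q‖ ≤ r
  · have h1 := hη w (by rw [mem_closedBall, dist_eq_norm]; exact hwr)
    refine h1.trans ?_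
    have h2 := hmono 0 ((Real.log (max ρ r) - Real.log r) / (Real.log R' - Real.log r)) (by
      apply div_nonneg _ hden.le
      linarith [Real.log_le_log hr hmaxr])
    simpa using h2
  · rw [not_le] at hwr
    have hwq : w - q ≠ 0 := by
      intro h; rw [h, norm_zero] at hwr; linarith
    have hwmax : ‖w - q‖ ≤ max ρ r := hw.trans (le_max_left _ _)
    set ζ : ℂ := Complex.log (w - q) with hζ
    have hζre : ζ.re = Real.log ‖w - q‖ := by rw [hζ, Complex.log_re]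
    have hζe : q + Complex.exp ζ = w := by rw [hζ, Complex.exp_log hwq]; ring
    have hstrip : ∀ z : ℂ, z.re ≤ Real.log R' → q + Complex.exp z ∈ ball q R := by
      intro z hz
      rw [mem_ball, dist_eq_norm, add_sub_cancel_left, Complex.norm_exp]
      calc Real.exp z.re ≤ Real.exp (Real.log R') := Real.exp_le_exp.mpr hz
        _ = R' := Real.exp_log hR'0
        _ < R := hR
    have hdiff : ∀ z : ℂ, z.re ≤ Real.log R' → DifferentiableAt ℂ (fun z => g (q + Complex.exp z)) z := by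
      intro z hz
      have h1 : DifferentiableAt ℂ g (q + Complex.exp z) :=
        hg.differentiableAt (isOpen_ball.mem_nhds (hstrip z hz))
      exact h1.comp z (by fun_prop)
    have key := Complex.HadamardThreeLines.norm_le_interp_of_mem_verticalClosedStrip'
      (f := fun z => g (q + Complex.exp z)) (z := ζ) (a := η) (b := M) hlog
      (by
        refine ⟨?_, ?_⟩
        · rw [hζre]; exact Real.log_le_log hr hwr.le
        · rw [hζre]; exact Real.log_le_log (by linarith) (hwmax.trans hmaxR.le))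
      (by
        have hcl : closure (Complex.HadamardThreeLines.verticalStrip (Real.log r) (Real.log R'))
            ⊆ {z : ℂ | z.re ≤ Real.log R'} := by
          apply closure_minimal _ (isClosed_le Complex.continuous_re continuous_const)
          intro z hz
          exact hz.2.le
        refine ⟨?_, ?_⟩
        · intro z hz
          exact (hdiff z hz.2.le).differentiableWithinAt
        · intro z hz
          exact (hdiff z (hcl hz)).continuousAt.continuousWithinAt)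
      (by
        refine ⟨M, ?_⟩
        rintro _ ⟨z, hz, rfl⟩
        exact hM _ (hstrip z hz.2))
      (by
        intro z hz
        apply hη
        rw [mem_closedBall, dist_eq_norm, add_sub_cancel_left, Complex.norm_exp]
        have hz' : z.re = Real.log r := hz
        rw [hz', Real.exp_log hr])
      (by
        intro z hz
        have hz' : z.re = Real.log R' := hz
        exact hM _ (hstrip z hz'.le))
    simp only [hζe] at key
    refine key.trans (hmono _ _ ?_)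
    rw [hζre]
    apply div_le_div_of_nonneg_right _ hden.le
    linarith [Real.log_le_log (by linarith : 0 < ‖w - q‖) hwmax]

/-- every `u` with `‖u‖ ≤ sinh a` is `cosh ζ` with `0 ≤ Re ζ ≤ a`. -/
theorem exists_cosh {a : ℝ} {u : ℂ} (hu : ‖u‖ ≤ Real.sinh a) :
    ∃ ζ : ℂ, Complex.cosh ζ = u ∧ 0 ≤ ζ.re ∧ ζ.re ≤ a := by
  obtain ⟨θ, hθ⟩ := Complex.cos_surjective u
  have h1 : ∃ ζ : ℂ, Complex.cosh ζ = u ∧ 0 ≤ ζ.re := by
    have h2 : Complex.cosh (θ * I) = u := by rw [Complex.cosh_mul_I, hθ]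
    rcases le_total 0 (θ * I).re with h | h
    · exact ⟨θ * I, h2, h⟩
    · refine ⟨-(θ * I), by rw [Complex.cosh_neg, h2], ?_⟩
      rw [Complex.neg_re]; linarith
  obtain ⟨ζ, hζ, h0⟩ := h1
  refine ⟨ζ, hζ, h0, ?_⟩
  have h3 : Real.sinh ζ.re ≤ ‖u‖ := by
    rw [← hζ]
    have h4 : Complex.cosh ζ = Complex.ofReal (Real.cosh ζ.re * Real.cos ζ.im) +
        Complex.ofReal (Real.sinh ζ.re * Real.sin ζ.im) * I := by
      conv_lhs => rw [← Complex.re_add_im ζ]
      rw [Complex.cosh_add, Complex.cosh_mul_I, Complex.sinh_mul_I]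
      push_cast
      ring
    have h5 : Real.sinh ζ.re ^ 2 ≤ ‖Complex.cosh ζ‖ ^ 2 := by
      rw [← Complex.normSq_eq_norm_sq, h4, Complex.normSq_add_mul_I]
      have h6 := Real.cosh_sq ζ.re
      have h7 := Real.sin_sq_add_cos_sq ζ.im
      nlinarith [sq_nonneg (Real.cos ζ.im), sq_nonneg (Real.sinh ζ.re)]
    exact le_of_sq_le_sq h5 (norm_nonneg _) |> fun h => h
  exact Real.sinh_le_sinh.mp (h3.trans hu)

/-- monotonicity of the interpolation in the exponent. -/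
theorem interp_mono {η M : ℝ} (hη0 : 0 < η) (hηM : η ≤ M) {s t : ℝ} (hst : s ≤ t) :
    η ^ (1 - s) * M ^ s ≤ η ^ (1 - t) * M ^ t := by
  have hM0 : 0 < M := lt_of_lt_of_le hη0 hηM
  have h1 : η ^ (1 - s) = η ^ (1 - t) * η ^ (t - s) := by
    rw [← Real.rpow_add hη0]; ring_nf
  have h2 : M ^ t = M ^ s * M ^ (t - s) := by
    rw [← Real.rpow_add hM0]; ring_nf
  rw [h1, h2]
  have h3 : η ^ (t - s) ≤ M ^ (t - s) := Real.rpow_le_rpow hη0.le hηM (by linarith)
  have h4 : 0 < η ^ (1 - t) := Real.rpow_pos_of_pos hη0 _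
  have h5 : 0 < M ^ s := Real.rpow_pos_of_pos hM0 _
  calc η ^ (1 - t) * η ^ (t - s) * M ^ s = (η ^ (1 - t) * M ^ s) * η ^ (t - s) := by ring
    _ ≤ (η ^ (1 - t) * M ^ s) * M ^ (t - s) := by gcongr
    _ = η ^ (1 - t) * (M ^ s * M ^ (t - s)) := by ring

/-- `‖cosh z‖ ≤ cosh (re z)`. -/
theorem norm_cosh_le (z : ℂ) : ‖Complex.cosh z‖ ≤ Real.cosh z.re := by
  have h4 : Complex.cosh z = Complex.ofReal (Real.cosh z.re * Real.cos z.im) +
      Complex.ofReal (Real.sinh z.re * Real.sin z.im) * I := by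
    conv_lhs => rw [← Complex.re_add_im z]
    rw [Complex.cosh_add, Complex.cosh_mul_I, Complex.sinh_mul_I]
    push_cast
    ring
  have h5 : ‖Complex.cosh z‖ ^ 2 ≤ Real.cosh z.re ^ 2 := by
    rw [← Complex.normSq_eq_norm_sq, h4, Complex.normSq_add_mul_I]
    have h6 := Real.cosh_sq z.re
    have h7 := Real.sin_sq_add_cos_sq z.im
    nlinarith [sq_nonneg (Real.sin z.im), sq_nonneg (Real.sinh z.re)]
  exact (abs_le_of_sq_le_sq' h5 (Real.cosh_pos _).le).2

/-- Segment to disc: `g` holomorphic and bounded by `M` on `ball c R`, bounded by `η` on the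
horizontal segment of half length `s` around `c`. -/
theorem tc_seg {g : ℂ → ℂ} {c : ℂ} {R s M η a : ℝ} (hs : 0 < s) (ha : 0 < a)
    (hsR : s * Real.cosh a < R) (hg : DifferentiableOn ℂ g (ball c R))
    (hM : ∀ z ∈ ball c R, ‖g z‖ ≤ M) (hη0 : 0 < η) (hηM : η ≤ M)
    (hη : ∀ x : ℝ, |x| ≤ s → ‖g (c + x)‖ ≤ η) {w : ℂ} (hw : ‖w - c‖ ≤ s * Real.sinh (a / 2)) :
    ‖g w‖ ≤ η ^ (1 - (1 / 2 : ℝ)) * M ^ (1 / 2 : ℝ) := by
  have hsC : (s : ℂ) ≠ 0 := by exact_mod_cast hs.ne'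
  obtain ⟨ζ, hζ, h0, h1⟩ := exists_cosh (a := a / 2) (u := (w - c) / s) (by
    rw [norm_div, Complex.norm_real, Real.norm_eq_abs, abs_of_pos hs, div_le_iff₀ hs]
    linarith)
  have hw' : c + s * Complex.cosh ζ = w := by
    rw [hζ]; field_simp; ring
  have hstrip : ∀ z : ℂ, 0 ≤ z.re → z.re ≤ a → c + s * Complex.cosh z ∈ ball c R := by
    intro z hz0 hz
    rw [mem_ball, dist_eq_norm, add_sub_cancel_left, norm_mul, Complex.norm_real,
      Real.norm_eq_abs, abs_of_pos hs]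
    have h2 : Real.cosh z.re ≤ Real.cosh a := by
      rw [Real.cosh_le_cosh, abs_of_nonneg hz0, abs_of_pos ha]; exact hz
    calc s * ‖Complex.cosh z‖ ≤ s * Real.cosh a := by
          apply mul_le_mul_of_nonneg_left _ hs.le
          exact (norm_cosh_le z).trans h2
      _ < R := hsR
  have hdiff : ∀ z : ℂ, 0 ≤ z.re → z.re ≤ a →
      DifferentiableAt ℂ (fun z => g (c + s * Complex.cosh z)) z := by
    intro z hz0 hz
    have h1 : DifferentiableAt ℂ g (c + s * Complex.cosh z) :=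
      hg.differentiableAt (isOpen_ball.mem_nhds (hstrip z hz0 hz))
    exact h1.comp z (by fun_prop)
  have key := Complex.HadamardThreeLines.norm_le_interp_of_mem_verticalClosedStrip'
    (f := fun z => g (c + s * Complex.cosh z)) (z := ζ) (a := η) (b := M) ha
    ⟨h0, h1.trans (by linarith)⟩
    (by
      have hcl : closure (Complex.HadamardThreeLines.verticalStrip 0 a)
          ⊆ {z : ℂ | 0 ≤ z.re ∧ z.re ≤ a} := by
        apply closure_minimal _ ((isClosed_le continuous_const Complex.continuous_re).inter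
          (isClosed_le Complex.continuous_re continuous_const))
        intro z hz
        exact ⟨hz.1.le, hz.2.le⟩
      refine ⟨?_, ?_⟩
      · intro z hz
        exact (hdiff z hz.1.le hz.2.le).differentiableWithinAt
      · intro z hz
        exact (hdiff z (hcl hz).1 (hcl hz).2).continuousAt.continuousWithinAt)
    (by
      refine ⟨M, ?_⟩
      rintro _ ⟨z, hz, rfl⟩
      exact hM _ (hstrip z hz.1 hz.2))
    (by
      intro z hz
      have hz' : z.re = 0 := hz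
      have hz2 : z = (z.im : ℂ) * I := by
        apply Complex.ext <;> simp [hz']
      have h3 : c + s * Complex.cosh z = c + ((s * Real.cos z.im : ℝ) : ℂ) := by
        conv_lhs => rw [hz2, Complex.cosh_mul_I]
        push_cast
        ring
      rw [h3]
      apply hη
      rw [abs_mul, abs_of_pos hs]
      calc s * |Real.cos z.im| ≤ s * 1 := by
            apply mul_le_mul_of_nonneg_left (Real.abs_cos_le_one _) hs.le
        _ = s := mul_one s)
    (by
      intro z hz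
      have hz' : z.re = a := hz
      exact hM _ (hstrip z (by rw [hz']; exact ha.le) hz'.le))
  simp only [hw'] at key
  refine key.trans (interp_mono hη0 hηM ?_)
  rw [sub_zero, sub_zero, div_le_iff₀ ha]
  linarith

/-! ### the chain arguments in a preconnected open set -/

/-- Open--closed principle: a property of points of a preconnected open set, true at one point,
stable in the sense that it holds in a neighbourhood (inside `U`) and passes to nearby points. -/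
theorem chain {U : Set ℂ} (hUc : IsPreconnected U) (S : ℂ → Prop) {q0 : ℂ}
    (hq0 : q0 ∈ U) (hS0 : S q0)
    (hstep : ∀ q ∈ U, ∃ δ > 0, ball q δ ⊆ U ∧ ∀ q' ∈ ball q δ, S q' → ∀ q'' ∈ ball q δ, S q'')
    {q : ℂ} (hq : q ∈ U) : S q := by
  by_contra hSq
  have h1 : IsOpen {q | q ∈ U ∧ S q} := by
    rw [Metric.isOpen_iff]
    rintro q ⟨hqU, hSq⟩
    obtain ⟨δ, hδ, hsub, h⟩ := hstep q hqU
    refine ⟨δ, hδ, fun q' hq' => ⟨hsub hq', h q (mem_ball_self hδ) hSq q' hq'⟩⟩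
  have h2 : IsOpen {q | q ∈ U ∧ ¬ S q} := by
    rw [Metric.isOpen_iff]
    rintro q ⟨hqU, hSq⟩
    obtain ⟨δ, hδ, hsub, h⟩ := hstep q hqU
    refine ⟨δ, hδ, fun q' hq' => ⟨hsub hq', fun hS => hSq (h q' hq' hS q (mem_ball_self hδ))⟩⟩
  obtain ⟨x, hxU, hx1, hx2⟩ := hUc _ _ h1 h2
    (fun x hx => by
      by_cases h : S x
      · exact Or.inl ⟨hx, h⟩
      · exact Or.inr ⟨hx, h⟩)
    ⟨q0, hq0, hq0, hS0⟩ ⟨q, hq, hq, hSq⟩
  exact hx2.2 hx1.2

/-- Borel--Caratheodory chain. -/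
theorem bc_chain {U : Set ℂ} (hUo : IsOpen U) (hUc : IsPreconnected U) {q0 : ℂ} (hq0 : q0 ∈ U)
    {q : ℂ} (hq : q ∈ U) :
    ∃ C r : ℝ, 1 ≤ C ∧ 0 < r ∧ ball q r ⊆ U ∧ ∀ (g : ℂ → ℂ) (L : ℝ), 0 < L →
      DifferentiableOn ℂ g U → (∀ z ∈ U, (g z).re ≤ L) → ‖g q0‖ ≤ L →
      ∀ z ∈ ball q r, ‖g z‖ ≤ C * L := by
  -- first the bound at a point
  have hpt : ∀ q ∈ U, ∃ C : ℝ, 1 ≤ C ∧ ∀ (g : ℂ → ℂ) (L : ℝ), 0 < L →
      DifferentiableOn ℂ g U → (∀ z ∈ U, (g z).re ≤ L) → ‖g q0‖ ≤ L → ‖g q‖ ≤ C * L := by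
    intro q hq
    refine chain hUc (fun q => ∃ C : ℝ, 1 ≤ C ∧ ∀ (g : ℂ → ℂ) (L : ℝ), 0 < L →
      DifferentiableOn ℂ g U → (∀ z ∈ U, (g z).re ≤ L) → ‖g q0‖ ≤ L → ‖g q‖ ≤ C * L) hq0
      ⟨1, le_refl _, fun g L hL _ _ h => by simpa using h⟩ ?_ hq
    intro q hq
    obtain ⟨δ, hδ, hsub⟩ := Metric.isOpen_iff.mp hUo q hq
    refine ⟨δ / 5, by positivity, (ball_subset_ball (by linarith)).trans hsub, ?_⟩
    rintro q' hq' ⟨C, hC, h⟩ q'' hq''
    refine ⟨4 + 3 * C, by linarith, fun g L hL hg hre h0 => ?_⟩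
    have hqq' := mem_ball.mp hq'
    have hqq'' := mem_ball.mp hq''
    have hb : ball q' (4 * δ / 5) ⊆ U := by
      refine Subset.trans ?_ hsub
      intro z hz
      rw [mem_ball] at hz ⊢
      have := dist_triangle z q' q
      linarith
    have hdist : ‖q'' - q'‖ < 2 * δ / 5 := by
      rw [← dist_eq_norm]
      have := dist_triangle q'' q q'
      rw [dist_comm q q'] at this
      linarith
    have h3 := Complex.borelCaratheodory (f := fun z => g (q' + z)) (M := L) (R := 4 * δ / 5)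
      (z := q'' - q') hL
      (by
        intro z hz
        have hz' : q' + z ∈ U := hb (by
          rw [mem_ball, dist_eq_norm, add_sub_cancel_left]
          simpa using hz)
        have h1 : DifferentiableAt ℂ g (q' + z) := hg.differentiableAt (hUo.mem_nhds hz')
        exact (h1.comp z (by fun_prop)).differentiableWithinAt)
      (by
        intro z hz
        apply hre
        apply hb
        rw [mem_ball, dist_eq_norm, add_sub_cancel_left]
        simpa using hz)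
      (by positivity)
      (by rw [mem_ball_zero_iff]; linarith)
    simp only [add_zero, add_sub_cancel] at h3
    have h4 := h g L hL hg hre h0
    have hden : 0 < 4 * δ / 5 - ‖q'' - q'‖ := by linarith
    have h5 : 2 * L * ‖q'' - q'‖ / (4 * δ / 5 - ‖q'' - q'‖) ≤ 4 * L := by
      rw [div_le_iff₀ hden]
      nlinarith [norm_nonneg (q'' - q')]
    have h6 : ‖g q'‖ * (4 * δ / 5 + ‖q'' - q'‖) / (4 * δ / 5 - ‖q'' - q'‖) ≤ ‖g q'‖ * 3 := by
      rw [mul_div_assoc]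
      apply mul_le_mul_of_nonneg_left _ (norm_nonneg _)
      rw [div_le_iff₀ hden]
      nlinarith
    calc ‖g q''‖ ≤ _ := h3
      _ ≤ 4 * L + ‖g q'‖ * 3 := by linarith
      _ ≤ 4 * L + (C * L) * 3 := by linarith
      _ = (4 + 3 * C) * L := by ring
  obtain ⟨C, hC, h⟩ := hpt q hq
  obtain ⟨δ, hδ, hsub⟩ := Metric.isOpen_iff.mp hUo q hq
  refine ⟨4 + 3 * C, δ / 2, by linarith, by positivity,
    (ball_subset_ball (by linarith)).trans hsub, fun g L hL hg hre h0 z hz => ?_⟩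
  have hdist : ‖z - q‖ < δ / 2 := by rw [← dist_eq_norm]; exact hz
  have h3 := Complex.borelCaratheodory (f := fun z => g (q + z)) (M := L) (R := δ)
      (z := z - q) hL
      (by
        intro z hz
        have hz' : q + z ∈ U := hsub (by
          rw [mem_ball, dist_eq_norm, add_sub_cancel_left]
          simpa using hz)
        have h1 : DifferentiableAt ℂ g (q + z) := hg.differentiableAt (hUo.mem_nhds hz')
        exact (h1.comp z (by fun_prop)).differentiableWithinAt)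
      (by
        intro z hz
        apply hre
        apply hsub
        rw [mem_ball, dist_eq_norm, add_sub_cancel_left]
        simpa using hz)
      hδ
      (by rw [mem_ball_zero_iff]; linarith)
  simp only [add_zero, add_sub_cancel] at h3
  have h4 := h g L hL hg hre h0
  have hden : 0 < δ - ‖z - q‖ := by linarith
  have h5 : 2 * L * ‖z - q‖ / (δ - ‖z - q‖) ≤ 4 * L := by
    rw [div_le_iff₀ hden]
    nlinarith [norm_nonneg (z - q)]
  have h6 : ‖g q‖ * (δ + ‖z - q‖) / (δ - ‖z - q‖) ≤ ‖g q‖ * 3 := by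
    rw [mul_div_assoc]
    apply mul_le_mul_of_nonneg_left _ (norm_nonneg _)
    rw [div_le_iff₀ hden]
    nlinarith
  calc ‖g z‖ ≤ _ := h3
    _ ≤ 4 * L + ‖g q‖ * 3 := by linarith
    _ ≤ 4 * L + (C * L) * 3 := by linarith
    _ = (4 + 3 * C) * L := by ring

/-- Two constants chain: for a class `𝓕` of triples `(g, L, η)` of holomorphic functions on `U`,
locally bounded by `C L`, and of size `C η^ω L^(1-ω)` near `q0`, the same holds near every
point of `U`. -/
theorem tc_chain {U : Set ℂ} (hUc : IsPreconnected U) (𝓕 : (ℂ → ℂ) → ℝ → ℝ → Prop)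
    (h𝓕 : ∀ g L η, 𝓕 g L η → 0 < η ∧ η ≤ L ∧ DifferentiableOn ℂ g U)
    (hloc : ∀ q ∈ U, ∃ C r : ℝ, 1 ≤ C ∧ 0 < r ∧ ball q r ⊆ U ∧
      ∀ g L η, 𝓕 g L η → ∀ z ∈ ball q r, ‖g z‖ ≤ C * L)
    {q0 : ℂ} (hq0 : q0 ∈ U)
    (hstart : ∃ C r ω : ℝ, 1 ≤ C ∧ 0 < r ∧ 0 < ω ∧ ω ≤ 1 ∧
      ∀ g L η, 𝓕 g L η → ∀ z ∈ ball q0 r, ‖g z‖ ≤ C * (η ^ ω * L ^ (1 - ω)))
    {q : ℂ} (hq : q ∈ U) :
    ∃ C r ω : ℝ, 1 ≤ C ∧ 0 < r ∧ 0 < ω ∧ ω ≤ 1 ∧
      ∀ g L η, 𝓕 g L η → ∀ z ∈ ball q r, ‖g z‖ ≤ C * (η ^ ω * L ^ (1 - ω)) := by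
  refine chain hUc (fun q => ∃ C r ω : ℝ, 1 ≤ C ∧ 0 < r ∧ 0 < ω ∧ ω ≤ 1 ∧
      ∀ g L η, 𝓕 g L η → ∀ z ∈ ball q r, ‖g z‖ ≤ C * (η ^ ω * L ^ (1 - ω))) hq0 hstart ?_ hq
  intro q hq
  obtain ⟨C0, r0, hC0, hr0, hsub, hb⟩ := hloc q hq
  refine ⟨r0 / 5, by positivity, (ball_subset_ball (by linarith)).trans hsub, ?_⟩
  rintro q' hq' ⟨C', r', ω, hC', hr', hω0, hω1, h⟩ q'' hq''
  set δ : ℝ := r0 / 5 with hδ
  have hδ0 : 0 < δ := by positivity
  set r1 : ℝ := min (r' / 2) δ with hr1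
  have hr10 : 0 < r1 := by rw [hr1]; positivity
  have hr1' : r1 < r' := lt_of_le_of_lt (min_le_left _ _) (by linarith)
  have hr1δ : r1 ≤ δ := min_le_right _ _
  set θ : ℝ := (Real.log (max (3 * δ) r1) - Real.log r1) / (Real.log (7 / 2 * δ) - Real.log r1)
    with hθ
  have hmax : max (3 * δ) r1 = 3 * δ := max_eq_left (by linarith)
  have hl1 : Real.log r1 < Real.log (3 * δ) := Real.log_lt_log hr10 (by linarith)
  have hl2 : Real.log (3 * δ) < Real.log (7 / 2 * δ) := Real.log_lt_log (by positivity) (by linarith)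
  have hden : 0 < Real.log (7 / 2 * δ) - Real.log r1 := by linarith
  have hθ0 : 0 ≤ θ := by rw [hθ, hmax]; exact div_nonneg (by linarith) hden.le
  have hθ1 : θ < 1 := by rw [hθ, hmax, div_lt_one hden]; linarith
  set C1 : ℝ := max C0 C' with hC1
  have hC11 : 1 ≤ C1 := hC0.trans (le_max_left _ _)
  refine ⟨C1, δ, ω * (1 - θ), hC11, hδ0, mul_pos hω0 (by linarith), ?_, ?_⟩
  · nlinarith
  intro g L η hF z hz
  obtain ⟨hη0, hηL, hg⟩ := h𝓕 g L η hF
  have hL0 : 0 < L := lt_of_lt_of_le hη0 hηL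
  have hqq' := mem_ball.mp hq'
  have hqq'' := mem_ball.mp hq''
  have hzq := mem_ball.mp hz
  have hN0 : 0 < C' * (η ^ ω * L ^ (1 - ω)) := by positivity
  have hNL : η ^ ω * L ^ (1 - ω) ≤ L := by
    calc η ^ ω * L ^ (1 - ω) ≤ L ^ ω * L ^ (1 - ω) := by
          gcongr
      _ = L := by rw [← Real.rpow_add hL0]; simp
  have hballs : ball q' (4 * δ) ⊆ ball q r0 := by
    intro y hy
    rw [mem_ball] at hy ⊢
    have := dist_triangle y q' q
    linarith
  have key := tc_disc (g := g) (q := q') (r := r1) (ρ := 3 * δ) (R' := 7 / 2 * δ) (R := 4 * δ)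
    (M := C1 * L) (η := C' * (η ^ ω * L ^ (1 - ω))) hr10 (by linarith) (by linarith)
    (by linarith) (hg.mono (hballs.trans hsub))
    (by
      intro y hy
      refine (hb g L η hF y (hballs hy)).trans ?_
      gcongr
      exact le_max_left _ _)
    hN0
    (by
      calc C' * (η ^ ω * L ^ (1 - ω)) ≤ C' * L := by gcongr
        _ ≤ C1 * L := by
          gcongr
          exact le_max_right _ _)
    (by
      intro y hy
      apply h g L η hF
      rw [mem_ball]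
      exact lt_of_le_of_lt (mem_closedBall.mp hy) hr1')
    (w := z)
    (by
      rw [mem_closedBall]
      have h1 := dist_triangle z q'' q'
      have h2 := dist_triangle q'' q q'
      rw [dist_comm q q'] at h2
      linarith)
  rw [← hθ] at key
  refine key.trans ?_
  have hC'0 : 0 < C' := by linarith
  have hC10 : 0 < C1 := by linarith
  have h1 : (C' * (η ^ ω * L ^ (1 - ω))) ^ (1 - θ) =
      C' ^ (1 - θ) * (η ^ (ω * (1 - θ)) * L ^ ((1 - ω) * (1 - θ))) := by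
    rw [Real.mul_rpow hC'0.le (by positivity), Real.mul_rpow (by positivity) (by positivity),
      ← Real.rpow_mul hη0.le, ← Real.rpow_mul hL0.le]
  have h2 : (C1 * L) ^ θ = C1 ^ θ * L ^ θ := Real.mul_rpow hC10.le hL0.le
  have h3 : C' ^ (1 - θ) ≤ C1 ^ (1 - θ) :=
    Real.rpow_le_rpow hC'0.le (le_max_right _ _) (by linarith)
  have h4 : C1 ^ (1 - θ) * C1 ^ θ = C1 := by rw [← Real.rpow_add hC10]; simp
  have h5 : L ^ ((1 - ω) * (1 - θ)) * L ^ θ = L ^ (1 - ω * (1 - θ)) := by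
    rw [← Real.rpow_add hL0]; congr 1; ring
  rw [h1, h2]
  calc C' ^ (1 - θ) * (η ^ (ω * (1 - θ)) * L ^ ((1 - ω) * (1 - θ))) * (C1 ^ θ * L ^ θ)
      ≤ C1 ^ (1 - θ) * (η ^ (ω * (1 - θ)) * L ^ ((1 - ω) * (1 - θ))) * (C1 ^ θ * L ^ θ) := by
        gcongr
    _ = (C1 ^ (1 - θ) * C1 ^ θ) *
          (η ^ (ω * (1 - θ)) * (L ^ ((1 - ω) * (1 - θ)) * L ^ θ)) := by ring
    _ = C1 * (η ^ (ω * (1 - θ)) * L ^ (1 - ω * (1 - θ))) := by rw [h4, h5]

/-! ### logarithm -/

/-- Holomorphic logarithm of a zero-free holomorphic function. -/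
theorem exists_log {U : Set ℂ} (hUo : IsOpen U) (hUs : IsSimplyConnected U) {X : ℂ → ℂ}
    (hX : DifferentiableOn ℂ X U) (h0 : ∀ z ∈ U, X z ≠ 0) :
    ∃ g : ℂ → ℂ, DifferentiableOn ℂ g U ∧ ∀ z ∈ U, Complex.exp (g z) = X z := by
  obtain ⟨g, hgc, hg⟩ := Complex.exists_continuousOn_eqOn_exp_comp hUs hUo hX.continuousOn
    (by rintro ⟨z, hz, h⟩; exact h0 z hz h)
  refine ⟨g, ?_, fun z hz => hg hz⟩
  intro z hz
  have h1 : HasDerivAt X (deriv X z) z := (hX.differentiableAt (hUo.mem_nhds hz)).hasDerivAt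
  have h2 : HasDerivAt Complex.exp (Complex.exp (g z)) (g z) := Complex.hasDerivAt_exp _
  -- local inverse of exp at `g z`
  have h3 : ContinuousAt g z := hgc.continuousAt (hUo.mem_nhds hz)
  -- write g as composition of the local inverse with X
  have h4 := (Complex.hasStrictDerivAt_exp (g z)).eventually_left_inverse (Complex.exp_ne_zero _)
  have h5 := (Complex.hasStrictDerivAt_exp (g z)).to_localInverse (Complex.exp_ne_zero _)
  have h6 : (fun w => (Complex.hasStrictDerivAt_exp (g z)).localInverse Complex.exp _ _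
      (Complex.exp_ne_zero _) (X w)) =ᶠ[𝓝 z] g := by
    have h7 := h3.eventually h4
    filter_upwards [h7, hUo.mem_nhds hz] with w hw hwU
    have h8 : X w = Complex.exp (g w) := (hg hwU).symm
    rw [h8]; exact hw
  have h7 : DifferentiableAt ℂ (fun w => (Complex.hasStrictDerivAt_exp (g z)).localInverse
      Complex.exp _ _ (Complex.exp_ne_zero _) (X w)) z := by
    have h8 : X z = Complex.exp (g z) := (hg hz).symm
    have h9 : ∀ F : ℂ → ℂ, DifferentiableAt ℂ F (Complex.exp (g z)) →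
        DifferentiableAt ℂ (fun w => F (X w)) z := by
      intro F hF
      rw [← h8] at hF
      exact hF.comp z h1.differentiableAt
    exact h9 _ h5.hasDerivAt.differentiableAt
  exact (h7.congr_of_eventuallyEq h6.symm).differentiableWithinAt

/-- Normalised logarithm: `X > 0` on the real segment `[1, 1+d]`, then `g` is real there and
`g x = log (X x)`. -/
theorem exists_log_real {U : Set ℂ} (hUo : IsOpen U) (hUs : IsSimplyConnected U) {d : ℝ}
    (hd : 0 ≤ d) (hseg : ∀ x ∈ Icc (1 : ℝ) (1 + d), (x : ℂ) ∈ U) {X : ℂ → ℂ}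
    (hX : DifferentiableOn ℂ X U) (h0 : ∀ z ∈ U, X z ≠ 0)
    (hpos : ∀ x ∈ Icc (1 : ℝ) (1 + d), (X x).im = 0 ∧ 0 < (X x).re) :
    ∃ g : ℂ → ℂ, DifferentiableOn ℂ g U ∧ (∀ z ∈ U, Complex.exp (g z) = X z) ∧
      ∀ x ∈ Icc (1 : ℝ) (1 + d), g x = (Real.log (X x).re : ℝ) := by
  obtain ⟨g0, hg0, he0⟩ := exists_log hUo hUs hX h0
  have h1mem : (1 : ℝ) ∈ Icc (1 : ℝ) (1 + d) := ⟨le_refl _, by linarith⟩
  have hX1 : ∀ x ∈ Icc (1 : ℝ) (1 + d), X x = Complex.exp (Real.log (X x).re : ℝ) := by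
    intro x hx
    obtain ⟨h1, h2⟩ := hpos x hx
    rw [← Complex.ofReal_exp, Real.exp_log h2]
    apply Complex.ext <;> simp [h1]
  have h1 : Complex.exp (g0 (1 : ℝ)) = Complex.exp (Real.log (X (1 : ℝ)).re : ℝ) := by
    rw [he0 _ (hseg 1 h1mem), ← hX1 1 h1mem]
  obtain ⟨n, hn⟩ := Complex.exp_eq_exp_iff_exists_int.mp h1
  set g : ℂ → ℂ := fun z => g0 z - n * (2 * π * I) with hg
  have hgd : DifferentiableOn ℂ g U := hg0.sub (differentiableOn_const _)
  have hge : ∀ z ∈ U, Complex.exp (g z) = X z := by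
    intro z hz
    rw [hg]
    simp only
    rw [Complex.exp_sub, he0 z hz]
    have : Complex.exp (n * (2 * π * I)) = 1 := by
      rw [Complex.exp_int_mul_two_pi_mul_I]
    rw [this, div_one]
  refine ⟨g, hgd, hge, ?_⟩
  have hg1 : (g (1 : ℝ)).im = 0 := by
    have : g (1 : ℝ) = (Real.log (X (1 : ℝ)).re : ℝ) := by
      rw [hg]; simp only; rw [hn]; ring
    rw [this]; simp
  -- the imaginary part on the segment
  have hcont : ContinuousOn (fun x : ℝ => (g x).im) (Icc (1 : ℝ) (1 + d)) := by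
    apply Complex.continuous_im.comp_continuousOn
    exact hgd.continuousOn.comp Complex.continuous_ofReal.continuousOn (fun x hx => hseg x hx)
  have hcos : ∀ x ∈ Icc (1 : ℝ) (1 + d), 0 < Real.cos (g x).im ∧ Real.sin (g x).im = 0 := by
    intro x hx
    obtain ⟨h2, h3⟩ := hpos x hx
    rw [← hge x (hseg x hx)] at h2 h3
    rw [Complex.exp_im] at h2
    rw [Complex.exp_re] at h3
    have h4 := Real.exp_pos (g x).re
    refine ⟨?_, ?_⟩
    · by_contra h
      rw [not_lt] at h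
      nlinarith
    · rcases mul_eq_zero.mp h2 with h | h
      · exact absurd h h4.ne'
      · exact h
  have him : ∀ x ∈ Icc (1 : ℝ) (1 + d), (g x).im = 0 := by
    intro x hx
    have hsub : Icc 1 x ⊆ Icc (1 : ℝ) (1 + d) := Icc_subset_Icc_right hx.2
    have hlt : |(g x).im| < π := by
      by_contra hcon
      rw [not_lt] at hcon
      rcases le_abs.mp hcon with h | h
      · obtain ⟨y, hy, hyv⟩ := intermediate_value_Icc hx.1 (hcont.mono hsub)
          (show π ∈ Icc (g (1 : ℝ)).im (g x).im from ⟨by rw [hg1]; exact Real.pi_pos.le, h⟩)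
        have := (hcos y (hsub hy)).1
        simp only at hyv
        rw [hyv, Real.cos_pi] at this
        linarith
      · obtain ⟨y, hy, hyv⟩ := intermediate_value_Icc' hx.1 (hcont.mono hsub)
          (show -π ∈ Icc (g x).im (g (1 : ℝ)).im from
            ⟨by linarith, by rw [hg1]; linarith [Real.pi_pos]⟩)
        have := (hcos y (hsub hy)).1
        simp only at hyv
        rw [hyv, Real.cos_neg, Real.cos_pi] at this
        linarith
    have hs := (hcos x hx).2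
    rw [abs_lt] at hlt
    exact (Real.sin_eq_zero_iff_of_lt_of_lt hlt.1 hlt.2).mp hs
  intro x hx
  have h2 := him x hx
  have h3 := hge x (hseg x hx)
  rw [hX1 x hx] at h3
  have h4 : g x = ((g x).re : ℂ) := by
    apply Complex.ext <;> simp [h2]
  rw [h4, ← Complex.ofReal_exp, ← Complex.ofReal_exp] at h3
  have h5 := Real.exp_injective (Complex.ofReal_injective h3)
  rw [h4, h5]

/-- the class of log-ratios -/
def LogClass (U : Set ℂ) (d : ℝ) (ℓ : ℂ → ℂ) (L η : ℝ) : Prop :=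
  0 < η ∧ η ≤ L ∧ DifferentiableOn ℂ ℓ U ∧ (∀ x ∈ Icc (1 : ℝ) (1 + d), ‖ℓ x‖ ≤ η) ∧
  ∃ g : Fin 4 → ℂ → ℂ, (∀ z, ℓ z = g 0 z + g 1 z - g 2 z - g 3 z) ∧
    ∀ i, DifferentiableOn ℂ (g i) U ∧ (∀ z ∈ U, (g i z).re ≤ L) ∧ ‖g i (1 : ℝ)‖ ≤ L

/-- Two constants for log-ratios. -/
theorem logClass_bound {U : Set ℂ} (hUo : IsOpen U) (hUc : IsPreconnected U) {d : ℝ} (hd : 0 < d)
    (hseg : ∀ x ∈ Icc (1 : ℝ) (1 + d), (x : ℂ) ∈ U) {p : ℂ} (hp : p ∈ U) :
    ∃ C r ω : ℝ, 1 ≤ C ∧ 0 < r ∧ 0 < ω ∧ ω ≤ 1 ∧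
      ∀ ℓ L η, LogClass U d ℓ L η → ∀ z ∈ ball p r, ‖ℓ z‖ ≤ C * (η ^ ω * L ^ (1 - ω)) := by
  have h1U : ((1 : ℝ) : ℂ) ∈ U := hseg 1 ⟨le_refl _, by linarith⟩
  have hloc : ∀ q ∈ U, ∃ C r : ℝ, 1 ≤ C ∧ 0 < r ∧ ball q r ⊆ U ∧
      ∀ ℓ L η, LogClass U d ℓ L η → ∀ z ∈ ball q r, ‖ℓ z‖ ≤ C * L := by
    intro q hq
    obtain ⟨C, r, hC, hr, hsub, h⟩ := bc_chain hUo hUc h1U hq
    refine ⟨4 * C, r, by linarith, hr, hsub, ?_⟩
    rintro ℓ L η ⟨hη0, hηL, hℓ, -, g, hg, hgi⟩ z hz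
    have hL0 : 0 < L := lt_of_lt_of_le hη0 hηL
    have hb : ∀ i, ‖g i z‖ ≤ C * L := fun i =>
      h (g i) L hL0 (hgi i).1 (hgi i).2.1 (hgi i).2.2 z hz
    rw [hg z]
    calc ‖g 0 z + g 1 z - g 2 z - g 3 z‖ ≤ ‖g 0 z‖ + ‖g 1 z‖ + ‖g 2 z‖ + ‖g 3 z‖ := by
          have h1 := norm_sub_le (g 0 z + g 1 z - g 2 z) (g 3 z)
          have h2 := norm_sub_le (g 0 z + g 1 z) (g 2 z)
          have h3 := norm_add_le (g 0 z) (g 1 z)
          linarith
      _ ≤ 4 * C * L := by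
          have h0 := hb 0
          have h1 := hb 1
          have h2 := hb 2
          have h3 := hb 3
          linarith
  have hcmem : (1 + d / 2 : ℝ) ∈ Icc (1 : ℝ) (1 + d) := ⟨by linarith, by linarith⟩
  refine tc_chain hUc (LogClass U d) (fun ℓ L η h => ⟨h.1, h.2.1, h.2.2.1⟩) hloc
    (hseg _ hcmem) ?_ hp
  obtain ⟨C, r, hC, hr, hsub, h⟩ := hloc _ (hseg _ hcmem)
  set s : ℝ := min r d / 4 with hs
  have hs0 : 0 < s := by rw [hs]; positivity
  have hsr : s ≤ r / 4 := by rw [hs]; linarith [min_le_left r d]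
  have hsd : s ≤ d / 4 := by rw [hs]; linarith [min_le_right r d]
  refine ⟨C, s * Real.sinh (1 / 2), 1 / 2, hC, by
    have : 0 < Real.sinh (1 / 2) := Real.sinh_pos_iff.mpr (by norm_num)
    positivity, by norm_num, by norm_num, ?_⟩
  intro ℓ L η hF z hz
  have hF' := hF
  obtain ⟨hη0, hηL, hℓ, hsmall, -⟩ := hF'
  have hL0 : 0 < L := lt_of_lt_of_le hη0 hηL
  have key := tc_seg (g := ℓ) (c := ((1 + d / 2 : ℝ) : ℂ)) (R := r) (s := s) (M := C * L) (η := η)
    (a := 1) hs0 one_pos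
    (by
      have h1 : Real.cosh 1 ≤ Real.exp 1 := by
        rw [Real.cosh_eq]
        have := Real.exp_le_exp.mpr (show (-1 : ℝ) ≤ 1 by norm_num)
        linarith
      have h2 : Real.exp 1 < 3 := Real.exp_one_lt_three
      have h3 := Real.cosh_pos 1
      nlinarith)
    (hℓ.mono hsub) (fun y hy => h ℓ L η hF y hy) hη0 (by nlinarith)
    (by
      intro x hx
      rw [← Complex.ofReal_add]
      apply hsmall
      have := abs_le.mp hx
      exact ⟨by linarith, by linarith⟩)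
    (w := z)
    (by rw [← dist_eq_norm]; exact (mem_ball.mp hz).le)
  refine key.trans ?_
  have h1 : (C * L) ^ (1 / 2 : ℝ) = C ^ (1 / 2 : ℝ) * L ^ (1 / 2 : ℝ) :=
    Real.mul_rpow (by linarith) hL0.le
  have h2 : C ^ (1 / 2 : ℝ) ≤ C := by
    calc C ^ (1 / 2 : ℝ) ≤ C ^ (1 : ℝ) := Real.rpow_le_rpow_of_exponent_le hC (by norm_num)
      _ = C := Real.rpow_one C
  have h3 : (1 : ℝ) - 1 / 2 = 1 / 2 := by norm_num
  rw [h1, h3]
  calc η ^ (1 / 2 : ℝ) * (C ^ (1 / 2 : ℝ) * L ^ (1 / 2 : ℝ))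
      = C ^ (1 / 2 : ℝ) * (η ^ (1 / 2 : ℝ) * L ^ (1 / 2 : ℝ)) := by ring
    _ ≤ C * (η ^ (1 / 2 : ℝ) * L ^ (1 / 2 : ℝ)) := by gcongr

/-- **B4, transport.** `X 0 X 1 / (X 2 X 3)` is close to `1` on the real segment `[1, 1+d]`, the
four functions have no zero on `U`, polynomial upper bounds on `U` and a lower bound at `1`.
Then the ratio is close to `1` at every `p ∈ U`. -/
theorem transport {U : Set ℂ} (hUo : IsOpen U) (hUs : IsSimplyConnected U) {d : ℝ} (hd : 0 < d)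
    (hseg : ∀ x ∈ Icc (1 : ℝ) (1 + d), (x : ℂ) ∈ U) {p : ℂ} (hp : p ∈ U) :
    ∃ C ω : ℝ, 1 ≤ C ∧ 0 < ω ∧ ω ≤ 1 ∧ ∀ (X : Fin 4 → ℂ → ℂ) (L η : ℝ), 1 ≤ L → 0 < η → η ≤ 1 →
      (∀ i, DifferentiableOn ℂ (X i) U) → (∀ i, ∀ z ∈ U, X i z ≠ 0) →
      (∀ i, ∀ z ∈ U, ‖X i z‖ ≤ Real.exp L) →
      (∀ i, ∀ x ∈ Icc (1 : ℝ) (1 + d), (X i x).im = 0 ∧ 0 < (X i x).re) →
      (∀ i, Real.exp (-L) ≤ (X i (1 : ℝ)).re) →
      (∀ x ∈ Icc (1 : ℝ) (1 + d), |Real.log (X 0 x).re + Real.log (X 1 x).re -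
        Real.log (X 2 x).re - Real.log (X 3 x).re| ≤ η) →
      (∀ i, Real.exp (-(C * L)) ≤ ‖X i p‖) ∧
      ∃ ℓ : ℂ, X 0 p * X 1 p = Complex.exp ℓ * (X 2 p * X 3 p) ∧
        ‖ℓ‖ ≤ C * (η ^ ω * L ^ (1 - ω)) := by
  have hUc : IsPreconnected U := hUs.isPathConnected.isConnected.isPreconnected
  have h1U : ((1 : ℝ) : ℂ) ∈ U := hseg 1 ⟨le_refl _, by linarith⟩
  obtain ⟨C1, r1, hC1, hr1, -, hbc⟩ := bc_chain hUo hUc h1U hp
  obtain ⟨C2, r2, ω, hC2, hr2, hω0, hω1, htc⟩ := logClass_bound hUo hUc hd hseg hp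
  refine ⟨max C1 C2, ω, hC1.trans (le_max_left _ _), hω0, hω1, ?_⟩
  intro X L η hL hη0 hη1 hX h0 hup hpos hlow hratio
  have hL0 : 0 < L := by linarith
  choose g hgd hge hgr using fun i => exists_log_real hUo hUs hd.le hseg (hX i) (h0 i) (hpos i)
  have h1mem : (1 : ℝ) ∈ Icc (1 : ℝ) (1 + d) := ⟨le_refl _, by linarith⟩
  have hre : ∀ i, ∀ z ∈ U, (g i z).re ≤ L := by
    intro i z hz
    have h1 := hup i z hz
    rw [← hge i z hz, Complex.norm_exp] at h1
    exact Real.exp_le_exp.mp h1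
  have hg1 : ∀ i, ‖g i (1 : ℝ)‖ ≤ L := by
    intro i
    rw [hgr i 1 h1mem, Complex.norm_real, Real.norm_eq_abs, abs_le]
    have hp1 := (hpos i 1 h1mem).2
    refine ⟨?_, ?_⟩
    · rw [Real.le_log_iff_exp_le hp1]
      exact hlow i
    · have h1 := hre i _ h1U
      rw [hgr i 1 h1mem, Complex.ofReal_re] at h1
      exact h1
  refine ⟨?_, ?_⟩
  · intro i
    have h1 := hbc (g i) L hL0 (hgd i) (hre i) (hg1 i) p (mem_ball_self hr1)
    rw [← hge i p hp, Complex.norm_exp]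
    apply Real.exp_le_exp.mpr
    have h2 := Complex.abs_re_le_norm (g i p)
    have h3 := neg_abs_le (g i p).re
    have h4 : C1 * L ≤ max C1 C2 * L := by
      gcongr
      exact le_max_left _ _
    linarith
  · refine ⟨g 0 p + g 1 p - g 2 p - g 3 p, ?_, ?_⟩
    · rw [← hge 0 p hp, ← hge 1 p hp, ← hge 2 p hp, ← hge 3 p hp, ← Complex.exp_add,
        ← Complex.exp_add, ← Complex.exp_add]
      congr 1
      ring
    · have hF : LogClass U d (fun z => g 0 z + g 1 z - g 2 z - g 3 z) L η := by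
        refine ⟨hη0, by linarith, ?_, ?_, g, fun _ => rfl, fun i => ⟨hgd i, hre i, hg1 i⟩⟩
        · exact (((hgd 0).add (hgd 1)).sub (hgd 2)).sub (hgd 3)
        · intro x hx
          have h1 := hratio x hx
          simp only
          rw [hgr 0 x hx, hgr 1 x hx, hgr 2 x hx, hgr 3 x hx, ← Complex.ofReal_add,
            ← Complex.ofReal_sub, ← Complex.ofReal_sub, Complex.norm_real, Real.norm_eq_abs]
          exact h1
      have h1 := htc _ L η hF p (mem_ball_self hr2)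
      refine h1.trans ?_
      have h2 : 0 < η ^ ω * L ^ (1 - ω) := by positivity
      exact mul_le_mul_of_nonneg_right (le_max_right _ _) h2.le


/-! ### an explicit domain -/

/-- The convex open set `{2/5 < Re (z e^{-iπ/3})} ∩ ball 0 (11/10)` contains `[1, 1+1/20]` and
`e^{2πi/3}`, and lies in the sector `|arg z| < 3π/4`. -/
def U0 : Set ℂ := {z : ℂ | 2 / 5 < (z * Complex.exp (-(π / 3) * I)).re} ∩ ball 0 (11 / 10)














end Crest.Agent.R143.TwoCx640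
end

-- ▼ part R143/Spine_422

/-!
# Row 143 (S0194), PART B: the spine of the assembly (helper422)

* `Dat` : the data of S0194; `Body` : its conclusion for all data; `literal` : the literal S0194
* `lc` : the filter "first `ε → 0`, then `n → ∞`" on `ℕ × ℝ`
* `ALBP`, `EndP`, `end_coreP` : pointwise form of the boundary conditions of `EndM`
* `top` : two `EndP` families along `lc` and the sandwich give the conclusion
* `Room`, `Linked`, `GoodFam`, `HG` : points with room, joined to the marks, measurable good events,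
  the annealed observable
* leaves `LGood` (M3 + M5), `LEqui` (T2, T4, M4), `LMin` (B5, B6), `LDom` (block D)
* `final : Leaves Adm → Body`
-/

set_option autoImplicit false

noncomputable section

namespace Crest.Agent.R143.Spinex422

open Complex Set Filter Topology MeasureTheory
open Crest.ProbabilityR.Voronoi
open Crest.Agent.R143.B0x346 Crest.Agent.R143.B0Dx346 Crest.Agent.R143.PP1x831
open Crest.Agent.R143.BC0x336 Crest.Agent.R143.EndAx336 Crest.Agent.R143.EndBx336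
open Crest.Agent.R143.Mollx887

/-! ### data -/

/-- the data of S0194 -/
structure Dat where
  D : Set ℂ
  hD : IsOpen D
  hDb : Bornology.IsBounded D
  hDc : IsConnected D
  γ : ℝ → ℂ
  hγ : Continuous γ
  hγp : Function.Periodic γ 1
  hγi : Set.InjOn γ (Set.Ico 0 1)
  hγD : Set.range γ = frontier D
  φ : ℂ → ℂ
  hφ : DifferentiableOn ℂ φ D
  hφi : Set.InjOn φ D
  hφD : φ '' D = {z : ℂ | 0 < z.im}
  a : ℂ
  b : ℂ
  c : ℂ
  d : ℂ
  ha : a ∈ frontier D
  hb : b ∈ frontier D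
  hc : c ∈ frontier D
  hd : d ∈ frontier D
  hφc : ContinuousOn φ (closure D \ {d})
  hφd : Filter.Tendsto (fun z => ‖φ z‖) (nhdsWithin d D) Filter.atTop
  x : ℝ
  hx0 : 0 < x
  hx1 : x < 1
  hφa : φ a = 0
  hφb : φ b = x
  hφc1 : φ c = 1

/-- the arc `ab` -/
def Dat.A1 (S : Dat) : Set ℂ :=
  {z | z ∈ frontier S.D ∧ z ≠ S.d ∧ (S.φ z).im = 0 ∧ 0 ≤ (S.φ z).re ∧ (S.φ z).re ≤ S.x}

/-- the arc `cd` -/
def Dat.A2 (S : Dat) : Set ℂ :=
  {z | z ∈ frontier S.D ∧ z ≠ S.d ∧ (S.φ z).im = 0 ∧ 1 ≤ (S.φ z).re} ∪ {S.d}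

/-- the crossing probability -/
def Dat.P (S : Dat) (ε : ℝ) : ℝ := (sampleLaw (crossingEvent ε S.D S.A1 S.A2)).toReal

/-- the conclusion of S0194 -/
def Body : Prop := ∀ S : Dat,
  Tendsto (fun ε : ℝ => sampleLaw (crossingEvent ε S.D S.A1 S.A2)) (𝓝[>] 0)
    (𝓝 (ENNReal.ofReal (crossingFormula S.x)))

/-- the boundary point `b` may be any point with `φ b = x` (needed because `b = d` is not excluded
literally) -/
theorem Dat.exists_b (S : Dat) : ∃ b ∈ frontier S.D, b ≠ S.d ∧ S.φ b = S.x :=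
  Frontx336.exists_bdry S.hD S.hDb S.hφ S.hφD S.hφc S.hφd S.x

/-! ### the filter -/

/-- first `ε → 0`, then `n → ∞` -/
def lc : Filter (ℕ × ℝ) := (atTop : Filter ℕ).curry (𝓝[>] (0 : ℝ))

theorem ev_lc {p : ℕ × ℝ → Prop} :
    (∀ᶠ i in lc, p i) ↔ ∀ᶠ n in (atTop : Filter ℕ), ∀ᶠ ε in 𝓝[>] (0 : ℝ), p (n, ε) :=
  eventually_curry_iff

theorem tendsto_lc {f : ℕ × ℝ → ℝ} {y : ℝ}
    (h : ∀ᶠ n in (atTop : Filter ℕ), Tendsto (fun ε => f (n, ε)) (𝓝[>] 0) (𝓝 y)) :
    Tendsto f lc (𝓝 y) := by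
  rw [Metric.tendsto_nhds]
  intro η hη
  rw [ev_lc]
  filter_upwards [h] with n hn
  exact Metric.tendsto_nhds.1 hn η hη

/-! ### pointwise boundary conditions -/

section ptw

variable {ι : Type} {D : Set ℂ}

/-- asymptotic boundary condition at `p`, pointwise form -/
def ALBP (D : Set ℂ) (l : Filter ι) (H : ι → ℂ → ℂ) (A B p : ℂ) : Prop :=
  ∀ η > 0, ∃ δ > 0, ∀ z ∈ D, dist z p < δ → ∀ᶠ i in l, |((H i z - A) / B).im| ≤ η

theorem ALBP.mono {l l' : Filter ι} {H : ι → ℂ → ℂ} {A B p : ℂ} (h : ALBP D l H A B p)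
    (hl : l' ≤ l) : ALBP D l' H A B p := by
  intro η hη
  obtain ⟨δ, hδ, h1⟩ := h η hη
  exact ⟨δ, hδ, fun z hz hzp => hl (h1 z hz hzp)⟩


theorem ALBP.LB {l : Filter ι} [l.NeBot] {H : ι → ℂ → ℂ} {A B p : ℂ} (hA : ALBP D l H A B p)
    {h : ℂ → ℂ} (hp : ∀ z ∈ D, Tendsto (fun i => H i z) l (𝓝 (h z))) : LB D h A B p := by
  unfold BC0x336.LB
  rw [Metric.tendsto_nhds]
  intro η hη
  obtain ⟨δ, hδ, h1⟩ := hA (η / 2) (by linarith)
  have h2 : Metric.ball p δ ∩ D ∈ 𝓝[D] p := by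
    rw [inter_comm]
    exact inter_mem_nhdsWithin D (Metric.ball_mem_nhds p hδ)
  filter_upwards [h2] with z hz
  have h3 : Tendsto (fun i => |((H i z - A) / B).im|) l (𝓝 |((h z - A) / B).im|) := by
    have h4 : Continuous fun y : ℂ => |((y - A) / B).im| := by fun_prop
    exact (h4.tendsto _).comp (hp z hz.2)
  have h5 : |((h z - A) / B).im| ≤ η / 2 := le_of_tendsto h3 (h1 z hz.2 hz.1)
  rw [Real.dist_eq, sub_zero]
  linarith

/-- hypotheses of the end theorem: as `EndM`, boundary conditions in pointwise form -/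
structure EndP (D : Set ℂ) (φ : ℂ → ℂ) (d b : ℂ) (l : Filter ι) (H g : ι → ℂ → ℂ) (c : ι → ℝ) :
    Prop where
  bd : ∃ M : ℝ, ∀ i, ∀ z ∈ D, ‖H i z‖ ≤ M
  equi : AEqui D l H
  smooth : ∀ i, ContDiff ℝ 1 (g i)
  close : ∀ K, IsCompact K → K ⊆ D → ∀ η > 0, ∀ᶠ i in l, ∀ z ∈ K, dist (g i z) (H i z) ≤ η
  mn : ∀ K, IsCompact K → K ⊆ D →
    Tendsto (fun i => min (∫ z in K, ‖dbar (g i) z‖) (∫ z in K, ‖del (g i) z‖)) l (𝓝 0)
  b1 : ∀ p ∈ frontier D, p ≠ d → (φ p).im = 0 → 0 < (φ p).re → (φ p).re < 1 →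
    ALBP D l H 1 (tau3 - 1) p
  b2 : ∀ p ∈ frontier D, p ≠ d → (φ p).im = 0 → 1 < (φ p).re →
    ALBP D l H tau3 (tau3 ^ 2 - tau3) p
  b3 : ∀ p ∈ frontier D, p ≠ d → (φ p).im = 0 → (φ p).re < 0 →
    ALBP D l H (tau3 ^ 2) (1 - tau3 ^ 2) p
  val : ∀ η > 0, ∃ δ > 0, ∀ z ∈ D, dist z b < δ → ∀ᶠ i in l,
    dist (H i z) (1 + (c i : ℂ) * (tau3 - 1)) ≤ η

theorem EndP.mono {φ : ℂ → ℂ} {d b : ℂ} {l l' : Filter ι} {H g : ι → ℂ → ℂ} {c : ι → ℝ}
    (h : EndP D φ d b l H g c) (hl : l' ≤ l) : EndP D φ d b l' H g c where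
  bd := h.bd
  equi := h.equi.mono hl
  smooth := h.smooth
  close K hK hKD η hη := hl (h.close K hK hKD η hη)
  mn K hK hKD := (h.mn K hK hKD).mono_left hl
  b1 p hp h1 h2 h3 h4 := (h.b1 p hp h1 h2 h3 h4).mono hl
  b2 p hp h1 h2 h3 := (h.b2 p hp h1 h2 h3).mono hl
  b3 p hp h1 h2 h3 := (h.b3 p hp h1 h2 h3).mono hl
  val η hη := by
    obtain ⟨δ, hδ, h1⟩ := h.val η hη
    exact ⟨δ, hδ, fun z hz hzb => hl (h1 z hz hzb)⟩


/-- **end theorem**, pointwise boundary conditions (proof of 336's `end_coreM`) -/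
theorem end_coreP (hbc3 : BC3) (hD : IsOpen D) {φ : ℂ → ℂ} {d b : ℂ} (hid : Ident D φ d)
    (hb : b ∈ frontier D) (hbd : b ≠ d) {x : ℝ} (hx0 : 0 < x) (hx1 : x < 1) (hφb : φ b = x)
    {l : Filter ι} {H g : ι → ℂ → ℂ} {c : ι → ℝ} (h : EndP D φ d b l H g c) :
    Tendsto c l (𝓝 (crossingFormula x)) := by
  rw [tendsto_iff_ultrafilter]
  intro U hU
  have hU' := h.mono hU
  obtain ⟨M, hM⟩ := h.bd
  obtain ⟨f, hfM, hf⟩ := exists_ulim U hM
  have hunif : ∀ K, IsCompact K → K ⊆ D → TendstoUniformlyOn H f U K := fun K hK hKD =>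
    unif_of_equi hU'.equi hf hK hKD
  have hg : TendstoLocallyUniformlyOn g f U D := by
    rw [tendstoLocallyUniformlyOn_iff_forall_isCompact hD]
    intro K hKD hK
    rw [Metric.tendstoUniformlyOn_iff]
    intro η hη
    have h1 := Metric.tendstoUniformlyOn_iff.1 (hunif K hK hKD) (η / 2) (by linarith)
    filter_upwards [h1, hU'.close K hK hKD (η / 3) (by linarith)] with i hi1 hi2 z hz
    calc dist (f z) (g i z) ≤ dist (f z) (H i z) + dist (H i z) (g i z) := dist_triangle _ _ _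
      _ ≤ η / 2 + η / 3 := add_le_add (hi1 z hz).le (by rw [dist_comm]; exact hi2 z hz)
      _ < η := by linarith
  have hol : DifferentiableOn ℂ f D ∨ DifferentiableOn ℂ (fun z => (starRingEnd ℂ) (f z)) D := by
    rcases alt_of_min hD hU'.smooth hU'.mn with h1 | h1
    · left
      exact hbc3 D hD ι U inferInstance g f hU'.smooth hg h1
    · right
      have hg2 : TendstoLocallyUniformlyOn (fun i => cj (g i)) (cj f) U D := by
        rw [Metric.tendstoLocallyUniformlyOn_iff] at hg ⊢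
        intro e he z hz
        obtain ⟨t, ht, h2⟩ := hg e he z hz
        refine ⟨t, ht, ?_⟩
        filter_upwards [h2] with i hi y hy
        have := hi y hy
        rwa [cj, cj, dist_eq_norm, ← map_sub, Complex.norm_conj, ← dist_eq_norm]
      refine hbc3 D hD ι U inferInstance (fun i => cj (g i)) (cj f)
        (fun i => contDiff_cj (hU'.smooth i)) hg2 ?_
      intro K hK hKD
      refine (h1 K hK hKD).congr fun i => ?_
      exact integral_congr_ae (Eventually.of_forall fun z => (norm_dbar_cj (hU'.smooth i) z).symm)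
  have htri : TriBC D φ d f :=
    ⟨⟨M, hfM⟩, fun p hp h1 h2 h3 h4 => (hU'.b1 p hp h1 h2 h3 h4).LB hf,
      fun p hp h1 h2 h3 => (hU'.b2 p hp h1 h2 h3).LB hf,
      fun p hp h1 h2 h3 => (hU'.b3 p hp h1 h2 h3).LB hf⟩
  have hlim := hid f htri hol b hb hbd x hx0 hx1 hφb
  have hne : (𝓝[D] b).NeBot := by
    rw [← mem_closure_iff_nhdsWithin_neBot]
    exact frontier_subset_closure hb
  have hT : 0 < ‖tau3 - 1‖ := norm_pos_iff.2 tau3_ne_one
  rw [Metric.tendsto_nhds]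
  intro η hη
  set η' := η * ‖tau3 - 1‖ / 4 with hη'
  have hη'0 : 0 < η' := by positivity
  obtain ⟨δ, hδ, h1⟩ := hU'.val η' hη'0
  have h2 := Metric.tendsto_nhds.1 hlim η' hη'0
  have h3 : Metric.ball b δ ∩ D ∈ 𝓝[D] b := by
    rw [inter_comm]
    exact inter_mem_nhdsWithin D (Metric.ball_mem_nhds b hδ)
  obtain ⟨z, hz1, hz2, hz3⟩ := (h2.and h3).exists
  have h4 := Metric.tendsto_nhds.1 (hf z hz3) η' hη'0
  filter_upwards [h1 z hz3 hz2, h4] with i hi1 hi4
  have e1 : dist (1 + (c i : ℂ) * (tau3 - 1)) (1 + (crossingFormula x : ℂ) * (tau3 - 1)) <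
      4 * η' := by
    calc dist (1 + (c i : ℂ) * (tau3 - 1)) (1 + (crossingFormula x : ℂ) * (tau3 - 1))
        ≤ dist (1 + (c i : ℂ) * (tau3 - 1)) (H i z) + dist (H i z) (f z) +
          dist (f z) (1 + (crossingFormula x : ℂ) * (tau3 - 1)) := dist_triangle4 _ _ _ _
      _ ≤ η' + η' + η' := by
          refine add_le_add (add_le_add ?_ hi4.le) hz1.le
          rw [dist_comm]; exact hi1
      _ < 4 * η' := by linarith
  have e2 : dist (1 + (c i : ℂ) * (tau3 - 1)) (1 + (crossingFormula x : ℂ) * (tau3 - 1)) =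
      dist (c i) (crossingFormula x) * ‖tau3 - 1‖ := by
    rw [dist_add_left, dist_eq_norm, ← sub_mul, norm_mul, Real.dist_eq, ← Complex.ofReal_sub,
      Complex.norm_real, Real.norm_eq_abs]
  rw [e2, hη'] at e1
  have e3 : dist (c i) (crossingFormula x) * ‖tau3 - 1‖ < η * ‖tau3 - 1‖ := by linarith
  exact lt_of_mul_lt_mul_right e3 hT.le

end ptw

/-- **top of the assembly** -/
theorem top (S : Dat) {b : ℂ} (hb : b ∈ frontier S.D) (hbd : b ≠ S.d) (hφb : S.φ b = S.x)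
    {H g H' g' : ℕ × ℝ → ℂ → ℂ} {c c' : ℕ × ℝ → ℝ}
    (h : EndP S.D S.φ S.d b lc H g c) (h' : EndP S.D S.φ S.d b lc H' g' c')
    (hle : ∀ η > 0, ∀ᶠ i in lc, c i - η ≤ S.P i.2)
    (hle' : ∀ η > 0, ∀ᶠ i in lc, S.P i.2 ≤ c' i + η) :
    Tendsto (fun ε : ℝ => sampleLaw (crossingEvent ε S.D S.A1 S.A2)) (𝓝[>] 0)
      (𝓝 (ENNReal.ofReal (crossingFormula S.x))) := by
  have hid : Ident S.D S.φ S.d :=
    IdentDx439.bc5 S.D S.hD S.hDb S.hDc S.φ S.hφ S.hφi S.hφD S.d S.hd S.hφc S.hφd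
  have h1 := end_coreP DbarMorx63.bc3 S.hD hid hb hbd S.hx0 S.hx1 hφb h
  have h2 := end_coreP DbarMorx63.bc3 S.hD hid hb hbd S.hx0 S.hx1 hφb h'
  have h3 : Tendsto S.P (𝓝[>] 0) (𝓝 (crossingFormula S.x)) := by
    rw [Metric.tendsto_nhds]
    intro η hη
    have h4 : ∀ᶠ i in lc, dist (S.P i.2) (crossingFormula S.x) < η := by
      filter_upwards [Metric.tendsto_nhds.1 h1 (η / 2) (by linarith),
        Metric.tendsto_nhds.1 h2 (η / 2) (by linarith), hle (η / 2) (by linarith),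
        hle' (η / 2) (by linarith)] with i e1 e2 e3 e4
      rw [Real.dist_eq, abs_lt] at e1 e2 ⊢
      constructor <;> linarith [e1.1, e1.2, e2.1, e2.2]
    rw [ev_lc] at h4
    exact h4.exists.choose_spec
  have h4 := ENNReal.tendsto_ofReal h3
  refine h4.congr fun ε => ?_
  exact ENNReal.ofReal_toReal (measure_ne_top _ _)

/-- the literal S0194 -/
theorem literal (h : Body)
    (D : Set ℂ) (hD : IsOpen D) (hDb : Bornology.IsBounded D) (hDc : IsConnected D)
    (γ : ℝ → ℂ) (hγ : Continuous γ) (hγp : Function.Periodic γ 1) (hγi : Set.InjOn γ (Set.Ico 0 1))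
    (hγD : Set.range γ = frontier D)
    (φ : ℂ → ℂ) (hφ : DifferentiableOn ℂ φ D) (hφi : Set.InjOn φ D)
    (hφD : φ '' D = {z : ℂ | 0 < z.im})
    (a b c d : ℂ) (ha : a ∈ frontier D) (hb : b ∈ frontier D) (hc : c ∈ frontier D)
    (hd : d ∈ frontier D)
    (hφc : ContinuousOn φ (closure D \ {d}))
    (hφd : Filter.Tendsto (fun z => ‖φ z‖) (nhdsWithin d D) Filter.atTop)
    (x : ℝ) (hx0 : 0 < x) (hx1 : x < 1)
    (hφa : φ a = 0) (hφb : φ b = x) (hφc1 : φ c = 1) :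
    Filter.Tendsto
      (fun ε : ℝ => sampleLaw (crossingEvent ε D
        {z | z ∈ frontier D ∧ z ≠ d ∧ (φ z).im = 0 ∧ 0 ≤ (φ z).re ∧ (φ z).re ≤ x}
        ({z | z ∈ frontier D ∧ z ≠ d ∧ (φ z).im = 0 ∧ 1 ≤ (φ z).re} ∪ {d})))
      (nhdsWithin 0 (Set.Ioi 0))
      (nhds (ENNReal.ofReal (crossingFormula x))) :=
  h ⟨D, hD, hDb, hDc, γ, hγ, hγp, hγi, hγD, φ, hφ, hφi, hφD, a, b, c, d, ha, hb, hc, hd, hφc, hφd,
    x, hx0, hx1, hφa, hφb, hφc1⟩

/-! ### the annealed observable -/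

/-- measurable good events for the domain `D` (failure probability at most `ε ^ 10`) -/
structure GoodFam (D : Dom) (G : ℝ → Set Sample) : Prop where
  meas : ∀ ε, MeasurableSet (G ε)
  prob : ∀ᶠ ε : ℝ in 𝓝[>] 0, sampleLaw (G ε)ᶜ ≤ ENNReal.ofReal (ε ^ (10 : ℝ))
  hm1 : ∀ᶠ ε : ℝ in 𝓝[>] 0, ∀ z : ℂ,
    AEStronglyMeasurable (fun ω => D.h ε ω z) (sampleLaw.restrict (G ε))
  hm2 : ∀ᶠ ε : ℝ in 𝓝[>] 0, AEStronglyMeasurable (fun p : Sample × ℂ => D.h ε p.1 p.2)
    ((sampleLaw.restrict (G ε)).prod volume)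

/-- the annealed observable on the good event -/
def HG (D : Dom) (G : ℝ → Set Sample) (ε : ℝ) (z : ℂ) : ℂ := ∫ ω in G ε, D.h ε ω z ∂sampleLaw

/-- the ball of radius `ρ` around `z` is in the body of the domain -/
def Room (D : Dom) (ρ : ℝ) (z : ℂ) : Prop :=
  Disjoint (Metric.closedBall z ρ) D.out ∧
    Metric.closedBall z ρ ⊆ Metric.closedBall D.c (D.L / 2)

theorem Room.mono {D : Dom} {ρ ρ' : ℝ} {z z' : ℂ} (h : Room D ρ z) (hz : dist z' z + ρ' ≤ ρ) :
    Room D ρ' z' := by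
  have h1 : Metric.closedBall z' ρ' ⊆ Metric.closedBall z ρ :=
    Metric.closedBall_subset_closedBall' (by linarith)
  exact ⟨h.1.mono_left h1, h1.trans h.2⟩

/-- `z` is joined, inside the disc of radius `3 L / 4`, to the axes of the three tentacles by a
connected set of points at distance at least `η` from the outside -/
def Linked (D : Dom) (η : ℝ) (z : ℂ) : Prop := ∃ C : Set ℂ, IsPreconnected C ∧ z ∈ C ∧
  C ⊆ Metric.closedBall D.c (3 / 4 * D.L) ∧
  (∀ k : ZMod 3, D.c + ((3 / 4 * D.L : ℝ) : ℂ) * D.q k ∈ C) ∧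
  ∀ y ∈ C, Disjoint (Metric.ball y η) D.out

theorem Linked.mono {D : Dom} {η η' : ℝ} {z : ℂ} (h : Linked D η z) (hη : η' ≤ η) :
    Linked D η' z := by
  obtain ⟨C, h1, h2, h3, h4, h5⟩ := h
  exact ⟨C, h1, h2, h3, h4, fun y hy => (h5 y hy).mono_left (Metric.ball_subset_ball hη)⟩

/-- a point near a linked point with room is linked -/
theorem Linked.move {D : Dom} {η ρ : ℝ} {z w : ℂ} (h : Linked D η z) (hR : Room D ρ z)
    (hη : 0 < η) (hw : dist w z + η ≤ ρ) : Linked D η w := by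
  obtain ⟨C, h1, h2, h3, h4, h5⟩ := h
  have hseg : ∀ y ∈ segment ℝ z w, dist y z ≤ dist w z := by
    intro y hy
    have h6 : y ∈ Metric.closedBall z (dist w z) :=
      (convex_closedBall z (dist w z)).segment_subset
        (Metric.mem_closedBall_self dist_nonneg) (Metric.mem_closedBall.2 le_rfl) hy
    exact h6
  have hL : 0 ≤ D.L := by
    have h6 : z ∈ Metric.closedBall D.c (D.L / 2) :=
      hR.2 (Metric.mem_closedBall_self (by linarith [dist_nonneg (x := w) (y := z)]))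
    have h7 : dist z D.c ≤ D.L / 2 := h6
    linarith [dist_nonneg (x := z) (y := D.c)]
  refine ⟨C ∪ segment ℝ z w, ?_, Or.inr (right_mem_segment ℝ z w), ?_, fun k => Or.inl (h4 k), ?_⟩
  · exact h1.union z h2 (left_mem_segment ℝ z w) (convex_segment z w).isPreconnected
  · refine Set.union_subset h3 fun y hy => ?_
    have h6 : y ∈ Metric.closedBall D.c (D.L / 2) :=
      hR.2 (Metric.mem_closedBall.2 (by linarith [hseg y hy]))
    exact Metric.closedBall_subset_closedBall (by linarith) h6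
  · rintro y (hy | hy)
    · exact h5 y hy
    · refine hR.1.mono_left fun u hu => ?_
      have h7 : dist u y < η := hu
      exact Metric.mem_closedBall.2 ((dist_triangle u y z).trans (by linarith [hseg y hy]))

theorem norm_omz (k : ZMod 3) : ‖omz k‖ = 1 := by
  rw [omz, norm_pow, Oscx63.norm_om, one_pow]

theorem norm_Fob_le {V : Type} (N : Net V) (a b : V) : ‖N.Fob a b‖ ≤ 3 := by
  classical
  unfold Net.Fob
  rw [norm_div, Complex.norm_natCast]
  have h0 : ∀ k : ZMod 3, ‖((N.cnt a b k + N.cnt b a k : ℕ) : ℂ) * omz k‖ ≤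
      (((N.hj a b).card + (N.hj b a).card : ℕ) : ℝ) := by
    intro k
    rw [norm_mul, norm_omz, mul_one, Complex.norm_natCast]
    exact_mod_cast add_le_add (Finset.card_filter_le _ _) (Finset.card_filter_le _ _)
  have h1 : ‖∑ k : ZMod 3, ((N.cnt a b k + N.cnt b a k : ℕ) : ℂ) * omz k‖ ≤
      3 * (((N.hj a b).card + (N.hj b a).card : ℕ) : ℝ) := by
    refine (norm_sum_le _ _).trans ((Finset.sum_le_sum fun k _ => h0 k).trans ?_)
    rw [Finset.sum_const, Finset.card_univ, ZMod.card, nsmul_eq_mul]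
    push_cast
    exact le_rfl
  rcases Nat.eq_zero_or_pos ((N.hj a b).card + (N.hj b a).card) with h2 | h2
  · rw [h2]
    simp
  · rw [div_le_iff₀ (by exact_mod_cast h2)]
    exact h1

theorem norm_F_le {V : Type} (N : Net V) (a b : V) : ‖N.F a b‖ ≤ 3 := by
  classical
  unfold Net.F
  split_ifs
  · rw [norm_omz]; norm_num
  · exact norm_Fob_le N a b

theorem norm_hval_le (N : Net ℂ) (z : ℂ) : ‖hval N z‖ ≤ 3 := by
  classical
  unfold hval
  split_ifs with h
  · rw [norm_div]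
    have h1 := norm_F_le N h.choose.1 h.choose.2.1
    have h2 := norm_F_le N h.choose.2.1 h.choose.2.2
    have h3 := norm_F_le N h.choose.2.2 h.choose.1
    have h4 := norm_add₃_le (a := N.F h.choose.1 h.choose.2.1) (b := N.F h.choose.2.1 h.choose.2.2)
      (c := N.F h.choose.2.2 h.choose.1)
    have h5 : ‖(3 : ℂ)‖ = 3 := by simp
    rw [h5, div_le_iff₀ (by norm_num)]
    linarith
  · simp

theorem norm_h_le (D : Dom) (ε : ℝ) (ω : Sample) (z : ℂ) : ‖D.h ε ω z‖ ≤ 3 := norm_hval_le _ _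

theorem norm_HG_le (D : Dom) (G : ℝ → Set Sample) (ε : ℝ) (z : ℂ) : ‖HG D G ε z‖ ≤ 3 := by
  unfold HG
  refine (norm_integral_le_of_norm_le_const (ae_of_all _ fun ω => norm_h_le D ε ω z)).trans ?_
  have h1 : (sampleLaw.restrict (G ε)).real univ ≤ 1 := by
    rw [measureReal_def, Measure.restrict_apply_univ]
    exact ENNReal.toReal_le_of_le_ofReal zero_le_one (by simpa using prob_le_one)
  nlinarith

theorem bm_HG {D : Dom} {G : ℝ → Set Sample} {ε : ℝ}
    (h : AEStronglyMeasurable (fun p : Sample × ℂ => D.h ε p.1 p.2)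
      ((sampleLaw.restrict (G ε)).prod volume)) : BM (HG D G ε) 3 :=
  ⟨h.prod_swap.integral_prod_right', fun z => norm_HG_le D G ε z⟩

/-! ### leaves -/

/-- **leaf GOOD** (M3 + M5); `Adm D δ` : admissible domains -/
def LGood (Adm : Dom → ℝ → Prop) : Prop := ∀ (D : Dom) (δ : ℝ), Adm D δ →
  ∃ G : ℝ → Set Sample, GoodFam D G

/-- **leaf EQ** (T2, T4, M4; from E3): equicontinuity with universal constants -/
def LEqui (Adm : Dom → ℝ → Prop) : Prop := ∀ ρ > 0, ∀ η > 0, ∃ s > 0, ∀ (D : Dom) (δ : ℝ),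
  Adm D δ → ∀ G : ℝ → Set Sample, GoodFam D G → ∀ m > 0, ∀ᶠ ε : ℝ in 𝓝[>] 0, ∀ z w : ℂ,
    Room D ρ z → Room D ρ w → Linked D m z → Linked D m w →
    dist z w < s → dist (HG D G ε z) (HG D G ε w) ≤ η

/-- **leaf MN** (B5, B6; from E3 and ZF): the annealed observable is asymptotically holomorphic or
antiholomorphic -/
def LMin (Adm : Dom → ℝ → Prop) : Prop := ∀ (D : Dom) (δ : ℝ), Adm D δ →
  ∀ G : ℝ → Set Sample, GoodFam D G →
  ∀ ρ > 0, ∀ m > 0, ∃ κ : ℝ, 0 < κ ∧ ∀ K : Set ℂ, IsCompact K →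
    (∀ z ∈ K, Room D ρ z ∧ Linked D m z) →
    Tendsto (fun ε : ℝ => min (∫ z in K, ‖dbar (moll (ε ^ κ) (HG D G ε)) z‖)
      (∫ z in K, ‖del (moll (ε ^ κ) (HG D G ε)) z‖)) (𝓝[>] 0) (𝓝 0)

/-- compact subsets of `D` are in the body of `Dm n` for large `n`, with some room `ρ` (the same for
all `n`), and joined to the marks with a margin `m n` -/
def RoomOK (D : Set ℂ) (Dm : ℕ → Dom) (m : ℕ → ℝ) : Prop := (∀ n, 0 < m n) ∧
  ∀ K, IsCompact K → K ⊆ D →
    ∃ ρ > 0, ∀ᶠ n in (atTop : Filter ℕ), ∀ z ∈ K, Room (Dm n) ρ z ∧ Linked (Dm n) (m n) z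

/-- boundary conditions and value near `b` (pointwise in `z`: `z` fixed, then `n` large, then
`ε → 0`) -/
structure Bdry (S : Dat) (b : ℂ) (H : ℕ × ℝ → ℂ → ℂ) (c : ℕ × ℝ → ℝ) : Prop where
  b1 : ∀ p ∈ frontier S.D, p ≠ S.d → (S.φ p).im = 0 → 0 < (S.φ p).re → (S.φ p).re < 1 →
    ALBP S.D lc H 1 (tau3 - 1) p
  b2 : ∀ p ∈ frontier S.D, p ≠ S.d → (S.φ p).im = 0 → 1 < (S.φ p).re →
    ALBP S.D lc H tau3 (tau3 ^ 2 - tau3) p
  b3 : ∀ p ∈ frontier S.D, p ≠ S.d → (S.φ p).im = 0 → (S.φ p).re < 0 →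
    ALBP S.D lc H (tau3 ^ 2) (1 - tau3 ^ 2) p
  val : ∀ η > 0, ∃ δ > 0, ∀ z ∈ S.D, dist z b < δ → ∀ᶠ i in lc,
    dist (H i z) (1 + (c i : ℂ) * (tau3 - 1)) ≤ η

/-- lower (`up = false`) or upper (`up = true`) comparison with the official probability -/
def Sand (S : Dat) (up : Bool) (c : ℕ × ℝ → ℝ) : Prop :=
  ∀ η > 0, ∀ᶠ i in lc, if up then S.P i.2 ≤ c i + η else c i - η ≤ S.P i.2

/-- reflection: exchanges `1` and `om`, fixes `om ^ 2` (used when the marks of the domain come out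
clockwise) -/
def tr (r : Bool) (w : ℂ) : ℂ := if r then om * (starRingEnd ℂ) w else w

/-- the observable of the approximating sequence; `rv n` : the marks of `Dm n` are reversed -/
def Hs (rv : ℕ → Bool) (Dm : ℕ → Dom) (G : ℕ → ℝ → Set Sample) (i : ℕ × ℝ) (z : ℂ) : ℂ :=
  tr (rv i.1) (HG (Dm i.1) (G i.1) i.2 z)

/-- **leaf DOM** (block D; from E3) -/
def LDom (Adm : Dom → ℝ → Prop) : Prop :=
  ∀ (S : Dat) (b : ℂ), b ∈ frontier S.D → b ≠ S.d → S.φ b = S.x → ∀ up : Bool,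
  ∃ (rv : ℕ → Bool) (Dm : ℕ → Dom) (δ m : ℕ → ℝ), (∀ n, Adm (Dm n) (δ n)) ∧
    RoomOK S.D Dm m ∧ ∀ G : ℕ → ℝ → Set Sample, (∀ n, GoodFam (Dm n) (G n)) →
      ∃ c : ℕ × ℝ → ℝ, Bdry S b (Hs rv Dm G) c ∧ Sand S up c

/-- the four leaves -/
structure Leaves (Adm : Dom → ℝ → Prop) : Prop where
  good : LGood Adm
  equi : LEqui Adm
  mn : LMin Adm
  dom : LDom Adm

/-! ### assembly -/

theorem norm_om : ‖om‖ = 1 := Oscx63.norm_om

theorem tr_dist (r : Bool) (w w' : ℂ) : dist (tr r w) (tr r w') = dist w w' := by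
  unfold tr
  cases r
  · rfl
  · simp only [if_true]
    rw [dist_eq_norm, ← mul_sub, ← map_sub, norm_mul, Complex.norm_conj, norm_om, one_mul,
      ← dist_eq_norm]

theorem norm_tr (r : Bool) (w : ℂ) : ‖tr r w‖ = ‖w‖ := by
  unfold tr
  cases r
  · rfl
  · simp only [if_true]
    rw [norm_mul, Complex.norm_conj, norm_om, one_mul]

theorem dbar_const_mul {f : ℂ → ℂ} {z : ℂ} (hf : DifferentiableAt ℝ f z) (a : ℂ) :
    dbar (fun z => a * f z) z = a * dbar f z := by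
  have h : HasFDerivAt (fun z => a * f z) (a • fderiv ℝ f z) z := hf.hasFDerivAt.const_mul a
  unfold dbar
  rw [h.fderiv]
  simp only [ContinuousLinearMap.smul_apply, smul_eq_mul]
  ring

theorem del_const_mul {f : ℂ → ℂ} {z : ℂ} (hf : DifferentiableAt ℝ f z) (a : ℂ) :
    del (fun z => a * f z) z = a * del f z := by
  have h : HasFDerivAt (fun z => a * f z) (a • fderiv ℝ f z) z := hf.hasFDerivAt.const_mul a
  unfold del
  rw [h.fderiv]
  simp only [ContinuousLinearMap.smul_apply, smul_eq_mul]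
  ring

theorem tr_contDiff (r : Bool) {f : ℂ → ℂ} (hf : ContDiff ℝ 1 f) :
    ContDiff ℝ 1 (fun z => tr r (f z)) := by
  unfold tr
  cases r
  · exact hf
  · exact contDiff_const.mul (contDiff_cj hf)

/-- the reflection exchanges `dbar` and `del` -/
theorem min_tr (r : Bool) {f : ℂ → ℂ} (hf : ContDiff ℝ 1 f) (K : Set ℂ) :
    min (∫ z in K, ‖dbar (fun z => tr r (f z)) z‖) (∫ z in K, ‖del (fun z => tr r (f z)) z‖) =
      min (∫ z in K, ‖dbar f z‖) (∫ z in K, ‖del f z‖) := by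
  cases r
  · rfl
  · have hd : ∀ z, DifferentiableAt ℝ (cj f) z := fun z =>
      ((contDiff_cj hf).differentiable (by norm_num)) z
    have e0 : (fun z => tr true (f z)) = fun z => om * cj f z := rfl
    rw [e0]
    have e1 : ∀ z, ‖dbar (fun z => om * cj f z) z‖ = ‖del f z‖ := by
      intro z
      rw [dbar_const_mul (hd z), norm_mul, norm_om, one_mul, norm_dbar_cj hf]
    have e2 : ∀ z, ‖del (fun z => om * cj f z) z‖ = ‖dbar f z‖ := by
      intro z
      rw [del_const_mul (hd z), norm_mul, norm_om, one_mul]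
      have h3 := norm_dbar_cj (contDiff_cj hf) z
      have h4 : cj (cj f) = f := by
        funext w; simp [cj]
      rw [h4] at h3
      exact h3.symm
    simp_rw [e1, e2]
    exact min_comm _ _

/-- the smooth approximation -/
def gG (H : ℕ × ℝ → ℂ → ℂ) (κ : ℕ → ℝ) (i : ℕ × ℝ) : ℂ → ℂ :=
  open Classical in
  if BM (H i) 3 ∧ 0 < i.2 ^ κ i.1 then moll (i.2 ^ κ i.1) (H i) else fun _ => 0

theorem gG_smooth (H : ℕ × ℝ → ℂ → ℂ) (κ : ℕ → ℝ) (i : ℕ × ℝ) : ContDiff ℝ 1 (gG H κ i) := by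
  unfold gG
  split_ifs with h
  · exact moll_contDiff h.1 h.2 (n := 1)
  · exact contDiff_const

theorem endP_of {Adm : Dom → ℝ → Prop} (hE : LEqui Adm) (hM : LMin Adm) (hG : LGood Adm)
    (S : Dat) (b : ℂ) {rv : ℕ → Bool} {Dm : ℕ → Dom} {δ m : ℕ → ℝ}
    (hOK : ∀ n, Adm (Dm n) (δ n)) (hR : RoomOK S.D Dm m) {P : (ℕ × ℝ → ℝ) → Prop}
    (h : ∀ G : ℕ → ℝ → Set Sample, (∀ n, GoodFam (Dm n) (G n)) →
      ∃ c : ℕ × ℝ → ℝ, Bdry S b (Hs rv Dm G) c ∧ P c) :
    ∃ (H g : ℕ × ℝ → ℂ → ℂ) (c : ℕ × ℝ → ℝ), EndP S.D S.φ S.d b lc H g c ∧ P c := by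
  choose G hGf using fun n => hG (Dm n) (δ n) (hOK n)
  obtain ⟨c, hc, hP⟩ := h G hGf
  have hρ : ∀ n : ℕ, (0 : ℝ) < 1 / ((n : ℝ) + 1) := fun n => by positivity
  obtain ⟨hm0, hR⟩ := hR
  choose κ hκ0 hκ using fun n => hM (Dm n) (δ n) (hOK n) (G n) (hGf n) (1 / ((n : ℝ) + 1)) (hρ n)
    (m n) (hm0 n)
  set H : ℕ × ℝ → ℂ → ℂ := fun i => HG (Dm i.1) (G i.1) i.2 with hH
  have hbm : ∀ n, ∀ᶠ ε in 𝓝[>] (0 : ℝ), BM (H (n, ε)) 3 := by
    intro n
    filter_upwards [(hGf n).hm2] with ε hε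
    exact bm_HG hε
  have hpos : ∀ᶠ ε in 𝓝[>] (0 : ℝ), 0 < ε := eventually_mem_nhdsWithin
  have hg : ∀ n, ∀ᶠ ε in 𝓝[>] (0 : ℝ), gG H κ (n, ε) = moll (ε ^ κ n) (H (n, ε)) := by
    intro n
    filter_upwards [hbm n, hpos] with ε h1 h2
    unfold gG
    rw [if_pos ⟨h1, Real.rpow_pos_of_pos h2 _⟩]
  refine ⟨Hs rv Dm G, fun i z => tr (rv i.1) (gG H κ i z), c, ?_, hP⟩
  refine ⟨⟨3, fun i z _ => ?_⟩, ?_, fun i => tr_contDiff _ (gG_smooth H κ i), ?_, ?_, hc.b1, hc.b2,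
    hc.b3, hc.val⟩
  · rw [Hs, norm_tr]; exact norm_HG_le _ _ _ _
  · -- equicontinuity
    intro K hK hKD η hη
    obtain ⟨ρ, hρ0, hρ1⟩ := hR K hK hKD
    obtain ⟨s, hs, h1⟩ := hE ρ hρ0 η hη
    refine ⟨s, hs, ?_⟩
    rw [ev_lc]
    filter_upwards [hρ1] with n hn
    filter_upwards [h1 (Dm n) (δ n) (hOK n) (G n) (hGf n) (m n) (hm0 n)] with ε hε z hz w hw hzw
    rw [Hs, Hs, tr_dist]
    exact hε z w (hn z hz).1 (hn w hw).1 (hn z hz).2 (hn w hw).2 hzw
  · -- the mollification is close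
    intro K hK hKD η hη
    obtain ⟨ρ, hρ0, hρ1⟩ := hR K hK hKD
    obtain ⟨s, hs, h1⟩ := hE (ρ / 2) (by linarith) η hη
    rw [ev_lc]
    filter_upwards [hρ1] with n hn
    have ht : Tendsto (fun ε : ℝ => ε ^ κ n) (𝓝[>] 0) (𝓝 0) := by
      have h2 : Tendsto (fun ε : ℝ => ε ^ κ n) (𝓝 0) (𝓝 ((0 : ℝ) ^ κ n)) :=
        (Real.continuousAt_rpow_const 0 (κ n) (Or.inr (hκ0 n).le)).tendsto
      rw [Real.zero_rpow (hκ0 n).ne'] at h2
      exact h2.mono_left nhdsWithin_le_nhds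
    have hm : (0 : ℝ) < min s (ρ / 2) := lt_min hs (by linarith)
    have hm' : 0 < min (m n) (ρ / 2) := lt_min (hm0 n) (by linarith)
    filter_upwards [h1 (Dm n) (δ n) (hOK n) (G n) (hGf n) _ hm', hbm n, hg n, hpos,
      ht.eventually (gt_mem_nhds hm)] with ε h2 h3 h4 h5 h6 z hz
    have h5' : 0 < ε ^ κ n := Real.rpow_pos_of_pos h5 _
    rw [Hs, tr_dist, h4, dist_eq_norm]
    refine moll_close h3 h5' fun w hw => ?_
    rw [← dist_eq_norm]
    have hwd : dist (z + w) z = ‖w‖ := by rw [dist_eq_norm, add_sub_cancel_left]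
    have hl : Linked (Dm n) (min (m n) (ρ / 2)) z := (hn z hz).2.mono (min_le_left _ _)
    have h7 : ‖w‖ < ρ / 2 := hw.trans (lt_min_iff.1 h6).2
    refine h2 (z + w) z ((hn z hz).1.mono ?_) ((hn z hz).1.mono ?_)
      (hl.move (hn z hz).1 hm' ?_) hl ?_
    · rw [hwd]; linarith
    · rw [dist_self]; linarith
    · rw [hwd]
      have := min_le_right (m n) (ρ / 2)
      linarith
    · rw [hwd]; exact hw.trans (lt_min_iff.1 h6).1
  · -- the minimum
    intro K hK hKD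
    obtain ⟨ρ, hρ0, hρ1⟩ := hR K hK hKD
    simp only [min_tr _ (gG_smooth H κ _)]
    refine tendsto_lc ?_
    have hn0 : ∀ᶠ n : ℕ in atTop, 1 / ((n : ℝ) + 1) < ρ :=
      tendsto_one_div_add_atTop_nhds_zero_nat.eventually (gt_mem_nhds hρ0)
    filter_upwards [hρ1, hn0] with n hn hn1
    have h1 := hκ n K hK fun z hz =>
      ⟨(hn z hz).1.mono (by rw [dist_self]; linarith), (hn z hz).2⟩
    refine h1.congr' ?_
    filter_upwards [hg n] with ε h2
    rw [h2]

/-- **the spine** -/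
theorem final {Adm : Dom → ℝ → Prop} (L : Leaves Adm) : Body := by
  intro S
  obtain ⟨b, hb, hbd, hφb⟩ := S.exists_b
  obtain ⟨v1, D1, d1, m1, ok1, r1, e1⟩ := L.dom S b hb hbd hφb false
  obtain ⟨v2, D2, d2, m2, ok2, r2, e2⟩ := L.dom S b hb hbd hφb true
  obtain ⟨H, g, c, h, hc⟩ := endP_of L.equi L.mn L.good S b ok1 r1 e1
  obtain ⟨H', g', c', h', hc'⟩ := endP_of L.equi L.mn L.good S b ok2 r2 e2
  exact top S hb hbd hφb h h' (fun η hη => by simpa using hc η hη)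
    (fun η hη => by simpa using hc' η hη)

end Crest.Agent.R143.Spinex422
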