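import Crest.Agent.R143.B0D_346
import Crest.Agent.R143.PP1_831

/-!
# R143, block Y (= B5): literal statements (helper831)

Legs and clusters.  `w` = set of white sites.
* `Cl G w r` : white cluster of the site `r`.
* `SS N k w t` : there is a chain of triangles from `t` to the triangle of the mark `ex k`, through
  live edges, no triangle having a site in the white cluster of `(ex (k+1)).2` (the arc between the
  marks `k+1` and `k+2` is white, the other two arcs are black).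
* `Y3` : exact identity  P(leg of the half edge `e` ends at `ex k`) = P(`SS`) on the network with
  `e` killed.
* `Y3s` : the sum over `k` is one.
* `Y4` : deletion of an inner site.
* `ARC` : the arcs of a domain (`arcN`, `innN` : combinatorial arcs and inner sites).
* `OA` : one-arm bound.
-/

set_option autoImplicit false

noncomputable section

open scoped Classical

namespace Crest.Agent.R143.Y0x831

open Crest.ProbabilityR.Voronoi
open Crest.Agent.R143.B0x346 Crest.Agent.R143.B0Dx346 Crest.Agent.R143.PP1x831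

/-! ### abstract networks -/

section comb

variable {V : Type}

/-- neighbours -/
def Nb (G : Trg V) (a b : V) : Prop := (a, b) ∈ G.E

/-- white cluster of `r` -/
def Cl (G : Trg V) (w : Set V) (r : V) : Set V :=
  {v | r ∈ w ∧ Relation.ReflTransGen (fun x y => Nb G x y ∧ y ∈ w) r v}

/-- no site of `t` is in `W` -/
def Free (W : Set V) (t : V × V × V) : Prop := t.1 ∉ W ∧ t.2.1 ∉ W ∧ t.2.2 ∉ W

/-- one step of a chain of `W`-free triangles: rotate the triangle or cross its side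
`(t.1, t.2.1)`, which must be live -/
def CStep (G : Trg V) (kl : Set (V × V)) (W : Set V) (s s' : V × V × V) : Prop :=
  s' ∈ G.T ∧ Free W s' ∧ (s' = (s.2.1, s.2.2, s.1) ∨
    (s'.1 = s.2.1 ∧ s'.2.1 = s.1 ∧ (s.1, s.2.1) ∉ kl))

/-- the event `S_k` : `t` is joined to the mark `ex k` by triangles free of the white cluster of
the arc between `ex (k+1)` and `ex (k+2)` -/
def SS (N : Net V) (k : ZMod 3) (w : Set V) (t : V × V × V) : Prop :=
  t ∈ N.T ∧ Free (Cl N.toTrg w (N.ex (k + 1)).2) t ∧ ∃ t' : V × V × V, (t'.1, t'.2.1) = N.ex k ∧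
    Relation.ReflTransGen (CStep N.toTrg N.kl (Cl N.toTrg w (N.ex (k + 1)).2)) t t'

/-- kill the edge `{a, b}` -/
def killE (N : Net V) (a b : V) : Net V where
  T := N.T
  rot := N.rot
  uniq := N.uniq
  ne := N.ne
  kl := N.kl ∪ {(a, b), (b, a)}
  klsym := by
    intro x y h
    rcases h with h | h
    · exact Or.inl (N.klsym x y h)
    · right
      simp only [Set.mem_insert_iff, Prod.mk.injEq, Set.mem_singleton_iff] at h ⊢
      tauto
  ex := N.ex

/-- admissible sets of white sites for the index `k` : constant along killed edges and along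
boundary edges except the marks `ex (k+1)`, `ex (k+2)`, where the colour changes; the arc between
them is white -/
structure Wh (N : Net V) (k : ZMod 3) (w : Set V) : Prop where
  kill : ∀ a b : V, (a, b) ∈ N.toTrg.E → (a, b) ∈ N.kl → (a, b) ≠ N.ex (k + 1) →
    (a, b) ≠ N.ex (k + 2) → (b, a) ≠ N.ex (k + 1) → (b, a) ≠ N.ex (k + 2) → (a ∈ w ↔ b ∈ w)
  hull : ∀ a b c : V, (a, b, c) ∈ N.T → (∀ d, (b, a, d) ∉ N.T) → (a, b) ≠ N.ex (k + 1) →
    (a, b) ≠ N.ex (k + 2) → (a ∈ w ↔ b ∈ w)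
  m1 : (N.ex (k + 1)).1 ∉ w ∧ (N.ex (k + 1)).2 ∈ w
  m2 : (N.ex (k + 2)).1 ∈ w ∧ (N.ex (k + 2)).2 ∉ w

end comb

/-- the finite set of admissible sets of white sites -/
def whs (N : Net ℂ) (S : Finset ℂ) (k : ZMod 3) : Finset (Finset ℂ) :=
  S.powerset.filter fun w => Wh N k (w : Set ℂ)

/-- **leaf Y3** (from J3 and J7): the leg of the half edge on the left side of `(a, b)` -/
def Y3 : Prop := ∀ (S : Finset ℂ) (N : Net ℂ), HNet S N → ∀ a b c : ℂ, (a, b, c) ∈ delT S →
  (∃ d, (b, a, d) ∈ delT S) → (a, b) ∉ N.kl → (a, b) ∉ N.exS → (b, a) ∉ N.exS → ∀ k : ZMod 3,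
  (N.cnt a b k : ℝ) / ((N.hj a b).card : ℝ) =
    (((whs (killE N a b) S k).filter fun w => SS (killE N a b) k (w : Set ℂ) (a, b, c)).card : ℝ) /
      ((whs (killE N a b) S k).card : ℝ)

/-- **leaf Y3s** (from J3): the leg of the half edge ends at a mark -/
def Y3s : Prop := ∀ (S : Finset ℂ) (N : Net ℂ), HNet S N → ∀ a b c : ℂ, (a, b, c) ∈ delT S →
  (∃ d, (b, a, d) ∈ delT S) → (a, b) ∉ N.kl → (a, b) ∉ N.exS → (b, a) ∉ N.exS →
  (∑ k : ZMod 3, N.cnt a b k) = (N.hj a b).card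


/-- **leaf Y4**: deletion of an inner site `u` (white before the deletion), `e = {a, b}` killed -/
def Y4 : Prop := ∀ (D : Dom) (S : Finset ℂ) (u a b c : ℂ), GP (S : Set ℂ) → u ∈ S →
  (∀ x y : ℂ, hullE S x y → x ≠ u ∧ y ≠ u) → voronoiCell (S : Set ℂ) u ∩ D.out = ∅ →
  (a, b, c) ∈ delT S → a ≠ u → b ≠ u → c ≠ u →
  ∀ (k : ZMod 3) (w : Set ℂ) (t : ℂ × ℂ × ℂ), t ∈ delT S → t.1 ≠ u → t.2.1 ≠ u → t.2.2 ≠ u →
    u ∈ w → SS (killE (D.netS S) a b) k w t →
      t ∈ delT (S.erase u) ∧ (D.netS (S.erase u)).ex = (D.netS S).ex ∧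
      SS (killE (D.netS (S.erase u)) a b) k (w \ {u}) t

/-! ### arcs -/

/-- the edge `{x, y}` is killed or a boundary edge different from the marks -/
def ArcRel {V : Type} (N : Net V) (x y : V) : Prop :=
  (x, y) ∈ N.toTrg.E ∧ ((x, y) ∈ N.kl ∨ ((∀ d, (y, x, d) ∉ N.T) ∧ (x, y) ∉ N.exS) ∨
    ((∀ d, (x, y, d) ∉ N.T) ∧ (y, x) ∉ N.exS))

/-- the sites of the arc between the marks `ex k` and `ex (k+1)` -/
def arcN {V : Type} (N : Net V) (k : ZMod 3) : Set V :=
  {v | Relation.ReflTransGen (ArcRel N) (N.ex k).2 v}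

/-- inner (= free) sites -/
def innN (N : Net ℂ) (S : Finset ℂ) : Finset ℂ := S.filter fun v => ∀ k, v ∉ arcN N k

/-- the structure of the arcs of the network of a domain -/
structure ArcOK (N : Net ℂ) (S : Finset ℂ) : Prop where
  disj : ∀ i j : ZMod 3, i ≠ j → Disjoint (arcN N i) (arcN N j)
  mark : ∀ k : ZMod 3, (N.ex k).1 ∈ arcN N (k - 1)
  inn : ∀ v ∈ innN N S, ∀ x : ℂ, ¬ ArcRel N v x

/-- white sites for the index `k` when the white inner sites are `β` -/
def wK (N : Net ℂ) (k : ZMod 3) (β : Set ℂ) : Set ℂ := arcN N (k + 1) ∪ β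

/-- **leaf ARC** (block D) -/
def ARC : Prop := ∀ (D : Dom) (δ : ℝ), D.OK δ → ∃ d0 : ℝ, 0 < d0 ∧
  ∀ (ε d M : ℝ) (ω : Sample), 0 < ε → 0 < d → d ≤ d0 → Env ε d M D.c D.L ω →
    HNet (D.sites ε ω) (D.netS (D.sites ε ω)) ∧ ArcOK (D.netS (D.sites ε ω)) (D.sites ε ω) ∧
    ∀ v ∈ D.sites ε ω, voronoiCell (D.sites ε ω : Set ℂ) v ∩ D.out = ∅ →
      (∀ x y : ℂ, hullE (D.sites ε ω) x y → x ≠ v ∧ y ≠ v) →
      v ∈ innN (D.netS (D.sites ε ω)) (D.sites ε ω)

/-- the good environments -/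
structure Good (D : Dom) (ε C K a C4 : ℝ) (ω : Sample) : Prop where
  env : Env ε (rad C ε) (K * Real.log (1 / ε)) D.c D.L ω
  diam : ∀ z ∈ Metric.closedBall D.c D.L, ∀ ρ : ℝ, ε * Real.log (1 / ε) ^ a ≤ ρ → ρ ≤ 1 →
    diamSum (points ε ω) (Metric.ball z ρ) ≤ ENNReal.ofReal (C4 * ρ ^ 2)

/-- `v` touches `W` -/
def Tch (G : Trg ℂ) (W : Set ℂ) (v : ℂ) : Prop := v ∈ W ∨ ∃ x, Nb G v x ∧ x ∈ W


end Crest.Agent.R143.Y0x831
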