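import Crest.Agent.R143.Asm_336
import Crest.Agent.R143.B1b_796
import Mathlib
import Crest.Agent.R143.Spine_422
import Crest.Agent.R143.Y0_831
import Crest.Agent.R143.Sec0_697
import Crest.Agent.R143.Ad2_422

-- ▼ part R143/B6a_654
section

/-!
# Row 143 (S0194), B6, measure side, part a (helper654)

* `Sb_lip`, `Db_lip` : Lipschitz dependence of the mollified quantities on the centre
* `Sb_aesm_at`, `Db_aesm_at` : measurability in `ω` at a fixed centre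
-/

set_option autoImplicit false

noncomputable section

namespace Crest.Agent.R143.B6x654

open Complex Set Filter Topology MeasureTheory
open Crest.Agent.R143.BC0x336 Crest.Agent.R143.EndBx336 Crest.Agent.R143.Mollx887
  Crest.Agent.R143.Asmx336
open scoped ENNReal

/-! ### the kernel `kb` is Lipschitz -/

theorem kb_one (z : ℂ) : kb 1 z = ((-(deriv rho (‖z‖ ^ 2)) : ℝ) : ℂ) * z := by
  simp [kb]

theorem kb_scale {r : ℝ} (hr : 0 < r) (z : ℂ) : kb r z = ((r ^ 3)⁻¹ : ℝ) * kb 1 ((r⁻¹ : ℝ) * z) := by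
  rw [kb_one, kb]
  have h1 : ‖((r⁻¹ : ℝ) : ℂ) * z‖ ^ 2 = ‖z‖ ^ 2 / r ^ 2 := by
    rw [norm_mul, Complex.norm_real, Real.norm_eq_abs, abs_of_pos (inv_pos.2 hr)]
    field_simp
  rw [h1]
  have hr' : (r : ℂ) ≠ 0 := by exact_mod_cast hr.ne'
  push_cast
  field_simp

theorem deriv_rho_contDiff : ContDiff ℝ (⊤ : ℕ∞) (deriv rho) := by
  have h := rho_contDiff (n := ⊤)
  exact (contDiff_infty_iff_deriv.1 h).2

theorem kb_one_contDiff : ContDiff ℝ 1 (kb 1) := by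
  have h0 : kb 1 = fun z : ℂ => ((-(deriv rho (‖z‖ ^ 2)) : ℝ) : ℂ) * z := by
    funext z; exact kb_one z
  rw [h0]
  have h1 : ContDiff ℝ 1 (fun z : ℂ => ‖z‖ ^ 2) := contDiff_norm_sq ℝ
  have h2 : ContDiff ℝ 1 (fun z : ℂ => -(deriv rho (‖z‖ ^ 2))) :=
    ((deriv_rho_contDiff.of_le (by exact_mod_cast le_top)).comp h1).neg
  exact (Complex.ofRealCLM.contDiff.comp h2).mul contDiff_id

theorem exists_lip : ∃ C : ℝ, 0 ≤ C ∧ ∀ x y : ℂ, ‖kb 1 x - kb 1 y‖ ≤ C * ‖x - y‖ := by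
  obtain ⟨C, hC⟩ := kb_one_contDiff.lipschitzWith_of_hasCompactSupport
    (kb_compact one_pos) (by norm_num)
  refine ⟨C, C.2, fun x y => ?_⟩
  have := hC.dist_le_mul x y
  rwa [dist_eq_norm, dist_eq_norm] at this

/-- the Lipschitz constant of the kernel -/
def Lk : ℝ := exists_lip.choose

theorem Lk_nonneg : 0 ≤ Lk := exists_lip.choose_spec.1

theorem kb_one_lip (x y : ℂ) : ‖kb 1 x - kb 1 y‖ ≤ Lk * ‖x - y‖ := exists_lip.choose_spec.2 x y

theorem kb_lip {r : ℝ} (hr : 0 < r) (x y : ℂ) : ‖kb r x - kb r y‖ ≤ Lk / r ^ 4 * ‖x - y‖ := by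
  rw [kb_scale hr, kb_scale hr, ← mul_sub, norm_mul, Complex.norm_real, Real.norm_eq_abs,
    abs_of_pos (by positivity)]
  have h1 := kb_one_lip ((r⁻¹ : ℝ) * x) ((r⁻¹ : ℝ) * y)
  rw [← mul_sub, norm_mul, Complex.norm_real, Real.norm_eq_abs, abs_of_pos (inv_pos.2 hr)] at h1
  calc (r ^ 3)⁻¹ * ‖kb 1 ((r⁻¹ : ℝ) * x) - kb 1 ((r⁻¹ : ℝ) * y)‖
      ≤ (r ^ 3)⁻¹ * (Lk * (r⁻¹ * ‖x - y‖)) := by gcongr
    _ = Lk / r ^ 4 * ‖x - y‖ := by field_simp

/-- the constant in `Sb_lip` -/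
def CL : ℝ := 2 * Real.pi * Lk

theorem CL_nonneg : 0 ≤ CL := by
  have := Lk_nonneg
  have := Real.pi_pos
  unfold CL
  positivity

theorem Sb_shift (r : ℝ) (h : ℂ → ℂ) (z₀ : ℂ) : Sb r h z₀ = ∫ w, kb r (w - z₀) * h w := by
  have h1 := integral_add_left_eq_self (μ := (volume : Measure ℂ))
    (fun t => kb r (t - z₀) * h t) z₀
  simp_rw [add_sub_cancel_left] at h1
  rw [Sb, h1]

theorem Sb_shift_int {h : ℂ → ℂ} {M : ℝ} (hh : BM h M) {r : ℝ} (hr : 0 < r) (z₀ : ℂ) :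
    Integrable (fun w => kb r (w - z₀) * h w) := by
  have h1 := hh.int_kb hr z₀
  have h2 := h1.comp_sub_right z₀
  refine h2.congr (ae_of_all _ fun w => ?_)
  simp

theorem Sb_lip {h : ℂ → ℂ} {M : ℝ} (hh : BM h M) {r : ℝ} (hr : 0 < r) (z z' : ℂ) :
    ‖Sb r h z - Sb r h z'‖ ≤ CL * M / r ^ 2 * ‖z - z'‖ := by
  have hM : 0 ≤ M := (norm_nonneg _).trans (hh.bd 0)
  rw [Sb_shift, Sb_shift, ← integral_sub (Sb_shift_int hh hr z) (Sb_shift_int hh hr z')]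
  set U : Set ℂ := Metric.closedBall z r ∪ Metric.closedBall z' r with hU
  have hzero : ∀ w ∉ U, kb r (w - z) * h w - kb r (w - z') * h w = 0 := by
    intro w hw
    rw [hU, mem_union, not_or, Metric.mem_closedBall, Metric.mem_closedBall, not_le, not_le,
      dist_eq_norm, dist_eq_norm] at hw
    rw [kb_zero hr hw.1.le, kb_zero hr hw.2.le]
    simp
  rw [← setIntegral_eq_integral_of_forall_compl_eq_zero hzero]
  have hvol : volume U ≤ ENNReal.ofReal (2 * Real.pi * r ^ 2) := by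
    refine (measure_union_le _ _).trans ?_
    rw [Complex.volume_closedBall, Complex.volume_closedBall]
    have e1 : (ENNReal.ofReal r ^ 2 * (NNReal.pi : ℝ≥0∞)) = ENNReal.ofReal (Real.pi * r ^ 2) := by
      rw [mul_comm (Real.pi), ENNReal.ofReal_mul (by positivity), ENNReal.ofReal_pow hr.le]
      congr 1
      rw [← NNReal.coe_real_pi, ENNReal.ofReal_coe_nnreal]
    rw [e1, ← ENNReal.ofReal_add (by positivity) (by positivity)]
    apply ENNReal.ofReal_le_ofReal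
    linarith
  have hfin : volume U < ⊤ := hvol.trans_lt ENNReal.ofReal_lt_top
  have hb : ∀ w ∈ U, ‖kb r (w - z) * h w - kb r (w - z') * h w‖ ≤ Lk / r ^ 4 * ‖z - z'‖ * M := by
    intro w _
    rw [← sub_mul, norm_mul]
    have h1 := kb_lip hr (w - z) (w - z')
    have e : w - z - (w - z') = -(z - z') := by ring
    rw [e, norm_neg] at h1
    exact mul_le_mul h1 (hh.bd w) (norm_nonneg _) (by have := Lk_nonneg; positivity)
  have h2 := norm_setIntegral_le_of_norm_le_const hfin hb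
  refine h2.trans ?_
  have h3 : volume.real U ≤ 2 * Real.pi * r ^ 2 := by
    refine ENNReal.toReal_le_of_le_ofReal (by positivity) hvol
  have hL := Lk_nonneg
  calc Lk / r ^ 4 * ‖z - z'‖ * M * volume.real U
      ≤ Lk / r ^ 4 * ‖z - z'‖ * M * (2 * Real.pi * r ^ 2) := by gcongr
    _ = CL * M / r ^ 2 * ‖z - z'‖ := by
        unfold CL
        field_simp

theorem Db_lip {h : ℂ → ℂ} {M : ℝ} (hh : BM h M) {r : ℝ} (hr : 0 < r) (z z' : ℂ) :
    ‖Db r h z - Db r h z'‖ ≤ CL * M / r ^ 2 * ‖z - z'‖ := by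
  have h1 := Sb_lip (BM.cj hh) hr z z'
  rwa [Db, Db, ← map_sub, Complex.norm_conj]

theorem Sb_le {h : ℂ → ℂ} {M : ℝ} (hh : BM h M) {r : ℝ} (hr : 0 < r) (z : ℂ) :
    ‖Sb r h z‖ ≤ CS / r * M :=
  Sb_bound hh hr (c := 0) fun w _ => by rw [sub_zero]; exact hh.bd _

theorem Db_le {h : ℂ → ℂ} {M : ℝ} (hh : BM h M) {r : ℝ} (hr : 0 < r) (z : ℂ) :
    ‖Db r h z‖ ≤ CS / r * M :=
  Db_bound hh hr (c := 0) fun w _ => by rw [sub_zero]; exact hh.bd _

/-! ### measurability at a fixed centre -/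

variable {Ωs : Type*} [MeasurableSpace Ωs]




end Crest.Agent.R143.B6x654
end
end

-- ▼ part R143/B6a_903
section

/-!
# Row 143 (S0194), part B, B6: the alternative holomorphic / antiholomorphic at one point
(helper903)

`alt_core` : three networks `x`, `y`, `y₁` (`y₁` = `y` turned by 90 degrees) whose spin one
amplitudes are proportional up to the relative error `η` (`q ≈ λ q₀`, `q₁ ≈ μ q₀`) near a point.
`Sx, Sy, S1` (resp. `Dx, Dy, D1`) are the mollified `∂/∂z̄` (resp. `∂/∂z`) of the observables at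
this point; they are linear in the amplitudes. `s`, `d` are ANY two numbers (the expectations of
`Sy`, `Dy`); if `|s| ≤ |d|` then `Sx` is small, if `|d| ≤ |s|` then `Dx` is small.
The error made in the transport `y₁ ↔ y` is controlled by the energy of `x`.
-/

set_option autoImplicit false

namespace Crest.Agent.R143.B6ax903

open Complex

variable {ι : Type*}

/-- `‖μ - ρ‖ + ‖μ + ρ‖ ≥ 1 + ‖μ‖` for `‖ρ‖ = 1` -/
theorem one_add_le (mu rho : ℂ) (h : ‖rho‖ = 1) : 1 + ‖mu‖ ≤ ‖mu - rho‖ + ‖mu + rho‖ := by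
  have h1 : ‖(2 : ℂ) * mu‖ ≤ ‖mu - rho‖ + ‖mu + rho‖ := by
    have : (2 : ℂ) * mu = (mu - rho) + (mu + rho) := by ring
    rw [this]; exact norm_add_le _ _
  have h2 : ‖(2 : ℂ) * rho‖ ≤ ‖mu - rho‖ + ‖mu + rho‖ := by
    have : (2 : ℂ) * rho = (mu + rho) - (mu - rho) := by ring
    rw [this]
    refine (norm_sub_le _ _).trans (le_of_eq (add_comm _ _))
  rw [norm_mul, Complex.norm_ofNat] at h1 h2
  rw [h] at h2
  linarith

/-- the deterministic minimum is bounded by the fluctuations and the transport error -/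
theorem min_bound {S0 S1 D0 D1 s d mu rho : ℂ} {A E : ℝ} (hrho : ‖rho‖ = 1)
    (hS : ‖S1 - mu * S0‖ ≤ ‖mu‖ * A + (1 + ‖mu‖) * E)
    (hD : ‖D1 - mu * D0‖ ≤ ‖mu‖ * A + (1 + ‖mu‖) * E) (hA : 0 ≤ A) :
    min ‖s‖ ‖d‖ ≤ ‖S0 - s‖ + ‖S1 - rho * s‖ + ‖D0 - d‖ + ‖D1 + rho * d‖ + 2 * A + 2 * E := by
  set m := min ‖s‖ ‖d‖ with hm
  have hm0 : 0 ≤ m := le_min (norm_nonneg _) (norm_nonneg _)
  set c := ‖S0 - s‖ + ‖S1 - rho * s‖ + ‖D0 - d‖ + ‖D1 + rho * d‖ with hc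
  have n1 := norm_nonneg (S0 - s)
  have n2 := norm_nonneg (S1 - rho * s)
  have n3 := norm_nonneg (D0 - d)
  have n4 := norm_nonneg (D1 + rho * d)
  have nm := norm_nonneg mu
  have e1 : ‖s‖ * ‖mu - rho‖ ≤ ‖mu‖ * ‖S0 - s‖ + ‖S1 - rho * s‖ + (‖mu‖ * A + (1 + ‖mu‖) * E) := by
    rw [← norm_mul]
    have : s * (mu - rho) = -(mu * (S0 - s)) + (S1 - rho * s) - (S1 - mu * S0) := by ring
    rw [this]
    refine (norm_sub_le _ _).trans (add_le_add ((norm_add_le _ _).trans ?_) hS)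
    rw [norm_neg, norm_mul]
  have e2 : ‖d‖ * ‖mu + rho‖ ≤ ‖mu‖ * ‖D0 - d‖ + ‖D1 + rho * d‖ + (‖mu‖ * A + (1 + ‖mu‖) * E) := by
    rw [← norm_mul]
    have : d * (mu + rho) = -(mu * (D0 - d)) + (D1 + rho * d) - (D1 - mu * D0) := by ring
    rw [this]
    refine (norm_sub_le _ _).trans (add_le_add ((norm_add_le _ _).trans ?_) hD)
    rw [norm_neg, norm_mul]
  have e3 : m * (1 + ‖mu‖) ≤ (c + 2 * A + 2 * E) * (1 + ‖mu‖) := by
    have a1 : m * ‖mu - rho‖ ≤ ‖s‖ * ‖mu - rho‖ :=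
      mul_le_mul_of_nonneg_right (min_le_left _ _) (norm_nonneg _)
    have a2 : m * ‖mu + rho‖ ≤ ‖d‖ * ‖mu + rho‖ :=
      mul_le_mul_of_nonneg_right (min_le_right _ _) (norm_nonneg _)
    have a3 : m * (1 + ‖mu‖) ≤ m * (‖mu - rho‖ + ‖mu + rho‖) :=
      mul_le_mul_of_nonneg_left (one_add_le mu rho hrho) hm0
    have a4 : (c + 2 * A + 2 * E) * (1 + ‖mu‖) =
      c + ‖mu‖ * c + 2 * A + 2 * (‖mu‖ * A) + 2 * ((1 + ‖mu‖) * E) := by ring
    have a5 : ‖mu‖ * c = ‖mu‖ * ‖S0 - s‖ + ‖mu‖ * ‖S1 - rho * s‖ + ‖mu‖ * ‖D0 - d‖ +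
        ‖mu‖ * ‖D1 + rho * d‖ := by rw [hc]; ring
    have a6 : 0 ≤ ‖mu‖ * ‖S1 - rho * s‖ := mul_nonneg nm n2
    have a7 : 0 ≤ ‖mu‖ * ‖D1 + rho * d‖ := mul_nonneg nm n4
    have a8 : ‖S1 - rho * s‖ + ‖D1 + rho * d‖ ≤ c := by rw [hc]; linarith
    rw [a4, a5]
    have a9 : m * (‖mu - rho‖ + ‖mu + rho‖) = m * ‖mu - rho‖ + m * ‖mu + rho‖ := by ring
    linarith
  exact le_of_mul_le_mul_right e3 (by linarith)

/-- the bound of one of the two operators -/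
theorem one_side {X0 X x lam : ℂ} {m c A Ax η Λ E : ℝ} (hη0 : 0 ≤ η) (hη1 : η ≤ 1 / 2)
    (hL : ‖lam‖ ≤ Λ) (hx : ‖x‖ ≤ m) (hm : m ≤ c + 2 * (2 * η * A) + 2 * (2 * E))
    (hc : ‖X0 - x‖ ≤ c) (hX : ‖X - lam * X0‖ ≤ η * Ax + (1 + ‖lam‖) * E)
    (hA : ‖lam‖ * A ≤ (1 + η) * Ax + (1 + ‖lam‖) * E)
    (hAx : 0 ≤ Ax) (hE : 0 ≤ E) : ‖X‖ ≤ 2 * Λ * c + 7 * η * Ax + 7 * (1 + Λ) * E := by
  have hc0 : 0 ≤ c := (norm_nonneg _).trans hc
  have hl := norm_nonneg lam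
  have hΛ : 0 ≤ Λ := hl.trans hL
  have h1 : ‖X‖ ≤ ‖lam‖ * ‖X0‖ + (η * Ax + (1 + ‖lam‖) * E) := by
    have : X = lam * X0 + (X - lam * X0) := by ring
    calc ‖X‖ = ‖lam * X0 + (X - lam * X0)‖ := by rw [← this]
      _ ≤ ‖lam * X0‖ + ‖X - lam * X0‖ := norm_add_le _ _
      _ ≤ ‖lam‖ * ‖X0‖ + (η * Ax + (1 + ‖lam‖) * E) := by rw [norm_mul]; linarith
  have h2 : ‖X0‖ ≤ 2 * c + 4 * (η * A) + 4 * E := by
    have : X0 = (X0 - x) + x := by ring
    calc ‖X0‖ = ‖(X0 - x) + x‖ := by rw [← this]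
      _ ≤ ‖X0 - x‖ + ‖x‖ := norm_add_le _ _
      _ ≤ 2 * c + 4 * (η * A) + 4 * E := by linarith
  have h3 : ‖lam‖ * ‖X0‖ ≤ ‖lam‖ * (2 * c + 4 * (η * A) + 4 * E) :=
    mul_le_mul_of_nonneg_left h2 hl
  have h4 : ‖lam‖ * (2 * c + 4 * (η * A) + 4 * E) =
    2 * (‖lam‖ * c) + 4 * (η * (‖lam‖ * A)) + 4 * (‖lam‖ * E) := by ring
  have h5 : ‖lam‖ * c ≤ Λ * c := mul_le_mul_of_nonneg_right hL hc0
  have h6 : η * (‖lam‖ * A) ≤ η * ((1 + η) * Ax + (1 + ‖lam‖) * E) :=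
    mul_le_mul_of_nonneg_left hA hη0
  have h7 : ‖lam‖ * E ≤ Λ * E := mul_le_mul_of_nonneg_right hL hE
  have h8 : (1 + ‖lam‖) * E ≤ (1 + Λ) * E := by nlinarith
  have h9 : η * ((1 + η) * Ax) ≤ 3 / 2 * (η * Ax) := by
    have : 0 ≤ η * Ax := mul_nonneg hη0 hAx
    nlinarith
  have h10 : η * ((1 + ‖lam‖) * E) ≤ 1 / 2 * ((1 + Λ) * E) := by
    have h0 : 0 ≤ (1 + ‖lam‖) * E := by positivity
    calc η * ((1 + ‖lam‖) * E) ≤ 1 / 2 * ((1 + ‖lam‖) * E) := mul_le_mul_of_nonneg_right hη1 h0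
      _ ≤ 1 / 2 * ((1 + Λ) * E) := by linarith
  have h11 : Λ * E ≤ (1 + Λ) * E := by nlinarith
  have h12 : η * ((1 + η) * Ax + (1 + ‖lam‖) * E) = η * ((1 + η) * Ax) + η * ((1 + ‖lam‖) * E) := by
    ring
  nlinarith

/-- **the alternative at one point** -/
theorem alt_core {Sx Sy S1 Dx Dy D1 s d lam mu rho : ℂ} {T : Finset ι} {q q0 q1 : ι → ℂ}
    {l : ι → ℝ} {C η τ Λ : ℝ} (hC : 0 ≤ C) (hη0 : 0 ≤ η) (hη1 : η ≤ 1 / 2) (hτ : 0 ≤ τ)
    (hrho : ‖rho‖ = 1) (hl : ∀ t ∈ T, 0 ≤ l t) (hLam : ‖lam‖ ≤ Λ)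
    (hq : ∀ t ∈ T, ‖q t - lam * q0 t‖ ≤ η * ‖q t‖ + τ * (1 + ‖lam‖))
    (hq1 : ∀ t ∈ T, ‖q1 t - mu * q0 t‖ ≤ η * ‖q1 t‖ + τ * (1 + ‖mu‖))
    (hS : ‖Sx - lam * Sy‖ ≤ C * ∑ t ∈ T, ‖q t - lam * q0 t‖ * l t)
    (hD : ‖Dx - lam * Dy‖ ≤ C * ∑ t ∈ T, ‖q t - lam * q0 t‖ * l t)
    (hS1 : ‖S1 - mu * Sy‖ ≤ C * ∑ t ∈ T, ‖q1 t - mu * q0 t‖ * l t)
    (hD1 : ‖D1 - mu * Dy‖ ≤ C * ∑ t ∈ T, ‖q1 t - mu * q0 t‖ * l t) :
    (‖s‖ ≤ ‖d‖ → ‖Sx‖ ≤ 2 * Λ * (‖Sy - s‖ + ‖S1 - rho * s‖ + ‖Dy - d‖ + ‖D1 + rho * d‖) +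
      7 * η * (C * ∑ t ∈ T, ‖q t‖ * l t) + 7 * (1 + Λ) * (τ * (C * ∑ t ∈ T, l t))) ∧
    (‖d‖ ≤ ‖s‖ → ‖Dx‖ ≤ 2 * Λ * (‖Sy - s‖ + ‖S1 - rho * s‖ + ‖Dy - d‖ + ‖D1 + rho * d‖) +
      7 * η * (C * ∑ t ∈ T, ‖q t‖ * l t) + 7 * (1 + Λ) * (τ * (C * ∑ t ∈ T, l t))) := by
  set A := C * ∑ t ∈ T, ‖q0 t‖ * l t with hA
  set Ax := C * ∑ t ∈ T, ‖q t‖ * l t with hAx
  set E := τ * (C * ∑ t ∈ T, l t) with hE
  have hA0 : 0 ≤ A := mul_nonneg hC (Finset.sum_nonneg fun t ht =>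
    mul_nonneg (norm_nonneg _) (hl t ht))
  have hAx0 : 0 ≤ Ax := mul_nonneg hC (Finset.sum_nonneg fun t ht =>
    mul_nonneg (norm_nonneg _) (hl t ht))
  have hE0 : 0 ≤ E := mul_nonneg hτ (mul_nonneg hC (Finset.sum_nonneg hl))
  -- sums
  have sm : ∀ (f : ι → ℝ) (a b : ℝ) (g : ι → ℝ), (∀ t ∈ T, f t ≤ a * g t + b) →
      C * ∑ t ∈ T, f t * l t ≤ a * (C * ∑ t ∈ T, g t * l t) + b * (C * ∑ t ∈ T, l t) := by
    intro f a b g h
    have e : a * (C * ∑ t ∈ T, g t * l t) + b * (C * ∑ t ∈ T, l t) =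
        C * ∑ t ∈ T, (a * g t + b) * l t := by
      have h1 : ∑ t ∈ T, (a * g t + b) * l t = ∑ t ∈ T, (a * (g t * l t) + b * l t) :=
        Finset.sum_congr rfl fun t _ => by ring
      rw [h1, Finset.sum_add_distrib, ← Finset.mul_sum, ← Finset.mul_sum]
      ring
    rw [e]
    exact mul_le_mul_of_nonneg_left (Finset.sum_le_sum fun t ht =>
      mul_le_mul_of_nonneg_right (h t ht) (hl t ht)) hC
  -- transport errors
  have t1 : C * ∑ t ∈ T, ‖q1 t - mu * q0 t‖ * l t ≤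
      ‖mu‖ * (2 * η * A) + (1 + ‖mu‖) * (2 * E) := by
    have h1 := sm (fun t => ‖q1 t - mu * q0 t‖) (2 * η * ‖mu‖) (2 * (τ * (1 + ‖mu‖)))
      (fun t => ‖q0 t‖) (by
        intro t ht
        have h1 := hq1 t ht
        have h2 : ‖q1 t‖ ≤ ‖mu‖ * ‖q0 t‖ + ‖q1 t - mu * q0 t‖ := by
          have : q1 t = mu * q0 t + (q1 t - mu * q0 t) := by ring
          calc ‖q1 t‖ = ‖mu * q0 t + (q1 t - mu * q0 t)‖ := by rw [← this]
            _ ≤ _ := norm_add_le _ _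
            _ = _ := by rw [norm_mul]
        have h3 : η * ‖q1 t‖ ≤ η * (‖mu‖ * ‖q0 t‖ + ‖q1 t - mu * q0 t‖) :=
          mul_le_mul_of_nonneg_left h2 hη0
        have h4 : η * ‖q1 t - mu * q0 t‖ ≤ 1 / 2 * ‖q1 t - mu * q0 t‖ :=
          mul_le_mul_of_nonneg_right hη1 (norm_nonneg _)
        nlinarith)
    refine h1.trans (le_of_eq ?_)
    rw [hA, hE]; ring
  have t2 : C * ∑ t ∈ T, ‖q t - lam * q0 t‖ * l t ≤ η * Ax + (1 + ‖lam‖) * E := by
    refine (sm (fun t => ‖q t - lam * q0 t‖) η (τ * (1 + ‖lam‖)) (fun t => ‖q t‖) hq).trans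
      (le_of_eq ?_)
    rw [hE]; ring
  have t3 : ‖lam‖ * A ≤ (1 + η) * Ax + (1 + ‖lam‖) * E := by
    have e1 : ‖lam‖ * A = C * ∑ t ∈ T, ‖lam * q0 t‖ * l t := by
      have h1 : ∑ t ∈ T, ‖lam * q0 t‖ * l t = ∑ t ∈ T, ‖lam‖ * (‖q0 t‖ * l t) :=
        Finset.sum_congr rfl fun t _ => by rw [norm_mul]; ring
      rw [h1, ← Finset.mul_sum, hA]; ring
    rw [e1]
    refine (sm (fun t => ‖lam * q0 t‖) (1 + η) (τ * (1 + ‖lam‖)) (fun t => ‖q t‖) ?_).trans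
      (le_of_eq (by rw [hE]; ring))
    intro t ht
    have h1 : lam * q0 t = q t - (q t - lam * q0 t) := by ring
    calc ‖lam * q0 t‖ = ‖q t - (q t - lam * q0 t)‖ := by rw [← h1]
      _ ≤ ‖q t‖ + ‖q t - lam * q0 t‖ := norm_sub_le _ _
      _ ≤ (1 + η) * ‖q t‖ + τ * (1 + ‖lam‖) := by linarith [hq t ht]
  have hmin := min_bound (s := s) (d := d) hrho (hS1.trans t1) (hD1.trans t1)
    (by positivity : 0 ≤ 2 * η * A)
  have n1 := norm_nonneg (Sy - s)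
  have n2 := norm_nonneg (S1 - rho * s)
  have n3 := norm_nonneg (Dy - d)
  have n4 := norm_nonneg (D1 + rho * d)
  constructor
  · intro h
    refine one_side (X0 := Sy) (x := s) (m := min ‖s‖ ‖d‖) (A := A) hη0 hη1 hLam ?_ hmin ?_
      (hS.trans t2) t3 hAx0 hE0
    · rw [min_eq_left h]
    · linarith
  · intro h
    refine one_side (X0 := Dy) (x := d) (m := min ‖s‖ ‖d‖) (A := A) hη0 hη1 hLam ?_ hmin ?_
      (hD.trans t2) t3 hAx0 hE0
    · rw [min_eq_right h]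
    · linarith

end Crest.Agent.R143.B6ax903
end

-- ▼ part R143/B6b_903
section

/-!
# Row 143 (S0194), part B, B6: the per-point bound for networks (helper903)

* `hval_norm` : `‖hval N z‖ ≤ 3`; `hval_BM`
* `lp`, `pt` : lattice point of a point, at the scale `ε`
* `Near` : the data at one sample `ω` and one point `z₀` : the network `N` of the domain, the
  reference network `N0`, the turned reference network `N1`; same triangles near `z₀`, Stokes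
  identities, proportional amplitudes
* `Near.alt` : the alternative at `z₀`
-/

set_option autoImplicit false

noncomputable section

open scoped Classical

namespace Crest.Agent.R143.B6bx903

open Complex Set Filter Topology MeasureTheory
open Crest.Agent.R143.B0x346 Crest.Agent.R143.B0Dx346
open Crest.Agent.R143.Mollx887 Crest.Agent.R143.Asmx336
open Crest.Agent.R143.B1bx796 (touch Stk CK CK_pos Sd Sb_cmp Sd_cmp Sd_eq)
open Crest.Agent.R143.B6x654 (Sb_lip Db_lip CL CL_nonneg)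

/-! ### the observable is bounded -/

theorem omz_norm (k : ZMod 3) : ‖omz k‖ = 1 := by
  unfold omz
  rw [norm_pow]
  have : ‖om‖ = 1 := by
    unfold om
    exact Complex.norm_exp_ofReal_mul_I _
  rw [this, one_pow]

theorem Fob_norm (N : Net ℂ) (a b : ℂ) : ‖N.Fob a b‖ ≤ 3 := by
  unfold Net.Fob
  rw [norm_div]
  have h0 : ‖(((N.hj a b).card + (N.hj b a).card : ℕ) : ℂ)‖ =
      (((N.hj a b).card + (N.hj b a).card : ℕ) : ℝ) := Complex.norm_natCast _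
  rw [h0]
  have h1 : ∀ k : ZMod 3, ‖((N.cnt a b k + N.cnt b a k : ℕ) : ℂ) * omz k‖ ≤
      (((N.hj a b).card + (N.hj b a).card : ℕ) : ℝ) := by
    intro k
    rw [norm_mul, omz_norm, mul_one, Complex.norm_natCast]
    have e1 : N.cnt a b k ≤ (N.hj a b).card := Finset.card_filter_le _ _
    have e2 : N.cnt b a k ≤ (N.hj b a).card := Finset.card_filter_le _ _
    exact_mod_cast add_le_add e1 e2
  have h2 : ‖∑ k : ZMod 3, ((N.cnt a b k + N.cnt b a k : ℕ) : ℂ) * omz k‖ ≤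
      3 * (((N.hj a b).card + (N.hj b a).card : ℕ) : ℝ) := by
    refine (norm_sum_le _ _).trans ?_
    refine (Finset.sum_le_sum fun k _ => h1 k).trans ?_
    rw [Finset.sum_const, Finset.card_univ, ZMod.card, nsmul_eq_mul]
    norm_num
  rcases Nat.eq_zero_or_pos ((N.hj a b).card + (N.hj b a).card) with h | h
  · rw [h]; simp
  · have hp : (0 : ℝ) < (((N.hj a b).card + (N.hj b a).card : ℕ) : ℝ) := by exact_mod_cast h
    rw [div_le_iff₀ hp]
    exact h2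

theorem F_norm (N : Net ℂ) (a b : ℂ) : ‖N.F a b‖ ≤ 3 := by
  unfold Net.F
  split_ifs with h
  · rw [omz_norm]; norm_num
  · exact Fob_norm N a b

theorem hval_norm (N : Net ℂ) (z : ℂ) : ‖hval N z‖ ≤ 3 := by
  unfold hval
  split_ifs with h
  · rw [norm_div, Complex.norm_ofNat]
    have h1 := F_norm N h.choose.1 h.choose.2.1
    have h2 := F_norm N h.choose.2.1 h.choose.2.2
    have h3 := F_norm N h.choose.2.2 h.choose.1
    have h4 := norm_add_le (N.F h.choose.1 h.choose.2.1 + N.F h.choose.2.1 h.choose.2.2)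
      (N.F h.choose.2.2 h.choose.1)
    have h5 := norm_add_le (N.F h.choose.1 h.choose.2.1) (N.F h.choose.2.1 h.choose.2.2)
    rw [div_le_iff₀ (by norm_num)]
    linarith
  · simp

/-- the triangles containing `z` -/
def inT (N : Net ℂ) (z : ℂ) : Finset (ℂ × ℂ × ℂ) := N.T.filter fun t => InTri z t.1 t.2.1 t.2.2

/-- the observable as a function of the set of triangles containing the point -/
def valT (N : Net ℂ) (A : Finset (ℂ × ℂ × ℂ)) : ℂ :=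
  if h : ∃ t : ℂ × ℂ × ℂ, t ∈ A then
    (N.F h.choose.1 h.choose.2.1 + N.F h.choose.2.1 h.choose.2.2 +
      N.F h.choose.2.2 h.choose.1) / 3
  else 0

theorem hval_valT (N : Net ℂ) (z : ℂ) : hval N z = valT N (inT N z) := by
  have key : (fun t : ℂ × ℂ × ℂ => t ∈ N.T ∧ InTri z t.1 t.2.1 t.2.2) = fun t => t ∈ inT N z := by
    funext t
    rw [inT, Finset.mem_filter]
  unfold hval valT
  have : ∀ (p q : ℂ × ℂ × ℂ → Prop), p = q →
      (if h : ∃ t, p t then (N.F h.choose.1 h.choose.2.1 + N.F h.choose.2.1 h.choose.2.2 +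
        N.F h.choose.2.2 h.choose.1) / 3 else 0) =
      (if h : ∃ t, q t then (N.F h.choose.1 h.choose.2.1 + N.F h.choose.2.1 h.choose.2.2 +
        N.F h.choose.2.2 h.choose.1) / 3 else 0) := by
    rintro p q rfl
    rfl
  convert this _ _ key

theorem isOpen_inTri (a b c : ℂ) : IsOpen {z | InTri z a b c} := by
  have aux : ∀ a b : ℂ, IsOpen {z | Lft z a b} := by
    intro a b
    have : {z | Lft z a b} = {z : ℂ | 0 < cr (b - a) (z - a)} := rfl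
    rw [this]
    refine isOpen_lt continuous_const ?_
    unfold cr
    fun_prop
  exact ((aux a b).inter ((aux b c).inter (aux c a)))

/-- measurability of the observable of any network -/
theorem hval_meas (N : Net ℂ) : Measurable (hval N) := by
  have h0 : hval N = fun z => valT N (inT N z) := funext (hval_valT N)
  rw [h0]
  intro B _
  have h1 : (fun z => valT N (inT N z)) ⁻¹' B =
      ⋃ A ∈ (N.T.powerset.filter fun A => valT N A ∈ B), {z | inT N z = A} := by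
    ext z
    simp only [mem_preimage, mem_iUnion, Finset.mem_filter, Finset.mem_powerset, mem_ofPred_eq,
      exists_prop]
    constructor
    · intro h
      exact ⟨inT N z, ⟨Finset.filter_subset _ _, h⟩, rfl⟩
    · rintro ⟨A, ⟨-, hA⟩, rfl⟩
      exact hA
  rw [h1]
  refine Finset.measurableSet_biUnion _ fun A hA => ?_
  rw [Finset.mem_filter, Finset.mem_powerset] at hA
  have h2 : {z | inT N z = A} = ⋂ t ∈ N.T, {z | InTri z t.1 t.2.1 t.2.2 ↔ t ∈ A} := by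
    ext z
    simp only [mem_ofPred_eq, mem_iInter]
    constructor
    · rintro rfl t ht
      rw [inT, Finset.mem_filter]
      tauto
    · intro h
      ext t
      rw [inT, Finset.mem_filter]
      constructor
      · rintro ⟨h3, h4⟩
        exact (h t h3).1 h4
      · intro h3
        exact ⟨hA.1 h3, (h t (hA.1 h3)).2 h3⟩
  rw [h2]
  refine Finset.measurableSet_biInter _ fun t _ => ?_
  by_cases ht : t ∈ A
  · simp only [ht, iff_true]
    exact (isOpen_inTri _ _ _).measurableSet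
  · simp only [ht, iff_false]
    exact (isOpen_inTri _ _ _).measurableSet.compl

/-- the observable is admissible for the mollifier -/
theorem hval_BM (N : Net ℂ) : BM (hval N) 3 := ⟨(hval_meas N).aestronglyMeasurable, hval_norm N⟩

/-! ### lattice points -/

/-- index of the cell of `z` -/
def lp (ε : ℝ) (z : ℂ) : ℤ × ℤ := (⌊z.re / ε⌋, ⌊z.im / ε⌋)

/-- lattice point -/
def pt (ε : ℝ) (p : ℤ × ℤ) : ℂ := ⟨ε * p.1, ε * p.2⟩



/-! ### the data at one point -/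

theorem Sd_Db (r : ℝ) (h : ℂ → ℂ) (z₀ : ℂ) : Sd r h z₀ = Db r h z₀ := Sd_eq r h z₀

/-- the data at one point `z₀` -/
structure Near (r η τ Λ : ℝ) (S S0 S1 : Finset ℂ) (N N0 N1 : Net ℂ) (z₀ : ℂ) : Prop where
  stk : Stk S N r z₀
  stk0 : Stk S0 N0 r z₀
  stk1 : Stk S1 N1 r z₀
  tch0 : touch z₀ r S = touch z₀ r S0
  tch1 : touch z₀ r S = touch z₀ r S1
  /-- the reference amplitudes are not too small: the constant `λ` is at most `Λ` -/
  tr : ∃ lam : ℂ, ‖lam‖ ≤ Λ ∧ ∀ t ∈ touch z₀ r S,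
    ‖N.Q t - lam * N0.Q t‖ ≤ η * ‖N.Q t‖ + τ * (1 + ‖lam‖)
  tr1 : ∃ mu : ℂ, ∀ t ∈ touch z₀ r S,
    ‖N1.Q t - mu * N0.Q t‖ ≤ η * ‖N1.Q t‖ + τ * (1 + ‖mu‖)

/-- the right-hand side -/
def rhs (r : ℝ) (S : Finset ℂ) (N : Net ℂ) (z₀ : ℂ) : ℝ :=
  CK / r ^ 2 * ∑ t ∈ touch z₀ r S, ‖N.Q t‖ * ‖t.2.1 - t.1‖

/-- fluctuations of the reference at the point `z` -/
def flu (r : ℝ) (h0 h1 : ℂ → ℂ) (s d rho : ℂ) (z : ℂ) : ℝ :=
  ‖Sb r h0 z - s‖ + ‖Sb r h1 z - rho * s‖ + ‖Db r h0 z - d‖ + ‖Db r h1 z + rho * d‖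


variable {r η τ Λ : ℝ} {S S0 S1 : Finset ℂ} {N N0 N1 : Net ℂ} {z₀ : ℂ}

/-- **the alternative at one point** for networks -/
theorem Near.alt (hr : 0 < r) (hη0 : 0 ≤ η) (hη1 : η ≤ 1 / 2) (hτ : 0 ≤ τ)
    (h : Near r η τ Λ S S0 S1 N N0 N1 z₀) {s d rho : ℂ} (hrho : ‖rho‖ = 1) :
    (‖s‖ ≤ ‖d‖ → ‖Sb r (hval N) z₀‖ ≤
      2 * Λ * flu r (hval N0) (hval N1) s d rho z₀ + 10 * η * rhs r S N z₀ +
        7 * (1 + Λ) * (τ * (CK / r ^ 2 * ∑ t ∈ touch z₀ r S, ‖t.2.1 - t.1‖))) ∧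
    (‖d‖ ≤ ‖s‖ → ‖Db r (hval N) z₀‖ ≤
      2 * Λ * flu r (hval N0) (hval N1) s d rho z₀ + 10 * η * rhs r S N z₀ +
        7 * (1 + Λ) * (τ * (CK / r ^ 2 * ∑ t ∈ touch z₀ r S, ‖t.2.1 - t.1‖))) := by
  obtain ⟨lam, hLam, hq⟩ := h.tr
  obtain ⟨mu, hq1⟩ := h.tr1
  have hC : 0 ≤ CK / r ^ 2 := by have := CK_pos; positivity
  have hS := Sb_cmp hr h.stk h.stk0 h.tch0 lam
  have hD := Sd_cmp hr h.stk h.stk0 h.tch0 lam
  have hS1 := Sb_cmp hr h.stk1 h.stk0 (h.tch1.symm.trans h.tch0) mu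
  have hD1 := Sd_cmp hr h.stk1 h.stk0 (h.tch1.symm.trans h.tch0) mu
  rw [← h.tch1] at hS1 hD1
  simp only [Sd_Db] at hD hD1
  have key := B6ax903.alt_core (s := s) (d := d) (Λ := Λ) (T := touch z₀ r S) (q := N.Q)
    (q0 := N0.Q) (q1 := N1.Q) (l := fun t => ‖t.2.1 - t.1‖) hC hη0 hη1 hτ hrho
    (fun _ _ => norm_nonneg _) hLam hq hq1 hS hD hS1 hD1
  have e0 : 0 ≤ CK / r ^ 2 * ∑ t ∈ touch z₀ r S, ‖N.Q t‖ * ‖t.2.1 - t.1‖ :=
    mul_nonneg hC (Finset.sum_nonneg fun _ _ => by positivity)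
  have e : 7 * η * (CK / r ^ 2 * ∑ t ∈ touch z₀ r S, ‖N.Q t‖ * ‖t.2.1 - t.1‖) ≤
      10 * η * rhs r S N z₀ := by
    unfold rhs
    nlinarith [mul_nonneg hη0 e0]
  refine ⟨fun hs => (key.1 hs).trans ?_, fun hs => (key.2 hs).trans ?_⟩
  · unfold flu; linarith
  · unfold flu; linarith




end Crest.Agent.R143.B6bx903
end
end

-- ▼ part R143/B6I_903

/-!
# Row 143 (S0194), part B, B6: literal inputs of the leaf `LMin` of `Spine_422` (helper903)

* `Par` : parameters (size `L` of the domain, room `R`, margin `m`, constants of the environment)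
* `At π δ ε D ω z` : `D` is admissible, the environment is good, `z` has room and is linked
* `TR`   : transport (blocks X + B4): the amplitudes of two networks which agree near `z` are
  proportional (relative error `η → 0`)
* `LOW`  : lower bound of the local energy (polynomial in the mesoscopic scale)
* `ENB`  : total energy at most `12` (T2)
* `MG`   : good environments (M3, M4)
* `RefS`, `YOUT` : the reference system (block Y): two families of reference domains (the second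
  one turned by 90 degrees) with environments frozen outside; the four mollified quantities are
  concentrated around `s`, `I * s`, `d`, `- I * d`
-/

set_option autoImplicit false

noncomputable section

open scoped Classical

namespace Crest.Agent.R143.B6Ix903

open Complex Set Filter Topology MeasureTheory
open Crest.ProbabilityR.Voronoi
open Crest.Agent.R143.B0x346 Crest.Agent.R143.B0Dx346 Crest.Agent.R143.PP1x831
open Crest.Agent.R143.Y0x831 (Good)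
open Crest.Agent.R143.Mollx887 Crest.Agent.R143.Asmx336
open Crest.Agent.R143.Spinex422 (Room Linked GoodFam HG)
open Crest.Agent.R143.B1bx796 (touch)
open Crest.Agent.R143.B6bx903 (pt lp flu)
open Crest.Agent.R143.Sec0x697 (Sector)

/-- parameters -/
structure Par where
  L : ℝ
  R : ℝ
  m : ℝ
  C : ℝ
  K : ℝ
  a : ℝ
  C4 : ℝ
  Lpos : 0 < L
  Rpos : 0 < R
  mpos : 0 < m
  Cpos : 0 < C
  Kpos : 0 < K
  apos : 0 < a
  C4pos : 0 < C4

/-- admissible domain, good environment, the point `z` has room and is linked to the marks -/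
structure At (π : Par) (δ ε : ℝ) (D : Dom) (ω : Sample) (z : ℂ) : Prop where
  ok : D.Ad δ
  len : D.L ≤ π.L
  good : Good D ε π.C π.K π.a π.C4 ω
  room : Room D π.R z
  lnk : Linked D π.m z

/-- the network of `D` in the environment `ω` -/
abbrev net (D : Dom) (ε : ℝ) (ω : Sample) : Net ℂ := D.netS (D.sites ε ω)


/-- the three arcs are seen from `z` in sectors -/
def Sec3 (D : Dom) (z : ℂ) (θ ρ μ : ℝ) : Prop := ∀ i : ZMod 3, ∃ φ : ℝ, Sector D z i φ θ ρ μ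



/-- good environment in the disc of radius `R` around `0` -/
structure GoodB (R ε C K a C4 : ℝ) (ω : Sample) : Prop where
  env : Env ε (rad C ε) (K * Real.log (1 / ε)) 0 R ω
  diam : ∀ z ∈ Metric.closedBall (0 : ℂ) R, ∀ ρ : ℝ, ε * Real.log (1 / ε) ^ a ≤ ρ → ρ ≤ 1 →
    diamSum (points ε ω) (Metric.ball z ρ) ≤ ENNReal.ofReal (C4 * ρ ^ 2)

/-- the failure probability of the environment is at most `ε ^ A` -/
def MP (R A C K a C4 : ℝ) : Prop := ∀ᶠ ε : ℝ in 𝓝[>] 0,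
  sampleLaw {ω | ¬ GoodB R ε C K a C4 ω} ≤ ENNReal.ofReal (ε ^ A)

/-- **good environments** (M3, M4) -/
def MG : Prop := ∀ R A : ℝ, 0 < R → 0 < A → ∃ C K a C4 : ℝ, 0 < C ∧ 0 < K ∧ 0 < a ∧ 0 < C4 ∧
  MP R A C K a C4

/-- **the reference system** at the scale `ε` (`r` = mollification radius): reference domains
`Y0 p`, `Y1 p` around the lattice points `pt ε p`, samples `g0 p ω`, `g1 p ω` (= `ω` near `pt ε p`,
frozen outside) -/
structure RefS (π : Par) (δ θ ρ μ ε r β E1 : ℝ) (Y0 Y1 : ℤ × ℤ → Dom)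
    (g0 g1 : ℤ × ℤ → Sample → Sample) (s d : ℂ) : Prop where
  geo0 : ∀ p z, ‖z - pt ε p‖ ≤ 2 * ε →
    (Y0 p).OK δ ∧ (Y0 p).L ≤ π.L ∧ Room (Y0 p) π.R z ∧ Linked (Y0 p) π.m z
  geo1 : ∀ p z, ‖z - pt ε p‖ ≤ 2 * ε →
    (Y1 p).OK δ ∧ (Y1 p).L ≤ π.L ∧ Room (Y1 p) π.R z ∧ Linked (Y1 p) π.m z
  sec0 : ∀ p z, ‖z - pt ε p‖ ≤ 2 * ε → Sec3 (Y0 p) z θ ρ μ
  same0 : ∀ p z, ‖z - pt ε p‖ ≤ 2 * ε → ∀ ω, ∀ s : ℂ, ‖s - z‖ < π.R →
    (s ∈ points ε ω ↔ s ∈ points ε (g0 p ω))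
  same1 : ∀ p z, ‖z - pt ε p‖ ≤ 2 * ε → ∀ ω, ∀ s : ℂ, ‖s - z‖ < π.R →
    (s ∈ points ε ω ↔ s ∈ points ε (g1 p ω))
  good0 : ∀ p, sampleLaw {ω | ¬ Good (Y0 p) ε π.C π.K π.a π.C4 (g0 p ω)} ≤ ENNReal.ofReal β
  good1 : ∀ p, sampleLaw {ω | ¬ Good (Y1 p) ε π.C π.K π.a π.C4 (g1 p ω)} ≤ ENNReal.ofReal β
  /-- measurability on a large event and concentration -/
  conc : ∀ p, ∃ G : Set Sample, MeasurableSet G ∧ sampleLaw Gᶜ ≤ ENNReal.ofReal β ∧
    AEStronglyMeasurable (fun q : Sample × ℂ => (Y0 p).h ε (g0 p q.1) q.2)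
      ((sampleLaw.restrict G).prod volume) ∧
    AEStronglyMeasurable (fun q : Sample × ℂ => (Y1 p).h ε (g1 p q.1) q.2)
      ((sampleLaw.restrict G).prod volume) ∧
    ∫⁻ ω in G, ENNReal.ofReal
      (flu r ((Y0 p).h ε (g0 p ω)) ((Y1 p).h ε (g1 p ω)) s d I (pt ε p)) ∂sampleLaw ≤
        ENNReal.ofReal E1


end Crest.Agent.R143.B6Ix903
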