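import Crest.Agent.R143.DicC_831
import Crest.Agent.R143.Spine_422
import Crest.Agent.R143.B6I_903
import Crest.Agent.R143.MG_501
import Crest.Agent.R143.Ad_422

/-!
# Row 143 (S0194), dichotomy without part A, 4 (helper831): the end of the core

* `Yb`, `Yd` : `∑ Q e φ(cc)` and `∑ Q conj(e) φ(cc)` over the oriented triangles of `D.netS`
* `ynear` : in a good environment `Sb r (D.h ε ω) z = - (I/2) Yb + o(1)`, `Db .. = (I/2) Yd + o(1)`
* `YW` : **leaf**: for every `ε` one of the two sums is small in probability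
* `lmin_of_yw` : `YW → LMinW` (the text of `LMinW` of Spine7_422)
-/

set_option autoImplicit false

noncomputable section

open scoped Classical

namespace Crest.Agent.R143.DicDx831

open Complex Set Filter Topology MeasureTheory
open scoped ENNReal
open Crest.ProbabilityR.Voronoi
open Crest.Agent.R143.B0x346 Crest.Agent.R143.B0Dx346 Crest.Agent.R143.PP1x831
open Crest.Agent.R143.BC0x336 Crest.Agent.R143.Mollx887 Crest.Agent.R143.EndBx336
open Crest.Agent.R143.Asmx336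
open Crest.Agent.R143.Y0x831 (Good)
open Crest.Agent.R143.B1bx796 (touch Stk phi seg sum_touch Sb_net Sd_net Sd norm_I_half)
open Crest.Agent.R143.Locx922
open Crest.Agent.R143.Spinex422 (Room Linked GoodFam HG norm_h_le bm_HG)
open Crest.Agent.R143.B6Ix903 (net GoodB MP)
open Crest.Agent.R143.DicBx831 Crest.Agent.R143.DicCx831

/-- `∑ Q e φ(cc)` -/
def Yb (D : Dom) (ε : ℝ) (ω : Sample) (φ : ℂ → ℝ) : ℂ :=
  ∑ t ∈ delT (D.sites ε ω), (net D ε ω).Q t * ((t.2.1 - t.1) * (φ (cc t) : ℂ))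

/-- `∑ Q conj(e) φ(cc)` -/
def Yd (D : Dom) (ε : ℝ) (ω : Sample) (φ : ℂ → ℝ) : ℂ :=
  ∑ t ∈ delT (D.sites ε ω), (net D ε ω).Q t *
    ((starRingEnd ℂ) (t.2.1 - t.1) * (φ (cc t) : ℂ))

/-- the test function of the mollifier (= `Spinex422.tst`) -/
def tst (r : ℝ) (z : ℂ) (w : ℂ) : ℝ := ker r (w - z)

/-- the ball of radius `R` is far from the boundary of the disc -/
theorem room_norm {D : Dom} {R : ℝ} {z : ℂ} (h : Room D R z) (hR : 0 ≤ R) :
    ‖z - D.c‖ + R ≤ D.L / 2 := by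
  have h1 := h.2
  obtain ⟨u, hu, huz⟩ : ∃ u : ℂ, ‖u‖ = 1 ∧ z - D.c = (‖z - D.c‖ : ℂ) * u := by
    by_cases hz : z - D.c = 0
    · exact ⟨1, by simp, by rw [hz]; simp⟩
    · refine ⟨(z - D.c) / (‖z - D.c‖ : ℂ), ?_, ?_⟩
      · rw [norm_div, Complex.norm_real, norm_norm, div_self (norm_ne_zero_iff.2 hz)]
      · have : (‖z - D.c‖ : ℂ) ≠ 0 := by exact_mod_cast (norm_ne_zero_iff.2 hz)
        field_simp
  have h2 : z + (R : ℂ) * u ∈ Metric.closedBall z R := by
    rw [Metric.mem_closedBall, dist_eq_norm, add_sub_cancel_left, norm_mul, hu, mul_one,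
      Complex.norm_real, Real.norm_eq_abs, abs_of_nonneg hR]
  have h3 := h1 h2
  rw [Metric.mem_closedBall, dist_eq_norm] at h3
  have h4 : z + (R : ℂ) * u - D.c = ((‖z - D.c‖ + R : ℝ) : ℂ) * u := by
    calc z + (R : ℂ) * u - D.c = (z - D.c) + (R : ℂ) * u := by ring
      _ = (‖z - D.c‖ : ℂ) * u + (R : ℂ) * u := by rw [← huz]
      _ = _ := by push_cast; ring
  rw [h4, norm_mul, hu, mul_one, Complex.norm_real, Real.norm_eq_abs,
    abs_of_nonneg (by positivity)] at h3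
  exact h3

/-- a good environment gives a network -/
theorem hnet_ev {D : Dom} {δ C : ℝ} (hD : D.W δ) (hC : 0 < C) :
    ∀ᶠ ε : ℝ in 𝓝[>] 0, ∀ (K a C4 : ℝ) (ω : Sample), Good D ε C K a C4 ω →
      HNet (D.sites ε ω) (net D ε ω) := by
  have hδ := hD.dpos
  have hL := hD.Lpos
  filter_upwards [(rad_small C).eventually
    (ge_mem_nhds (show (0 : ℝ) < δ ^ 6 / (40000 * D.L ^ 5) by positivity))] with ε h K a C4 ω hω
  refine Adx422.d1 hD hω.env ?_
  rw [le_div_iff₀ (by positivity)] at h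
  linarith

/-- **the observable near a point** -/
theorem ynear {D : Dom} {δ C K a C4 : ℝ} (hD : D.W δ) (hC : 0 < C) (hC4 : 0 ≤ C4) {r : ℝ}
    (hr : 0 < r) {z : ℂ} (hz : Room D (4 * r) z) : ∃ X : ℝ → ℝ, Tendsto X (𝓝[>] 0) (𝓝 0) ∧
      ∀ᶠ ε : ℝ in 𝓝[>] 0, ∀ ω : Sample, Good D ε C K a C4 ω →
        ‖Sb r (D.h ε ω) z + (I / 2) * Yb D ε ω (tst r z)‖ ≤ X ε ∧
        ‖Db r (D.h ε ω) z - (I / 2) * Yd D ε ω (tst r z)‖ ≤ X ε := by
  have h1 := room_norm hz (by linarith)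
  have h7 : 0 ≤ ‖z - D.c‖ := norm_nonneg _
  have hL0 := hD.Lpos
  obtain ⟨V, hV0, hV⟩ := sq_bound (z₀ := z) (D := D) (K := K) (a := a) hC hC4
    (R := 2 * r) (by linarith)
  obtain ⟨L, hL, hLip⟩ := phi_lip hr z
  refine ⟨fun ε => L * (4 * rad C ε) * (2 * Real.sqrt V), ?_, ?_⟩
  · have h2 := (((rad_small C).const_mul 4).const_mul L).mul_const (2 * Real.sqrt V)
    simpa using h2
  · filter_upwards [ev_unit, hV, hnet_ev hD hC, (rad_small C).eventually
      (ge_mem_nhds (show (0 : ℝ) < r / 4 by linarith))] with ε e1 e2 e3 e4 ω hω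
    have hrad := rad_pos hC e1
    have hN := e3 K a C4 ω hω
    have hH : Hol (D.sites ε ω : Set ℂ) (Metric.closedBall z (2 * r)) (rad C ε) := by
      refine (Env.hol_sites hω.env).mono (Metric.closedBall_subset_closedBall' ?_)
      rw [dist_eq_norm]
      linarith
    have hS : Stk (D.sites ε ω) (net D ε ω) r z := by
      refine B1hx991.stk_env hrad hr hω.env hN (by linarith) fun w hw hwo => ?_
      refine Set.disjoint_left.1 hz.1 ?_ hwo
      rw [Metric.mem_closedBall, dist_eq_norm]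
      linarith
    have key := fun (w : ℂ × ℂ × ℂ → ℂ) (hw : ∀ t, ‖w t‖ ≤ ‖t.2.1 - t.1‖) =>
      approx hN hrad hr (by linarith) hH hL hLip w hw (e2 ω hω)
    have hphi : ∀ w, phi r z w = ((tst r z w : ℝ) : ℂ) := fun w => rfl
    simp only [hphi] at key
    constructor
    · have h2 : Sb r (D.h ε ω) z = -(I / 2) * ∑ t ∈ delT (D.sites ε ω),
          (net D ε ω).Q t * (t.2.1 - t.1) * seg (phi r z) t.1 t.2.1 := by
        rw [sum_touch hr fun t => (net D ε ω).Q t * (t.2.1 - t.1)]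
        exact Sb_net hr hS
      have h3 := key (fun t => t.2.1 - t.1) fun _ => le_rfl
      have h4 : Sb r (D.h ε ω) z + (I / 2) * Yb D ε ω (tst r z) =
          -(I / 2) * (∑ t ∈ delT (D.sites ε ω),
            (net D ε ω).Q t * (t.2.1 - t.1) * seg (phi r z) t.1 t.2.1 -
            ∑ t ∈ delT (D.sites ε ω), (net D ε ω).Q t * ((t.2.1 - t.1) * (tst r z (cc t) : ℂ))) := by
        rw [h2]
        unfold Yb
        ring
      rw [h4, norm_mul, norm_neg, norm_I_half]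
      have h5 := norm_nonneg (∑ t ∈ delT (D.sites ε ω),
            (net D ε ω).Q t * (t.2.1 - t.1) * seg (phi r z) t.1 t.2.1 -
            ∑ t ∈ delT (D.sites ε ω), (net D ε ω).Q t * ((t.2.1 - t.1) * (tst r z (cc t) : ℂ)))
      linarith
    · have h2 : Db r (D.h ε ω) z = (I / 2) * ∑ t ∈ delT (D.sites ε ω),
          (net D ε ω).Q t * (starRingEnd ℂ) (t.2.1 - t.1) * seg (phi r z) t.1 t.2.1 := by
        rw [← B6bx903.Sd_Db, sum_touch hr fun t => (net D ε ω).Q t * (starRingEnd ℂ) (t.2.1 - t.1)]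
        exact Sd_net hr hS
      have h3 := key (fun t => (starRingEnd ℂ) (t.2.1 - t.1)) fun t => by
        rw [Complex.norm_conj]
      have h4 : Db r (D.h ε ω) z - (I / 2) * Yd D ε ω (tst r z) =
          (I / 2) * (∑ t ∈ delT (D.sites ε ω),
            (net D ε ω).Q t * (starRingEnd ℂ) (t.2.1 - t.1) * seg (phi r z) t.1 t.2.1 -
            ∑ t ∈ delT (D.sites ε ω), (net D ε ω).Q t *
              ((starRingEnd ℂ) (t.2.1 - t.1) * (tst r z (cc t) : ℂ))) := by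
        rw [h2]
        unfold Yd
        ring
      rw [h4, norm_mul, norm_I_half]
      have h5 := norm_nonneg (∑ t ∈ delT (D.sites ε ω),
            (net D ε ω).Q t * (starRingEnd ℂ) (t.2.1 - t.1) * seg (phi r z) t.1 t.2.1 -
            ∑ t ∈ delT (D.sites ε ω), (net D ε ω).Q t *
              ((starRingEnd ℂ) (t.2.1 - t.1) * (tst r z (cc t) : ℂ)))
      linarith

/-! ### integration over the environment -/

theorem int_le {Ω : Type*} [MeasurableSpace Ω] (μ : Measure Ω) [IsProbabilityMeasure μ]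
    {G Bad : Set Ω} {f : Ω → ℂ} {c B β : ℝ} (hc : 0 ≤ c) (hB : 0 ≤ B) (hβ : 0 ≤ β)
    (h1 : ∀ ω, ‖f ω‖ ≤ B) (h2 : ∀ ω, ω ∉ Bad → ‖f ω‖ ≤ c) (h3 : μ Bad ≤ ENNReal.ofReal β) :
    ‖∫ ω in G, f ω ∂μ‖ ≤ c + B * β := by
  have h4 : ∀ ω, ‖f ω‖ₑ ≤ ENNReal.ofReal c +
      (toMeasurable μ Bad).indicator (fun _ => ENNReal.ofReal B) ω := by
    intro ω
    rw [← ofReal_norm_eq_enorm]
    by_cases hω : ω ∈ toMeasurable μ Bad
    · rw [indicator_of_mem hω]
      exact (ENNReal.ofReal_le_ofReal (h1 ω)).trans le_add_self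
    · rw [indicator_of_notMem hω, add_zero]
      exact ENNReal.ofReal_le_ofReal (h2 ω fun h => hω (subset_toMeasurable μ Bad h))
  have h5 : ∫⁻ ω in G, ‖f ω‖ₑ ∂μ ≤ ENNReal.ofReal (c + B * β) := by
    calc ∫⁻ ω in G, ‖f ω‖ₑ ∂μ ≤ ∫⁻ ω, ‖f ω‖ₑ ∂μ :=
          lintegral_mono' Measure.restrict_le_self le_rfl
      _ ≤ ∫⁻ ω, (ENNReal.ofReal c +
          (toMeasurable μ Bad).indicator (fun _ => ENNReal.ofReal B) ω) ∂μ := lintegral_mono h4
      _ = ENNReal.ofReal c + ENNReal.ofReal B * μ Bad := by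
          rw [lintegral_add_left measurable_const, lintegral_const, measure_univ, mul_one,
            lintegral_indicator (measurableSet_toMeasurable μ Bad), lintegral_const,
            Measure.restrict_apply_univ, measure_toMeasurable]
      _ ≤ ENNReal.ofReal c + ENNReal.ofReal B * ENNReal.ofReal β := by gcongr
      _ = _ := by rw [← ENNReal.ofReal_mul hB, ← ENNReal.ofReal_add hc (by positivity)]
  exact ENNReal.toReal_le_of_le_ofReal (by positivity)
    ((enorm_integral_le_lintegral_enorm _).trans h5) |> fun h => by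
      simpa [toReal_enorm] using h

/-! ### the leaf -/

/-- **leaf YW**: for every `ε`, one of the two sums is small in probability -/
def YW (Adm : Dom → ℝ → Prop) : Prop := ∀ (D : Dom) (δ : ℝ), Adm D δ → ∀ m > 0,
  ∀ r > 0, ∀ z : ℂ, Room D (4 * r) z → Linked D m z →
  ∀ r' > 0, ∀ z' : ℂ, Room D (4 * r') z' → Linked D m z' → ∀ η > 0, ∀ᶠ ε : ℝ in 𝓝[>] 0,
    sampleLaw {ω | η < ‖Yb D ε ω (tst r z)‖} ≤ ENNReal.ofReal η ∨
    sampleLaw {ω | η < ‖Yd D ε ω (tst r' z')‖} ≤ ENNReal.ofReal η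

/-- the text of the leaf `LMinW` of `Spine7_422` -/
def LMinW (Adm : Dom → ℝ → Prop) : Prop := ∀ (D : Dom) (δ : ℝ), Adm D δ →
  ∀ G : ℝ → Set Sample, GoodFam D G → ∀ m > 0,
  ∀ r > 0, ∀ z : ℂ, Room D (4 * r) z → Linked D m z →
  ∀ r' > 0, ∀ z' : ℂ, Room D (4 * r') z' → Linked D m z' →
    Tendsto (fun ε : ℝ => min ‖Sb r (HG D G ε) z‖ ‖Sb r' (cj (HG D G ε)) z'‖) (𝓝[>] 0) (𝓝 0)

/-- environments of a fixed domain -/
theorem good_ev (D : Dom) (hL : 0 < D.L) : ∃ C K a C4 : ℝ, 0 < C ∧ 0 < K ∧ 0 < a ∧ 0 < C4 ∧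
    ∀ᶠ ε : ℝ in 𝓝[>] 0, sampleLaw {ω | ¬ Good D ε C K a C4 ω} ≤ ENNReal.ofReal ε := by
  obtain ⟨C, K, a, C4, hC, hK, ha, hC4, hMP⟩ := MGx501.mg (‖D.c‖ + D.L) 30
    (by positivity) (by norm_num)
  refine ⟨C, K, a, C4, hC, hK, ha, hC4, ?_⟩
  unfold B6Ix903.MP at hMP
  filter_upwards [hMP, ev_unit] with ε h1 h2
  have hsub : {ω | ¬ Good D ε C K a C4 ω} ⊆ {ω | ¬ GoodB (‖D.c‖ + D.L) ε C K a C4 ω} := by
    intro ω hω h
    refine hω ?_
    have h3 : ∀ s : ℝ, Metric.closedBall D.c (D.L - s) ⊆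
        Metric.closedBall (0 : ℂ) (‖D.c‖ + D.L - s) := by
      intro s
      refine Metric.closedBall_subset_closedBall' ?_
      rw [dist_zero_right]
      linarith
    have h0 : Metric.closedBall D.c D.L ⊆ Metric.closedBall (0 : ℂ) (‖D.c‖ + D.L) := by
      refine Metric.closedBall_subset_closedBall' ?_
      rw [dist_zero_right]
      linarith
    exact ⟨⟨h.env.fin.subset (inter_subset_inter_right _ h0), h.env.gp,
      fun z hz => h.env.hole z (h3 _ hz), fun z hz => h.env.cnt z (h0 hz)⟩,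
      fun z hz => h.diam z (h0 hz)⟩
  refine (measure_mono hsub).trans (h1.trans (ENNReal.ofReal_le_ofReal ?_))
  have h4 := Real.rpow_le_rpow_of_exponent_ge h2.1 h2.2.le (show (1 : ℝ) ≤ 30 by norm_num)
  rwa [Real.rpow_one] at h4

theorem half_I (y : ℂ) : ‖(I / 2) * y‖ = ‖y‖ / 2 := by
  rw [norm_mul, norm_I_half]; ring

/-- **the core leaf from `YW`** -/
theorem lmin_of_yw {Adm : Dom → ℝ → Prop} (hAdm : ∀ D δ, Adm D δ → D.W δ) (h : YW Adm) :
    LMinW Adm := by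
  intro D δ hD G hG m hm r hr z hz hl r' hr' z' hz' hl'
  have hOK := hAdm D δ hD
  obtain ⟨C, K, a, C4, hC, hK, ha, hC4, hgood⟩ := good_ev D hOK.Lpos
  obtain ⟨X, hX, hX1⟩ := ynear (K := K) (a := a) hOK hC hC4.le hr hz
  obtain ⟨X', hX', hX1'⟩ := ynear (K := K) (a := a) hOK hC hC4.le hr' hz'
  rw [Metric.tendsto_nhds]
  intro e he
  obtain ⟨B, hB0, hB1, hB2⟩ : ∃ B : ℝ, 0 ≤ B ∧ (∀ ε ω, ‖Sb r (D.h ε ω) z‖ ≤ B) ∧
      ∀ ε ω, ‖Db r' (D.h ε ω) z'‖ ≤ B := by
    refine ⟨max (CS / r * 3) (CS / r' * 3), ?_, fun ε ω => ?_, fun ε ω => ?_⟩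
    · refine le_trans (norm_nonneg (Sb r (D.h 1 (Classical.arbitrary _)) z)) ?_
      exact (B6x654.Sb_le (B6bx903.hval_BM _) hr z).trans (le_max_left _ _)
    · exact (B6x654.Sb_le (B6bx903.hval_BM _) hr z).trans (le_max_left _ _)
    · exact (B6x654.Db_le (B6bx903.hval_BM _) hr' z').trans (le_max_right _ _)
  set η : ℝ := e / (4 * (1 + B)) with hη
  have hη0 : 0 < η := by positivity
  have hηe : η * (4 * (1 + B)) = e := by
    rw [hη]; field_simp
  filter_upwards [hX1, hX1', hgood, h D δ hD m hm r hr z hz hl r' hr' z' hz' hl' η hη0,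
    hX.eventually (ge_mem_nhds hη0), hX'.eventually (ge_mem_nhds hη0), hG.hm2, ev_unit,
    (tendsto_id.mono_left nhdsWithin_le_nhds : Tendsto (fun ε : ℝ => ε) (𝓝[>] 0) (𝓝 0)).eventually
      (ge_mem_nhds hη0)] with ε e1 e1' e2 e3 e4 e4' e5 e6 e7
  have hs : Sb r (HG D G ε) z = ∫ ω in G ε, Sb r (D.h ε ω) z ∂sampleLaw :=
    (Sb_integral (sampleLaw.restrict (G ε)) e5 (fun ω z => norm_h_le D ε ω z) hr z).symm
  have hd : Db r' (HG D G ε) z' = ∫ ω in G ε, Db r' (D.h ε ω) z' ∂sampleLaw :=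
    (Db_integral (sampleLaw.restrict (G ε)) e5 (fun ω z => norm_h_le D ε ω z) hr' z').symm
  have hcjn : ‖Sb r' (cj (HG D G ε)) z'‖ = ‖Db r' (HG D G ε) z'‖ := by
    unfold Asmx336.Db
    rw [Complex.norm_conj]
  have hfin : (η + η / 2) + B * (η + η) < e := by
    rw [← hηe]
    nlinarith
  have hbad : ∀ {P : Set Sample}, sampleLaw P ≤ ENNReal.ofReal η →
      sampleLaw ({ω | ¬ Good D ε C K a C4 ω} ∪ P) ≤ ENNReal.ofReal (η + η) := by
    intro P hP
    refine (measure_union_le _ _).trans ?_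
    rw [ENNReal.ofReal_add hη0.le hη0.le]
    exact add_le_add (e2.trans (ENNReal.ofReal_le_ofReal e7)) hP
  have hmin : 0 ≤ min ‖Sb r (HG D G ε) z‖ ‖Sb r' (cj (HG D G ε)) z'‖ :=
    le_min (norm_nonneg _) (norm_nonneg _)
  rw [Real.dist_eq, sub_zero, abs_of_nonneg hmin]
  rcases e3 with e3 | e3
  · refine (min_le_left _ _).trans_lt (lt_of_le_of_lt ?_ hfin)
    rw [hs]
    refine int_le sampleLaw (by positivity) hB0 (by positivity) (hB1 ε) (fun ω hω => ?_) (hbad e3)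
    rw [mem_union, not_or] at hω
    have g1 : Good D ε C K a C4 ω := not_not.1 hω.1
    have g2 : ‖Yb D ε ω (tst r z)‖ ≤ η := not_lt.1 hω.2
    have g3 := (e1 ω g1).1
    have g4 : Sb r (D.h ε ω) z = (Sb r (D.h ε ω) z + (I / 2) * Yb D ε ω (tst r z)) -
        (I / 2) * Yb D ε ω (tst r z) := by ring
    rw [g4]
    refine (norm_sub_le _ _).trans ?_
    rw [half_I]
    linarith
  · refine (min_le_right _ _).trans_lt (lt_of_le_of_lt ?_ hfin)
    rw [hcjn, hd]
    refine int_le sampleLaw (by positivity) hB0 (by positivity) (hB2 ε) (fun ω hω => ?_) (hbad e3)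
    rw [mem_union, not_or] at hω
    have g1 : Good D ε C K a C4 ω := not_not.1 hω.1
    have g2 : ‖Yd D ε ω (tst r' z')‖ ≤ η := not_lt.1 hω.2
    have g3 := (e1' ω g1).2
    have g4 : Db r' (D.h ε ω) z' = (Db r' (D.h ε ω) z' - (I / 2) * Yd D ε ω (tst r' z')) +
        (I / 2) * Yd D ε ω (tst r' z') := by ring
    rw [g4]
    refine (norm_add_le _ _).trans ?_
    rw [half_I]
    linarith

end Crest.Agent.R143.DicDx831
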