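import Crest.Agent.R143.Mab3_377
import Crest.Agent.R143.DicD_831
import Crest.Agent.R143.Ad_422

-- ▼ part R143/AsmN_758
section

/-!
# Row 143 (S0194), STEP 4, analysis half, deterministic part (helper758)

`S` sites, `N` network, `xs N l J j` = states of the exploration by exits of `l`-balls (Mab_377).
* `cnt` : number of live states with the tip in the ball `B(z, R)`; `av` : mean over `Om N`
* `sY` : sum of `‖Y‖` over these states
* `det1` : `‖∑ Q w φ(cc)‖ ≤ K1 l² av cnt + K2 l av sY`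
* `det2` : `av sY ≤ M θ + B av (cnt; cnt > M) + B M av (bad θ)`
-/

set_option autoImplicit false

noncomputable section

open scoped Classical

namespace Crest.Agent.R143.AsmNx758

open Complex Set Filter Topology MeasureTheory
open Crest.ProbabilityR.Voronoi
open Crest.Agent.R143.B0x346 Crest.Agent.R143.B0Dx346
open Crest.Agent.R143.JCardx872 Crest.Agent.R143.JWalkx872
open Crest.Agent.R143.J1x872 Crest.Agent.R143.J4x872
open Crest.Agent.R143.Mabx377
open Crest.Agent.R143.B1gx991 (side_inT tri_pos)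
open Crest.Agent.R143.B1bx796 (touch phi phi_zero)
open Crest.Agent.R143.Locx922
open Crest.Agent.R143.DicBx831 (cc)
open Crest.Agent.R143.DicCx831 (near_pt cc_near cc_inT phi_lip)
open Crest.Agent.R143.DicDx831 (tst)

variable {S : Finset ℂ} {N : Net ℂ} {z : ℂ} {l d r R : ℝ}

/-! ### counting -/

/-- number of live states with the tip in the ball -/
def cnt (S : Finset ℂ) (N : Net ℂ) (l : ℝ) (z : ℂ) (R : ℝ) (J : Finset (ℂ × ℂ)) : ℕ :=
  ((Finset.range (fuel N + 1)).filter fun j =>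
    Alive S N (xs N l J j) ∧ dist (mid (xs N l J j).2) z < R).card

/-- mean over the interfaces -/
def av (N : Net ℂ) (f : Finset (ℂ × ℂ) → ℝ) : ℝ := (∑ J ∈ Om N, f J) / ((Om N).card : ℝ)

/-- sum of `‖Y‖` over the live states with the tip in the ball -/
def sY (S : Finset ℂ) (N : Net ℂ) (w : ℂ × ℂ × ℂ → ℂ) (l : ℝ) (z : ℂ) (R : ℝ)
    (J : Finset (ℂ × ℂ)) : ℝ :=
  ∑ j ∈ (Finset.range (fuel N + 1)).filter fun j =>
    Alive S N (xs N l J j) ∧ dist (mid (xs N l J j).2) z < R, ‖Y S N w (xs N l J j)‖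

/-- some live state with the tip in the ball has a large total -/
def Bad (S : Finset ℂ) (N : Net ℂ) (w : ℂ × ℂ × ℂ → ℂ) (l : ℝ) (z : ℂ) (R θ : ℝ)
    (J : Finset (ℂ × ℂ)) : Prop :=
  ∃ j ∈ Finset.range (fuel N + 1), Alive S N (xs N l J j) ∧
    dist (mid (xs N l J j).2) z < R ∧ θ < ‖Y S N w (xs N l J j)‖

theorem av_mono {f g : Finset (ℂ × ℂ) → ℝ} (h : ∀ J ∈ Om N, f J ≤ g J) : av N f ≤ av N g :=
  div_le_div_of_nonneg_right (Finset.sum_le_sum h) (Nat.cast_nonneg _)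

theorem av_add (f g : Finset (ℂ × ℂ) → ℝ) : av N (fun J => f J + g J) = av N f + av N g := by
  unfold av
  rw [Finset.sum_add_distrib, add_div]

theorem av_mul (c : ℝ) (f : Finset (ℂ × ℂ) → ℝ) : av N (fun J => c * f J) = c * av N f := by
  unfold av
  rw [← Finset.mul_sum, mul_div_assoc]

theorem av_const_le {c : ℝ} (hc : 0 ≤ c) : av N (fun _ => c) ≤ c := by
  unfold av
  rw [Finset.sum_const, nsmul_eq_mul]
  rcases eq_or_ne ((Om N).card : ℝ) 0 with h | h
  · rw [h, div_zero]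
    exact hc
  · rw [mul_div_cancel_left₀ _ h]


/-! ### geometry near a point -/

/-- the vertices of a triangle are near the middle of each side -/
theorem sd_near (h : HNet S N) (hd : 0 < d) (hH : Hol (S : Set ℂ) (Metric.closedBall z R) d)
    {t : ℂ × ℂ × ℂ} (ht : t ∈ delT S) (i : ZMod 3) (hx : ‖mid (sd t i) - z‖ ≤ R) :
    ‖t.1 - mid (sd t i)‖ < 2 * d ∧ ‖t.2.1 - mid (sd t i)‖ < 2 * d ∧
      ‖t.2.2 - mid (sd t i)‖ < 2 * d := by
  have hm : ∀ a b : ℂ, mid (a, b) ∈ segment ℝ a b := by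
    intro a b
    unfold mid
    rw [segment_eq_image]
    refine ⟨1 / 2, ⟨by norm_num, by norm_num⟩, ?_⟩
    simp only [Complex.real_smul]
    push_cast
    ring
  obtain ⟨a, b, c⟩ := t
  have h1 : (b, c, a) ∈ delT S := Frame5x395.rot_mem h ht
  have h2 : (c, a, b) ∈ delT S := Frame5x395.rot_mem h h1
  revert i
  rw [forall_z3, sd0, sd1, sd2]
  refine ⟨fun hx => ?_, fun hx => ?_, fun hx => ?_⟩
  · obtain ⟨e1, e2, e3⟩ := near_pt hd hH ht (side_inT (tri_pos ht) (hm a b)) hx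
    exact ⟨e1, e2, e3⟩
  · obtain ⟨e1, e2, e3⟩ := near_pt hd hH h1 (side_inT (tri_pos h1) (hm b c)) hx
    exact ⟨e3, e1, e2⟩
  · obtain ⟨e1, e2, e3⟩ := near_pt hd hH h2 (side_inT (tri_pos h2) (hm c a)) hx
    exact ⟨e2, e3, e1⟩

theorem mid_le {a b x : ℂ} {e : ℝ} (h1 : ‖a - x‖ < e) (h2 : ‖b - x‖ < e) :
    ‖mid (a, b) - x‖ < e := by
  have h : mid (a, b) - x = ((a - x) + (b - x)) / 2 := by
    unfold mid
    ring
  have h3 := norm_add_le (a - x) (b - x)
  rw [h, norm_div, Complex.norm_ofNat]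
  linarith

/-- the middles of the sides of a triangle near the ball -/
theorem sd_sd (h : HNet S N) (hd : 0 < d) (hH : Hol (S : Set ℂ) (Metric.closedBall z R) d)
    {t : ℂ × ℂ × ℂ} (ht : t ∈ delT S) (i j : ZMod 3) (hx : ‖mid (sd t i) - z‖ ≤ R) :
    ‖mid (sd t j) - mid (sd t i)‖ < 2 * d := by
  obtain ⟨e1, e2, e3⟩ := sd_near h hd hH ht i hx
  revert j
  rw [forall_z3, sd0, sd1, sd2]
  exact ⟨mid_le e1 e2, mid_le e2 e3, mid_le e3 e1⟩

theorem mid_sw (a b : ℂ) : mid (a, b) = mid (b, a) := by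
  unfold mid
  ring

/-- a turn near the ball is short -/
theorem turn_near (h : HNet S N) (hd : 0 < d) (hH : Hol (S : Set ℂ) (Metric.closedBall z R) d)
    {p q u : ℂ × ℂ} (ht : Turn N.toTrg p q u)
    (hx : ‖mid p - z‖ ≤ R ∨ ‖mid q - z‖ ≤ R) : ‖mid q - mid p‖ < 2 * d := by
  obtain ⟨c, hc, hq⟩ := ht
  have hS : (p.1, p.2, c) ∈ delT S := h.tri ▸ hc
  have hp : mid p = mid (sd (p.1, p.2, c) 0) := by rw [sd0]
  have key : ∃ i, mid q = mid (sd (p.1, p.2, c) i) := by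
    rcases hq with ⟨rfl, _⟩ | ⟨rfl, _⟩
    · exact ⟨1, by rw [sd1, mid_sw]⟩
    · exact ⟨2, by rw [sd2, mid_sw]⟩
  obtain ⟨i, hi⟩ := key
  rw [hp, hi] at hx ⊢
  rcases hx with hx | hx
  · exact sd_sd h hd hH hS 0 i hx
  · rw [norm_sub_rev]
    exact sd_sd h hd hH hS i 0 hx

/-- the last turn of a path -/
theorem fol_last {G : Trg ℂ} {O : Set (ℂ × ℂ × ℂ)} {D : Set (ℂ × ℂ)} {J : Finset (ℂ × ℂ)} :
    ∀ (L : Pt ℂ) (p q : ℂ × ℂ), Fol G O D J p L q →
      q = p ∨ ∃ m u, (∃ a ∈ L, a.1 = m) ∧ Turn G m q u := by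
  intro L
  induction L with
  | nil =>
    intro p q h
    exact Or.inl (Eq.symm h)
  | cons a L ih =>
    rintro p q ⟨h1, m, h2, _, h4⟩
    right
    rcases ih m q h4 with e | ⟨m', u, ⟨b, hb, hb'⟩, hT⟩
    · subst e
      exact ⟨p, a.2, ⟨a, List.mem_cons_self .., h1⟩, h2⟩
    · exact ⟨m', u, ⟨b, List.mem_cons_of_mem _ hb, hb'⟩, hT⟩

/-! ### the test function -/

/-- hypotheses near the point `z` -/
structure Nr (S : Finset ℂ) (N : Net ℂ) (z : ℂ) (r l d L V : ℝ) : Prop where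
  net : HNet S N
  rpos : 0 < r
  lpos : 0 < l
  dpos : 0 < d
  hol : Hol (S : Set ℂ) (Metric.closedBall z (3 * r)) d
  sm1 : 2 * d ≤ l
  sm2 : 2 * l ≤ r
  L0 : 0 ≤ L
  lip : ∀ x y, ‖phi r z x - phi r z y‖ ≤ L * ‖x - y‖
  V0 : 0 ≤ V
  sq : ∀ c, ‖c - z‖ < 2 * r → ∑ t ∈ touch c (2 * l) S, ‖t.2.1 - t.1‖ ^ 2 ≤ V * l ^ 2

variable {L V : ℝ}

/-- the test function on the states -/
def psi (r : ℝ) (z : ℂ) (p : ℂ × ℂ) : ℂ := phi r z (mid p)

/-- the test function on the triangles -/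
def phc (r : ℝ) (z : ℂ) (t : ℂ × ℂ × ℂ) : ℂ := phi r z (cc t)

theorem near_cc (H : Nr S N z r l d L V) {t : ℂ × ℂ × ℂ} (ht : t ∈ delT S) {i : ZMod 3}
    (hx : ‖mid (sd t i) - z‖ ≤ 3 * r) : ‖cc t - mid (sd t i)‖ ≤ 2 * d := by
  obtain ⟨e1, e2, e3⟩ := sd_near H.net H.dpos H.hol ht i hx
  exact cc_near e1 e2 e3

/-- if the centre of gravity is in the ball, the middles of the sides are near it -/
theorem near_cc' (H : Nr S N z r l d L V) {t : ℂ × ℂ × ℂ} (ht : t ∈ delT S) (i : ZMod 3)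
    (hx : ‖cc t - z‖ ≤ 3 * r) : ‖mid (sd t i) - cc t‖ < 2 * d := by
  obtain ⟨e1, e2, e3⟩ := near_pt H.dpos H.hol ht (cc_inT (tri_pos ht)) hx
  change ‖t.1 - cc t‖ < 2 * d at e1
  change ‖t.2.1 - cc t‖ < 2 * d at e2
  change ‖t.2.2 - cc t‖ < 2 * d at e3
  revert i
  rw [forall_z3, sd0, sd1, sd2]
  exact ⟨mid_le e1 e2, mid_le e2 e3, mid_le e3 e1⟩

/-- error of one step -/
theorem errB_le (H : Nr S N z r l d L V) {w : ℂ × ℂ × ℂ → ℂ}
    (hw : ∀ t, ‖w t‖ ≤ ‖t.2.1 - t.1‖) (x : St ℂ) :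
    errB S l (phc r z) w (psi r z) x ≤
      if dist (mid x.2) z < 2 * r then 4 * √3 * L * √V * l ^ 2 else 0 := by
  have hl := H.lpos
  have hd := H.dpos
  have h1 := H.sm1
  have h2 := H.sm2
  have hL := H.L0
  unfold errB
  split_ifs with hx
  · rw [dist_eq_norm] at hx
    have hpt : ∀ t ∈ near S l x, ‖(phc r z t - psi r z x.2) * w t‖ ^ 2 ≤
        (L * (2 * l)) ^ 2 * ‖t.2.1 - t.1‖ ^ 2 := by
      intro t ht
      obtain ⟨htS, i, hi⟩ := Finset.mem_filter.1 ht
      rw [dist_eq_norm] at hi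
      have h3 := norm_tri (mid (sd t i)) (mid x.2) z
      have h4 := near_cc H htS (i := i) (by linarith)
      have h5 := norm_tri (cc t) (mid (sd t i)) (mid x.2)
      have h6 : ‖phc r z t - psi r z x.2‖ ≤ L * (2 * l) :=
        (H.lip _ _).trans (mul_le_mul_of_nonneg_left (by linarith) hL)
      rw [norm_mul, mul_pow]
      have h7 := hw t
      have h8 := norm_nonneg (w t)
      have h9 := norm_nonneg (phc r z t - psi r z x.2)
      gcongr
    have hsub : near S l x ⊆ touch (mid x.2) (2 * l) S := by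
      intro t ht
      obtain ⟨htS, i, hi⟩ := Finset.mem_filter.1 ht
      rw [dist_eq_norm] at hi
      have h3 := norm_tri (mid (sd t i)) (mid x.2) z
      have h4 := (sd_near H.net hd H.hol htS i (by linarith)).1
      have h5 := norm_tri t.1 (mid (sd t i)) (mid x.2)
      exact Finset.mem_filter.2 ⟨htS, t.1, left_mem_segment ℝ _ _, by linarith⟩
    have h3 : ∑ t ∈ near S l x, ‖(phc r z t - psi r z x.2) * w t‖ ^ 2 ≤
        (L * (2 * l)) ^ 2 * (V * l ^ 2) := by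
      refine (Finset.sum_le_sum hpt).trans ?_
      rw [← Finset.mul_sum]
      refine mul_le_mul_of_nonneg_left ?_ (sq_nonneg _)
      exact (Finset.sum_le_sum_of_subset_of_nonneg hsub fun _ _ _ => sq_nonneg _).trans
        (H.sq _ hx)
    have h4 := Real.sqrt_le_sqrt h3
    rw [Real.sqrt_mul (sq_nonneg _), Real.sqrt_sq (by positivity), Real.sqrt_mul H.V0,
      Real.sqrt_sq hl.le] at h4
    have h5 : (0 : ℝ) ≤ √3 := Real.sqrt_nonneg _
    have h6 := mul_le_mul_of_nonneg_left h4 h5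
    have e : √3 * (L * (2 * l) * (√V * l)) = 2 * √3 * L * √V * l ^ 2 := by ring
    linarith
  · rw [dist_eq_norm] at hx
    have h0 : ∑ t ∈ near S l x, ‖(phc r z t - psi r z x.2) * w t‖ ^ 2 = 0 := by
      refine Finset.sum_eq_zero fun t ht => ?_
      obtain ⟨htS, i, hi⟩ := Finset.mem_filter.1 ht
      rw [dist_eq_norm] at hi
      have h3 : psi r z x.2 = 0 := phi_zero H.rpos (by linarith)
      have h4 : phc r z t = 0 := by
        refine phi_zero H.rpos ?_
        by_contra hcon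
        push Not at hcon
        have h5 := near_cc' H htS i (by linarith)
        have h6 := norm_tri (mid x.2) (mid (sd t i)) z
        have h7 := norm_tri (mid (sd t i)) (cc t) z
        rw [norm_sub_rev (mid x.2) (mid (sd t i))] at h6
        apply hx
        linarith
      rw [h3, h4, sub_zero, zero_mul, norm_zero]
      norm_num
    rw [h0, Real.sqrt_zero]
    simp

/-- the increment of the test function -/
theorem psi_step (H : Nr S N z r l d L V) {J : Finset (ℂ × ℂ)} (hJ : J ∈ Om N) (n : ℕ) :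
    ‖psi r z (xs N l J (n + 1)).2 - psi r z (xs N l J n).2‖ ≤
      if dist (mid (xs N l J (n + 1)).2) z < 2 * r then 2 * L * l else 0 := by
  have hl := H.lpos
  have hd := H.dpos
  have h1 := H.sm1
  have h2 := H.sm2
  have hL := H.L0
  obtain ⟨L'', _, hF, hin, _⟩ := xs_step (good_of_hnet H.net) hl hJ n
  set p := (xs N l J n).2 with hp
  set q := (xs N l J (n + 1)).2 with hq
  rcases fol_last L'' p q hF with e | ⟨m, u, ⟨a, ha, ham⟩, hT⟩
  · rw [e, sub_self, norm_zero]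
    split_ifs
    · positivity
    · exact le_refl _
  · have h3 := hin a ha
    rw [ham, dist_eq_norm] at h3
    by_cases hq0 : ‖mid q - z‖ < r
    · have h4 := turn_near H.net hd H.hol hT (Or.inr (by linarith))
      have h5 := norm_tri (mid q) (mid m) (mid p)
      rw [if_pos (by rw [dist_eq_norm]; linarith)]
      refine (H.lip _ _).trans ?_
      have := mul_le_mul_of_nonneg_left (show ‖mid q - mid p‖ ≤ 2 * l by linarith) hL
      linarith
    · by_cases hp0 : ‖mid p - z‖ < r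
      · have h6 := norm_tri (mid m) (mid p) z
        have h4 := turn_near H.net hd H.hol hT (Or.inl (by linarith))
        have h5 := norm_tri (mid q) (mid m) (mid p)
        have h7 := norm_tri (mid q) (mid p) z
        rw [if_pos (by rw [dist_eq_norm]; linarith)]
        refine (H.lip _ _).trans ?_
        have := mul_le_mul_of_nonneg_left (show ‖mid q - mid p‖ ≤ 2 * l by linarith) hL
        linarith
      · have e1 : psi r z q = 0 := phi_zero H.rpos (not_lt.1 hq0)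
        have e2 : psi r z p = 0 := phi_zero H.rpos (not_lt.1 hp0)
        rw [e1, e2, sub_zero, norm_zero]
        split_ifs
        · positivity
        · exact le_refl _

theorem Y_zero {w : ℂ × ℂ × ℂ → ℂ} {x : St ℂ} (h : ¬ Alive S N x) : Y S N w x = 0 := by
  unfold Y
  refine Finset.sum_eq_zero fun t ht => ?_
  by_contra hne
  refine h ⟨t, ht, fun h0 => hne ?_⟩
  rw [h0, mul_zero]

/-- **STEP 4, deterministic form** -/
theorem det1 (H : Nr S N z r l d L V) {w : ℂ × ℂ × ℂ → ℂ} (hw : ∀ t, ‖w t‖ ≤ ‖t.2.1 - t.1‖)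
    (hm : r ≤ ‖mid (N.ex 0) - z‖) :
    ‖∑ t ∈ delT S, N.Q t * (w t * (tst r z (cc t) : ℂ))‖ ≤
      4 * √3 * L * √V * (l ^ 2 * av N fun J => (cnt S N l z (2 * r) J : ℝ)) +
        2 * L * l * av N (sY S N w l z (2 * r)) := by
  have hl := H.lpos
  have hL := H.L0
  have h1 := mab_ball H.net hl (phc r z) w (psi r z) (le_refl (fuel N))
  have e0 : ∑ t ∈ delT S, N.Q t * (w t * (tst r z (cc t) : ℂ)) =
      ∑ t ∈ delT S, phc r z t * w t * N.Q t := by
    refine Finset.sum_congr rfl fun t _ => ?_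
    have : phc r z t = (tst r z (cc t) : ℂ) := rfl
    rw [this]
    ring
  have e1 : psi r z (N.ex 0) = 0 := phi_zero H.rpos hm
  rw [e1, norm_zero, zero_mul, zero_add] at h1
  rw [e0]
  refine h1.trans ?_
  rw [← mul_assoc, ← av_mul, ← av_mul, ← av_add]
  refine av_mono (N := N) fun J hJ => ?_
  set K1 : ℝ := 4 * √3 * L * √V with hK1
  have hK1' : 0 ≤ K1 := by positivity
  have a1 : ∀ j, (if Alive S N (xs N l J j) then
      errB S l (phc r z) w (psi r z) (xs N l J j) else 0) ≤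
      if Alive S N (xs N l J j) ∧ dist (mid (xs N l J j).2) z < 2 * r then K1 * l ^ 2 else 0 := by
    intro j
    by_cases h2 : Alive S N (xs N l J j)
    · rw [if_pos h2]
      refine (errB_le H hw _).trans (le_of_eq ?_)
      by_cases h3 : dist (mid (xs N l J j).2) z < 2 * r
      · rw [if_pos h3, if_pos ⟨h2, h3⟩]
      · rw [if_neg h3, if_neg fun h => h3 h.2]
    · rw [if_neg h2, if_neg fun h => h2 h.1]
  have a2 : ∀ j, ‖psi r z (xs N l J (j + 1)).2 - psi r z (xs N l J j).2‖ *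
      ‖Y S N w (xs N l J (j + 1))‖ ≤ 2 * L * l *
      (if Alive S N (xs N l J (j + 1)) ∧ dist (mid (xs N l J (j + 1)).2) z < 2 * r then
        ‖Y S N w (xs N l J (j + 1))‖ else 0) := by
    intro j
    by_cases h2 : Alive S N (xs N l J (j + 1))
    · have h4 := psi_step H hJ j
      by_cases h3 : dist (mid (xs N l J (j + 1)).2) z < 2 * r
      · rw [if_pos h3] at h4
        rw [if_pos ⟨h2, h3⟩]
        exact mul_le_mul_of_nonneg_right h4 (norm_nonneg _)
      · rw [if_neg h3] at h4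
        rw [if_neg fun h => h3 h.2, mul_zero]
        have h5 : ‖psi r z (xs N l J (j + 1)).2 - psi r z (xs N l J j).2‖ = 0 :=
          le_antisymm h4 (norm_nonneg _)
        rw [h5, zero_mul]
    · rw [Y_zero h2, norm_zero, mul_zero]
      split_ifs <;> simp
  have b1 : ∑ j ∈ Finset.range (fuel N), (if Alive S N (xs N l J j) then
      errB S l (phc r z) w (psi r z) (xs N l J j) else 0) ≤
      K1 * l ^ 2 * (cnt S N l z (2 * r) J : ℝ) := by
    refine (Finset.sum_le_sum fun j _ => a1 j).trans ?_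
    have h5 : ∑ j ∈ Finset.range (fuel N), (if Alive S N (xs N l J j) ∧
        dist (mid (xs N l J j).2) z < 2 * r then K1 * l ^ 2 else 0) ≤
        ∑ j ∈ Finset.range (fuel N + 1), (if Alive S N (xs N l J j) ∧
        dist (mid (xs N l J j).2) z < 2 * r then K1 * l ^ 2 else 0) := by
      refine Finset.sum_le_sum_of_subset_of_nonneg
        (Finset.range_mono (Nat.le_succ _)) fun j _ _ => ?_
      split_ifs
      · positivity
      · exact le_refl _
    refine h5.trans (le_of_eq ?_)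
    rw [← Finset.sum_filter, Finset.sum_const, nsmul_eq_mul, mul_comm]
    rfl
  have b2 : ∑ j ∈ Finset.range (fuel N), ‖psi r z (xs N l J (j + 1)).2 -
      psi r z (xs N l J j).2‖ * ‖Y S N w (xs N l J (j + 1))‖ ≤
      2 * L * l * sY S N w l z (2 * r) J := by
    refine (Finset.sum_le_sum fun j _ => a2 j).trans ?_
    rw [← Finset.mul_sum]
    refine mul_le_mul_of_nonneg_left ?_ (by positivity)
    unfold sY
    rw [Finset.sum_filter, Finset.sum_range_succ' (n := fuel N)]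
    have : (0 : ℝ) ≤ if Alive S N (xs N l J 0) ∧ dist (mid (xs N l J 0).2) z < 2 * r then
        ‖Y S N w (xs N l J 0)‖ else 0 := by
      split_ifs
      · exact norm_nonneg _
      · exact le_refl _
    linarith
  unfold costB
  rw [Finset.sum_add_distrib]
  exact add_le_add b1 b2

/-- **STEP 4, splitting** -/
theorem det2 {w : ℂ × ℂ × ℂ → ℂ} {B θ : ℝ} (hθ : 0 ≤ θ) (hB : 0 ≤ B)
    (M : ℕ) (hY : ∀ J ∈ Om N, ¬ Bad S N w l z R B J) :
    av N (sY S N w l z R) ≤ M * θ + B * av N (fun J => if M < cnt S N l z R J then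
      (cnt S N l z R J : ℝ) else 0) + B * M * av N (fun J => if Bad S N w l z R θ J then
        1 else 0) := by
  have h1 : ∀ J ∈ Om N, sY S N w l z R J ≤ M * θ + (B * (if M < cnt S N l z R J then
      (cnt S N l z R J : ℝ) else 0) + B * M * (if Bad S N w l z R θ J then 1 else 0)) := by
    intro J hJ
    have hb : ∀ {b : ℝ}, ¬ Bad S N w l z R b J → sY S N w l z R J ≤ cnt S N l z R J * b := by
      intro b hb
      unfold sY cnt
      rw [← nsmul_eq_mul]
      refine Finset.sum_le_card_nsmul _ _ _ fun j hj => ?_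
      obtain ⟨hj1, hj2, hj3⟩ := Finset.mem_filter.1 hj
      by_contra hcon
      push Not at hcon
      exact hb ⟨j, hj1, hj2, hj3, hcon⟩
    have hc := hb (hY J hJ)
    have hn : (0 : ℝ) ≤ (cnt S N l z R J : ℝ) := Nat.cast_nonneg _
    have hM : (0 : ℝ) ≤ (M : ℝ) := Nat.cast_nonneg _
    by_cases h2 : M < cnt S N l z R J
    · rw [if_pos h2]
      have h5 : 0 ≤ B * M * (if Bad S N w l z R θ J then (1 : ℝ) else 0) := by
        split_ifs <;> positivity
      have h6 : 0 ≤ M * θ := by positivity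
      linarith
    · rw [if_neg h2, mul_zero, zero_add]
      have h3 : (cnt S N l z R J : ℝ) ≤ M := by exact_mod_cast not_lt.1 h2
      by_cases h4 : Bad S N w l z R θ J
      · rw [if_pos h4, mul_one]
        have h6 : 0 ≤ M * θ := by positivity
        have h7 := mul_le_mul_of_nonneg_right h3 hB
        linarith
      · rw [if_neg h4, mul_zero, add_zero]
        exact (hb h4).trans (mul_le_mul_of_nonneg_right h3 hθ)
  refine (av_mono h1).trans ?_
  have h2 := av_const_le (N := N) (c := (M : ℝ) * θ) (by positivity)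
  have h3 := av_add (N := N) (fun _ => (M : ℝ) * θ) (fun J => B * (if M < cnt S N l z R J then
      (cnt S N l z R J : ℝ) else 0) + B * M * (if Bad S N w l z R θ J then 1 else 0))
  have h4 := av_add (N := N) (fun J => B * (if M < cnt S N l z R J then
      (cnt S N l z R J : ℝ) else 0)) (fun J => B * M * (if Bad S N w l z R θ J then 1 else 0))
  have h5 := av_mul (N := N) B (fun J => if M < cnt S N l z R J then
      (cnt S N l z R J : ℝ) else 0)
  have h6 := av_mul (N := N) (B * M) (fun J => if Bad S N w l z R θ J then 1 else 0)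
  rw [h3, h4, h5, h6]
  linarith

end Crest.Agent.R143.AsmNx758
end
end

-- ▼ part R143/AsmO_758

/-!
# Row 143 (S0194), STEP 4, analysis half, assembly (helper758)

Literal leaves (all for `Adm`, e.g. `AdP`): `NST` (number of steps), `UIJ` (uniform integrability at
fixed `l`), `BND w` (bounded totals), `CONT w T` (slit domains against finitely many polygons),
`POLY T T'` (the dichotomy for polygons, per `ε`).
* `yw_of : NST → UIJ → BND we → BND wd → CONT we T → CONT wd T' → POLY T T' → YW`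
-/

set_option autoImplicit false

noncomputable section

open scoped Classical

namespace Crest.Agent.R143.AsmNx758

open Complex Set Filter Topology MeasureTheory
open scoped ENNReal
open Crest.ProbabilityR.Voronoi
open Crest.Agent.R143.B0x346 Crest.Agent.R143.B0Dx346 Crest.Agent.R143.PP1x831
open Crest.Agent.R143.Y0x831 (Good)
open Crest.Agent.R143.Mabx377
open Crest.Agent.R143.B1bx796 (touch phi phi_zero)
open Crest.Agent.R143.Locx922
open Crest.Agent.R143.Spinex422 (Room Linked)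
open Crest.Agent.R143.B6Ix903 (net)
open Crest.Agent.R143.DicBx831 (cc)
open Crest.Agent.R143.DicCx831 (phi_lip rad_small rad_pos ev_unit log_small)
open Crest.Agent.R143.DicDx831 (tst Yb Yd YW room_norm good_ev)

/-- weight of the mean end point -/
def we (t : ℂ × ℂ × ℂ) : ℂ := t.2.1 - t.1

/-- conjugate weight -/
def wd (t : ℂ × ℂ × ℂ) : ℂ := (starRingEnd ℂ) (t.2.1 - t.1)

theorem we_le (t : ℂ × ℂ × ℂ) : ‖we t‖ ≤ ‖t.2.1 - t.1‖ := le_rfl

theorem wd_le (t : ℂ × ℂ × ℂ) : ‖wd t‖ ≤ ‖t.2.1 - t.1‖ := by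
  unfold wd
  rw [Complex.norm_conj]

/-! ### the leaves -/

/-- **leaf NST**: `l²` times the mean number of steps is small -/
def NST (Adm : Dom → ℝ → Prop) : Prop := ∀ (D : Dom) (δ : ℝ), Adm D δ → ∀ m > 0, ∀ r > 0,
  ∀ z : ℂ, Room D (4 * r) z → Linked D m z → ∀ η > 0, ∃ l0 > 0, ∀ l > 0, l < l0 →
  ∀ᶠ ε : ℝ in 𝓝[>] 0, sampleLaw {ω | η < l ^ 2 * av (net D ε ω) (fun J =>
    (cnt (D.sites ε ω) (net D ε ω) l z (2 * r) J : ℝ))} ≤ ENNReal.ofReal η

/-- **leaf UIJ**: for fixed `l`, the number of steps is uniformly integrable -/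
def UIJ (Adm : Dom → ℝ → Prop) : Prop := ∀ (D : Dom) (δ : ℝ), Adm D δ → ∀ m > 0, ∀ r > 0,
  ∀ z : ℂ, Room D (4 * r) z → Linked D m z → ∀ l > 0, 4 * l < r → ∀ η > 0, ∃ M : ℕ,
  ∀ᶠ ε : ℝ in 𝓝[>] 0, sampleLaw {ω | η < av (net D ε ω) (fun J =>
    if M < cnt (D.sites ε ω) (net D ε ω) l z (2 * r) J then
      (cnt (D.sites ε ω) (net D ε ω) l z (2 * r) J : ℝ) else 0)} ≤ ENNReal.ofReal η

/-- **leaf BND**: the totals of the explored networks are bounded -/
def BND (w : ℂ × ℂ × ℂ → ℂ) (Adm : Dom → ℝ → Prop) : Prop := ∀ (D : Dom) (δ : ℝ), Adm D δ →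
  ∀ m > 0, ∀ r > 0, ∀ z : ℂ, Room D (4 * r) z → Linked D m z → ∃ B : ℝ, 0 ≤ B ∧
  ∀ l > 0, 4 * l < r → ∀ η > 0, ∀ᶠ ε : ℝ in 𝓝[>] 0,
    sampleLaw {ω | ∃ J ∈ Om (net D ε ω), Bad (D.sites ε ω) (net D ε ω) w l z (2 * r) B J} ≤
      ENNReal.ofReal η

/-- **leaf CONT**: the totals of the explored networks are controlled by finitely many polygons -/
def CONT {U : Type} (w : ℂ × ℂ × ℂ → ℂ) (T : U → ℝ → Sample → ℂ) (Adm : Dom → ℝ → Prop) : Prop :=
  ∀ (D : Dom) (δ : ℝ), Adm D δ → ∀ m > 0, ∀ r > 0, ∀ z : ℂ, Room D (4 * r) z → Linked D m z →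
  ∀ l > 0, 4 * l < r → ∀ η > 0, ∃ (P : Finset U) (A : ℝ), 0 ≤ A ∧ ∀ᶠ ε : ℝ in 𝓝[>] 0,
    sampleLaw {ω | η < av (net D ε ω) (fun J =>
      if Bad (D.sites ε ω) (net D ε ω) w l z (2 * r) (η + A * ∑ u ∈ P, ‖T u ε ω‖) J then
        1 else 0)} ≤ ENNReal.ofReal η

/-- **leaf POLY**: dichotomy of the totals of the polygons, per `ε` -/
def POLY {U U' : Type} (T : U → ℝ → Sample → ℂ) (T' : U' → ℝ → Sample → ℂ) : Prop :=
  ∀ (u : U) (u' : U'), ∀ η > 0, ∀ᶠ ε : ℝ in 𝓝[>] 0,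
    sampleLaw {ω | η < ‖T u ε ω‖} ≤ ENNReal.ofReal η ∨
    sampleLaw {ω | η < ‖T' u' ε ω‖} ≤ ENNReal.ofReal η

/-! ### a good environment gives the hypotheses of the deterministic part -/

/-- a good environment gives a network -/
theorem hnet_evW {D : Dom} {δ C : ℝ} (hD : D.W δ) :
    ∀ᶠ ε : ℝ in 𝓝[>] 0, ∀ (K a C4 : ℝ) (ω : Sample), Good D ε C K a C4 ω →
      HNet (D.sites ε ω) (net D ε ω) := by
  have hδ := hD.dpos
  have hL := hD.Lpos
  filter_upwards [(rad_small C).eventually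
    (ge_mem_nhds (show (0 : ℝ) < δ ^ 6 / (40000 * D.L ^ 5) by positivity))] with ε h K a C4 ω hω
  refine Adx422.d1 hD hω.env ?_
  rw [le_div_iff₀ (by positivity)] at h
  linarith

theorem nr_of_good {D : Dom} {δ C K a C4 : ℝ} (hD : D.W δ) (hC : 0 < C) (hC4 : 0 ≤ C4) {r : ℝ}
    (hr : 0 < r) {z : ℂ} (hz : Room D (4 * r) z) {l : ℝ} (hl : 0 < l) (hlr : 4 * l < r)
    (hl1 : 4 * l ≤ 1) {L : ℝ} (hL : 0 ≤ L)
    (hLip : ∀ x y, ‖phi r z x - phi r z y‖ ≤ L * ‖x - y‖) :
    ∀ᶠ ε : ℝ in 𝓝[>] 0, ∀ ω : Sample, Good D ε C K a C4 ω →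
      Nr (D.sites ε ω) (net D ε ω) z r l (rad C ε) L (64 * C4) ∧
        r ≤ ‖mid ((net D ε ω).ex 0) - z‖ := by
  have h1 := room_norm hz (by linarith)
  have h7 : 0 ≤ ‖z - D.c‖ := norm_nonneg _
  have hL0 := hD.Lpos
  filter_upwards [ev_unit, hnet_evW (C := C) hD, (rad_small C).eventually
    (ge_mem_nhds (show (0 : ℝ) < l / 4 by linarith)),
    (log_small a).eventually (ge_mem_nhds (show (0 : ℝ) < 2 * (2 * l) by linarith))]
    with ε e1 e3 e4 e5 ω hω
  have hrad := rad_pos hC e1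
  have hN := e3 K a C4 ω hω
  have hH : Hol (D.sites ε ω : Set ℂ) (Metric.closedBall z (3 * r)) (rad C ε) := by
    refine (Env.hol_sites hω.env).mono (Metric.closedBall_subset_closedBall' ?_)
    rw [dist_eq_norm]
    linarith
  refine ⟨⟨hN, hr, hl, hrad, hH, by linarith, by linarith, hL, hLip, by positivity,
    fun c hc => ?_⟩, ?_⟩
  · have h2 := norm_tri c z D.c
    have h3 := (B6Cx654.touch_sq hω hrad hC4 (z₀ := c) (r := 2 * l) (by linarith) (by linarith)
      e5 (by linarith)).2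
    linarith
  · have h2 := B1gx991.hull_far hrad hH (hN.hex 0) (mid ((net D ε ω).ex 0)) ?_
    · linarith
    · unfold mid
      rw [segment_eq_image]
      refine ⟨1 / 2, ⟨by norm_num, by norm_num⟩, ?_⟩
      simp only [Complex.real_smul]
      push_cast
      ring

/-! ### one side -/

section side

variable {U : Type} {w : ℂ × ℂ × ℂ → ℂ} {T : U → ℝ → Sample → ℂ} {Adm : Dom → ℝ → Prop}

/-- the weighted sum -/
def Yg (w : ℂ × ℂ × ℂ → ℂ) (D : Dom) (ε : ℝ) (ω : Sample) (φ : ℂ → ℝ) : ℂ :=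
  ∑ t ∈ delT (D.sites ε ω), (net D ε ω).Q t * (w t * (φ (cc t) : ℂ))

theorem side (hw : ∀ t, ‖w t‖ ≤ ‖t.2.1 - t.1‖) (hAdm : ∀ D δ, Adm D δ → D.W δ)
    (h1 : NST Adm) (h2 : UIJ Adm) (h3 : BND w Adm) (h4 : CONT w T Adm)
    {D : Dom} {δ : ℝ} (hD : Adm D δ) {m : ℝ} (hm : 0 < m) {r : ℝ} (hr : 0 < r) {z : ℂ}
    (hz : Room D (4 * r) z) (hli : Linked D m z) {η : ℝ} (hη : 0 < η) :
    ∃ (P : Finset U) (η1 : ℝ), 0 < η1 ∧ ∀ᶠ ε : ℝ in 𝓝[>] 0,
      (∀ u ∈ P, sampleLaw {ω | η1 < ‖T u ε ω‖} ≤ ENNReal.ofReal η1) →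
      sampleLaw {ω | η < ‖Yg w D ε ω (tst r z)‖} ≤ ENNReal.ofReal η := by
  have hOK := hAdm D δ hD
  obtain ⟨C, K, a, C4, hC, hK, ha, hC4, hgood⟩ := good_ev D hOK.Lpos
  obtain ⟨L, hL, hLip⟩ := phi_lip hr z
  obtain ⟨B, hB, h3⟩ := h3 D δ hD m hm r hr z hz hli
  set K1 : ℝ := 4 * √3 * L * √(64 * C4) with hK1
  have hK10 : 0 ≤ K1 := by positivity
  -- the scale
  obtain ⟨ηa, hηa, hηa1, hηa2⟩ : ∃ ηa > 0, K1 * ηa ≤ η / 8 ∧ ηa ≤ η / 8 := by
    refine ⟨η / (8 * (1 + K1)), by positivity, ?_, ?_⟩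
    · rw [mul_div_assoc', div_le_div_iff₀ (by positivity) (by norm_num)]
      nlinarith
    · rw [div_le_div_iff₀ (by positivity) (by norm_num)]
      nlinarith [mul_nonneg hη.le hK10]
  obtain ⟨l0, hl0, h1⟩ := h1 D δ hD m hm r hr z hz hli ηa hηa
  obtain ⟨l, hl, hll0, hlr, hl1⟩ : ∃ l > 0, l < l0 ∧ 4 * l < r ∧ 4 * l ≤ 1 := by
    refine ⟨min (l0 / 2) (min (r / 8) (1 / 4)), by positivity, ?_, ?_, ?_⟩
    · exact lt_of_le_of_lt (min_le_left _ _) (by linarith)
    · have : min (l0 / 2) (min (r / 8) (1 / 4)) ≤ r / 8 :=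
        (min_le_right _ _).trans (min_le_left _ _)
      linarith
    · have : min (l0 / 2) (min (r / 8) (1 / 4)) ≤ 1 / 4 :=
        (min_le_right _ _).trans (min_le_right _ _)
      linarith
  have h1 := h1 l hl hll0
  set κ : ℝ := 2 * L * l with hκ
  have hκ0 : 0 ≤ κ := by positivity
  obtain ⟨ηb, hηb, hηb1, hηb2⟩ : ∃ ηb > 0, κ * (B * ηb) ≤ η / 8 ∧ ηb ≤ η / 8 := by
    have hx : 0 ≤ κ * B := mul_nonneg hκ0 hB
    refine ⟨η / (8 * (1 + κ * B)), by positivity, ?_, ?_⟩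
    · rw [← mul_assoc, mul_div_assoc', div_le_div_iff₀ (by positivity) (by norm_num)]
      nlinarith
    · rw [div_le_div_iff₀ (by positivity) (by norm_num)]
      nlinarith [mul_nonneg hη.le hx]
  obtain ⟨M, h2⟩ := h2 D δ hD m hm r hr z hz hli l hl hlr ηb hηb
  obtain ⟨ηc, hηc, hηc1, hηc2⟩ : ∃ ηc > 0, κ * (M * (2 * ηc) + B * M * ηc) ≤ η / 8 ∧
      ηc ≤ η / 8 := by
    have hM : (0 : ℝ) ≤ (M : ℝ) := Nat.cast_nonneg _
    have hx : 0 ≤ κ * (M * 2 + B * M) := by positivity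
    refine ⟨η / (8 * (1 + κ * (M * 2 + B * M))), by positivity, ?_, ?_⟩
    · have e : κ * (M * (2 * (η / (8 * (1 + κ * (M * 2 + B * M))))) +
          B * M * (η / (8 * (1 + κ * (M * 2 + B * M))))) =
          (κ * (M * 2 + B * M)) * (η / (8 * (1 + κ * (M * 2 + B * M)))) := by ring
      rw [e, mul_div_assoc', div_le_div_iff₀ (by positivity) (by norm_num)]
      nlinarith
    · rw [div_le_div_iff₀ (by positivity) (by norm_num)]
      nlinarith [mul_nonneg hη.le hx]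
  obtain ⟨P, A, hA, h4⟩ := h4 D δ hD m hm r hr z hz hli l hl hlr ηc hηc
  have h3 := h3 l hl hlr (η / 8) (by positivity)
  have hP0 : (0 : ℝ) ≤ (P.card : ℝ) := Nat.cast_nonneg _
  obtain ⟨η1, hη1, hη11, hη12⟩ : ∃ η1 > 0, A * (P.card * η1) ≤ ηc ∧ P.card * η1 ≤ η / 8 := by
    refine ⟨ηc / (1 + P.card + A * P.card), by positivity, ?_, ?_⟩
    · rw [← mul_assoc, mul_div_assoc', div_le_iff₀ (by positivity)]
      nlinarith
    · have : P.card * (ηc / (1 + P.card + A * P.card)) ≤ ηc := by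
        rw [mul_div_assoc', div_le_iff₀ (by positivity)]
        nlinarith [mul_nonneg hA hP0]
      linarith
  refine ⟨P, η1, hη1, ?_⟩
  have hNr := nr_of_good (K := K) (a := a) hOK hC hC4.le hr hz hl hlr hl1 hL hLip
  filter_upwards [hgood, hNr, h1, h2, h3, h4, ev_unit,
    (tendsto_id.mono_left nhdsWithin_le_nhds : Tendsto (fun ε : ℝ => ε) (𝓝[>] 0) (𝓝 0)).eventually
      (ge_mem_nhds (show (0 : ℝ) < η / 8 by positivity))] with ε g0 g1 g2 g3 g4 g5 g6 g7 hT
  have hsub : {ω | η < ‖Yg w D ε ω (tst r z)‖} ⊆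
      ({ω | ¬ Good D ε C K a C4 ω} ∪ {ω | ηa < l ^ 2 * av (net D ε ω) (fun J =>
        (cnt (D.sites ε ω) (net D ε ω) l z (2 * r) J : ℝ))}) ∪
      ({ω | ηb < av (net D ε ω) (fun J =>
        if M < cnt (D.sites ε ω) (net D ε ω) l z (2 * r) J then
          (cnt (D.sites ε ω) (net D ε ω) l z (2 * r) J : ℝ) else 0)} ∪
        {ω | ∃ J ∈ Om (net D ε ω),
          Bad (D.sites ε ω) (net D ε ω) w l z (2 * r) B J}) ∪
      ({ω | ηc < av (net D ε ω) (fun J =>
        if Bad (D.sites ε ω) (net D ε ω) w l z (2 * r) (ηc + A * ∑ u ∈ P, ‖T u ε ω‖) J then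
          1 else 0)} ∪ ⋃ u ∈ P, {ω | η1 < ‖T u ε ω‖}) := by
    intro ω hω
    by_contra hcon
    simp only [mem_union, mem_ofPred_eq, mem_iUnion, not_or, not_exists, not_lt, not_not,
      not_and] at hcon
    obtain ⟨⟨⟨c0, c1⟩, c2, c3⟩, c4, c5⟩ := hcon
    obtain ⟨hN, hex⟩ := g1 ω c0
    have hd1 := det1 hN hw hex
    set S' := D.sites ε ω with hS'
    set N' := net D ε ω with hN'
    have hsum0 : 0 ≤ ∑ u ∈ P, ‖T u ε ω‖ := Finset.sum_nonneg fun _ _ => norm_nonneg _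
    have hsum : ∑ u ∈ P, ‖T u ε ω‖ ≤ P.card * η1 := by
      rw [← nsmul_eq_mul]
      exact Finset.sum_le_card_nsmul _ _ _ fun u hu => c5 u hu
    have hθ : ηc + A * ∑ u ∈ P, ‖T u ε ω‖ ≤ 2 * ηc := by
      have := mul_le_mul_of_nonneg_left hsum hA
      linarith
    have hθ0 : 0 ≤ ηc + A * ∑ u ∈ P, ‖T u ε ω‖ := by positivity
    have hd2 := det2 (S := S') (N := N') (w := w) (l := l) (z := z) (R := 2 * r) hθ0 hB M
      (fun J hJ => c3 J hJ)
    have hM : (0 : ℝ) ≤ (M : ℝ) := Nat.cast_nonneg _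
    have hd3 : av N' (sY S' N' w l z (2 * r)) ≤ M * (2 * ηc) + B * ηb + B * M * ηc := by
      refine hd2.trans ?_
      have x1 := mul_le_mul_of_nonneg_left hθ hM
      have x2 := mul_le_mul_of_nonneg_left c2 hB
      have x3 := mul_le_mul_of_nonneg_left c4 (mul_nonneg hB hM)
      linarith
    have hd4 := mul_le_mul_of_nonneg_left hd3 hκ0
    have hd5 := mul_le_mul_of_nonneg_left c1 hK10
    have hd6 : ‖Yg w D ε ω (tst r z)‖ ≤ K1 * (l ^ 2 * av N' fun J =>
        (cnt S' N' l z (2 * r) J : ℝ)) + κ * av N' (sY S' N' w l z (2 * r)) := hd1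
    have hω' : η < ‖Yg w D ε ω (tst r z)‖ := hω
    have e1 : κ * (M * (2 * ηc) + B * ηb + B * M * ηc) =
        κ * (M * (2 * ηc) + B * M * ηc) + κ * (B * ηb) := by ring
    rw [e1] at hd4
    linarith
  have hU : sampleLaw (⋃ u ∈ P, {ω | η1 < ‖T u ε ω‖}) ≤ ENNReal.ofReal (η / 8) := by
    refine (measure_biUnion_finset_le _ _).trans ((Finset.sum_le_sum hT).trans ?_)
    rw [Finset.sum_const, nsmul_eq_mul]
    have e : (P.card : ℝ≥0∞) * ENNReal.ofReal η1 = ENNReal.ofReal (P.card * η1) := by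
      rw [ENNReal.ofReal_mul hP0, ENNReal.ofReal_natCast]
    rw [e]
    exact ENNReal.ofReal_le_ofReal hη12
  have k0 := g0.trans (ENNReal.ofReal_le_ofReal g7)
  have k2 := g2.trans (ENNReal.ofReal_le_ofReal hηa2)
  have k3 := g3.trans (ENNReal.ofReal_le_ofReal hηb2)
  have k5 := g5.trans (ENNReal.ofReal_le_ofReal hηc2)
  have h8 : (0 : ℝ) ≤ η / 8 := by positivity
  have two : ∀ {X Y : Set Sample} {x y : ℝ}, 0 ≤ x → 0 ≤ y → sampleLaw X ≤ ENNReal.ofReal x →
      sampleLaw Y ≤ ENNReal.ofReal y → sampleLaw (X ∪ Y) ≤ ENNReal.ofReal (x + y) := by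
    intro X Y x y hx hy h1 h2
    refine (measure_union_le _ _).trans ?_
    rw [ENNReal.ofReal_add hx hy]
    exact add_le_add h1 h2
  refine (measure_mono hsub).trans ((two (by positivity) (by positivity)
    (two (by positivity) (by positivity) (two h8 h8 k0 k2) (two h8 h8 k3 g4))
    (two h8 h8 k5 hU)).trans (ENNReal.ofReal_le_ofReal (by linarith)))

end side

/-! ### the assembly -/

/-- eventually, for finitely many pairs -/
theorem poly_fin {U U' : Type} {T : U → ℝ → Sample → ℂ} {T' : U' → ℝ → Sample → ℂ}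
    (h : POLY T T') (P : Finset U) (P' : Finset U') {η : ℝ} (hη : 0 < η) :
    ∀ᶠ ε : ℝ in 𝓝[>] 0, (∀ u ∈ P, sampleLaw {ω | η < ‖T u ε ω‖} ≤ ENNReal.ofReal η) ∨
      (∀ u' ∈ P', sampleLaw {ω | η < ‖T' u' ε ω‖} ≤ ENNReal.ofReal η) := by
  have h1 : ∀ᶠ ε : ℝ in 𝓝[>] 0, ∀ u ∈ P, ∀ u' ∈ P',
      sampleLaw {ω | η < ‖T u ε ω‖} ≤ ENNReal.ofReal η ∨
      sampleLaw {ω | η < ‖T' u' ε ω‖} ≤ ENNReal.ofReal η := by
    rw [Filter.eventually_all_finset]
    intro u _
    rw [Filter.eventually_all_finset]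
    intro u' _
    exact h u u' η hη
  filter_upwards [h1] with ε hε
  by_cases h2 : ∀ u ∈ P, sampleLaw {ω | η < ‖T u ε ω‖} ≤ ENNReal.ofReal η
  · exact Or.inl h2
  · right
    push Not at h2
    obtain ⟨u, hu, hu2⟩ := h2
    intro u' hu'
    rcases hε u hu u' hu' with h3 | h3
    · exact absurd h3 (not_le.2 hu2)
    · exact h3

theorem small_mono {f : Sample → ℂ} {η η' : ℝ} (h : η ≤ η')
    (h1 : sampleLaw {ω | η < ‖f ω‖} ≤ ENNReal.ofReal η) :
    sampleLaw {ω | η' < ‖f ω‖} ≤ ENNReal.ofReal η' :=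
  (measure_mono fun _ hω => lt_of_le_of_lt h hω).trans (h1.trans (ENNReal.ofReal_le_ofReal h))

/-- **STEP 4, assembly** -/
theorem yw_of {U U' : Type} {T : U → ℝ → Sample → ℂ} {T' : U' → ℝ → Sample → ℂ}
    {Adm : Dom → ℝ → Prop} (hAdm : ∀ D δ, Adm D δ → D.W δ)
    (h1 : NST Adm) (h2 : UIJ Adm) (h3 : BND we Adm) (h3' : BND wd Adm)
    (h4 : CONT we T Adm) (h4' : CONT wd T' Adm) (h5 : POLY T T') : YW Adm := by
  intro D δ hD m hm r hr z hz hl r' hr' z' hz' hl' η hη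
  obtain ⟨P, η1, hη1, hs⟩ := side we_le hAdm h1 h2 h3 h4 hD hm hr hz hl hη
  obtain ⟨P', η1', hη1', hs'⟩ := side wd_le hAdm h1 h2 h3' h4' hD hm hr' hz' hl' hη
  filter_upwards [hs, hs', poly_fin h5 P P' (lt_min hη1 hη1')] with ε e1 e2 e3
  rcases e3 with e3 | e3
  · left
    exact e1 fun u hu => small_mono (min_le_left _ _) (e3 u hu)
  · right
    exact e2 fun u hu => small_mono (min_le_right _ _) (e3 u hu)


end Crest.Agent.R143.AsmNx758
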