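import Crest.Agent.R143.EndB_336
import Crest.Agent.R143.Moll_887

/-!
# Row 143 (S0194): from the annealed observable to the end theorem (helper336)

* `Db` : the `∂/∂z` version of `Sb`; `del_moll`
* `Sb_aesm` : joint measurability of `(ω, z) ↦ Sb r (h ω) z`
* `AnnM` : hypotheses on the quenched observable `h ε ω z` (bounded, jointly measurable) and on
  its expectation; `AnnM.endM`
-/

set_option autoImplicit false

noncomputable section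

namespace Crest.Agent.R143.Asmx336

open Complex Set Filter Topology MeasureTheory
open Crest.ProbabilityR.Voronoi Crest.Agent.R143.BC0x336 Crest.Agent.R143.EndAx336
open Crest.Agent.R143.EndBx336 Crest.Agent.R143.Mollx887
open scoped ENNReal

/-! ### the operator `∂/∂z` -/

/-- `∂/∂z` of the radial mollification -/
def Db (r : ℝ) (h : ℂ → ℂ) (z₀ : ℂ) : ℂ := (starRingEnd ℂ) (Sb r (cj h) z₀)

theorem BM.cj {h : ℂ → ℂ} {M : ℝ} (hh : BM h M) : BM (cj h) M :=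
  ⟨Complex.continuous_conj.comp_aestronglyMeasurable hh.meas, fun z => by
    rw [EndBx336.cj, Complex.norm_conj]; exact hh.bd z⟩




theorem norm_Db (r : ℝ) (h : ℂ → ℂ) (z₀ : ℂ) : ‖Db r h z₀‖ = ‖Sb r (EndBx336.cj h) z₀‖ := by
  rw [Db, Complex.norm_conj]





/-- bound of `Db` -/
theorem Db_bound {h : ℂ → ℂ} {M : ℝ} (hh : BM h M) {r : ℝ} (hr : 0 < r) {z₀ c : ℂ} {η : ℝ}
    (hη : ∀ z, ‖z‖ < r → ‖h (z₀ + z) - c‖ ≤ η) : ‖Db r h z₀‖ ≤ CS / r * η := by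
  rw [norm_Db]
  refine Sb_bound (BM.cj hh) hr (c := (starRingEnd ℂ) c) fun z hz => ?_
  rw [EndBx336.cj, ← map_sub, Complex.norm_conj]
  exact hη z hz




/-! ### measurability and expectations -/

variable {Ωs : Type*} [MeasurableSpace Ωs]



theorem Db_integral (P : Measure Ωs) [IsFiniteMeasure P] {H : Ωs → ℂ → ℂ} {M : ℝ}
    (hm : AEStronglyMeasurable (fun p : Ωs × ℂ => H p.1 p.2) (P.prod volume))
    (hb : ∀ ω z, ‖H ω z‖ ≤ M) {r : ℝ} (hr : 0 < r) (z₀ : ℂ) :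
    ∫ ω, Db r (H ω) z₀ ∂P = Db r (fun z => ∫ ω, H ω z ∂P) z₀ := by
  have h1 : AEStronglyMeasurable (fun p : Ωs × ℂ => EndBx336.cj (H p.1) p.2) (P.prod volume) :=
    Complex.continuous_conj.comp_aestronglyMeasurable hm
  have h2 := Sb_integral P (H := fun ω => EndBx336.cj (H ω)) (M := M) h1
    (fun ω z => by rw [EndBx336.cj, Complex.norm_conj]; exact hb ω z) hr z₀
  simp only [Db]
  rw [integral_conj, h2]
  congr 2
  funext z
  simp only [EndBx336.cj]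
  rw [integral_conj]




/-! ### the annealed observable -/

/-- annealed observable -/
def ann (h : ℝ → Sample → ℂ → ℂ) (ε : ℝ) (z : ℂ) : ℂ := ∫ ω, h ε ω z ∂sampleLaw

/-- hypotheses on the quenched observable `h ε ω z` and its expectation -/
structure AnnM (D : Set ℂ) (φ : ℂ → ℂ) (d b : ℂ) (l : Filter ℝ) (h : ℝ → Sample → ℂ → ℂ)
    (r c : ℝ → ℝ) : Prop where
  pos : ∀ᶠ ε in l, 0 < ε
  meas : ∀ ε, 0 < ε → AEStronglyMeasurable (fun p : Sample × ℂ => h ε p.1 p.2)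
    (sampleLaw.prod volume)
  bd : ∃ M : ℝ, ∀ ε ω z, ‖h ε ω z‖ ≤ M
  rpos : ∀ ε, 0 < ε → 0 < r ε
  rlim : Tendsto r l (𝓝 0)
  equi : AEqui D l (ann h)
  mn : ∀ K, IsCompact K → K ⊆ D → ∀ η > 0, ∀ᶠ ε in l,
    (∫⁻ z in K, ∫⁻ ω, ‖Sb (r ε) (h ε ω) z‖ₑ ∂sampleLaw ≤ ENNReal.ofReal η) ∨
    (∫⁻ z in K, ∫⁻ ω, ‖Db (r ε) (h ε ω) z‖ₑ ∂sampleLaw ≤ ENNReal.ofReal η)
  b1 : ∀ p ∈ frontier D, p ≠ d → (φ p).im = 0 → 0 < (φ p).re → (φ p).re < 1 →
    ALB D l (ann h) 1 (tau3 - 1) p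
  b2 : ∀ p ∈ frontier D, p ≠ d → (φ p).im = 0 → 1 < (φ p).re →
    ALB D l (ann h) tau3 (tau3 ^ 2 - tau3) p
  b3 : ∀ p ∈ frontier D, p ≠ d → (φ p).im = 0 → (φ p).re < 0 →
    ALB D l (ann h) (tau3 ^ 2) (1 - tau3 ^ 2) p
  val : ∀ η > 0, ∃ δ > 0, ∀ᶠ ε in l, ∀ z ∈ D, dist z b < δ →
    dist (ann h ε z) (1 + (c ε : ℂ) * (tau3 - 1)) ≤ η




end Crest.Agent.R143.Asmx336
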