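import Crest.Agent.R143.B1_991
import Crest.Agent.R143.B1b_796
import Crest.Agent.R143.DelR_806
import Crest.Agent.R143.Loc_922

-- ▼ part R143/B1e_991
section

/-!
# Row 143 (S0194), block B1: the two Stokes identities for the mollifier (helper991)

* `stokes_cj` : the conjugate twin of `stokes` for a real function
* `stk` : `Stk S N r z₀` (B1b_796) from `HNet`, "the ball does not meet the hull edges" and the local
  identities at the oriented triangles of `touch z₀ r S`
* `stk_J1` : the same from `J1` when the sides of the triangles which touch the ball are alive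
-/

set_option autoImplicit false

noncomputable section

open scoped Classical

namespace Crest.Agent.R143.B1ex991

open Complex Set MeasureTheory
open Crest.Agent.R143.B0x346 Crest.Agent.R143.B0Dx346 Crest.Agent.R143.BC0x336
open Crest.Agent.R143.DelGx806 Crest.Agent.R143.B1x991
open Crest.Agent.R143.B1bx796 (cj phi phi_contDiff cj_phi phi_zero touch Stk)

variable {S : Finset ℂ}

theorem seg_cj {φ : ℂ → ℂ} (hr : ∀ z, cj (φ z) = φ z) (a b : ℂ) :
    cj (B1x991.seg φ a b) = B1x991.seg φ a b := by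
  unfold B1x991.seg
  rw [intervalIntegral.integral_of_le zero_le_one, cj, ← integral_conj]
  refine integral_congr_ae (ae_of_all _ fun s => ?_)
  exact hr _

theorem tri_dbar_cj {φ : ℂ → ℂ} (hφ : ContDiff ℝ 1 φ) (hr : ∀ z, cj (φ z) = φ z) {a b c : ℂ}
    (h : 0 < cr (b - a) (c - a)) :
    ∫ z in {z | InTri z a b c}, cj (dbar φ z) =
      (I / 2) * (cj (b - a) * B1x991.seg φ a b + cj (c - b) * B1x991.seg φ b c +
        cj (a - c) * B1x991.seg φ c a) := by
  have h1 := congrArg cj (tri_dbar hφ h)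
  simp only [cj] at h1
  rw [← integral_conj] at h1
  simp only [cj]
  rw [h1]
  have e : ∀ a b, (starRingEnd ℂ) (B1x991.seg φ a b) = B1x991.seg φ a b := seg_cj hr
  simp only [map_mul, map_add, map_neg, map_div₀, Complex.conj_I, e]
  have e2 : (starRingEnd ℂ) (2 : ℂ) = 2 := Complex.conj_ofNat 2
  rw [e2]
  ring

/-- the integral of `hval` against `conj (dbar φ)` as a sum over oriented triangles -/
theorem int_hval_cj {N : Net ℂ} (hS : GP (S : Set ℂ)) (hT : N.T = delT S) {φ : ℂ → ℂ}
    (hφ : ContDiff ℝ 1 φ) (hr : ∀ z, cj (φ z) = φ z) :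
    ∫ z, hval N z * cj (dbar φ z) =
      (I / 2) * ∑ t ∈ delT S, htri N t * (cj (t.2.1 - t.1) * B1x991.seg φ t.1 t.2.1) := by
  have h1 : ∀ z, hval N z * cj (dbar φ z) = ∑ t ∈ delT S,
      ({z | InTri z t.1 t.2.1 t.2.2} : Set ℂ).indicator
        (fun z => (htri N t / 3) * cj (dbar φ z)) z := by
    intro z
    rw [B1x991.hval_eq hS hT, mul_assoc, Finset.sum_mul, Finset.mul_sum]
    refine Finset.sum_congr rfl fun t _ => ?_
    by_cases hz : InTri z t.1 t.2.1 t.2.2
    · rw [if_pos hz, indicator_of_mem (show z ∈ {z | InTri z t.1 t.2.1 t.2.2} from hz)]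
      ring
    · rw [if_neg hz, indicator_of_notMem (show z ∉ {z | InTri z t.1 t.2.1 t.2.2} from hz)]
      ring
  have hpos : ∀ t ∈ delT S, 0 < cr (t.2.1 - t.1) (t.2.2 - t.1) := by
    intro t ht
    obtain ⟨a, b, c⟩ := t
    obtain ⟨o, hTri⟩ := mem_delT_iff.1 ht
    exact hTri.pos
  simp only [h1]
  rw [integral_finsetSum]
  · have h2 : ∀ t ∈ delT S, ∫ z, ({z | InTri z t.1 t.2.1 t.2.2} : Set ℂ).indicator
        (fun z => (htri N t / 3) * cj (dbar φ z)) z = (I / 6) * (htri N t *
          (cj (t.2.1 - t.1) * B1x991.seg φ t.1 t.2.1) + htri N (rt t) *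
          (cj ((rt t).2.1 - (rt t).1) * B1x991.seg φ (rt t).1 (rt t).2.1) + htri N (rt (rt t)) *
          (cj ((rt (rt t)).2.1 - (rt (rt t)).1) *
            B1x991.seg φ (rt (rt t)).1 (rt (rt t)).2.1)) := by
      intro t ht
      rw [integral_indicator (tri_open _ _ _).measurableSet, integral_const_mul,
        tri_dbar_cj hφ hr (hpos t ht), htri_rt N (rt t), htri_rt N t]
      simp only [rt]
      ring
    rw [Finset.sum_congr rfl h2, ← Finset.mul_sum, Finset.sum_add_distrib, Finset.sum_add_distrib,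
      sum_rt hS (fun t => htri N t * (cj (t.2.1 - t.1) * B1x991.seg φ t.1 t.2.1)),
      sum_rt hS (fun t => htri N (rt t) * (cj ((rt t).2.1 - (rt t).1) *
        B1x991.seg φ (rt t).1 (rt t).2.1)),
      sum_rt hS (fun t => htri N t * (cj (t.2.1 - t.1) * B1x991.seg φ t.1 t.2.1))]
    ring
  · intro t ht
    have h3 : IntegrableOn (fun z => (htri N t / 3) * cj (dbar φ z))
        {z | InTri z t.1 t.2.1 t.2.2} := by
      have h4 := dbar_intOn hφ (hpos t ht)
      have h5 : Integrable (fun z => cj (dbar φ z))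
          (volume.restrict {z | InTri z t.1 t.2.1 t.2.2}) := by
        refine (integrable_norm_iff ?_).1 ?_
        · exact (Complex.continuous_conj.comp (dbar_continuous hφ)).aestronglyMeasurable
        · have h6 : (fun z => ‖cj (dbar φ z)‖) = fun z => ‖dbar φ z‖ := by
            ext z
            rw [cj, RCLike.norm_conj]
          rw [h6]
          exact h4.norm
      exact h5.const_mul _
    exact h3.integrable_indicator (tri_open _ _ _).measurableSet

/-- **conjugate twin** of the discrete Stokes identity -/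
theorem stokes_cj {N : Net ℂ} (hN : HNet S N) {φ : ℂ → ℂ} (hφ : ContDiff ℝ 1 φ)
    (hr : ∀ z, cj (φ z) = φ z) (hh : ∀ a b, hullE S a b → B1x991.seg φ a b = 0)
    (hL : ∀ t ∈ delT S, B1x991.seg φ t.1 t.2.1 ≠ 0 → LId N t) :
    ∫ z, hval N z * cj (dbar φ z) =
      -(I / 2) * ∑ t ∈ delT S, N.Q t * (cj (t.2.1 - t.1) * B1x991.seg φ t.1 t.2.1) := by
  rw [int_hval_cj hN.gp hN.tri hφ hr]
  have h1 : ∑ t ∈ delT S, N.F t.1 t.2.1 *
      (cj (t.2.1 - t.1) * B1x991.seg φ t.1 t.2.1) = 0 := by
    refine sum_edges hN.gp (g := fun a b => N.F a b * (cj (b - a) * B1x991.seg φ a b)) ?_ ?_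
    · intro a b c e h h'
      rw [F_symm hN h h', seg_symm φ a b]
      simp only [cj, map_sub]
      ring
    · intro a b h
      rw [hh a b h]
      ring
  have h2 : ∑ t ∈ delT S, htri N t * (cj (t.2.1 - t.1) * B1x991.seg φ t.1 t.2.1) =
      ∑ t ∈ delT S, (N.F t.1 t.2.1 * (cj (t.2.1 - t.1) * B1x991.seg φ t.1 t.2.1) -
        N.Q t * (cj (t.2.1 - t.1) * B1x991.seg φ t.1 t.2.1)) := by
    refine Finset.sum_congr rfl fun t ht => ?_
    by_cases h : B1x991.seg φ t.1 t.2.1 = 0
    · rw [h]; ring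
    · rw [hL t ht h]; ring
  rw [h2, Finset.sum_sub_distrib, h1]
  ring

/-- **B1**: the two Stokes identities for the mollifier -/
theorem stk {N : Net ℂ} (hN : HNet S N) {r : ℝ} (hr : 0 < r) {z₀ : ℂ}
    (hh : ∀ a b, hullE S a b → ∀ x ∈ segment ℝ a b, r ≤ ‖x - z₀‖)
    (hL : ∀ t ∈ touch z₀ r S, LId N t) : Stk S N r z₀ := by
  have hs : ∀ a b, B1x991.seg (phi r z₀) a b = B1bx796.seg (phi r z₀) a b := fun _ _ => rfl
  have h1 : ∀ a b, hullE S a b → B1x991.seg (phi r z₀) a b = 0 := by
    intro a b h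
    rw [hs]
    refine B1bx796.seg_off hr ?_
    rintro ⟨x, hx, hx2⟩
    exact absurd (hh a b h x hx) (not_le.2 hx2)
  have h2 : ∀ t ∈ delT S, B1x991.seg (phi r z₀) t.1 t.2.1 ≠ 0 → LId N t := by
    intro t ht hne
    refine hL t ?_
    rw [touch, Finset.mem_filter]
    refine ⟨ht, ?_⟩
    by_contra hcon
    exact hne (by rw [hs]; exact B1bx796.seg_off hr hcon)
  constructor
  · rw [stokes hN (phi_contDiff r z₀) h1 h2]
    congr 1
    refine Finset.sum_congr rfl fun t _ => ?_
    rw [hs]; ring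
  · rw [stokes_cj hN (phi_contDiff r z₀) (cj_phi r z₀) h1 h2]
    congr 1
    refine Finset.sum_congr rfl fun t _ => ?_
    rw [hs]; ring


end Crest.Agent.R143.B1ex991
end
end

-- ▼ part R143/B1g_991

/-!
# Row 143 (S0194), block B1: glue with the domains (helper991)

`W = closedBall z₀ (r + 2 d)`. If every ball of radius `d` near `W` contains a site and the outside of
the domain does not meet the ball of radius `r + 3 d` :
* `touch_near`   : the vertices of the triangles of `touch z₀ r F` are at distance `< r + 2 d`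
* `touch_live`   : their sides are alive
* `hull_far`     : no hull edge meets the ball of radius `r + 2 d`
* `stk_dom`      : the two Stokes identities
* `touch_local`  : the set `touch` is local
-/

set_option autoImplicit false

noncomputable section

open scoped Classical

namespace Crest.Agent.R143.B1gx991

open Complex Set MeasureTheory
open Crest.Agent.R143.B0x346 Crest.Agent.R143.B0Dx346 Crest.Agent.R143.BC0x336
open Crest.Agent.R143.DelGx806 Crest.Agent.R143.B1x991 Crest.Agent.R143.B1ex991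
open Crest.Agent.R143.B1bx796 (touch Stk)
open Crest.Agent.R143.Locx922

variable {F F' : Finset ℂ} {d r : ℝ} {z₀ : ℂ}

/-- a point of the side is in the closed triangle -/
theorem side_inT {a b c x : ℂ} (hp : 0 < cr (b - a) (c - a)) (hx : x ∈ segment ℝ a b) :
    InT x a b c := by
  rw [segment_eq_image'] at hx
  obtain ⟨s, ⟨h0, h1⟩, rfl⟩ := hx
  have e1 : cr (b - a) (a + s • (b - a) - a) = 0 := by
    rw [Complex.real_smul]
    simp only [cr, Complex.add_re, Complex.add_im, Complex.sub_re, Complex.sub_im, Complex.mul_re,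
      Complex.mul_im, Complex.ofReal_re, Complex.ofReal_im]
    ring
  have e2 : cr (c - b) (a + s • (b - a) - b) = (1 - s) * cr (b - a) (c - a) := by
    rw [Complex.real_smul]
    simp only [cr, Complex.add_re, Complex.add_im, Complex.sub_re, Complex.sub_im, Complex.mul_re,
      Complex.mul_im, Complex.ofReal_re, Complex.ofReal_im]
    ring
  have e3 : cr (a - c) (a + s • (b - a) - c) = s * cr (b - a) (c - a) := by
    rw [Complex.real_smul]
    simp only [cr, Complex.add_re, Complex.add_im, Complex.sub_re, Complex.sub_im, Complex.mul_re,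
      Complex.mul_im, Complex.ofReal_re, Complex.ofReal_im]
    ring
  refine ⟨?_, ?_, ?_⟩
  · rw [e1]
  · rw [e2]; exact mul_nonneg (by linarith) hp.le
  · rw [e3]; exact mul_nonneg h0 hp.le

theorem tri_pos {t : ℂ × ℂ × ℂ} (ht : t ∈ delT F) : 0 < cr (t.2.1 - t.1) (t.2.2 - t.1) := by
  obtain ⟨a, b, c⟩ := t
  obtain ⟨o, hTri⟩ := mem_delT_iff.1 ht
  exact hTri.pos

/-- the vertices of the triangles which touch the ball -/
theorem touch_near (hd : 0 < d) (hH : Hol (F : Set ℂ) (Metric.closedBall z₀ r) d)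
    {t : ℂ × ℂ × ℂ} (ht : t ∈ touch z₀ r F) :
    ‖t.1 - z₀‖ < r + 2 * d ∧ ‖t.2.1 - z₀‖ < r + 2 * d ∧ ‖t.2.2 - z₀‖ < r + 2 * d := by
  rw [touch, Finset.mem_filter] at ht
  obtain ⟨ht, x, hx, hxr⟩ := ht
  have hi := side_inT (tri_pos ht) hx
  have hxW : x ∈ Metric.closedBall z₀ r := by
    rw [Metric.mem_closedBall, dist_eq_norm]; exact hxr.le
  have hD : Del (F : Set ℂ) t.1 t.2.1 t.2.2 := DelGx806.mem_delT.1 ht
  obtain ⟨o, -, -, -, -, -, ga, gb, gc⟩ :=
    del_small hd hH hxW (InT.inD (tri_pos ht) hi) hD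
  have n1 := norm_tri t.1 x z₀
  have n2 := norm_tri t.2.1 x z₀
  have n3 := norm_tri t.2.2 x z₀
  exact ⟨by linarith, by linarith, by linarith⟩

/-- the sides of the triangles which touch the ball are short -/
theorem touch_short (hd : 0 < d) (hH : Hol (F : Set ℂ) (Metric.closedBall z₀ r) d)
    {t : ℂ × ℂ × ℂ} (ht : t ∈ touch z₀ r F) : ‖t.2.1 - t.1‖ < 2 * d := by
  rw [touch, Finset.mem_filter] at ht
  obtain ⟨ht, x, hx, hxr⟩ := ht
  have hi := side_inT (tri_pos ht) hx
  have hxW : x ∈ Metric.closedBall z₀ r := by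
    rw [Metric.mem_closedBall, dist_eq_norm]; exact hxr.le
  have hD : Del (F : Set ℂ) t.1 t.2.1 t.2.2 := DelGx806.mem_delT.1 ht
  have := (del_side hd hH hxW (InT.inD (tri_pos ht) hi) hD).1
  rwa [norm_sub_rev] at this

/-- no hull edge meets the ball -/
theorem hull_far (hd : 0 < d) (hH : Hol (F : Set ℂ) (Metric.closedBall z₀ r) d) {a b : ℂ}
    (h : hullE F a b) : ∀ x ∈ segment ℝ a b, r ≤ ‖x - z₀‖ := by
  intro x hx
  by_contra hcon
  push Not at hcon
  have h1 := lft_hull hd hH (w := x) (by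
    rw [Metric.mem_closedBall, dist_eq_norm]; exact hcon.le) h
  rw [segment_eq_image'] at hx
  obtain ⟨s, -, rfl⟩ := hx
  have e1 : cr (b - a) (a + s • (b - a) - a) = 0 := by
    rw [Complex.real_smul]
    simp only [cr, Complex.add_re, Complex.add_im, Complex.sub_re, Complex.sub_im, Complex.mul_re,
      Complex.mul_im, Complex.ofReal_re, Complex.ofReal_im]
    ring
  unfold Lft at h1
  rw [e1] at h1
  exact lt_irrefl _ h1

/-- the sides at a site near `z₀` are alive -/
theorem side_live (hd : 0 < d) {D : Dom} (hN : HNet F (D.netS F))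
    (hH : Hol (F : Set ℂ) (Metric.closedBall z₀ (r + 2 * d)) d)
    (hO : ∀ z, ‖z - z₀‖ < r + 3 * d → z ∉ D.out) {a : ℂ} (ha : ‖a - z₀‖ ≤ r + 2 * d) (b : ℂ) :
    (a, b) ∉ (D.netS F).kl := by
  have haW : a ∈ Metric.closedBall z₀ (r + 2 * d) := by
    rw [Metric.mem_closedBall, dist_eq_norm]; exact ha
  rw [(netS_kl_W hd hN hH haW).1]
  rintro ⟨z, h1, h2⟩
  have h3 := (vedge_sub_ball hd hH haW h1).1
  have h4 := norm_tri z a z₀
  exact hO z (by linarith) h2

/-- the triangles which touch the ball have live sides -/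
theorem touch_live (hd : 0 < d) {D : Dom} (hN : HNet F (D.netS F))
    (hH : Hol (F : Set ℂ) (Metric.closedBall z₀ (r + 2 * d)) d)
    (hO : ∀ z, ‖z - z₀‖ < r + 3 * d → z ∉ D.out) {t : ℂ × ℂ × ℂ} (ht : t ∈ touch z₀ r F) :
    (t.1, t.2.1) ∉ (D.netS F).kl ∧ (t.2.1, t.2.2) ∉ (D.netS F).kl ∧
      (t.2.2, t.1) ∉ (D.netS F).kl := by
  obtain ⟨h1, h2, h3⟩ := touch_near hd
    (hH.mono (Metric.closedBall_subset_closedBall (by linarith))) ht
  exact ⟨side_live hd hN hH hO h1.le _, side_live hd hN hH hO h2.le _,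
    side_live hd hN hH hO h3.le _⟩




end Crest.Agent.R143.B1gx991
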