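import Crest.Agent.R143.DomA_722

/-!
# Row 143, block D: Voronoi cells of a dense set of sites (helper722)

* `cell`, `mem_cell_iff`, `vedge_eq`, `cell_cover`, `cell_closed`, `cell_convex`
* `cell_near`  : a point well inside the disc is at distance `< d` from its site
* `lens`       : a point `z` outside : its site is at distance `≤ 3 √(L d)` from the end of the radius
* `hull_far`   : a hull site has distance `≥ L - 2 d` from the centre
* `ring_inner` : (D2) ring of a site which is not close to the circle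
* `out_conn`   : the sites whose cells meet a connected set are connected through Delaunay edges whose
  Voronoi edges meet it
-/

set_option autoImplicit false

noncomputable section

open scoped Classical

namespace Crest.Agent.R143.DomBx722

open Crest.ProbabilityR.Voronoi MeasureTheory
open Crest.Agent.R143.B0x346 Crest.Agent.R143.B0Dx346 Crest.Agent.R143.DelGx806
open Crest.Agent.R143.DelRx806 Crest.Agent.R143.DomAx722

variable {S : Finset ℂ}

/-! ### cells -/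

/-- closed Voronoi cell -/
def cell (S : Set ℂ) (v : ℂ) : Set ℂ := {z | ∀ s ∈ S, ‖z - v‖ ≤ ‖z - s‖}

theorem vedge_sub_left (S : Set ℂ) (a b : ℂ) : vedge S a b ⊆ cell S a := fun _ hz => hz.2

theorem vedge_sub_right (S : Set ℂ) (a b : ℂ) : vedge S a b ⊆ cell S b := fun _ hz s hs =>
  hz.1 ▸ hz.2 s hs

theorem vedge_eq {S : Set ℂ} {a b : ℂ} (ha : a ∈ S) (hb : b ∈ S) :
    vedge S a b = cell S a ∩ cell S b := by
  ext z
  constructor
  · intro h
    exact ⟨vedge_sub_left S a b h, vedge_sub_right S a b h⟩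
  · rintro ⟨h1, h2⟩
    exact ⟨le_antisymm (h1 b hb) (h2 a ha), h1⟩

theorem cell_cover (hS : S.Nonempty) (z : ℂ) : ∃ v ∈ S, z ∈ cell (S : Set ℂ) v := by
  obtain ⟨v, hv, hmin⟩ := Finset.exists_min_image S (fun s => ‖z - s‖) hS
  exact ⟨v, hv, fun s hs => hmin s hs⟩

theorem cell_closed (S : Set ℂ) (v : ℂ) : IsClosed (cell S v) := by
  have : cell S v = ⋂ s ∈ S, {z | ‖z - v‖ ≤ ‖z - s‖} := by
    ext z; simp [cell]
  rw [this]
  exact isClosed_biInter fun s _ => isClosed_le (by fun_prop) (by fun_prop)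

/-- a point well inside the disc is close to its site -/
theorem cell_near {c : ℂ} {L d : ℝ} (hD : Dns S c L d) {v z : ℂ} (hz : z ∈ cell (S : Set ℂ) v)
    (h : ‖z - c‖ ≤ L - d) : ‖z - v‖ < d := by
  obtain ⟨s, hs, hs'⟩ := hD.hole z h
  rw [norm_sub_rev] at hs'
  exact (hz s hs).trans_lt hs'

theorem d_le_sqrt {L d : ℝ} (hd : 0 ≤ d) (h : d ≤ L) : d ≤ Real.sqrt (L * d) := by
  apply Real.le_sqrt_of_sq_le
  nlinarith

/-- **lens**: the site of a point `z` outside is close to the end of the radius through `z` -/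
theorem lens {c : ℂ} {L d : ℝ} (hD : Dns S c L d) {v z u : ℂ} (hv : v ∈ S)
    (hz : z ∈ cell (S : Set ℂ) v) {R : ℝ} (hu : ‖u‖ = 1) (hzu : z = c + R * u) (hR : L - d ≤ R) :
    ‖v - (c + L * u)‖ ≤ 3 * Real.sqrt (L * d) := by
  have hd := hD.dpos
  have hL := hD.dL
  have hR0 : 0 < R := by linarith
  have hp : L * d ≤ L * L := by nlinarith
  -- a site close to `c + (L - d) u`
  obtain ⟨s, hs, hs'⟩ := hD.hole (c + ((L - d : ℝ) : ℂ) * u) (by
    rw [add_sub_cancel_left, norm_mul, hu, Complex.norm_real, Real.norm_eq_abs,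
      abs_of_nonneg (by linarith), mul_one])
  have h1 : ‖z - v‖ ≤ R - L + 2 * d := by
    have e : z - s = ((R - (L - d) : ℝ) : ℂ) * u + (c + ((L - d : ℝ) : ℂ) * u - s) := by
      rw [hzu]; push_cast; ring
    have h2 := norm_add_le (((R - (L - d) : ℝ) : ℂ) * u) (c + ((L - d : ℝ) : ℂ) * u - s)
    rw [← e, norm_mul, hu, Complex.norm_real, Real.norm_eq_abs, abs_of_nonneg (by linarith),
      mul_one, norm_sub_rev (c + ((L - d : ℝ) : ℂ) * u) s] at h2
    have := hz s hs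
    linarith
  have h3 := hD.sub v hv
  -- coordinates with respect to `u`
  set x : ℝ := u.re * (v - c).re + u.im * (v - c).im with hx
  set y : ℝ := cr u (v - c) with hy
  have hun : u.re ^ 2 + u.im ^ 2 = 1 := by rw [← sq_norm, hu, one_pow]
  have hxy : x ^ 2 + y ^ 2 = ‖v - c‖ ^ 2 := by
    rw [sq_norm, hx, hy]
    unfold cr
    linear_combination ((v - c).re ^ 2 + (v - c).im ^ 2) * hun
  have hgen : ∀ r : ℝ, ‖v - (c + r * u)‖ ^ 2 = (r - x) ^ 2 + y ^ 2 := by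
    intro r
    have e : v - (c + r * u) = (v - c) - r * u := by ring
    rw [e, sq_norm, hx, hy]
    unfold cr
    simp only [Complex.sub_re, Complex.sub_im, Complex.mul_re, Complex.mul_im, Complex.ofReal_re,
      Complex.ofReal_im]
    linear_combination (r ^ 2 - (v.re - c.re) ^ 2 - (v.im - c.im) ^ 2) * hun
  have h4 : (R - x) ^ 2 + y ^ 2 ≤ (R - L + 2 * d) ^ 2 := by
    rw [← hgen R, ← hzu, norm_sub_rev]
    exact pow_le_pow_left₀ (norm_nonneg _) h1 2
  have h5 : L - 2 * d ≤ x := by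
    have h6 : (R - x) ^ 2 ≤ (R - L + 2 * d) ^ 2 := by nlinarith [sq_nonneg y]
    have := abs_le_of_sq_le_sq' h6 (by linarith)
    linarith [this.2]
  have h7 : x ^ 2 + y ^ 2 ≤ L ^ 2 := by
    rw [hxy]; exact pow_le_pow_left₀ (norm_nonneg _) h3 2
  have h8 : x ≤ L := by
    have h9 : x ^ 2 ≤ L ^ 2 := by nlinarith [sq_nonneg y]
    exact (abs_le_of_sq_le_sq' h9 (by linarith)).2
  have h10 : ‖v - (c + L * u)‖ ^ 2 ≤ (3 * Real.sqrt (L * d)) ^ 2 := by
    rw [hgen L, mul_pow, Real.sq_sqrt (by nlinarith)]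
    have h11 : (L - 2 * d) ^ 2 ≤ x ^ 2 := pow_le_pow_left₀ (by linarith) h5 2
    have h12 : (L - x) ^ 2 ≤ (2 * d) ^ 2 := pow_le_pow_left₀ (by linarith) (by linarith) 2
    nlinarith
  exact le_of_sq_le_sq h10 (by positivity)

/-- **hull sites are close to the circle** -/
theorem hull_far {c : ℂ} {L d : ℝ} (hD : Dns S c L d) {a b : ℂ} (h : hullE S a b) :
    L - 2 * d ≤ ‖a - c‖ ∧ L - 2 * d ≤ ‖b - c‖ := by
  have h1 := edge_dist hD h
  have hn : 0 < ‖b - a‖ := norm_pos_iff.2 (sub_ne_zero.2 (hullE.ne h).symm)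
  have h2 := cr_le (b - a) (c - a)
  have h3 := cr_le (b - a) (c - b)
  have h4 : cr (b - a) (c - b) = cr (b - a) (c - a) := by
    unfold cr
    simp only [Complex.sub_re, Complex.sub_im]
    ring
  rw [h4] at h3
  rw [norm_sub_rev a c, norm_sub_rev b c]
  constructor
  · by_contra hcon
    push Not at hcon
    have := mul_lt_mul_of_pos_left hcon hn
    nlinarith
  · by_contra hcon
    push Not at hcon
    have := mul_lt_mul_of_pos_left hcon hn
    nlinarith


/-- the Voronoi edge of an edge at a site is in its cell : the edge is live if the cell misses the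
outside -/
theorem live_of_cell {D : Dom} (hS : GP (S : Set ℂ)) {v : ℂ}
    (h : Disjoint (cell (S : Set ℂ) v) D.out) (u : ℂ) :
    (v, u) ∉ D.kl S ∧ (u, v) ∉ D.kl S ∧ (v, u) ∉ (D.netS S).kl ∧ (u, v) ∉ (D.netS S).kl := by
  have h1 : (v, u) ∉ D.kl S := by
    rintro ⟨z, hz1, hz2⟩
    exact Set.disjoint_left.1 h (vedge_sub_left _ _ _ hz1) hz2
  have h2 : (u, v) ∉ D.kl S := fun h' => h1 (D.kl_symm S u v h')
  exact ⟨h1, h2, fun h' => h1 ((netS_kl hS _).1 h').1, fun h' => h2 ((netS_kl hS _).1 h').1⟩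

/-! ### connectedness -/

/-- one step through a Voronoi edge which meets `R` -/
def KStep (S : Finset ℂ) (R : Set ℂ) (x y : ℂ) : Prop :=
  x ∈ S ∧ y ∈ S ∧ x ≠ y ∧ (vedge (S : Set ℂ) x y ∩ R).Nonempty ∧
    ((∃ e, (x, y, e) ∈ delT S) ∨ ∃ e, (y, x, e) ∈ delT S)

/-- **the sites whose cells meet a connected set are connected** -/
theorem out_conn (hS : GP (S : Set ℂ)) (h3 : 3 ≤ S.card) {R : Set ℂ} (hR : IsPreconnected R)
    {a b : ℂ} (ha : a ∈ S) (hb : b ∈ S) (ha' : (cell (S : Set ℂ) a ∩ R).Nonempty)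
    (hb' : (cell (S : Set ℂ) b ∩ R).Nonempty) : Relation.ReflTransGen (KStep S R) a b := by
  by_contra hcon
  set A : Finset ℂ := S.filter fun x => Relation.ReflTransGen (KStep S R) a x with hA
  set B : Finset ℂ := S.filter fun x => ¬ Relation.ReflTransGen (KStep S R) a x with hB
  set U : Set ℂ := ⋃ x ∈ A, cell (S : Set ℂ) x with hU
  set V : Set ℂ := ⋃ x ∈ B, cell (S : Set ℂ) x with hV
  have hUc : IsClosed U := Set.Finite.isClosed_biUnion A.finite_toSet fun x _ => cell_closed _ x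
  have hVc : IsClosed V := Set.Finite.isClosed_biUnion B.finite_toSet fun x _ => cell_closed _ x
  have haA : a ∈ A := Finset.mem_filter.2 ⟨ha, Relation.ReflTransGen.refl⟩
  have hbB : b ∈ B := Finset.mem_filter.2 ⟨hb, hcon⟩
  have hcov : R ⊆ U ∪ V := by
    intro z _
    obtain ⟨v, hv, hz⟩ := cell_cover ⟨a, ha⟩ z
    by_cases h : Relation.ReflTransGen (KStep S R) a v
    · exact Or.inl (Set.mem_iUnion₂.2 ⟨v, Finset.mem_filter.2 ⟨hv, h⟩, hz⟩)
    · exact Or.inr (Set.mem_iUnion₂.2 ⟨v, Finset.mem_filter.2 ⟨hv, h⟩, hz⟩)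
  have hmeet := (isPreconnected_closed_iff.1 hR) U V hUc hVc hcov ?_ ?_
  · obtain ⟨z, hzR, hzU, hzV⟩ := hmeet
    obtain ⟨x, hx, hzx⟩ := Set.mem_iUnion₂.1 hzU
    obtain ⟨y, hy, hzy⟩ := Set.mem_iUnion₂.1 hzV
    obtain ⟨hxS, hxa⟩ := Finset.mem_filter.1 hx
    obtain ⟨hyS, hya⟩ := Finset.mem_filter.1 hy
    have hxy : x ≠ y := by
      rintro rfl
      exact hya hxa
    have hz : z ∈ vedge (S : Set ℂ) x y := by
      rw [vedge_eq (Finset.mem_coe.2 hxS) (Finset.mem_coe.2 hyS)]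
      exact ⟨hzx, hzy⟩
    exact hya (hxa.tail ⟨hxS, hyS, hxy, ⟨z, hz, hzR⟩, vedge_del hS h3 hxS hyS hxy hz⟩)
  · obtain ⟨z, hz1, hz2⟩ := ha'
    exact ⟨z, hz2, Set.mem_iUnion₂.2 ⟨a, haA, hz1⟩⟩
  · obtain ⟨z, hz1, hz2⟩ := hb'
    exact ⟨z, hz2, Set.mem_iUnion₂.2 ⟨b, hbB, hz1⟩⟩

/-! ### outside regions with cones -/

/-- outside regions and cone tentacles (any number of them) -/
structure Fan {ι : Type} (c : ℂ) (L δ : ℝ) (R : ι → Set ℂ) (q : ι → ℂ) : Prop where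
  Lpos : 0 < L
  dpos : 0 < δ
  lt : δ < L
  opn : ∀ i, IsOpen (R i)
  con : ∀ i, IsConnected (R i)
  qn : ∀ k, ‖q k‖ = 1
  far : ∀ i j, i ≠ j → ∀ z ∈ R i, ∀ w ∈ R j, δ ≤ ‖z - w‖
  tent : ∀ z : ℂ, L / 2 < ‖z - c‖ → ((∀ i, z ∉ R i) ↔ ∃ k, z ∈ cone c (q k) (δ / L))

theorem fan_of_ok {D : Dom} {δ : ℝ} (h : D.OK δ) : Fan D.c D.L δ D.R D.q :=
  ⟨h.Lpos, h.dpos, lt_L h, h.opn, h.con, h.qn, h.far, h.tent⟩

section Fan

variable {ι : Type} {c : ℂ} {L δ d : ℝ} {R : ι → Set ℂ} {q : ι → ℂ}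

theorem Fan.eta_pos (hF : Fan c L δ R q) : 0 < δ / L := div_pos hF.dpos hF.Lpos

theorem Fan.eta_lt (hF : Fan c L δ R q) : δ / L < 1 := by
  rw [div_lt_one hF.Lpos]; exact hF.lt

theorem Fan.disj (hF : Fan c L δ R q) {i j : ι} (hij : i ≠ j) {z : ℂ}
    (hi : z ∈ R i) (hj : z ∈ R j) : False := by
  have := hF.far i j hij z hi z hj
  rw [sub_self, norm_zero] at this
  linarith [hF.dpos]

theorem Fan.mem_out (hF : Fan c L δ R q) {z : ℂ} (h : L / 2 < ‖z - c‖)
    (hs : ∀ k, z ∉ cone c (q k) (δ / L)) : ∃ i, z ∈ R i := by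
  by_contra hcon
  push Not at hcon
  obtain ⟨k, hk⟩ := (hF.tent z h).1 hcon
  exact hs k hk

theorem Fan.not_cone (hF : Fan c L δ R q) {z : ℂ} (h : L / 2 < ‖z - c‖) {i : ι}
    (hz : z ∈ R i) (k : ι) : z ∉ cone c (q k) (δ / L) := fun hk =>
  (hF.tent z h).2 ⟨k, hk⟩ i hz

/-- a connected set in the outside is in one region -/
theorem Fan.conn (hF : Fan c L δ R q) {Γ : Set ℂ} (hΓ : IsPreconnected Γ)
    (h : ∀ z ∈ Γ, ∃ i, z ∈ R i) {i : ι} {z : ℂ} (hz : z ∈ Γ) (hi : z ∈ R i) : Γ ⊆ R i := by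
  intro w hw
  by_contra hcon
  have hsplit := hΓ (R i) (⋃ l, ⋃ _ : l ≠ i, R l) (hF.opn i)
    (isOpen_iUnion fun l => isOpen_iUnion fun _ => hF.opn l) ?_ ⟨z, hz, hi⟩ ?_
  · obtain ⟨x, -, hx1, hx2⟩ := hsplit
    simp only [Set.mem_iUnion] at hx2
    obtain ⟨l, hl, hx2⟩ := hx2
    exact hF.disj hl hx2 hx1
  · intro x hx
    obtain ⟨l, hl⟩ := h x hx
    by_cases e : l = i
    · exact Or.inl (e ▸ hl)
    · exact Or.inr (by simp only [Set.mem_iUnion]; exact ⟨l, e, hl⟩)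
  · obtain ⟨l, hl⟩ := h w hw
    refine ⟨w, hw, ?_⟩
    simp only [Set.mem_iUnion]
    exact ⟨l, fun e => hcon (e ▸ hl), hl⟩

/-- the cones do not depend on the radius -/
theorem cone_scale {c q u : ℂ} {η ρ r : ℝ} (hρ : 0 < ρ) (hr : 0 < r)
    (h : c + ρ * u ∈ cone c q η) : c + r * u ∈ cone c q η := by
  obtain ⟨t, ht, hle⟩ := h
  refine ⟨r / ρ * t, by positivity, ?_⟩
  have e1 : c + (r : ℂ) * u - (c + ((r / ρ * t : ℝ) : ℂ) * q) =
      ((r / ρ : ℝ) : ℂ) * (c + (ρ : ℂ) * u - (c + t * q)) := by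
    have : (ρ : ℂ) ≠ 0 := by exact_mod_cast hρ.ne'
    push_cast
    field_simp
    ring
  have e2 : c + (r : ℂ) * u - c = ((r / ρ : ℝ) : ℂ) * (c + (ρ : ℂ) * u - c) := by
    have : (ρ : ℂ) ≠ 0 := by exact_mod_cast hρ.ne'
    push_cast
    field_simp
    ring
  have h3 : 0 ≤ r / ρ := by positivity
  rw [e1, e2, norm_mul, norm_mul, Complex.norm_real, Real.norm_eq_abs, abs_of_nonneg h3]
  have := mul_le_mul_of_nonneg_left hle h3
  linarith

theorem norm_rad {c u : ℂ} (hu : ‖u‖ = 1) {r : ℝ} (hr : 0 ≤ r) : ‖c + r * u - c‖ = r := by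
  rw [add_sub_cancel_left, norm_mul, hu, Complex.norm_real, Real.norm_eq_abs, abs_of_nonneg hr,
    mul_one]

/-- **radial invariance** of the regions -/
theorem Fan.radial (hF : Fan c L δ R q) {i : ι} {u : ℂ} (hu : ‖u‖ = 1) {ρ r : ℝ}
    (hρ : L / 2 < ρ) (hr : L / 2 < r) (hz : c + ρ * u ∈ R i) : c + r * u ∈ R i := by
  have hL := hF.Lpos
  have hcont : Continuous fun x : ℝ => c + (x : ℂ) * u := by fun_prop
  have hpre : IsPreconnected ((fun x : ℝ => c + (x : ℂ) * u) '' Set.uIcc ρ r) :=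
    isPreconnected_uIcc.image _ hcont.continuousOn
  refine hF.conn hpre ?_ ⟨ρ, Set.left_mem_uIcc, rfl⟩ hz ⟨r, Set.right_mem_uIcc, rfl⟩
  rintro z ⟨x, hx, rfl⟩
  have hx' : L / 2 < x := by
    rw [Set.mem_uIcc] at hx
    rcases hx with h | h
    · linarith [h.1]
    · linarith [h.1]
  refine hF.mem_out (by rw [norm_rad hu (by linarith)]; exact hx') fun k hk => ?_
  exact hF.not_cone (by rw [norm_rad hu (by linarith)]; exact hρ) hz k
    (cone_scale (by linarith) (by linarith) hk)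

/-- polar form -/
theorem exists_pol {c z : ℂ} (h : 0 < ‖z - c‖) : ∃ u : ℂ, ‖u‖ = 1 ∧ z = c + (‖z - c‖ : ℝ) * u := by
  refine ⟨((‖z - c‖⁻¹ : ℝ) : ℂ) * (z - c), ?_, ?_⟩
  · rw [norm_mul, Complex.norm_real, Real.norm_eq_abs, abs_of_pos (by positivity)]
    field_simp
  · have : ((‖z - c‖ : ℝ) : ℂ) ≠ 0 := by exact_mod_cast h.ne'
    rw [← mul_assoc, ← Complex.ofReal_mul, mul_inv_cancel₀ h.ne']
    push_cast
    ring

/-- a site whose cell meets `R i` is close to `R i` -/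
theorem Fan.near_R (hF : Fan c L δ R q) (hS : Dns S c L d) {v z : ℂ} (hv : v ∈ S)
    (hz : z ∈ cell (S : Set ℂ) v) {i : ι} (hi : z ∈ R i) :
    ∃ z' ∈ R i, ‖z' - v‖ ≤ 3 * Real.sqrt (L * d) := by
  have hd := hS.dpos
  have hL := hS.dL
  have hs := d_le_sqrt hd.le (by linarith : d ≤ L)
  rcases le_or_gt ‖z - c‖ (L - d) with h | h
  · exact ⟨z, hi, (cell_near hS hz h).le.trans (by linarith)⟩
  · obtain ⟨u, hu, hzu⟩ := exists_pol (c := c) (z := z) (by linarith)
    have h1 : c + (‖z - c‖ : ℝ) * u ∈ R i := by rw [← hzu]; exact hi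
    refine ⟨c + L * u, hF.radial hu (by linarith) (by linarith) h1, ?_⟩
    rw [norm_sub_rev]
    exact lens hS hv hz hu hzu h.le

theorem sqrt_small {L d δ : ℝ} (hδ : 0 < δ) (h : 400 * (L * d) ≤ δ ^ 2) :
    20 * Real.sqrt (L * d) ≤ δ := by
  rcases le_or_gt 0 (L * d) with h0 | h0
  · refine le_of_sq_le_sq ?_ hδ.le
    rw [mul_pow, Real.sq_sqrt h0]
    linarith
  · rw [Real.sqrt_eq_zero_of_nonpos h0.le]
    linarith

/-- **a cell meets at most one region** -/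
theorem Fan.cell_one (hF : Fan c L δ R q) (hS : Dns S c L d) (hd : 400 * (L * d) ≤ δ ^ 2) {v : ℂ}
    (hv : v ∈ S) {i j : ι} (hi : (cell (S : Set ℂ) v ∩ R i).Nonempty)
    (hj : (cell (S : Set ℂ) v ∩ R j).Nonempty) : i = j := by
  by_contra hij
  obtain ⟨z, hz, hz'⟩ := hi
  obtain ⟨w, hw, hw'⟩ := hj
  obtain ⟨z1, h1, h1'⟩ := hF.near_R hS hv hz hz'
  obtain ⟨w1, h2, h2'⟩ := hF.near_R hS hv hw hw'
  have h3 := hF.far i j hij z1 h1 w1 h2
  have h4 : ‖z1 - w1‖ ≤ ‖z1 - v‖ + ‖v - w1‖ := by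
    have := norm_add_le (z1 - v) (v - w1)
    rwa [sub_add_sub_cancel] at this
  rw [norm_sub_rev v w1] at h4
  have h5 := sqrt_small hF.dpos hd
  have := hF.dpos
  linarith

/-- **the cell of a site at the end of a tentacle misses the outside** -/
theorem Fan.free (hF : Fan c L δ R q) (hS : Dns S c L d) (hd : 400 * (L * d) ≤ δ ^ 2) {v : ℂ}
    (hv : v ∈ S) {k : ι} (h : ‖v - (c + L * q k)‖ ≤ 6 * Real.sqrt (L * d)) (i : ι) :
    Disjoint (cell (S : Set ℂ) v) (R i) := by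
  rw [Set.disjoint_left]
  intro z hz hi
  obtain ⟨w, hw, hw'⟩ := hF.near_R hS hv hz hi
  have h1 : ‖w - (c + L * q k)‖ ≤ ‖w - v‖ + ‖v - (c + L * q k)‖ := by
    have := norm_add_le (w - v) (v - (c + L * q k))
    rwa [sub_add_sub_cancel] at this
  have h5 := sqrt_small hF.dpos hd
  have hδ := hF.dpos
  have hL := hF.Lpos
  have hlt := hF.lt
  have h2 : ‖w - (c + L * q k)‖ ≤ δ / 2 := by linarith
  have h3 : L - δ / 2 ≤ ‖w - c‖ := by
    have e : (L : ℂ) * q k = (w - c) - (w - (c + L * q k)) := by ring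
    have := norm_sub_le (w - c) (w - (c + L * q k))
    rw [← e, norm_mul, hF.qn, Complex.norm_real, Real.norm_eq_abs, abs_of_pos hL, mul_one] at this
    linarith
  refine hF.not_cone (by linarith) hw k ⟨L, hL.le, h2.trans ?_⟩
  calc δ / 2 = δ / L * (L / 2) := by field_simp
    _ ≤ δ / L * ‖w - c‖ := by
        apply mul_le_mul_of_nonneg_left _ hF.eta_pos.le
        linarith

/-- the ends of a hull edge crossed by a ray -/
theorem crossRay_ends (hS : Dns S c L d) {q : ℂ} (hq : ‖q‖ = 1) {p : ℂ × ℂ}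
    (hp : crossRay S c q p) : ‖p.1 - (c + L * q)‖ ≤ 6 * Real.sqrt (L * d) ∧
    ‖p.2 - (c + L * q)‖ ≤ 6 * Real.sqrt (L * d) := by
  have h1 := crossRay_near hS hq hp
  have h2 := edge_len hS hp.1
  have e1 : p.1 - (c + L * q) = (mid p - (c + L * q)) - ((1 / 2 : ℝ) : ℂ) * (p.2 - p.1) := by
    unfold mid; push_cast; ring
  have e2 : p.2 - (c + L * q) = (mid p - (c + L * q)) + ((1 / 2 : ℝ) : ℂ) * (p.2 - p.1) := by
    unfold mid; push_cast; ring
  have h3 : ‖((1 / 2 : ℝ) : ℂ) * (p.2 - p.1)‖ ≤ 2 * Real.sqrt (L * d) := by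
    rw [norm_mul, Complex.norm_real, Real.norm_eq_abs, abs_of_pos (by norm_num)]
    linarith
  constructor
  · rw [e1]
    have := norm_sub_le (mid p - (c + L * q)) (((1 / 2 : ℝ) : ℂ) * (p.2 - p.1))
    linarith
  · rw [e2]
    have := norm_add_le (mid p - (c + L * q)) (((1 / 2 : ℝ) : ℂ) * (p.2 - p.1))
    linarith

/-- the ends of the hull edge crossed by the ray `k` have cells which miss the outside -/
theorem Fan.free_mark (hF : Fan c L δ R q) (hS : Dns S c L d) (hd : 400 * (L * d) ≤ δ ^ 2)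
    {k : ι} {p : ℂ × ℂ} (hp : crossRay S c (q k) p) :
    (∀ i, Disjoint (cell (S : Set ℂ) p.1) (R i)) ∧ ∀ i, Disjoint (cell (S : Set ℂ) p.2) (R i) := by
  have h := crossRay_ends hS (hF.qn k) hp
  exact ⟨hF.free hS hd (hullE.mem hp.1).1 h.1, hF.free hS hd (hullE.mem hp.1).2 h.2⟩

/-- **connectedness of a class** -/
theorem Fan.conn_cells (hF : Fan c L δ R q) (hS : Dns S c L d) {i : ι} {a b : ℂ} (ha : a ∈ S)
    (hb : b ∈ S) (ha' : (cell (S : Set ℂ) a ∩ R i).Nonempty)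
    (hb' : (cell (S : Set ℂ) b ∩ R i).Nonempty) : Relation.ReflTransGen (KStep S (R i)) a b :=
  out_conn hS.gp hS.card (hF.con i).isPreconnected ha hb ha' hb'

end Fan

/-! ### the network of a domain -/

theorem out_disj {D : Dom} {A : Set ℂ} (h : ∀ i, Disjoint A (D.R i)) : Disjoint A D.out := by
  unfold Dom.out
  rw [Set.disjoint_iUnion_right]
  exact h

/-- in the network of a domain the marks are not in `D.kl` : the killed edges of the network are
exactly `D.kl` -/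
theorem netS_kl_eq {D : Dom} {δ d : ℝ} (hD : D.OK δ) (hS : Dns S D.c D.L d)
    (hd : 400 * (D.L * d) ≤ δ ^ 2) (p : ℂ × ℂ) : p ∈ (D.netS S).kl ↔ p ∈ D.kl S := by
  rw [netS_kl hS.gp]
  refine ⟨fun h => h.1, fun h => ⟨h, fun k hk => ?_, fun k hk => ?_⟩⟩
  · have h1 := rayMark_spec (crossRay_exists hS (hD.qn k))
    have h2 := ((fan_of_ok hD).free_mark hS hd (k := k) h1).1
    rw [hk] at h2
    exact (live_of_cell hS.gp (out_disj h2) p.2).1 h
  · have h1 := rayMark_spec (crossRay_exists hS (hD.qn k))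
    have h2 := ((fan_of_ok hD).free_mark hS hd (k := k) h1).2
    rw [hk] at h2
    exact (live_of_cell hS.gp (out_disj h2) p.2).1 h


end Crest.Agent.R143.DomBx722
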