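import Mathlib
import Crest.Agent.R143.Osc_63

/-!
# Row 143 (S0194), leaf T3 : disjoint equilateral triangles => crossing estimate (helper63)

* `tri h Q` : the equilateral triangle with centre `h` and vertices `h + om ^ i * Q`.
* `packing` : disjoint balls in a ball.
* `shell` : one dyadic shell around `v0`.
* `rsw` (T3): if a weighted family of walks through triangles with disjoint interiors crosses from
  distance `≤ r0` to distance `≥ R0` of the point `v0`, and no triangle has weight `> 1/800`, then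
  `log (R0 / r0) ≤ 1 + 1152 ∑ c²`.
-/

set_option autoImplicit false

noncomputable section

namespace Crest.Agent.R143.Rswx63

open Set Filter Topology MeasureTheory Metric
open scoped Classical
open Crest.Agent.R143.B0x346 Crest.Agent.R143.LenAreax63 Crest.Agent.R143.Oscx63

/-- equilateral triangle, centre `h`, vertices `h + om ^ i * Q` -/
def tri (h Q : ℂ) : Set ℂ := convexHull ℝ {h + Q, h + om * Q, h + om ^ 2 * Q}

theorem conv3 {s : Set ℂ} (hs : Convex ℝ s) {x y z : ℂ} (hx : x ∈ s) (hy : y ∈ s) (hz : z ∈ s)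
    {a b c : ℝ} (ha : 0 ≤ a) (hb : 0 ≤ b) (hc : 0 ≤ c) (h : a + b + c = 1) :
    a • x + b • y + c • z ∈ s := by
  have h1 := hs.sum_mem (t := Finset.univ) (w := ![a, b, c]) (z := ![x, y, z])
    (by intro i _; fin_cases i <;> simp [ha, hb, hc]) (by simp [Fin.sum_univ_three, h])
    (by intro i _; fin_cases i <;> simp [hx, hy, hz])
  simpa [Fin.sum_univ_three] using h1

theorem convex_tri (h Q : ℂ) : Convex ℝ (tri h Q) := convex_convexHull ℝ _

theorem v0_mem (h Q : ℂ) : h + Q ∈ tri h Q := subset_convexHull ℝ _ (by simp)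
theorem v1_mem (h Q : ℂ) : h + om * Q ∈ tri h Q := subset_convexHull ℝ _ (by simp)
theorem v2_mem (h Q : ℂ) : h + om ^ 2 * Q ∈ tri h Q := subset_convexHull ℝ _ (by simp)

theorem norm_sub_le_of_mem {h Q w : ℂ} (hw : w ∈ tri h Q) : ‖w - h‖ ≤ ‖Q‖ := by
  have h1 : tri h Q ⊆ closedBall h ‖Q‖ := by
    apply convexHull_min _ (convex_closedBall h _)
    intro x hx
    rw [mem_closedBall, dist_eq_norm]
    have h2 := norm_om
    rcases hx with rfl | rfl | rfl
    · simp
    · simp [h2]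
    · simp [h2]
  have := h1 hw
  rwa [mem_closedBall, dist_eq_norm] at this

theorem one_add_om : 1 + om + om ^ 2 = 0 := by
  have h3 := om_pow_three
  have hne : om - 1 ≠ 0 := by
    intro h
    have h4 : om = 1 := by linear_combination h
    have h5 := om_re
    rw [h4] at h5
    norm_num at h5
  have h6 : (om - 1) * (1 + om + om ^ 2) = 0 := by linear_combination h3
  exact (mul_eq_zero.mp h6).resolve_left hne

theorem conj_om : (starRingEnd ℂ) om = om ^ 2 := by
  have h1 : om * (starRingEnd ℂ) om = 1 := by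
    rw [Complex.mul_conj, Complex.normSq_eq_norm_sq, norm_om]; norm_num
  have h2 : om * om ^ 2 = 1 := by rw [← om_pow_three]; ring
  have hne : om ≠ 0 := by
    intro h; rw [h] at h2; simp at h2
  exact mul_left_cancel₀ hne (h1.trans h2.symm)

/-- the inscribed disc -/
theorem ball_subset_tri (h Q : ℂ) : ball h (‖Q‖ / 2) ⊆ tri h Q := by
  intro w hw
  rw [mem_ball, dist_eq_norm] at hw
  have hQ : Q ≠ 0 := by
    rintro rfl
    simp at hw
    have := norm_nonneg (w - h)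
    linarith
  have hQn : 0 < ‖Q‖ := norm_pos_iff.mpr hQ
  set ζ : ℂ := (w - h) / Q with hζ
  have hζn : ‖ζ‖ ≤ 1 / 2 := by
    rw [hζ, norm_div, div_le_iff₀ hQn]; linarith
  have hwζ : w = h + ζ * Q := by rw [hζ]; field_simp; ring
  -- barycentric coordinates
  set l0 : ℝ := 1 / 3 + 2 / 3 * ζ.re with hl0
  set l1 : ℝ := 1 / 3 + 2 / 3 * (ζ * om ^ 2).re with hl1
  set l2 : ℝ := 1 / 3 + 2 / 3 * (ζ * om).re with hl2
  have b0 : 0 ≤ l0 := by
    have := neg_le_of_abs_le (Complex.abs_re_le_norm ζ)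
    rw [hl0]; linarith
  have b1 : 0 ≤ l1 := by
    have h1 := neg_le_of_abs_le (Complex.abs_re_le_norm (ζ * om ^ 2))
    rw [norm_mul, norm_pow, norm_om, one_pow, mul_one] at h1
    rw [hl1]; linarith
  have b2 : 0 ≤ l2 := by
    have h1 := neg_le_of_abs_le (Complex.abs_re_le_norm (ζ * om))
    rw [norm_mul, norm_om, mul_one] at h1
    rw [hl2]; linarith
  have hsum : l0 + l1 + l2 = 1 := by
    have h1 : (ζ * (1 + om + om ^ 2)).re = 0 := by rw [one_add_om]; simp
    have h2 : (ζ * (1 + om + om ^ 2)).re = ζ.re + (ζ * om).re + (ζ * om ^ 2).re := by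
      rw [mul_add, mul_add, mul_one, Complex.add_re, Complex.add_re]
    rw [hl0, hl1, hl2]
    linarith
  -- representation of `ζ`
  have hre : ∀ u : ℂ, ((u.re : ℝ) : ℂ) = (u + (starRingEnd ℂ) u) / 2 := fun u => by
    rw [Complex.add_conj]; push_cast; ring
  have hrep : (l0 : ℂ) + l1 * om + l2 * om ^ 2 = ζ := by
    rw [hl0, hl1, hl2]
    push_cast
    rw [hre ζ, hre (ζ * om ^ 2), hre (ζ * om)]
    simp only [map_mul, map_pow, conj_om]
    have h3 := om_pow_three
    have h1 := one_add_om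
    have h4 : om ^ 4 = om := by rw [show om ^ 4 = om ^ 3 * om by ring, h3, one_mul]
    set c := (starRingEnd ℂ) ζ
    have e : (1 / 3 + 2 / 3 * ((ζ + c) / 2)) + (1 / 3 + 2 / 3 * ((ζ * om ^ 2 +
        c * (om ^ 2) ^ 2) / 2)) * om + (1 / 3 + 2 / 3 * ((ζ * om + c * om ^ 2) / 2)) * om ^ 2 =
        1 / 3 * (1 + om + om ^ 2) + 1 / 3 * (ζ * (1 + om ^ 3 + om ^ 3)) +
        1 / 3 * c * (1 + om ^ 4 * om + om ^ 4) := by ring
    rw [e, h1, h3, h4]
    have h5 : 1 + om * om + om = 0 := by rw [← h1]; ring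
    rw [h5]; ring
  have hcomb : l0 • (h + Q) + l1 • (h + om * Q) + l2 • (h + om ^ 2 * Q) = w := by
    rw [hwζ, ← hrep]
    simp only [Complex.real_smul]
    have h7 : (l0 : ℂ) + l1 + l2 = 1 := by exact_mod_cast hsum
    linear_combination h * h7
  rw [← hcomb]
  exact conv3 (convex_tri h Q) (v0_mem h Q) (v1_mem h Q) (v2_mem h Q) b0 b1 b2 hsum

/-- scaled discs near a given point of the triangle -/
theorem sub_ball {h Q w : ℂ} (hw : w ∈ tri h Q) {l : ℝ} (h0 : 0 < l) (h1 : l ≤ 1) :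
    ball ((1 - l) • w + l • h) (l * (‖Q‖ / 2)) ⊆ tri h Q := by
  intro u hu
  rw [mem_ball, dist_eq_norm] at hu
  set u' : ℂ := h + l⁻¹ • (u - ((1 - l) • w + l • h)) with hu'
  have h2 : u' ∈ tri h Q := by
    apply ball_subset_tri
    rw [mem_ball, dist_eq_norm, hu', add_sub_cancel_left, norm_smul, norm_inv, Real.norm_eq_abs,
      abs_of_pos h0, inv_mul_lt_iff₀ h0]
    exact hu
  have h3 : (1 - l) • w + l • u' = u := by
    rw [hu', smul_add, smul_smul, mul_inv_cancel₀ h0.ne', one_smul]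
    abel
  rw [← h3]
  exact convex_tri h Q hw h2 (by linarith) h0.le (by ring)

theorem ball_subset_interior {h Q c : ℂ} {r : ℝ} (hb : ball c r ⊆ tri h Q) :
    ball c r ⊆ interior (tri h Q) := interior_maximal hb isOpen_ball

/-- disjoint discs in a disc -/
theorem packing {ι : Type} (s : Finset ι) (x : ι → ℂ) (r : ι → ℝ) (hr : ∀ i ∈ s, 0 ≤ r i)
    (hd : (s : Set ι).PairwiseDisjoint (fun i => ball (x i) (r i))) (v : ℂ) {R : ℝ} (hR : 0 ≤ R)
    (hsub : ∀ i ∈ s, ball (x i) (r i) ⊆ ball v R) : ∑ i ∈ s, r i ^ 2 ≤ R ^ 2 := by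
  have hvol : ∀ (c : ℂ) {ρ : ℝ}, 0 ≤ ρ → (volume : Measure ℂ).real (ball c ρ) = ρ ^ 2 * Real.pi := by
    intro c ρ hρ
    rw [measureReal_def, Complex.volume_ball, ENNReal.toReal_mul, ENNReal.toReal_pow,
      ENNReal.toReal_ofReal hρ]
    rfl
  have hfin : ∀ (c : ℂ) (ρ : ℝ), (volume : Measure ℂ) (ball c ρ) ≠ ⊤ := fun c ρ =>
    measure_ball_lt_top.ne
  have h1 : (volume : Measure ℂ).real (⋃ i ∈ s, ball (x i) (r i)) =
      ∑ i ∈ s, (volume : Measure ℂ).real (ball (x i) (r i)) :=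
    measureReal_biUnion_finset hd (fun i _ => measurableSet_ball) (fun i _ => hfin _ _)
  have h2 : (volume : Measure ℂ).real (⋃ i ∈ s, ball (x i) (r i)) ≤
      (volume : Measure ℂ).real (ball v R) := by
    apply measureReal_mono _ (hfin _ _)
    exact iUnion₂_subset hsub
  rw [h1, hvol v hR] at h2
  have h3 : ∑ i ∈ s, (volume : Measure ℂ).real (ball (x i) (r i)) =
      (∑ i ∈ s, r i ^ 2) * Real.pi := by
    rw [Finset.sum_mul]
    exact Finset.sum_congr rfl fun i hi => hvol _ (hr i hi)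
  rw [h3] at h2
  exact le_of_mul_le_mul_right h2 Real.pi_pos

/-! ### one dyadic shell -/

variable {τ : Type}

/-- small triangles of the shell `[a, 2a]` -/
def Sm (U : Finset τ) (h Q : τ → ℂ) (v : ℂ) (a : ℝ) : Finset τ :=
  U.filter fun t => ‖Q t‖ ≤ a / 4 ∧ 3 * a / 4 ≤ ‖h t - v‖ ∧ ‖h t - v‖ ≤ 9 * a / 4

/-- large triangles of the shell `[a, 2a]` -/
def La (U : Finset τ) (h Q : τ → ℂ) (v : ℂ) (a : ℝ) : Finset τ :=
  U.filter fun t => a / 4 < ‖Q t‖ ∧ ∃ w ∈ tri (h t) (Q t), ‖w - v‖ < 2 * a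

/-- disjoint interiors -/
def Dis (U : Finset τ) (h Q : τ → ℂ) : Prop :=
  ∀ s ∈ U, ∀ t ∈ U, s ≠ t → Disjoint (interior (tri (h s) (Q s))) (interior (tri (h t) (Q t)))

theorem energy_Sm {U : Finset τ} {h Q : τ → ℂ} (hd : Dis U h Q) (v : ℂ) {a : ℝ} (ha : 0 < a) :
    ∑ t ∈ Sm U h Q v a, ‖Q t‖ ^ 2 ≤ 36 * a ^ 2 := by
  have h1 := packing (Sm U h Q v a) h (fun t => ‖Q t‖ / 2) (fun t _ => by positivity)
    (by
      intro s hs t ht hst
      have hs' := (Finset.mem_filter.mp (Finset.mem_coe.mp hs)).1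
      have ht' := (Finset.mem_filter.mp (Finset.mem_coe.mp ht)).1
      exact (hd s hs' t ht' hst).mono (ball_subset_interior (ball_subset_tri _ _))
        (ball_subset_interior (ball_subset_tri _ _))) v (R := 3 * a) (by positivity)
    (by
      intro t ht
      obtain ⟨-, h2, -, h3⟩ := Finset.mem_filter.mp ht
      apply ball_subset_ball'
      rw [dist_eq_norm]
      linarith)
  have h2 : ∑ t ∈ Sm U h Q v a, (‖Q t‖ / 2) ^ 2 = (∑ t ∈ Sm U h Q v a, ‖Q t‖ ^ 2) / 4 := by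
    rw [Finset.sum_div]
    exact Finset.sum_congr rfl fun t _ => by ring
  rw [h2] at h1
  nlinarith

theorem card_La {U : Finset τ} {h Q : τ → ℂ} (hd : Dis U h Q) (v : ℂ) {a : ℝ} (ha : 0 < a) :
    ((La U h Q v a).card : ℝ) ≤ 400 := by
  have hw : ∀ t ∈ La U h Q v a, ∃ w ∈ tri (h t) (Q t), ‖w - v‖ < 2 * a := fun t ht =>
    (Finset.mem_filter.mp ht).2.2
  choose! w hw1 hw2 using hw
  set l : τ → ℝ := fun t => (a / 4) / ‖Q t‖ with hl
  have hQ : ∀ t ∈ La U h Q v a, a / 4 < ‖Q t‖ := fun t ht => (Finset.mem_filter.mp ht).2.1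
  have hl0 : ∀ t ∈ La U h Q v a, 0 < l t := fun t ht => by
    have := hQ t ht
    exact div_pos (by positivity) (by linarith)
  have hl1 : ∀ t ∈ La U h Q v a, l t ≤ 1 := fun t ht => by
    have := hQ t ht
    rw [hl]
    simp only
    rw [div_le_one (by linarith)]
    exact this.le
  have hlQ : ∀ t ∈ La U h Q v a, l t * ‖Q t‖ = a / 4 := fun t ht => by
    have := hQ t ht
    rw [hl]
    simp only
    rw [div_mul_cancel₀]
    linarith
  have hsub : ∀ t ∈ La U h Q v a,
      ball ((1 - l t) • w t + l t • h t) (a / 8) ⊆ tri (h t) (Q t) := by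
    intro t ht
    have h1 := sub_ball (hw1 t ht) (hl0 t ht) (hl1 t ht)
    have h2 : l t * (‖Q t‖ / 2) = a / 8 := by
      have := hlQ t ht
      linarith
    rwa [h2] at h1
  have h1 := packing (La U h Q v a) (fun t => (1 - l t) • w t + l t • h t) (fun _ => a / 8)
    (fun t _ => by positivity)
    (by
      intro s hs t ht hst
      have hs0 := Finset.mem_coe.mp hs
      have ht0 := Finset.mem_coe.mp ht
      have hs' := (Finset.mem_filter.mp hs0).1
      have ht' := (Finset.mem_filter.mp ht0).1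
      exact (hd s hs' t ht' hst).mono (ball_subset_interior (hsub s hs0))
        (ball_subset_interior (hsub t ht0))) v (R := 5 * a / 2) (by positivity)
    (by
      intro t ht
      apply ball_subset_ball'
      rw [dist_eq_norm]
      have e : (1 - l t) • w t + l t • h t - v = (w t - v) + l t • (h t - w t) := by
        rw [sub_smul, one_smul, smul_sub]; abel
      rw [e]
      have h2 : ‖l t • (h t - w t)‖ ≤ a / 4 := by
        rw [norm_smul, Real.norm_eq_abs, abs_of_pos (hl0 t ht), norm_sub_rev, ← hlQ t ht]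
        exact mul_le_mul_of_nonneg_left (norm_sub_le_of_mem (hw1 t ht)) (hl0 t ht).le
      have h3 := hw2 t ht
      have h4 := norm_add_le (w t - v) (l t • (h t - w t))
      linarith)
  rw [Finset.sum_const, nsmul_eq_mul] at h1
  have h3 : ((La U h Q v a).card : ℝ) * (a / 8) ^ 2 ≤ 400 * (a / 8) ^ 2 := by
    calc ((La U h Q v a).card : ℝ) * (a / 8) ^ 2 ≤ (5 * a / 2) ^ 2 := h1
      _ = 400 * (a / 8) ^ 2 := by ring
  exact le_of_mul_le_mul_right h3 (by positivity)

/-- truncated distance -/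
def gt (v : ℂ) (a : ℝ) (w : ℂ) : ℝ := min (max ‖w - v‖ a) (2 * a)

theorem gt_lip (v : ℂ) (a : ℝ) (x y : ℂ) : |gt v a x - gt v a y| ≤ ‖x - y‖ := by
  unfold gt
  calc |min (max ‖x - v‖ a) (2 * a) - min (max ‖y - v‖ a) (2 * a)|
      ≤ |max ‖x - v‖ a - max ‖y - v‖ a| := by
        have := abs_min_sub_min_le_max (max ‖x - v‖ a) (2 * a) (max ‖y - v‖ a) (2 * a)
        simpa using this
    _ ≤ |‖x - v‖ - ‖y - v‖| := by
        have := abs_max_sub_max_le_max ‖x - v‖ a ‖y - v‖ a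
        simpa using this
    _ ≤ ‖(x - v) - (y - v)‖ := abs_norm_sub_norm_le _ _
    _ = ‖x - y‖ := by congr 1; ring

theorem gt_mem {v : ℂ} {a : ℝ} (ha : 0 < a) (w : ℂ) : a ≤ gt v a w ∧ gt v a w ≤ 2 * a := by
  unfold gt
  exact ⟨le_min (le_max_right _ _) (by linarith), min_le_right _ _⟩

theorem gt_low {v : ℂ} {a : ℝ} (ha : 0 < a) {w : ℂ} (hw : ‖w - v‖ ≤ a) : gt v a w = a := by
  unfold gt
  rw [max_eq_right hw, min_eq_left (by linarith)]

theorem gt_high {v : ℂ} {a : ℝ} (ha : 0 < a) {w : ℂ} (hw : 2 * a ≤ ‖w - v‖) :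
    gt v a w = 2 * a := by
  unfold gt
  rw [max_eq_left (by linarith), min_eq_right hw]

/-- weight of a triangle in the shell -/
def qs (U : Finset τ) (h Q : τ → ℂ) (v : ℂ) (a : ℝ) (t : τ) : ℝ :=
  if t ∈ Sm U h Q v a then 2 * ‖Q t‖ else if t ∈ La U h Q v a then a else 0

theorem step_qs {U : Finset τ} {h Q : τ → ℂ} (v : ℂ) {a : ℝ} (ha : 0 < a) {t : τ} (ht : t ∈ U)
    {x y : ℂ} (hx : x ∈ tri (h t) (Q t)) (hy : y ∈ tri (h t) (Q t)) :
    |gt v a x - gt v a y| ≤ qs U h Q v a t := by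
  have hxh := norm_sub_le_of_mem hx
  have hyh := norm_sub_le_of_mem hy
  unfold qs
  split_ifs with h1 h2
  · refine (gt_lip v a x y).trans ?_
    calc ‖x - y‖ = ‖(x - h t) - (y - h t)‖ := by congr 1; ring
      _ ≤ ‖x - h t‖ + ‖y - h t‖ := norm_sub_le _ _
      _ ≤ 2 * ‖Q t‖ := by linarith
  · rw [abs_le]
    have b1 := gt_mem (v := v) ha x
    have b2 := gt_mem (v := v) ha y
    constructor <;> linarith [b1.1, b1.2, b2.1, b2.2]
  · have key : gt v a x = gt v a y := by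
      by_cases hQ : ‖Q t‖ ≤ a / 4
      · have h3 : ¬ (3 * a / 4 ≤ ‖h t - v‖ ∧ ‖h t - v‖ ≤ 9 * a / 4) := by
          intro h4
          exact h1 (Finset.mem_filter.mpr ⟨ht, hQ, h4⟩)
        by_cases h4 : 3 * a / 4 ≤ ‖h t - v‖
        · have h5 : 9 * a / 4 < ‖h t - v‖ := by
            by_contra h6
            push Not at h6
            exact h3 ⟨h4, h6⟩
          have h6 : ∀ u : ℂ, ‖u - h t‖ ≤ ‖Q t‖ → 2 * a ≤ ‖u - v‖ := by
            intro u hu
            have h7 : ‖h t - v‖ ≤ ‖h t - u‖ + ‖u - v‖ := by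
              have := norm_add_le (h t - u) (u - v)
              simpa using this
            rw [norm_sub_rev] at hu
            linarith
          rw [gt_high ha (h6 x hxh), gt_high ha (h6 y hyh)]
        · push Not at h4
          have h6 : ∀ u : ℂ, ‖u - h t‖ ≤ ‖Q t‖ → ‖u - v‖ ≤ a := by
            intro u hu
            have h7 : ‖u - v‖ ≤ ‖u - h t‖ + ‖h t - v‖ := by
              have := norm_add_le (u - h t) (h t - v)
              simpa using this
            linarith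
          rw [gt_low ha (h6 x hxh), gt_low ha (h6 y hyh)]
      · push Not at hQ
        have h3 : ∀ w ∈ tri (h t) (Q t), 2 * a ≤ ‖w - v‖ := by
          intro w hw
          by_contra h4
          push Not at h4
          exact h2 (Finset.mem_filter.mpr ⟨ht, hQ, w, hw, h4⟩)
        rw [gt_high ha (h3 x hx), gt_high ha (h3 y hy)]
    rw [key, sub_self, abs_zero]

/-- walks through the triangles of `A` -/
def Walk (h Q : τ → ℂ) (A : Finset τ) (x y : ℂ) : Prop :=
  Relation.ReflTransGen (fun x y => ∃ t ∈ A, x ∈ tri (h t) (Q t) ∧ y ∈ tri (h t) (Q t)) x y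

/-- weighted family of walks -/
structure Fam {I : Type} (U : Finset τ) (h Q : τ → ℂ) (J : Finset I) (lam : I → ℝ)
    (A : I → Finset τ) : Prop where
  nn : ∀ i ∈ J, 0 ≤ lam i
  sum : ∑ i ∈ J, lam i = 1
  sub : ∀ i ∈ J, A i ⊆ U

/-- total weight of the walks through `t` -/
def cw {I : Type} (J : Finset I) (lam : I → ℝ) (A : I → Finset τ) (t : τ) : ℝ :=
  ∑ i ∈ J.filter (fun i => t ∈ A i), lam i

theorem cw_nonneg {I : Type} {J : Finset I} {lam : I → ℝ} (hl : ∀ i ∈ J, 0 ≤ lam i)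
    (A : I → Finset τ) (t : τ) : 0 ≤ cw J lam A t :=
  Finset.sum_nonneg fun i hi => hl i (Finset.mem_filter.mp hi).1

theorem swap_sum {I : Type} {U : Finset τ} {h Q : τ → ℂ} {J : Finset I} {lam : I → ℝ}
    {A : I → Finset τ} (hF : Fam U h Q J lam A) (q : τ → ℝ) :
    ∑ i ∈ J, lam i * ∑ t ∈ A i, q t = ∑ t ∈ U, cw J lam A t * q t := by
  have h3 : ∀ i ∈ J, lam i * ∑ t ∈ A i, q t = ∑ t ∈ U, if t ∈ A i then lam i * q t else 0 := by
    intro i hi
    rw [Finset.mul_sum, ← Finset.sum_filter]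
    apply Finset.sum_congr _ fun _ _ => rfl
    ext t
    simp only [Finset.mem_filter]
    exact ⟨fun h => ⟨hF.sub i hi h, h⟩, fun h => h.2⟩
  rw [Finset.sum_congr rfl h3, Finset.sum_comm]
  apply Finset.sum_congr rfl
  intro t _
  rw [cw, Finset.sum_mul, Finset.sum_filter]

/-- **one shell** -/
theorem shell {I : Type} {U : Finset τ} {h Q : τ → ℂ} (hd : Dis U h Q) {J : Finset I}
    {lam : I → ℝ} {A : I → Finset τ} (hF : Fam U h Q J lam A)
    (hc : ∀ t ∈ U, cw J lam A t ≤ 1 / 800) (v : ℂ) {a : ℝ} (ha : 0 < a) (x y : I → ℂ)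
    (hw : ∀ i ∈ J, Walk h Q (A i) (x i) (y i)) (hx : ∀ i ∈ J, ‖x i - v‖ ≤ a)
    (hy : ∀ i ∈ J, 2 * a ≤ ‖y i - v‖) :
    1 / 576 ≤ ∑ t ∈ Sm U h Q v a, cw J lam A t ^ 2 := by
  set c := cw J lam A with hcdef
  have hc0 : ∀ t, 0 ≤ c t := cw_nonneg hF.nn A
  set q := qs U h Q v a with hq
  have hq0 : ∀ t, 0 ≤ q t := by
    intro t
    rw [hq]; unfold qs
    split_ifs
    · positivity
    · exact ha.le
    · exact le_refl 0
  -- every walk has length at least `a`
  have h1 : ∀ i ∈ J, a ≤ ∑ t ∈ A i, q t := by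
    intro i hi
    have h2 := walk_bound (A i) (fun t z => z ∈ tri (h t) (Q t)) (fun z => (gt v a z : ℂ)) q
      (fun t _ => hq0 t)
      (fun t ht e e' he he' => by
        rw [← Complex.ofReal_sub, Complex.norm_real, Real.norm_eq_abs]
        exact step_qs v ha (hF.sub i hi ht) he he') (hw i hi)
    rw [← Complex.ofReal_sub, Complex.norm_real, Real.norm_eq_abs, gt_low ha (hx i hi),
      gt_high ha (hy i hi)] at h2
    have h3 : |a - 2 * a| = a := by
      rw [show a - 2 * a = -a by ring, abs_neg, abs_of_pos ha]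
    rwa [h3] at h2
  have h2 : a ≤ ∑ t ∈ U, c t * q t := by
    rw [← swap_sum hF q]
    calc a = ∑ i ∈ J, lam i * a := by rw [← Finset.sum_mul, hF.sum, one_mul]
      _ ≤ ∑ i ∈ J, lam i * ∑ t ∈ A i, q t :=
        Finset.sum_le_sum fun i hi => mul_le_mul_of_nonneg_left (h1 i hi) (hF.nn i hi)
  have h3 : ∑ t ∈ U, c t * q t ≤ ∑ t ∈ Sm U h Q v a, c t * (2 * ‖Q t‖) +
      ∑ t ∈ La U h Q v a, c t * a := by
    have h4 : ∀ t ∈ U, c t * q t ≤ (if t ∈ Sm U h Q v a then c t * (2 * ‖Q t‖) else 0) +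
        (if t ∈ La U h Q v a then c t * a else 0) := by
      intro t _
      rw [hq]; unfold qs
      by_cases h5 : t ∈ Sm U h Q v a
      · by_cases h6 : t ∈ La U h Q v a
        · simp only [h5, h6, if_true]
          have := mul_nonneg (hc0 t) ha.le
          linarith
        · simp only [h5, h6, if_true, if_false]; linarith
      · by_cases h6 : t ∈ La U h Q v a
        · simp only [h5, h6, if_true, if_false]; linarith
        · simp only [h5, h6, if_false]; linarith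
    refine (Finset.sum_le_sum h4).trans ?_
    rw [Finset.sum_add_distrib, ← Finset.sum_filter, ← Finset.sum_filter]
    apply le_of_eq
    congr 1
    · apply Finset.sum_congr _ fun _ _ => rfl
      ext t
      simp only [Finset.mem_filter]
      exact ⟨fun h => h.2, fun h => ⟨(Finset.mem_filter.mp h).1, h⟩⟩
    · apply Finset.sum_congr _ fun _ _ => rfl
      ext t
      simp only [Finset.mem_filter]
      exact ⟨fun h => h.2, fun h => ⟨(Finset.mem_filter.mp h).1, h⟩⟩
  have h4 : ∑ t ∈ La U h Q v a, c t * a ≤ a / 2 := by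
    calc ∑ t ∈ La U h Q v a, c t * a ≤ ∑ t ∈ La U h Q v a, (1 / 800) * a :=
          Finset.sum_le_sum fun t ht => mul_le_mul_of_nonneg_right
            (hc t (Finset.mem_filter.mp ht).1) ha.le
      _ = ((La U h Q v a).card : ℝ) * ((1 / 800) * a) := by
          rw [Finset.sum_const, nsmul_eq_mul]
      _ ≤ 400 * ((1 / 800) * a) := mul_le_mul_of_nonneg_right (card_La hd v ha) (by positivity)
      _ = a / 2 := by ring
  have h5 : ∑ t ∈ Sm U h Q v a, c t * (2 * ‖Q t‖) ≤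
      Real.sqrt (∑ t ∈ Sm U h Q v a, c t ^ 2) * (12 * a) := by
    calc ∑ t ∈ Sm U h Q v a, c t * (2 * ‖Q t‖)
        ≤ Real.sqrt (∑ t ∈ Sm U h Q v a, c t ^ 2) *
          Real.sqrt (∑ t ∈ Sm U h Q v a, (2 * ‖Q t‖) ^ 2) := cs _ _ _
      _ ≤ Real.sqrt (∑ t ∈ Sm U h Q v a, c t ^ 2) * (12 * a) := by
          apply mul_le_mul_of_nonneg_left _ (Real.sqrt_nonneg _)
          rw [show (12 * a) = Real.sqrt ((12 * a) ^ 2) by rw [Real.sqrt_sq (by positivity)]]
          apply Real.sqrt_le_sqrt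
          have h6 : ∑ t ∈ Sm U h Q v a, (2 * ‖Q t‖) ^ 2 =
              4 * ∑ t ∈ Sm U h Q v a, ‖Q t‖ ^ 2 := by
            rw [Finset.mul_sum]
            exact Finset.sum_congr rfl fun t _ => by ring
          rw [h6]
          have := energy_Sm hd v ha
          nlinarith
  set X := Real.sqrt (∑ t ∈ Sm U h Q v a, c t ^ 2) with hX
  have h6 : a / 2 ≤ X * (12 * a) := by linarith
  have h7 : 1 / 24 ≤ X := by
    have h8 : (1 / 24) * (12 * a) ≤ X * (12 * a) := by linarith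
    exact le_of_mul_le_mul_right h8 (by positivity)
  have h8 : 0 ≤ ∑ t ∈ Sm U h Q v a, c t ^ 2 := Finset.sum_nonneg fun t _ => sq_nonneg _
  have h9 : X ^ 2 = ∑ t ∈ Sm U h Q v a, c t ^ 2 := Real.sq_sqrt h8
  rw [← h9]
  nlinarith

/-- a triangle is small in at most two dyadic shells -/
theorem two_shells {U : Finset τ} {h Q : τ → ℂ} (v : ℂ) {r : ℝ} (hr : 0 < r) (n : ℕ) (t : τ) :
    (((Finset.range n).filter fun j => t ∈ Sm U h Q v (2 ^ j * r)).card : ℝ) ≤ 2 := by
  set K := (Finset.range n).filter fun j => t ∈ Sm U h Q v (2 ^ j * r) with hK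
  rcases K.eq_empty_or_nonempty with h1 | hne
  · rw [h1]; simp
  set j0 := K.min' hne with hj0
  have hj0K : j0 ∈ K := K.min'_mem hne
  have hsub : K ⊆ {j0, j0 + 1} := by
    intro j hj
    have h2 : j0 ≤ j := K.min'_le j hj
    have h3 := (Finset.mem_filter.mp (Finset.mem_filter.mp hj).2).2
    have h4 := (Finset.mem_filter.mp (Finset.mem_filter.mp hj0K).2).2
    have h5 : 3 * (2 ^ j * r) / 4 ≤ 9 * (2 ^ j0 * r) / 4 := h3.2.1.trans h4.2.2
    obtain ⟨m, rfl⟩ := Nat.exists_eq_add_of_le h2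
    have h6 : (2 : ℝ) ^ m ≤ 3 := by
      rw [pow_add] at h5
      have h7 : (0 : ℝ) < 2 ^ j0 * r := by positivity
      have h8 : (2 : ℝ) ^ m * (2 ^ j0 * r) ≤ 3 * (2 ^ j0 * r) := by nlinarith
      exact le_of_mul_le_mul_right h8 h7
    have h7 : m < 2 := by
      by_contra h8
      push Not at h8
      have h9 : (2 : ℝ) ^ 2 ≤ 2 ^ m := pow_le_pow_right₀ (by norm_num) h8
      norm_num at h9
      linarith
    simp only [Finset.mem_insert, Finset.mem_singleton]
    omega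
  have h2 := Finset.card_le_card hsub
  have h3 : ({j0, j0 + 1} : Finset ℕ).card ≤ 2 := Finset.card_le_two
  exact_mod_cast h2.trans h3

/-- **T3** (abstract) -/
theorem rsw {I : Type} {U : Finset τ} {h Q : τ → ℂ} (hd : Dis U h Q) {J : Finset I}
    {lam : I → ℝ} {A : I → Finset τ} (hF : Fam U h Q J lam A)
    (hc : ∀ t ∈ U, cw J lam A t ≤ 1 / 800) (v : ℂ) {r R : ℝ} (hr : 0 < r) (hrR : r ≤ R)
    (x y : I → ℂ) (hw : ∀ i ∈ J, Walk h Q (A i) (x i) (y i)) (hx : ∀ i ∈ J, ‖x i - v‖ ≤ r)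
    (hy : ∀ i ∈ J, R ≤ ‖y i - v‖) :
    Real.log (R / r) ≤ 1 + 1152 * ∑ t ∈ U, cw J lam A t ^ 2 := by
  set c := cw J lam A with hcdef
  have hRpos : 0 < R := hr.trans_le hrR
  have key : ∀ n : ℕ, 2 ^ n * r ≤ R → (n : ℝ) ≤ 1152 * ∑ t ∈ U, c t ^ 2 := by
    intro n hn
    have h1 : ∀ j ∈ Finset.range n, 1 / 576 ≤ ∑ t ∈ Sm U h Q v (2 ^ j * r), c t ^ 2 := by
      intro j hj
      have hj' := Finset.mem_range.mp hj
      have h2 : (1 : ℝ) ≤ 2 ^ j := one_le_pow₀ (by norm_num)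
      have h3 : (2 : ℝ) * 2 ^ j ≤ 2 ^ n := by
        rw [← pow_succ']
        exact pow_le_pow_right₀ (by norm_num) hj'
      apply shell hd hF hc v (by positivity) x y hw
      · intro i hi
        refine (hx i hi).trans ?_
        nlinarith
      · intro i hi
        refine le_trans ?_ (hy i hi)
        nlinarith
    have h2 : (n : ℝ) / 576 ≤ ∑ j ∈ Finset.range n, ∑ t ∈ Sm U h Q v (2 ^ j * r), c t ^ 2 := by
      calc (n : ℝ) / 576 = ∑ j ∈ Finset.range n, (1 / 576 : ℝ) := by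
            rw [Finset.sum_const, Finset.card_range, nsmul_eq_mul]; ring
        _ ≤ _ := Finset.sum_le_sum h1
    have h3 : ∑ j ∈ Finset.range n, ∑ t ∈ Sm U h Q v (2 ^ j * r), c t ^ 2 ≤
        ∑ t ∈ U, 2 * c t ^ 2 := by
      have h4 : ∀ j ∈ Finset.range n, ∑ t ∈ Sm U h Q v (2 ^ j * r), c t ^ 2 =
          ∑ t ∈ U, if t ∈ Sm U h Q v (2 ^ j * r) then c t ^ 2 else 0 := by
        intro j _
        rw [← Finset.sum_filter]
        apply Finset.sum_congr _ fun _ _ => rfl
        ext t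
        simp only [Finset.mem_filter]
        exact ⟨fun h => ⟨(Finset.mem_filter.mp h).1, h⟩, fun h => h.2⟩
      rw [Finset.sum_congr rfl h4, Finset.sum_comm]
      apply Finset.sum_le_sum
      intro t _
      rw [← Finset.sum_filter, Finset.sum_const, nsmul_eq_mul]
      exact mul_le_mul_of_nonneg_right (two_shells v hr n t) (sq_nonneg _)
    rw [← Finset.mul_sum] at h3
    linarith
  -- choose `n`
  have hq : 1 ≤ R / r := by rw [le_div_iff₀ hr]; linarith
  obtain ⟨n, hn1, hn2⟩ : ∃ n : ℕ, (2 : ℝ) ^ n ≤ R / r ∧ R / r < 2 ^ (n + 1) := by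
    obtain ⟨n, h1, h2⟩ := exists_nat_pow_near hq (by norm_num : (1 : ℝ) < 2)
    exact ⟨n, h1, h2⟩
  have h1 := key n (by rwa [le_div_iff₀ hr] at hn1)
  have h2 : Real.log (R / r) ≤ (n + 1) * Real.log 2 := by
    have h3 := Real.log_le_log (by positivity) hn2.le
    rw [Real.log_pow] at h3
    push_cast at h3
    exact h3
  have h3 : Real.log 2 ≤ 1 := by
    have := Real.log_two_lt_d9
    linarith
  have h4 : (0 : ℝ) ≤ (n : ℝ) + 1 := by positivity
  nlinarith

/-! ### networks -/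

theorem tri_zero (h : ℂ) : tri h 0 = {h} := by
  unfold tri
  simp

theorem rot_mem {S : Finset ℂ} {N : Net ℂ} (hN : HNet S N) {x y z : ℂ}
    (h : (x, y, z) ∈ delT S) : (y, z, x) ∈ delT S := by
  rw [← hN.tri] at h ⊢
  exact N.rot h

/-- a triangle with a killed side has amplitude `0` -/
theorem Q_kill {S : Finset ℂ} {N : Net ℂ} (hN : HNet S N) {a b c : ℂ} (h : (a, b) ∈ N.kl) :
    N.Q (a, b, c) = 0 := by
  have hA : ∀ k, N.triA (a, b, c) k = 0 := by
    intro k
    unfold Net.triA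
    have h1 : (N.tj (a, b, c)).filter (N.Tri3 (a, b, c) k) = ∅ := by
      apply Finset.filter_eq_empty_iff.mpr
      intro J hJ hT
      have hJ' : IsJoin N.toTrg N.kl (rots (a, b, c)) N.exS J := by
        have := hJ
        unfold Net.tj joins at this
        exact (Finset.mem_filter.mp this).2
      have h2 : (a, b) ∉ N.exS := by
        rintro ⟨k, hk⟩
        exact hN.live k (hk ▸ h)
      have h3 : (b, a) ∉ N.exS := by
        rintro ⟨k, hk⟩
        exact hN.live k (hk ▸ N.klsym a b h)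
      exact (hJ'.kill a b h h2 h3).1 hT.1
    rw [h1]; simp
  unfold Net.Q
  simp [hA]

/-- centre of the drawn triangle -/
def hcen (N : Net ℂ) (t : ℂ × ℂ × ℂ) : ℂ :=
  if (t.1, t.2.1) ∈ N.kl then
    (if (t.2.1, t.2.2) ∈ N.kl then N.F t.2.2 t.1 else N.F t.2.1 t.2.2)
  else if (t.2.1, t.2.2) ∈ N.kl then N.F t.1 t.2.1
  else if (t.2.2, t.1) ∈ N.kl then N.F t.1 t.2.1
  else (N.F t.1 t.2.1 + N.F t.2.1 t.2.2 + N.F t.2.2 t.1) / 3

/-- the observable at a live side is a vertex of the drawn triangle -/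
theorem F_mem_tri {S : Finset ℂ} {N : Net ℂ} (hN : HNet S N)
    {t : ℂ × ℂ × ℂ} (hR : RelAt N t) {e : ℂ × ℂ} (he : LSide N t e) :
    N.F e.1 e.2 ∈ tri (hcen N t) (N.Q t) := by
  obtain ⟨a, b, c⟩ := t
  have n1 : ‖N.Q (b, c, a)‖ = ‖N.Q (a, b, c)‖ := norm_Q_rot N a b c
  have n2 : ‖N.Q (c, a, b)‖ = ‖N.Q (a, b, c)‖ := by rw [norm_Q_rot N b c a, n1]
  -- the three standard sides
  have key : ∃ f : ℂ × ℂ, N.F e.1 e.2 = N.F f.1 f.2 ∧
      f ∉ N.kl ∧ (f = (a, b) ∨ f = (b, c) ∨ f = (c, a)) := by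
    obtain ⟨h1, h2⟩ := he
    simp only at h2
    rcases h2 with h | h | h | h | h | h
    · exact ⟨e, rfl, h1, Or.inl h⟩
    · exact ⟨e, rfl, h1, Or.inr (Or.inl h)⟩
    · exact ⟨e, rfl, h1, Or.inr (Or.inr h)⟩
    · refine ⟨(a, b), ?_, ?_, Or.inl rfl⟩
      · rw [h]; exact F_comm N b a
      · intro h3; exact h1 (h ▸ N.klsym a b h3)
    · refine ⟨(b, c), ?_, ?_, Or.inr (Or.inl rfl)⟩
      · rw [h]; exact F_comm N c b
      · intro h3; exact h1 (h ▸ N.klsym b c h3)
    · refine ⟨(c, a), ?_, ?_, Or.inr (Or.inr rfl)⟩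
      · rw [h]; exact F_comm N a c
      · intro h3; exact h1 (h ▸ N.klsym c a h3)
  obtain ⟨f, hf, hfk, hf3⟩ := key
  rw [hf]
  have z1 : (a, b) ∈ N.kl → N.Q (a, b, c) = 0 := fun h => Q_kill hN h
  have z2 : (b, c) ∈ N.kl → N.Q (a, b, c) = 0 := fun h => by
    rw [← norm_eq_zero, ← n1, Q_kill hN h, norm_zero]
  have z3 : (c, a) ∈ N.kl → N.Q (a, b, c) = 0 := fun h => by
    rw [← norm_eq_zero, ← n2, Q_kill hN h, norm_zero]
  unfold hcen
  simp only
  by_cases k1 : (a, b) ∈ N.kl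
  · rw [z1 k1, tri_zero, if_pos k1]
    by_cases k2 : (b, c) ∈ N.kl
    · rw [if_pos k2]
      rcases hf3 with rfl | rfl | rfl
      · exact absurd k1 hfk
      · exact absurd k2 hfk
      · rfl
    · rw [if_neg k2]
      rcases hf3 with rfl | rfl | rfl
      · exact absurd k1 hfk
      · rfl
      · exact (hR.j2 a b c (by simp [rots]) k1 k2 hfk).symm
  · rw [if_neg k1]
    by_cases k2 : (b, c) ∈ N.kl
    · rw [if_pos k2, z2 k2, tri_zero]
      rcases hf3 with rfl | rfl | rfl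
      · rfl
      · exact absurd k2 hfk
      · exact hR.j2 b c a (by simp [rots]) k2 hfk k1
    · rw [if_neg k2]
      by_cases k3 : (c, a) ∈ N.kl
      · rw [if_pos k3, z3 k3, tri_zero]
        rcases hf3 with rfl | rfl | rfl
        · rfl
        · exact (hR.j2 c a b (by simp [rots]) k3 k1 k2).symm
        · exact absurd k3 hfk
      · rw [if_neg k3]
        obtain ⟨h, e1, e2, e3⟩ := hR.j1 k1 k2 k3
        simp only at e1 e2 e3
        have e4 : (N.F a b + N.F b c + N.F c a) / 3 = h := by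
          rw [e1, e2, e3]
          have := one_add_om
          linear_combination (N.Q (a, b, c) / 3) * this
        rw [e4]
        rcases hf3 with rfl | rfl | rfl
        · simp only [e1]; exact v0_mem _ _
        · simp only [e2]; exact v1_mem _ _
        · simp only [e3]; exact v2_mem _ _

theorem walk_of_conn {S : Finset ℂ} {N : Net ℂ} (hN : HNet S N)
    {A : Finset (ℂ × ℂ × ℂ)} (hA : ∀ t ∈ A, RelAt N t) {e e' : ℂ × ℂ} (h : Conn N A e e') :
    Walk (hcen N) N.Q A (N.F e.1 e.2) (N.F e'.1 e'.2) := by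
  unfold Walk
  induction h with
  | refl => exact Relation.ReflTransGen.refl
  | tail _ hst ih =>
    obtain ⟨t, ht, h1, h2⟩ := hst
    exact ih.tail ⟨t, ht, F_mem_tri hN (hA t ht) h1, F_mem_tri hN (hA t ht) h2⟩

/-- **T3** for networks. `U`: one oriented representative per triangle; `Dis U (hcen N) N.Q` is
leaf T1. -/
theorem T3 {S : Finset ℂ} {N : Net ℂ} (hN : HNet S N)
    {U : Finset (ℂ × ℂ × ℂ)} (hR : ∀ t ∈ U, RelAt N t) (hd : Dis U (hcen N) N.Q)
    {I : Type} {J : Finset I} {lam : I → ℝ} {A : I → Finset (ℂ × ℂ × ℂ)}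
    (hF : Fam U (hcen N) N.Q J lam A) (hc : ∀ t ∈ U, cw J lam A t ≤ 1 / 800) (v : ℂ) {r R : ℝ}
    (hr : 0 < r) (hrR : r ≤ R) (e e' : I → ℂ × ℂ) (hw : ∀ i ∈ J, Conn N (A i) (e i) (e' i))
    (hx : ∀ i ∈ J, ‖N.F (e i).1 (e i).2 - v‖ ≤ r)
    (hy : ∀ i ∈ J, R ≤ ‖N.F (e' i).1 (e' i).2 - v‖) :
    Real.log (R / r) ≤ 1 + 1152 * ∑ t ∈ U, cw J lam A t ^ 2 :=
  rsw hd hF hc v hr hrR (fun i => N.F (e i).1 (e i).2) (fun i => N.F (e' i).1 (e' i).2)
    (fun i hi => walk_of_conn hN (fun t ht => hR t (hF.sub i hi ht)) (hw i hi)) hx hy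


end Crest.Agent.R143.Rswx63
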