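import Crest.Agent.R143.J1_872
import Crest.Agent.R143.Rsw_63
import Crest.Agent.R143.Planar_54

-- ▼ part R143/Rel_63
section

/-!
# Row 143 (S0194): the relations `RelAt` (hypothesis of T3, T4) from `J1_872` (helper63)
-/

set_option autoImplicit false

noncomputable section

open scoped Classical

namespace Crest.Agent.R143.Relx63

open Crest.Agent.R143.B0x346 Crest.Agent.R143.J1x872 Crest.Agent.R143.Oscx63

/-- any network -/
theorem relAt_gen {V : Type} {N : Net V} (hg : Good N) {t : V × V × V} (ht : t ∈ N.T)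
    (hP : P1 N t) (hne : (N.tj t).Nonempty ∨
      ((t.1, t.2.1) ∉ N.exS ∧ (t.2.1, t.2.2) ∉ N.exS ∧ (t.2.2, t.1) ∉ N.exS)) : RelAt N t := by
  obtain ⟨a, b, c⟩ := t
  simp only at hne
  constructor
  · intro h1 h2 h3
    exact j1_gen hg ht hP h1 h2 h3 hne
  · intro x y z hx h1 h2 h3
    simp only [rots, Set.mem_insert_iff, Set.mem_singleton_iff, Prod.mk.injEq] at hx
    rcases hx with ⟨rfl, rfl, rfl⟩ | ⟨rfl, rfl, rfl⟩ | ⟨rfl, rfl, rfl⟩
    · exact j2_gen hg ht hP h1 h2 h3 (by tauto)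
    · exact j2_gen hg (N.rot ht) (p1_rot _ _ _ hP) h1 h2 h3
        (by rw [Crest.Agent.R143.J1x872.tj_rot]; tauto)
    · exact j2_gen hg (N.rot (N.rot ht)) (p1_rot _ _ _ (p1_rot _ _ _ hP)) h1 h2 h3
        (by rw [Crest.Agent.R143.J1x872.tj_rot, Crest.Agent.R143.J1x872.tj_rot]; tauto)

/-- networks on Delaunay triangulations -/
theorem relAt_of (hP : P1all) {S : Finset ℂ} {N : Net ℂ} (hN : HNet S N) {t : ℂ × ℂ × ℂ}
    (ht : t ∈ delT S) (hne : (N.tj t).Nonempty ∨
      ((t.1, t.2.1) ∉ N.exS ∧ (t.2.1, t.2.2) ∉ N.exS ∧ (t.2.2, t.1) ∉ N.exS)) : RelAt N t :=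
  relAt_gen (good_of_hnet hN) (by rw [hN.tri]; exact ht) (hP N S hN t ht) hne

end Crest.Agent.R143.Relx63
end
end

-- ▼ part R143/Rel2_63

/-!
# Row 143 (S0194): `P1all` (block P, from `Planar_54`) and the relations `RelAt` (helper63)
-/

set_option autoImplicit false

noncomputable section

open scoped Classical

namespace Crest.Agent.R143.Rel2x63

open Crest.Agent.R143.B0x346 Crest.Agent.R143.Oscx63
open Crest.Agent.R143.J1x872 Crest.Agent.R143.Planarx54

theorem sd_eq (t : ℂ × ℂ × ℂ) (i : ZMod 3) : sd t i = (vt t i, vt t (i + 1)) := by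
  rcases cases_z3 i with rfl | rfl | rfl
  · rw [sd0]; rfl
  · rw [sd1]; rfl
  · rw [sd2]; rfl

theorem st_eq (t : ℂ × ℂ × ℂ) (i : ZMod 3) : st t i = sw (sd t i) := by
  rcases cases_z3 i with rfl | rfl | rfl
  · rw [sd0]; rfl
  · rw [sd1]; rfl
  · rw [sd2]; rfl

/-- planarity P1 in the form used by `J1_872` -/
theorem p1all : P1all := by
  intro N S H t ht J hJ hall e he
  obtain ⟨k, hk⟩ := Planarx54.P1 H ht (J := J) (Crest.Agent.R143.JCardx872.mem_joins.2 hJ) (π := e)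
    (fun i => by rw [← sd_eq]; exact hall i)
    (fun i => by rw [st_eq]; exact he i)
  constructor
  · rw [hk 1, hk 0]; ring
  · rw [hk 2, hk 0]; ring

/-- the relations at a triangle (no hypothesis left except nonemptiness at a mark) -/
theorem relAt {S : Finset ℂ} {N : Net ℂ} (hN : HNet S N) {t : ℂ × ℂ × ℂ}
    (ht : t ∈ delT S) (hne : (N.tj t).Nonempty ∨
      ((t.1, t.2.1) ∉ N.exS ∧ (t.2.1, t.2.2) ∉ N.exS ∧ (t.2.2, t.1) ∉ N.exS)) : RelAt N t :=
  Relx63.relAt_of p1all hN ht hne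

end Crest.Agent.R143.Rel2x63
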