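import Crest.Agent.R143.J1_872
import Crest.Agent.R143.DelR_806
import Crest.Agent.R143.JCol_54

/-!
# Row 143, block P, leaf P2a: the observable on the sides of the domain (helper697)

* `leg_removed` : a join without the leg from the mark `p` to the mark `x` is a join with the
  remaining marks
-/

set_option autoImplicit false

noncomputable section

open scoped Classical

namespace Crest.Agent.R143.Sidesx697

open Crest.Agent.R143.B0x346 Crest.Agent.R143.JCardx872

variable {V : Type}

/-- reversal -/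
def rev (p : V × V) : V × V := (p.2, p.1)

@[simp] theorem rev_rev (p : V × V) : rev (rev p) = p := rfl

@[simp] theorem rev_mk (a b : V) : rev (a, b) = (b, a) := rfl

theorem rev_eq {p q : V × V} : rev p = q ↔ p = rev q :=
  ⟨fun h => by rw [← h, rev_rev], fun h => by rw [h, rev_rev]⟩

variable {G : Trg V} {kl : Set (V × V)} {O : Set (V × V × V)} {D : Set (V × V)}
  {J : Finset (V × V)}

/-- exactly two occupied sides -/
theorem par2 (hJ : IsJoin G kl ∅ D J) {a b c : V} (h : (a, b, c) ∈ G.T) :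
    ((a, b) ∈ J ∧ (b, c) ∈ J ∧ (c, a) ∉ J) ∨ ((a, b) ∈ J ∧ (b, c) ∉ J ∧ (c, a) ∈ J) ∨
    ((a, b) ∉ J ∧ (b, c) ∈ J ∧ (c, a) ∈ J) ∨ ((a, b) ∉ J ∧ (b, c) ∉ J ∧ (c, a) ∉ J) := by
  have h1 := hJ.par a b c h
  by_cases g1 : (a, b) ∈ J <;> by_cases g2 : (b, c) ∈ J <;> by_cases g3 : (c, a) ∈ J <;>
    simp [g1, g2, g3] at h1 ⊢

/-- a state reached by a step has its reverse occupied -/
theorem step_rev {p q : V × V} (h : Step G O D J p q) : rev q ∈ J := by
  obtain ⟨c, h1, h2, h3, h4 | h4⟩ := h
  · rw [h4.2]; exact h4.1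
  · rw [h4.2.2]; exact h4.1

theorem leads_rev {p q : V × V} (h : Leads G O D J p q) : q = p ∨ rev q ∈ J := by
  rcases Relation.ReflTransGen.cases_tail h with h | ⟨r, _, hr⟩
  · exact Or.inl h
  · exact Or.inr (step_rev hr)

/-- no step at the end -/
theorem no_step {x q : V × V} (hx : x ∈ D) : ¬ Step G O D J (rev x) q := by
  rintro ⟨c, h1, h2, h3, h4⟩
  exact h3 hx

/-- the walker is deterministic -/
theorem step_det {p q q' : V × V} (h : Step G O D J p q) (h' : Step G O D J p q') : q = q' := by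
  obtain ⟨c, h1, -, -, h4⟩ := h
  obtain ⟨c', h1', -, -, h4'⟩ := h'
  have hc := G.uniq h1 h1'
  subst hc
  rcases h4 with h4 | h4 <;> rcases h4' with h4' | h4'
  · rw [h4.2, h4'.2]
  · exact absurd h4.1 h4'.2.1
  · exact absurd h4'.1 h4.2.1
  · rw [h4.2.2, h4'.2.2]

/-- two ends of the same walk agree -/
theorem ends_unique {p x y : V × V} (hx : x ∈ D) (hy : y ∈ D) (h : Leads G O D J p (rev x))
    (h' : Leads G O D J p (rev y)) : x = y := by
  have hdet : Relator.RightUnique (Step G O D J) := fun a b c => step_det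
  have h1 : rev x = rev y := by
    rcases Relation.ReflTransGen.total_of_right_unique hdet h h' with h2 | h2
    · rcases Relation.ReflTransGen.cases_head h2 with h3 | ⟨r, h3, -⟩
      · exact h3
      · exact absurd h3 (no_step hx)
    · rcases Relation.ReflTransGen.cases_head h2 with h3 | ⟨r, h3, -⟩
      · exact h3.symm
      · exact absurd h3 (no_step hy)
  have := congrArg rev h1
  simpa using this

/-- the part of a join off the states reached from `p` -/
def off (G : Trg V) (D : Set (V × V)) (J : Finset (V × V)) (p : V × V) : Finset (V × V) :=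
  J.filter fun q => ¬ Leads G ∅ D J p q ∧ ¬ Leads G ∅ D J p (rev q)

theorem mem_off {p q : V × V} : q ∈ off G D J p ↔
    q ∈ J ∧ ¬ Leads G ∅ D J p q ∧ ¬ Leads G ∅ D J p (rev q) := by
  unfold off; rw [Finset.mem_filter]

/-- a reached state which is occupied: the other occupied side of its left triangle is on the leg -/
theorem on_leg_fwd (hJ : IsJoin G kl ∅ D J) {p a b : V × V} (ha : a ∈ J) (hb : b ∈ J)
    (_hab : a ≠ b) {c : V} (ht : (a.1, a.2, c) ∈ G.T) (hbt : b = (a.2, c) ∨ b = (c, a.1))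
    (h : Leads G ∅ D J p a) : Leads G ∅ D J p (rev b) := by
  refine Relation.ReflTransGen.tail h ⟨c, ht, by simp, ?_, ?_⟩
  · intro h1
    exact (hJ.mark _ _ h1).2 ha
  · have h2 := par2 hJ ht
    rcases hbt with rfl | rfl
    · left
      exact ⟨hb, rfl⟩
    · right
      refine ⟨hb, ?_, rfl⟩
      have ha' : (a.1, a.2) ∈ J := ha
      tauto

/-- a side through which the walk leaves the triangle -/
theorem on_leg_bwd (hJ : IsJoin G kl ∅ D J) {p a b : V × V} (hp : p ∈ D) (ha : a ∈ J)
    (hb : b ∈ J) (_hab : a ≠ b) {c : V} (ht : (a.1, a.2, c) ∈ G.T)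
    (hbt : b = (a.2, c) ∨ b = (c, a.1)) (h : Leads G ∅ D J p (rev a)) : Leads G ∅ D J p b := by
  rcases Relation.ReflTransGen.cases_tail h with h1 | ⟨s, hs, h1⟩
  · -- `rev a = p`
    exfalso
    have h2 : (rev a) ∈ D := by rw [h1]; exact hp
    exact (hJ.mark _ _ h2).2 ha
  · -- the last step leaves the triangle of `a` through `a`
    obtain ⟨e, h2, -, h3, h4⟩ := h1
    -- `s` is occupied
    have hsJ : s ∈ J := by
      rcases leads_rev hs with h5 | h5
      · rw [h5]; exact (hJ.mark _ _ hp).1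
      · by_cases h6 : s ∈ D
        · exact (hJ.mark _ _ h6).1
        · exact (hJ.sym _ _ h6 h3).2 h5
    have key : s = b := by
      have hT := G.rot ht
      have hT2 := G.rot hT
      rcases h4 with ⟨h5, h6⟩ | ⟨h5, h6, h7⟩
      · -- `rev a = (e, s.2)`, so `a = (s.2, e)`
        have ha' : a = (s.2, e) := by
          have := congrArg rev h6
          simpa using this
        have h8 : (s.2, e, s.1) ∈ G.T := G.rot h2
        rw [ha'] at ht
        have hc : c = s.1 := G.uniq ht h8
        have h9 := par2 hJ h2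
        rcases hbt with hb' | hb'
        · -- b = (e, s.1) occupied, `(s.1,s.2)` and `(s.2,e)` occupied: contradiction
          exfalso
          have hb2 : (e, s.1) ∈ J := by
            rw [hb', ha', hc] at hb; exact hb
          have hs2 : (s.1, s.2) ∈ J := hsJ
          tauto
        · rw [hb', ha', hc]
      · have ha' : a = (e, s.1) := by
          have := congrArg rev h7
          simpa using this
        have h8 : (e, s.1, s.2) ∈ G.T := G.rot (G.rot h2)
        rw [ha'] at ht
        have hc : c = s.2 := G.uniq ht h8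
        have h9 := par2 hJ h2
        rcases hbt with hb' | hb'
        · rw [hb', ha', hc]
        · exfalso
          have hb2 : (s.2, e) ∈ J := by
            rw [hb', ha', hc] at hb; exact hb
          exact h6 hb2
    rw [← key]; exact hs

/-- **a join without one leg** -/
theorem leg_removed (hJ : IsJoin G kl ∅ D J) {p x : V × V} (hp : p ∈ D) (hx : x ∈ D)
    (hpx : Leads G ∅ D J p (rev x)) :
    IsJoin G kl ∅ (D \ {p, x}) (off G D J p) := by
  have hrp : rev p ∉ J := (hJ.mark _ _ hp).2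
  have hrx : rev x ∉ J := (hJ.mark _ _ hx).2
  have np : p ∉ off G D J p := fun h => (mem_off.1 h).2.1 Relation.ReflTransGen.refl
  have nx : x ∉ off G D J p := fun h => (mem_off.1 h).2.2 hpx
  have nrp : rev p ∉ off G D J p := fun h => hrp (mem_off.1 h).1
  have nrx : rev x ∉ off G D J p := fun h => hrx (mem_off.1 h).1
  have hsym : ∀ a b : V, (a, b) ∉ D → (b, a) ∉ D →
      ((a, b) ∈ off G D J p ↔ (b, a) ∈ off G D J p) := by
    intro a b h1 h2
    rw [mem_off, mem_off, hJ.sym a b h1 h2]
    simp only [rev_mk]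
    tauto
  refine ⟨fun q hq => hJ.sub (mem_off.1 hq).1, ?_, ?_, ?_, ?_, ?_⟩
  · intro a b h1 h2
    by_cases h3 : (a, b) ∈ D
    · have h4 : (a, b) = p ∨ (a, b) = x := by
        by_contra h5
        exact h1 ⟨h3, by simpa using h5⟩
      rcases h4 with h4 | h4
      · have h5 : (b, a) = rev p := by rw [← h4]; rfl
        rw [h4, h5]; tauto
      · have h5 : (b, a) = rev x := by rw [← h4]; rfl
        rw [h4, h5]; tauto
    · by_cases h3' : (b, a) ∈ D
      · have h4 : (b, a) = p ∨ (b, a) = x := by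
          by_contra h5
          exact h2 ⟨h3', by simpa using h5⟩
        rcases h4 with h4 | h4
        · have h5 : (a, b) = rev p := by rw [← h4]; rfl
          rw [h4, h5]; tauto
        · have h5 : (a, b) = rev x := by rw [← h4]; rfl
          rw [h4, h5]; tauto
      · exact hsym a b h3 h3'
  · rintro a b ⟨h1, h2⟩
    have h3 := hJ.mark a b h1
    refine ⟨mem_off.2 ⟨h3.1, fun h => ?_, fun h => ?_⟩, fun h => h3.2 (mem_off.1 h).1⟩
    · rcases leads_rev h with h4 | h4
      · exact h2 (Or.inl h4)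
      · exact h3.2 h4
    · have h4 : x = (a, b) := ends_unique hx h1 hpx h
      exact h2 (Or.inr (by rw [Set.mem_singleton_iff]; exact h4.symm))
  · intro a b h1 h2
    by_cases h3 : (a, b) ∈ D
    · have h4 : (a, b) = p ∨ (a, b) = x := by
        by_contra h5
        exact h2 ⟨h3, by simpa using h5⟩
      rcases h4 with h4 | h4
      · have h5 : (b, a) = rev p := by rw [← h4]; rfl
        rw [h4, h5]; exact ⟨np, nrp⟩
      · have h5 : (b, a) = rev x := by rw [← h4]; rfl
        rw [h4, h5]; exact ⟨nx, nrx⟩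
    · have h4 := hJ.bdr a b h1 h3
      exact ⟨fun h => h4.1 (mem_off.1 h).1, fun h => h4.2 (mem_off.1 h).1⟩
  · intro a b h1 h2 h2'
    by_cases h3 : (a, b) ∈ D
    · have h4 : (a, b) = p ∨ (a, b) = x := by
        by_contra h5
        exact h2 ⟨h3, by simpa using h5⟩
      rcases h4 with h4 | h4
      · have h5 : (b, a) = rev p := by rw [← h4]; rfl
        rw [h4, h5]; exact ⟨np, nrp⟩
      · have h5 : (b, a) = rev x := by rw [← h4]; rfl
        rw [h4, h5]; exact ⟨nx, nrx⟩
    · by_cases h3' : (b, a) ∈ D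
      · have h4 : (b, a) = p ∨ (b, a) = x := by
          by_contra h5
          exact h2' ⟨h3', by simpa using h5⟩
        rcases h4 with h4 | h4
        · have h5 : (a, b) = rev p := by rw [← h4]; rfl
          rw [h4, h5]; exact ⟨nrp, np⟩
        · have h5 : (a, b) = rev x := by rw [← h4]; rfl
          rw [h4, h5]; exact ⟨nrx, nx⟩
      · have h4 := hJ.kill a b h1 h3 h3'
        exact ⟨fun h => h4.1 (mem_off.1 h).1, fun h => h4.2 (mem_off.1 h).1⟩
  · intro a b c ht
    have ht1 := G.rot ht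
    have ht2 := G.rot ht1
    -- sides on the leg come in pairs
    have pair : ∀ u v w : V, (u, v, w) ∈ G.T → (u, v) ∈ J → (v, w) ∈ J →
        ((u, v) ∈ off G D J p ↔ (v, w) ∈ off G D J p) := by
      intro u v w h h1 h2
      have hne : (u, v) ≠ (v, w) := by
        intro h3
        exact G.ne h (congrArg Prod.fst h3)
      have h' := G.rot h
      rw [mem_off, mem_off]
      constructor
      · rintro ⟨-, g1, g2⟩
        refine ⟨h2, fun g => g2 ?_, fun g => g1 ?_⟩
        · exact on_leg_fwd hJ h2 h1 hne.symm h' (Or.inr rfl) g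
        · exact on_leg_bwd hJ hp h2 h1 hne.symm h' (Or.inr rfl) g
      · rintro ⟨-, g1, g2⟩
        refine ⟨h1, fun g => g2 ?_, fun g => g1 ?_⟩
        · exact on_leg_fwd hJ h1 h2 hne h (Or.inl rfl) g
        · exact on_leg_bwd hJ hp h1 h2 hne h (Or.inl rfl) g
    have offJ : ∀ q, q ∉ J → q ∉ off G D J p := fun q h h' => h (mem_off.1 h').1
    rcases par2 hJ ht with ⟨g1, g2, g3⟩ | ⟨g1, g2, g3⟩ | ⟨g1, g2, g3⟩ | ⟨g1, g2, g3⟩
    · have h1 := pair a b c ht g1 g2
      have h2 := offJ _ g3
      by_cases h3 : (a, b) ∈ off G D J p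
      · simp [h1.1 h3, h2, h3]
      · simp [mt h1.2 h3, h2, h3]
    · have h1 := pair c a b ht2 g3 g1
      have h2 := offJ _ g2
      by_cases h3 : (a, b) ∈ off G D J p
      · simp [h1.2 h3, h2, h3]
      · simp [mt h1.1 h3, h2, h3]
    · have h1 := pair b c a ht1 g2 g3
      have h2 := offJ _ g1
      by_cases h3 : (b, c) ∈ off G D J p
      · simp [h1.1 h3, h2, h3]
      · simp [mt h1.2 h3, h2, h3]
    · simp [offJ _ g1, offJ _ g2, offJ _ g3]

/-! ### colourings -/

/-- `σ` is a colouring with boundary `J` -/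
def IsCol (G : Trg V) (J : Finset (V × V)) (σ : V → Bool) : Prop :=
  ∀ u v : V, (u, v) ∈ G.E → (σ u ≠ σ v ↔ ((u, v) ∈ J ∨ (v, u) ∈ J))

/-- **a colouring of the join without the leg is constant along the leg** -/
theorem col_leg (hJ : IsJoin G kl ∅ D J) {p : V × V} (hp : p ∈ D) {σ : V → Bool}
    (hσ : IsCol G (off G D J p) σ) {q : V × V} (h : Leads G ∅ D J p q) :
    σ q.1 = σ p.1 ∧ σ q.2 = σ p.1 := by
  induction h with
  | refl =>
    refine ⟨rfl, ?_⟩
    have h1 : (p.1, p.2) ∈ G.E := hJ.sub (hJ.mark _ _ hp).1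
    by_contra h2
    rcases (hσ _ _ h1).1 (fun h => h2 h.symm) with h3 | h3
    · exact (mem_off.1 h3).2.1 Relation.ReflTransGen.refl
    · exact (mem_off.1 h3).2.2 Relation.ReflTransGen.refl
  | tail hq hs ih =>
    rename_i q r
    have hr : Leads G ∅ D J p r := Relation.ReflTransGen.tail hq hs
    have key : ∀ u v : V, (u, v) ∈ J → (r = (u, v) ∨ r = (v, u)) → σ u = σ v := by
      intro u v h1 h2
      by_contra h3
      rcases (hσ _ _ (hJ.sub h1)).1 h3 with h4 | h4
      · rcases h2 with h2 | h2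
        · rw [h2] at hr; exact (mem_off.1 h4).2.1 hr
        · rw [h2] at hr; exact (mem_off.1 h4).2.2 hr
      · rcases h2 with h2 | h2
        · rw [h2] at hr; exact (mem_off.1 h4).2.2 hr
        · rw [h2] at hr; exact (mem_off.1 h4).2.1 hr
    obtain ⟨c, h1, h2, h3, h4 | h4⟩ := hs
    · have h5 := key _ _ h4.1 (Or.inr h4.2)
      rw [h4.2]
      exact ⟨by rw [← h5]; exact ih.2, ih.2⟩
    · have h5 := key _ _ h4.1 (Or.inr h4.2.2)
      rw [h4.2.2]
      exact ⟨ih.1, by rw [h5]; exact ih.1⟩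

/-! ### walls -/

/-- an edge of the triangulation which is killed or on the boundary, and not a mark -/
def Wall (N : Net V) (u v : V) : Prop :=
  (u, v) ∈ N.E ∧ (u, v) ∉ N.exS ∧ (v, u) ∉ N.exS ∧
    ((u, v) ∈ N.kl ∨ (∀ c, (v, u, c) ∉ N.T) ∨ ∀ c, (u, v, c) ∉ N.T)

/-- a colouring is constant across the walls -/
theorem col_wall {N : Net V} {D' : Set (V × V)} (hJ : IsJoin N.toTrg N.kl O D' J)
    (hD : D' ⊆ N.exS) {σ : V → Bool} (hσ : IsCol N.toTrg J σ) {u v : V} (h : Wall N u v) :
    σ u = σ v := by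
  obtain ⟨h1, h2, h3, h4⟩ := h
  by_contra h5
  have h6 := (hσ _ _ h1).1 h5
  have h7 : (u, v) ∉ J ∧ (v, u) ∉ J := by
    rcases h4 with h4 | h4 | h4
    · exact hJ.kill _ _ h4 (fun h => h2 (hD h)) (fun h => h3 (hD h))
    · exact hJ.bdr _ _ h4 (fun h => h2 (hD h))
    · exact (hJ.bdr _ _ h4 (fun h => h3 (hD h))).symm
  tauto

/-- the side `i` of the domain: joined to the head of the mark `i` by walls -/
def Side (N : Net V) (i : ZMod 3) (v : V) : Prop :=
  Relation.ReflTransGen (Wall N) (N.ex i).2 v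

theorem col_side {N : Net V} {D' : Set (V × V)} (hJ : IsJoin N.toTrg N.kl O D' J)
    (hD : D' ⊆ N.exS) {σ : V → Bool} (hσ : IsCol N.toTrg J σ) {i : ZMod 3} {v : V}
    (h : Side N i v) : σ v = σ (N.ex i).2 := by
  induction h with
  | refl => rfl
  | tail _ hs ih => rw [← ih, col_wall hJ hD hσ hs]

/-- three different marks, consecutive marks joined by walls -/
structure Marks3 (N : Net V) : Prop where
  ne : ∀ i j, i ≠ j → N.ex i ≠ N.ex j
  next : ∀ i, Side N i (N.ex (i + 1)).1

/-- every join with marks among the three is a boundary -/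
def HasCol (N : Net V) : Prop :=
  ∀ D' : Set (V × V), D' ⊆ N.exS → ∀ J, IsJoin N.toTrg N.kl ∅ D' J → ∃ σ, IsCol N.toTrg J σ

/-- **the leg from an edge at the side `i` does not end at the opposite mark** -/
theorem end_side {N : Net V} (hM : Marks3 N) (hC : HasCol N) {p : V × V} (hp : p ∉ N.exS)
    (hJ : IsJoin N.toTrg N.kl ∅ (N.exS ∪ {p}) J) {i k : ZMod 3}
    (hi : Side N i p.1 ∨ Side N i p.2)
    (hk : Leads N.toTrg ∅ (N.exS ∪ {p}) J p (rev (N.ex k))) : k ≠ i + 2 := by
  have hpD : p ∈ N.exS ∪ {p} := Or.inr rfl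
  have hxD : ∀ j, N.ex j ∈ N.exS ∪ {p} := fun j => Or.inl ⟨j, rfl⟩
  have hJ0 := leg_removed hJ hpD (hxD k) hk
  have hD' : (N.exS ∪ {p}) \ {p, N.ex k} ⊆ N.exS := by
    rintro q ⟨h1 | h1, h2⟩
    · exact h1
    · exact absurd (Or.inl h1) h2
  obtain ⟨σ, hσ⟩ := hC _ hD' _ hJ0
  have hleg : ∀ q, Leads N.toTrg ∅ (N.exS ∪ {p}) J p q → σ q.1 = σ p.1 ∧ σ q.2 = σ p.1 :=
    fun q hq => col_leg hJ hpD hσ hq
  have hend := hleg _ hk
  have hpp := hleg p Relation.ReflTransGen.refl
  -- the colours of the sides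
  have s1 : ∀ j, σ (N.ex (j + 1)).1 = σ (N.ex j).2 := fun j => col_side hJ0 hD' hσ (hM.next j)
  have s2 : ∀ j, j ≠ k → σ (N.ex j).1 ≠ σ (N.ex j).2 := by
    intro j hj
    have h1 : ((N.ex j).1, (N.ex j).2) ∈ (N.exS ∪ {p}) \ {p, N.ex k} := by
      refine ⟨hxD j, ?_⟩
      rintro (h2 | h2)
      · exact hp (by rw [← h2]; exact ⟨j, rfl⟩)
      · exact hM.ne j k hj h2
    have h2 := (hJ0.mark _ _ h1).1
    exact (hσ _ _ (hJ0.sub h2)).2 (Or.inl h2)
  have s3 : σ p.1 = σ (N.ex i).2 := by
    rcases hi with h | h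
    · exact col_side hJ0 hD' hσ h
    · rw [← hpp.2]; exact col_side hJ0 hD' hσ h
  have s4 : σ (N.ex k).2 = σ p.1 := hend.1
  intro hki
  have h1 : k + 1 = i := by
    rw [hki]
    have : (i + 2 + 1 : ZMod 3) = i + 3 := by ring
    rw [this]
    have h3 : (3 : ZMod 3) = 0 := by decide
    rw [h3, add_zero]
  have h2 := s2 (k + 1) (by
    intro h
    have : (1 : ZMod 3) = 0 := by
      have := congrArg (fun t => t - k) h
      simp at this
    exact absurd this (by decide))
  rw [s1 k, h1, s4, s3] at h2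
  exact h2 rfl

/-! ### the hull -/

open Crest.Agent.R143.DelRx806 in
/-- orientations along the hull cycle -/
theorem ori_nonneg {S : Finset ℂ} {n : ℕ} {w : ℤ → ℂ} (H : HullCyc S n w) {i j k : ℤ}
    (hij : i ≤ j) (hjk : j ≤ k) (hki : k ≤ i + n) : 0 ≤ cr (w j - w i) (w k - w i) := by
  rcases hij.eq_or_lt with rfl | hij
  · simp [cr]
  rcases hjk.eq_or_lt with rfl | hjk
  · simp [cr]; ring_nf; rfl
  rcases hki.eq_or_lt with rfl | hki
  · rw [H.per]; simp [cr]
  exact (H.conv i j k hij hjk hki).le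

open Crest.Agent.R143.DelRx806 in
/-- orientation of the middles of hull edges -/
theorem ori_mid {S : Finset ℂ} {n : ℕ} {w : ℤ → ℂ} (H : HullCyc S n w) {i j k : ℤ}
    (hij : i < j) (hjk : j < k) (hki : k < i + n) :
    0 < cr (mid (w j, w (j + 1)) - mid (w i, w (i + 1)))
      (mid (w k, w (k + 1)) - mid (w i, w (i + 1))) := by
  have e : 8 * cr (mid (w j, w (j + 1)) - mid (w i, w (i + 1)))
      (mid (w k, w (k + 1)) - mid (w i, w (i + 1))) =
      cr (w j - w i) (w k - w i) + cr (w (j + 1) - w i) (w k - w i) +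
      cr (w j - w i) (w (k + 1) - w i) + cr (w (j + 1) - w i) (w (k + 1) - w i) +
      cr (w j - w (i + 1)) (w k - w (i + 1)) + cr (w (j + 1) - w (i + 1)) (w k - w (i + 1)) +
      cr (w j - w (i + 1)) (w (k + 1) - w (i + 1)) +
      cr (w (j + 1) - w (i + 1)) (w (k + 1) - w (i + 1)) := by
    simp only [cr, mid, Complex.sub_re, Complex.sub_im, Complex.div_re, Complex.div_im,
      Complex.add_re, Complex.add_im, Complex.normSq_ofNat, Complex.re_ofNat, Complex.im_ofNat]
    ring
  have h1 := H.conv i j k hij hjk hki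
  have h2 := ori_nonneg H (i := i) (j := j + 1) (k := k) (by omega) (by omega) (by omega)
  have h3 := ori_nonneg H (i := i) (j := j) (k := k + 1) (by omega) (by omega) (by omega)
  have h4 := ori_nonneg H (i := i) (j := j + 1) (k := k + 1) (by omega) (by omega) (by omega)
  have h5 := ori_nonneg H (i := i + 1) (j := j) (k := k) (by omega) (by omega) (by omega)
  have h6 := ori_nonneg H (i := i + 1) (j := j + 1) (k := k) (by omega) (by omega) (by omega)
  have h7 := ori_nonneg H (i := i + 1) (j := j) (k := k + 1) (by omega) (by omega) (by omega)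
  have h8 := ori_nonneg H (i := i + 1) (j := j + 1) (k := k + 1) (by omega) (by omega)
    (by omega)
  linarith

/-! ### positions of the marks -/

section pos

open Crest.Agent.R143.DelRx806

variable {S : Finset ℂ} {N : Net ℂ} {n : ℕ} {w : ℤ → ℂ}

theorem hullE_asymm {a b : ℂ} (h : hullE S a b) : ¬ hullE S b a := fun h' => by
  obtain ⟨c, hc⟩ := h'.1
  exact h.2 c hc

/-- **lifted positions of the marks along the hull** -/
structure Pos (N : Net ℂ) (n : ℕ) (w : ℤ → ℂ) (m : ℤ → ℤ) : Prop where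
  mono : StrictMono m
  per : ∀ j, m (j + 3) = m j + n
  ex : ∀ j : ℤ, N.ex (j : ZMod 3) = (w (m j), w (m j + 1))

/-- positions in one period -/
theorem hull_window {S : Finset ℂ} {n : ℕ} {w : ℤ → ℂ} (H : HullCyc S n w) (m0 : ℤ) {a b : ℂ}
    (h : hullE S a b) : ∃ i, m0 ≤ i ∧ i < m0 + n ∧ w i = a ∧ w (i + 1) = b := by
  obtain ⟨i, h1, h2, h3, h4⟩ := H.all a b h
  have hn : (0 : ℤ) < n := by exact_mod_cast H.pos
  refine ⟨m0 + (i - m0) % n, by have := Int.emod_nonneg (i - m0) hn.ne'; omega,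
    by have := Int.emod_lt_of_pos (i - m0) hn; omega, ?_, ?_⟩
  · have e : m0 + (i - m0) % n = i + n * (-((i - m0) / n)) := by
      have := Int.emod_add_mul_ediv (i - m0) n
      linarith
    have h5 : ∀ q : ℤ, w (i + n * q) = w i := by
      intro q
      have h6 := mod_per H.pos H.per (i + n * q)
      rw [← h6, Int.add_mul_emod_self_left, mod_per H.pos H.per]
    rw [e, h5, h3]
  · have e : m0 + (i - m0) % n + 1 = (i + 1) + n * (-((i - m0) / n)) := by
      have := Int.emod_add_mul_ediv (i - m0) n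
      linarith
    have h5 : ∀ q : ℤ, w ((i + 1) + n * q) = w (i + 1) := by
      intro q
      have h6 := mod_per H.pos H.per ((i + 1) + n * q)
      rw [← h6, Int.add_mul_emod_self_left, mod_per H.pos H.per]
    rw [e, h5, h4]

theorem hull_per {S : Finset ℂ} {n : ℕ} {w : ℤ → ℂ} (H : HullCyc S n w) (i q : ℤ) :
    w (i + n * q) = w i := by
  have h6 := mod_per H.pos H.per (i + n * q)
  rw [← h6, Int.add_mul_emod_self_left, mod_per H.pos H.per]

theorem hull_inj {S : Finset ℂ} {n : ℕ} {w : ℤ → ℂ} (H : HullCyc S n w) {i j : ℤ}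
    (h : w i = w j) : ∃ q : ℤ, i = j + n * q := by
  have hn : (0 : ℤ) < n := by exact_mod_cast H.pos
  have h1 := mod_per H.pos H.per i
  have h2 := mod_per H.pos H.per j
  have h3 := H.inj (i % n) (j % n) (Int.emod_nonneg _ hn.ne') (Int.emod_lt_of_pos _ hn)
    (Int.emod_nonneg _ hn.ne') (Int.emod_lt_of_pos _ hn) (by rw [h1, h2, h])
  refine ⟨i / n - j / n, ?_⟩
  have h4 := Int.emod_add_mul_ediv i n
  have h5 := Int.emod_add_mul_ediv j n
  rw [mul_sub]
  linarith

theorem exists_pos (h : HNet S N) (H : HullCyc S n w) : ∃ m, Pos N n w m := by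
  have hn : (0 : ℤ) < n := by exact_mod_cast H.pos
  obtain ⟨m0, -, -, a0, b0⟩ := H.all _ _ (h.hex 0)
  obtain ⟨m1, c1, d1, a1, b1⟩ := hull_window H m0 (h.hex 1)
  obtain ⟨m2, c2, d2, a2, b2⟩ := hull_window H m0 (h.hex 2)
  have e0 : N.ex 0 = (w m0, w (m0 + 1)) := Prod.ext a0.symm b0.symm
  have e1 : N.ex 1 = (w m1, w (m1 + 1)) := Prod.ext a1.symm b1.symm
  have e2 : N.ex 2 = (w m2, w (m2 + 1)) := Prod.ext a2.symm b2.symm
  have hinj := (J1x872.good_of_hnet h).inj
  have n01 : m0 ≠ m1 := fun h' => by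
    have : N.ex 0 = N.ex 1 := by rw [e0, e1, h']
    exact absurd (hinj this) (by decide)
  have n02 : m0 ≠ m2 := fun h' => by
    have : N.ex 0 = N.ex 2 := by rw [e0, e2, h']
    exact absurd (hinj this) (by decide)
  have n12 : m1 ≠ m2 := fun h' => by
    have : N.ex 1 = N.ex 2 := by rw [e1, e2, h']
    exact absurd (hinj this) (by decide)
  have hlt : m1 < m2 := by
    by_contra h'
    have h1 := ori_mid H (i := m0) (j := m2) (k := m1) (by omega) (by omega) (by omega)
    have h2 := h.ccw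
    rw [e0, e1, e2] at h2
    have h3 : ∀ u v : ℂ, cr u v = - cr v u := fun u v => by unfold cr; ring
    rw [h3] at h1
    linarith
  set M : ℤ → ℤ := fun r => if r = 0 then m0 else if r = 1 then m1 else m2 with hM
  have M0 : M 0 = m0 := by simp [hM]
  have M1 : M 1 = m1 := by simp [hM]
  have M2 : M 2 = m2 := by simp [hM]
  refine ⟨fun j => M (j % 3) + (j / 3) * n, ?_, ?_, ?_⟩
  · refine strictMono_int_of_lt_succ fun j => ?_
    have h1 : j % 3 = 0 ∨ j % 3 = 1 ∨ j % 3 = 2 := by omega
    rcases h1 with h1 | h1 | h1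
    · have h2 : (j + 1) % 3 = 1 := by omega
      have h3 : (j + 1) / 3 = j / 3 := by omega
      rw [h1, h2, h3, M0, M1]
      omega
    · have h2 : (j + 1) % 3 = 2 := by omega
      have h3 : (j + 1) / 3 = j / 3 := by omega
      rw [h1, h2, h3, M1, M2]
      omega
    · have h2 : (j + 1) % 3 = 0 := by omega
      have h3 : (j + 1) / 3 = j / 3 + 1 := by omega
      rw [h1, h2, h3, M0, M2, add_mul]
      omega
  · intro j
    have h2 : (j + 3) % 3 = j % 3 := by omega
    have h3 : (j + 3) / 3 = j / 3 + 1 := by omega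
    rw [h2, h3, add_mul]
    ring
  · intro j
    have hp : ∀ i, w (i + j / 3 * n) = w i := fun i => by
      rw [mul_comm]; exact hull_per H i _
    have hp1 : ∀ i, w (i + j / 3 * n + 1) = w (i + 1) := fun i => by
      have : i + j / 3 * n + 1 = (i + 1) + j / 3 * n := by ring
      rw [this, hp]
    have hj : ((j : ℤ) : ZMod 3) = ((j % 3 : ℤ) : ZMod 3) := by
      rw [ZMod.intCast_eq_intCast_iff]
      exact (Int.mod_modEq j 3).symm
    have h1 : j % 3 = 0 ∨ j % 3 = 1 ∨ j % 3 = 2 := by omega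
    rcases h1 with h1 | h1 | h1
    · rw [hj, h1, M0, hp, hp1]
      simpa using e0
    · rw [hj, h1, M1, hp, hp1]
      simpa using e1
    · rw [hj, h1, M2, hp, hp1]
      simpa using e2

theorem mem_E_of_hull (h : HNet S N) {a b : ℂ} (hab : hullE S a b) : (a, b) ∈ N.E := by
  obtain ⟨c, hc⟩ := hab.1
  unfold Trg.E
  rw [Finset.mem_union]
  left
  rw [Finset.mem_image]
  exact ⟨(a, b, c), by rw [h.tri]; exact hc, rfl⟩

/-- **consecutive marks are joined by walls** -/
theorem marks3 (h : HNet S N) (H : HullCyc S n w) {m : ℤ → ℤ} (P : Pos N n w m) : Marks3 N where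
  ne i j hij he := hij ((J1x872.good_of_hnet h).inj he)
  next := by
    have key : ∀ j : ℤ, Side N (j : ZMod 3) (N.ex ((j : ZMod 3) + 1)).1 := by
      intro j
      have e1 := P.ex j
      have e2 := P.ex (j + 1)
      rw [show (((j + 1 : ℤ)) : ZMod 3) = (j : ZMod 3) + 1 by push_cast; rfl] at e2
      unfold Side
      rw [e1, e2]
      have hlt := P.mono (show j < j + 1 by omega)
      -- walk along the hull
      have walk : ∀ d : ℕ, m j + 1 + d ≤ m (j + 1) →
          Relation.ReflTransGen (Wall N) (w (m j + 1)) (w (m j + 1 + d)) := by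
        intro d
        induction d with
        | zero => intro _; simp only [Nat.cast_zero, add_zero]; exact Relation.ReflTransGen.refl
        | succ d ih =>
          intro hd
          push_cast at hd
          refine Relation.ReflTransGen.tail (ih (by omega)) ?_
          set l : ℤ := m j + 1 + d with hl
          have hl' : m j + 1 + ((d + 1 : ℕ) : ℤ) = l + 1 := by push_cast; rw [hl]; ring
          rw [hl']
          have hE := H.edge l
          refine ⟨mem_E_of_hull h hE, ?_, ?_, Or.inr (Or.inl fun c hc => ?_)⟩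
          · rintro ⟨k, hk⟩
            obtain ⟨k', rfl⟩ := ZMod.intCast_surjective k
            rw [P.ex k'] at hk
            obtain ⟨q, hq⟩ := hull_inj H (congrArg Prod.fst hk)
            have h5 : ∀ (q : ℕ) (i : ℤ), m (i + 3 * q) = m i + n * q := by
              intro q
              induction q with
              | zero => intro i; simp
              | succ q ihq =>
                intro i
                have e5 : i + 3 * ((q + 1 : ℕ) : ℤ) = (i + 3 * q) + 3 := by push_cast; ring
                rw [e5, P.per, ihq]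
                push_cast
                ring
            have h6 : ∀ q i : ℤ, m (i + 3 * q) = m i + n * q := by
              intro q i
              rcases le_total 0 q with h7 | h7
              · obtain ⟨q', rfl⟩ := Int.eq_ofNat_of_zero_le h7
                exact h5 q' i
              · obtain ⟨q', hq'⟩ := Int.eq_ofNat_of_zero_le (show 0 ≤ -q by omega)
                have h8 := h5 q' (i + 3 * q)
                have h9 : i + 3 * q + 3 * (q' : ℤ) = i := by rw [← hq']; ring
                rw [h9, ← hq'] at h8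
                linarith
            have h7 : m (k' + 3 * (-q)) = l := by
              rw [h6, hq]; ring
            have h8 : j < k' + 3 * (-q) := P.mono.lt_iff_lt.1 (by rw [h7]; omega)
            have h9 : k' + 3 * (-q) < j + 1 := P.mono.lt_iff_lt.1 (by rw [h7]; omega)
            omega
          · rintro ⟨k, hk⟩
            have h5 := h.hex k
            rw [hk] at h5
            exact hullE_asymm hE h5
          · rw [h.tri] at hc
            exact hE.2 c hc
      have h3 := walk (m (j + 1) - (m j + 1)).toNat (by omega)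
      rwa [show m j + 1 + ((m (j + 1) - (m j + 1)).toNat : ℤ) = m (j + 1) by omega] at h3
    intro i
    obtain ⟨j, rfl⟩ := ZMod.intCast_surjective i
    exact key j

theorem card3 (h : HNet S N) : 3 ≤ S.card := by
  obtain ⟨c, hc⟩ := (h.hex 0).1
  obtain ⟨h1, h2, h3, h4, -⟩ := DelGx806.mem_delT.1 hc
  have hab : (N.ex 0).1 ≠ (N.ex 0).2 := by
    intro e; rw [e] at h4; simp [cr] at h4
  have hac : (N.ex 0).1 ≠ c := by
    intro e; rw [e] at h4; simp [cr] at h4
  have hbc : (N.ex 0).2 ≠ c := by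
    intro e; rw [e] at h4; simp [cr, mul_comm] at h4
  calc 3 = ({(N.ex 0).1, (N.ex 0).2, c} : Finset ℂ).card := by
        rw [Finset.card_insert_of_notMem (by simp [hab, hac]),
          Finset.card_insert_of_notMem (by simp [hbc]), Finset.card_singleton]
    _ ≤ S.card := Finset.card_le_card (by
        intro z hz
        simp only [Finset.mem_insert, Finset.mem_singleton] at hz
        rcases hz with rfl | rfl | rfl <;> assumption)

theorem marks3_of (h : HNet S N) : Marks3 N := by
  obtain ⟨n, w, H⟩ := hull_cycle h.gp (card3 h)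
  obtain ⟨m, P⟩ := exists_pos h H
  exact Sidesx697.marks3 h H P

end pos

/-! ### colourings exist -/

section hascol

open Crest.Agent.R143.JColx54

variable {S : Finset ℂ} {N : Net ℂ}

theorem adj_of_E (h : HNet S N) {u v : ℂ} (huv : (u, v) ∈ N.E) : Adj S u v := by
  unfold Trg.E at huv
  rw [Finset.mem_union, Finset.mem_image, Finset.mem_image] at huv
  rcases huv with ⟨⟨a, b, c⟩, h1, h2⟩ | ⟨⟨a, b, c⟩, h1, h2⟩
  · rw [h.tri] at h1
    rw [Prod.mk.injEq] at h2
    obtain ⟨rfl, rfl⟩ := h2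
    exact Or.inl ⟨c, h1⟩
  · rw [h.tri] at h1
    rw [Prod.mk.injEq] at h2
    obtain ⟨rfl, rfl⟩ := h2
    exact Or.inr ⟨c, h1⟩

/-- **every join with hull marks is a boundary** -/
theorem hasCol (h : HNet S N) : HasCol N := by
  intro D' hD J hJ
  have hg := J1x872.good_of_hnet h
  -- seen from a triangle
  have side : ∀ a b c : ℂ, (a, b, c) ∈ delT S → (((a, b) ∈ J ∨ (b, a) ∈ J) ↔ (a, b) ∈ J) := by
    intro a b c ht
    refine ⟨?_, Or.inl⟩
    rintro (h1 | h1)
    · exact h1
    · by_cases h2 : (a, b) ∈ D'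
      · exact (hJ.mark _ _ h2).1
      · by_cases h3 : (b, a) ∈ D'
        · exfalso
          obtain ⟨k, hk⟩ := hD h3
          have h4 := hg.bd k c
          rw [hk, h.tri] at h4
          exact h4 ht
        · exact (hJ.sym _ _ h2 h3).2 h1
  have h2z : ∀ x : ZMod 2, -x = x := by decide
  obtain ⟨σ, hσ⟩ := exact (A := ZMod 2) h.gp
    (f := fun a b => if (a, b) ∈ J ∨ (b, a) ∈ J then 1 else 0)
    (fun a b _ => by
      simp only [h2z]
      by_cases h5 : (a, b) ∈ J ∨ (b, a) ∈ J
      · rw [if_pos h5, if_pos h5.symm]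
      · rw [if_neg h5, if_neg (fun h6 => h5 h6.symm)])
    (fun a b c ht => by
      have ht1 := N.rot (by rw [h.tri]; exact ht)
      have ht2 := N.rot ht1
      have s1 := side a b c ht
      have s2 := side b c a (by rw [← h.tri]; exact ht1)
      have s3 := side c a b (by rw [← h.tri]; exact ht2)
      have hp := par2 hJ (a := a) (b := b) (c := c) (by rw [h.tri]; exact ht)
      simp only [s1, s2, s3]
      rcases hp with ⟨g1, g2, g3⟩ | ⟨g1, g2, g3⟩ | ⟨g1, g2, g3⟩ | ⟨g1, g2, g3⟩ <;>
        simp only [g1, g2, g3, if_true, if_false] <;> decide)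
  refine ⟨fun z => decide (σ z = 1), fun u v huv => ?_⟩
  have h1 := hσ u v (adj_of_E h huv)
  have hz : ∀ x y : ZMod 2, (decide (x = 1) ≠ decide (y = 1)) ↔ y - x ≠ 0 := by decide
  rw [hz, ← h1]
  by_cases h3 : (u, v) ∈ J ∨ (v, u) ∈ J
  · simp [h3]
  · simp [h3]

end hascol

/-! ### the observable on the sides -/

section P2a

variable {N : Net V}

/-- the walk from a half edge `(a, b)` ends at one of the three marks -/
theorem ends_some {p : V × V} {J : Finset (V × V)} (hJ : J ∈ N.hj p.1 p.2) :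
    ∃ k, Ends N.toTrg ∅ (N.exS ∪ {p}) J p (N.ex k) := by
  have hJ' : IsJoin N.toTrg N.kl ∅ (N.exS ∪ {p}) J := mem_joins.1 hJ
  have hpD : p ∈ N.exS ∪ {p} := Or.inr rfl
  have hpJ : p ∈ J := (hJ'.mark _ _ hpD).1
  obtain ⟨e, h1, h2⟩ := JWalkx872.exists_end hJ' JWalkx872.rotInv_empty hpJ
    (fun q _ => JWalkx872.mark_pre hJ' hpD q)
  rcases h2 with h2 | ⟨-, c, -, h2⟩
  · rcases h2 with ⟨k, hk⟩ | h2
    · refine ⟨k, ?_⟩
      unfold Ends
      rw [hk]
      exact h1
    · exfalso
      have h3 : e = (p.2, p.1) := by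
        have := congrArg rev h2
        simpa [rev] using this
      rw [h3] at h1
      exact JWalkx872.not_leads_swap hJ' JWalkx872.rotInv_empty hpJ h1
  · exact h2.elim

theorem ends_one (hg : J1x872.Good N) {p : V × V} {J : Finset (V × V)} {k l : ZMod 3}
    (h : Ends N.toTrg ∅ (N.exS ∪ {p}) J p (N.ex k))
    (h' : Ends N.toTrg ∅ (N.exS ∪ {p}) J p (N.ex l)) : k = l :=
  hg.inj (ends_unique (Or.inl ⟨k, rfl⟩) (Or.inl ⟨l, rfl⟩) h h')

/-- **no leg ends at the opposite mark** -/
theorem cnt_opp (hM : Marks3 N) (hC : HasCol N) {a b : V} (hp : (a, b) ∉ N.exS) {i : ZMod 3}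
    (hi : Side N i a ∨ Side N i b) : N.cnt a b (i + 2) = 0 := by
  unfold Net.cnt
  rw [Finset.card_eq_zero, Finset.filter_eq_empty_iff]
  intro J hJ h
  exact end_side hM hC (p := (a, b)) hp (mem_joins.1 hJ) hi h rfl

theorem sum_cnt (hg : J1x872.Good N) (a b : V) (i : ZMod 3) :
    N.cnt a b i + N.cnt a b (i + 1) + N.cnt a b (i + 2) = (N.hj a b).card := by
  unfold Net.cnt
  have h0 : ∀ i : ZMod 3, i ≠ i + 1 ∧ i ≠ i + 2 ∧ i + 1 ≠ i + 2 := by decide
  have h1 : (N.hj a b) = ((N.hj a b).filter fun J => Ends N.toTrg ∅ (N.exS ∪ {(a, b)}) J (a, b)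
      (N.ex i)) ∪ ((N.hj a b).filter fun J => Ends N.toTrg ∅ (N.exS ∪ {(a, b)}) J (a, b)
      (N.ex (i + 1))) ∪ ((N.hj a b).filter fun J => Ends N.toTrg ∅ (N.exS ∪ {(a, b)}) J (a, b)
      (N.ex (i + 2))) := by
    ext J
    simp only [Finset.mem_union, Finset.mem_filter]
    constructor
    · intro hJ
      obtain ⟨k, hk⟩ := ends_some (p := (a, b)) hJ
      have h2 : ∀ i k : ZMod 3, k = i ∨ k = i + 1 ∨ k = i + 2 := by decide
      rcases h2 i k with rfl | rfl | rfl
      · exact Or.inl (Or.inl ⟨hJ, hk⟩)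
      · exact Or.inl (Or.inr ⟨hJ, hk⟩)
      · exact Or.inr ⟨hJ, hk⟩
    · rintro ((h | h) | h) <;> exact h.1
  have d1 : ∀ k l : ZMod 3, k ≠ l → Disjoint
      ((N.hj a b).filter fun J => Ends N.toTrg ∅ (N.exS ∪ {(a, b)}) J (a, b) (N.ex k))
      ((N.hj a b).filter fun J => Ends N.toTrg ∅ (N.exS ∪ {(a, b)}) J (a, b) (N.ex l)) := by
    intro k l hkl
    rw [Finset.disjoint_filter]
    intro J _ h h'
    exact hkl (ends_one hg h h')
  conv_rhs => rw [h1]
  rw [Finset.card_union_of_disjoint, Finset.card_union_of_disjoint (d1 _ _ (h0 i).1)]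
  rw [Finset.disjoint_union_left]
  exact ⟨d1 _ _ (h0 i).2.1, d1 _ _ (h0 i).2.2⟩

/-- the probability that the leg from the middle of `{a, b}` ends at the mark `k` -/
def Net.pe (N : Net V) (a b : V) (k : ZMod 3) : ℝ :=
  ((N.cnt a b k + N.cnt b a k : ℕ) : ℝ) / (((N.hj a b).card + (N.hj b a).card : ℕ) : ℝ)

theorem pe_nonneg (a b : V) (k : ZMod 3) : 0 ≤ Net.pe N a b k := by
  unfold Net.pe; positivity


theorem pe_le_one (a b : V) (k : ZMod 3) : Net.pe N a b k ≤ 1 := by
  unfold Net.pe
  refine div_le_one_of_le₀ ?_ (Nat.cast_nonneg _)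
  exact_mod_cast Nat.add_le_add (Finset.card_filter_le _ _) (Finset.card_filter_le _ _)

/-- the observable through the three probabilities -/
theorem Fob_eq (N : Net V) (a b : V) : N.Fob a b = ∑ k : ZMod 3, (Net.pe N a b k : ℂ) * omz k := by
  unfold Net.Fob Net.pe
  rw [Finset.sum_div]
  refine Finset.sum_congr rfl fun k _ => ?_
  push_cast
  ring

/-- **P2a**: on the side `i` the observable is on the segment `[om ^ i, om ^ (i + 1)]` -/
theorem Fob_side (hg : J1x872.Good N) (hM : Marks3 N) (hC : HasCol N) {a b : V}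
    (hab : (a, b) ∉ N.exS) (hba : (b, a) ∉ N.exS) {i : ZMod 3} (hi : Side N i a ∨ Side N i b)
    (hne : (N.hj a b).Nonempty ∨ (N.hj b a).Nonempty) :
    Net.pe N a b i + Net.pe N a b (i + 1) = 1 ∧
    N.Fob a b = ((1 - Net.pe N a b (i + 1) : ℝ) : ℂ) * omz i +
      (Net.pe N a b (i + 1) : ℂ) * omz (i + 1) := by
  have h1 := cnt_opp hM hC hab hi
  have h2 := cnt_opp hM hC hba hi.symm
  have h3 := sum_cnt hg a b i
  have h4 := sum_cnt hg b a i
  have hpos : 0 < (N.hj a b).card + (N.hj b a).card := by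
    rcases hne with h | h
    · have := Finset.card_pos.2 h; omega
    · have := Finset.card_pos.2 h; omega
  have e1 : Net.pe N a b i + Net.pe N a b (i + 1) = 1 := by
    unfold Net.pe
    rw [← add_div, div_eq_one_iff_eq (by exact_mod_cast hpos.ne')]
    norm_cast
    omega
  have e2 : Net.pe N a b (i + 2) = 0 := by
    unfold Net.pe
    rw [h1, h2]
    simp
  refine ⟨e1, ?_⟩
  have e3 : (1 - Net.pe N a b (i + 1) : ℝ) = Net.pe N a b i := by linarith
  rw [e3, Fob_eq]
  have hsum : ∀ f : ZMod 3 → ℂ, ∑ k : ZMod 3, f k = f i + f (i + 1) + f (i + 2) := by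
    intro f
    have hz' : ∀ i : ZMod 3, i = 0 ∨ i = 1 ∨ i = 2 := by decide
    have hz := hz' i
    have hs : ∑ k : ZMod 3, f k = f 0 + f 1 + f 2 := Fin.sum_univ_three f
    rw [hs]
    rcases hz with rfl | rfl | rfl
    · simp
    · have a1 : (1 + 1 : ZMod 3) = 2 := by decide
      have a2 : (1 + 2 : ZMod 3) = 0 := by decide
      rw [a1, a2]; ring
    · have a1 : (2 + 1 : ZMod 3) = 0 := by decide
      have a2 : (2 + 2 : ZMod 3) = 1 := by decide
      rw [a1, a2]; ring
  rw [hsum, e2]
  simp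

theorem F_eq_Fob (N : Net V) {a b : V} (hab : (a, b) ∉ N.exS) (hba : (b, a) ∉ N.exS) :
    N.F a b = N.Fob a b := by
  unfold Net.F
  rw [dif_neg]
  rintro ⟨k, hk | hk⟩
  · exact hab ⟨k, hk⟩
  · exact hba ⟨k, hk⟩

end P2a

/-- **leaf P2a** for networks on Delaunay triangulations: an edge with an end on the side `i`, not a
mark, with at least one join -/
theorem F_side {S : Finset ℂ} {N : Net ℂ} (h : HNet S N) {a b : ℂ} (hab : (a, b) ∉ N.exS)
    (hba : (b, a) ∉ N.exS) {i : ZMod 3} (hi : Side N i a ∨ Side N i b)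
    (hne : (N.hj a b).Nonempty ∨ (N.hj b a).Nonempty) :
    0 ≤ Net.pe N a b (i + 1) ∧ Net.pe N a b (i + 1) ≤ 1 ∧
    N.F a b = ((1 - Net.pe N a b (i + 1) : ℝ) : ℂ) * omz i +
      (Net.pe N a b (i + 1) : ℂ) * omz (i + 1) := by
  refine ⟨pe_nonneg _ _ _, pe_le_one _ _ _, ?_⟩
  rw [F_eq_Fob N hab hba]
  exact (Fob_side (J1x872.good_of_hnet h) (marks3_of h) (hasCol h) hab hba hi hne).2

end Crest.Agent.R143.Sidesx697
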