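import Crest.Agent.R143.Scal_63
import Crest.Agent.R143.Rel2_63

/-!
# Row 143 (S0194), leaf LOW (i) = T6 : lower bound for the oscillation of `F` on a small disc
(helper697)

* `ray_sep` : two rays from `x` in directions at angle `≤ 1`
* `sector_family` : equally spaced generic directions in a sector; number of rays which meet a
  triangle
* `sector_energy` : the energy of this family is at most the number of dyadic scales
* `T6` : lower bound
-/

set_option autoImplicit false

noncomputable section

namespace Crest.Agent.R143.T6x697

open Set
open scoped Classical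
open Crest.Agent.R143.B0x346 Crest.Agent.R143.Oscx63 Crest.Agent.R143.DelGx806
open Crest.Agent.R143.Circx63 Crest.Agent.R143.Scalx63 Crest.Agent.R143.Rswx63

/-- the point at distance `s` from `x` in the direction `α` -/
def pt (x : ℂ) (α s : ℝ) : ℂ := x + s * Complex.exp (α * Complex.I)






/-- the triangle `t` is met by the ray in the direction `α` -/
def Hit (x : ℂ) (α : ℝ) (t : ℂ × ℂ × ℂ) : Prop := ∃ s : ℝ, 0 ≤ s ∧ pt x α s ∈ cT t



/-- the part of a ray between the distances `r` and `ρ` -/
def seg (x : ℂ) (α r ρ : ℝ) : Set ℂ := pt x α '' Icc r ρ


end Crest.Agent.R143.T6x697
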