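import Crest.Agent.R143.EQ2_63
import Crest.Agent.R143.B1b_796
import Crest.Agent.R143.T6_697
import Crest.Agent.R143.Sec0_697
import Crest.Agent.R143.Ex_395
import Crest.Agent.R143.Ex2_922
import Crest.Agent.R143.DomB_722
import Crest.Agent.R143.EQ4_63
import Crest.Agent.R143.Ad_422
import Crest.Agent.R143.Spine_422
import Mathlib
import Crest.Agent.R143.B0_346
import Crest.Agent.R143.Osc_63
import Crest.Agent.R143.Rsw_63
import Crest.Agent.R143.Cfg_416

-- ▼ part R143/Low_991
section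

/-!
# Row 143 (S0194), leaf LOW, part (ii): the energy near a point bounds the oscillation (helper991)

* `circle_en` : `circle_osc` of `EQ2_63` with the energy `E` of the triangles which meet the disc
* `low_ii` : the oscillation of `N.F` on the live sides of the triangles which meet a small disc is
  bounded by the energy of the triangles `touch z₀ r S`
* `low_asm` : with the lower bound of the oscillation (part (i), helper697) : the energy is large
-/

set_option autoImplicit false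

noncomputable section

namespace Crest.Agent.R143.Lowx991

open Set MeasureTheory
open scoped Classical
open Crest.Agent.R143.B0x346 Crest.Agent.R143.B0Dx346 Crest.Agent.R143.Oscx63
open Crest.Agent.R143.DelGx806 Crest.Agent.R143.Circx63 Crest.Agent.R143.Scalx63
open Crest.Agent.R143.EQ2x63
open Crest.Agent.R143.B1bx796 (touch)

/-- the inputs of part (ii): as `EQ2x63.Room` without the energy -/
structure RoomE (S : Finset ℂ) (N : Net ℂ) (x : ℂ) (k0 : ℤ) (n : ℕ) (d C : ℝ) : Prop where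
  hn : 0 < n
  C0 : 0 ≤ C
  mesh : ∀ t ∈ delT S, (cT t ∩ Metric.closedBall x ((2 : ℝ) ^ k0)).Nonempty → dm t ≤ d
  cov : ∀ y ∈ Metric.closedBall x ((2 : ℝ) ^ k0), ∃ t ∈ delT S, y ∈ cT t
  live : ∀ u v w : ℂ, (u, v, w) ∈ delT S → ∀ y ∈ Metric.closedBall x ((2 : ℝ) ^ k0),
    y ∈ segment ℝ u v → (u, v) ∉ N.kl
  rel : ∀ t ∈ delT S, (cT t ∩ Metric.closedBall x ((2 : ℝ) ^ k0)).Nonempty → RelAt N t
  m4 : ∀ k ∈ Finset.Ico (k0 - n) k0,
    ∑ t ∈ (delT S).filter (fun t => lo x t ≤ (2 : ℝ) ^ (k + 1) ∧ (2 : ℝ) ^ k ≤ hi x t),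
      dm t ^ 2 ≤ C * (4 : ℝ) ^ k
  max : ∀ ρ : ℝ, 0 < ρ → ρ ≤ (2 : ℝ) ^ k0 → MaxP S N (S.filter fun s => ‖s - x‖ < ρ)



/-- `e` is a live side of a triangle which meets the closed ball of radius `r0` -/
def LiveIn (S : Finset ℂ) (N : Net ℂ) (x : ℂ) (r0 : ℝ) (e : ℂ × ℂ) : Prop :=
  ∃ t ∈ delT S, (cT t ∩ Metric.closedBall x r0).Nonempty ∧ LSide N t e

/-- a side of a triangle is an edge, its first site is near the ball -/
theorem LiveIn.edge {S : Finset ℂ} {N : Net ℂ} (hS : GP (S : Set ℂ)) {x : ℂ} {r0 : ℝ} {e : ℂ × ℂ}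
    (h : LiveIn S N x r0 e) {d : ℝ}
    (hd : ∀ t ∈ delT S, (cT t ∩ Metric.closedBall x r0).Nonempty → dm t ≤ d) :
    e.1 ∈ S ∧ ‖e.1 - x‖ ≤ r0 + d ∧ Edg S e.1 e.2 := by
  obtain ⟨t, ht, hm, hkl, he⟩ := h
  obtain ⟨a, b, c⟩ := t
  have hdt := hd _ ht hm
  obtain ⟨o, hT⟩ := mem_delT_iff.1 ht
  obtain ⟨y, hy1, hy2⟩ := hm
  rw [mem_closedBall_iff_norm] at hy2
  have hhi := hi_le_add (x := x) hT.pos hy1
  have ha : ‖a - x‖ ≤ r0 + d := ((le_max_left _ _).trans (le_max_left _ _)).trans
    (hhi.trans (by linarith))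
  have hb : ‖b - x‖ ≤ r0 + d := ((le_max_right _ _).trans (le_max_left _ _)).trans
    (hhi.trans (by linarith))
  have hc : ‖c - x‖ ≤ r0 + d := (le_max_right _ _).trans (hhi.trans (by linarith))
  have h1 : (b, c, a) ∈ delT S := (g1 S hS).1 _ _ _ ht
  have h2 : (c, a, b) ∈ delT S := (g1 S hS).1 _ _ _ h1
  simp only at he
  rcases he with rfl | rfl | rfl | rfl | rfl | rfl
  · exact ⟨hT.ma, ha, Or.inl ⟨c, ht⟩⟩
  · exact ⟨hT.mb, hb, Or.inl ⟨a, h1⟩⟩
  · exact ⟨hT.mc, hc, Or.inl ⟨b, h2⟩⟩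
  · exact ⟨hT.mb, hb, Or.inr ⟨c, ht⟩⟩
  · exact ⟨hT.mc, hc, Or.inr ⟨a, h1⟩⟩
  · exact ⟨hT.ma, ha, Or.inr ⟨b, h2⟩⟩





end Crest.Agent.R143.Lowx991
end
end

-- ▼ part R143/T6D_697
section

/-!
# Row 143 (S0194), leaf LOW (i) = T6 at the level of the domains (helper697)

* `reps` : one rotation of every triangle
* `lk_side`, `exM_conn` : triangles with a common live side
* `far_side` : every point of the plane is at distance `≥ 1 / 2` from one side of the big triangle
* `Cls D S` : the sites whose cell meets `R i` are on the side `i` (output of 722's D2)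
* `hdir` : a generic ray of a sector is connected to an edge on the side `i`
* `T6D` : lower bound for the oscillation of `F` on the small disc
-/

set_option autoImplicit false
set_option linter.unusedSimpArgs false

noncomputable section

namespace Crest.Agent.R143.T6Dx697

open Set
open scoped Classical
open Crest.ProbabilityR.Voronoi
open Crest.Agent.R143.B0x346 Crest.Agent.R143.B0Dx346 Crest.Agent.R143.Oscx63
open Crest.Agent.R143.DelGx806 Crest.Agent.R143.Circx63 Crest.Agent.R143.Scalx63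
open Crest.Agent.R143.Rswx63 Crest.Agent.R143.T6x697 Crest.Agent.R143.Sec0x697
open Crest.Agent.R143.DomAx722 (Dns)
open Crest.Agent.R143.DomBx722 (cell)
open Crest.Agent.R143.Lowx991 (LiveIn)
open Crest.Agent.R143.Sidesx697 (Side)
open Crest.Agent.R143.Ex0x922 (Lk LAdj ExM)

/-! ### combinatorics -/

/-- one rotation of every triangle -/
theorem reps {V : Type} (A : Finset (V × V × V)) : ∃ U ⊆ A,
    (∀ s ∈ U, ∀ t ∈ U, s ≠ t → t ∉ rots s) ∧ ∀ t ∈ A, ∃ t' ∈ U, t' ∈ rots t := by
  induction A using Finset.induction_on with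
  | empty => exact ⟨∅, subset_rfl, by simp, by simp⟩
  | insert a A ha ih =>
    obtain ⟨U, hU, h1, h2⟩ := ih
    by_cases h3 : ∃ t' ∈ U, t' ∈ rots a
    · refine ⟨U, hU.trans (Finset.subset_insert _ _), h1, ?_⟩
      intro t ht
      rcases Finset.mem_insert.mp ht with rfl | ht
      · exact h3
      · exact h2 t ht
    · refine ⟨insert a U, Finset.insert_subset_insert _ hU, ?_, ?_⟩
      · intro s hs t ht hst
        rcases Finset.mem_insert.mp hs with hs | hs <;> rcases Finset.mem_insert.mp ht with ht | ht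
        · exact absurd (hs.trans ht.symm) hst
        · rw [hs]; exact fun h => h3 ⟨t, ht, h⟩
        · rw [ht]; exact fun h => h3 ⟨s, hs, rots_symm h⟩
        · exact h1 s hs t ht hst
      · intro t ht
        rcases Finset.mem_insert.mp ht with rfl | ht
        · exact ⟨t, Finset.mem_insert_self _ _, mem_rots_self t⟩
        · obtain ⟨t', h4, h5⟩ := h2 t ht
          exact ⟨t', Finset.mem_insert_of_mem h4, h5⟩

/-- the orientation of a side -/
theorem side_cases {V : Type} {N : Net V} {t : V × V × V} {e : V × V} (h : LSide N t e) :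
    (∃ c, (e.1, e.2, c) ∈ rots t) ∨ ∃ c, (e.2, e.1, c) ∈ rots t := by
  obtain ⟨a, b, c⟩ := t
  obtain ⟨-, h⟩ := h
  simp only [rots, Set.mem_insert_iff, Set.mem_singleton_iff]
  rcases h with rfl | rfl | rfl | rfl | rfl | rfl
  · exact Or.inl ⟨c, by simp⟩
  · exact Or.inl ⟨a, by simp⟩
  · exact Or.inl ⟨b, by simp⟩
  · exact Or.inr ⟨c, by simp⟩
  · exact Or.inr ⟨a, by simp⟩
  · exact Or.inr ⟨b, by simp⟩

/-- two triangles with a common live side are linked -/
theorem lk_side {V : Type} {N : Net V} {t t' : V × V × V} (ht : t ∈ N.T) (ht' : t' ∈ N.T)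
    {e : V × V} (he : LSide N t e) (he' : LSide N t' e) : Lk N t t' := by
  have key : ∀ x y c c', (x, y, c) ∈ rots t → (x, y, c') ∈ rots t' → Lk N t t' := by
    intro x y c c' h h'
    have h1 := Ex0x922.rots_mem_T h ht
    have h2 := Ex0x922.rots_mem_T h' ht'
    have h3 := N.uniq h1 h2
    subst h3
    exact Lk.of_rots (by rw [← rots_eq h, rots_eq h']; exact mem_rots_self _)
  have key' : ∀ x y c c', (x, y) ∉ N.kl → (x, y, c) ∈ rots t → (y, x, c') ∈ rots t' →
      Lk N t t' := by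
    intro x y c c' hk h h'
    exact Lk.of_adj ⟨x, y, c, c', Ex0x922.rots_mem_T h ht, Ex0x922.rots_mem_T h' ht', h, h', hk⟩
  have hk : (e.1, e.2) ∉ N.kl := he.1
  have hk' : (e.2, e.1) ∉ N.kl := fun h => he.1 (N.klsym _ _ h)
  rcases side_cases he with ⟨c, h⟩ | ⟨c, h⟩ <;> rcases side_cases he' with ⟨c', h'⟩ | ⟨c', h'⟩
  · exact key _ _ _ _ h h'
  · exact key' _ _ _ _ hk h h'
  · exact key' _ _ _ _ hk' h h'
  · exact key _ _ _ _ h h'


/-! ### the big triangle -/

theorem om_re : om.re = -(1 / 2) := by rw [Oscx63.om_re]; norm_num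

theorem om2_re : (om ^ 2).re = -(1 / 2) := by
  have h := one_add_om
  have h1 := congrArg Complex.re h
  simp only [Complex.add_re, Complex.one_re, Complex.zero_re] at h1
  rw [om_re] at h1
  linarith

/-- a side of the big triangle on the other side of the centre -/
theorem far_side (v : ℂ) : ∃ i : ZMod 3, ∀ p : ℝ, 0 ≤ p → p ≤ 1 →
    1 / 2 ≤ ‖((1 - p : ℝ) : ℂ) * omz i + (p : ℂ) * omz (i + 1) - v‖ := by
  have h3 := om_pow_three
  have hn := norm_om
  -- three linear functions
  have key : ∀ (c : ℂ) (i : ZMod 3), ‖c‖ = 1 → (omz i * c).re = -(1 / 2) →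
      (omz (i + 1) * c).re = -(1 / 2) → 0 ≤ (v * c).re → ∀ p : ℝ, 0 ≤ p → p ≤ 1 →
      1 / 2 ≤ ‖((1 - p : ℝ) : ℂ) * omz i + (p : ℂ) * omz (i + 1) - v‖ := by
    intro c i hc h1 h2 h0 p _ _
    set w := ((1 - p : ℝ) : ℂ) * omz i + (p : ℂ) * omz (i + 1) with hw
    have e1 : (w * c).re = -(1 / 2) := by
      have : w * c = ((1 - p : ℝ) : ℂ) * (omz i * c) + (p : ℂ) * (omz (i + 1) * c) := by
        rw [hw]; ring
      rw [this, Complex.add_re, Complex.re_ofReal_mul, Complex.re_ofReal_mul, h1, h2]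
      ring
    have e2 : ((w - v) * c).re ≤ -(1 / 2) := by
      rw [sub_mul, Complex.sub_re, e1]
      linarith
    have e3 : ‖w - v‖ = ‖(w - v) * c‖ := by rw [norm_mul, hc, mul_one]
    rw [e3]
    have e4 := Complex.abs_re_le_norm ((w - v) * c)
    have e5 := neg_le_abs ((w - v) * c).re
    linarith
  have hz0 : omz 0 = 1 := pow_zero om
  have hz1 : omz 1 = om := pow_one om
  have hz2 : omz 2 = om ^ 2 := rfl
  have hn2 : ‖om ^ 2‖ = 1 := by rw [norm_pow, hn, one_pow]
  have hsum : (v * 1).re + (v * om ^ 2).re + (v * om).re = 0 := by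
    rw [← Complex.add_re, ← Complex.add_re, ← mul_add, ← mul_add]
    have : (1 : ℂ) + om ^ 2 + om = 0 := by rw [← one_add_om]; ring
    rw [this]; simp
  have h4 : om ^ 2 * om = 1 := by rw [← h3]; ring
  have h5 : om ^ 2 * om ^ 2 = om := by
    calc om ^ 2 * om ^ 2 = om ^ 3 * om := by ring
      _ = om := by rw [h3, one_mul]
  by_cases c0 : 0 ≤ (v * 1).re
  · -- the vertex `1`, the side `1`
    refine ⟨1, key 1 1 (by simp) ?_ ?_ c0⟩
    · rw [hz1, mul_one]; exact om_re
    · rw [show (1 + 1 : ZMod 3) = 2 by decide, hz2, mul_one]; exact om2_re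
  · by_cases c1 : 0 ≤ (v * om ^ 2).re
    · -- the vertex `om`, the side `2`
      refine ⟨2, key (om ^ 2) 2 hn2 ?_ ?_ c1⟩
      · rw [hz2, h5]; exact om_re
      · rw [show (2 + 1 : ZMod 3) = 0 by decide, hz0, one_mul]; exact om2_re
    · have c2 : 0 ≤ (v * om).re := by linarith
      refine ⟨0, key om 0 hn ?_ ?_ c2⟩
      · rw [hz0, one_mul]; exact om_re
      · rw [show (0 + 1 : ZMod 3) = 1 by decide, hz1]
        have : om * om = om ^ 2 := by ring
        rw [this]; exact om2_re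

/-! ### rays -/

/-- the sites whose Voronoi cell meets `R i` are on the side `i` -/
def Cls (D : Dom) (S : Finset ℂ) : Prop := ∀ i : ZMod 3, ∀ v ∈ S,
  (cell (S : Set ℂ) v ∩ D.R i).Nonempty → Side (D.netS S) i v



variable {S : Finset ℂ} {D : Dom} {δ d : ℝ}






/-- the triangles which meet a circle around a point with room which is linked to the marks -/
theorem hex_of (hD : D.W δ) (hS : Dns S D.c D.L d) (hsm : 40000 * D.L ^ 5 * d ≤ δ ^ 6)
    {z : ℂ} {R η r : ℝ} (hR : Spinex422.Room D R z) (hl : Spinex422.Linked D η z) (hη : 3 * d ≤ η)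
    (hr : 0 ≤ r) (hrR : r + 3 * d ≤ R) : ∀ t ∈ delT S, (cT t ∩ Metric.sphere z r).Nonempty →
      ExM (D.netS S) t ∧ ∀ u v w, (u, v, w) ∈ rots t → (u, v) ∉ D.kl S := by
  intro t ht hm
  obtain ⟨C, hC1, hC2, hC3, hC4, hC5⟩ := hl
  have hd := hS.dpos
  have hzB : z ∈ Metric.closedBall z r := Metric.mem_closedBall_self hr
  refine Ex2x922.exm_of_linkedW hD hS hsm le_rfl (C := C ∪ Metric.closedBall z r)
    (hC1.union z hC2 hzB (convex_closedBall z r).isPreconnected) ?_ (fun k => Or.inl (hC4 k)) ?_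
    ht (hm.mono (Set.inter_subset_inter_right _
      (Metric.sphere_subset_closedBall.trans Set.subset_union_right)))
  · intro y hy
    rcases hy with hy | hy
    · have := hC3 hy
      rwa [mem_closedBall_iff_norm] at this
    · have h1 : y ∈ Metric.closedBall z R := Metric.closedBall_subset_closedBall (by linarith) hy
      have h2 := hR.2 h1
      rw [mem_closedBall_iff_norm] at h2
      have := hD.Lpos
      linarith
  · intro y hy x hx hxo
    rcases hy with hy | hy
    · refine Set.disjoint_left.1 (hC5 y hy) ?_ hxo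
      rw [mem_ball_iff_norm]
      linarith
    · refine Set.disjoint_left.1 hR.1 ?_ hxo
      rw [mem_closedBall_iff_norm] at hy ⊢
      have := norm_add_le (x - y) (y - z)
      rw [sub_add_sub_cancel] at this
      linarith



end Crest.Agent.R143.T6Dx697
end
end

-- ▼ part R143/Energy_395
section

/-!
# Row 143 (S0194), leaves T1, T2 : discrete argument principle and energy bound (helper395)

* `ang w x y` : signed angle under which the segment `[x, y]` is seen from `w`.
* `Til` : the deterministic data: live edges, mid-edge function `F` with local identity at live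
  triangles (J1, J2), convex polygons at inner vertices (E3), values on the sides of the big triangle
  at the other vertices (P2).
* `Til.main` : for `w` off finitely many segments the sum of the winding numbers of the triangles
  `F(t)` is at most `1`, and `0` if `w` is outside of the big triangle.
* `Til.disj`, `Til.ball_sub`, `Til.energy`, `Til.energy_le`.
-/

set_option autoImplicit false

noncomputable section

namespace Crest.Agent.R143.Energyx395

open Set MeasureTheory
open scoped Classical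
open Crest.Agent.R143.B0x346 Crest.Agent.R143.Oscx63

/-! ### angles -/

/-- signed angle of the segment `[x, y]` seen from `w` -/
def ang (w x y : ℂ) : ℝ := ((y - w) / (x - w)).arg

theorem ne_of_off {w x y : ℂ} (h : w ∉ segment ℝ x y) : x - w ≠ 0 ∧ y - w ≠ 0 := by
  constructor
  · intro h1
    apply h
    rw [← sub_eq_zero.mp h1]
    exact left_mem_segment ℝ x y
  · intro h1
    apply h
    rw [← sub_eq_zero.mp h1]
    exact right_mem_segment ℝ x y

theorem slit {w x y : ℂ} (h : w ∉ segment ℝ x y) : (y - w) / (x - w) ∈ Complex.slitPlane := by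
  obtain ⟨hx, hy⟩ := ne_of_off h
  by_contra hc
  rw [Complex.mem_slitPlane_iff, not_or, not_lt, not_not] at hc
  obtain ⟨hre, him⟩ := hc
  set r : ℝ := -((y - w) / (x - w)).re with hr
  have hr0 : 0 ≤ r := by rw [hr]; linarith
  have h1 : (y - w) / (x - w) = ((-r : ℝ) : ℂ) := by
    apply Complex.ext
    · simp [hr]
    · simp [him]
  have h2 : y - w = ((-r : ℝ) : ℂ) * (x - w) := by
    rw [← h1]; field_simp
  apply h
  rw [segment_eq_image]
  have h1r : (1 + r) ≠ 0 := by positivity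
  refine ⟨1 / (1 + r), ⟨by positivity, ?_⟩, ?_⟩
  · rw [div_le_one (by positivity)]; linarith
  · have h1c : (1 + (r : ℂ)) ≠ 0 := by
      intro h0
      apply h1r
      exact_mod_cast h0
    simp only [Complex.real_smul]
    push_cast at h2 ⊢
    field_simp
    linear_combination h2

theorem ang_lt {w x y : ℂ} (h : w ∉ segment ℝ x y) : ang w x y < Real.pi := by
  have h1 := slit h
  rw [Complex.mem_slitPlane_iff_arg] at h1
  exact lt_of_le_of_ne (Complex.arg_le_pi _) h1.1

theorem lt_ang {w x y : ℂ} : -Real.pi < ang w x y := Complex.neg_pi_lt_arg _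

theorem ang_self {w x : ℂ} : ang w x x = 0 := by
  unfold ang
  by_cases h : x - w = 0
  · rw [h]; simp
  · rw [div_self h]; simp

theorem ang_swap {w x y : ℂ} (h : w ∉ segment ℝ x y) : ang w y x = - ang w x y := by
  unfold ang
  have h1 : (x - w) / (y - w) = ((y - w) / (x - w))⁻¹ := by rw [inv_div]
  rw [h1, Complex.arg_inv, if_neg]
  have h2 := slit h
  rw [Complex.mem_slitPlane_iff_arg] at h2
  exact h2.1

theorem im_div' (a b : ℂ) : (a / b).im = cr b a / Complex.normSq b := by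
  rw [Complex.div_im]
  unfold cr
  ring

theorem ang_neg_iff {w x y : ℂ} (hx : x - w ≠ 0) : ang w x y < 0 ↔ cr (x - w) (y - w) < 0 := by
  unfold ang
  rw [Complex.arg_neg_iff, im_div']
  have : 0 < Complex.normSq (x - w) := Complex.normSq_pos.mpr hx
  rw [div_lt_iff₀ this, zero_mul]

theorem ang_nonneg_iff {w x y : ℂ} (hx : x - w ≠ 0) : 0 ≤ ang w x y ↔ 0 ≤ cr (x - w) (y - w) := by
  rw [← not_lt, ang_neg_iff hx, not_lt]

theorem sum3_int {w x y z : ℂ} (hx : x - w ≠ 0) (hy : y - w ≠ 0) (hz : z - w ≠ 0) :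
    ∃ n : ℤ, ang w x y + ang w y z + ang w z x = 2 * Real.pi * n := by
  have h1 : ((ang w x y + ang w y z + ang w z x : ℝ) : Real.Angle) = ((0 : ℝ) : Real.Angle) := by
    unfold ang
    rw [Real.Angle.coe_add, Real.Angle.coe_add]
    rw [← Complex.arg_mul_coe_angle (div_ne_zero hy hx) (div_ne_zero hz hy)]
    rw [← Complex.arg_mul_coe_angle (mul_ne_zero (div_ne_zero hy hx) (div_ne_zero hz hy))
      (div_ne_zero hx hz)]
    have : (y - w) / (x - w) * ((z - w) / (y - w)) * ((x - w) / (z - w)) = 1 := by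
      field_simp
    rw [this]
    simp
  rw [Real.Angle.angle_eq_iff_two_pi_dvd_sub] at h1
  obtain ⟨k, hk⟩ := h1
  exact ⟨k, by linarith⟩

theorem cr_sum3 (w x y z : ℂ) :
    cr (x - w) (y - w) + cr (y - w) (z - w) + cr (z - w) (x - w) = cr (y - x) (z - x) := by
  unfold cr
  simp only [Complex.sub_re, Complex.sub_im]
  ring

/-- a positively oriented triangle has winding number `≥ 0` -/
theorem tri_nonneg {w x y z : ℂ} (h : 0 ≤ cr (y - x) (z - x)) (h1 : w ∉ segment ℝ x y)
    (h2 : w ∉ segment ℝ y z) :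
    0 ≤ ang w x y + ang w y z + ang w z x := by
  obtain ⟨hx, hy⟩ := ne_of_off h1
  obtain ⟨-, hz⟩ := ne_of_off h2
  obtain ⟨n, hn⟩ := sum3_int hx hy hz
  by_contra hc
  push Not at hc
  have hn0 : n ≤ -1 := by
    rw [hn] at hc
    have : (n : ℝ) < 0 := by
      by_contra h0
      push Not at h0
      have := mul_nonneg (by positivity : (0 : ℝ) ≤ 2 * Real.pi) h0
      linarith
    have h4 : n < 0 := by exact_mod_cast this
    omega
  have hs : ang w x y + ang w y z + ang w z x ≤ -(2 * Real.pi) := by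
    rw [hn]
    have : (n : ℝ) ≤ -1 := by exact_mod_cast hn0
    nlinarith [Real.pi_pos]
  have a1 := @lt_ang w x y
  have a2 := @lt_ang w y z
  have a3 := @lt_ang w z x
  have b1 : ang w x y < 0 := by linarith
  have b2 : ang w y z < 0 := by linarith
  have b3 : ang w z x < 0 := by linarith
  rw [ang_neg_iff hx] at b1
  rw [ang_neg_iff hy] at b2
  rw [ang_neg_iff hz] at b3
  have := cr_sum3 w x y z
  linarith

/-- from the inside the winding number is one -/
theorem tri_eq {w x y z : ℂ} (h1 : 0 < cr (x - w) (y - w)) (h2 : 0 < cr (y - w) (z - w))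
    (h3 : 0 < cr (z - w) (x - w)) (g1 : w ∉ segment ℝ x y)
    (g2 : w ∉ segment ℝ y z) (g3 : w ∉ segment ℝ z x) :
    ang w x y + ang w y z + ang w z x = 2 * Real.pi := by
  obtain ⟨hx, hy⟩ := ne_of_off g1
  obtain ⟨-, hz⟩ := ne_of_off g2
  obtain ⟨n, hn⟩ := sum3_int hx hy hz
  have pos : ∀ {a b : ℂ}, a - w ≠ 0 → 0 < cr (a - w) (b - w) → 0 < ang w a b := by
    intro a b ha hab
    have h4 : 0 ≤ ang w a b := (ang_nonneg_iff ha).mpr hab.le
    rcases h4.lt_or_eq with h5 | h5
    · exact h5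
    · exfalso
      unfold ang at h5
      have h6 : ((b - w) / (a - w)).im = 0 := (Complex.arg_eq_zero_iff.mp h5.symm).2
      rw [im_div'] at h6
      have : 0 < Complex.normSq (a - w) := Complex.normSq_pos.mpr ha
      have h7 := div_pos hab this
      linarith
  have p1 := pos hx h1
  have p2 := pos hy h2
  have p3 := pos hz h3
  have q1 := ang_lt g1
  have q2 := ang_lt g2
  have q3 := ang_lt g3
  have n1 : 0 < (n : ℝ) := by
    by_contra h0
    push Not at h0
    nlinarith [Real.pi_pos]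
  have n2 : (n : ℝ) < 2 := by
    by_contra h0
    push Not at h0
    nlinarith [Real.pi_pos]
  have n3 : n = 1 := by
    have : 0 < n := by exact_mod_cast n1
    have : n < 2 := by exact_mod_cast n2
    omega
  rw [hn, n3]; simp

/-- three points on a line not through `w` -/
theorem line_add {w p q : ℂ} (h : cr (p - w) (q - w) ≠ 0) {x y z : ℂ} (hx : x ∈ segment ℝ p q)
    (hy : y ∈ segment ℝ p q) (hz : z ∈ segment ℝ p q) :
    ang w x y + ang w y z + ang w z x = 0 := by
  rw [segment_eq_image'] at hx hy hz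
  obtain ⟨s, -, rfl⟩ := hx
  obtain ⟨t, -, rfl⟩ := hy
  obtain ⟨u, -, rfl⟩ := hz
  have key : ∀ a b : ℝ, cr (p + a • (q - p) - w) (p + b • (q - p) - w) =
      (b - a) * cr (p - w) (q - w) := by
    intro a b
    unfold cr
    simp only [Complex.sub_re, Complex.sub_im, Complex.add_re, Complex.add_im, Complex.real_smul,
      Complex.mul_re, Complex.mul_im, Complex.ofReal_re, Complex.ofReal_im]
    ring
  have hne : ∀ a : ℝ, p + a • (q - p) - w ≠ 0 := by
    intro a h0
    have h1 := key a (a + 1)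
    rw [h0] at h1
    apply h
    have : (a + 1 - a) * cr (p - w) (q - w) = cr (p - w) (q - w) := by ring
    rw [this] at h1
    rw [← h1]
    simp [cr]
  have hlt : ∀ a b : ℝ, ang w (p + a • (q - p)) (p + b • (q - p)) < Real.pi := by
    intro a b
    apply ang_lt
    intro hm
    rw [segment_eq_image'] at hm
    obtain ⟨c, -, hc⟩ := hm
    apply hne (a + c * (b - a))
    rw [← hc]
    simp only [Complex.real_smul]
    push_cast
    ring
  obtain ⟨n, hn⟩ := sum3_int (hne s) (hne t) (hne u)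
  set A1 := ang w (p + s • (q - p)) (p + t • (q - p)) with hA1
  set A2 := ang w (p + t • (q - p)) (p + u • (q - p)) with hA2
  set A3 := ang w (p + u • (q - p)) (p + s • (q - p)) with hA3
  have l1 : A1 < Real.pi := hlt s t
  have l2 : A2 < Real.pi := hlt t u
  have l3 : A3 < Real.pi := hlt u s
  have m1 : -Real.pi < A1 := lt_ang
  have m2 : -Real.pi < A2 := lt_ang
  have m3 : -Real.pi < A3 := lt_ang
  have s1 : 0 ≤ A1 ↔ 0 ≤ (t - s) * cr (p - w) (q - w) := by
    rw [hA1, ang_nonneg_iff (hne s), key]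
  have s2 : 0 ≤ A2 ↔ 0 ≤ (u - t) * cr (p - w) (q - w) := by
    rw [hA2, ang_nonneg_iff (hne t), key]
  have s3 : 0 ≤ A3 ↔ 0 ≤ (s - u) * cr (p - w) (q - w) := by
    rw [hA3, ang_nonneg_iff (hne u), key]
  have hsum : (t - s) * cr (p - w) (q - w) + (u - t) * cr (p - w) (q - w) +
      (s - u) * cr (p - w) (q - w) = 0 := by ring
  -- not all negative
  have nn : 0 ≤ A1 ∨ 0 ≤ A2 ∨ 0 ≤ A3 := by
    by_contra hc
    push Not at hc
    obtain ⟨c1, c2, c3⟩ := hc
    rw [← not_le, s1, not_le] at c1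
    rw [← not_le, s2, not_le] at c2
    rw [← not_le, s3, not_le] at c3
    linarith
  -- not all positive
  have np : A1 ≤ 0 ∨ A2 ≤ 0 ∨ A3 ≤ 0 := by
    by_contra hc
    push Not at hc
    obtain ⟨c1, c2, c3⟩ := hc
    have d1 := s1.mp c1.le
    have d2 := s2.mp c2.le
    have d3 := s3.mp c3.le
    have e1 : (t - s) * cr (p - w) (q - w) = 0 := by linarith
    have e2 : t = s := by
      rcases mul_eq_zero.mp e1 with e | e
      · linarith
      · exact absurd e h
    rw [hA1, e2, ang_self] at c1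
    exact lt_irrefl _ c1
  have n1 : (n : ℝ) < 1 := by
    by_contra h0
    push Not at h0
    have : 2 * Real.pi ≤ A1 + A2 + A3 := by rw [hn]; nlinarith [Real.pi_pos]
    rcases np with h | h | h <;> linarith
  have n2 : -1 < (n : ℝ) := by
    by_contra h0
    push Not at h0
    have : A1 + A2 + A3 ≤ -(2 * Real.pi) := by rw [hn]; nlinarith [Real.pi_pos]
    rcases nn with h | h | h <;> linarith
  have n3 : n = 0 := by
    have : n < 1 := by exact_mod_cast n1
    have : -1 < n := by exact_mod_cast n2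
    omega
  rw [hn, n3]; simp

/-! ### convex polygons -/

theorem cr_sum_left {ι : Type} (s : Finset ι) (f : ι → ℂ) (v : ℂ) :
    cr (∑ i ∈ s, f i) v = ∑ i ∈ s, cr (f i) v := by
  unfold cr
  rw [Complex.re_sum, Complex.im_sum, Finset.sum_mul, Finset.sum_mul, ← Finset.sum_sub_distrib]

theorem cr_exp (r s a b : ℝ) :
    cr ((r : ℂ) * Complex.exp ((a : ℂ) * Complex.I)) ((s : ℂ) * Complex.exp ((b : ℂ) * Complex.I)) =
      r * s * Real.sin (b - a) := by
  unfold cr
  rw [Complex.re_ofReal_mul, Complex.im_ofReal_mul, Complex.re_ofReal_mul, Complex.im_ofReal_mul,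
    Complex.exp_ofReal_mul_I_re, Complex.exp_ofReal_mul_I_im, Complex.exp_ofReal_mul_I_re,
    Complex.exp_ofReal_mul_I_im, Real.sin_sub]
  ring

theorem mono_of_step {al : ℤ → ℝ} (h : ∀ i, al i ≤ al (i + 1)) : Monotone al :=
  monotone_int_of_le_succ h

theorem cross_nonneg (P : ℤ → ℂ) (d : ℕ) (al : ℤ → ℝ) (hal : ∀ i, al i ≤ al (i + 1))
    (hper : ∀ i, al (i + d) = al i + 2 * Real.pi)
    (hr : ∀ i, ∃ r : ℝ, 0 ≤ r ∧ P (i + 1) - P i = (r : ℂ) * Complex.exp ((al i : ℂ) * Complex.I))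
    (hP : ∀ i, P (i + d) = P i) (i : ℕ) (hi : i < d) :
    0 ≤ cr (P i - P 0) (P ((i : ℤ) + 1) - P i) := by
  have hmono := mono_of_step hal
  choose r hr0 hrP using hr
  have tel : ∀ n : ℕ, P n - P 0 = ∑ j ∈ Finset.range n, (P ((j : ℤ) + 1) - P j) := by
    intro n
    induction n with
    | zero => simp
    | succ n ih =>
      rw [Finset.sum_range_succ, ← ih]
      push_cast
      ring
  rcases le_or_gt (al i) (al 0 + Real.pi) with hc | hc
  · rw [tel i, cr_sum_left]
    apply Finset.sum_nonneg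
    intro j hj
    rw [hrP j, hrP i, cr_exp]
    have hji : (j : ℤ) ≤ i := by exact_mod_cast (Finset.mem_range.mp hj).le
    have h0j : (0 : ℤ) ≤ j := by positivity
    have m1 := hmono hji
    have m2 := hmono h0j
    apply mul_nonneg (mul_nonneg (hr0 _) (hr0 _))
    apply Real.sin_nonneg_of_nonneg_of_le_pi <;> linarith
  · have hd : P d = P 0 := by simpa using hP 0
    have hPi : P i - P 0 = -∑ j ∈ Finset.Ico i d, (P ((j : ℤ) + 1) - P j) := by
      rw [Finset.sum_Ico_eq_sub _ hi.le, ← tel, ← tel, hd]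
      ring
    rw [hPi]
    have hneg : cr (-∑ j ∈ Finset.Ico i d, (P ((j : ℤ) + 1) - P j)) (P ((i : ℤ) + 1) - P i) =
        - ∑ j ∈ Finset.Ico i d, cr (P ((j : ℤ) + 1) - P j) (P ((i : ℤ) + 1) - P i) := by
      rw [← cr_sum_left]
      unfold cr
      simp only [Complex.neg_re, Complex.neg_im]
      ring
    rw [hneg, ← Finset.sum_neg_distrib]
    apply Finset.sum_nonneg
    intro j hj
    obtain ⟨h1, h2⟩ := Finset.mem_Ico.mp hj
    rw [hrP j, hrP i, cr_exp]
    have hji : (i : ℤ) ≤ j := by exact_mod_cast h1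
    have hjd : (j : ℤ) ≤ 0 + d := by
      have : (j : ℤ) ≤ d := by exact_mod_cast h2.le
      linarith
    have m1 := hmono hji
    have m2 := hmono hjd
    rw [hper 0] at m2
    have e : Real.sin (al i - al j) = - Real.sin (al j - al i) := by
      rw [← Real.sin_neg]; congr 1; ring
    rw [e]
    have : 0 ≤ Real.sin (al j - al i) := by
      apply Real.sin_nonneg_of_nonneg_of_le_pi <;> linarith
    have h3 := mul_nonneg (mul_nonneg (hr0 j) (hr0 i)) this
    linarith

/-- a convex polygon has winding number `≥ 0` -/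
theorem poly_nonneg (P : ℤ → ℂ) (d : ℕ) (al : ℤ → ℝ) (hal : ∀ i, al i ≤ al (i + 1))
    (hper : ∀ i, al (i + d) = al i + 2 * Real.pi)
    (hr : ∀ i, ∃ r : ℝ, 0 ≤ r ∧ P (i + 1) - P i = (r : ℂ) * Complex.exp ((al i : ℂ) * Complex.I))
    (hP : ∀ i, P (i + d) = P i) {w : ℂ} (hw : ∀ i j : ℤ, w ∉ segment ℝ (P i) (P j)) :
    0 ≤ ∑ i ∈ Finset.range d, ang w (P i) (P ((i : ℤ) + 1)) := by
  have h1 : ∑ i ∈ Finset.range d, ang w (P i) (P ((i : ℤ) + 1)) =
      ∑ i ∈ Finset.range d, (ang w (P 0) (P i) + ang w (P i) (P ((i : ℤ) + 1)) +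
        ang w (P ((i : ℤ) + 1)) (P 0)) := by
    have h2 : ∑ i ∈ Finset.range d, (ang w (P 0) (P ((i + 1 : ℕ) : ℤ)) - ang w (P 0) (P (i : ℤ))) =
        0 := by
      rw [Finset.sum_range_sub (fun i : ℕ => ang w (P 0) (P (i : ℤ)))]
      have hd : P d = P 0 := by simpa using hP 0
      simp [hd]
    have h3 : ∑ i ∈ Finset.range d, (ang w (P 0) (P i) + ang w (P i) (P ((i : ℤ) + 1)) +
        ang w (P ((i : ℤ) + 1)) (P 0)) = ∑ i ∈ Finset.range d, ang w (P i) (P ((i : ℤ) + 1)) -
        ∑ i ∈ Finset.range d, (ang w (P 0) (P ((i + 1 : ℕ) : ℤ)) - ang w (P 0) (P (i : ℤ))) := by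
      rw [← Finset.sum_sub_distrib]
      apply Finset.sum_congr rfl
      intro i _
      have e : ((i + 1 : ℕ) : ℤ) = (i : ℤ) + 1 := by push_cast; ring
      rw [e, ang_swap (hw 0 ((i : ℤ) + 1))]
      ring
    rw [h3, h2, sub_zero]
  rw [h1]
  apply Finset.sum_nonneg
  intro i hi
  apply tri_nonneg _ (hw _ _) (hw _ _)
  have h4 := cross_nonneg P d al hal hper hr hP i (Finset.mem_range.mp hi)
  have h5 : cr (P i - P 0) (P ((i : ℤ) + 1) - P 0) = cr (P i - P 0) (P ((i : ℤ) + 1) - P i) := by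
    unfold cr
    simp only [Complex.sub_re, Complex.sub_im]
    ring
  rw [h5]
  exact h4

/-! ### the deterministic data -/

variable {V : Type}

/-- convexity with real data -/
def ConvF (F : V → V → ℂ) (v : V) (d : ℕ) (u : ℤ → V) : Prop :=
  ∃ al : ℤ → ℝ, (∀ i, al i ≤ al (i + 1)) ∧ (∀ i, al (i + d) = al i + 2 * Real.pi) ∧
    ∀ i, ∃ r : ℝ, 0 ≤ r ∧ F v (u (i + 1)) - F v (u i) =
      (r : ℂ) * Complex.exp ((al i : ℂ) * Complex.I)

/-- a directed edge of the triangulation -/
def Edg (G : Trg V) (a b : V) : Prop := (∃ c, (a, b, c) ∈ G.T) ∨ ∃ c, (b, a, c) ∈ G.T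

/-- the deterministic data: `lv` live edges, `F` mid-edge function, `Q` amplitude of the triangles,
`ex` marks, `inn` inner vertices, `arc v` = the side to which the other vertices belong -/
structure Til (G : Trg V) (lv : V → V → Prop) (F : V → V → ℂ) (Q : V × V × V → ℂ)
    (ex : ZMod 3 → V × V) (inn : V → Prop) (arc : V → ZMod 3) : Prop where
  lvs : ∀ a b, lv a b → lv b a
  Fs : ∀ a b, F a b = F b a
  tri3 : ∀ a b c, (a, b, c) ∈ G.T → lv a b → lv b c → lv c a → ∃ h : ℂ,
    F a b = h + Q (a, b, c) ∧ F b c = h + om * Q (a, b, c) ∧ F c a = h + om ^ 2 * Q (a, b, c)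
  tri2 : ∀ a b c, (a, b, c) ∈ G.T → ¬ lv a b → lv b c → lv c a → F b c = F c a
  inner : ∀ v, inn v → ∃ (d : ℕ) (u : ℤ → V), Ring G v d u ∧ (∀ i, lv v (u i)) ∧
    (∀ x y, (v, x, y) ∈ G.T → ∃ i : ℤ, x = u i ∧ y = u (i + 1)) ∧ ConvF F v d u
  dead : ∀ a b c, (a, b, c) ∈ G.T → ¬ lv a b → lv b c ∨ lv c a →
    ¬ inn a ∧ ¬ inn b ∧ arc a = arc b
  side : ∀ a b, ¬ inn a → lv a b → Edg G a b → F a b ∈ segment ℝ (omz (arc a)) (omz (arc a + 1))
  hull : ∀ a b c, (a, b, c) ∈ G.T → (∀ x, (b, a, x) ∉ G.T) → lv a b → ∃ k, ex k = (a, b)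
  exI : Function.Injective ex
  exT : ∀ k, ∃ c, ((ex k).1, (ex k).2, c) ∈ G.T
  exH : ∀ k x, ((ex k).2, (ex k).1, x) ∉ G.T
  exl : ∀ k, lv (ex k).1 (ex k).2
  ex1 : ∀ k, ¬ inn (ex k).1 ∧ arc (ex k).1 = k - 1
  ex2 : ∀ k, ¬ inn (ex k).2 ∧ arc (ex k).2 = k
  exF : ∀ k, F (ex k).1 (ex k).2 = omz k

/-- `w` is in general position with respect to the values of `F` and the big triangle -/
structure Good (F : V → V → ℂ) (G : Trg V) (w : ℂ) : Prop where
  off : ∀ a b c e, Edg G a b → Edg G c e → w ∉ segment ℝ (F a b) (F c e)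
  big : ∀ k : ZMod 3, cr (omz k - w) (omz (k + 1) - w) ≠ 0

theorem Edg.symm {G : Trg V} {a b : V} (h : Edg G a b) : Edg G b a := Or.symm h

/-- rotation of the triples -/
def rotE : V × V × V ≃ V × V × V where
  toFun t := (t.2.1, t.2.2, t.1)
  invFun t := (t.2.2, t.1, t.2.1)
  left_inv t := by simp
  right_inv t := by simp

theorem sum_rot (G : Trg V) (g : V × V × V → ℝ) : ∑ t ∈ G.T, g (rotE t) = ∑ t ∈ G.T, g t := by
  apply Finset.sum_equiv rotE
  · rintro ⟨a, b, c⟩
    constructor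
    · intro h
      exact G.rot h
    · intro h
      exact G.rot (G.rot h)
  · intro i _
    rfl

theorem sum_rot3 (G : Trg V) (g : V × V × V → ℝ) :
    3 * ∑ t ∈ G.T, g t = ∑ t ∈ G.T, (g t + g (rotE t) + g (rotE (rotE t))) := by
  rw [Finset.sum_add_distrib, Finset.sum_add_distrib, sum_rot G g,
    sum_rot G (fun t => g (rotE t)), sum_rot G g]
  ring

/-- the corner term -/
def corner (lv : V → V → Prop) (F : V → V → ℂ) (w : ℂ) (t : V × V × V) : ℝ :=
  if lv t.1 t.2.1 ∧ lv t.1 t.2.2 then ang w (F t.1 t.2.1) (F t.1 t.2.2) else 0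

/-- the winding number (times `2π`) of the triangle `F(t)` -/
def wtri (lv : V → V → Prop) (F : V → V → ℂ) (w : ℂ) (t : V × V × V) : ℝ :=
  if lv t.1 t.2.1 ∧ lv t.2.1 t.2.2 ∧ lv t.2.2 t.1 then
    ang w (F t.1 t.2.1) (F t.2.1 t.2.2) + ang w (F t.2.1 t.2.2) (F t.2.2 t.1) +
      ang w (F t.2.2 t.1) (F t.1 t.2.1) else 0

section main

variable {G : Trg V} {lv : V → V → Prop} {F : V → V → ℂ} {Q : V × V × V → ℂ}
  {ex : ZMod 3 → V × V} {inn : V → Prop} {arc : V → ZMod 3}

theorem Til.lv_iff (H : Til G lv F Q ex inn arc) (a b : V) : lv a b ↔ lv b a :=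
  ⟨H.lvs a b, H.lvs b a⟩

theorem edg_of_mem {a b c : V} (h : (a, b, c) ∈ G.T) : Edg G a b ∧ Edg G b c ∧ Edg G c a :=
  ⟨Or.inl ⟨c, h⟩, Or.inl ⟨a, G.rot h⟩, Or.inl ⟨b, G.rot (G.rot h)⟩⟩

theorem Til.corner3 (H : Til G lv F Q ex inn arc) {w : ℂ} (hw : Good F G w) {t : V × V × V}
    (ht : t ∈ G.T) :
    corner lv F w t + corner lv F w (rotE t) + corner lv F w (rotE (rotE t)) =
      - wtri lv F w t := by
  obtain ⟨a, b, c⟩ := t
  obtain ⟨e1, e2, e3⟩ := edg_of_mem ht
  have r1 := G.rot ht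
  have r2 := G.rot r1
  unfold corner wtri
  simp only [rotE, Equiv.coe_fn_mk]
  simp only [H.lv_iff a c, H.lv_iff b a, H.lv_iff c b, H.Fs a c, H.Fs b a, H.Fs c b]
  have s1 := ang_swap (hw.off c a a b e3 e1)
  have s2 := ang_swap (hw.off a b b c e1 e2)
  have s3 := ang_swap (hw.off b c c a e2 e3)
  by_cases h1 : lv a b <;> by_cases h2 : lv b c <;> by_cases h3 : lv c a <;>
    simp only [h1, h2, h3, and_self, and_true, and_false, true_and, false_and, if_true, if_false,
      add_zero, zero_add, neg_zero]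
  · rw [s1, s2, s3]; ring
  · have := H.tri2 c a b r2 h3 h1 h2
    rw [this, ang_self]
  · have := H.tri2 b c a r1 h2 h3 h1
    rw [this, ang_self]
  · have := H.tri2 a b c ht h1 h2 h3
    rw [this, ang_self]

theorem Til.total (H : Til G lv F Q ex inn arc) {w : ℂ} (hw : Good F G w) :
    3 * ∑ t ∈ G.T, corner lv F w t = - ∑ t ∈ G.T, wtri lv F w t := by
  rw [sum_rot3, ← Finset.sum_neg_distrib]
  exact Finset.sum_congr rfl fun t ht => H.corner3 hw ht

/-- inner vertices contribute non negatively -/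
theorem Til.inner_nonneg (H : Til G lv F Q ex inn arc) {w : ℂ} (hw : Good F G w) {v : V}
    (hv : inn v) : 0 ≤ ∑ t ∈ G.T.filter (fun t => t.1 = v), corner lv F w t := by
  obtain ⟨d, u, hR, hl, hcov, al, hal, hper, hr⟩ := H.inner v hv
  have hE : ∀ i, Edg G v (u i) := fun i => Or.inl ⟨_, hR.mem i⟩
  have hperI : ∀ (n : ℤ) (i : ℤ), u (i + n * d) = u i := by
    intro n
    induction n using Int.induction_on with
    | zero => intro i; simp
    | succ n ih =>
      intro i
      have : i + ((n : ℤ) + 1) * d = (i + n * d) + d := by ring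
      rw [this, hR.per, ih]
    | pred n ih =>
      intro i
      have h1 := hR.per (i + (-(n : ℤ) - 1) * d)
      rw [← h1]
      have : i + (-(n : ℤ) - 1) * d + d = i + (-(n : ℤ)) * d := by ring
      rw [this, ih]
  have h1 : ∑ t ∈ G.T.filter (fun t => t.1 = v), corner lv F w t =
      ∑ i ∈ Finset.range d, ang w (F v (u i)) (F v (u ((i : ℤ) + 1))) := by
    symm
    apply Finset.sum_bij (fun (i : ℕ) _ => (v, u i, u ((i : ℤ) + 1)))
    · intro i _
      rw [Finset.mem_filter]
      exact ⟨hR.mem i, rfl⟩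
    · intro i hi j hj hij
      have hij' : u i = u j := by
        have := congrArg (fun t : V × V × V => t.2.1) hij
        exact this
      have := hR.inj i j (by positivity) (by exact_mod_cast Finset.mem_range.mp hi) (by positivity)
        (by exact_mod_cast Finset.mem_range.mp hj) hij'
      exact_mod_cast this
    · rintro ⟨x, y, z⟩ ht
      rw [Finset.mem_filter] at ht
      obtain ⟨ht, rfl⟩ := ht
      obtain ⟨i, h1, h2⟩ := hcov y z ht
      have hd : (0 : ℤ) < d := by exact_mod_cast hR.pos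
      have h0 : 0 ≤ i % d := Int.emod_nonneg _ hd.ne'
      have hlt : i % d < d := Int.emod_lt_of_pos _ hd
      have hdec : i = i % d + (i / d) * d := by
        have := Int.emod_add_mul_ediv i d
        linarith
      refine ⟨(i % d).toNat, ?_, ?_⟩
      · rw [Finset.mem_range]
        omega
      · have e : (((i % d).toNat : ℕ) : ℤ) = i % d := Int.toNat_of_nonneg h0
        rw [e]
        have e1 : u (i % d) = y := by
          rw [h1]
          conv_rhs => rw [hdec]
          rw [hperI]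
        have e2 : u (i % d + 1) = z := by
          rw [h2]
          have : i + 1 = (i % d + 1) + (i / d) * d := by linarith
          rw [this, hperI]
        rw [e1, e2]
    · intro i _
      unfold corner
      simp only [hl, and_self, if_true]
  rw [h1]
  exact poly_nonneg (fun i => F v (u i)) d al hal hper hr (fun i => by simp only [hR.per])
    (fun i j => hw.off _ _ _ _ (hE i) (hE j))

/-- the primitive on the sides -/
def prim (lv : V → V → Prop) (F : V → V → ℂ) (arc : V → ZMod 3) (w : ℂ) (a b : V) : ℝ :=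
  if lv a b then ang w (omz (arc a)) (F a b) else 0

/-- the defect -/
def defect (lv : V → V → Prop) (F : V → V → ℂ) (inn : V → Prop) (arc : V → ZMod 3) (w : ℂ)
    (t : V × V × V) : ℝ :=
  if inn t.1 then 0 else
    (if lv t.1 t.2.1 ∧ ¬ lv t.1 t.2.2 then prim lv F arc w t.1 t.2.1 else 0) -
    (if ¬ lv t.1 t.2.1 ∧ lv t.1 t.2.2 then prim lv F arc w t.1 t.2.2 else 0)

theorem Til.corner_out (H : Til G lv F Q ex inn arc) {w : ℂ} (hw : Good F G w) {t : V × V × V}
    (ht : t ∈ G.T) (hi : ¬ inn t.1) :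
    corner lv F w t = prim lv F arc w t.1 t.2.2 - prim lv F arc w t.1 t.2.1 +
      defect lv F inn arc w t := by
  obtain ⟨a, b, c⟩ := t
  obtain ⟨e1, e2, e3⟩ := edg_of_mem ht
  unfold corner defect prim
  simp only at hi ⊢
  by_cases h1 : lv a b <;> by_cases h2 : lv a c <;>
    simp only [h1, h2, hi, and_self, and_true, and_false, true_and, false_and, if_true, if_false,
      not_true_eq_false, not_false_eq_true, add_zero, zero_add, sub_zero, sub_self, zero_sub]
  · have hs1 := H.side a b hi h1 e1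
    have hs2 := H.side a c hi h2 e3.symm
    have hb := hw.big (arc a)
    have h3 := line_add hb (left_mem_segment ℝ _ _) hs1 hs2
    have hsw : ang w (F a c) (omz (arc a)) = - ang w (omz (arc a)) (F a c) := by
      have h4 := line_add hb (left_mem_segment ℝ _ _) hs2 (left_mem_segment ℝ _ _)
      rw [ang_self] at h4
      linarith
    rw [hsw] at h3
    linarith
  · ring
  · ring

theorem Til.defect3 (H : Til G lv F Q ex inn arc) (w : ℂ) {t : V × V × V} (ht : t ∈ G.T) :
    defect lv F inn arc w t + defect lv F inn arc w (rotE t) +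
      defect lv F inn arc w (rotE (rotE t)) = 0 := by
  obtain ⟨a, b, c⟩ := t
  have r1 := G.rot ht
  have r2 := G.rot r1
  unfold defect prim
  simp only [rotE, Equiv.coe_fn_mk]
  simp only [H.lv_iff a c, H.lv_iff b a, H.lv_iff c b, H.Fs a c, H.Fs b a, H.Fs c b]
  by_cases h1 : lv a b <;> by_cases h2 : lv b c <;> by_cases h3 : lv c a <;>
    simp only [h1, h2, h3, and_self, and_true, and_false, true_and, false_and, if_true, if_false,
      not_true_eq_false, not_false_eq_true, add_zero, zero_add, sub_zero, sub_self, ite_self,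
      zero_sub]
  · obtain ⟨i1, i2, i3⟩ := H.dead c a b r2 h3 (Or.inl h1)
    have := H.tri2 c a b r2 h3 h1 h2
    simp only [i1, i2, if_false, i3, this]
    ring
  · obtain ⟨i1, i2, i3⟩ := H.dead b c a r1 h2 (Or.inl h3)
    have := H.tri2 b c a r1 h2 h3 h1
    simp only [i1, i2, if_false, i3, this]
    ring
  · obtain ⟨i1, i2, i3⟩ := H.dead b c a r1 h2 (Or.inr h1)
    obtain ⟨j1, j2, j3⟩ := H.dead c a b r2 h3 (Or.inl h1)
    simp only [i1, i2, j2, if_false, i3, j3]
    ring
  · obtain ⟨i1, i2, i3⟩ := H.dead a b c ht h1 (Or.inl h2)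
    have := H.tri2 a b c ht h1 h2 h3
    simp only [i1, i2, if_false, i3, this]
    ring
  · obtain ⟨i1, i2, i3⟩ := H.dead a b c ht h1 (Or.inl h2)
    obtain ⟨j1, j2, j3⟩ := H.dead c a b r2 h3 (Or.inr h2)
    simp only [i1, i2, j1, if_false, ← i3, j3]
    ring
  · obtain ⟨i1, i2, i3⟩ := H.dead a b c ht h1 (Or.inr h3)
    obtain ⟨j1, j2, j3⟩ := H.dead b c a r1 h2 (Or.inl h3)
    simp only [i1, j2, if_false, i3, j3]
    ring

/-- `prim` at the non inner vertices -/
def primO (lv : V → V → Prop) (F : V → V → ℂ) (inn : V → Prop) (arc : V → ZMod 3) (w : ℂ)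
    (a b : V) : ℝ :=
  if inn a then 0 else prim lv F arc w a b

theorem Til.sum_out (H : Til G lv F Q ex inn arc) {w : ℂ} (hw : Good F G w) :
    ∑ t ∈ G.T, (if inn t.1 then 0 else corner lv F w t) =
      ∑ t ∈ G.T, (primO lv F inn arc w t.2.1 t.1 - primO lv F inn arc w t.1 t.2.1) := by
  have h1 : ∀ t ∈ G.T, (if inn t.1 then 0 else corner lv F w t) =
      (primO lv F inn arc w t.1 t.2.2 - primO lv F inn arc w t.1 t.2.1) +
        defect lv F inn arc w t := by
    intro t ht
    by_cases hi : inn t.1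
    · simp only [primO, defect, hi, if_true]; ring
    · simp only [primO, hi, if_false]
      exact H.corner_out hw ht hi
  rw [Finset.sum_congr rfl h1, Finset.sum_add_distrib, Finset.sum_sub_distrib,
    Finset.sum_sub_distrib]
  have h2 : ∑ t ∈ G.T, defect lv F inn arc w t = 0 := by
    have h3 := sum_rot3 G (defect lv F inn arc w)
    rw [Finset.sum_congr rfl fun t ht => H.defect3 w ht] at h3
    simpa using h3
  have h4 := sum_rot G (fun t => primO lv F inn arc w t.1 t.2.2)
  rw [h2, add_zero, ← h4]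
  rfl

theorem Til.sum_hull (H : Til G lv F Q ex inn arc) (w : ℂ) :
    ∑ t ∈ G.T, (primO lv F inn arc w t.2.1 t.1 - primO lv F inn arc w t.1 t.2.1) =
      - ∑ k : ZMod 3, ang w (omz (k - 1)) (omz k) := by
  set f : V × V → ℝ := fun e => primO lv F inn arc w e.2 e.1 - primO lv F inn arc w e.1 e.2 with hf
  set D : Finset (V × V) := G.T.image (fun t => (t.1, t.2.1)) with hD
  have h1 : ∑ t ∈ G.T, (primO lv F inn arc w t.2.1 t.1 - primO lv F inn arc w t.1 t.2.1) =
      ∑ e ∈ D, f e := by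
    rw [hD, Finset.sum_image]
    rintro ⟨a, b, c⟩ h ⟨a', b', c'⟩ h' he
    simp only [Prod.mk.injEq] at he
    obtain ⟨rfl, rfl⟩ := he
    have := G.uniq h h'
    rw [this]
  have hmem : ∀ a b : V, (a, b) ∈ D ↔ ∃ c, (a, b, c) ∈ G.T := by
    intro a b
    rw [hD, Finset.mem_image]
    constructor
    · rintro ⟨⟨x, y, z⟩, h, he⟩
      simp only [Prod.mk.injEq] at he
      obtain ⟨rfl, rfl⟩ := he
      exact ⟨z, h⟩
    · rintro ⟨c, h⟩
      exact ⟨(a, b, c), h, rfl⟩
  rw [h1, ← Finset.sum_filter_add_sum_filter_not D (fun e => (e.2, e.1) ∈ D)]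
  have h2 : ∑ e ∈ D.filter (fun e => (e.2, e.1) ∈ D), f e = 0 := by
    have h3 : ∑ e ∈ D.filter (fun e => (e.2, e.1) ∈ D), f e =
        ∑ e ∈ D.filter (fun e => (e.2, e.1) ∈ D), f (e.2, e.1) := by
      apply Finset.sum_equiv (Equiv.prodComm V V)
      · rintro ⟨a, b⟩
        simp only [Finset.mem_filter, Equiv.prodComm_apply, Prod.swap_prod_mk]
        tauto
      · rintro ⟨a, b⟩ _
        rfl
    have h4 : ∀ e ∈ D.filter (fun e => (e.2, e.1) ∈ D), f (e.2, e.1) = - f e := by
      rintro ⟨a, b⟩ _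
      simp only [hf]
      ring
    rw [Finset.sum_congr rfl h4, Finset.sum_neg_distrib] at h3
    linarith
  rw [h2, zero_add]
  have h5 : Finset.univ.image ex ⊆ D.filter (fun e => ¬ (e.2, e.1) ∈ D) := by
    intro e he
    rw [Finset.mem_image] at he
    obtain ⟨k, -, rfl⟩ := he
    rw [Finset.mem_filter]
    refine ⟨(hmem _ _).mpr (H.exT k), ?_⟩
    rw [hmem]
    rintro ⟨c, hc⟩
    exact H.exH k c hc
  rw [← Finset.sum_subset h5, Finset.sum_image (fun a _ b _ h => H.exI h),
    ← Finset.sum_neg_distrib]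
  · apply Finset.sum_congr rfl
    intro k _
    have hl := H.exl k
    have hl' := H.lvs _ _ hl
    obtain ⟨i1, a1⟩ := H.ex1 k
    obtain ⟨i2, a2⟩ := H.ex2 k
    simp only [hf, primO, prim, i1, i2, hl, hl', if_true, if_false, a1, a2]
    rw [H.Fs (ex k).2 (ex k).1, H.exF k, ang_self, zero_sub]
  · rintro ⟨a, b⟩ he hne
    rw [Finset.mem_filter] at he
    obtain ⟨he1, he2⟩ := he
    rw [hmem] at he1
    obtain ⟨c, hc⟩ := he1
    rw [hmem] at he2
    push Not at he2
    have hnl : ¬ lv a b := by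
      intro hl
      apply hne
      obtain ⟨k, hk⟩ := H.hull a b c hc he2 hl
      rw [Finset.mem_image]
      exact ⟨k, Finset.mem_univ _, hk⟩
    have hnl' : ¬ lv b a := fun h => hnl (H.lvs _ _ h)
    simp only [hf, primO, prim, hnl, hnl', if_false, ite_self, sub_zero]

/-- the number (times `2π`) of turns of the big triangle around `w` -/
def bigang (w : ℂ) : ℝ := ∑ k : ZMod 3, ang w (omz (k - 1)) (omz k)

/-- **T1** (discrete argument principle, inequality) -/
theorem Til.main (H : Til G lv F Q ex inn arc) {w : ℂ} (hw : Good F G w) :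
    ∑ t ∈ G.T, wtri lv F w t ≤ 3 * bigang w := by
  have h1 := H.total hw
  have h2 : ∑ t ∈ G.T, corner lv F w t = ∑ t ∈ G.T, (if inn t.1 then corner lv F w t else 0) +
      ∑ t ∈ G.T, (if inn t.1 then 0 else corner lv F w t) := by
    rw [← Finset.sum_add_distrib]
    apply Finset.sum_congr rfl
    intro t _
    by_cases hi : inn t.1 <;> simp [hi]
  have h3 : 0 ≤ ∑ t ∈ G.T, (if inn t.1 then corner lv F w t else 0) := by
    rw [← Finset.sum_filter]
    rw [← Finset.sum_fiberwise_of_maps_to (s := G.T.filter fun t => inn t.1)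
      (t := (G.T.filter fun t => inn t.1).image (fun t => t.1)) (g := fun t => t.1)
      (fun t ht => Finset.mem_image_of_mem _ ht)]
    apply Finset.sum_nonneg
    intro v hv
    rw [Finset.mem_image] at hv
    obtain ⟨t, ht, rfl⟩ := hv
    have hi : inn t.1 := (Finset.mem_filter.mp ht).2
    have h4 := H.inner_nonneg hw hi
    have h5 : (G.T.filter fun s => inn s.1).filter (fun s => s.1 = t.1) =
        G.T.filter (fun s => s.1 = t.1) := by
      ext s
      simp only [Finset.mem_filter]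
      constructor
      · rintro ⟨⟨a, -⟩, b⟩; exact ⟨a, b⟩
      · rintro ⟨a, b⟩; exact ⟨⟨a, b ▸ hi⟩, b⟩
    rw [h5]
    exact h4
  rw [H.sum_out hw, H.sum_hull w] at h2
  unfold bigang
  linarith

end main

/-! ### the big triangle -/

theorem off_of_cr {w p q : ℂ} (h : cr (p - w) (q - w) ≠ 0) : w ∉ segment ℝ p q := by
  intro hm
  rw [segment_eq_image'] at hm
  obtain ⟨s, -, rfl⟩ := hm
  apply h
  unfold cr
  simp only [Complex.sub_re, Complex.sub_im, Complex.add_re, Complex.add_im, Complex.real_smul,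
    Complex.mul_re, Complex.mul_im, Complex.ofReal_re, Complex.ofReal_im]
  ring

theorem bigang_eq (w : ℂ) : bigang w = ang w (omz 0) (omz 1) + ang w (omz 1) (omz 2) +
    ang w (omz 2) (omz 0) := by
  unfold bigang
  have h : (Finset.univ : Finset (ZMod 3)) = {0, 1, 2} := by decide
  rw [h, Finset.sum_insert (by decide), Finset.sum_insert (by decide), Finset.sum_singleton]
  have e0 : (0 : ZMod 3) - 1 = 2 := by decide
  have e1 : (1 : ZMod 3) - 1 = 0 := by decide
  have e2 : (2 : ZMod 3) - 1 = 1 := by decide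
  rw [e0, e1, e2]
  ring

theorem bigang_le {w : ℂ} (h : ∀ k : ZMod 3, cr (omz k - w) (omz (k + 1) - w) ≠ 0) :
    bigang w ≤ 2 * Real.pi := by
  rw [bigang_eq]
  have e0 : (0 : ZMod 3) + 1 = 1 := by decide
  have e1 : (1 : ZMod 3) + 1 = 2 := by decide
  have e2 : (2 : ZMod 3) + 1 = 0 := by decide
  have h0 := off_of_cr (h 0)
  have h1 := off_of_cr (h 1)
  have h2 := off_of_cr (h 2)
  rw [e0] at h0; rw [e1] at h1; rw [e2] at h2
  obtain ⟨n, hn⟩ := sum3_int (ne_of_off h0).1 (ne_of_off h1).1 (ne_of_off h2).1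
  have a0 := ang_lt h0
  have a1 := ang_lt h1
  have a2 := ang_lt h2
  have n2 : (n : ℝ) < 2 := by
    by_contra hc
    push Not at hc
    nlinarith [Real.pi_pos]
  have n3 : n ≤ 1 := by
    have : n < 2 := by exact_mod_cast n2
    omega
  rw [hn]
  have : (n : ℝ) ≤ 1 := by exact_mod_cast n3
  nlinarith [Real.pi_pos]

theorem bigang_out {w : ℂ} (h : ∀ k : ZMod 3, cr (omz k - w) (omz (k + 1) - w) ≠ 0)
    {k : ZMod 3} (hk : cr (omz k - w) (omz (k + 1) - w) < 0) : bigang w ≤ 0 := by
  have e0 : (0 : ZMod 3) + 1 = 1 := by decide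
  have e1 : (1 : ZMod 3) + 1 = 2 := by decide
  have e2 : (2 : ZMod 3) + 1 = 0 := by decide
  have h0 := off_of_cr (h 0)
  have h1 := off_of_cr (h 1)
  have h2 := off_of_cr (h 2)
  rw [e0] at h0; rw [e1] at h1; rw [e2] at h2
  obtain ⟨n, hn⟩ := sum3_int (ne_of_off h0).1 (ne_of_off h1).1 (ne_of_off h2).1
  have a0 := ang_lt h0
  have a1 := ang_lt h1
  have a2 := ang_lt h2
  have hneg : ang w (omz 0) (omz 1) < 0 ∨ ang w (omz 1) (omz 2) < 0 ∨
      ang w (omz 2) (omz 0) < 0 := by
    fin_cases k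
    · left
      exact (ang_neg_iff (ne_of_off h0).1).mpr hk
    · right; left
      exact (ang_neg_iff (ne_of_off h1).1).mpr hk
    · right; right
      exact (ang_neg_iff (ne_of_off h2).1).mpr hk
  have n2 : (n : ℝ) < 1 := by
    by_contra hc
    push Not at hc
    rcases hneg with h | h | h <;> nlinarith [Real.pi_pos]
  have n3 : n ≤ 0 := by
    have : n < 1 := by exact_mod_cast n2
    omega
  rw [bigang_eq, hn]
  have : (n : ℝ) ≤ 0 := by exact_mod_cast n3
  nlinarith [Real.pi_pos]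

/-! ### disjointness -/

/-- the three sides are live -/
def LiveT (lv : V → V → Prop) (t : V × V × V) : Prop :=
  lv t.1 t.2.1 ∧ lv t.2.1 t.2.2 ∧ lv t.2.2 t.1

/-- `w` is in the open triangle `F(t)` -/
def InsT (F : V → V → ℂ) (w : ℂ) (t : V × V × V) : Prop :=
  0 < cr (F t.1 t.2.1 - w) (F t.2.1 t.2.2 - w) ∧ 0 < cr (F t.2.1 t.2.2 - w) (F t.2.2 t.1 - w) ∧
    0 < cr (F t.2.2 t.1 - w) (F t.1 t.2.1 - w)

theorem om_im_pos : 0 < om.im := by
  rw [om, Complex.exp_ofReal_mul_I_im]
  apply Real.sin_pos_of_pos_of_lt_pi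
  · positivity
  · nlinarith [Real.pi_pos]

theorem om_im_sq : om.im ^ 2 = 3 / 4 := by
  have h1 : om.re ^ 2 + om.im ^ 2 = 1 := by
    have h := norm_om
    have h2 : Complex.normSq om = 1 := by rw [Complex.normSq_eq_norm_sq, h]; norm_num
    rw [Complex.normSq_apply] at h2
    nlinarith
  rw [om_re] at h1
  linarith

theorem om_sq : om ^ 2 = -1 - om := by
  apply Complex.ext
  · simp only [sq, Complex.mul_re, Complex.sub_re, Complex.neg_re, Complex.one_re]
    have := om_im_sq
    rw [om_re]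
    nlinarith
  · simp only [sq, Complex.mul_im, Complex.sub_im, Complex.neg_im, Complex.one_im]
    rw [om_re]
    ring

theorem cr_om (q : ℂ) : cr ((om - 1) * q) ((om ^ 2 - 1) * q) = 3 * om.im * Complex.normSq q := by
  rw [om_sq]
  unfold cr
  simp only [Complex.mul_re, Complex.mul_im, Complex.sub_re, Complex.sub_im, Complex.neg_re,
    Complex.neg_im, Complex.one_re, Complex.one_im, Complex.normSq_apply, om_re]
  ring

section disj

variable {G : Trg V} {lv : V → V → Prop} {F : V → V → ℂ} {Q : V × V × V → ℂ}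
  {ex : ZMod 3 → V × V} {inn : V → Prop} {arc : V → ZMod 3}

theorem Til.wtri_nonneg (H : Til G lv F Q ex inn arc) {w : ℂ} (hw : Good F G w) {t : V × V × V}
    (ht : t ∈ G.T) : 0 ≤ wtri lv F w t := by
  obtain ⟨a, b, c⟩ := t
  obtain ⟨e1, e2, e3⟩ := edg_of_mem ht
  unfold wtri
  split_ifs with h
  · obtain ⟨h1, h2, h3⟩ := h
    obtain ⟨h, f1, f2, f3⟩ := H.tri3 a b c ht h1 h2 h3
    apply tri_nonneg _ (hw.off _ _ _ _ e1 e2) (hw.off _ _ _ _ e2 e3)
    rw [f1, f2, f3]
    have g1 : h + om * Q (a, b, c) - (h + Q (a, b, c)) = (om - 1) * Q (a, b, c) := by ring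
    have g2 : h + om ^ 2 * Q (a, b, c) - (h + Q (a, b, c)) = (om ^ 2 - 1) * Q (a, b, c) := by ring
    rw [g1, g2, cr_om]
    have := om_im_pos
    have := Complex.normSq_nonneg (Q (a, b, c))
    positivity
  · exact le_refl _

theorem wtri_ins {w : ℂ} (hw : Good F G w) {t : V × V × V} (ht : t ∈ G.T) (hl : LiveT lv t)
    (hi : InsT F w t) : wtri lv F w t = 2 * Real.pi := by
  obtain ⟨a, b, c⟩ := t
  obtain ⟨e1, e2, e3⟩ := edg_of_mem ht
  unfold wtri
  refine (if_pos hl).trans ?_
  exact tri_eq hi.1 hi.2.1 hi.2.2 (hw.off _ _ _ _ e1 e2) (hw.off _ _ _ _ e2 e3)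
    (hw.off _ _ _ _ e3 e1)

theorem Til.card_le (H : Til G lv F Q ex inn arc) {w : ℂ} (hw : Good F G w) :
    (2 * Real.pi) * ((G.T.filter fun t => LiveT lv t ∧ InsT F w t).card : ℝ) ≤ 3 * bigang w := by
  refine le_trans ?_ (H.main hw)
  calc (2 * Real.pi) * ((G.T.filter fun t => LiveT lv t ∧ InsT F w t).card : ℝ)
      = ∑ t ∈ G.T.filter (fun t => LiveT lv t ∧ InsT F w t), 2 * Real.pi := by
        rw [Finset.sum_const, nsmul_eq_mul]; ring
    _ = ∑ t ∈ G.T.filter (fun t => LiveT lv t ∧ InsT F w t), wtri lv F w t := by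
        apply Finset.sum_congr rfl
        intro t ht
        rw [Finset.mem_filter] at ht
        exact (wtri_ins hw ht.1 ht.2.1 ht.2.2).symm
    _ ≤ ∑ t ∈ G.T, wtri lv F w t :=
        Finset.sum_le_sum_of_subset_of_nonneg (Finset.filter_subset _ _)
          fun t ht _ => H.wtri_nonneg hw ht

theorem Til.card_le3 (H : Til G lv F Q ex inn arc) {w : ℂ} (hw : Good F G w) :
    (G.T.filter fun t => LiveT lv t ∧ InsT F w t).card ≤ 3 := by
  have h1 := H.card_le hw
  have h2 := bigang_le hw.big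
  have h3 : (2 * Real.pi) * ((G.T.filter fun t => LiveT lv t ∧ InsT F w t).card : ℝ) ≤
      (2 * Real.pi) * 3 := by linarith
  have h4 := le_of_mul_le_mul_left h3 (by positivity)
  exact_mod_cast h4

/-- `w` is in the (closed) big triangle -/
def InBig (w : ℂ) : Prop := ∀ k : ZMod 3, 0 ≤ cr (omz k - w) (omz (k + 1) - w)

theorem Til.ins_big (H : Til G lv F Q ex inn arc) {w : ℂ} (hw : Good F G w) {t : V × V × V}
    (ht : t ∈ G.T) (hl : LiveT lv t) (hi : InsT F w t) : InBig w := by
  intro k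
  by_contra hk
  push Not at hk
  have h1 := H.card_le hw
  have h2 := bigang_out hw.big hk
  have h3 : (2 * Real.pi) * ((G.T.filter fun t => LiveT lv t ∧ InsT F w t).card : ℝ) ≤ 0 := by
    linarith
  have h4 : 0 < (G.T.filter fun t => LiveT lv t ∧ InsT F w t).card :=
    Finset.card_pos.mpr ⟨t, Finset.mem_filter.mpr ⟨ht, hl, hi⟩⟩
  have h5 : (0 : ℝ) < ((G.T.filter fun t => LiveT lv t ∧ InsT F w t).card : ℝ) := by
    exact_mod_cast h4
  have := mul_pos (by positivity : (0 : ℝ) < 2 * Real.pi) h5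
  linarith

theorem LiveT.rot {t : V × V × V} (h : LiveT lv t) : LiveT lv (rotE t) := ⟨h.2.1, h.2.2, h.1⟩

theorem InsT.rot {w : ℂ} {t : V × V × V} (h : InsT F w t) : InsT F w (rotE t) :=
  ⟨h.2.1, h.2.2, h.1⟩

theorem Til.unique (H : Til G lv F Q ex inn arc) {w : ℂ} (hw : Good F G w) {t t' : V × V × V}
    (ht : t ∈ G.T) (ht' : t' ∈ G.T) (hl : LiveT lv t) (hl' : LiveT lv t')
    (hi : InsT F w t) (hi' : InsT F w t') : t' ∈ rots t := by
  by_contra hc
  have h1 := H.card_le3 hw
  have hr : ∀ {s : V × V × V}, s ∈ G.T → rotE s ∈ G.T := by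
    rintro ⟨a, b, c⟩ h
    exact G.rot h
  have hsub : ({t, rotE t, rotE (rotE t), t'} : Finset (V × V × V)) ⊆
      G.T.filter (fun t => LiveT lv t ∧ InsT F w t) := by
    intro s hs
    simp only [Finset.mem_insert, Finset.mem_singleton] at hs
    rw [Finset.mem_filter]
    rcases hs with rfl | rfl | rfl | rfl
    · exact ⟨ht, hl, hi⟩
    · exact ⟨hr ht, hl.rot, hi.rot⟩
    · exact ⟨hr (hr ht), hl.rot.rot, hi.rot.rot⟩
    · exact ⟨ht', hl', hi'⟩
  have h2 := Finset.card_le_card hsub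
  obtain ⟨a, b, c⟩ := t
  have n1 := G.ne ht
  have n2 := G.ne (G.rot ht)
  have n3 := G.ne (G.rot (G.rot ht))
  have h3 : ({(a, b, c), rotE (a, b, c), rotE (rotE (a, b, c)), t'} : Finset (V × V × V)).card =
      4 := by
    simp only [rotE, Equiv.coe_fn_mk]
    simp only [rots, Set.mem_insert_iff, Set.mem_singleton_iff, not_or] at hc
    rw [Finset.card_insert_of_notMem, Finset.card_insert_of_notMem,
      Finset.card_insert_of_notMem, Finset.card_singleton]
    · simp only [Finset.mem_singleton]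
      exact fun h => hc.2.2 h.symm
    · simp only [Finset.mem_insert, Finset.mem_singleton, Prod.mk.injEq, not_or]
      refine ⟨?_, fun h => hc.2.1 h.symm⟩
      rintro ⟨h, -, -⟩
      exact n2 h
    · simp only [Finset.mem_insert, Finset.mem_singleton, Prod.mk.injEq, not_or]
      refine ⟨?_, ?_, fun h => hc.1 h.symm⟩
      · rintro ⟨h, -, -⟩
        exact n1 h
      · rintro ⟨h, -, -⟩
        exact n3 h.symm
  omega

/-- centre of the triangle `F(t)` -/
def cen (F : V → V → ℂ) (t : V × V × V) : ℂ :=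
  (F t.1 t.2.1 + F t.2.1 t.2.2 + F t.2.2 t.1) / 3

theorem cr_pos {u q : ℂ} (h : ‖u‖ < ‖q‖ / 2) : 0 < cr (u + q) (u + om * q) := by
  have hq : 0 < ‖q‖ := by
    have := norm_nonneg u
    linarith
  have h1 : cr (u + q) (u + om * q) = om.im * ‖q‖ ^ 2 + cr u ((om - 1) * q) := by
    rw [← Complex.normSq_eq_norm_sq]
    unfold cr
    simp only [Complex.add_re, Complex.add_im, Complex.mul_re, Complex.mul_im, Complex.sub_re,
      Complex.sub_im, Complex.one_re, Complex.one_im, Complex.normSq_apply]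
    ring
  have h2 : |cr u ((om - 1) * q)| ≤ ‖u‖ * (Real.sqrt 3 * ‖q‖) := by
    have e : cr u ((om - 1) * q) = ((starRingEnd ℂ) u * ((om - 1) * q)).im := by
      unfold cr
      simp only [Complex.mul_im, Complex.conj_re, Complex.conj_im]
      ring
    rw [e]
    refine (Complex.abs_im_le_norm _).trans ?_
    rw [norm_mul, norm_mul, Complex.norm_conj, norm_sub_rev, norm_one_sub_om]
  have h3 : om.im = Real.sqrt 3 / 2 := by
    have h4 := om_im_sq
    have h5 := om_im_pos
    have h6 : Real.sqrt 3 = 2 * om.im := by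
      rw [show (3 : ℝ) = (2 * om.im) ^ 2 by rw [mul_pow, h4]; norm_num]
      exact Real.sqrt_sq (by positivity)
    rw [h6]; ring
  have h7 : 0 < Real.sqrt 3 := by positivity
  have h8 : ‖u‖ * (Real.sqrt 3 * ‖q‖) < Real.sqrt 3 / 2 * ‖q‖ ^ 2 := by
    have : 0 < Real.sqrt 3 * ‖q‖ := by positivity
    nlinarith
  rw [h1, h3]
  have h9 := (abs_le.mp h2).1
  linarith

theorem Til.ins_of_ball (H : Til G lv F Q ex inn arc) {w : ℂ} {t : V × V × V}
    (ht : t ∈ G.T) (hl : LiveT lv t) (hb : w ∈ Metric.ball (cen F t) (‖Q t‖ / 2)) :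
    InsT F w t := by
  obtain ⟨a, b, c⟩ := t
  obtain ⟨h, f1, f2, f3⟩ := H.tri3 a b c ht hl.1 hl.2.1 hl.2.2
  have h3 := om_pow_three
  have hc : cen F (a, b, c) = h := by
    unfold cen
    simp only
    rw [f1, f2, f3]
    linear_combination (Q (a, b, c) / 3) * om_sq
  rw [hc, Metric.mem_ball, dist_eq_norm, norm_sub_rev] at hb
  have k0 : ‖h - w‖ < ‖Q (a, b, c)‖ / 2 := hb
  have k1 : ‖h - w‖ < ‖om * Q (a, b, c)‖ / 2 := by rw [norm_mul, norm_om, one_mul]; exact hb
  have k2 : ‖h - w‖ < ‖om ^ 2 * Q (a, b, c)‖ / 2 := by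
    rw [norm_mul, norm_pow, norm_om, one_pow, one_mul]; exact hb
  unfold InsT
  simp only
  rw [f1, f2, f3]
  refine ⟨?_, ?_, ?_⟩
  · have := cr_pos k0
    convert this using 2 <;> ring
  · have := cr_pos k1
    convert this using 2 <;> ring
  · have := cr_pos k2
    have e : om * (om ^ 2 * Q (a, b, c)) = Q (a, b, c) := by
      rw [← mul_assoc, ← pow_succ', h3, one_mul]
    rw [e] at this
    convert this using 2 <;> ring

end disj

/-! ### measure theory: almost every point is good -/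

theorem line_null (p q : ℂ) : volume ((line[ℝ, p, q] : AffineSubspace ℝ ℂ) : Set ℂ) = 0 := by
  apply Measure.addHaar_affineSubspace
  intro h
  by_cases hpq : p = q
  · subst hpq
    have h1 : p + 1 ∈ (line[ℝ, p, p] : AffineSubspace ℝ ℂ) := by rw [h]; trivial
    rw [mem_affineSpan_pair_iff_exists_lineMap_eq] at h1
    obtain ⟨r, hr⟩ := h1
    simp at hr
  · have h1 : p + Complex.I * (q - p) ∈ (line[ℝ, p, q] : AffineSubspace ℝ ℂ) := by
      rw [h]; trivial
    rw [mem_affineSpan_pair_iff_exists_lineMap_eq] at h1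
    obtain ⟨r, hr⟩ := h1
    rw [AffineMap.lineMap_apply] at hr
    simp only [vsub_eq_sub, vadd_eq_add, Complex.real_smul] at hr
    have h2 : (r : ℂ) * (q - p) = Complex.I * (q - p) := by linear_combination hr
    have h3 := mul_right_cancel₀ (sub_ne_zero.mpr (Ne.symm hpq)) h2
    have h4 := congrArg Complex.im h3
    simp at h4

theorem seg_null (p q : ℂ) : volume (segment ℝ p q) = 0 := by
  apply measure_mono_null _ (line_null p q)
  intro w hw
  rw [segment_eq_image_lineMap] at hw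
  obtain ⟨t, -, rfl⟩ := hw
  exact AffineMap.lineMap_mem_affineSpan_pair t p q

theorem crz_null {p q : ℂ} (hpq : p ≠ q) : volume {w : ℂ | cr (p - w) (q - w) = 0} = 0 := by
  apply measure_mono_null _ (line_null p q)
  intro w hw
  simp only [Set.mem_ofPred_eq] at hw
  have hne : q - p ≠ 0 := sub_ne_zero.mpr (Ne.symm hpq)
  have h1 : ((w - p) / (q - p)).im = 0 := by
    rw [im_div']
    have : cr (q - p) (w - p) = cr (p - w) (q - w) := by
      unfold cr
      simp only [Complex.sub_re, Complex.sub_im]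
      ring
    rw [this, hw]; simp
  have h2 : AffineMap.lineMap p q (((w - p) / (q - p)).re) = w := by
    rw [AffineMap.lineMap_apply]
    simp only [vsub_eq_sub, vadd_eq_add, Complex.real_smul]
    have h3 : ((((w - p) / (q - p)).re : ℝ) : ℂ) = (w - p) / (q - p) := by
      apply Complex.ext
      · simp
      · simp [h1]
    rw [h3]
    field_simp
    ring
  show w ∈ (line[ℝ, p, q] : AffineSubspace ℝ ℂ)
  rw [← h2]
  exact AffineMap.lineMap_mem_affineSpan_pair _ p q

theorem edg_iff (G : Trg V) (a b : V) : Edg G a b ↔ (a, b) ∈ G.E := by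
  unfold Edg Trg.E
  rw [Finset.mem_union, Finset.mem_image, Finset.mem_image]
  constructor
  · rintro (⟨c, h⟩ | ⟨c, h⟩)
    · exact Or.inl ⟨_, h, rfl⟩
    · exact Or.inr ⟨_, h, rfl⟩
  · rintro (⟨⟨x, y, z⟩, h, he⟩ | ⟨⟨x, y, z⟩, h, he⟩)
    · simp only [Prod.mk.injEq] at he
      obtain ⟨rfl, rfl⟩ := he
      exact Or.inl ⟨z, h⟩
    · simp only [Prod.mk.injEq] at he
      obtain ⟨rfl, rfl⟩ := he
      exact Or.inr ⟨z, h⟩

theorem omz_ne (k : ZMod 3) : omz k ≠ omz (k + 1) := by
  rw [omz_add_one]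
  intro h
  have h0 : omz k ≠ 0 := by
    intro h1
    have h2 : ‖omz k‖ = 1 := by unfold omz; rw [norm_pow, norm_om, one_pow]
    rw [h1] at h2
    simp at h2
  have h1 : om = 1 := by
    have h2 : (om - 1) * omz k = 0 := by linear_combination -h
    rcases mul_eq_zero.mp h2 with h3 | h3
    · linear_combination h3
    · exact absurd h3 h0
  have h2 := om_im_pos
  rw [h1] at h2
  simp at h2

theorem good_ae (G : Trg V) (F : V → V → ℂ) : ∀ᵐ w : ℂ, Good F G w := by
  have h1 : ∀ᵐ w : ℂ, ∀ p ∈ G.E, ∀ q ∈ G.E, w ∉ segment ℝ (F p.1 p.2) (F q.1 q.2) := by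
    rw [Finset.eventually_all]
    intro p _
    rw [Finset.eventually_all]
    intro q _
    have := seg_null (F p.1 p.2) (F q.1 q.2)
    rw [ae_iff]
    simpa using this
  have h2 : ∀ᵐ w : ℂ, ∀ k : ZMod 3, cr (omz k - w) (omz (k + 1) - w) ≠ 0 := by
    rw [ae_all_iff]
    intro k
    have := crz_null (omz_ne k)
    rw [ae_iff]
    simpa using this
  filter_upwards [h1, h2] with w g1 g2
  exact ⟨fun a b c e h h' => g1 (a, b) ((edg_iff G a b).mp h) (c, e) ((edg_iff G c e).mp h'), g2⟩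

/-! ### T2 : energy -/

theorem exists_good (G : Trg V) (F : V → V → ℂ) {U : Set ℂ} (hU : IsOpen U) (hne : U.Nonempty) :
    ∃ w ∈ U, Good F G w := by
  by_contra hc
  push Not at hc
  have h1 : U ⊆ {w | ¬ Good F G w} := fun w hw => hc w hw
  have h2 : volume {w | ¬ Good F G w} = 0 := by
    have := good_ae G F
    rwa [ae_iff] at this
  have h3 := measure_mono_null h1 h2
  have h4 := hU.measure_pos volume hne
  rw [h3] at h4
  exact lt_irrefl _ h4

theorem bary (a b c w : ℂ) : (cr (b - w) (c - w) : ℂ) * a + (cr (c - w) (a - w) : ℂ) * b +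
    (cr (a - w) (b - w) : ℂ) * c = (cr (b - a) (c - a) : ℂ) * w := by
  unfold cr
  apply Complex.ext
  · simp only [Complex.add_re, Complex.mul_re, Complex.ofReal_re, Complex.ofReal_im, Complex.sub_re,
      Complex.sub_im]
    ring
  · simp only [Complex.add_im, Complex.mul_im, Complex.ofReal_re, Complex.ofReal_im, Complex.sub_re,
      Complex.sub_im]
    ring

theorem omz_zero : omz 0 = 1 := by
  have : (0 : ZMod 3).val = 0 := rfl
  unfold omz
  rw [this, pow_zero]

theorem omz_one : omz 1 = om := by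
  have : (1 : ZMod 3).val = 1 := rfl
  unfold omz
  rw [this, pow_one]

theorem omz_two : omz 2 = om ^ 2 := by
  have : (2 : ZMod 3).val = 2 := rfl
  unfold omz
  rw [this]

theorem norm_omz (k : ZMod 3) : ‖omz k‖ = 1 := by
  unfold omz; rw [norm_pow, norm_om, one_pow]

theorem InBig.norm_le {w : ℂ} (h : InBig w) : ‖w‖ ≤ 1 := by
  have h0 := h 0
  have h1 := h 1
  have h2 := h 2
  have e0 : (0 : ZMod 3) + 1 = 1 := by decide
  have e1 : (1 : ZMod 3) + 1 = 2 := by decide
  have e2 : (2 : ZMod 3) + 1 = 0 := by decide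
  rw [e0] at h0; rw [e1] at h1; rw [e2] at h2
  have hb := bary (omz 0) (omz 1) (omz 2) w
  have hs := cr_sum3 w (omz 0) (omz 1) (omz 2)
  have ht : 0 < cr (omz 1 - omz 0) (omz 2 - omz 0) := by
    rw [omz_zero, omz_one, omz_two]
    have := cr_om 1
    simp only [mul_one, map_one] at this
    rw [this]
    have := om_im_pos
    positivity
  have hn : cr (omz 1 - omz 0) (omz 2 - omz 0) * ‖w‖ ≤ cr (omz 1 - omz 0) (omz 2 - omz 0) := by
    calc cr (omz 1 - omz 0) (omz 2 - omz 0) * ‖w‖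
        = ‖(cr (omz 1 - omz 0) (omz 2 - omz 0) : ℂ) * w‖ := by
          rw [norm_mul, Complex.norm_real, Real.norm_of_nonneg ht.le]
      _ ≤ cr (omz 1 - w) (omz 2 - w) + cr (omz 2 - w) (omz 0 - w) +
          cr (omz 0 - w) (omz 1 - w) := by
          rw [← hb]
          refine (norm_add_le _ _).trans (add_le_add ((norm_add_le _ _).trans
            (add_le_add ?_ ?_)) ?_)
          · rw [norm_mul, norm_omz, mul_one, Complex.norm_real, Real.norm_of_nonneg h1]
          · rw [norm_mul, norm_omz, mul_one, Complex.norm_real, Real.norm_of_nonneg h2]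
          · rw [norm_mul, norm_omz, mul_one, Complex.norm_real, Real.norm_of_nonneg h0]
      _ = cr (omz 1 - omz 0) (omz 2 - omz 0) := by linarith
  by_contra hc
  push Not at hc
  nlinarith

section energy

variable {G : Trg V} {lv : V → V → Prop} {F : V → V → ℂ} {Q : V × V × V → ℂ}
  {ex : ZMod 3 → V × V} {inn : V → Prop} {arc : V → ZMod 3}

/-- the disc inscribed in the triangle `F(t)` -/
def disc (F : V → V → ℂ) (Q : V × V × V → ℂ) (t : V × V × V) : Set ℂ :=
  Metric.ball (cen F t) (‖Q t‖ / 2)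

/-- **T1, disjointness** of the inscribed discs -/
theorem Til.disj (H : Til G lv F Q ex inn arc) {t t' : V × V × V} (ht : t ∈ G.T)
    (ht' : t' ∈ G.T) (hl : LiveT lv t) (hl' : LiveT lv t') (hne : t' ∉ rots t) :
    Disjoint (disc F Q t) (disc F Q t') := by
  rw [Set.disjoint_iff_inter_eq_empty]
  by_contra hc
  obtain ⟨w, hw, hg⟩ := exists_good G F (Metric.isOpen_ball.inter Metric.isOpen_ball)
    (Set.nonempty_iff_ne_empty.mpr hc)
  exact hne (H.unique hg ht ht' hl hl' (H.ins_of_ball ht hl hw.1) (H.ins_of_ball ht' hl' hw.2))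

/-- **T1, disjointness** of the open triangles -/
theorem Til.disj_ins (H : Til G lv F Q ex inn arc) {t t' : V × V × V} (ht : t ∈ G.T)
    (ht' : t' ∈ G.T) (hl : LiveT lv t) (hl' : LiveT lv t') (hne : t' ∉ rots t) (w : ℂ) :
    ¬ (InsT F w t ∧ InsT F w t') := by
  intro hw
  have hcont : ∀ a b : ℂ, Continuous fun w : ℂ => cr (a - w) (b - w) := by
    intro a b
    unfold cr
    fun_prop
  have hop : ∀ s : V × V × V, IsOpen {w : ℂ | InsT F w s} := by
    intro s
    unfold InsT
    exact (isOpen_lt continuous_const (hcont _ _)).inter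
      ((isOpen_lt continuous_const (hcont _ _)).inter (isOpen_lt continuous_const (hcont _ _)))
  obtain ⟨w', hw', hg⟩ := exists_good G F ((hop t).inter (hop t')) ⟨w, hw.1, hw.2⟩
  exact hne (H.unique hg ht ht' hl hl' hw'.1 hw'.2)

/-- **T1** : the triangles lie in the big triangle -/
theorem Til.ins_sub (H : Til G lv F Q ex inn arc) {t : V × V × V} (ht : t ∈ G.T)
    (hl : LiveT lv t) {w : ℂ} (hw : InsT F w t) : InBig w := by
  intro k
  by_contra hk
  push Not at hk
  have hcont : ∀ a b : ℂ, Continuous fun w : ℂ => cr (a - w) (b - w) := by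
    intro a b
    unfold cr
    fun_prop
  have hop : IsOpen {w : ℂ | InsT F w t} := by
    unfold InsT
    exact (isOpen_lt continuous_const (hcont _ _)).inter
      ((isOpen_lt continuous_const (hcont _ _)).inter (isOpen_lt continuous_const (hcont _ _)))
  have hop2 : IsOpen {w : ℂ | cr (omz k - w) (omz (k + 1) - w) < 0} :=
    isOpen_lt (hcont _ _) continuous_const
  obtain ⟨w', hw', hg⟩ := exists_good G F (hop.inter hop2) ⟨w, hw, hk⟩
  have h1 := H.ins_big hg ht hl hw'.1 k
  have h2 : cr (omz k - w') (omz (k + 1) - w') < 0 := hw'.2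
  linarith

theorem Til.disc_sub (H : Til G lv F Q ex inn arc) {t : V × V × V} (ht : t ∈ G.T)
    (hl : LiveT lv t) : disc F Q t ⊆ Metric.closedBall 0 1 := by
  intro w hw
  rw [mem_closedBall_zero_iff]
  exact (H.ins_sub ht hl (H.ins_of_ball ht hl hw)).norm_le

/-- **T2** (energy of a set of triangles) -/
theorem Til.energy (H : Til G lv F Q ex inn arc) (A : Finset (V × V × V)) (hA : A ⊆ G.T)
    (hQ : ∀ t ∈ A, LiveT lv t ∨ Q t = 0) :
    ∑ t ∈ A, ‖Q t‖ ^ 2 ≤ 12 / Real.pi * (volume (⋃ t ∈ A, disc F Q t)).toReal := by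
  have h1 : ∑ t ∈ A, volume (disc F Q t) ≤ 3 * volume (⋃ t ∈ A, disc F Q t) := by
    have hm : ∀ t, MeasurableSet (disc F Q t) := fun t => Metric.isOpen_ball.measurableSet
    have hmU : MeasurableSet (⋃ t ∈ A, disc F Q t) :=
      Finset.measurableSet_biUnion A fun t _ => hm t
    calc ∑ t ∈ A, volume (disc F Q t) = ∑ t ∈ A, ∫⁻ w, (disc F Q t).indicator 1 w := by
          apply Finset.sum_congr rfl
          intro t _
          rw [lintegral_indicator_one (hm t)]
      _ = ∫⁻ w, ∑ t ∈ A, (disc F Q t).indicator 1 w := by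
          rw [lintegral_finsetSum]
          intro t _
          exact measurable_one.indicator (hm t)
      _ ≤ ∫⁻ w, 3 * (⋃ t ∈ A, disc F Q t).indicator 1 w := by
          apply lintegral_mono_ae
          filter_upwards [good_ae G F] with w hw
          have h2 : ∑ t ∈ A, (disc F Q t).indicator (1 : ℂ → ENNReal) w =
              ((A.filter fun t => w ∈ disc F Q t).card : ENNReal) := by
            rw [Finset.card_filter]
            push_cast
            apply Finset.sum_congr rfl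
            intro t _
            by_cases h : w ∈ disc F Q t <;> simp [h]
          rw [h2]
          by_cases hU : w ∈ ⋃ t ∈ A, disc F Q t
          · rw [Set.indicator_of_mem hU]
            have h3 : (A.filter fun t => w ∈ disc F Q t) ⊆
                G.T.filter (fun t => LiveT lv t ∧ InsT F w t) := by
              intro t ht
              rw [Finset.mem_filter] at ht ⊢
              have hl : LiveT lv t := by
                rcases hQ t ht.1 with h | h
                · exact h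
                · exfalso
                  have := ht.2
                  unfold disc at this
                  rw [h] at this
                  simp at this
              exact ⟨hA ht.1, hl, H.ins_of_ball (hA ht.1) hl ht.2⟩
            have h4 := (Finset.card_le_card h3).trans (H.card_le3 hw)
            simp only [Pi.one_apply, mul_one]
            exact_mod_cast h4
          · have h3 : (A.filter fun t => w ∈ disc F Q t) = ∅ := by
              apply Finset.filter_eq_empty_iff.mpr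
              intro t ht hwt
              exact hU (Set.mem_biUnion ht hwt)
            rw [h3]
            simp
      _ = 3 * volume (⋃ t ∈ A, disc F Q t) := by
          rw [lintegral_const_mul _ (measurable_one.indicator hmU), lintegral_indicator_one hmU]
  have hfin : volume (⋃ t ∈ A, disc F Q t) ≠ ⊤ := by
    apply ne_of_lt
    apply (measure_biUnion_finset_le A _).trans_lt
    apply ENNReal.sum_lt_top.mpr
    intro t _
    exact measure_ball_lt_top
  have h5 : (∑ t ∈ A, volume (disc F Q t)).toReal = Real.pi / 4 * ∑ t ∈ A, ‖Q t‖ ^ 2 := by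
    have hf : ∀ t ∈ A, volume (disc F Q t) ≠ ⊤ := by
      intro t _
      unfold disc
      exact measure_ball_lt_top.ne
    rw [ENNReal.toReal_sum hf, Finset.mul_sum]
    apply Finset.sum_congr rfl
    intro t _
    unfold disc
    rw [Complex.volume_ball]
    simp only [ENNReal.toReal_mul, ENNReal.toReal_pow, ENNReal.coe_toReal, NNReal.coe_real_pi]
    rw [ENNReal.toReal_ofReal (by positivity)]
    ring
  have h6 := ENNReal.toReal_mono (ENNReal.mul_ne_top (by norm_num) hfin) h1
  rw [h5, ENNReal.toReal_mul] at h6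
  have h7 : (3 : ENNReal).toReal = 3 := by norm_num
  rw [h7] at h6
  have hpi := Real.pi_pos
  have h8 : ∑ t ∈ A, ‖Q t‖ ^ 2 = 4 / Real.pi * (Real.pi / 4 * ∑ t ∈ A, ‖Q t‖ ^ 2) := by
    field_simp
  rw [h8]
  calc 4 / Real.pi * (Real.pi / 4 * ∑ t ∈ A, ‖Q t‖ ^ 2)
      ≤ 4 / Real.pi * (3 * (volume (⋃ t ∈ A, disc F Q t)).toReal) :=
        mul_le_mul_of_nonneg_left h6 (by positivity)
    _ = 12 / Real.pi * (volume (⋃ t ∈ A, disc F Q t)).toReal := by ring

/-- **T2** with a ball -/
theorem Til.energy_ball (H : Til G lv F Q ex inn arc) (A : Finset (V × V × V)) (hA : A ⊆ G.T)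
    (hQ : ∀ t ∈ A, LiveT lv t ∨ Q t = 0) {z : ℂ} {r : ℝ} (hr : 0 ≤ r)
    (hb : ∀ t ∈ A, LiveT lv t → disc F Q t ⊆ Metric.closedBall z r) :
    ∑ t ∈ A, ‖Q t‖ ^ 2 ≤ 12 * r ^ 2 := by
  have h1 := H.energy A hA hQ
  have h2 : (⋃ t ∈ A, disc F Q t) ⊆ Metric.closedBall z r := by
    apply Set.iUnion₂_subset
    intro t ht
    rcases hQ t ht with h | h
    · exact hb t ht h
    · unfold disc
      rw [h]
      simp
  have h3 : (volume (⋃ t ∈ A, disc F Q t)).toReal ≤ Real.pi * r ^ 2 := by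
    have h4 := ENNReal.toReal_mono (measure_closedBall_lt_top).ne (measure_mono (μ := volume) h2)
    rw [Complex.volume_closedBall] at h4
    simp only [ENNReal.toReal_mul, ENNReal.toReal_pow, ENNReal.coe_toReal, NNReal.coe_real_pi] at h4
    rw [ENNReal.toReal_ofReal hr] at h4
    linarith
  have hpi := Real.pi_pos
  calc ∑ t ∈ A, ‖Q t‖ ^ 2 ≤ 12 / Real.pi * (volume (⋃ t ∈ A, disc F Q t)).toReal := h1
    _ ≤ 12 / Real.pi * (Real.pi * r ^ 2) := mul_le_mul_of_nonneg_left h3 (by positivity)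
    _ = 12 * r ^ 2 := by field_simp

/-- **T2**, total energy (every triangle is counted three times) -/
theorem Til.energy_le (H : Til G lv F Q ex inn arc) (A : Finset (V × V × V)) (hA : A ⊆ G.T)
    (hQ : ∀ t ∈ A, LiveT lv t ∨ Q t = 0) : ∑ t ∈ A, ‖Q t‖ ^ 2 ≤ 12 := by
  have := H.energy_ball A hA hQ (z := 0) (r := 1) zero_le_one fun t ht h => H.disc_sub (hA ht) h
  linarith

end energy

end Crest.Agent.R143.Energyx395
end
end

-- ▼ part R143/Tiling_395
section

/-!
# Row 143 (S0194), leaves T1, T2 for networks on Delaunay triangulations (helper395)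

* `LV N a b` : the edge `{a, b}` is live: not killed, and not a hull edge which is not a mark.
* `Sides N inn arc` : the description of the boundary (leaf P2): inner vertices have a complete ring,
  the other vertices belong to one of the three arcs, the values of `F` at the edges of a vertex of
  the arc `i` are on the side `[om ^ i, om ^ (i + 1)]` of the big triangle.
* `til_of` : `Til` (file `Energy_395`) for an `HNet` with `RelAt`, `E3`, `Sides`.
* `dis_of` : **T1**: `Dis U (hcen N) N.Q`.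
* `energy_net` : **T2**: `∑ t ∈ U, ‖N.Q t‖ ^ 2 ≤ 12`.
-/

set_option autoImplicit false

noncomputable section

namespace Crest.Agent.R143.Tilingx395

open Set MeasureTheory
open scoped Classical
open Crest.Agent.R143.B0x346 Crest.Agent.R143.Oscx63 Crest.Agent.R143.Rswx63
open Crest.Agent.R143.Energyx395

/-! ### the interior of a triangle -/

theorem cr_affine (p q w : ℂ) : cr (p - w) (q - w) = cr p q + cr (q - p) w := by
  unfold cr
  simp only [Complex.sub_re, Complex.sub_im]
  ring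

theorem int_hull {p q z w : ℂ} (hpq : p ≠ q) (hz : 0 ≤ cr (p - z) (q - z))
    (hw : w ∈ interior (convexHull ℝ {p, q, z})) : 0 < cr (p - w) (q - w) := by
  have hconv : Convex ℝ {x : ℂ | 0 ≤ cr (p - x) (q - x)} := by
    intro x hx y hy a b ha hb hab
    have hx' : 0 ≤ cr (p - x) (q - x) := hx
    have hy' : 0 ≤ cr (p - y) (q - y) := hy
    show 0 ≤ cr (p - (a • x + b • y)) (q - (a • x + b • y))
    have e : cr (p - (a • x + b • y)) (q - (a • x + b • y)) =
        a * cr (p - x) (q - x) + b * cr (p - y) (q - y) := by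
      rw [cr_affine, cr_affine, cr_affine]
      have hb' : b = 1 - a := by linarith
      subst hb'
      unfold cr
      simp only [Complex.add_re, Complex.add_im, Complex.real_smul, Complex.mul_re,
        Complex.mul_im, Complex.ofReal_re, Complex.ofReal_im, Complex.sub_re, Complex.sub_im]
      ring
    rw [e]
    positivity
  have hsub : convexHull ℝ {p, q, z} ⊆ {x : ℂ | 0 ≤ cr (p - x) (q - x)} := by
    apply convexHull_min _ hconv
    rintro x (rfl | rfl | rfl)
    · simp [cr]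
    · simp [cr]
    · exact hz
  rw [mem_interior_iff_mem_nhds, Metric.mem_nhds_iff] at hw
  obtain ⟨r, hr, hb⟩ := hw
  by_contra hc
  push Not at hc
  set d : ℂ := -(Complex.I * (q - p)) with hd
  have hdn : 0 < ‖d‖ := by
    rw [hd, norm_neg, norm_mul, Complex.norm_I, one_mul, norm_pos_iff]
    exact sub_ne_zero.mpr (Ne.symm hpq)
  set s : ℝ := r / (2 * ‖d‖) with hs
  have hs0 : 0 < s := by positivity
  have hmem : w + (s : ℂ) * d ∈ Metric.ball w r := by
    rw [Metric.mem_ball, dist_eq_norm, add_sub_cancel_left, norm_mul, Complex.norm_real,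
      Real.norm_of_nonneg hs0.le, hs]
    have : r / (2 * ‖d‖) * ‖d‖ = r / 2 := by field_simp
    rw [this]; linarith
  have h1 : 0 ≤ cr (p - (w + (s : ℂ) * d)) (q - (w + (s : ℂ) * d)) := hsub (hb hmem)
  have h2 : cr (p - (w + (s : ℂ) * d)) (q - (w + (s : ℂ) * d)) =
      cr (p - w) (q - w) - s * Complex.normSq (q - p) := by
    rw [hd]
    unfold cr
    simp only [Complex.add_re, Complex.add_im, Complex.mul_re, Complex.mul_im, Complex.neg_re,
      Complex.neg_im, Complex.ofReal_re, Complex.ofReal_im, Complex.sub_re, Complex.sub_im,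
      Complex.I_re, Complex.I_im, Complex.normSq_apply]
    ring
  have h3 : 0 < Complex.normSq (q - p) :=
    Complex.normSq_pos.mpr (sub_ne_zero.mpr (Ne.symm hpq))
  have h4 : 0 < s * Complex.normSq (q - p) := mul_pos hs0 h3
  linarith

theorem om_ne_one : om ≠ 1 := by
  intro h
  have h2 := om_im_pos
  rw [h] at h2
  simp at h2

theorem cr_side {x y z q : ℂ} (h1 : y - x = (om - 1) * q) (h2 : z - x = (om ^ 2 - 1) * q) :
    0 ≤ cr (x - z) (y - z) := by
  have e : cr (x - z) (y - z) = cr (y - x) (z - x) := by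
    unfold cr
    simp only [Complex.sub_re, Complex.sub_im]
    ring
  rw [e, h1, h2, cr_om]
  have := om_im_pos
  have := Complex.normSq_nonneg q
  positivity

/-- the interior of `tri h Q` is the open triangle -/
theorem int_tri {h q w : ℂ} (hw : w ∈ interior (tri h q)) :
    0 < cr (h + q - w) (h + om * q - w) ∧ 0 < cr (h + om * q - w) (h + om ^ 2 * q - w) ∧
      0 < cr (h + om ^ 2 * q - w) (h + q - w) := by
  have hq : q ≠ 0 := by
    rintro rfl
    rw [tri_zero, interior_singleton] at hw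
    exact hw
  have h3 := om_pow_three
  have hne : ∀ c : ℂ, c ≠ 0 → h + c ≠ h + om * c := by
    intro c hc he
    have h4 : (om - 1) * c = 0 := by linear_combination -he
    rcases mul_eq_zero.mp h4 with h5 | h5
    · exact om_ne_one (by linear_combination h5)
    · exact hc h5
  have hom : om ≠ 0 := by
    intro h0
    have := norm_om
    rw [h0] at this
    simp at this
  unfold tri at hw
  refine ⟨?_, ?_, ?_⟩
  · exact int_hull (hne q hq) (cr_side (q := q) (by ring) (by ring)) hw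
  · have e : ({h + q, h + om * q, h + om ^ 2 * q} : Set ℂ) =
        {h + om * q, h + om ^ 2 * q, h + q} := by
      ext x; simp only [Set.mem_insert_iff, Set.mem_singleton_iff]; tauto
    rw [e] at hw
    apply int_hull _ (cr_side (q := om * q) (by ring) _) hw
    · have := hne (om * q) (mul_ne_zero hom hq)
      intro he
      apply this
      rw [he]; ring
    · linear_combination (-q) * h3
  · have e : ({h + q, h + om * q, h + om ^ 2 * q} : Set ℂ) =
        {h + om ^ 2 * q, h + q, h + om * q} := by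
      ext x; simp only [Set.mem_insert_iff, Set.mem_singleton_iff]; tauto
    rw [e] at hw
    apply int_hull _ (cr_side (q := om ^ 2 * q) _ _) hw
    · have := hne (om ^ 2 * q) (mul_ne_zero (pow_ne_zero 2 hom) hq)
      intro he
      apply this
      rw [he]
      linear_combination (-q) * h3
    · linear_combination (-q) * h3
    · linear_combination (-om * q) * h3

/-! ### networks -/

/-- live edge: not killed, and not a hull edge without mark -/
def LV (N : Net ℂ) (a b : ℂ) : Prop :=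
  (a, b) ∉ N.kl ∧ (((∃ c, (a, b, c) ∈ N.T) ∧ ∃ c, (b, a, c) ∈ N.T) ∨
    (a, b) ∈ N.exS ∨ (b, a) ∈ N.exS)

/-- the description of the boundary (leaf P2) -/
structure Sides (N : Net ℂ) (inn : ℂ → Prop) (arc : ℂ → ZMod 3) : Prop where
  /-- inner vertices: complete ring of live edges -/
  ring : ∀ v, inn v → ∃ (d : ℕ) (u : ℤ → ℂ), Ring N.toTrg v d u ∧ (∀ i, (v, u i) ∉ N.kl) ∧
    ∀ x y, (v, x, y) ∈ N.T → ∃ i : ℤ, x = u i ∧ y = u (i + 1)
  /-- an edge which is not live joins two vertices of the same arc -/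
  dead : ∀ a b c, (a, b, c) ∈ N.T → ¬ LV N a b → ¬ inn a ∧ ¬ inn b ∧ arc a = arc b
  /-- values on the sides -/
  side : ∀ a b, ¬ inn a → LV N a b → ((∃ c, (a, b, c) ∈ N.T) ∨ ∃ c, (b, a, c) ∈ N.T) →
    N.F a b ∈ segment ℝ (omz (arc a)) (omz (arc a + 1))
  m1 : ∀ k, ¬ inn (N.ex k).1 ∧ arc (N.ex k).1 = k - 1
  m2 : ∀ k, ¬ inn (N.ex k).2 ∧ arc (N.ex k).2 = k

theorem LV.symm {N : Net ℂ} {a b : ℂ} (h : LV N a b) : LV N b a := by
  refine ⟨fun h1 => h.1 (N.klsym b a h1), ?_⟩
  rcases h.2 with ⟨h1, h2⟩ | h1 | h1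
  · exact Or.inl ⟨h2, h1⟩
  · exact Or.inr (Or.inr h1)
  · exact Or.inr (Or.inl h1)

theorem ex_inj {S : Finset ℂ} {N : Net ℂ} (hN : HNet S N) : Function.Injective N.ex := by
  have h := hN.ccw
  have key : ∀ i j : ZMod 3, i ≠ j → N.ex i ≠ N.ex j := by
    have h01 : N.ex 0 ≠ N.ex 1 := by
      intro he; rw [he] at h; simp [cr] at h
    have h02 : N.ex 0 ≠ N.ex 2 := by
      intro he; rw [he] at h; simp [cr] at h
    have h12 : N.ex 1 ≠ N.ex 2 := by
      intro he; rw [he] at h
      have : cr (mid (N.ex 2) - mid (N.ex 0)) (mid (N.ex 2) - mid (N.ex 0)) = 0 := by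
        unfold cr; ring
      rw [this] at h
      exact lt_irrefl _ h
    intro i j hij
    fin_cases i <;> fin_cases j
    · exact absurd rfl hij
    · exact h01
    · exact h02
    · exact h01.symm
    · exact absurd rfl hij
    · exact h12
    · exact h02.symm
    · exact h12.symm
    · exact absurd rfl hij
  intro i j hij
  by_contra hne
  exact key i j hne hij

theorem ex_hull {S : Finset ℂ} {N : Net ℂ} (hN : HNet S N) (k : ZMod 3) (x : ℂ) :
    ((N.ex k).2, (N.ex k).1, x) ∉ N.T := by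
  rw [hN.tri]
  exact (hN.hex k).2 x

theorem F_ex {S : Finset ℂ} {N : Net ℂ} (hN : HNet S N) (k : ZMod 3) :
    N.F (N.ex k).1 (N.ex k).2 = omz k := by
  have h : ∃ j, N.ex j = ((N.ex k).1, (N.ex k).2) ∨ N.ex j = ((N.ex k).2, (N.ex k).1) :=
    ⟨k, Or.inl rfl⟩
  unfold Net.F
  rw [dif_pos h]
  have h1 := h.choose_spec
  rcases h1 with h1 | h1
  · congr 1
    exact ex_inj hN h1
  · exfalso
    obtain ⟨c, hc⟩ := (hN.hex h.choose).1
    rw [h1] at hc
    exact (hN.hex k).2 c hc

/-- the amplitude of a triangle with a hull side without mark vanishes -/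
theorem Q_hull {N : Net ℂ} {a b c : ℂ} (h : ∀ x, (b, a, x) ∉ N.T) (h1 : (a, b) ∉ N.exS) :
    N.Q (a, b, c) = 0 := by
  have hA : ∀ k, N.triA (a, b, c) k = 0 := by
    intro k
    unfold Net.triA
    have h2 : (N.tj (a, b, c)).filter (N.Tri3 (a, b, c) k) = ∅ := by
      apply Finset.filter_eq_empty_iff.mpr
      intro J hJ hT
      have hJ' : IsJoin N.toTrg N.kl (rots (a, b, c)) N.exS J := by
        have := hJ
        unfold Net.tj joins at this
        exact (Finset.mem_filter.mp this).2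
      exact (hJ'.bdr a b h h1).1 hT.1
    rw [h2]; simp
  unfold Net.Q
  simp [hA]

theorem Q_zero {S : Finset ℂ} {N : Net ℂ} (hN : HNet S N) {a b c : ℂ} (ht : (a, b, c) ∈ N.T)
    (h : ¬ LV N a b) : N.Q (a, b, c) = 0 := by
  by_cases hk : (a, b) ∈ N.kl
  · exact Q_kill hN hk
  · unfold LV at h
    push Not at h
    obtain ⟨h1, h2, -⟩ := h hk
    exact Q_hull (h1 ⟨c, ht⟩) h2

theorem Q_zero' {S : Finset ℂ} {N : Net ℂ} (hN : HNet S N) {t : ℂ × ℂ × ℂ} (ht : t ∈ N.T)
    (h : ¬ LiveT (LV N) t) : N.Q t = 0 := by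
  obtain ⟨a, b, c⟩ := t
  have r1 := N.rot ht
  have r2 := N.rot r1
  unfold LiveT at h
  simp only [not_and_or] at h
  rcases h with h | h | h
  · exact Q_zero hN ht h
  · rw [← norm_eq_zero, ← norm_Q_rot N a b c, Q_zero hN r1 h, norm_zero]
  · rw [← norm_eq_zero, ← norm_Q_rot N a b c, ← norm_Q_rot N b c a, Q_zero hN r2 h, norm_zero]


section net

variable {S : Finset ℂ} {N : Net ℂ} {inn : ℂ → Prop} {arc : ℂ → ZMod 3}

theorem hcen_live {t : ℂ × ℂ × ℂ} (h : LiveT (LV N) t) :
    hcen N t = (N.F t.1 t.2.1 + N.F t.2.1 t.2.2 + N.F t.2.2 t.1) / 3 := by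
  unfold hcen
  rw [if_neg h.1.1, if_neg h.2.1.1, if_neg h.2.2.1]

theorem hcen_rel {t : ℂ × ℂ × ℂ} (hR : RelAt N t) (h : LiveT (LV N) t) :
    N.F t.1 t.2.1 = hcen N t + N.Q t ∧ N.F t.2.1 t.2.2 = hcen N t + om * N.Q t ∧
      N.F t.2.2 t.1 = hcen N t + om ^ 2 * N.Q t := by
  obtain ⟨g, e1, e2, e3⟩ := hR.j1 h.1.1 h.2.1.1 h.2.2.1
  have hc : hcen N t = g := by
    rw [hcen_live h, e1, e2, e3]
    linear_combination (N.Q t / 3) * om_sq
  rw [hc]
  exact ⟨e1, e2, e3⟩

/-- a point of the interior of the drawn triangle -/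
theorem ins_of_int {t : ℂ × ℂ × ℂ} (hR : RelAt N t) (h : LiveT (LV N) t) {w : ℂ}
    (hw : w ∈ interior (tri (hcen N t) (N.Q t))) : InsT N.F w t := by
  obtain ⟨e1, e2, e3⟩ := hcen_rel hR h
  obtain ⟨h1, h2, h3⟩ := int_tri hw
  unfold InsT
  rw [e1, e2, e3]
  exact ⟨h1, h2, h3⟩






end net

end Crest.Agent.R143.Tilingx395
end
end

-- ▼ part R143/Tiling2_395
section

/-!
# Row 143 (S0194), leaves T1, T2 with pockets (helper395)

A live edge can be cut off from the marks by killed edges (no joins, `F = 0 / 0 = 0`). The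
description of the boundary `Sides2` asks the values of `F` only at edges with joins.

* `ends_lk`, `Q_exM` : `N.Q t ≠ 0` implies that `t` is joined to the three marks (`ExM N t`).
* `til2`, `dis2` (**T1**), `tri_sub2`, `energy2` (**T2**, `≤ 12`), `energy_rep2` (`≤ 4`).
* `sides2_of` : `Sides2` from the sides of `Sides_697` : every killed edge is on a side, the sides
  are disjoint.
-/

set_option autoImplicit false

noncomputable section

namespace Crest.Agent.R143.Tiling2x395

open Set MeasureTheory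
open scoped Classical
open Crest.Agent.R143.B0x346 Crest.Agent.R143.Oscx63 Crest.Agent.R143.Rswx63
open Crest.Agent.R143.Energyx395 Crest.Agent.R143.Tilingx395 Crest.Agent.R143.Ex0x922
open Crest.Agent.R143.Exx395 Crest.Agent.R143.JCardx872

/-! ### legs and chains -/

section legs

variable {V : Type} {N : Net V}

theorem leads_lk (hg : J1x872.Good N) {O : Set (V × V × V)} {J : Finset (V × V)}
    (hJ : IsJoin N.toTrg N.kl O N.exS J) {t : V × V × V} {p : V × V}
    (hp : ∃ c, (p.2, p.1, c) ∈ N.T ∧ Lk N t (p.2, p.1, c)) (hpJ : (p.2, p.1) ∈ J) {q : V × V}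
    (h : Leads N.toTrg O N.exS J p q) :
    (∃ c, (q.2, q.1, c) ∈ N.T ∧ Lk N t (q.2, q.1, c)) ∧ (q.2, q.1) ∈ J := by
  induction h with
  | refl => exact ⟨hp, hpJ⟩
  | @tail q r _ hs ih =>
    obtain ⟨⟨c, hc, hl⟩, hqJ⟩ := ih
    obtain ⟨c', hc', -, hD, hr⟩ := hs
    have hD' : (q.1, q.2) ∉ N.exS := by
      rintro ⟨k, hk⟩
      apply hg.bd k c
      rw [hk]
      exact hc
    have hlive : (q.2, q.1) ∉ N.kl := fun hk => (hJ.kill _ _ hk hD hD').1 hqJ
    have hl' : Lk N t (q.1, q.2, c') := hl.trans (lk_edge hc hc' hlive)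
    rcases hr with ⟨h1, rfl⟩ | ⟨h1, -, rfl⟩
    · exact ⟨⟨q.1, N.rot hc', hl'.trans (Lk.of_rots (by simp [rots]))⟩, h1⟩
    · exact ⟨⟨q.2, N.rot (N.rot hc'), hl'.trans (Lk.of_rots (by simp [rots]))⟩, h1⟩

theorem ends_lk (hg : J1x872.Good N) {O : Set (V × V × V)} {J : Finset (V × V)}
    (hJ : IsJoin N.toTrg N.kl O N.exS J) {a b c : V} (ht : (a, b, c) ∈ N.T) (hab : (a, b) ∈ J)
    {j : ZMod 3} (h : Ends N.toTrg O N.exS J (b, a) (N.ex j)) :
    ∃ c', ((N.ex j).1, (N.ex j).2, c') ∈ N.T ∧ Lk N (a, b, c) ((N.ex j).1, (N.ex j).2, c') :=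
  (leads_lk hg hJ (t := (a, b, c)) (p := (b, a)) ⟨c, ht, Lk.refl _⟩ hab h).1

/-- a triangle with nonzero amplitude is joined to the marks -/
theorem Q_exM (hg : J1x872.Good N) {t : V × V × V} (ht : t ∈ N.T) (hq : N.Q t ≠ 0) :
    ExM N t := by
  obtain ⟨k, J, hJ, hT⟩ : ∃ k, ∃ J ∈ N.tj t, N.Tri3 t k J := by
    by_contra hc
    push Not at hc
    apply hq
    unfold Net.Q
    apply Finset.sum_eq_zero
    intro k _
    unfold Net.triA
    rw [Finset.filter_eq_empty_iff.mpr fun J hJ => hc k J hJ]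
    simp
  obtain ⟨a, b, c⟩ := t
  have hJ' := mem_joins.1 hJ
  obtain ⟨h1, h2, h3, e1, e2, e3⟩ := hT
  simp only at h1 h2 h3 e1 e2 e3
  have r1 := N.rot ht
  have r2 := N.rot r1
  have l1 := ends_lk hg hJ' ht h1 e1
  have l2 := ends_lk hg hJ' r1 h2 e2
  have l3 := ends_lk hg hJ' r2 h3 e3
  have t2 : Lk N (a, b, c) (b, c, a) := Lk.of_rots (by simp [rots])
  have t3 : Lk N (a, b, c) (c, a, b) := Lk.of_rots (by simp [rots])
  have key : ∀ k j : ZMod 3, j = 0 + k ∨ j = 1 + k ∨ j = 2 + k := by decide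
  refine ⟨ht, fun j => ?_⟩
  rcases key k j with rfl | rfl | rfl
  · exact l1
  · obtain ⟨x, hx, hl⟩ := l2
    exact ⟨x, hx, t2.trans hl⟩
  · obtain ⟨x, hx, hl⟩ := l3
    exact ⟨x, hx, t3.trans hl⟩

end legs

/-! ### edges with joins -/

/-- there are joins at the edge `{a, b}` -/
def Jn (N : Net ℂ) (a b : ℂ) : Prop :=
  (a, b) ∈ N.exS ∨ (b, a) ∈ N.exS ∨ 0 < (N.hj a b).card + (N.hj b a).card

/-- live edge with joins -/
def ML (N : Net ℂ) (a b : ℂ) : Prop := LV N a b ∧ Jn N a b

/-- the description of the boundary (leaf P2), values only at edges with joins -/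
structure Sides2 (N : Net ℂ) (inn : ℂ → Prop) (arc : ℂ → ZMod 3) : Prop where
  /-- inner vertices: complete ring of live edges -/
  ring : ∀ v, inn v → ∃ (d : ℕ) (u : ℤ → ℂ), Ring N.toTrg v d u ∧ (∀ i, (v, u i) ∉ N.kl) ∧
    ∀ x y, (v, x, y) ∈ N.T → ∃ i : ℤ, x = u i ∧ y = u (i + 1)
  /-- an edge which is not live joins two vertices of the same arc -/
  dead : ∀ a b c, (a, b, c) ∈ N.T → ¬ LV N a b → ¬ inn a ∧ ¬ inn b ∧ arc a = arc b
  /-- values on the sides, only where there are joins -/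
  side : ∀ a b, ¬ inn a → LV N a b → ((∃ c, (a, b, c) ∈ N.T) ∨ ∃ c, (b, a, c) ∈ N.T) →
    (a, b) ∉ N.exS → (b, a) ∉ N.exS → 0 < (N.hj a b).card + (N.hj b a).card →
    N.F a b ∈ segment ℝ (omz (arc a)) (omz (arc a + 1))
  m1 : ∀ k, ¬ inn (N.ex k).1 ∧ arc (N.ex k).1 = k - 1
  m2 : ∀ k, ¬ inn (N.ex k).2 ∧ arc (N.ex k).2 = k


theorem Jn.symm {N : Net ℂ} {a b : ℂ} (h : Jn N a b) : Jn N b a := by
  rcases h with h | h | h
  · exact Or.inr (Or.inl h)
  · exact Or.inl h
  · exact Or.inr (Or.inr (by omega))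

theorem ML.symm {N : Net ℂ} {a b : ℂ} (h : ML N a b) : ML N b a := ⟨h.1.symm, h.2.symm⟩

section net

variable {S : Finset ℂ} {N : Net ℂ} {inn : ℂ → Prop} {arc : ℂ → ZMod 3}

theorem not_sw {a b c : ℂ} (hN : HNet S N) (ht : (a, b, c) ∈ N.T) : (b, a) ∉ N.exS := by
  rintro ⟨k, e⟩
  apply (J1x872.good_of_hnet hN).bd k c
  rw [e]
  exact ht

/-- joins with the odd triangle `t` exist if there are joins at a side -/
theorem tj_of_ML (hN : HNet S N) (hM : ∃ t, ExM N t) {a b c : ℂ} (ht : (a, b, c) ∈ N.T)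
    (h : ML N a b) : (N.tj (a, b, c)).Nonempty := by
  have hg := J1x872.good_of_hnet hN
  by_cases hm : (a, b) ∈ N.exS
  · obtain ⟨k, hk⟩ := hm
    obtain ⟨t, hE⟩ := hM
    obtain ⟨x, hx, hl⟩ := hE.lk k
    rw [hk] at hx hl
    have hxc := N.uniq ht hx
    rw [← hxc] at hl
    exact tj_ne hg (hE.of_lk hl)
  · have hm' := not_sw hN ht
    have h1 : 0 < (N.hj a b).card + (N.hj b a).card := by
      rcases h.2 with h | h | h
      · exact absurd h hm
      · exact absurd h hm'
      · exact h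
    have := card_half (G := N.toTrg) (kl := N.kl) (D := N.exS) ht h.1.1
      (fun h' => h.1.1 (N.klsym _ _ h')) hm hm'
    unfold Net.hj at h1
    rw [this] at h1
    exact Finset.card_pos.1 h1

theorem ML_of_tj (hN : HNet S N) {a b c : ℂ} (ht : (a, b, c) ∈ N.T)
    (hne : (N.tj (a, b, c)).Nonempty) (h : LV N a b) : ML N a b := by
  refine ⟨h, ?_⟩
  by_cases hm : (a, b) ∈ N.exS
  · exact Or.inl hm
  · have hm' := not_sw hN ht
    have := card_half (G := N.toTrg) (kl := N.kl) (D := N.exS) ht h.1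
      (fun h' => h.1 (N.klsym _ _ h')) hm hm'
    right; right
    unfold Net.hj
    rw [this]
    exact Finset.card_pos.2 hne

theorem tj_rot' {a b c : ℂ} (h : (N.tj (a, b, c)).Nonempty) : (N.tj (b, c, a)).Nonempty := by
  rw [J1x872.tj_rot]; exact h

theorem tj_rot_iff {a b c : ℂ} : (N.tj (a, b, c)).Nonempty ↔ (N.tj (b, c, a)).Nonempty :=
  ⟨tj_rot', fun h => tj_rot' (tj_rot' h)⟩

/-- nonzero amplitude: three live sides with joins -/
theorem live_of_Q (hN : HNet S N) {t : ℂ × ℂ × ℂ} (ht : t ∈ N.T) (hq : N.Q t ≠ 0) :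
    LiveT (ML N) t := by
  have hl : LiveT (LV N) t := by
    by_contra h
    exact hq (Q_zero' hN ht h)
  have hne := tj_ne (J1x872.good_of_hnet hN) (Q_exM (J1x872.good_of_hnet hN) ht hq)
  obtain ⟨a, b, c⟩ := t
  exact ⟨ML_of_tj hN ht hne hl.1, ML_of_tj hN (N.rot ht) (tj_rot' hne) hl.2.1,
    ML_of_tj hN (N.rot (N.rot ht)) (tj_rot' (tj_rot' hne)) hl.2.2⟩

theorem relAt_tj (hN : HNet S N) {t : ℂ × ℂ × ℂ} (ht : t ∈ N.T) (hne : (N.tj t).Nonempty) :
    RelAt N t := Rel2x63.relAt hN (by rw [← hN.tri]; exact ht) (Or.inl hne)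

/-- the inner vertices with joins -/
def inn2 (N : Net ℂ) (inn : ℂ → Prop) (v : ℂ) : Prop := inn v ∧ ∃ x, ML N v x

theorem ring_ML (hN : HNet S N) (hM : ∃ t, ExM N t) {v : ℂ} {d : ℕ} {u : ℤ → ℂ}
    (hR : Ring N.toTrg v d u) (hk : ∀ i, (v, u i) ∉ N.kl)
    (hc : ∀ x y, (v, x, y) ∈ N.T → ∃ i : ℤ, x = u i ∧ y = u (i + 1)) (hx : ∃ x, ML N v x)
    (i : ℤ) : ML N v (u i) := by
  have hLV : ∀ i, LV N v (u i) := by
    intro i
    refine ⟨hk i, Or.inl ⟨⟨_, hR.mem i⟩, ?_⟩⟩
    have h1 := hR.mem (i - 1)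
    rw [sub_add_cancel] at h1
    exact ⟨_, N.rot (N.rot h1)⟩
  obtain ⟨x, hx⟩ := hx
  obtain ⟨j, rfl⟩ : ∃ j : ℤ, x = u j := by
    rcases hx.1.2 with ⟨⟨c, hc1⟩, -⟩ | ⟨k, hk⟩ | ⟨k, hk⟩
    · obtain ⟨i, h1, -⟩ := hc _ _ hc1
      exact ⟨i, h1⟩
    · obtain ⟨c, hc1⟩ := (hN.hex k).1
      rw [hk, ← hN.tri] at hc1
      obtain ⟨i, h1, -⟩ := hc _ _ hc1
      exact ⟨i, h1⟩
    · obtain ⟨c, hc1⟩ := (hN.hex k).1
      rw [hk, ← hN.tri] at hc1
      obtain ⟨i, -, h1⟩ := hc _ _ (N.rot hc1)
      exact ⟨i + 1, h1⟩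
  have step : ∀ n : ℕ, ML N v (u (j + n)) := by
    intro n
    induction n with
    | zero => simpa using hx
    | succ n ih =>
      have h1 := tj_of_ML hN hM (hR.mem (j + n)) ih
      have h2 := ML_of_tj hN (N.rot (N.rot (hR.mem (j + n)))) (tj_rot' (tj_rot' h1))
        (hLV (j + n + 1)).symm
      have h3 := h2.symm
      rw [show j + ((n + 1 : ℕ) : ℤ) = j + n + 1 by push_cast; ring]
      exact h3
  have hper : ∀ m : ℕ, u (i + m * d) = u i := by
    intro m
    induction m with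
    | zero => simp
    | succ m ih =>
      rw [show i + ((m + 1 : ℕ) : ℤ) * d = (i + m * d) + d by push_cast; ring, hR.per, ih]
  have hd : (1 : ℤ) ≤ d := by exact_mod_cast hR.pos
  have hm : j ≤ i + ((j - i).toNat : ℤ) * d := by
    have h1 : j - i ≤ ((j - i).toNat : ℤ) := Int.self_le_toNat _
    have h2 : (0 : ℤ) ≤ ((j - i).toNat : ℤ) := by positivity
    nlinarith
  have h4 := step (i + ((j - i).toNat : ℤ) * d - j).toNat
  rw [Int.toNat_of_nonneg (by linarith), add_sub_cancel, hper] at h4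
  exact h4

theorem til2 (hN : HNet S N) (hE : E3) (hB : Sides2 N inn arc) (hM : ∃ t, ExM N t) :
    Til N.toTrg (ML N) N.F N.Q N.ex (inn2 N inn) arc where
  lvs a b h := h.symm
  Fs := F_comm N
  tri3 a b c ht h1 h2 h3 :=
    (relAt_tj hN ht (tj_of_ML hN hM ht h1)).j1 h1.1.1 h2.1.1 h3.1.1
  tri2 a b c ht h1 h2 h3 := by
    have hne : (N.tj (a, b, c)).Nonempty := tj_rot_iff.2 (tj_of_ML hN hM (N.rot ht) h2)
    have hR := relAt_tj hN ht hne
    have hnl : ¬ LV N a b := fun h => h1 (ML_of_tj hN ht hne h)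
    by_cases hk : (a, b) ∈ N.kl
    · exact hR.j2 a b c (by simp [rots]) hk h2.1.1 h3.1.1
    · obtain ⟨h, -, e2, e3⟩ := hR.j1 hk h2.1.1 h3.1.1
      simp only at e2 e3
      rw [e2, e3, Q_zero hN ht hnl]
      ring
  inner v hv := by
    obtain ⟨d, u, hr, hl, hc⟩ := hB.ring v hv.1
    refine ⟨d, u, hr, ring_ML hN hM hr hl hc hv.2, hc, ?_⟩
    obtain ⟨al, h1, h2, h3⟩ := hE S N hN v d u hr hl
    exact ⟨al, fun i => (h1 i).1, h2, h3⟩
  dead a b c ht h h' := by
    have hne : (N.tj (a, b, c)).Nonempty := by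
      rcases h' with h' | h'
      · exact tj_rot_iff.2 (tj_of_ML hN hM (N.rot ht) h')
      · exact tj_rot' (tj_of_ML hN hM (N.rot (N.rot ht)) h')
    have hnl : ¬ LV N a b := fun h1 => h (ML_of_tj hN ht hne h1)
    obtain ⟨h1, h2, h3⟩ := hB.dead a b c ht hnl
    exact ⟨fun h => h1 h.1, fun h => h2 h.1, h3⟩
  side a b hi hl he := by
    have hi' : ¬ inn a := fun h => hi ⟨h, b, hl⟩
    have key : ∀ k : ZMod 3, k = k - 1 + 1 := fun k => by ring
    rcases hl.2 with ⟨k, hk⟩ | ⟨k, hk⟩ | hj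
    · have h1 := F_ex hN k
      have h2 := (hB.m1 k).2
      rw [hk] at h1 h2
      simp only at h1 h2
      rw [h1, h2, sub_add_cancel]
      exact right_mem_segment ℝ _ _
    · have h1 := F_ex hN k
      have h2 := (hB.m2 k).2
      rw [hk] at h1 h2
      simp only at h1 h2
      rw [F_comm N a b, h1, h2]
      exact left_mem_segment ℝ _ _
    · by_cases m1 : (a, b) ∈ N.exS
      · obtain ⟨k, hk⟩ := m1
        have h1 := F_ex hN k
        have h2 := (hB.m1 k).2
        rw [hk] at h1 h2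
        simp only at h1 h2
        rw [h1, h2, sub_add_cancel]
        exact right_mem_segment ℝ _ _
      · by_cases m2 : (b, a) ∈ N.exS
        · obtain ⟨k, hk⟩ := m2
          have h1 := F_ex hN k
          have h2 := (hB.m2 k).2
          rw [hk] at h1 h2
          simp only at h1 h2
          rw [F_comm N a b, h1, h2]
          exact left_mem_segment ℝ _ _
        · exact hB.side a b hi' hl.1 he m1 m2 hj
  hull a b c _ h2 h3 := by
    rcases h3.1.2 with ⟨-, x, hx⟩ | ⟨k, hk⟩ | ⟨k, hk⟩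
    · exact absurd hx (h2 x)
    · exact ⟨k, hk⟩
    · exfalso
      obtain ⟨x, hx⟩ := (hN.hex k).1
      rw [hk, ← hN.tri] at hx
      exact h2 x hx
  exI := ex_inj hN
  exT k := by
    obtain ⟨x, hx⟩ := (hN.hex k).1
    rw [← hN.tri] at hx
    exact ⟨x, hx⟩
  exH := ex_hull hN
  exl k := ⟨⟨hN.live k, Or.inr (Or.inl ⟨k, rfl⟩)⟩, Or.inl ⟨k, rfl⟩⟩
  ex1 k := ⟨fun h => (hB.m1 k).1 h.1, (hB.m1 k).2⟩
  ex2 k := ⟨fun h => (hB.m2 k).1 h.1, (hB.m2 k).2⟩
  exF := F_ex hN

theorem live_LV {t : ℂ × ℂ × ℂ} (h : LiveT (ML N) t) : LiveT (LV N) t :=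
  ⟨h.1.1, h.2.1.1, h.2.2.1⟩

/-- **T1** with pockets -/
theorem dis2 (hN : HNet S N) (hE : E3) (hB : Sides2 N inn arc) {U : Finset (ℂ × ℂ × ℂ)}
    (hU : U ⊆ delT S) (hrep : ∀ s ∈ U, ∀ t ∈ U, s ≠ t → t ∉ rots s) : Dis U (hcen N) N.Q := by
  intro s hs t ht hst
  have hs' : s ∈ N.T := by rw [hN.tri]; exact hU hs
  have ht' : t ∈ N.T := by rw [hN.tri]; exact hU ht
  rw [Set.disjoint_left]
  intro w hw hw'
  by_cases q1 : N.Q s = 0
  · rw [q1, tri_zero, interior_singleton] at hw
    exact hw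
  by_cases q2 : N.Q t = 0
  · rw [q2, tri_zero, interior_singleton] at hw'
    exact hw'
  have hg := J1x872.good_of_hnet hN
  have e1 := Q_exM hg hs' q1
  have e2 := Q_exM hg ht' q2
  have H := til2 hN hE hB ⟨s, e1⟩
  have l1 := live_of_Q hN hs' q1
  have l2 := live_of_Q hN ht' q2
  exact H.disj_ins hs' ht' l1 l2 (hrep s hs t ht hst) w
    ⟨ins_of_int (relAt_tj hN hs' (tj_ne hg e1)) (live_LV l1) hw,
      ins_of_int (relAt_tj hN ht' (tj_ne hg e2)) (live_LV l2) hw'⟩


/-- **T2** with pockets: total energy (every triangle may be counted three times) -/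
theorem energy2 (hN : HNet S N) (hE : E3) (hB : Sides2 N inn arc) {U : Finset (ℂ × ℂ × ℂ)}
    (hU : U ⊆ delT S) : ∑ t ∈ U, ‖N.Q t‖ ^ 2 ≤ 12 := by
  by_cases hM : ∃ t, ExM N t
  · apply (til2 hN hE hB hM).energy_le U
    · intro t ht
      rw [hN.tri]
      exact hU ht
    · intro t ht
      by_cases h : N.Q t = 0
      · exact Or.inr h
      · exact Or.inl (live_of_Q hN (by rw [hN.tri]; exact hU ht) h)
  · have h0 : ∀ t ∈ U, ‖N.Q t‖ ^ 2 = 0 := by
      intro t ht
      have : N.Q t = 0 := by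
        by_contra h
        exact hM ⟨t, Q_exM (J1x872.good_of_hnet hN) (by rw [hN.tri]; exact hU ht) h⟩
      rw [this]; simp
    rw [Finset.sum_eq_zero h0]
    norm_num


end net

/-! ### the sides of `Sides_697` -/

section sides

open Crest.Agent.R143.Sidesx697 Crest.Agent.R143.DelRx806

variable {S : Finset ℂ} {N : Net ℂ}

theorem wall_hull (hN : HNet S N) {a b : ℂ} (h : hullE S a b) (hm : (a, b) ∉ N.exS) :
    Wall N a b := by
  refine ⟨mem_E_of_hull hN h, hm, ?_, Or.inr (Or.inl fun c hc => ?_)⟩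
  · rintro ⟨k, hk⟩
    have h5 := hN.hex k
    rw [hk] at h5
    exact hullE_asymm h h5
  · rw [hN.tri] at hc
    exact h.2 c hc

/-- every hull vertex is on a side -/
theorem hull_on_side (hN : HNet S N) {a b : ℂ} (h : hullE S a b) : ∃ i, Side N i a := by
  obtain ⟨n, w, H⟩ := hull_cycle hN.gp (card3 hN)
  obtain ⟨i0, -, -, a0, b0⟩ := H.all _ _ (hN.hex 0)
  have step : ∀ m : ℕ, ∃ i, Side N i (w (i0 + 1 + m)) := by
    intro m
    induction m with
    | zero =>
      refine ⟨0, ?_⟩
      simp only [Nat.cast_zero, add_zero, b0]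
      exact Relation.ReflTransGen.refl
    | succ m ih =>
      obtain ⟨i, hi⟩ := ih
      have hE := H.edge (i0 + 1 + m)
      rw [show i0 + 1 + ((m + 1 : ℕ) : ℤ) = i0 + 1 + m + 1 by push_cast; ring]
      by_cases hm : (w (i0 + 1 + m), w (i0 + 1 + m + 1)) ∈ N.exS
      · obtain ⟨k, hk⟩ := hm
        refine ⟨k, ?_⟩
        have : w (i0 + 1 + m + 1) = (N.ex k).2 := by rw [hk]
        rw [this]
        exact Relation.ReflTransGen.refl
      · exact ⟨i, hi.tail (wall_hull hN hE hm)⟩
  obtain ⟨j, -, -, rfl, -⟩ := H.all _ _ h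
  have hn : (1 : ℤ) ≤ n := by exact_mod_cast H.pos
  have hq : i0 + 1 ≤ j + n * ((i0 + 1 - j).toNat : ℤ) := by
    have h1 : i0 + 1 - j ≤ ((i0 + 1 - j).toNat : ℤ) := Int.self_le_toNat _
    have h2 : (0 : ℤ) ≤ ((i0 + 1 - j).toNat : ℤ) := by positivity
    nlinarith
  obtain ⟨i, hi⟩ := step (j + n * ((i0 + 1 - j).toNat : ℤ) - (i0 + 1)).toNat
  rw [Int.toNat_of_nonneg (by linarith), add_sub_cancel, hull_per H] at hi
  exact ⟨i, hi⟩

/-- vertices which are not on a side -/
def innS (S : Finset ℂ) (N : Net ℂ) (v : ℂ) : Prop := v ∈ S ∧ ∀ i, ¬ Side N i v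

/-- the side of a vertex -/
def arcS (N : Net ℂ) (v : ℂ) : ZMod 3 := if h : ∃ i, Side N i v then h.choose else 0

/-- **the description of the boundary** from: the sides are disjoint, every killed edge is on a
side -/
theorem sides2_of (hN : HNet S N) (hU : ∀ v i j, Side N i v → Side N j v → i = j)
    (hK : ∀ a b c, (a, b, c) ∈ N.T → (a, b) ∈ N.kl → ∃ i, Side N i a) :
    Sides2 N (innS S N) (arcS N) := by
  have harc : ∀ v i, Side N i v → arcS N v = i := by
    intro v i hi
    have h : ∃ i, Side N i v := ⟨i, hi⟩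
    unfold arcS
    rw [dif_pos h]
    exact hU v _ _ h.choose_spec hi
  have hout : ∀ v i, Side N i v → ¬ innS S N v := fun v i hi h => h.2 i hi
  have hmem : ∀ a b c, (a, b, c) ∈ N.T → a ∈ S ∧ b ∈ S ∧ c ∈ S := by
    intro a b c h
    rw [hN.tri] at h
    have := DelGx806.mem_delT.1 h
    exact ⟨this.1, this.2.1, this.2.2.1⟩
  constructor
  · rintro v ⟨hv, hs⟩
    have hh : ∀ a, ¬ hullE S a v := by
      intro a ha
      obtain ⟨c, hc⟩ := (hull_in_iff_out hN.gp v).1 ⟨a, ha⟩
      obtain ⟨i, hi⟩ := hull_on_side hN hc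
      exact hs i hi
    obtain ⟨u0, hu0⟩ := exists_tri_at hN.gp (card3 hN) hv
    obtain ⟨d, u, hR, -, hc⟩ := ring_exists hN.gp hu0 hh hN.tri
    refine ⟨d, u, hR, fun i hk => ?_, fun x y hxy => ?_⟩
    · obtain ⟨j, hj⟩ := hK _ _ _ (hR.mem i) hk
      exact hs j hj
    · rw [hN.tri] at hxy
      obtain ⟨i, h1, h2⟩ := hc x y hxy
      exact ⟨i, h1.symm, h2.symm⟩
  · intro a b c ht hl
    have hw : Wall N a b ∧ ∃ i, Side N i a := by
      by_cases hk : (a, b) ∈ N.kl
      · refine ⟨⟨(mem_E_of_tri ht).1, ?_, not_sw hN ht, Or.inl hk⟩, hK a b c ht hk⟩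
        rintro ⟨k, e⟩
        exact hN.live k (e ▸ hk)
      · unfold LV at hl
        push Not at hl
        obtain ⟨h1, h2, -⟩ := hl hk
        have h3 : hullE S a b := by
          refine ⟨⟨c, by rw [← hN.tri]; exact ht⟩, fun x => ?_⟩
          rw [← hN.tri]
          exact h1 ⟨c, ht⟩ x
        exact ⟨wall_hull hN h3 h2, hull_on_side hN h3⟩
    obtain ⟨hw, i, hi⟩ := hw
    have hi' : Side N i b := Relation.ReflTransGen.tail hi hw
    exact ⟨hout a i hi, hout b i hi', (harc a i hi).trans (harc b i hi').symm⟩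
  · intro a b hi _ he m1 m2 hj
    have haS : a ∈ S := by
      rcases he with ⟨c, h⟩ | ⟨c, h⟩
      · exact (hmem _ _ _ h).1
      · exact (hmem _ _ _ h).2.1
    obtain ⟨i, hi⟩ : ∃ i, Side N i a := by
      by_contra hc
      push Not at hc
      exact hi ⟨haS, hc⟩
    have hne : (N.hj a b).Nonempty ∨ (N.hj b a).Nonempty := by
      rcases Nat.eq_zero_or_pos (N.hj a b).card with h | h
      · right; exact Finset.card_pos.1 (by omega)
      · left; exact Finset.card_pos.1 h
    obtain ⟨p0, p1, hF⟩ := F_side hN m1 m2 (Or.inl hi) hne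
    rw [harc a i hi, hF]
    refine ⟨1 - Net.pe N a b (i + 1), Net.pe N a b (i + 1), by linarith, p0, by ring, ?_⟩
    simp only [Complex.real_smul]
  · intro k
    have h := (marks3_of hN).next (k - 1)
    rw [sub_add_cancel] at h
    exact ⟨hout _ _ h, harc _ _ h⟩
  · intro k
    have h : Side N k (N.ex k).2 := Relation.ReflTransGen.refl
    exact ⟨hout _ _ h, harc _ _ h⟩

end sides

end Crest.Agent.R143.Tiling2x395
end
end

-- ▼ part R143/ClsC_697

/-!
# Row 143 (S0194), block D: the classes of a configuration are the sides of its network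
(helper697)

`C : Cfg n`, `O : C.Out S` (output of D2), `N = C.dom.netS S`.

* `mk` : the tentacle of the mark `i`
* `cls_side` : class `-2` -> side `1`, class `-1` -> side `2`, other classes -> side `0`
* `side_cls` : the converse
* `cls_of_out` : `Cls C.dom S`
* `side_unique`, `kill_side`, `sides2` : the description of the boundary for T1, T2
-/

set_option autoImplicit false

noncomputable section

open scoped Classical

namespace Crest.Agent.R143.ClsCx697

open Set
open Crest.Agent.R143.B0x346 Crest.Agent.R143.B0Dx346 Crest.Agent.R143.Cfgx416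
open Crest.Agent.R143.Sidesx697

variable {n : ℕ} {C : Cfg n} {S : Finset ℂ}

theorem z3c (i : ZMod 3) : i = 0 ∨ i = 1 ∨ i = 2 := by revert i; decide

/-- the tentacle of the mark `i` -/
def mk (n : ℕ) (i : ZMod 3) : ZMod n := if i = 1 then -2 else if i = 2 then -1 else 0

theorem mk0 : mk n 0 = 0 := by unfold mk; rw [if_neg (by decide), if_neg (by decide)]
theorem mk1 : mk n 1 = -2 := by unfold mk; rw [if_pos rfl]
theorem mk2 : mk n 2 = -1 := by unfold mk; rw [if_neg (by decide), if_pos rfl]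

theorem ex_ray (O : C.Out S) (i : ZMod 3) : (C.dom.netS S).ex i = C.ray S (mk n i) := by
  rw [DomAx722.netS_ex O.gp]
  unfold Cfg.ray Cfg.dom mk
  simp only
  split_ifs <;> rfl

theorem ray_inj (O : C.Out S) {k k' : ZMod n} (h : C.ray S k = C.ray S k') : k = k' := by
  by_contra hne
  refine Set.disjoint_left.1 (O.disj k k' hne) (O.end2 k) ?_
  rw [h]
  exact O.end2 k'

theorem ray_hull (O : C.Out S) (k : ZMod n) : hullE S (C.ray S k).1 (C.ray S k).2 := (O.ray k).1

theorem not_swap (O : C.Out S) {k k' : ZMod n} : C.ray S k ≠ ((C.ray S k').2, (C.ray S k').1) := by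
  intro h
  have h1 := ray_hull O k
  rw [h] at h1
  exact hullE_asymm h1 (ray_hull O k')

theorem E_of_adj (O : C.Out S) {a b : ℂ} (h : Adj S a b) : (a, b) ∈ (C.dom.netS S).E := by
  unfold Trg.E
  rw [Finset.mem_union, Finset.mem_image, Finset.mem_image]
  obtain ⟨c, hc | hc⟩ := h
  · exact Or.inl ⟨(a, b, c), by rw [O.hnet.tri]; exact hc, rfl⟩
  · exact Or.inr ⟨(b, a, c), by rw [O.hnet.tri]; exact hc, rfl⟩

theorem E_adj (O : C.Out S) {a b : ℂ} (h : (a, b) ∈ (C.dom.netS S).E) : Adj S a b := by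
  unfold Trg.E at h
  rw [Finset.mem_union, Finset.mem_image, Finset.mem_image] at h
  rcases h with ⟨⟨x, y, z⟩, h1, h2⟩ | ⟨⟨x, y, z⟩, h1, h2⟩
  · rw [O.hnet.tri] at h1
    rw [Prod.mk.injEq] at h2
    obtain ⟨rfl, rfl⟩ := h2
    exact ⟨z, Or.inl h1⟩
  · rw [O.hnet.tri] at h1
    rw [Prod.mk.injEq] at h2
    obtain ⟨rfl, rfl⟩ := h2
    exact ⟨z, Or.inr h1⟩

theorem adj_hull {a b : ℂ} (h : hullE S a b ∨ hullE S b a) : Adj S a b := by
  rcases h with ⟨⟨c, hc⟩, -⟩ | ⟨⟨c, hc⟩, -⟩
  · exact ⟨c, Or.inl hc⟩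
  · exact ⟨c, Or.inr hc⟩

/-- a ray edge is not killed -/
theorem ray_live (O : C.Out S) (k : ZMod n) {a b : ℂ} (h : C.ray S k = (a, b) ∨ C.ray S k = (b, a)) :
    (a, b) ∉ C.dom.kl S := by
  rintro ⟨y, hy, hyo⟩
  rw [Cfg.dom_out] at hyo
  rcases h with h | h
  · have h1 := O.miss1 k
    rw [h] at h1
    exact Set.disjoint_left.1 h1 (DomBx722.vedge_sub_left _ _ _ hy) hyo
  · have h1 := O.miss1 k
    rw [h] at h1
    exact Set.disjoint_left.1 h1 (DomBx722.vedge_sub_right _ _ _ hy) hyo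

theorem kl_iff (O : C.Out S) {a b : ℂ} : (a, b) ∈ (C.dom.netS S).kl ↔ (a, b) ∈ C.dom.kl S := by
  rw [DomAx722.netS_kl O.gp]
  constructor
  · exact fun h => h.1
  · intro h
    have hex : ∀ i, rayMark S C.dom.c (C.dom.q i) = C.ray S (mk n i) := fun i => by
      rw [← ex_ray O i, DomAx722.netS_ex O.gp]
    refine ⟨h, fun i hi => ?_, fun i hi => ?_⟩
    · rw [hex] at hi
      exact ray_live O _ (Or.inl hi) h
    · rw [hex] at hi
      exact ray_live O _ (Or.inr hi) h

theorem mem_exS (O : C.Out S) {p : ℂ × ℂ} : p ∈ (C.dom.netS S).exS ↔ ∃ i, C.ray S (mk n i) = p := by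
  unfold Net.exS
  rw [Set.mem_range]
  simp only [ex_ray O]

/-- a dead edge is a wall -/
theorem wall_of (O : C.Out S) {a b : ℂ} (h : (Adj S a b ∧ (a, b) ∈ C.dom.kl S) ∨
    ((hullE S a b ∨ hullE S b a) ∧ ∀ i : ZMod 3, C.ray S (mk n i) ≠ (a, b) ∧
      C.ray S (mk n i) ≠ (b, a))) :
    Wall (C.dom.netS S) a b := by
  rcases h with ⟨h1, h2⟩ | ⟨h1, h2⟩
  · refine ⟨E_of_adj O h1, fun h => ?_, fun h => ?_, Or.inl ((kl_iff O).2 h2)⟩
    · obtain ⟨i, hi⟩ := (mem_exS O).1 h
      exact ray_live O _ (Or.inl hi) h2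
    · obtain ⟨i, hi⟩ := (mem_exS O).1 h
      exact ray_live O _ (Or.inr hi) h2
  · refine ⟨E_of_adj O (adj_hull h1), fun h => ?_, fun h => ?_, Or.inr ?_⟩
    · obtain ⟨i, hi⟩ := (mem_exS O).1 h
      exact (h2 i).1 hi
    · obtain ⟨i, hi⟩ := (mem_exS O).1 h
      exact (h2 i).2 hi
    · rw [O.hnet.tri]
      rcases h1 with h1 | h1
      · exact Or.inl h1.2
      · exact Or.inr h1.2

/-- walls join the sites of a class -/
theorem cls_conn (O : C.Out S) {j : ZMod n} {v w : ℂ} (hv : v ∈ C.cls S j) (hw : w ∈ C.cls S j) :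
    Relation.ReflTransGen (Wall (C.dom.netS S)) v w := by
  have key := O.con j v hv w hw
  induction key with
  | refl => exact Relation.ReflTransGen.refl
  | tail _ hs ih =>
    obtain ⟨h1, h2, h⟩ := hs
    refine (ih h1).tail (wall_of O ?_)
    rcases h with h | ⟨h3, h4⟩
    · exact Or.inl h
    · exact Or.inr ⟨h3, fun i => h4 _⟩

/-- the arc of the class `j` -/
def arcOf (n : ℕ) (j : ZMod n) : ZMod 3 := if j = -2 then 1 else if j = -1 then 2 else 0

theorem cast_ne {n m : ℕ} (h0 : 0 < m) (h : m < n) : (m : ZMod n) ≠ 0 := by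
  rw [Ne, ZMod.natCast_eq_zero_iff]
  exact fun hd => absurd (Nat.le_of_dvd h0 hd) (by omega)

theorem neg2_ne (hn : 3 ≤ n) : (-2 : ZMod n) ≠ -1 ∧ (0 : ZMod n) ≠ -2 ∧ (0 : ZMod n) ≠ -1 := by
  have h1 := cast_ne (n := n) (m := 1) (by norm_num) (by omega)
  have h2 := cast_ne (n := n) (m := 2) (by norm_num) (by omega)
  push_cast at h1 h2
  refine ⟨fun h => h1 ?_, fun h => h2 ?_, fun h => h1 ?_⟩
  · linear_combination -h
  · linear_combination h
  · linear_combination h

theorem arcOf_mk (hn : 3 ≤ n) (i : ZMod 3) : arcOf n (mk n i) = i := by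
  obtain ⟨h1, h2, h3⟩ := neg2_ne hn
  have hi := z3c i
  rcases hi with rfl | rfl | rfl
  · rw [mk0]; unfold arcOf; rw [if_neg h2, if_neg h3]
  · rw [mk1]; unfold arcOf; rw [if_pos rfl]
  · rw [mk2]; unfold arcOf; rw [if_neg h1.symm, if_pos rfl]

theorem side_mk (O : C.Out S) (i : ZMod 3) {v : ℂ} (hv : v ∈ C.cls S (mk n i)) :
    Side (C.dom.netS S) i v := by
  unfold Side
  rw [ex_ray O]
  exact cls_conn O (O.end2 _) hv

/-- the classes `0, 1, ..., n - 3` are on the side `0` -/
theorem side_zero (O : C.Out S) : ∀ m : ℕ, m + 3 ≤ n → ∀ v ∈ C.cls S (m : ZMod n),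
    Side (C.dom.netS S) 0 v := by
  intro m
  induction m with
  | zero =>
    intro _ v hv
    apply side_mk O
    rw [mk0]
    simpa using hv
  | succ m ih =>
    intro hm v hv
    have h1 := O.end1 ((m + 1 : ℕ) : ZMod n)
    have e : (((m + 1 : ℕ) : ZMod n) - 1) = (m : ZMod n) := by push_cast; ring
    rw [e] at h1
    have h2 := ih (by omega) _ h1
    have h3 : Wall (C.dom.netS S) (C.ray S ((m + 1 : ℕ) : ZMod n)).1
        (C.ray S ((m + 1 : ℕ) : ZMod n)).2 := by
      refine wall_of O (Or.inr ⟨Or.inl (ray_hull O _), fun i => ⟨fun h => ?_, fun h => ?_⟩⟩)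
      · have h4 := ray_inj O h
        have hi := z3c i
        rcases hi with rfl | rfl | rfl
        · rw [mk0] at h4
          exact cast_ne (n := n) (m := m + 1) (by omega) (by omega) h4.symm
        · rw [mk1] at h4
          refine cast_ne (n := n) (m := m + 3) (by omega) (by omega) ?_
          push_cast at h4 ⊢
          linear_combination -h4
        · rw [mk2] at h4
          refine cast_ne (n := n) (m := m + 2) (by omega) (by omega) ?_
          push_cast at h4 ⊢
          linear_combination -h4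
      · exact not_swap O h
    exact (h2.tail h3).trans (cls_conn O (O.end2 _) hv)

theorem cast_val (hn : 3 ≤ n) (j : ZMod n) (h2 : j ≠ -2) (h1 : j ≠ -1) :
    ∃ m : ℕ, m + 3 ≤ n ∧ j = (m : ZMod n) := by
  have : NeZero n := ⟨by omega⟩
  refine ⟨j.val, ?_, (ZMod.natCast_zmod_val j).symm⟩
  have hlt := ZMod.val_lt j
  by_contra hcon
  have hn0 : ((n : ℕ) : ZMod n) = 0 := ZMod.natCast_self n
  have hv := ZMod.natCast_zmod_val j
  rcases (by omega : j.val + 1 = n ∨ j.val + 2 = n) with h | h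
  · apply h1
    rw [← h] at hn0
    push_cast at hn0
    rw [h] at hn0
    rw [hv] at hn0
    linear_combination hn0
  · apply h2
    rw [← h] at hn0
    push_cast at hn0
    rw [h] at hn0
    rw [hv] at hn0
    linear_combination hn0

/-- **the classes are on the sides** -/
theorem cls_side (hn : 3 ≤ n) (O : C.Out S) {j : ZMod n} {v : ℂ} (hv : v ∈ C.cls S j) :
    Side (C.dom.netS S) (arcOf n j) v := by
  unfold arcOf
  by_cases h2 : j = -2
  · rw [if_pos h2]
    apply side_mk O
    rw [mk1, ← h2]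
    exact hv
  · rw [if_neg h2]
    by_cases h1 : j = -1
    · rw [if_pos h1]
      apply side_mk O
      rw [mk2, ← h1]
      exact hv
    · rw [if_neg h1]
      obtain ⟨m, hm, rfl⟩ := cast_val hn j h2 h1
      exact side_zero O m hm v hv

/-- **the sites of a side are in the classes of this side** -/
theorem side_cls (hn : 3 ≤ n) (O : C.Out S) {i : ZMod 3} {v : ℂ}
    (h : Side (C.dom.netS S) i v) : ∃ j, v ∈ C.cls S j ∧ arcOf n j = i := by
  have hdis : ∀ {j j' : ZMod n} {x : ℂ}, x ∈ C.cls S j → x ∈ C.cls S j' → j = j' := by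
    intro j j' x h1 h2
    by_contra hne
    exact Set.disjoint_left.1 (O.disj j j' hne) h1 h2
  have hray : ∀ k : ZMod n, (∀ i, C.ray S (mk n i) ≠ C.ray S k) →
      arcOf n (k - 1) = 0 ∧ arcOf n k = 0 := by
    intro k hk
    have k0 : k ≠ 0 := fun e => hk 0 (by rw [mk0, e])
    have k1 : k ≠ -2 := fun e => hk 1 (by rw [mk1, e])
    have k2 : k ≠ -1 := fun e => hk 2 (by rw [mk2, e])
    unfold arcOf
    constructor
    · rw [if_neg, if_neg]
      · intro e; exact k0 (by linear_combination e)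
      · intro e; exact k2 (by linear_combination e)
    · rw [if_neg k1, if_neg k2]
  induction h with
  | refl =>
    refine ⟨mk n i, ?_, arcOf_mk hn i⟩
    rw [ex_ray O]
    exact O.end2 _
  | @tail u v _ hw ih =>
    obtain ⟨j, hj, hji⟩ := ih
    obtain ⟨hE, m1, m2, h⟩ := hw
    have same : (∃ i, u ∈ C.cls S i ∧ v ∈ C.cls S i) → ∃ j, v ∈ C.cls S j ∧ arcOf n j = i := by
      rintro ⟨j', h1, h2⟩
      have := hdis hj h1
      subst this
      exact ⟨j, h2, hji⟩
    have hadj := E_adj O hE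
    rw [mem_exS O] at m1 m2
    push Not at m1 m2
    rcases h with h | h | h
    · exact same (O.kill _ _ hadj ((kl_iff O).1 h))
    · have hh : hullE S u v := by
        rw [O.hnet.tri] at h
        obtain ⟨c, hc | hc⟩ := hadj
        · exact ⟨⟨c, hc⟩, h⟩
        · exact absurd hc (h c)
      rcases O.hull _ _ hh with ⟨k, hk⟩ | h
      · obtain ⟨a1, a2⟩ := hray k (fun i => by rw [hk]; exact m1 i)
        have e1 := O.end1 k
        have e2 := O.end2 k
        rw [hk] at e1 e2
        have := hdis hj e1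
        rw [← hji, this, a1]
        exact ⟨k, e2, a2⟩
      · exact same h
    · have hh : hullE S v u := by
        rw [O.hnet.tri] at h
        obtain ⟨c, hc | hc⟩ := hadj
        · exact absurd hc (h c)
        · exact ⟨⟨c, hc⟩, h⟩
      rcases O.hull _ _ hh with ⟨k, hk⟩ | ⟨j', h1, h2⟩
      · obtain ⟨a1, a2⟩ := hray k (fun i => by rw [hk]; exact m2 i)
        have e1 := O.end1 k
        have e2 := O.end2 k
        rw [hk] at e1 e2
        have := hdis hj e2
        rw [← hji, this, a2]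
        exact ⟨k - 1, e1, a1⟩
      · exact same ⟨j', h2, h1⟩

/-- **the sides are disjoint** -/
theorem side_unique (hn : 3 ≤ n) (O : C.Out S) (v : ℂ) (i j : ZMod 3)
    (h : Side (C.dom.netS S) i v) (h' : Side (C.dom.netS S) j v) : i = j := by
  obtain ⟨k, h1, rfl⟩ := side_cls hn O h
  obtain ⟨k', h2, rfl⟩ := side_cls hn O h'
  by_contra hne
  refine Set.disjoint_left.1 (O.disj k k' fun e => hne (by rw [e])) h1 h2

theorem kill_side (hn : 3 ≤ n) (O : C.Out S) (a b c : ℂ) (ht : (a, b, c) ∈ (C.dom.netS S).T)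
    (hk : (a, b) ∈ (C.dom.netS S).kl) : ∃ i, Side (C.dom.netS S) i a := by
  rw [O.hnet.tri] at ht
  obtain ⟨j, h1, -⟩ := O.kill a b ⟨c, Or.inl ht⟩ ((kl_iff O).1 hk)
  exact ⟨_, cls_side hn O h1⟩

/-- **the description of the boundary** (T1, T2) -/
theorem sides2 (hn : 3 ≤ n) (O : C.Out S) : Tiling2x395.Sides2 (C.dom.netS S)
    (Tiling2x395.innS S (C.dom.netS S)) (Tiling2x395.arcS (C.dom.netS S)) :=
  Tiling2x395.sides2_of O.hnet (side_unique hn O) (kill_side hn O)

/-- the regions of the domain -/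
theorem dom_R {i : ZMod 3} {z : ℂ} (h : z ∈ C.dom.R i) (hn : 3 ≤ n) :
    ∃ j : ZMod n, z ∈ C.R j ∧ arcOf n j = i := by
  have hi := z3c i
  obtain ⟨n1, n2, n3⟩ := neg2_ne hn
  unfold Cfg.dom at h
  simp only at h
  rcases hi with rfl | rfl | rfl
  · rw [if_neg (by decide), if_neg (by decide)] at h
    simp only [mem_iUnion, Set.mem_ofPred_eq] at h
    obtain ⟨j, ⟨h2, h1⟩, hj⟩ := h
    refine ⟨j, hj, ?_⟩
    unfold arcOf
    rw [if_neg h2, if_neg h1]
  · rw [if_pos rfl] at h
    refine ⟨-2, h, ?_⟩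
    unfold arcOf
    rw [if_pos rfl]
  · rw [if_neg (by decide), if_pos rfl] at h
    refine ⟨-1, h, ?_⟩
    unfold arcOf
    rw [if_neg n1.symm, if_pos rfl]

/-- **sites whose cell meets the region `i` are on the side `i`** -/
theorem cls_of_out (hn : 3 ≤ n) (O : C.Out S) : T6Dx697.Cls C.dom S := by
  rintro i v hv ⟨y, hy, hyR⟩
  obtain ⟨j, hj, rfl⟩ := dom_R hyR hn
  exact cls_side hn O (Or.inl ⟨hv, y, hy, hj⟩)

end Crest.Agent.R143.ClsCx697
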