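import Crest.Agent.R143.Rel2_63
import Crest.Agent.R143.Sides_697
import Crest.Agent.R143.J4_872

-- ▼ part R143/Bsum_848
section

/-!
# Row 143 (S0194): the total `∑ r_t Q_t` is a boundary sum (helper848, note 3080)

* `rr z t = z b + om z c + om² z a` for `t = (a, b, c)`; `TT N z = ∑ t ∈ N.T, rr z t * N.Q t`
  (every triangle is counted three times, with its rotations; the product does not depend on the
  rotation)
* `vertex_form` : `(1 - om) * TT N z = 3 * ∑ v, z v * MM N v`
* `MM_free'` : `MM N v = 0` if no side at `v` is killed or on the boundary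
* `tri_side` : three legs from a triangle with a vertex on the side `i` : only one rotation
* `TT_eq` : **`TT N z = 3 * ∑ i, om ^ i * ∑ v on the side i, z v * mu N i v`**, `mu N i v ≥ 0`
-/

set_option autoImplicit false

noncomputable section

open scoped Classical

namespace Crest.Agent.R143.Bsumx848

open Crest.Agent.R143.B0x346 Crest.Agent.R143.Oscx63 Crest.Agent.R143.Sidesx697
open Crest.Agent.R143.J1x872 (cases_z3 Good omz_add_one om_cube)

variable {V : Type} {N : Net V} {z : V → ℂ}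

/-- the field `b + om c + om² a` of the triangle `(a, b, c)` -/
def rr (z : V → ℂ) (t : V × V × V) : ℂ := z t.2.1 + om * z t.2.2 + om ^ 2 * z t.1

/-- the total (three times the sum over the triangles) -/
def TT (N : Net V) (z : V → ℂ) : ℂ := ∑ t ∈ N.T, rr z t * N.Q t

/-- the two sides of `(a, b, c)` at `a` are live -/
def LL (N : Net V) (t : V × V × V) : Prop := (t.1, t.2.1) ∉ N.kl ∧ (t.2.2, t.1) ∉ N.kl

/-- the weight of the vertex `v` -/
def MM (N : Net V) (v : V) : ℂ :=
  ∑ t ∈ N.T.filter (fun t => t.1 = v ∧ LL N t), (N.F v t.2.2 - N.F v t.2.1)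

theorem om_sum : 1 + om + om ^ 2 = 0 := by
  have h1 := om_cube
  have h2 : om ≠ 1 := by
    intro h
    have := norm_one_sub_om
    rw [h, sub_self, norm_zero] at this
    have h3 : (0 : ℝ) < Real.sqrt 3 := Real.sqrt_pos.2 (by norm_num)
    linarith
  have h3 : (om - 1) * (1 + om + om ^ 2) = 0 := by linear_combination h1
  rcases mul_eq_zero.1 h3 with h | h
  · exact absurd (sub_eq_zero.1 h) h2
  · exact h

/-- rotation -/
def rot3 (t : V × V × V) : V × V × V := (t.2.1, t.2.2, t.1)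

theorem rot3_mem {t : V × V × V} (h : t ∈ N.T) : rot3 t ∈ N.T := N.rot h

theorem sum_rot3 {A : Type} [AddCommMonoid A] (f : V × V × V → A) :
    ∑ t ∈ N.T, f (rot3 t) = ∑ t ∈ N.T, f t := by
  refine Finset.sum_nbij' rot3 (fun t => rot3 (rot3 t)) (fun t ht => rot3_mem ht)
    (fun t ht => rot3_mem (rot3_mem ht)) ?_ ?_ ?_
  · intro t _; rfl
  · intro t _; rfl
  · intro t _; rfl

/-- term of one corner -/
def gg (N : Net V) (z : V → ℂ) (t : V × V × V) : ℂ :=
  if LL N t then z t.1 * (N.F t.1 t.2.2 - N.F t.1 t.2.1) else 0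

theorem tri_form {t : V × V × V} (hR : RelAt N t)
    (hQ : ∀ a b c : V, (a, b, c) ∈ rots t → (a, b) ∈ N.kl → N.Q (a, b, c) = 0) :
    (1 - om) * (rr z t * N.Q t) = gg N z t + gg N z (rot3 t) + gg N z (rot3 (rot3 t)) := by
  obtain ⟨a, b, c⟩ := t
  have q1 : N.Q (b, c, a) = om * N.Q (a, b, c) := Q_rot N a b c
  have q2 : N.Q (c, a, b) = om ^ 2 * N.Q (a, b, c) := by rw [Q_rot, q1]; ring
  have om0 : om ≠ 0 := by
    intro h; have := om_cube; rw [h] at this; norm_num at this
  have hQ1 : (a, b) ∈ N.kl → N.Q (a, b, c) = 0 := hQ a b c (by simp [rots])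
  have hQ2 : (b, c) ∈ N.kl → N.Q (a, b, c) = 0 := fun h => by
    have := hQ b c a (by simp [rots]) h
    rw [q1] at this
    exact (mul_eq_zero.1 this).resolve_left om0
  have hQ3 : (c, a) ∈ N.kl → N.Q (a, b, c) = 0 := fun h => by
    have := hQ c a b (by simp [rots]) h
    rw [q2] at this
    exact (mul_eq_zero.1 this).resolve_left (pow_ne_zero _ om0)
  unfold gg rr rot3 LL
  simp only
  by_cases h1 : (a, b) ∈ N.kl
  · rw [hQ1 h1]
    by_cases h2 : (b, c) ∈ N.kl
    · simp [h1, h2]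
    · by_cases h3 : (c, a) ∈ N.kl
      · simp [h1, h3]
      · have e := hR.j2 a b c (by simp [rots]) h1 h2 h3
        simp only [h1, h2, h3, not_true_eq_false, not_false_eq_true, false_and, and_false,
          and_self, if_false, if_true]
        rw [F_comm N c b, e, F_comm N c a]
        ring
  · by_cases h2 : (b, c) ∈ N.kl
    · rw [hQ2 h2]
      by_cases h3 : (c, a) ∈ N.kl
      · simp [h2, h3]
      · have e := hR.j2 b c a (by simp [rots]) h2 h3 h1
        simp only [h1, h2, h3, not_true_eq_false, not_false_eq_true, false_and, and_false,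
          and_self, if_false, if_true]
        rw [F_comm N a c, e]
        ring
    · by_cases h3 : (c, a) ∈ N.kl
      · rw [hQ3 h3]
        have e := hR.j2 c a b (by simp [rots]) h3 h1 h2
        simp only [h1, h2, h3, not_true_eq_false, not_false_eq_true, false_and, and_false,
          and_self, if_false, if_true]
        rw [F_comm N b a, e]
        ring
      · obtain ⟨h, e1, e2, e3⟩ := hR.j1 h1 h2 h3
        simp only at e1 e2 e3
        simp only [h1, h2, h3, not_false_eq_true, and_self, if_true]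
        rw [F_comm N a c, F_comm N b a, F_comm N c b, e1, e2, e3]
        have o := om_cube
        linear_combination (z b * N.Q (a, b, c) * 0) * o +
          (-(N.Q (a, b, c)) * z a) * o

/-- **vertex form** -/
theorem vertex_form (hR : ∀ t ∈ N.T, RelAt N t)
    (hQ : ∀ a b c : V, (a, b, c) ∈ N.T → (a, b) ∈ N.kl → N.Q (a, b, c) = 0) :
    (1 - om) * TT N z = 3 * ∑ v ∈ N.T.image (fun t => t.1), z v * MM N v := by
  have hrots : ∀ {t : V × V × V}, t ∈ N.T → ∀ a b c : V, (a, b, c) ∈ rots t → (a, b, c) ∈ N.T := by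
    rintro ⟨x, y, w⟩ ht a b c h
    simp only [rots, Set.mem_insert_iff, Set.mem_singleton_iff, Prod.mk.injEq] at h
    rcases h with ⟨rfl, rfl, rfl⟩ | ⟨rfl, rfl, rfl⟩ | ⟨rfl, rfl, rfl⟩
    · exact ht
    · exact N.rot ht
    · exact N.rot (N.rot ht)
  have h1 : (1 - om) * TT N z = 3 * ∑ t ∈ N.T, gg N z t := by
    unfold TT
    rw [Finset.mul_sum, Finset.sum_congr rfl fun t ht => tri_form (z := z) (hR t ht)
      (fun a b c h => hQ a b c (hrots ht a b c h)), Finset.sum_add_distrib,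
      Finset.sum_add_distrib, sum_rot3 (gg N z), sum_rot3 (fun t => gg N z (rot3 t)),
      sum_rot3 (gg N z)]
    ring
  rw [h1]
  congr 1
  rw [← Finset.sum_fiberwise_of_maps_to (s := N.T) (t := N.T.image (fun t => t.1))
    (g := fun t => t.1) (fun t ht => Finset.mem_image_of_mem _ ht)]
  refine Finset.sum_congr rfl fun v _ => ?_
  unfold MM gg
  rw [Finset.mul_sum, Finset.sum_filter, Finset.sum_filter]
  refine Finset.sum_congr rfl fun t _ => ?_
  by_cases h : t.1 = v
  · subst h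
    by_cases h2 : LL N t
    · simp [h2]
    · simp [h2]
  · simp [h]

/-- **free vertices have weight zero** -/
theorem MM_free' {v : V} (hb : ∀ u c : V, (u, v, c) ∈ N.T ∨ (v, u, c) ∈ N.T → (v, u) ∉ N.kl)
    (hl : ∀ u c : V, (u, v, c) ∈ N.T → ∃ c', (v, u, c') ∈ N.T)
    (hr : ∀ u c : V, (v, u, c) ∈ N.T → ∃ c', (u, v, c') ∈ N.T) : MM N v = 0 := by
  have hk : ∀ u c : V, (u, v, c) ∈ N.T ∨ (v, u, c) ∈ N.T → (u, v) ∉ N.kl :=
    fun u c h1 h => hb u c h1 (N.klsym _ _ h)
  unfold MM
  have e : N.T.filter (fun t => t.1 = v ∧ LL N t) = N.T.filter (fun t => t.1 = v) := by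
    refine Finset.filter_congr fun t ht => ?_
    unfold LL
    constructor
    · exact fun h => h.1
    · rintro rfl
      exact ⟨rfl, hb _ _ (Or.inr ht), hk _ _ (Or.inl (N.rot (N.rot ht)))⟩
  rw [e, Finset.sum_sub_distrib, sub_eq_zero]
  -- both sides are the sum over the neighbours
  choose! nx hnx using hr
  choose! pv hpv using hl
  refine Finset.sum_nbij' (fun t => (v, t.2.2, (if h : ∃ c', (v, t.2.2, c') ∈ N.T then h.choose else v)))
    (fun t => (v, (if h : ∃ c', (t.2.1, v, c') ∈ N.T then h.choose else v), t.2.1)) ?_ ?_ ?_ ?_ ?_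
  · rintro ⟨a, b, c⟩ ht
    rw [Finset.mem_filter] at ht
    obtain ⟨ht, rfl⟩ := ht
    simp only at ht ⊢
    have h1 : ∃ c', (a, c, c') ∈ N.T := ⟨_, hpv c b (N.rot (N.rot ht))⟩
    rw [Finset.mem_filter, dif_pos h1]
    exact ⟨h1.choose_spec, rfl⟩
  · rintro ⟨a, b, c⟩ ht
    rw [Finset.mem_filter] at ht
    obtain ⟨ht, rfl⟩ := ht
    simp only at ht ⊢
    have h1 : ∃ c', (b, a, c') ∈ N.T := ⟨_, hnx b c ht⟩
    rw [Finset.mem_filter, dif_pos h1]
    exact ⟨N.rot h1.choose_spec, rfl⟩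
  · rintro ⟨a, b, c⟩ ht
    rw [Finset.mem_filter] at ht
    obtain ⟨ht, rfl⟩ := ht
    simp only at ht ⊢
    have h1 : ∃ c', (c, a, c') ∈ N.T := ⟨b, N.rot (N.rot ht)⟩
    rw [dif_pos h1, N.uniq h1.choose_spec (N.rot (N.rot ht))]
  · rintro ⟨a, b, c⟩ ht
    rw [Finset.mem_filter] at ht
    obtain ⟨ht, rfl⟩ := ht
    simp only at ht ⊢
    have h1 : ∃ c', (a, b, c') ∈ N.T := ⟨c, ht⟩
    rw [dif_pos h1, N.uniq h1.choose_spec ht]
  · rintro ⟨a, b, c⟩ ht
    obtain ⟨ht, rfl⟩ := Finset.mem_filter.1 ht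
    rfl

/-! ### three legs from a triangle with a vertex on a side -/

section side

theorem z3a : ∀ k m : ZMod 3, m = k ∨ m = k + 1 ∨ m = k + 1 + 1 := by decide

theorem z3b : ∀ m : ZMod 3, m + 1 ≠ m ∧ m + 2 ≠ m := by decide

theorem z3c : ∀ i j : ZMod 3, i ≠ j → j = i + 1 ∨ i = j + 1 := by decide

theorem z3d : ∀ i k : ZMod 3, k ≠ i + 2 → k + 2 ≠ i + 2 → k = i + 1 := by decide

open Crest.Agent.R143.JCardx872 Crest.Agent.R143.J1x872

variable {G : Trg V} {kl : Set (V × V)} {D : Set (V × V)} {a b c : V} {J : Finset (V × V)}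

/-- a join with the odd triangle `(a, b, c)` whose side `(a, b)` is a mark, without this mark -/
theorem erase_mark (ht : (a, b, c) ∈ G.T) (hm : (a, b) ∈ D)
    (hJ : IsJoin G kl (rots (a, b, c)) D J) : IsJoin G kl ∅ (D \ {(a, b)}) (J.erase (a, b)) := by
  have hab : a ≠ b := G.ne ht
  have hmk := hJ.mark a b hm
  have hD : ∀ {x y : V}, (x, y) ∉ D \ {(a, b)} → (x, y) ≠ (a, b) → (x, y) ∉ D := by
    intro x y h1 h2 h3
    exact h1 ⟨h3, h2⟩
  refine ⟨?_, ?_, ?_, ?_, ?_, ?_⟩
  · exact (Finset.erase_subset _ _).trans hJ.sub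
  · intro x y h1 h2
    rw [Finset.mem_erase, Finset.mem_erase]
    by_cases e1 : (x, y) = (a, b)
    · rw [Prod.mk.injEq] at e1
      obtain ⟨rfl, rfl⟩ := e1
      simp [hmk.2]
    · by_cases e2 : (y, x) = (a, b)
      · rw [Prod.mk.injEq] at e2
        obtain ⟨rfl, rfl⟩ := e2
        simp [hmk.2]
      · have := hJ.sym x y (hD h1 e1) (hD h2 e2)
        tauto
  · rintro x y ⟨h1, h2⟩
    have h3 := hJ.mark x y h1
    exact ⟨Finset.mem_erase.2 ⟨h2, h3.1⟩, fun h => h3.2 (Finset.mem_erase.1 h).2⟩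
  · intro x y h1 h2
    rw [Finset.mem_erase, Finset.mem_erase]
    by_cases e1 : (x, y) = (a, b)
    · rw [Prod.mk.injEq] at e1
      obtain ⟨rfl, rfl⟩ := e1
      exact ⟨by simp, fun h => hmk.2 h.2⟩
    · have := hJ.bdr x y h1 (hD h2 e1)
      exact ⟨fun h => this.1 h.2, fun h => this.2 h.2⟩
  · intro x y h1 h2 h3
    rw [Finset.mem_erase, Finset.mem_erase]
    by_cases e1 : (x, y) = (a, b)
    · rw [Prod.mk.injEq] at e1
      obtain ⟨rfl, rfl⟩ := e1
      exact ⟨by simp, fun h => hmk.2 h.2⟩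
    · by_cases e2 : (y, x) = (a, b)
      · rw [Prod.mk.injEq] at e2
        obtain ⟨rfl, rfl⟩ := e2
        exact ⟨fun h => hmk.2 h.2, by simp⟩
      · have := hJ.kill x y h1 (hD h2 e1) (hD h3 e2)
        exact ⟨fun h => this.1 h.2, fun h => this.2 h.2⟩
  · intro x y z h
    have hp := hJ.par x y z h
    rw [if_neg (Set.notMem_empty _)]
    obtain ⟨n1, n2, n3⟩ := sides_ne h
    by_cases hs : (x, y, z) ∈ rots (a, b, c)
    · rw [if_pos hs] at hp
      rcases side_of_mem_rots hs with e | e | e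
      · have e2 : (y, z) ≠ (a, b) := by rw [← e]; exact n1.symm
        have e3 : (z, x) ≠ (a, b) := by rw [← e]; exact n3.symm
        simp only [Finset.mem_erase, ne_eq, e2, e3, not_false_eq_true, true_and]
        simp only [e, hmk.1, not_true_eq_false, false_and, if_true, if_false] at hp ⊢
        omega
      · have e2 : (x, y) ≠ (a, b) := by rw [← e]; exact n1
        have e3 : (z, x) ≠ (a, b) := by rw [← e]; exact n2.symm
        simp only [Finset.mem_erase, ne_eq, e2, e3, not_false_eq_true, true_and]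
        simp only [e, hmk.1, not_true_eq_false, false_and, if_true, if_false] at hp ⊢
        omega
      · have e2 : (x, y) ≠ (a, b) := by rw [← e]; exact n3
        have e3 : (y, z) ≠ (a, b) := by rw [← e]; exact n2
        simp only [Finset.mem_erase, ne_eq, e2, e3, not_false_eq_true, true_and]
        simp only [e, hmk.1, not_true_eq_false, false_and, if_true, if_false] at hp ⊢
        omega
    · rw [if_neg hs] at hp
      have e1 : (x, y) ≠ (a, b) := fun e => hs (mem_rots_of_side ht h (Or.inl e))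
      have e2 : (y, z) ≠ (a, b) := fun e => hs (mem_rots_of_side ht h (Or.inr (Or.inl e)))
      have e3 : (z, x) ≠ (a, b) := fun e => hs (mem_rots_of_side ht h (Or.inr (Or.inr e)))
      simp only [Finset.mem_erase, ne_eq, e1, e2, e3, not_false_eq_true, true_and]
      exact hp

/-- three legs: the leg of the middle of the side `0`, walking away from `t` -/
theorem out_leg (hg : Good N) (ht : (a, b, c) ∈ N.T) (hP : P1 N (a, b, c))
    (hJ : J ∈ N.tj (a, b, c)) {k : ZMod 3} (hT : N.Tri3 (a, b, c) k J) (hm : (a, b) ∉ N.exS) :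
    IsJoin N.toTrg N.kl ∅ (N.exS ∪ {(b, a)}) (J.erase (a, b)) ∧
      Leads N.toTrg ∅ (N.exS ∪ {(b, a)}) (J.erase (a, b)) (b, a) (rev (N.ex k)) := by
  have hJ' := tj_join hJ
  have hm' : (b, a) ∉ N.exS := by
    have := sw_sd_notMark hg ht 0
    rw [sd0] at this
    exact this
  refine ⟨erase_isJoin' ht hm hm' hJ' hT.1, ?_⟩
  have h1 := (right_half hg ht hJ' hP (by rw [sd0]; exact hT.1) (by rw [sd0]; exact hm) k).1
    (Or.inl hT)
  rw [sd0] at h1
  exact h1

/-- if the side `0` is a mark then it is the mark `k` -/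
theorem out_mark (hg : Good N) {k : ZMod 3} (hT : N.Tri3 (a, b, c) k J) (hm : (a, b) ∈ N.exS) :
    N.ex k = (a, b) := by
  obtain ⟨k', hk'⟩ := hm
  have h1 : Ends N.toTrg (rots (a, b, c)) N.exS J (b, a) (N.ex (0 + k)) := hT.2.2.2.1
  rw [zero_add] at h1
  have h2 : Ends N.toTrg (rots (a, b, c)) N.exS J (b, a) (N.ex k') := by
    unfold Ends
    rw [hk']
    exact Relation.ReflTransGen.refl
  have := J1x872.ends_unique hg (le_refl _) h1 h2
  rw [this, hk']

theorem pair_join0 (hg : Good N) (ht : (a, b, c) ∈ N.T) (hP : P1 N (a, b, c))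
    (hJ : J ∈ N.tj (a, b, c)) {k : ZMod 3} (hT : N.Tri3 (a, b, c) k J) :
    ∃ J', IsJoin N.toTrg N.kl ∅ (N.exS \ {N.ex k}) J' := by
  by_cases hm : (a, b) ∈ N.exS
  · rw [out_mark hg hT hm]
    exact ⟨_, erase_mark ht hm (tj_join hJ)⟩
  · obtain ⟨h1, h2⟩ := out_leg hg ht hP hJ hT hm
    have h3 := leg_removed h1 (Or.inr rfl) (Or.inl ⟨k, rfl⟩) h2
    have hm' : (b, a) ∉ N.exS := by
      have := sw_sd_notMark hg ht 0
      rw [sd0] at this
      exact this
    have e : (N.exS ∪ {(b, a)}) \ {(b, a), N.ex k} = N.exS \ {N.ex k} := by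
      ext p
      simp only [Set.mem_sdiff, Set.mem_union, Set.mem_singleton_iff, Set.mem_insert_iff, not_or]
      constructor
      · rintro ⟨h4 | h4, h5, h6⟩
        · exact ⟨h4, h6⟩
        · exact absurd h4 h5
      · rintro ⟨h4, h5⟩
        exact ⟨Or.inl h4, fun h6 => hm' (h6 ▸ h4), h5⟩
    rw [e] at h3
    exact ⟨_, h3⟩

theorem pair_join (hg : Good N) (ht : (a, b, c) ∈ N.T) (hP : P1 N (a, b, c))
    (hJ : J ∈ N.tj (a, b, c)) {k : ZMod 3} (hT : N.Tri3 (a, b, c) k J) (m : ZMod 3) :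
    ∃ J', IsJoin N.toTrg N.kl ∅ (N.exS \ {N.ex m}) J' := by
  have h1 : ∃ J', IsJoin N.toTrg N.kl ∅ (N.exS \ {N.ex k}) J' := pair_join0 hg ht hP hJ hT
  have h2 : ∃ J', IsJoin N.toTrg N.kl ∅ (N.exS \ {N.ex (k + 1)}) J' :=
    pair_join0 hg (N.rot ht) (p1_rot _ _ _ hP) (by rw [J1x872.tj_rot]; exact hJ)
      ((tri3_rot a b c k J).2 hT)
  have h3 : ∃ J', IsJoin N.toTrg N.kl ∅ (N.exS \ {N.ex (k + 1 + 1)}) J' :=
    pair_join0 hg (N.rot (N.rot ht)) (p1_rot _ _ _ (p1_rot _ _ _ hP))
      (by rw [J1x872.tj_rot, J1x872.tj_rot]; exact hJ) ((tri3_rot b c a (k + 1) J).2 ((tri3_rot a b c k J).2 hT))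
  have : m = k ∨ m = k + 1 ∨ m = k + 1 + 1 := z3a k m
  rcases this with rfl | rfl | rfl
  · exact h1
  · exact h2
  · exact h3

/-- **the sides are disjoint** as soon as the pairs of marks can be joined -/
theorem side_disj (hM : Marks3 N) (hC : HasCol N)
    (h : ∀ m : ZMod 3, ∃ J', IsJoin N.toTrg N.kl ∅ (N.exS \ {N.ex m}) J') {i j : ZMod 3} {v : V}
    (hi : Side N i v) (hj : Side N j v) : i = j := by
  -- the side `m + 1` has not the colour of the sides `m` and `m + 2`
  have key : ∀ m : ZMod 3, Side N (m + 1) v → (Side N m v ∨ Side N (m + 2) v) → False := by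
    intro m h1 h2
    obtain ⟨J', hJ'⟩ := h m
    have hD' : N.exS \ {N.ex m} ⊆ N.exS := Set.sdiff_subset
    obtain ⟨σ, hσ⟩ := hC _ hD' _ hJ'
    have s1 : ∀ j, σ (N.ex (j + 1)).1 = σ (N.ex j).2 := fun j => col_side hJ' hD' hσ (hM.next j)
    have s2 : ∀ j, j ≠ m → σ (N.ex j).1 ≠ σ (N.ex j).2 := by
      intro j hj
      have h3 : ((N.ex j).1, (N.ex j).2) ∈ N.exS \ {N.ex m} :=
        ⟨⟨j, rfl⟩, fun h4 => hM.ne j m hj h4⟩
      have h4 := (hJ'.mark _ _ h3).1
      exact (hσ _ _ (hJ'.sub h4)).2 (Or.inl h4)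
    have c1 : σ v = σ (N.ex (m + 1)).2 := col_side hJ' hD' hσ h1
    have d1 := s2 (m + 1) (z3b m).1
    rw [s1 m] at d1
    have d2 := s2 (m + 2) (z3b m).2
    have e2 : σ (N.ex (m + 2)).1 = σ (N.ex (m + 1)).2 := by
      have := s1 (m + 1)
      have e3 : m + 1 + 1 = m + 2 := by ring
      rwa [e3] at this
    rw [e2] at d2
    rcases h2 with h2 | h2
    · have c2 : σ v = σ (N.ex m).2 := col_side hJ' hD' hσ h2
      exact d1 (by rw [← c2, c1])
    · have c2 : σ v = σ (N.ex (m + 2)).2 := col_side hJ' hD' hσ h2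
      exact d2 (by rw [← c1, c2])
  by_contra hij
  have h3 : j = i + 1 ∨ i = j + 1 := z3c i j hij
  rcases h3 with rfl | rfl
  · exact key i hj (Or.inl hi)
  · exact key j hi (Or.inl hj)

/-- **three legs from a triangle with a vertex on the side `i`: only the rotation `i + 1`** -/
theorem tri_side (hg : Good N) (hM : Marks3 N) (hC : HasCol N) (ht : (a, b, c) ∈ N.T)
    (hP : P1 N (a, b, c)) (hJ : J ∈ N.tj (a, b, c)) {i k : ZMod 3} (hi : Side N i a)
    (hT : N.Tri3 (a, b, c) k J) : k = i + 1 := by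
  have hdis : ∀ {i j : ZMod 3} {v : V}, Side N i v → Side N j v → i = j := fun h1 h2 =>
    side_disj hM hC (pair_join hg ht hP hJ hT) h1 h2
  -- the side `(a, b)`
  have k1 : k ≠ i + 2 := by
    by_cases hm : (a, b) ∈ N.exS
    · have h1 := out_mark hg hT hm
      have h2 : Side N (k - 1) a := by
        have := hM.next (k - 1)
        rw [sub_add_cancel, h1] at this
        exact this
      have h3 := hdis hi h2
      rw [h3]
      generalize k = x
      revert x; decide
    · obtain ⟨h1, h2⟩ := out_leg hg ht hP hJ hT hm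
      have hm' : (b, a) ∉ N.exS := by
        have := sw_sd_notMark hg ht 0
        rw [sd0] at this
        exact this
      exact end_side hM hC hm' h1 (Or.inr hi) h2
  -- the side `(c, a)`
  have k2 : k + 2 ≠ i + 2 := by
    have ht2 := N.rot (N.rot ht)
    have hP2 := p1_rot _ _ _ (p1_rot _ _ _ hP)
    have hJ2 : J ∈ N.tj (c, a, b) := by rw [J1x872.tj_rot, J1x872.tj_rot]; exact hJ
    have hT2 : N.Tri3 (c, a, b) (k + 1 + 1) J :=
      (tri3_rot b c a (k + 1) J).2 ((tri3_rot a b c k J).2 hT)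
    have e : k + 2 = k + 1 + 1 := by ring
    rw [e]
    by_cases hm : (c, a) ∈ N.exS
    · have h1 := out_mark hg hT2 hm
      have h2 : Side N (k + 1 + 1) a := by
        have : Side N (k + 1 + 1) (N.ex (k + 1 + 1)).2 := Relation.ReflTransGen.refl
        rw [h1] at this
        exact this
      have h3 := hdis hi h2
      rw [h3]
      generalize k = x
      revert x; decide
    · obtain ⟨h1, h2⟩ := out_leg hg ht2 hP2 hJ2 hT2 hm
      have hm' : (a, c) ∉ N.exS := by
        have := sw_sd_notMark hg ht2 0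
        rw [sd0] at this
        exact this
      exact end_side hM hC hm' h1 (Or.inl hi) h2
  exact z3d i k k1 k2

/-- the amplitude of a triangle with a vertex on the side `i` -/
theorem Q_side (hg : Good N) (hM : Marks3 N) (hC : HasCol N) (ht : (a, b, c) ∈ N.T)
    (hP : P1 N (a, b, c)) {i : ZMod 3} (hi : Side N i a) :
    N.Q (a, b, c) = (N.triA (a, b, c) (i + 1) : ℂ) * omz (i + 1) := by
  unfold Net.Q
  refine Finset.sum_eq_single (i + 1) ?_ (fun h => absurd (Finset.mem_univ _) h)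
  intro k _ hk
  have : N.triA (a, b, c) k = 0 := by
    unfold Net.triA
    rw [Finset.filter_false_of_mem]
    · simp
    · intro J hJ hT
      exact hk (tri_side hg hM hC ht hP hJ hi hT)
  rw [this]
  simp

/-- a triangle with a vertex on the side `j` has no other amplitude than `j + 1` -/
theorem triA_side (hg : Good N) (hM : Marks3 N) (hC : HasCol N) (ht : (a, b, c) ∈ N.T)
    (hP : P1 N (a, b, c)) {i k : ZMod 3} (hi : Side N i a) (hk : k ≠ i + 1) :
    N.triA (a, b, c) k = 0 := by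
  unfold Net.triA
  rw [Finset.filter_false_of_mem]
  · simp
  · intro J hJ hT
    exact hk (tri_side hg hM hC ht hP hJ hi hT)

/-- the weight of the vertex `v` on the side `i` -/
def mu (N : Net V) (i : ZMod 3) (v : V) : ℝ :=
  ∑ t ∈ N.T.filter (fun t => t.1 = v), N.triA t (i + 1)



theorem omz_two (i : ZMod 3) : om ^ 2 * omz (i + 1) = omz i := by
  rw [J1x872.omz_add_one, ← mul_assoc, ← pow_succ, om_cube, one_mul]

/-- one corner of a triangle with the vertex `a` on the side `i` -/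
theorem corner (hg : Good N) (hM : Marks3 N) (hC : HasCol N) (ht : (a, b, c) ∈ N.T)
    (hP : P1 N (a, b, c)) (hR : RelAt N (a, b, c)) {i : ZMod 3} (hi : Side N i a)
    (hL : LL N (a, b, c)) :
    N.F a c - N.F a b = (1 - om) * (omz i * (N.triA (a, b, c) (i + 1) : ℂ)) := by
  have hQ := Q_side hg hM hC ht hP hi
  by_cases h2 : (b, c) ∈ N.kl
  · have e := hR.j2 b c a (by simp [rots]) h2 hL.2 hL.1
    have h3 : N.Q (a, b, c) = 0 := by
      have h4 := J1x872.q_killed hg (N.rot ht) h2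
      rw [J1x872.q_rot] at h4
      exact (mul_eq_zero.1 h4).resolve_left (fun h => by
        have := om_cube; rw [h] at this; norm_num at this)
    rw [h3] at hQ
    have h5 : omz (i + 1) ≠ 0 := by
      intro h; have := omz_two i
      unfold omz at h this
      have h6 : om ≠ 0 := fun h => by have := om_cube; rw [h] at this; norm_num at this
      exact pow_ne_zero _ h6 h
    have h6 : (N.triA (a, b, c) (i + 1) : ℂ) = 0 := (mul_eq_zero.1 hQ.symm).resolve_right h5
    rw [F_comm N a c, e, h6]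
    ring
  · obtain ⟨h, e1, e2, e3⟩ := hR.j1 hL.1 h2 hL.2
    simp only at e1 e2 e3
    rw [F_comm N a c, e3, e1, hQ]
    have e4 := omz_two i
    have e5 : omz (i + 1) = om * omz i := J1x872.omz_add_one i
    linear_combination (N.triA (a, b, c) (i + 1) : ℂ) * e4 - (N.triA (a, b, c) (i + 1) : ℂ) * e5

/-- **the weight of a vertex on the side `i`** -/
theorem MM_side (hg : Good N) (hM : Marks3 N) (hC : HasCol N) (hP : ∀ t ∈ N.T, P1 N t)
    (hR : ∀ t ∈ N.T, RelAt N t) {i : ZMod 3} {v : V} (hi : Side N i v) :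
    MM N v = (1 - om) * (omz i * (mu N i v : ℂ)) := by
  unfold MM mu
  push_cast
  rw [Finset.mul_sum, Finset.mul_sum, Finset.sum_filter, Finset.sum_filter]
  refine Finset.sum_congr rfl fun t ht => ?_
  obtain ⟨a, b, c⟩ := t
  by_cases h : a = v
  · subst h
    by_cases hL : LL N (a, b, c)
    · simp only [hL, and_self, if_true]
      exact corner hg hM hC ht (hP _ ht) (hR _ ht) hi hL
    · simp only [hL, and_false, if_false, if_true]
      have h3 : N.Q (a, b, c) = 0 := by
        have hom : om ≠ 0 := fun h => by have := om_cube; rw [h] at this; norm_num at this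
        unfold LL at hL
        simp only [not_and_or, not_not] at hL
        rcases hL with hL | hL
        · exact J1x872.q_killed hg ht hL
        · have h4 := J1x872.q_killed hg (N.rot (N.rot ht)) hL
          rw [J1x872.q_rot, J1x872.q_rot] at h4
          exact (mul_eq_zero.1 ((mul_eq_zero.1 h4).resolve_left hom)).resolve_left hom
      rw [Q_side hg hM hC ht (hP _ ht) hi] at h3
      have h5 : omz (i + 1) ≠ 0 := by
        intro h
        unfold omz at h
        have h6 : om ≠ 0 := fun h => by have := om_cube; rw [h] at this; norm_num at this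
        exact pow_ne_zero _ h6 h
      rw [(mul_eq_zero.1 h3).resolve_right h5]
      simp
  · simp [h]

/-- **end point formula**, general network -/
theorem TT_gen (hg : Good N) (hM : Marks3 N) (hC : HasCol N) (hP : ∀ t ∈ N.T, P1 N t)
    (hR : ∀ t ∈ N.T, RelAt N t) (hF : ∀ v, (∀ i, ¬ Side N i v) → MM N v = 0) (z : V → ℂ) :
    TT N z = 3 * ∑ i : ZMod 3, omz i *
      ∑ v ∈ (N.T.image fun t => t.1).filter (Side N i), z v * (mu N i v : ℂ) := by
  have hQ : ∀ a b c : V, (a, b, c) ∈ N.T → (a, b) ∈ N.kl → N.Q (a, b, c) = 0 :=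
    fun a b c ht hk => J1x872.q_killed hg ht hk
  have h1 := vertex_form (z := z) hR hQ
  have h2 : ∀ v, MM N v = (1 - om) * ∑ i : ZMod 3, (if Side N i v then omz i * (mu N i v : ℂ) else 0) := by
    intro v
    by_cases h : ∃ i, Side N i v
    · obtain ⟨i, hi⟩ := h
      rw [MM_side hg hM hC hP hR hi, Finset.sum_eq_single i, if_pos hi]
      · intro j _ hj
        split_ifs with hjs
        · have : mu N j v = 0 := by
            unfold mu
            refine Finset.sum_eq_zero fun t ht => ?_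
            rw [Finset.mem_filter] at ht
            obtain ⟨a, b, c⟩ := t
            obtain ⟨ht, rfl⟩ := ht
            exact triA_side hg hM hC ht (hP _ ht) hi (fun h => hj (add_right_cancel h))
          rw [this]
          simp
        · rfl
      · exact fun h => absurd (Finset.mem_univ _) h
    · push Not at h
      rw [hF v h, Finset.sum_eq_zero, mul_zero]
      intro i _
      rw [if_neg (h i)]
  have hne : (1 - om : ℂ) ≠ 0 := by
    rw [← norm_pos_iff, norm_one_sub_om]
    exact Real.sqrt_pos.2 (by norm_num)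
  apply mul_left_cancel₀ hne
  rw [h1]
  simp_rw [h2, Finset.mul_sum, Finset.sum_filter]
  rw [Finset.sum_comm]
  refine Finset.sum_congr rfl fun i _ => ?_
  refine Finset.sum_congr rfl fun v _ => ?_
  split_ifs <;> ring

end side

/-! ### networks on Delaunay triangulations -/

section hnet

open Crest.Agent.R143.DelRx806

variable {S : Finset ℂ} {N : Net ℂ} {n : ℕ} {w : ℤ → ℂ}

theorem wall_hull (h : HNet S N) {a b : ℂ} (hE : hullE S a b) (hm : (a, b) ∉ N.exS) :
    Wall N a b := by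
  refine ⟨mem_E_of_hull h hE, hm, ?_, Or.inr (Or.inl fun c hc => ?_)⟩
  · rintro ⟨k, hk⟩
    have h5 := h.hex k
    rw [hk] at h5
    exact hullE_asymm hE h5
  · rw [h.tri] at hc
    exact hE.2 c hc

theorem pos_per {m : ℤ → ℤ} (P : Pos N n w m) (q i : ℤ) : m (i + 3 * q) = m i + n * q := by
  have h5 : ∀ (q : ℕ) (i : ℤ), m (i + 3 * q) = m i + n * q := by
    intro q
    induction q with
    | zero => intro i; simp
    | succ q ihq =>
      intro i
      have e5 : i + 3 * ((q + 1 : ℕ) : ℤ) = (i + 3 * q) + 3 := by push_cast; ring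
      rw [e5, P.per, ihq]
      push_cast
      ring
  rcases le_total 0 q with h7 | h7
  · obtain ⟨q', rfl⟩ := Int.eq_ofNat_of_zero_le h7
    exact h5 q' i
  · obtain ⟨q', hq'⟩ := Int.eq_ofNat_of_zero_le (show 0 ≤ -q by omega)
    have h8 := h5 q' (i + 3 * q)
    have h9 : i + 3 * q + 3 * (q' : ℤ) = i := by rw [← hq']; ring
    rw [h9, ← hq'] at h8
    linarith

/-- between two marks the hull vertices are on the side -/
theorem side_hull (h : HNet S N) (H : HullCyc S n w) {m : ℤ → ℤ} (P : Pos N n w m) (j : ℤ) :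
    ∀ d : ℕ, m j + 1 + d ≤ m (j + 1) → Side N (j : ZMod 3) (w (m j + 1 + d)) := by
  intro d
  induction d with
  | zero =>
    intro _
    simp only [Nat.cast_zero, add_zero]
    unfold Side
    rw [P.ex j]
  | succ d ih =>
    intro hd
    push_cast at hd
    have ih' := ih (by omega)
    set l : ℤ := m j + 1 + d with hl
    have hl' : m j + 1 + ((d + 1 : ℕ) : ℤ) = l + 1 := by push_cast; rw [hl]; ring
    rw [hl']
    refine Relation.ReflTransGen.tail ih' (wall_hull h (H.edge l) ?_)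
    rintro ⟨k, hk⟩
    obtain ⟨k', rfl⟩ := ZMod.intCast_surjective k
    rw [P.ex k'] at hk
    obtain ⟨q, hq⟩ := hull_inj H (congrArg Prod.fst hk)
    have h7 : m (k' + 3 * (-q)) = l := by
      rw [pos_per P, hq]; ring
    have h8 : j < k' + 3 * (-q) := P.mono.lt_iff_lt.1 (by rw [h7]; omega)
    have h9 : k' + 3 * (-q) < j + 1 := P.mono.lt_iff_lt.1 (by rw [h7]; omega)
    omega

/-- every hull vertex is on a side -/
theorem exists_side (h : HNet S N) {a b : ℂ} (hE : hullE S a b) : ∃ i, Side N i a := by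
  obtain ⟨n, w, H⟩ : ∃ n w, HullCyc S n w := hull_cycle h.gp (card3 h)
  obtain ⟨m, P⟩ := exists_pos h H
  obtain ⟨l, h1, h2, h3, -⟩ := hull_window H (m 0 + 1) hE
  have hm3 : m 3 = m 0 + n := by have := P.per 0; simpa using this
  have m01 := P.mono (show (0 : ℤ) < 1 by norm_num)
  have m12 := P.mono (show (1 : ℤ) < 2 by norm_num)
  have m23 := P.mono (show (2 : ℤ) < 3 by norm_num)
  have key : ∀ j : ℤ, m j + 1 ≤ l → l ≤ m (j + 1) → ∃ i, Side N i a := by
    intro j h5 h6
    have h7 := side_hull h H P j (l - (m j + 1)).toNat (by omega)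
    rw [show m j + 1 + ((l - (m j + 1)).toNat : ℤ) = l by omega, h3] at h7
    exact ⟨_, h7⟩
  by_cases c1 : l ≤ m 1
  · exact key 0 (by omega) (by simpa using c1)
  · by_cases c2 : l ≤ m 2
    · exact key 1 (by omega) (by simpa using c2)
    · exact key 2 (by omega) (by norm_num; omega)

theorem hull_succ (h : HNet S N) {a b : ℂ} (hE : hullE S a b) : ∃ c, hullE S b c := by
  obtain ⟨n, w, H⟩ : ∃ n w, HullCyc S n w := hull_cycle h.gp (card3 h)
  obtain ⟨i, -, -, -, h4⟩ := H.all a b hE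
  have := H.edge (i + 1)
  rw [h4] at this
  exact ⟨_, this⟩

/-- **END POINT FORMULA** (note 3080). `hkl` : every killed edge is joined to a side by walls (the
domain is simply connected). `mu N i v ≥ 0` is the probability that the leg of the mark `i + 2` first
touches the side `i` at `v`. -/
theorem TT_eq (h : HNet S N) (hR : ∀ t ∈ N.T, RelAt N t)
    (hkl : ∀ a b : ℂ, (a, b) ∈ N.kl → (a, b) ∈ N.E → ∃ i, Side N i a) (z : ℂ → ℂ) :
    TT N z = 3 * ∑ i : ZMod 3, omz i *
      ∑ v ∈ (N.T.image fun t => t.1).filter (Side N i), z v * (mu N i v : ℂ) := by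
  have hg := J1x872.good_of_hnet h
  have hP : ∀ t ∈ N.T, J1x872.P1 N t := fun t ht =>
    Rel2x63.p1all N S h t (by rw [← h.tri]; exact ht)
  refine TT_gen hg (marks3_of h) (hasCol h) hP hR ?_ z
  intro v hv
  have hE : ∀ {u c : ℂ}, (u, v, c) ∈ N.T → (v, u) ∈ N.E := fun {u c} ht =>
    (JCardx872.mem_E_of_tri ht).2
  have nk : ∀ u c : ℂ, (u, v, c) ∈ N.T ∨ (v, u, c) ∈ N.T → (v, u) ∉ N.kl := by
    intro u c ht hk
    rcases ht with ht | ht
    · obtain ⟨i, hi⟩ := hkl v u hk (JCardx872.mem_E_of_tri ht).2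
      exact hv i hi
    · obtain ⟨i, hi⟩ := hkl v u hk (JCardx872.mem_E_of_tri ht).1
      exact hv i hi
  refine MM_free' nk ?_ ?_
  · intro u c ht
    by_contra h1
    push Not at h1
    rw [h.tri] at ht h1
    obtain ⟨c', hc'⟩ := hull_succ h ⟨⟨c, ht⟩, h1⟩
    obtain ⟨i, hi⟩ := exists_side h hc'
    exact hv i hi
  · intro u c ht
    by_contra h1
    push Not at h1
    rw [h.tri] at ht h1
    obtain ⟨i, hi⟩ := exists_side h ⟨⟨c, ht⟩, h1⟩
    exact hv i hi

end hnet

end Crest.Agent.R143.Bsumx848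
end
end

-- ▼ part R143/Mass_848
section

/-!
# Row 143 (S0194): total mass of the end point measures (helper848)

* `MM_sum` : `∑ v, χ v * MM N v = ∑ k, (χ (ex k).2 - χ (ex k).1) * om ^ k` for `χ` constant along
  the walls
* `mass` : `∑ v on the side i, mu N i v = 1`
-/

set_option autoImplicit false

noncomputable section

open scoped Classical

namespace Crest.Agent.R143.Massx848

open Crest.Agent.R143.B0x346 Crest.Agent.R143.Oscx63 Crest.Agent.R143.Sidesx697
open Crest.Agent.R143.J1x872 (cases_z3 Good om_cube)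
open Crest.Agent.R143.Bsumx848 Crest.Agent.R143.DelRx806

/-- all pairs of marks can be joined -/
def Pairs {V : Type} (N : Net V) : Prop :=
  ∀ m : ZMod 3, ∃ J, IsJoin N.toTrg N.kl ∅ (N.exS \ {N.ex m}) J

section gen

variable {V : Type} {N : Net V} {χ : V → ℂ}

/-- one side -/
def ee (N : Net V) (χ : V → ℂ) (t : V × V × V) : ℂ := (χ t.2.1 - χ t.1) * N.F t.1 t.2.1

theorem wall_symm {u v : V} (h : Wall N u v) : Wall N v u := by
  obtain ⟨h1, h2, h3, h4⟩ := h
  refine ⟨?_, h3, h2, ?_⟩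
  · unfold Trg.E at h1 ⊢
    rw [Finset.mem_union, Finset.mem_image, Finset.mem_image] at h1 ⊢
    rcases h1 with ⟨t, ht, e⟩ | ⟨t, ht, e⟩
    · right
      refine ⟨t, ht, ?_⟩
      rw [Prod.mk.injEq] at e ⊢
      exact ⟨e.2, e.1⟩
    · left
      refine ⟨t, ht, ?_⟩
      rw [Prod.mk.injEq] at e ⊢
      exact ⟨e.2, e.1⟩
  · rcases h4 with h4 | h4 | h4
    · exact Or.inl (N.klsym _ _ h4)
    · exact Or.inr (Or.inr h4)
    · exact Or.inr (Or.inl h4)

theorem tri_ee {t : V × V × V} (hR : RelAt N t)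
    (hχ : ∀ a b c : V, (a, b, c) ∈ rots t → (a, b) ∈ N.kl → χ a = χ b) :
    gg N χ t + gg N χ (rot3 t) + gg N χ (rot3 (rot3 t)) =
      ee N χ t + ee N χ (rot3 t) + ee N χ (rot3 (rot3 t)) := by
  obtain ⟨a, b, c⟩ := t
  have c1 : (a, b) ∈ N.kl → χ a = χ b := hχ a b c (by simp [rots])
  have c2 : (b, c) ∈ N.kl → χ b = χ c := hχ b c a (by simp [rots])
  have c3 : (c, a) ∈ N.kl → χ c = χ a := hχ c a b (by simp [rots])
  unfold gg ee rot3 LL
  simp only
  rw [F_comm N a c, F_comm N b a, F_comm N c b]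
  by_cases h1 : (a, b) ∈ N.kl
  · have d1 := c1 h1
    by_cases h2 : (b, c) ∈ N.kl
    · have d2 := c2 h2
      simp only [h1, h2, not_true_eq_false, false_and, and_false, if_false]
      rw [d1, d2]
      ring
    · by_cases h3 : (c, a) ∈ N.kl
      · have d3 := c3 h3
        simp only [h1, h3, not_true_eq_false, false_and, and_false, if_false]
        rw [d3, d1]
        ring
      · have e := hR.j2 a b c (by simp [rots]) h1 h2 h3
        simp only [h1, h2, h3, not_true_eq_false, not_false_eq_true, false_and, and_false,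
          and_self, if_false, if_true]
        rw [d1, e]
        ring
  · by_cases h2 : (b, c) ∈ N.kl
    · have d2 := c2 h2
      by_cases h3 : (c, a) ∈ N.kl
      · have d3 := c3 h3
        simp only [h2, h3, not_true_eq_false, false_and, and_false, if_false]
        rw [d2, d3]
        ring
      · have e := hR.j2 b c a (by simp [rots]) h2 h3 h1
        simp only [h1, h2, h3, not_true_eq_false, not_false_eq_true, false_and, and_false,
          and_self, if_false, if_true]
        rw [d2, e]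
        ring
    · by_cases h3 : (c, a) ∈ N.kl
      · have d3 := c3 h3
        have e := hR.j2 c a b (by simp [rots]) h3 h1 h2
        simp only [h1, h2, h3, not_true_eq_false, not_false_eq_true, false_and, and_false,
          and_self, if_false, if_true]
        rw [d3, e]
        ring
      · simp only [h1, h2, h3, not_false_eq_true, and_self, if_true]
        ring

theorem sum_gg (z : V → ℂ) :
    ∑ v ∈ N.T.image (fun t => t.1), z v * MM N v = ∑ t ∈ N.T, gg N z t := by
  rw [← Finset.sum_fiberwise_of_maps_to (s := N.T) (t := N.T.image (fun t => t.1))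
    (g := fun t => t.1) (fun t ht => Finset.mem_image_of_mem _ ht)]
  refine Finset.sum_congr rfl fun v _ => ?_
  unfold MM gg
  rw [Finset.mul_sum, Finset.sum_filter, Finset.sum_filter]
  refine Finset.sum_congr rfl fun t _ => ?_
  by_cases h : t.1 = v
  · subst h
    by_cases h2 : LL N t
    · simp [h2]
    · simp [h2]
  · simp [h]

theorem sum_ee (hR : ∀ t ∈ N.T, RelAt N t)
    (hχ : ∀ a b c : V, (a, b, c) ∈ N.T → (a, b) ∈ N.kl → χ a = χ b) :
    ∑ v ∈ N.T.image (fun t => t.1), χ v * MM N v = ∑ t ∈ N.T, ee N χ t := by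
  have hrots : ∀ {t : V × V × V}, t ∈ N.T → ∀ a b c : V, (a, b, c) ∈ rots t → (a, b, c) ∈ N.T := by
    rintro ⟨x, y, w⟩ ht a b c h
    simp only [rots, Set.mem_insert_iff, Set.mem_singleton_iff, Prod.mk.injEq] at h
    rcases h with ⟨rfl, rfl, rfl⟩ | ⟨rfl, rfl, rfl⟩ | ⟨rfl, rfl, rfl⟩
    · exact ht
    · exact N.rot ht
    · exact N.rot (N.rot ht)
  rw [sum_gg]
  have h1 : (3 : ℂ) * ∑ t ∈ N.T, gg N χ t = 3 * ∑ t ∈ N.T, ee N χ t := by
    have h2 : ∀ f : V × V × V → ℂ, 3 * ∑ t ∈ N.T, f t =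
        ∑ t ∈ N.T, (f t + f (rot3 t) + f (rot3 (rot3 t))) := by
      intro f
      rw [Finset.sum_add_distrib, Finset.sum_add_distrib, sum_rot3 f,
        sum_rot3 (fun t => f (rot3 t)), sum_rot3 f]
      ring
    rw [h2, h2]
    exact Finset.sum_congr rfl fun t ht => tri_ee (hR t ht) (fun a b c h => hχ a b c (hrots ht a b c h))
  exact mul_left_cancel₀ (by norm_num) h1

end gen

section hnet

variable {S : Finset ℂ} {N : Net ℂ} {χ : ℂ → ℂ}

/-- the observable at a mark -/
theorem F_mark (h : HNet S N) (k : ZMod 3) : N.F (N.ex k).1 (N.ex k).2 = omz k := by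
  have h0 : ∃ j, N.ex j = ((N.ex k).1, (N.ex k).2) ∨ N.ex j = ((N.ex k).2, (N.ex k).1) :=
    ⟨k, Or.inl rfl⟩
  unfold Net.F
  rw [dif_pos h0]
  rcases h0.choose_spec with h1 | h1
  · congr 1
    exact (J1x872.good_of_hnet h).inj h1
  · exfalso
    have h2 := h.hex h0.choose
    have h3 := h.hex k
    rw [h1] at h2
    exact hullE_asymm h2 h3

theorem wall_of_kl (h : HNet S N) {a b c : ℂ} (ht : (a, b, c) ∈ N.T) (hk : (a, b) ∈ N.kl) :
    Wall N a b := by
  refine ⟨(JCardx872.mem_E_of_tri ht).1, ?_, ?_, Or.inl hk⟩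
  · rintro ⟨k, hk'⟩
    exact h.live k (hk' ▸ hk)
  · rintro ⟨k, hk'⟩
    exact h.live k (hk' ▸ N.klsym _ _ hk)

/-- **summation over the boundary** -/
theorem MM_sum (h : HNet S N) (hR : ∀ t ∈ N.T, RelAt N t)
    (hχ : ∀ u v : ℂ, Wall N u v → χ u = χ v) :
    ∑ v ∈ N.T.image (fun t => t.1), χ v * MM N v =
      ∑ k : ZMod 3, (χ (N.ex k).2 - χ (N.ex k).1) * omz k := by
  rw [sum_ee hR fun a b c ht hk => hχ a b (wall_of_kl h ht hk)]
  -- inner sides cancel
  rw [← Finset.sum_filter_add_sum_filter_not N.T (fun t => ∃ c, (t.2.1, t.1, c) ∈ N.T)]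
  have h1 : ∑ t ∈ N.T.filter (fun t => ∃ c, (t.2.1, t.1, c) ∈ N.T), ee N χ t = 0 := by
    refine Finset.sum_involution
      (fun t ht => (t.2.1, t.1, (Finset.mem_filter.1 ht).2.choose)) ?_ ?_ ?_ ?_
    · rintro ⟨a, b, c⟩ ht
      unfold ee
      simp only
      rw [F_comm N b a]
      ring
    · rintro ⟨a, b, c⟩ ht _ h2
      rw [Prod.mk.injEq] at h2
      exact N.ne (Finset.mem_filter.1 ht).1 h2.1.symm
    · rintro ⟨a, b, c⟩ ht
      have h2 := Finset.mem_filter.1 ht
      exact Finset.mem_filter.2 ⟨h2.2.choose_spec, c, h2.1⟩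
    · rintro ⟨a, b, c⟩ ht
      have h2 := Finset.mem_filter.1 ht
      have h3 : ((b, a, h2.2.choose) : ℂ × ℂ × ℂ) ∈
          N.T.filter (fun t => ∃ c, (t.2.1, t.1, c) ∈ N.T) :=
        Finset.mem_filter.2 ⟨h2.2.choose_spec, c, h2.1⟩
      have h4 := (Finset.mem_filter.1 h3).2.choose_spec
      have h5 := N.uniq h4 h2.1
      simp only [Prod.mk.injEq, true_and]
      exact h5
  rw [h1, zero_add]
  -- the hull
  have hc : ∀ k : ZMod 3, ∃ c, ((N.ex k).1, (N.ex k).2, c) ∈ N.T := fun k => by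
    obtain ⟨c, hc⟩ := (h.hex k).1
    exact ⟨c, by rw [h.tri]; exact hc⟩
  choose c hc using hc
  have h2 : ∀ k, ee N χ ((N.ex k).1, (N.ex k).2, c k) =
      (χ (N.ex k).2 - χ (N.ex k).1) * omz k := by
    intro k
    unfold ee
    simp only
    rw [F_mark h k]
  simp_rw [← h2]
  rw [← Finset.sum_image (s := Finset.univ) (g := fun k : ZMod 3 => ((N.ex k).1, (N.ex k).2, c k))
    (f := ee N χ)]
  · refine (Finset.sum_subset ?_ ?_).symm
    · intro t ht
      obtain ⟨k, -, rfl⟩ := Finset.mem_image.1 ht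
      refine Finset.mem_filter.2 ⟨hc k, ?_⟩
      rintro ⟨d, hd⟩
      rw [h.tri] at hd
      exact (h.hex k).2 d hd
    · rintro ⟨x, y, e⟩ ht ht'
      obtain ⟨h3, h4⟩ := Finset.mem_filter.1 ht
      simp only at h4
      push Not at h4
      have h5 : hullE S x y := ⟨⟨e, by rw [← h.tri]; exact h3⟩, fun d hd => h4 d (by rw [h.tri]; exact hd)⟩
      have h6 : (x, y) ∉ N.exS := by
        rintro ⟨k, hk⟩
        apply ht'
        refine Finset.mem_image.2 ⟨k, Finset.mem_univ _, ?_⟩
        have h7 := hc k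
        rw [hk] at h7 ⊢
        rw [N.uniq h7 h3]
      unfold ee
      simp only
      rw [hχ x y (wall_hull h h5 h6)]
      ring
  · intro k _ l _ hkl
    simp only [Prod.mk.injEq] at hkl
    exact (J1x872.good_of_hnet h).inj (Prod.ext hkl.1 hkl.2.1)

/-- **total mass of the end point measure** -/
theorem mass (h : HNet S N) (hR : ∀ t ∈ N.T, RelAt N t) (hpr : Pairs N) (i : ZMod 3) :
    ∑ v ∈ (N.T.image fun t => t.1).filter (Side N i), mu N i v = 1 := by
  have hg := J1x872.good_of_hnet h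
  have hM := marks3_of h
  have hC := hasCol h
  have hP : ∀ t ∈ N.T, J1x872.P1 N t := fun t ht =>
    Rel2x63.p1all N S h t (by rw [← h.tri]; exact ht)
  have hdis : ∀ {i j : ZMod 3} {v : ℂ}, Side N i v → Side N j v → i = j := fun h1 h2 =>
    side_disj hM hC hpr h1 h2
  have h1 := MM_sum (χ := fun v => if Side N i v then 1 else 0) h hR (by
    intro u v hw
    have : Side N i u ↔ Side N i v :=
      ⟨fun h1 => Relation.ReflTransGen.tail h1 hw,
        fun h1 => Relation.ReflTransGen.tail h1 (wall_symm hw)⟩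
    simp only [this])
  have e1 : ∀ k : ZMod 3, Side N k (N.ex k).2 := fun k => Relation.ReflTransGen.refl
  have e2 : ∀ k : ZMod 3, Side N k (N.ex (k + 1)).1 := hM.next
  have h2 : ∑ k : ZMod 3, ((if Side N i (N.ex k).2 then (1 : ℂ) else 0) -
      (if Side N i (N.ex k).1 then 1 else 0)) * omz k = omz i - omz (i + 1) := by
    have s1 : ∀ k : ZMod 3, (if Side N i (N.ex k).2 then (1 : ℂ) else 0) = if k = i then 1 else 0 := by
      intro k
      by_cases hk : k = i
      · subst hk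
        rw [if_pos (e1 k), if_pos rfl]
      · rw [if_neg, if_neg hk]
        exact fun h3 => hk (hdis (e1 k) h3)
    have s2 : ∀ k : ZMod 3, (if Side N i (N.ex k).1 then (1 : ℂ) else 0) =
        if k = i + 1 then 1 else 0 := by
      intro k
      by_cases hk : k = i + 1
      · subst hk
        rw [if_pos (e2 i), if_pos rfl]
      · rw [if_neg, if_neg hk]
        intro h3
        have h4 := e2 (k - 1)
        rw [sub_add_cancel] at h4
        exact hk (by rw [hdis h3 h4]; ring)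
    simp_rw [s1, s2, sub_mul, ite_mul, one_mul, zero_mul]
    rw [Finset.sum_sub_distrib, Finset.sum_ite_eq' Finset.univ i, Finset.sum_ite_eq' Finset.univ (i + 1)]
    simp
  have h3 : ∑ v ∈ N.T.image (fun t => t.1), (if Side N i v then (1 : ℂ) else 0) * MM N v =
      (1 - om) * (omz i * ((∑ v ∈ (N.T.image fun t => t.1).filter (Side N i), mu N i v : ℝ) : ℂ)) := by
    push_cast
    rw [Finset.mul_sum, Finset.mul_sum, Finset.sum_filter]
    refine Finset.sum_congr rfl fun v _ => ?_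
    split_ifs with hv
    · rw [one_mul, MM_side hg hM hC hP hR hv]
    · rw [zero_mul]
  rw [h3, h2, J1x872.omz_add_one] at h1
  have hne : (1 - om : ℂ) ≠ 0 := by
    rw [← norm_pos_iff, norm_one_sub_om]
    exact Real.sqrt_pos.2 (by norm_num)
  have hne' : omz i ≠ 0 := by
    unfold omz
    exact pow_ne_zero _ (fun h => by have := om_cube; rw [h] at this; norm_num at this)
  have h4 : (1 - om) * (omz i * ((∑ v ∈ (N.T.image fun t => t.1).filter (Side N i), mu N i v : ℝ) : ℂ)) =
      (1 - om) * (omz i * 1) := by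
    rw [h1]; ring
  have h5 := mul_left_cancel₀ hne' (mul_left_cancel₀ hne h4)
  exact_mod_cast h5

end hnet

end Crest.Agent.R143.Massx848
end
end

-- ▼ part R143/Hit_848

/-!
# Row 143 (S0194): the hit law (helper848)

`EE N i` = the joins of the two marks `i + 1`, `i + 2`; `sta N i J` = state of the leg of the mark
`i + 2` when the triangle in front of it has, for the first time, its third vertex on the side `i`;
`tch N i J` = this vertex.

* `hit_law` : `mu N i v = P (tch = v)`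
* `TT_hit` : **`TT N z = 3 * ∑ i, om ^ i * E [z (tch N i J)]`**
-/

set_option autoImplicit false

noncomputable section

open scoped Classical

namespace Crest.Agent.R143.Hitx848

open Crest.Agent.R143.B0x346 Crest.Agent.R143.Oscx63 Crest.Agent.R143.Sidesx697
open Crest.Agent.R143.J1x872 (cases_z3 Good om_cube P1 sw sw_sw tj_join)
open Crest.Agent.R143.Bsumx848 Crest.Agent.R143.Massx848 Crest.Agent.R143.DelRx806
open Crest.Agent.R143.J4x872 Crest.Agent.R143.JCardx872
open Crest.Agent.R143.JWalkx872 (Term rotInv_empty rotInv_rots)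

section gen

variable {V : Type} {N : Net V}

/-- the two marks different from `i` -/
def Di (N : Net V) (i : ZMod 3) : Set (V × V) := N.exS \ {N.ex i}

/-- joins of the marks `i + 1` and `i + 2` -/
def EE (N : Net V) (i : ZMod 3) : Finset (Finset (V × V)) := joins N.toTrg N.kl ∅ (Di N i)

/-- the triangle in front of the state `p` has its third vertex on the side `i` -/
def stp (N : Net V) (i : ZMod 3) (p : V × V) : Prop := ∃ c, (p.1, p.2, c) ∈ N.T ∧ Side N i c

/-- the third vertex of the triangle in front of `p` -/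
def apx (N : Net V) (p : V × V) : V := if h : ∃ c, (p.1, p.2, c) ∈ N.T then h.choose else p.1

/-- state at the first touching of the side `i` by the leg of the mark `i + 2` -/
def sta (N : Net V) (i : ZMod 3) (J : Finset (V × V)) : V × V :=
  (sPath N.toTrg ∅ (Di N i) (stp N i) (N.ex (i + 2)) J).2

/-- first touched vertex of the side `i` -/
def tch (N : Net V) (i : ZMod 3) (J : Finset (V × V)) : V := apx N (sta N i J)

theorem apx_eq {p : V × V} {c : V} (h : (p.1, p.2, c) ∈ N.T) : apx N p = c := by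
  have h' : ∃ c, (p.1, p.2, c) ∈ N.T := ⟨c, h⟩
  unfold apx
  rw [dif_pos h']
  exact N.uniq h'.choose_spec h

theorem z3e : ∀ i : ZMod 3, i + 2 ≠ i ∧ i + 1 ≠ i ∧ i + 1 ≠ i + 2 ∧ i + 1 + 1 = i + 2 ∧
    i + 1 + 1 + 1 = i ∧ 1 + (i + 1) = i + 2 ∧ i + 2 + 1 = i := by decide

theorem z3f : ∀ i k : ZMod 3, k ≠ i → k = i + 1 ∨ k = i + 2 := by decide

theorem mem_Di (hg : Good N) {i k : ZMod 3} (h : k ≠ i) : N.ex k ∈ Di N i :=
  ⟨⟨k, rfl⟩, fun h' => h (hg.inj h')⟩

theorem Di_bd (hg : Good N) (i : ZMod 3) (a b : V) (h : (a, b) ∈ Di N i) (c : V) :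
    (b, a, c) ∉ N.T := by
  obtain ⟨⟨k, hk⟩, -⟩ := h
  have := hg.bd k c
  rw [hk] at this
  exact this

theorem exS_bd (hg : Good N) (a b : V) (h : (a, b) ∈ N.exS) (c : V) : (b, a, c) ∉ N.T := by
  obtain ⟨k, hk⟩ := h
  have := hg.bd k c
  rw [hk] at this
  exact this

/-! ### paths and vertices -/

theorem pth_inv {P : V → Prop} : ∀ (L : List ((V × V) × (V × V))) (p q : V × V),
    Pth N.toTrg p L q → P p.1 ∧ P p.2 → (∀ a ∈ L, ∀ c, (a.1.1, a.1.2, c) ∈ N.T → P c) →
    P q.1 ∧ P q.2 := by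
  intro L
  induction L with
  | nil =>
    intro p q h hp _
    change p = q at h
    subst h
    exact hp
  | cons a L ih =>
    rintro p q ⟨h1, m, h2, h3⟩ hp hL
    refine ih m q h3 ?_ (fun b hb => hL b (List.mem_cons_of_mem _ hb))
    obtain ⟨c, hc, h⟩ := h2
    have h4 : P c := hL a (List.mem_cons_self ..) c (by rw [h1]; exact hc)
    rcases h with ⟨rfl, -⟩ | ⟨rfl, -⟩
    · exact ⟨h4, hp.2⟩
    · exact ⟨hp.1, h4⟩

theorem pth_head {G : Trg V} : ∀ (L : List ((V × V) × (V × V))) (m q : V × V),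
    Pth G m L q → m = q ∨ ∃ a ∈ L, a.1 = m
  | [], _, _, h => Or.inl h
  | a :: _, _, _, ⟨h1, _⟩ => Or.inr ⟨a, List.mem_cons_self .., h1⟩

theorem pth_apex {P : V → Prop} : ∀ (L : List ((V × V) × (V × V))) (p q : V × V),
    Pth N.toTrg p L q → P q.1 ∧ P q.2 → (∀ a ∈ L, P a.1.1 ∧ P a.1.2) →
    ∀ a ∈ L, ∀ c, (a.1.1, a.1.2, c) ∈ N.T → P c := by
  intro L
  induction L with
  | nil =>
    intro p q _ _ _ a ha
    simp at ha
  | cons b L ih =>
    rintro p q ⟨h1, m, h2, h3⟩ hq hL a ha c hc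
    rcases List.mem_cons.1 ha with rfl | ha
    · have hm : P m.1 ∧ P m.2 := by
        rcases pth_head L m q h3 with rfl | ⟨b, hb, rfl⟩
        · exact hq
        · exact hL b (List.mem_cons_of_mem _ hb)
      obtain ⟨c', hc', h⟩ := h2
      rw [h1] at hc
      have := N.uniq hc hc'
      subst this
      rcases h with ⟨rfl, -⟩ | ⟨rfl, -⟩
      · exact hm.1
      · exact hm.2
    · exact ih m q h3 hq (fun b hb => hL b (List.mem_cons_of_mem _ hb)) a ha c hc

theorem fol_leads_mem {G : Trg V} {O : Set (V × V × V)} {D : Set (V × V)} {J : Finset (V × V)} :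
    ∀ (L : List ((V × V) × (V × V))) (p q : V × V), Fol G O D J p L q →
      ∀ a ∈ L, Leads G O D J p a.1 := by
  intro L
  induction L with
  | nil =>
    intro p q _ a ha
    simp at ha
  | cons b L ih =>
    rintro p q ⟨h1, m, h2, h3, h4⟩ a ha
    rcases List.mem_cons.1 ha with rfl | ha
    · rw [h1]
      exact Relation.ReflTransGen.refl
    · exact Relation.ReflTransGen.head h3 (ih m q h4 a ha)

/-! ### a pair join touches the side -/

theorem sta_stp (hg : Good N) (hM : Marks3 N) (hC : HasCol N) (hpr : Pairs N) {i : ZMod 3}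
    {J : Finset (V × V)} (hJ : J ∈ EE N i) : stp N i (sta N i J) := by
  have hJ' : IsJoin N.toTrg N.kl ∅ (Di N i) J := mem_joins.1 hJ
  have hp : N.ex (i + 2) ∈ Di N i := mem_Di hg (z3e i).1
  have hS := sPath_spec hJ' rotInv_empty hp (stp N i)
  change Stopped _ _ _ _ _ _ _ (sta N i J) at hS
  obtain ⟨h1, h2, h3⟩ := hS
  have hdis : ∀ {i j : ZMod 3} {v : V}, Side N i v → Side N j v → i = j := fun h1 h2 =>
    side_disj hM hC hpr h1 h2
  rcases h3 with h3 | h3
  · exact h3
  exfalso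
  have h4 := pth_inv (P := fun v => ¬ Side N i v) _ _ _ (fol_pth _ _ _ h1) (by
    constructor
    · intro h5
      have h6 := hM.next (i + 1)
      rw [(z3e i).2.2.2.1] at h6
      exact (z3e i).2.1 (hdis h6 h5)
    · intro h5
      have h6 : Side N (i + 2) (N.ex (i + 2)).2 := Relation.ReflTransGen.refl
      exact (z3e i).1 (hdis h6 h5)) (fun a ha c hc h5 => h2 a ha ⟨c, hc, h5⟩)
  rcases h3 with h3 | ⟨-, c, -, h3⟩
  · obtain ⟨⟨k, hk⟩, hk'⟩ := h3
    have hki : k ≠ i := by
      rintro rfl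
      exact hk' hk.symm
    rcases z3f i k hki with rfl | rfl
    · have h5 := hM.next i
      rw [hk] at h5
      exact h4.2 h5
    · have h5 := fol_leads _ _ _ h1
      have h6 : sta N i J = ((N.ex (i + 2)).2, (N.ex (i + 2)).1) := by
        rw [hk]
      rw [h6] at h5
      exact JWalkx872.not_leads_swap hJ' rotInv_empty (hJ'.mark _ _ hp).1 h5
  · exact h3

theorem tch_side (hg : Good N) (hM : Marks3 N) (hC : HasCol N) (hpr : Pairs N) {i : ZMod 3}
    {J : Finset (V × V)} (hJ : J ∈ EE N i) :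
    ((sta N i J).1, (sta N i J).2, tch N i J) ∈ N.T ∧ Side N i (tch N i J) := by
  obtain ⟨c, hc, h⟩ := sta_stp hg hM hC hpr hJ
  have := apx_eq hc
  unfold tch
  rw [this]
  exact ⟨hc, h⟩

/-! ### three legs from a triangle with a vertex on the side -/

section tri

variable {a b c v : V} {J : Finset (V × V)}

/-- like `pair_join0`, inside `J` -/
theorem pair_join1 (hg : Good N) (ht : (a, b, c) ∈ N.T) (hP : P1 N (a, b, c))
    (hJ : J ∈ N.tj (a, b, c)) {k : ZMod 3} (hT : N.Tri3 (a, b, c) k J) :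
    ∃ J', J' ⊆ J ∧ IsJoin N.toTrg N.kl ∅ (N.exS \ {N.ex k}) J' := by
  by_cases hm : (a, b) ∈ N.exS
  · rw [out_mark hg hT hm]
    exact ⟨_, Finset.erase_subset _ _, erase_mark ht hm (tj_join hJ)⟩
  · obtain ⟨h1, h2⟩ := out_leg hg ht hP hJ hT hm
    have h3 := leg_removed h1 (Or.inr rfl) (Or.inl ⟨k, rfl⟩) h2
    have hm' : (b, a) ∉ N.exS := by
      have := J1x872.sw_sd_notMark hg ht 0
      rw [J1x872.sd0] at this
      exact this
    have e : (N.exS ∪ {(b, a)}) \ {(b, a), N.ex k} = N.exS \ {N.ex k} := by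
      ext p
      simp only [Set.mem_sdiff, Set.mem_union, Set.mem_singleton_iff, Set.mem_insert_iff, not_or]
      constructor
      · rintro ⟨h4 | h4, h5, h6⟩
        · exact ⟨h4, h6⟩
        · exact absurd h4 h5
      · rintro ⟨h4, h5⟩
        exact ⟨Or.inl h4, fun h6 => hm' (h6 ▸ h4), h5⟩
    rw [e] at h3
    exact ⟨_, (Finset.filter_subset _ _).trans (Finset.erase_subset _ _), h3⟩

/-- **the states of a leg of the mark `i + 2` which ends inside have no vertex on the side `i`** -/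
theorem off_side (hM : Marks3 N) (hC : HasCol N) {x : V × V} (hx : x ∉ N.exS) {i : ZMod 3}
    (hJ : IsJoin N.toTrg N.kl ∅ (N.exS ∪ {x}) J)
    (hL : Leads N.toTrg ∅ (N.exS ∪ {x}) J (N.ex (i + 2)) (rev x)) {q : V × V}
    (hq : Leads N.toTrg ∅ (N.exS ∪ {x}) J (N.ex (i + 2)) q) :
    ¬ Side N i q.1 ∧ ¬ Side N i q.2 := by
  have hp : N.ex (i + 2) ∈ N.exS ∪ {x} := Or.inl ⟨_, rfl⟩
  have hJ0 := leg_removed hJ hp (Or.inr rfl) hL
  have hD' : (N.exS ∪ {x}) \ {N.ex (i + 2), x} ⊆ N.exS := by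
    rintro y ⟨h1 | h1, h2⟩
    · exact h1
    · exact absurd (Or.inr h1) h2
  obtain ⟨σ, hσ⟩ := hC _ hD' _ hJ0
  have s1 : ∀ j, σ (N.ex (j + 1)).1 = σ (N.ex j).2 := fun j => col_side hJ0 hD' hσ (hM.next j)
  have s2 : ∀ j, j ≠ i + 2 → σ (N.ex j).1 ≠ σ (N.ex j).2 := by
    intro j hj
    have h3 : ((N.ex j).1, (N.ex j).2) ∈ (N.exS ∪ {x}) \ {N.ex (i + 2), x} := by
      refine ⟨Or.inl ⟨j, rfl⟩, ?_⟩
      rintro (h4 | h4)
      · exact hM.ne j (i + 2) hj h4
      · exact hx (by rw [← (show N.ex j = x from h4)]; exact ⟨j, rfl⟩)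
    have h4 := (hJ0.mark _ _ h3).1
    exact (hσ _ _ (hJ0.sub h4)).2 (Or.inl h4)
  have h1 := s2 (i + 1) (z3e i).2.2.1
  have h2 := s1 i
  have h3 := s1 (i + 1)
  rw [(z3e i).2.2.2.1] at h3
  obtain ⟨h4, h5⟩ := col_leg hJ hp hσ hq
  constructor
  · intro h6
    have h7 := col_side hJ0 hD' hσ h6
    apply h1
    rw [h2, ← h3, ← h4, h7]
  · intro h6
    have h7 := col_side hJ0 hD' hσ h6
    apply h1
    rw [h2, ← h3, ← h5, h7]

theorem tri_path (hg : Good N) (hM : Marks3 N) (hC : HasCol N) (ht : (v, b, c) ∈ N.T)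
    (hP : P1 N (v, b, c)) {i : ZMod 3} (hi : Side N i v) (hJ : J ∈ N.tj (v, b, c))
    (hT : N.Tri3 (v, b, c) (i + 1) J) :
    ∃ L, Fol N.toTrg (rots (v, b, c)) N.exS J (N.ex (i + 2)) L (b, c) ∧
      (∀ a ∈ L, ¬ stp N i a.1) ∧
      ∃ J0 ∈ EE N i, Fol N.toTrg ∅ (Di N i) J0 (N.ex (i + 2)) L (b, c) := by
  have hJ' := tj_join hJ
  have ht1 := N.rot ht
  have ht2 := N.rot ht1
  have hP1 := J1x872.p1_rot _ _ _ hP
  have hP2 := J1x872.p1_rot _ _ _ hP1
  have hJ1 : J ∈ N.tj (b, c, v) := by rw [J1x872.tj_rot]; exact hJ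
  have hJ2 : J ∈ N.tj (c, v, b) := by rw [J1x872.tj_rot]; exact hJ1
  have hT1 : N.Tri3 (b, c, v) (i + 1 + 1) J := (J1x872.tri3_rot _ _ _ _ _).2 hT
  have hT2 : N.Tri3 (c, v, b) (i + 1 + 1 + 1) J := (J1x872.tri3_rot _ _ _ _ _).2 hT1
  rw [(z3e i).2.2.2.1] at hT1
  rw [(z3e i).2.2.2.2.1] at hT2
  have hmem : N.ex (i + 2) ∈ J := (hJ'.mark _ _ ⟨i + 2, rfl⟩).1
  have hrt : (b, c, v) ∈ rots (v, b, c) := by simp [rots]
  -- the leg of the mark comes to `(b, c)`
  have hlead : Leads N.toTrg (rots (v, b, c)) N.exS J (N.ex (i + 2)) (b, c) := by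
    by_cases hm : (b, c) ∈ N.exS
    · rw [out_mark hg hT1 hm]
      exact Relation.ReflTransGen.refl
    · have h1 : (c, b) ∈ J := by
        have h2 := J1x872.sw_mem hg ht1 (tj_join hJ1) (i := 0) (by rw [J1x872.sd0]; exact hT1.1)
          (by rw [J1x872.sd0]; exact hm)
        rw [J1x872.sd0] at h2
        exact h2
      have h2 : Ends N.toTrg (rots (v, b, c)) N.exS J (c, b) (N.ex (1 + (i + 1))) := hT.2.2.2.2.1
      rw [(z3e i).2.2.2.2.2.1] at h2
      exact JWalkx872.leads_rev hJ' (rotInv_rots _) h1 h2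
  have hterm : Term N.toTrg (rots (v, b, c)) N.exS J (b, c) := Or.inr ⟨hT.2.1, v, ht1, hrt⟩
  obtain ⟨n, hn⟩ := JWalkx872.leads_iff_leadsN.1 hlead
  obtain ⟨L, q, hF, -, hq⟩ := exists_stop_of_leads (stop := fun _ => False) hterm n _ hn
  have hq' : q = (b, c) := by
    rcases hq with hq | hq
    · exact hq.elim
    · exact JWalkx872.term_unique hq hterm (fol_leads _ _ _ hF) hlead
  subst hq'
  have hfree := fol_free _ _ _ hF
  have hpth := fol_pth _ _ _ hF
  have hunc := (fol_iff hJ' L _ _ (Or.inl hmem) hpth hfree).1 hF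
  refine ⟨L, hF, ?_, ?_⟩
  · -- no stop before
    by_cases hm : (b, c) ∈ N.exS
    · -- the path is empty
      intro a ha
      exfalso
      cases L with
      | nil => simp at ha
      | cons a' L' =>
        obtain ⟨h1, m, h2, h3, h4⟩ := hF
        rw [out_mark hg hT1 hm] at h3
        exact JWalkx872.term_noStep hterm h3
    · obtain ⟨hK, hKL⟩ := out_leg hg ht1 hP1 hJ1 hT1 hm
      have hm' : (c, b) ∉ N.exS := by
        have := J1x872.sw_sd_notMark hg ht1 0
        rw [J1x872.sd0] at this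
        exact this
      have hfree' : Free N.toTrg ∅ (N.exS ∪ {(c, b)}) L := by
        intro a ha
        refine ⟨?_, fun _ _ h => h⟩
        rintro (h1 | h1)
        · exact (hfree a ha).1 h1
        · have h2 : a.1 = (b, c) := by
            have : sw (sw a.1) = sw (c, b) := by rw [h1]
            rwa [sw_sw] at this
          have h3 := (hfree a ha).2 v
          rw [h2] at h3
          exact h3 ht1 hrt
      have hFK : Fol N.toTrg ∅ (N.exS ∪ {(c, b)}) (J.erase (b, c)) (N.ex (i + 2)) L (b, c) :=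
        (fol_iff hK L _ _ (Or.inl (hK.mark _ _ (Or.inl ⟨i + 2, rfl⟩)).1) hpth hfree').2
          (fun a ha h1 => hunc a ha (Finset.mem_of_mem_erase h1))
      have hLK := fol_leads _ _ _ hFK
      have h5 : ∀ q, Leads N.toTrg ∅ (N.exS ∪ {(c, b)}) (J.erase (b, c)) (N.ex (i + 2)) q →
          ¬ Side N i q.1 ∧ ¬ Side N i q.2 := fun q hq => off_side hM hC hm' hK hLK hq
      intro a ha
      rintro ⟨c', hc', h6⟩
      exact pth_apex (P := fun v => ¬ Side N i v) _ _ _ hpth (h5 _ hLK)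
        (fun a ha => h5 _ (fol_leads_mem _ _ _ hFK a ha)) a ha c' hc' h6
  · obtain ⟨J0, h1, h2⟩ := pair_join1 hg ht2 hP2 hJ2 hT2
    refine ⟨J0, mem_joins.2 h2, ?_⟩
    refine (fol_iff h2 L _ _ (Or.inl (h2.mark _ _ (mem_Di hg (z3e i).1)).1) hpth ?_).2
      (fun a ha h3 => hunc a ha (h1 h3))
    intro a ha
    exact ⟨fun h3 => (hfree a ha).1 h3.1, fun _ _ h => h⟩

/-- number of joins with three legs -/
theorem card_tri (hg : Good N) (hM : Marks3 N) (hC : HasCol N) (ht : (v, b, c) ∈ N.T)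
    (hP : P1 N (v, b, c)) {i : ZMod 3} (hi : Side N i v) :
    ((N.tj (v, b, c)).filter (N.Tri3 (v, b, c) (i + 1))).card ≤
      ((EE N i).filter fun J => sta N i J = (b, c)).card := by
  set A := (N.tj (v, b, c)).filter (N.Tri3 (v, b, c) (i + 1)) with hA
  set Φ : Finset (V × V) → List ((V × V) × (V × V)) × (V × V) :=
    sPath N.toTrg (rots (v, b, c)) N.exS (fun _ => False) (N.ex (i + 2)) with hΦ
  set Ψ : Finset (V × V) → List ((V × V) × (V × V)) × (V × V) :=
    sPath N.toTrg ∅ (Di N i) (stp N i) (N.ex (i + 2)) with hΨ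
  have hstp : stp N i (b, c) := ⟨v, N.rot ht, hi⟩
  have hpm : N.ex (i + 2) ∈ Di N i := mem_Di hg (z3e i).1
  -- one fiber
  have key : ∀ x ∈ A.image Φ, x.2 = (b, c) ∧
      (A.filter (fun J => Φ J = x)).card ≤ ((EE N i).filter fun J => Ψ J = x).card := by
    intro x hx
    obtain ⟨J1, hJ1, rfl⟩ := Finset.mem_image.1 hx
    rw [hA, Finset.mem_filter] at hJ1
    obtain ⟨L, h1, h2, J0, h3, h4⟩ := tri_path hg hM hC ht hP hi hJ1.1 hJ1.2
    have hterm : Term N.toTrg (rots (v, b, c)) N.exS J1 (b, c) :=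
      Or.inr ⟨hJ1.2.2.1, v, N.rot ht, by simp [rots]⟩
    have e1 : Φ J1 = (L, (b, c)) := by
      have h5 := sPath_spec (tj_join hJ1.1) (rotInv_rots _) (⟨i + 2, rfl⟩ : N.ex (i + 2) ∈ N.exS)
        (fun _ => False)
      obtain ⟨h6, h7⟩ := stop_unique _ _ _ _ _ h5 ⟨h1, fun _ _ h => h, Or.inr hterm⟩
      exact Prod.ext h6 h7
    rw [e1]
    refine ⟨rfl, ?_⟩
    have c1 : (A.filter (fun J => Φ J = (L, (b, c)))).card ≤
        (joins N.toTrg (N.kl ∪ unc L) (rots (v, b, c)) N.exS).card := by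
      rw [joins_path' (⟨i + 2, rfl⟩ : N.ex (i + 2) ∈ N.exS) ⟨J1, hJ1.1, h1⟩]
      refine Finset.card_le_card ?_
      intro J hJ
      rw [Finset.mem_filter] at hJ ⊢
      have h8 := (Finset.mem_filter.1 hJ.1).1
      refine ⟨h8, ?_⟩
      have h5 := sPath_spec (tj_join h8) (rotInv_rots _) (⟨i + 2, rfl⟩ : N.ex (i + 2) ∈ N.exS)
        (fun _ => False)
      have h9 := hJ.2
      rw [hΦ] at h9
      rw [h9] at h5
      exact h5.1
    have c2 : (joins N.toTrg (N.kl ∪ unc L) (rots (v, b, c)) N.exS).card =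
        (joins N.toTrg (N.kl ∪ unc L) ∅ ∅).card := by
      refine card_joins_bdry (exS_bd hg) ⟨J1, ?_⟩
      rw [joins_path' (⟨i + 2, rfl⟩ : N.ex (i + 2) ∈ N.exS) ⟨J1, hJ1.1, h1⟩]
      exact Finset.mem_filter.2 ⟨hJ1.1, h1⟩
    have c3 : (joins N.toTrg (N.kl ∪ unc L) ∅ (Di N i)).card =
        (joins N.toTrg (N.kl ∪ unc L) ∅ ∅).card := by
      refine card_joins_bdry (Di_bd hg i) ⟨J0, ?_⟩
      rw [joins_path' hpm ⟨J0, h3, h4⟩]
      exact Finset.mem_filter.2 ⟨h3, h4⟩
    have c4 : (joins N.toTrg (N.kl ∪ unc L) ∅ (Di N i)).card ≤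
        ((EE N i).filter fun J => Ψ J = (L, (b, c))).card := by
      rw [joins_path' hpm ⟨J0, h3, h4⟩]
      refine Finset.card_le_card ?_
      intro J hJ
      rw [Finset.mem_filter] at hJ ⊢
      refine ⟨hJ.1, ?_⟩
      have h5 := sPath_spec (mem_joins.1 hJ.1) rotInv_empty hpm (stp N i)
      obtain ⟨h6, h7⟩ := stop_unique _ _ _ _ _ h5 ⟨hJ.2, h2, Or.inl hstp⟩
      exact Prod.ext h6 h7
    omega
  rw [Finset.card_eq_sum_card_image Φ A]
  refine le_trans (Finset.sum_le_sum fun x hx => (key x hx).2) ?_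
  have h5 : ∑ x ∈ A.image Φ, ((EE N i).filter fun J => Ψ J = x).card =
      ((EE N i).filter fun J => Ψ J ∈ A.image Φ).card := by
    rw [Finset.card_eq_sum_card_fiberwise (f := Ψ) (t := A.image Φ)
      (s := (EE N i).filter fun J => Ψ J ∈ A.image Φ) (fun J hJ => (Finset.mem_filter.1 hJ).2)]
    refine Finset.sum_congr rfl fun x hx => ?_
    congr 1
    ext J
    rw [Finset.mem_filter, Finset.mem_filter, Finset.mem_filter]
    constructor
    · rintro ⟨h6, rfl⟩
      exact ⟨⟨h6, hx⟩, rfl⟩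
    · rintro ⟨⟨h6, -⟩, h7⟩
      exact ⟨h6, h7⟩
  rw [h5]
  refine Finset.card_le_card ?_
  intro J hJ
  rw [Finset.mem_filter] at hJ ⊢
  exact ⟨hJ.1, (key _ hJ.2).1⟩

theorem card_EE (hg : Good N) (hpr : Pairs N) (i : ZMod 3) :
    (EE N i).card = (joins N.toTrg N.kl ∅ ∅).card := by
  obtain ⟨J, hJ⟩ := hpr i
  exact card_joins_bdry (Di_bd hg i) ⟨J, mem_joins.2 hJ⟩

theorem EE_pos (hpr : Pairs N) (i : ZMod 3) : 0 < (EE N i).card := by
  obtain ⟨J, hJ⟩ := hpr i
  exact Finset.card_pos.2 ⟨J, mem_joins.2 hJ⟩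

theorem triA_le (hg : Good N) (hM : Marks3 N) (hC : HasCol N) (hpr : Pairs N)
    (ht : (v, b, c) ∈ N.T) (hP : P1 N (v, b, c)) {i : ZMod 3} (hi : Side N i v) :
    N.triA (v, b, c) (i + 1) ≤
      (((EE N i).filter fun J => sta N i J = (b, c)).card : ℝ) / ((EE N i).card : ℝ) := by
  unfold Net.triA
  rcases Finset.eq_empty_or_nonempty (N.tj (v, b, c)) with he | hne
  · rw [he]
    simp only [Finset.filter_empty, Finset.card_empty, Nat.cast_zero, zero_div]
    positivity
  · have h1 : (N.tj (v, b, c)).card = (EE N i).card := by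
      rw [card_EE hg hpr]
      exact card_joins_bdry (exS_bd hg) hne
    rw [h1]
    exact div_le_div_of_nonneg_right (by exact_mod_cast card_tri hg hM hC ht hP hi)
      (Nat.cast_nonneg _)

theorem mu_le (hg : Good N) (hM : Marks3 N) (hC : HasCol N) (hpr : Pairs N)
    (hP : ∀ t ∈ N.T, P1 N t) {i : ZMod 3} (hi : Side N i v) :
    mu N i v ≤ (((EE N i).filter fun J => tch N i J = v).card : ℝ) / ((EE N i).card : ℝ) := by
  unfold mu
  have h1 : ∑ t ∈ N.T.filter (fun t => t.1 = v), N.triA t (i + 1) ≤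
      ∑ t ∈ N.T.filter (fun t => t.1 = v),
        (((EE N i).filter fun J => sta N i J = t.2).card : ℝ) / ((EE N i).card : ℝ) := by
    refine Finset.sum_le_sum fun t ht => ?_
    rw [Finset.mem_filter] at ht
    obtain ⟨a, b, c⟩ := t
    obtain ⟨ht, rfl⟩ := ht
    exact triA_le hg hM hC hpr ht (hP _ ht) hi
  refine le_trans h1 ?_
  rw [← Finset.sum_div]
  refine div_le_div_of_nonneg_right ?_ (Nat.cast_nonneg _)
  rw [← Nat.cast_sum, ← Finset.card_biUnion]
  · refine Nat.cast_le.2 (Finset.card_le_card ?_)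
    intro J hJ
    rw [Finset.mem_biUnion] at hJ
    obtain ⟨⟨a, b, c⟩, ht, hJ⟩ := hJ
    rw [Finset.mem_filter] at ht hJ ⊢
    obtain ⟨ht, rfl⟩ := ht
    refine ⟨hJ.1, ?_⟩
    unfold tch
    rw [hJ.2]
    exact apx_eq (N.rot ht)
  · rintro ⟨a, b, c⟩ ht ⟨a', b', c'⟩ ht' hne
    rw [Function.onFun, Finset.disjoint_left]
    intro J hJ hJ'
    rw [Finset.mem_coe, Finset.mem_filter] at ht ht'
    rw [Finset.mem_filter] at hJ hJ'
    apply hne
    have e := hJ.2.symm.trans hJ'.2
    exact Prod.ext (ht.2.trans ht'.2.symm) e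

end tri

end gen

/-! ### networks on Delaunay triangulations -/

section hnet

variable {S : Finset ℂ} {N : Net ℂ}

theorem tch_mem (h : HNet S N) (hpr : Pairs N) {i : ZMod 3} {J : Finset (ℂ × ℂ)}
    (hJ : J ∈ EE N i) : tch N i J ∈ (N.T.image fun t => t.1).filter (Side N i) := by
  obtain ⟨h1, h2⟩ := tch_side (J1x872.good_of_hnet h) (marks3_of h) (hasCol h) hpr hJ
  exact Finset.mem_filter.2 ⟨Finset.mem_image.2 ⟨_, N.rot (N.rot h1), rfl⟩, h2⟩

theorem sum_P (h : HNet S N) (hpr : Pairs N) (i : ZMod 3) :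
    ∑ v ∈ (N.T.image fun t => t.1).filter (Side N i),
      (((EE N i).filter fun J => tch N i J = v).card : ℝ) / ((EE N i).card : ℝ) = 1 := by
  rw [← Finset.sum_div, ← Nat.cast_sum, ← Finset.card_eq_sum_card_fiberwise
    (fun J hJ => tch_mem h hpr hJ)]
  have := EE_pos hpr i
  exact div_self (by exact_mod_cast this.ne')

/-- **HIT LAW** -/
theorem hit_law (h : HNet S N) (hR : ∀ t ∈ N.T, RelAt N t) (hpr : Pairs N) (i : ZMod 3) :
    ∀ v ∈ (N.T.image fun t => t.1).filter (Side N i),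
      mu N i v = (((EE N i).filter fun J => tch N i J = v).card : ℝ) / ((EE N i).card : ℝ) := by
  have hP : ∀ t ∈ N.T, J1x872.P1 N t := fun t ht =>
    Rel2x63.p1all N S h t (by rw [← h.tri]; exact ht)
  have h1 : ∀ v ∈ (N.T.image fun t => t.1).filter (Side N i),
      mu N i v ≤ (((EE N i).filter fun J => tch N i J = v).card : ℝ) / ((EE N i).card : ℝ) :=
    fun v hv => mu_le (J1x872.good_of_hnet h) (marks3_of h) (hasCol h) hpr hP
      (Finset.mem_filter.1 hv).2
  exact (Finset.sum_eq_sum_iff_of_le h1).1 (by rw [mass h hR hpr i, sum_P h hpr i])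

/-- expectation of a field at the first touched vertex -/
def avt (N : Net ℂ) (i : ZMod 3) (z : ℂ → ℂ) : ℂ :=
  (∑ J ∈ EE N i, z (tch N i J)) / ((EE N i).card : ℂ)

theorem sum_hit (h : HNet S N) (hR : ∀ t ∈ N.T, RelAt N t) (hpr : Pairs N) (i : ZMod 3)
    (z : ℂ → ℂ) :
    ∑ v ∈ (N.T.image fun t => t.1).filter (Side N i), z v * (mu N i v : ℂ) = avt N i z := by
  unfold avt
  rw [← Finset.sum_fiberwise_of_maps_to (g := tch N i)
    (t := (N.T.image fun t => t.1).filter (Side N i)) (fun J hJ => tch_mem h hpr hJ), Finset.sum_div]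
  refine Finset.sum_congr rfl fun v hv => ?_
  rw [hit_law h hR hpr i v hv]
  have : ∑ J ∈ (EE N i).filter (fun J => tch N i J = v), z (tch N i J) =
      (((EE N i).filter fun J => tch N i J = v).card : ℂ) * z v := by
    rw [Finset.sum_congr rfl (g := fun _ => z v), Finset.sum_const, nsmul_eq_mul]
    intro J hJ
    rw [(Finset.mem_filter.1 hJ).2]
  rw [this]
  push_cast
  ring

/-- **END POINT FORMULA with the hit law** -/
theorem TT_hit (h : HNet S N) (hR : ∀ t ∈ N.T, RelAt N t)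
    (hkl : ∀ a b : ℂ, (a, b) ∈ N.kl → (a, b) ∈ N.E → ∃ i, Side N i a) (hpr : Pairs N)
    (z : ℂ → ℂ) : TT N z = 3 * ∑ i : ZMod 3, omz i * avt N i z := by
  rw [TT_eq h hR hkl z]
  congr 1
  refine Finset.sum_congr rfl fun i _ => ?_
  rw [sum_hit h hR hpr i z]

end hnet

end Crest.Agent.R143.Hitx848
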