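import Crest.Agent.R143.Mab2_377
import Crest.Agent.R143.Hit_848
import Crest.Agent.R143.ClsC_697
import Crest.Agent.R143.DomE_722
import Crest.Agent.R143.Ad2_422
import Crest.Agent.R143.Mab3_377
import Crest.Agent.R143.AsmO_758

-- ▼ part R143/WKnet_377
section

/-!
# Row 143: walls of the explored net, end point formula for `Y S N (rr z) x`

* `insert_mark`, `pairs_of_q`, `relAt_all` : the hypotheses of 848's `TT_hit` hold in every net which
  carries an amplitude;
* `side_left`, `side_right`, `walls` : the left sites of the explored path are on the side `2`, the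
  right sites on the side `0` of the explored net, every killed edge has its ends on a side;
* `Y_hit` : `Y S N (rr z) x = 3 * ∑ i, omz i * avt (knet N x.1) i z` for an alive state `x`;
* `Y_le` : `‖Y S N (rr z) x‖ ≤ 9 B` if `‖z v - z0‖ ≤ B` at all vertices.
-/

set_option autoImplicit false

noncomputable section

open scoped Classical

namespace Crest.Agent.R143.Mabx377

open Crest.Agent.R143.B0x346 Crest.Agent.R143.JCardx872 Crest.Agent.R143.JWalkx872
  Crest.Agent.R143.J1x872 Crest.Agent.R143.J4x872 Crest.Agent.R143.Oscx63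
open Crest.Agent.R143.Sidesx697 (Wall Side Marks3 HasCol)
open Crest.Agent.R143.Bsumx848 (rr TT TT_eq)
open Crest.Agent.R143.Massx848 (Pairs)
open Crest.Agent.R143.Hitx848 (EE Di avt tch tch_mem TT_hit)

variable {V : Type}

/-! ### existence of joins -/

section ins

variable {G : Trg V} {kl : Set (V × V)} {D : Set (V × V)} {a b c : V} {J : Finset (V × V)}

/-- inserting a mark: the triangle of the mark becomes odd -/
theorem insert_mark (ht : (a, b, c) ∈ G.T) (hm : (a, b) ∈ D) (hm' : (b, a) ∉ D)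
    (hbd : ∀ x, (b, a, x) ∉ G.T)
    (hJ : IsJoin G kl ∅ (D \ {(a, b)}) J) : IsJoin G kl (rots (a, b, c)) D (insert (a, b) J) := by
  have hab : a ≠ b := G.ne ht
  have hnot : (a, b) ∉ J ∧ (b, a) ∉ J := hJ.bdr a b hbd (fun h => h.2 rfl)
  have hne : (b, a) ≠ (a, b) := by
    intro e
    rw [Prod.mk.injEq] at e
    exact hab e.2
  refine ⟨?_, ?_, ?_, ?_, ?_, ?_⟩
  · intro x hx
    rcases Finset.mem_insert.1 hx with rfl | h
    · exact (mem_E_of_tri ht).1
    · exact hJ.sub h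
  · intro x y h1 h2
    have e1 : (x, y) ≠ (a, b) := fun e => h1 (e ▸ hm)
    have e2 : (y, x) ≠ (a, b) := fun e => h2 (e ▸ hm)
    have := hJ.sym x y (fun h => h1 h.1) (fun h => h2 h.1)
    rw [Finset.mem_insert, Finset.mem_insert]
    tauto
  · intro x y h
    by_cases e : (x, y) = (a, b)
    · rw [Prod.mk.injEq] at e
      obtain ⟨rfl, rfl⟩ := e
      refine ⟨Finset.mem_insert_self _ _, ?_⟩
      rw [Finset.mem_insert]
      tauto
    · have h1 := hJ.mark x y ⟨h, e⟩
      refine ⟨Finset.mem_insert_of_mem h1.1, ?_⟩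
      rw [Finset.mem_insert]
      rintro (h2 | h2)
      · rw [Prod.mk.injEq] at h2
        obtain ⟨rfl, rfl⟩ := h2
        exact hm' h
      · exact h1.2 h2
  · intro x y h1 h2
    have e1 : (x, y) ≠ (a, b) := fun e => h2 (e ▸ hm)
    have e2 : (y, x) ≠ (a, b) := by
      intro e
      rw [Prod.mk.injEq] at e
      obtain ⟨rfl, rfl⟩ := e
      exact h1 c ht
    have h3 := hJ.bdr x y h1 (fun h => h2 h.1)
    rw [Finset.mem_insert, Finset.mem_insert]
    tauto
  · intro x y h1 h2 h3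
    have e1 : (x, y) ≠ (a, b) := fun e => h2 (e ▸ hm)
    have e2 : (y, x) ≠ (a, b) := fun e => h3 (e ▸ hm)
    have h4 := hJ.kill x y h1 (fun h => h2 h.1) (fun h => h3 h.1)
    rw [Finset.mem_insert, Finset.mem_insert]
    tauto
  · intro x y z h
    have hp := hJ.par x y z h
    rw [if_neg (Set.notMem_empty _)] at hp
    obtain ⟨n1, n2, n3⟩ := sides_ne h
    by_cases hs : (x, y, z) ∈ rots (a, b, c)
    · rw [if_pos hs]
      rcases side_of_mem_rots hs with e | e | e
      · have e2 : (y, z) ≠ (a, b) := by rw [← e]; exact n1.symm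
        have e3 : (z, x) ≠ (a, b) := by rw [← e]; exact n3.symm
        have h1 : (x, y) ∉ J := by rw [e]; exact hnot.1
        simp only [Finset.mem_insert, e2, e3, e, true_or, false_or, if_true]
        simp only [h1, if_false] at hp
        omega
      · have e2 : (x, y) ≠ (a, b) := by rw [← e]; exact n1
        have e3 : (z, x) ≠ (a, b) := by rw [← e]; exact n2.symm
        have h1 : (y, z) ∉ J := by rw [e]; exact hnot.1
        simp only [Finset.mem_insert, e2, e3, e, true_or, false_or, if_true]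
        simp only [h1, if_false] at hp
        omega
      · have e2 : (x, y) ≠ (a, b) := by rw [← e]; exact n3
        have e3 : (y, z) ≠ (a, b) := by rw [← e]; exact n2
        have h1 : (z, x) ∉ J := by rw [e]; exact hnot.1
        simp only [Finset.mem_insert, e2, e3, e, true_or, false_or, if_true]
        simp only [h1, if_false] at hp
        omega
    · rw [if_neg hs]
      have e1 : (x, y) ≠ (a, b) := fun e => hs (mem_rots_of_side ht h (Or.inl e))
      have e2 : (y, z) ≠ (a, b) := fun e => hs (mem_rots_of_side ht h (Or.inr (Or.inl e)))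
      have e3 : (z, x) ≠ (a, b) := fun e => hs (mem_rots_of_side ht h (Or.inr (Or.inr e)))
      simp only [Finset.mem_insert, e1, e2, e3, false_or]
      exact hp

end ins

variable {S : Finset ℂ} {N : Net ℂ}

/-- a net with an amplitude: every pair of marks can be joined -/
theorem pairs_of_q (_hg : Good N) {t : ℂ × ℂ × ℂ} (ht : t ∈ N.T) (hQ : N.Q t ≠ 0) : Pairs N := by
  intro m
  obtain ⟨J, hJ, k, hk⟩ := exists_tri hQ
  have hJ' := mem_joins.1 hJ
  obtain ⟨h1, h2⟩ := (tri3_iff k).1 hk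
  have hi : En N t J (m - k) m := by
    have := h2 (m - k)
    rwa [sub_add_cancel] at this
  obtain ⟨z, hz, hz'⟩ := sd_tri ht (m - k)
  exact ⟨_, (Monox697.leg_odd hJ' ht hz' hz (h1 _) (mem_exS m) hi).1⟩

theorem tj_of_mark (hg : Good N) (hpr : Pairs N) {a b c : ℂ} (ht : (a, b, c) ∈ N.T)
    (hm : (a, b) ∈ N.exS) : (N.tj (a, b, c)).Nonempty := by
  obtain ⟨k, hk⟩ := hm
  obtain ⟨J, hJ⟩ := hpr k
  rw [hk] at hJ
  refine ⟨insert (a, b) J, mem_joins.2 (insert_mark ht ⟨k, hk⟩ ?_ ?_ hJ)⟩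
  · exact sw_sd_notMark hg ht 0
  · intro x
    have := hg.bd k x
    rw [hk] at this
    exact this

/-- all relations hold if every pair of marks can be joined -/
theorem relAt_all (h : HNet S N) (hpr : Pairs N) : ∀ t ∈ N.T, RelAt N t := by
  have hg := good_of_hnet h
  rintro ⟨a, b, c⟩ ht
  refine Rel2x63.relAt h (by rw [← h.tri]; exact ht) ?_
  by_cases h1 : (a, b) ∈ N.exS
  · exact Or.inl (tj_of_mark hg hpr ht h1)
  by_cases h2 : (b, c) ∈ N.exS
  · left
    have := tj_of_mark hg hpr (N.rot ht) h2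
    rwa [J1x872.tj_rot] at this
  by_cases h3 : (c, a) ∈ N.exS
  · left
    have := tj_of_mark hg hpr (N.rot (N.rot ht)) h3
    rwa [J1x872.tj_rot, J1x872.tj_rot] at this
  · exact Or.inr ⟨h1, h2, h3⟩

/-! ### walls -/

theorem wall_mono {N : Net V} (L : Pt V) {u v : V} (h : Wall N u v) : Wall (knet N L) u v := by
  obtain ⟨h1, h2, h3, h4⟩ := h
  refine ⟨h1, h2, h3, ?_⟩
  rcases h4 with h4 | h4
  · exact Or.inl (Or.inl h4)
  · exact Or.inr h4

theorem side_mono {N : Net V} (L : Pt V) {i : ZMod 3} {v : V} (h : Side N i v) :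
    Side (knet N L) i v := by
  induction h with
  | refl => exact Relation.ReflTransGen.refl
  | tail _ hs ih => exact Relation.ReflTransGen.tail ih (wall_mono L hs)

/-- walls along a path whose uncrossed sides are killed and no marks -/
theorem walls_pth {K : Net V} {i j : ZMod 3} : ∀ (L : Pt V) (p q : V × V), Pth K.toTrg p L q →
    (∀ a ∈ L, a.2 ∈ K.kl ∧ a.2 ∉ K.exS ∧ sw a.2 ∉ K.exS) → Side K i p.1 → Side K j p.2 →
    Side K i q.1 ∧ Side K j q.2 ∧ ∀ a ∈ L, Side K i a.1.1 ∧ Side K j a.1.2 ∧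
      ((Side K i a.2.1 ∧ Side K i a.2.2) ∨ (Side K j a.2.1 ∧ Side K j a.2.2)) := by
  intro L
  induction L with
  | nil =>
    intro p q h _ h1 h2
    change p = q at h
    subst h
    exact ⟨h1, h2, by simp⟩
  | cons a L ih =>
    rintro p q ⟨ha, m, ⟨c, hc, hm⟩, hL⟩ hk h1 h2
    obtain ⟨k1, k2, k3⟩ := hk a (List.mem_cons_self ..)
    have hk' : ∀ a' ∈ L, a'.2 ∈ K.kl ∧ a'.2 ∉ K.exS ∧ sw a'.2 ∉ K.exS :=
      fun a' ha' => hk a' (List.mem_cons_of_mem _ ha')
    have hE0 := mem_E_of_tri hc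
    have hE1 := mem_E_of_tri (K.rot hc)
    have hE2 := mem_E_of_tri (K.rot (K.rot hc))
    rcases hm with ⟨rfl, hu⟩ | ⟨rfl, hu⟩
    · -- left turn: the left site becomes `c`
      rw [hu] at k1 k2 k3
      have hw : Wall K p.1 c := ⟨hE2.2, k3, k2, Or.inl (K.klsym _ _ k1)⟩
      have hc' : Side K i c := Relation.ReflTransGen.tail h1 hw
      obtain ⟨e1, e2, e3⟩ := ih (c, p.2) q hL hk' hc' h2
      refine ⟨e1, e2, ?_⟩
      intro a' ha'
      rcases List.mem_cons.1 ha' with rfl | ha'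
      · rw [ha, hu]
        exact ⟨h1, h2, Or.inl ⟨hc', h1⟩⟩
      · exact e3 a' ha'
    · rw [hu] at k1 k2 k3
      have hw : Wall K p.2 c := ⟨hE1.1, k2, k3, Or.inl k1⟩
      have hc' : Side K j c := Relation.ReflTransGen.tail h2 hw
      obtain ⟨e1, e2, e3⟩ := ih (p.1, c) q hL hk' h1 hc'
      refine ⟨e1, e2, ?_⟩
      intro a' ha'
      rcases List.mem_cons.1 ha' with rfl | ha'
      · rw [ha, hu]
        exact ⟨h1, h2, Or.inr ⟨h2, hc'⟩⟩
      · exact e3 a' ha'

/-- **walls of the explored net** -/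
theorem walls (h : HNet S N) {L : Pt ℂ} {q : ℂ × ℂ} (hok : Ok N L q) (h2 : N.ex 2 ∉ unc L) :
    Side (knet N L) 2 q.1 ∧ Side (knet N L) 0 q.2 ∧
      ∀ a ∈ L, Side (knet N L) 2 a.1.1 ∧ Side (knet N L) 0 a.1.2 ∧
        ((Side (knet N L) 2 a.2.1 ∧ Side (knet N L) 2 a.2.2) ∨
          (Side (knet N L) 0 a.2.1 ∧ Side (knet N L) 0 a.2.2)) := by
  have hg := good_of_hnet h
  have hK := good_knet hg hok h2
  have hM := Sidesx697.marks3_of h
  have e0 : Side N 2 (N.ex 0).1 := by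
    have := hM.next 2
    have e : (2 : ZMod 3) + 1 = 0 := by decide
    rwa [e] at this
  have hpth : Pth (knet N L).toTrg (N.ex 0) L q := ok_pth (N := N) hok
  refine walls_pth (K := knet N L) L (N.ex 0) q hpth ?_ (side_mono L e0)
    (side_mono L Relation.ReflTransGen.refl)
  intro a ha
  refine ⟨Or.inr ⟨a, ha, Or.inl rfl⟩, ?_, ?_⟩
  · rintro ⟨k, hk⟩
    exact hK.live k (Or.inr ⟨a, ha, Or.inl hk⟩)
  · rintro ⟨k, hk⟩
    exact hK.live k (Or.inr ⟨a, ha, Or.inr hk⟩)

/-- every killed edge of the explored net has its ends on a side if this holds in `N` -/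
theorem kl_side (h : HNet S N)
    (hkl : ∀ a b : ℂ, (a, b) ∈ N.kl → (a, b) ∈ N.E → ∃ i, Side N i a) {L : Pt ℂ} {q : ℂ × ℂ}
    (hok : Ok N L q) (h2 : N.ex 2 ∉ unc L) :
    ∀ a b : ℂ, (a, b) ∈ (knet N L).kl → (a, b) ∈ (knet N L).E → ∃ i, Side (knet N L) i a := by
  obtain ⟨_, _, h3⟩ := walls h hok h2
  rintro a b (hk | ⟨e, he, hk⟩) hE
  · obtain ⟨i, hi⟩ := hkl a b hk hE
    exact ⟨i, side_mono L hi⟩
  · obtain ⟨_, _, h4⟩ := h3 e he
    have e1 : a = e.2.1 ∨ a = e.2.2 := by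
      rcases hk with hk | hk
      · left
        rw [← hk]
      · right
        have := congrArg Prod.fst hk
        exact this
    rcases h4 with ⟨h4, h5⟩ | ⟨h4, h5⟩ <;> rcases e1 with rfl | rfl
    · exact ⟨2, h4⟩
    · exact ⟨2, h5⟩
    · exact ⟨0, h4⟩
    · exact ⟨0, h5⟩

/-! ### the end point formula for the explored nets -/

theorem alive_ex2 {x : St ℂ} (hA : Alive S N x) : N.ex 2 ∉ unc x.1 := by
  intro h'
  obtain ⟨t, _, ht⟩ := hA
  apply ht
  unfold Qx
  rw [if_pos h']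

theorem Y_eq_TT (h : HNet S N) {x : St ℂ} (hA : Alive S N x) (z : ℂ → ℂ) :
    Y S N (rr z) x = TT (knet N x.1) z := by
  unfold Y TT Qx
  simp only [if_neg (alive_ex2 hA)]
  change _ = ∑ t ∈ N.T, _
  rw [h.tri]

theorem alive_pairs (h : HNet S N) {x : St ℂ} (hok : Ok N x.1 x.2) (hA : Alive S N x) :
    Pairs (knet N x.1) := by
  have h2 := alive_ex2 hA
  obtain ⟨t, ht, hQ⟩ := hA
  have hg := good_knet (good_of_hnet h) hok h2
  refine pairs_of_q hg (t := t) (by rw [← h.tri] at ht; exact ht) ?_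
  unfold Qx at hQ
  rw [if_neg h2] at hQ
  exact hQ

/-- **END POINT FORMULA in the explored net** -/
theorem Y_hit (h : HNet S N)
    (hkl : ∀ a b : ℂ, (a, b) ∈ N.kl → (a, b) ∈ N.E → ∃ i, Side N i a)
    {x : St ℂ} (hok : Ok N x.1 x.2) (hA : Alive S N x) (z : ℂ → ℂ) :
    Y S N (rr z) x = 3 * ∑ i : ZMod 3, omz i * avt (knet N x.1) i z := by
  have h2 := alive_ex2 hA
  have hN := hnet_ok h hok h2
  have hpr := alive_pairs h hok hA
  rw [Y_eq_TT h hA z]
  exact TT_hit hN (relAt_all hN hpr) (kl_side h hkl hok h2) hpr z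

theorem avt_sub {N : Net ℂ} (hpr : Pairs N) (i : ZMod 3) (z : ℂ → ℂ) (z0 : ℂ) :
    avt N i z = avt N i (fun v => z v - z0) + z0 := by
  unfold avt
  have h0 : ((EE N i).card : ℂ) ≠ 0 := by
    have := Hitx848.EE_pos hpr i
    exact_mod_cast this.ne'
  rw [Finset.sum_sub_distrib, Finset.sum_const, nsmul_eq_mul]
  field_simp
  ring

theorem avt_le (h : HNet S N) (hpr : Pairs N) (i : ZMod 3) {z : ℂ → ℂ} {B : ℝ}
    (hB : ∀ t ∈ N.T, ‖z t.1‖ ≤ B) : ‖avt N i z‖ ≤ B := by
  unfold avt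
  have h0 : (0 : ℝ) < ((EE N i).card : ℝ) := by exact_mod_cast Hitx848.EE_pos hpr i
  rw [norm_div, Complex.norm_natCast, div_le_iff₀ h0]
  refine (norm_sum_le _ _).trans ?_
  have : ∀ J ∈ EE N i, ‖z (tch N i J)‖ ≤ B := by
    intro J hJ
    have h1 := (Finset.mem_filter.1 (tch_mem h hpr hJ)).1
    obtain ⟨t, ht, e⟩ := Finset.mem_image.1 h1
    rw [← e]
    exact hB t ht
  refine (Finset.sum_le_sum this).trans ?_
  rw [Finset.sum_const, nsmul_eq_mul, mul_comm]

theorem norm_omz (i : ZMod 3) : ‖omz i‖ = 1 := by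
  unfold omz om
  rw [norm_pow, Complex.norm_exp_ofReal_mul_I, one_pow]

theorem sum_omz : ∑ i : ZMod 3, omz i = 0 := by
  have := Bsumx848.om_sum
  have h0 : (0 : ZMod 3).val = 0 := rfl
  have h1 : (1 : ZMod 3).val = 1 := rfl
  have h2 : (2 : ZMod 3).val = 2 := rfl
  have e : ∑ i : ZMod 3, omz i = omz 0 + omz 1 + omz 2 := by
    exact Fin.sum_univ_three (fun i : Fin 3 => omz i)
  rw [e]
  unfold omz
  rw [h0, h1, h2, pow_zero, pow_one]
  exact this

/-- the weighted sum of an explored net is bounded by the oscillation of `z` -/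
theorem Y_le (h : HNet S N)
    (hkl : ∀ a b : ℂ, (a, b) ∈ N.kl → (a, b) ∈ N.E → ∃ i, Side N i a)
    {x : St ℂ} (hok : Ok N x.1 x.2) {z : ℂ → ℂ} {z0 : ℂ} {B : ℝ} (hB0 : 0 ≤ B)
    (hB : ∀ t ∈ N.T, ‖z t.1 - z0‖ ≤ B) : ‖Y S N (rr z) x‖ ≤ 9 * B := by
  by_cases hA : Alive S N x
  · have hpr := alive_pairs h hok hA
    have hN := hnet_ok h hok (alive_ex2 hA)
    rw [Y_hit h hkl hok hA z]
    have e1 : ∑ i : ZMod 3, omz i * avt (knet N x.1) i z =
        ∑ i : ZMod 3, omz i * avt (knet N x.1) i (fun v => z v - z0) := by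
      have : ∀ i : ZMod 3, omz i * avt (knet N x.1) i z =
          omz i * avt (knet N x.1) i (fun v => z v - z0) + omz i * z0 := by
        intro i
        rw [avt_sub hpr i z z0]
        ring
      rw [Finset.sum_congr rfl (fun i _ => this i), Finset.sum_add_distrib, ← Finset.sum_mul,
        sum_omz, zero_mul, add_zero]
    rw [e1, norm_mul]
    have e2 : ‖∑ i : ZMod 3, omz i * avt (knet N x.1) i (fun v => z v - z0)‖ ≤ 3 * B := by
      refine (norm_sum_le _ _).trans ?_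
      have : ∀ i : ZMod 3, ‖omz i * avt (knet N x.1) i (fun v => z v - z0)‖ ≤ B := by
        intro i
        rw [norm_mul, norm_omz, one_mul]
        exact avt_le hN hpr i hB
      refine (Finset.sum_le_sum fun i _ => this i).trans ?_
      rw [Finset.sum_const, nsmul_eq_mul]
      have : (Finset.univ : Finset (ZMod 3)).card = 3 := rfl
      rw [this]
      push_cast
      exact le_refl _
    have e3 : ‖(3 : ℂ)‖ = 3 := by norm_num
    rw [e3]
    linarith
  · have : Y S N (rr z) x = 0 := by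
      unfold Y
      refine Finset.sum_eq_zero fun t ht => ?_
      have : Qx N x.1 t = 0 := by
        by_contra h'
        exact hA ⟨t, ht, h'⟩
      rw [this, mul_zero]
    rw [this, norm_zero]
    linarith

end Crest.Agent.R143.Mabx377
end
end

-- ▼ part R143/ClsA_697
section

/-!
# Row 143 (S0194), block D: classes and sides for admissible domains (helper697)

`ClsC_697` with the output of D2 (722) for every admissible domain `D.Ad δ`.
-/

set_option autoImplicit false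

noncomputable section

open scoped Classical

namespace Crest.Agent.R143.ClsAx697

open Set
open Crest.Agent.R143.B0x346 Crest.Agent.R143.B0Dx346 Crest.Agent.R143.Cfgx416
open Crest.Agent.R143.Sidesx697

variable {D : Dom} {δ d : ℝ} {S : Finset ℂ}




/-- a killed edge is on a side -/
theorem kill_side (hD : D.Ad δ) (hS : DomAx722.Dns S D.c D.L d)
    (hd : 40000 * D.L ^ 5 * d ≤ δ ^ 6) (a b c : ℂ) (ht : (a, b, c) ∈ (D.netS S).T)
    (hk : (a, b) ∈ (D.netS S).kl) : ∃ i, Side (D.netS S) i a := by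
  obtain ⟨n, C, hn, hC, rfl⟩ := hD
  exact ClsCx697.kill_side hn (DomEx722.out_S hn hC hS hd) a b c ht hk


end Crest.Agent.R143.ClsAx697
end
end

-- ▼ part R143/Bnd_377

/-!
# Row 143, STEP 4: leaf BND (bounded totals of the explored networks)

* `Y_diff` : `Y S N (fun t => z t.2.1 - z t.1) x = (1 - om) / 3 * Y S N (rr z) x`
* `hkl_dom` : the killed edges of a domain network are attached to the sides
* `bnd_we`, `bnd_wd` : `BND we Adm`, `BND wd Adm`
-/

set_option autoImplicit false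

noncomputable section

open scoped Classical

namespace Crest.Agent.R143.Mabx377

open Complex Set Filter Topology MeasureTheory
open Crest.ProbabilityR.Voronoi
open Crest.Agent.R143.B0x346 Crest.Agent.R143.B0Dx346 Crest.Agent.R143.JCardx872
  Crest.Agent.R143.JWalkx872
  Crest.Agent.R143.J1x872 Crest.Agent.R143.J4x872 Crest.Agent.R143.Oscx63
open Crest.Agent.R143.Sidesx697 (Wall Side)
open Crest.Agent.R143.Bsumx848 (rr TT rot3 sum_rot3)
open Crest.Agent.R143.B6Ix903 (net)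
open Crest.Agent.R143.Locx922 Crest.Agent.R143.PP1x831
open Crest.Agent.R143.DicCx831 (rad_small rad_pos ev_unit)
open Crest.Agent.R143.DicDx831 (hnet_ev good_ev)
open Crest.Agent.R143.AsmNx758 (Bad BND we wd)

/-! ### weights -/

theorem q_rot3 (N : Net ℂ) (L : Pt ℂ) (t : ℂ × ℂ × ℂ) : Qx N L (rot3 t) = om * Qx N L t := by
  obtain ⟨a, b, c⟩ := t
  unfold Qx rot3
  split_ifs with h
  · rw [mul_zero]
  · exact q_rot (N := knet N L) a b c

/-- the weight `z b - z a` -/
theorem Y_diff {S : Finset ℂ} {N : Net ℂ} (h : HNet S N) (z : ℂ → ℂ) (x : St ℂ) :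
    Y S N (fun t => z t.2.1 - z t.1) x = (1 - om) / 3 * Y S N (rr z) x := by
  have h3 := om_cube
  have key : ∀ f : ℂ × ℂ × ℂ → ℂ, 3 * ∑ t ∈ N.T, f t =
      ∑ t ∈ N.T, (f t + f (rot3 t) + f (rot3 (rot3 t))) := by
    intro f
    rw [Finset.sum_add_distrib, Finset.sum_add_distrib, sum_rot3 (N := N) f,
      sum_rot3 (N := N) (fun t => f (rot3 t)), sum_rot3 (N := N) f]
    ring
  unfold Y
  rw [← h.tri]
  have e1 := key (fun t => (z t.2.1 - z t.1) * Qx N x.1 t)
  have e2 : ∑ t ∈ N.T, ((z t.2.1 - z t.1) * Qx N x.1 t +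
      (z (rot3 t).2.1 - z (rot3 t).1) * Qx N x.1 (rot3 t) +
      (z (rot3 (rot3 t)).2.1 - z (rot3 (rot3 t)).1) * Qx N x.1 (rot3 (rot3 t))) =
      (1 - om) * ∑ t ∈ N.T, rr z t * Qx N x.1 t := by
    rw [Finset.mul_sum]
    refine Finset.sum_congr rfl fun t _ => ?_
    have a1 := q_rot3 N x.1 t
    have a2 := q_rot3 N x.1 (rot3 t)
    rw [a1] at a2
    rw [a2, a1]
    unfold rr rot3
    simp only
    linear_combination (z t.1 * Qx N x.1 t) * h3
  rw [e2] at e1
  linear_combination e1 / 3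

theorem norm_one_sub_om : ‖(1 : ℂ) - om‖ ≤ 2 := by
  refine (norm_sub_le _ _).trans ?_
  have : ‖om‖ = 1 := by
    unfold om
    rw [Complex.norm_exp_ofReal_mul_I]
  rw [this, norm_one]
  norm_num

/-- bound of the totals with the weight `z b - z a` -/
theorem Y_diff_le {S : Finset ℂ} {N : Net ℂ} (h : HNet S N)
    (hkl : ∀ a b : ℂ, (a, b) ∈ N.kl → (a, b) ∈ N.E → ∃ i, Side N i a)
    {x : St ℂ} (hok : Ok N x.1 x.2) {z : ℂ → ℂ} {z0 : ℂ} {B : ℝ} (hB0 : 0 ≤ B)
    (hB : ∀ t ∈ N.T, ‖z t.1 - z0‖ ≤ B) : ‖Y S N (fun t => z t.2.1 - z t.1) x‖ ≤ 6 * B := by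
  rw [Y_diff h z x, norm_mul, norm_div]
  have h1 := Y_le h hkl hok hB0 hB
  have h2 := norm_one_sub_om
  have h3 : ‖(3 : ℂ)‖ = 3 := by norm_num
  rw [h3]
  have h4 : ‖(1 : ℂ) - om‖ / 3 ≤ 2 / 3 := by linarith
  calc ‖(1 : ℂ) - om‖ / 3 * ‖Y S N (rr z) x‖ ≤ 2 / 3 * (9 * B) :=
        mul_le_mul h4 h1 (norm_nonneg _) (by norm_num)
    _ = 6 * B := by ring

/-! ### domains -/

/-- the killed edges of a domain network are attached to the sides -/
theorem hkl_dom {D : Dom} {δ d : ℝ} {S : Finset ℂ} (hD : D.Ad δ) (hS : DomAx722.Dns S D.c D.L d)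
    (hd : 40000 * D.L ^ 5 * d ≤ δ ^ 6) (hN : HNet S (D.netS S)) :
    ∀ a b : ℂ, (a, b) ∈ (D.netS S).kl → (a, b) ∈ (D.netS S).E →
      ∃ i, Side (D.netS S) i a := by
  intro a b hk hE
  unfold Trg.E at hE
  rw [Finset.mem_union, Finset.mem_image, Finset.mem_image] at hE
  rcases hE with ⟨t, ht, e⟩ | ⟨t, ht, e⟩
  · rw [Prod.mk.injEq] at e
    obtain ⟨rfl, rfl⟩ := e
    exact ClsAx697.kill_side hD hS hd _ _ _ ht hk
  · rw [Prod.mk.injEq] at e
    obtain ⟨rfl, rfl⟩ := e
    have hk' := (D.netS S).klsym _ _ hk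
    obtain ⟨i, hi⟩ := ClsAx697.kill_side hD hS hd _ _ _ ht hk'
    have hw := Massx848.wall_of_kl hN ht hk'
    exact ⟨i, Relation.ReflTransGen.tail hi hw⟩

/-- the totals of the explored networks of a good environment are bounded -/
theorem tot_ev {D : Dom} {δ C : ℝ} (hD' : D.Ad δ) (hC : 0 < C) :
    ∀ᶠ ε : ℝ in 𝓝[>] 0, ∀ (K a C4 : ℝ) (ω : Sample), Y0x831.Good D ε C K a C4 ω →
      ∀ (x : St ℂ), Ok (net D ε ω) x.1 x.2 →
        ‖Y (D.sites ε ω) (net D ε ω) we x‖ ≤ 6 * D.L ∧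
        ‖Y (D.sites ε ω) (net D ε ω) wd x‖ ≤ 6 * D.L := by
  have hD := hD'.w
  have hδ := hD.dpos
  have hL := hD.Lpos
  filter_upwards [hnet_ev hD hC, (rad_small C).eventually
    (ge_mem_nhds (show (0 : ℝ) < δ ^ 6 / (40000 * D.L ^ 5) by positivity))]
    with ε h1 h K a C4 ω hω x hx
  rw [le_div_iff₀ (by positivity)] at h
  have hd : 40000 * D.L ^ 5 * rad C ε ≤ δ ^ 6 := by linarith
  have hN := h1 K a C4 ω hω
  have hS := DomAx722.dns_of_env hL
    (DomAx722.small_d hL hδ hD.lt.le hd) hω.env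
  have hkl := hkl_dom hD' hS hd hN
  have hB : ∀ t ∈ (net D ε ω).T, ‖t.1 - D.c‖ ≤ D.L := by
    intro t ht
    rw [hN.tri] at ht
    unfold delT at ht
    rw [Finset.mem_filter, Finset.mem_product] at ht
    exact hS.sub _ ht.1.1
  constructor
  · exact Y_diff_le hN hkl hx (z := fun v => v) (z0 := D.c) hL.le hB
  · have hw : (wd : ℂ × ℂ × ℂ → ℂ) =
        fun t => (starRingEnd ℂ) t.2.1 - (starRingEnd ℂ) t.1 := by
      funext t
      unfold wd
      rw [map_sub]
    rw [hw]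
    refine Y_diff_le hN hkl hx (z := fun v => (starRingEnd ℂ) v) (z0 := (starRingEnd ℂ) D.c)
      hL.le ?_
    intro t ht
    rw [← map_sub, Complex.norm_conj]
    exact hB t ht

theorem bnd_of {Adm : Dom → ℝ → Prop} (hAdm : ∀ D δ, Adm D δ → D.Ad δ)
    {w : ℂ × ℂ × ℂ → ℂ} (hw : ∀ (D : Dom) (δ C : ℝ), D.Ad δ → 0 < C →
      ∀ᶠ ε : ℝ in 𝓝[>] 0, ∀ (K a C4 : ℝ) (ω : Sample), Y0x831.Good D ε C K a C4 ω →
        ∀ (x : St ℂ), Ok (net D ε ω) x.1 x.2 →
          ‖Y (D.sites ε ω) (net D ε ω) w x‖ ≤ 6 * D.L) : BND w Adm := by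
  intro D δ hD m hm r hr z hz hli
  have hOK := hAdm D δ hD
  have hL := hOK.w.Lpos
  refine ⟨6 * D.L, by positivity, ?_⟩
  intro l hl hlr η hη
  obtain ⟨C, K, a, C4, hC, hK, ha, hC4, hgood⟩ := good_ev D hL
  filter_upwards [hgood, hw D δ C hOK hC, hnet_ev hOK.w hC,
    (tendsto_id.mono_left nhdsWithin_le_nhds : Tendsto (fun ε : ℝ => ε) (𝓝[>] 0) (𝓝 0)).eventually
      (ge_mem_nhds hη)] with ε g0 g1 g2 g3
  refine (measure_mono ?_).trans (g0.trans (ENNReal.ofReal_le_ofReal g3))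
  rintro ω ⟨J, hJ, j, _, _, _, hj⟩ hω
  have hN := g2 K a C4 ω hω
  have h1 := g1 K a C4 ω hω _ (xs_ok (good_of_hnet hN) (l := l) hJ j)
  linarith

/-- **leaf BND**, weight `we` -/
theorem bnd_we {Adm : Dom → ℝ → Prop} (hAdm : ∀ D δ, Adm D δ → D.Ad δ) : BND we Adm :=
  bnd_of hAdm fun D δ C hD hC => by
    filter_upwards [tot_ev hD hC] with ε h K a C4 ω hω x hx
    exact (h K a C4 ω hω x hx).1

/-- **leaf BND**, weight `wd` -/
theorem bnd_wd {Adm : Dom → ℝ → Prop} (hAdm : ∀ D δ, Adm D δ → D.Ad δ) : BND wd Adm :=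
  bnd_of hAdm fun D δ C hD hC => by
    filter_upwards [tot_ev hD hC] with ε h K a C4 ω hω x hx
    exact (h K a C4 ω hω x hx).2

end Crest.Agent.R143.Mabx377
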