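import Crest.Agent.R143.Jan_304

/-!
# R143 (helper279): independence of the coloured Poisson configuration over disjoint regions

Notation of `PP0x831` : `cfg ε ω` coloured configuration, `LocalOn B f`, `FinMeas f`.

* `Cn E = Σ n, (Fin n → E)`, `st x` = the finite set of the entries, `PP μ` = law of the Poisson
  configuration of intensity `μ` on `Cn E` (probability measure), `lint_PP : ∫⁻ G (st x) = J μ G`
* `law ε B` = law of the coloured configuration in `B`
* `meas_fun` : `ω ↦ f (cfg ε ω)` is measurable (any codomain)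
* `map_one`, `map_two` (`map_three` in `IndLoc2_279`) : TRANSFER: the law of `f (cfg ε ω)`, `f` local on the disjoint
  union of bounded Borel sets, is the law of `f (st x ∪ st y ∪ st z)` under the product measure
* `lint_mul`, `indepFun`, `meas_inter` : INDEP

-/

set_option autoImplicit false

noncomputable section

namespace Crest.Agent.R143.IndLocx279

open MeasureTheory Set ProbabilityTheory
open Crest.ProbabilityR.Voronoi
open Crest.Agent.R143.PP0x831 Crest.Agent.R143.Poisx304 Crest.Agent.R143.Janx304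
open scoped ENNReal Nat

/-! ## the Poisson law on finite sequences -/

section general

variable {E : Type*} [MeasurableSpace E]

/-- finite sequences -/
abbrev Cn (E : Type*) : Type _ := Σ n : ℕ, (Fin n → E)

/-- the set of the entries -/
def st (x : Cn E) : Set E := range x.2

/-- a sequence of length `n` -/
def mk (n : ℕ) (z : Fin n → E) : Cn E := ⟨n, z⟩

/-- Poisson law of intensity `μ` -/
def PP (μ : Measure E) : Measure (Cn E) :=
  Measure.sum fun n : ℕ => (ENNReal.ofReal (Real.exp (-(μ univ).toReal)) * (n ! : ℝ≥0∞)⁻¹) •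
    (Measure.pi fun _ : Fin n => μ).map (mk n)

lemma meas_iff {s : Set (Cn E)} :
    MeasurableSet s ↔ ∀ n : ℕ, MeasurableSet (mk (E := E) n ⁻¹' s) := by
  change MeasurableSet[⨅ a, (inferInstance : MeasurableSpace (Fin a → E)).map (Sigma.mk a)] s ↔ _
  rw [MeasurableSpace.measurableSet_iInf]
  rfl

lemma measurable_mk (n : ℕ) : Measurable (mk n : (Fin n → E) → Cn E) := by
  intro s hs
  exact meas_iff.1 hs n

lemma measurable_cn {X : Type*} [MeasurableSpace X] {f : Cn E → X}
    (h : ∀ n : ℕ, Measurable fun z : Fin n → E => f (mk n z)) : Measurable f := by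
  intro s hs
  exact meas_iff.2 fun n => h n hs

lemma meas_st {X : Type*} [MeasurableSpace X] {f : Set E → X}
    (h : ∀ n : ℕ, Measurable fun z : Fin n → E => f (range z)) : Measurable fun x : Cn E => f (st x) :=
  measurable_cn h

lemma lint_PP (μ : Measure E) {G : Set E → ℝ≥0∞} (hG : FM G) :
    ∫⁻ x, G (st x) ∂(PP μ) = J μ G := by
  unfold PP J Q P
  rw [lintegral_sum_measure, ← ENNReal.tsum_mul_left]
  refine tsum_congr fun n => ?_
  rw [lintegral_smul_measure, lintegral_map (meas_st hG) (measurable_mk n), smul_eq_mul, mul_assoc]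
  rfl

instance (μ : Measure E) [IsFiniteMeasure μ] : IsProbabilityMeasure (PP μ) := ⟨by
  have h : FM (fun _ : Set E => (1 : ℝ≥0∞)) := fun n => measurable_const
  have h1 := lint_PP μ h
  rw [J_const, lintegral_const, one_mul] at h1
  exact h1⟩

lemma J_congr {μ : Measure E} [SigmaFinite μ] {A : Set E} (hA : ∀ᵐ z ∂μ, z ∈ A)
    {F G : Set E → ℝ≥0∞} (h : ∀ S, S ⊆ A → F S = G S) : J μ F = J μ G := by
  unfold J Q P
  congr 1
  refine tsum_congr fun n => ?_
  congr 1
  have hae : ∀ᵐ z ∂(Measure.pi fun _ : Fin n => μ), ∀ i, z i ∈ A := by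
    rw [ae_all_iff]
    intro i
    exact (Measure.quasiMeasurePreserving_eval (fun _ : Fin n => μ) i).ae hA
  refine lintegral_congr_ae ?_
  filter_upwards [hae] with z hz
  exact h _ (by rintro _ ⟨i, rfl⟩; exact hz i)

end general

/-! ## the law in a region -/

/-- intensity in `B` -/
def mu (ε : ℝ) (B : Set ℂ) : Measure (ℂ × Bool) :=
  ((ENNReal.ofReal (ε ^ 2))⁻¹ • volume.restrict B).prod coin

/-- law of the coloured configuration in `B` -/
def law (ε : ℝ) (B : Set ℂ) : Measure (Cn (ℂ × Bool)) := PP (mu ε B)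

lemma finite_mu' {ε : ℝ} (hε : 0 < ε) {B : Set ℂ} (hb : Bornology.IsBounded B) :
    IsFiniteMeasure (mu ε B) := by
  have := finite_mu hε hb
  unfold mu
  infer_instance

lemma prob_law {ε : ℝ} (hε : 0 < ε) {B : Set ℂ} (hb : Bornology.IsBounded B) :
    IsProbabilityMeasure (law ε B) := by
  have := finite_mu' hε hb
  unfold law
  infer_instance

lemma mu_ae {ε : ℝ} (hε : 0 < ε) {B : Set ℂ} (hB : MeasurableSet B) (hb : Bornology.IsBounded B) :
    ∀ᵐ z ∂(mu ε B), z ∈ ovr B := by
  have := finite_mu hε hb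
  have h1 : ∀ᵐ z ∂((ENNReal.ofReal (ε ^ 2))⁻¹ • (volume : Measure ℂ).restrict B), z ∈ B :=
    Measure.ae_smul_measure (ae_restrict_mem hB) _
  exact (Measure.quasiMeasurePreserving_fst (μ := (ENNReal.ofReal (ε ^ 2))⁻¹ •
    (volume : Measure ℂ).restrict B) (ν := coin)).ae h1

lemma mu_union {ε : ℝ} (hε : 0 < ε) {B B' : Set ℂ} (hB' : MeasurableSet B')
    (hb : Bornology.IsBounded B) (hb' : Bornology.IsBounded B') (hd : Disjoint B B') :
    mu ε (B ∪ B') = mu ε B + mu ε B' := by
  have := finite_mu hε hb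
  have := finite_mu hε hb'
  unfold mu
  rw [Measure.restrict_union hd hB', smul_add, Measure.add_prod]

lemma lint_one {ε : ℝ} (hε : 0 < ε) {B : Set ℂ} (hB : MeasurableSet B)
    (hb : Bornology.IsBounded B) {F : Set (ℂ × Bool) → ℝ≥0∞} (hF : LocalOn B F)
    (hm : FinMeas F) : ∫⁻ ω, F (cfg ε ω) ∂sampleLaw = J (mu ε B) F := by
  rw [(jan ε hε B hB hb F hF hm).2]
  exact (J_eq_janossy hε hb hm).symm

lemma LocalOn.mono {X : Type*} {B B' : Set ℂ} (h : B ⊆ B') {F : Set (ℂ × Bool) → X}
    (hF : LocalOn B F) : LocalOn B' F := by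
  intro S
  rw [hF S, hF (S ∩ {p | p.1 ∈ B'})]
  congr 1
  ext p
  simp only [mem_inter_iff, mem_ofPred_eq]
  constructor
  · rintro ⟨h1, h2⟩; exact ⟨⟨h1, h h2⟩, h2⟩
  · rintro ⟨⟨h1, -⟩, h2⟩; exact ⟨h1, h2⟩

lemma LocalOn.comp {X Y : Type*} {B : Set ℂ} {F : Set (ℂ × Bool) → X} (hF : LocalOn B F)
    (f : X → Y) : LocalOn B fun S => f (F S) := fun S => congrArg f (hF S)

lemma LocalOn.mul {B : Set ℂ} {F G : Set (ℂ × Bool) → ℝ≥0∞} (hF : LocalOn B F)
    (hG : LocalOn B G) : LocalOn B fun S => F S * G S := fun S => by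
  simp only [← hF S, ← hG S]


lemma meas_fun {X : Type*} [MeasurableSpace X] {ε : ℝ} (hε : 0 < ε) {B : Set ℂ}
    (hB : MeasurableSet B) (hb : Bornology.IsBounded B) {f : Set (ℂ × Bool) → X}
    (hf : LocalOn B f) (hm : FinMeas f) : Measurable fun ω => f (cfg ε ω) := by
  classical
  intro s hs
  have h1 := (jan ε hε B hB hb (fun S => s.indicator (fun _ => (1 : ℝ≥0∞)) (f S))
    (LocalOn.comp hf _) (fun n => (measurable_const.indicator hs).comp (hm n))).1
  have h2 : (fun ω => f (cfg ε ω)) ⁻¹' s =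
      (fun ω => s.indicator (fun _ => (1 : ℝ≥0∞)) (f (cfg ε ω))) ⁻¹' {1} := by
    ext ω
    by_cases h : f (cfg ε ω) ∈ s <;> simp [h]
  rw [h2]
  exact h1 (measurableSet_singleton _)


lemma union_meas' {X : Type*} [MeasurableSpace X] {f : Set (ℂ × Bool) → X} (hm : FinMeas f)
    (k m : ℕ) : Measurable fun p : (Fin k → ℂ × Bool) × (Fin m → ℂ × Bool) =>
      f (range p.1 ∪ range p.2) := by
  have := (hm (k + m)).comp (measurable_app (E := ℂ × Bool) (k := k) (m := m))
  simpa only [Function.comp_def, range_app] using this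

lemma measurable_cn2 {E X : Type*} [MeasurableSpace E] [MeasurableSpace X] {f : Cn E × Cn E → X}
    (h : ∀ k m : ℕ, Measurable fun z : (Fin k → E) × (Fin m → E) => f (⟨k, z.1⟩, ⟨m, z.2⟩)) :
    Measurable f := by
  intro s hs
  have h1 : f ⁻¹' s = ⋃ k : ℕ, ⋃ m : ℕ,
      (fun z : (Fin k → E) × (Fin m → E) => ((⟨k, z.1⟩, ⟨m, z.2⟩) : Cn E × Cn E)) ''
        ((fun z : (Fin k → E) × (Fin m → E) => f (⟨k, z.1⟩, ⟨m, z.2⟩)) ⁻¹' s) := by
    ext ⟨⟨k, x⟩, ⟨m, y⟩⟩
    simp only [mem_preimage, mem_iUnion, mem_image]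
    constructor
    · intro hx
      exact ⟨k, m, (x, y), hx, rfl⟩
    · rintro ⟨k', m', z, hz, he⟩
      rw [← he]; exact hz
  rw [h1]
  refine MeasurableSet.iUnion fun k => MeasurableSet.iUnion fun m => ?_
  have e : MeasurableEmbedding
      (fun z : (Fin k → E) × (Fin m → E) => ((⟨k, z.1⟩, ⟨m, z.2⟩) : Cn E × Cn E)) := by
    have hk : ∀ n : ℕ, MeasurableEmbedding (mk n : (Fin n → E) → Cn E) := by
      intro n
      have hi : Function.Injective (mk n : (Fin n → E) → Cn E) := fun a b h => by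
        have h' : (⟨n, a⟩ : Cn E) = ⟨n, b⟩ := h
        simpa using h'
      refine ⟨hi, measurable_mk n, ?_⟩
      intro t ht
      refine meas_iff.2 fun j => ?_
      by_cases hj : j = n
      · subst hj
        rw [preimage_image_eq _ hi]; exact ht
      · have : mk j ⁻¹' (mk n '' t : Set (Cn E)) = ∅ := by
          ext z
          simp only [mem_preimage, mem_image, mem_empty_iff_false, iff_false]
          rintro ⟨w, -, hw⟩
          exact hj (congrArg Sigma.fst hw).symm
        rw [this]; exact MeasurableSet.empty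
    exact (hk k).prodMap (hk m)
  exact e.measurableSet_image.2 (h k m hs)

lemma meas_st2 {X : Type*} [MeasurableSpace X] {f : Set (ℂ × Bool) → X} (hm : FinMeas f) :
    Measurable fun p : Cn (ℂ × Bool) × Cn (ℂ × Bool) => f (st p.1 ∪ st p.2) :=
  measurable_cn2 fun k m => union_meas' hm k m

/-- **TRANSFER, two regions** (`lintegral` form) -/
theorem lint_two {ε : ℝ} (hε : 0 < ε) {B B' : Set ℂ} (hB : MeasurableSet B)
    (hb : Bornology.IsBounded B) (hB' : MeasurableSet B') (hb' : Bornology.IsBounded B')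
    (hd : Disjoint B B') {F : Set (ℂ × Bool) → ℝ≥0∞} (hF : LocalOn (B ∪ B') F) (hm : FinMeas F) :
    ∫⁻ ω, F (cfg ε ω) ∂sampleLaw = ∫⁻ x, ∫⁻ y, F (st x ∪ st y) ∂(law ε B') ∂(law ε B) := by
  have := finite_mu' hε hb
  have := finite_mu' hε hb'
  have hm' : FM F := hm
  rw [lint_one hε (hB.union hB') (hb.union hb') hF hm, mu_union hε hB' hb hb' hd,
    J_add _ _ hm', ← lint_PP (mu ε B) hm'.J]
  unfold law
  refine lintegral_congr fun x => ?_
  rw [← lint_PP (mu ε B')]
  intro n
  obtain ⟨k, z⟩ := x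
  exact hm'.union_range z n

/-- **TRANSFER, two regions** -/
theorem map_two {X : Type*} [MeasurableSpace X] {ε : ℝ} (hε : 0 < ε) {B B' : Set ℂ}
    (hB : MeasurableSet B) (hb : Bornology.IsBounded B) (hB' : MeasurableSet B')
    (hb' : Bornology.IsBounded B') (hd : Disjoint B B') {f : Set (ℂ × Bool) → X}
    (hf : LocalOn (B ∪ B') f) (hm : FinMeas f) :
    sampleLaw.map (fun ω => f (cfg ε ω)) =
      ((law ε B).prod (law ε B')).map fun p => f (st p.1 ∪ st p.2) := by
  have := prob_law hε hb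
  have := prob_law hε hb'
  ext s hs
  have h1 : FinMeas fun S => s.indicator (fun _ => (1 : ℝ≥0∞)) (f S) :=
    fun n => (measurable_const.indicator hs).comp (hm n)
  have h2 := lint_two hε hB hb hB' hb' hd (F := fun S => s.indicator (fun _ => (1 : ℝ≥0∞)) (f S))
    (LocalOn.comp hf _) h1
  rw [← lintegral_prod (f := fun p : Cn (ℂ × Bool) × Cn (ℂ × Bool) =>
    s.indicator (fun _ => (1 : ℝ≥0∞)) (f (st p.1 ∪ st p.2))) ((meas_st2 h1).aemeasurable)] at h2
  have h3 : ∀ {Y : Type} [MeasurableSpace Y] (ν : Measure Y) (g : Y → X), Measurable g →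
      ∫⁻ y, s.indicator (fun _ => (1 : ℝ≥0∞)) (g y) ∂ν = ν.map g s := by
    intro Y _ ν g hg
    rw [Measure.map_apply hg hs, ← lintegral_indicator_one (hg hs)]
    rfl
  rw [h3 _ _ (meas_fun hε (hB.union hB') (hb.union hb') hf hm), h3 _ _ (meas_st2 hm)] at h2
  exact h2

/-- **INDEP** (`lintegral` form) -/
theorem lint_mul {ε : ℝ} (hε : 0 < ε) {B B' : Set ℂ} (hB : MeasurableSet B)
    (hb : Bornology.IsBounded B) (hB' : MeasurableSet B') (hb' : Bornology.IsBounded B')
    (hd : Disjoint B B') {F G : Set (ℂ × Bool) → ℝ≥0∞} (hF : LocalOn B F) (hG : LocalOn B' G)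
    (hm : FinMeas F) (hm' : FinMeas G) :
    ∫⁻ ω, F (cfg ε ω) * G (cfg ε ω) ∂sampleLaw =
      (∫⁻ ω, F (cfg ε ω) ∂sampleLaw) * ∫⁻ ω, G (cfg ε ω) ∂sampleLaw := by
  have := finite_mu' hε hb
  have := finite_mu' hε hb'
  have hl : LocalOn (B ∪ B') fun S => F S * G S :=
    LocalOn.mul (LocalOn.mono subset_union_left hF) (LocalOn.mono subset_union_right hG)
  have hmm : FM fun S => F S * G S := fun n => (hm n).mul (hm' n)
  rw [lint_one hε (hB.union hB') (hb.union hb') hl hmm, mu_union hε hB' hb hb' hd, J_add _ _ hmm,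
    lint_one hε hB hb hF hm, lint_one hε hB' hb' hG hm']
  have h1 : J (mu ε B) (fun S => J (mu ε B') fun T => F (S ∪ T) * G (S ∪ T)) =
      J (mu ε B) fun S => F S * J (mu ε B') G := by
    refine J_congr (mu_ae hε hB hb) fun S hS => ?_
    have h2 : J (mu ε B') (fun T => F (S ∪ T) * G (S ∪ T)) =
        J (mu ε B') fun T => F S * G T := by
      refine J_congr (mu_ae hε hB' hb') fun T hT => ?_
      have hSB : ∀ p ∈ S, p.1 ∉ B' := fun p hp h => (Set.disjoint_left.1 hd) (hS hp) h
      have hTB : ∀ p ∈ T, p.1 ∉ B := fun p hp h => (Set.disjoint_left.1 hd) h (hT hp)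
      have e1 : F (S ∪ T) = F S := by
        rw [hF (S ∪ T), hF S]
        congr 1
        ext p
        simp only [mem_inter_iff, mem_union, mem_ofPred_eq]
        constructor
        · rintro ⟨h | h, h'⟩
          · exact ⟨h, h'⟩
          · exact absurd h' (hTB p h)
        · rintro ⟨h, h'⟩; exact ⟨Or.inl h, h'⟩
      have e2 : G (S ∪ T) = G T := by
        rw [hG (S ∪ T), hG T]
        congr 1
        ext p
        simp only [mem_inter_iff, mem_union, mem_ofPred_eq]
        constructor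
        · rintro ⟨h | h, h'⟩
          · exact absurd h' (hSB p h)
          · exact ⟨h, h'⟩
        · rintro ⟨h, h'⟩; exact ⟨Or.inr h, h'⟩
      rw [e1, e2]
    rw [h2]
    have hm'' : FM G := hm'
    rw [← lint_PP _ (hm''.const_mul (F S)), ← lint_PP _ hm'',
      lintegral_const_mul _ (meas_st hm'')]
  rw [h1, ← lint_PP (mu ε B) (show FM F from hm),
    ← lint_PP (mu ε B) (G := fun S => F S * J (mu ε B') G) (fun n => (hm n).mul_const _),
    lintegral_mul_const _ (meas_st (show FM F from hm))]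

/-- **INDEP** (functions with values in any measurable space) -/
theorem indepFun {X Y : Type*} [MeasurableSpace X] [MeasurableSpace Y] {ε : ℝ} (hε : 0 < ε)
    {B B' : Set ℂ} (hB : MeasurableSet B) (hb : Bornology.IsBounded B) (hB' : MeasurableSet B')
    (hb' : Bornology.IsBounded B') (hd : Disjoint B B') {f : Set (ℂ × Bool) → X}
    {g : Set (ℂ × Bool) → Y} (hf : LocalOn B f) (hg : LocalOn B' g) (hm : FinMeas f)
    (hm' : FinMeas g) :
    IndepFun (fun ω => f (cfg ε ω)) (fun ω => g (cfg ε ω)) sampleLaw := by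
  rw [indepFun_iff_measure_inter_preimage_eq_mul]
  intro s t hs ht
  have hsm : FinMeas fun S => s.indicator (fun _ => (1 : ℝ≥0∞)) (f S) :=
    fun n => (measurable_const.indicator hs).comp (hm n)
  have htm : FinMeas fun S => t.indicator (fun _ => (1 : ℝ≥0∞)) (g S) :=
    fun n => (measurable_const.indicator ht).comp (hm' n)
  have h := lint_mul hε hB hb hB' hb' hd
    (F := fun S => s.indicator (fun _ => (1 : ℝ≥0∞)) (f S))
    (G := fun S => t.indicator (fun _ => (1 : ℝ≥0∞)) (g S))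
    (LocalOn.comp hf _) (LocalOn.comp hg _) hsm htm
  have mf := meas_fun hε hB hb hf hm
  have mg := meas_fun hε hB' hb' hg hm'
  have e1 : ∫⁻ ω, s.indicator (fun _ => (1 : ℝ≥0∞)) (f (cfg ε ω)) ∂sampleLaw =
      sampleLaw ((fun ω => f (cfg ε ω)) ⁻¹' s) := by
    rw [← lintegral_indicator_one (mf hs)]; rfl
  have e2 : ∫⁻ ω, t.indicator (fun _ => (1 : ℝ≥0∞)) (g (cfg ε ω)) ∂sampleLaw =
      sampleLaw ((fun ω => g (cfg ε ω)) ⁻¹' t) := by
    rw [← lintegral_indicator_one (mg ht)]; rfl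
  have e3 : ∫⁻ ω, s.indicator (fun _ => (1 : ℝ≥0∞)) (f (cfg ε ω)) *
      t.indicator (fun _ => (1 : ℝ≥0∞)) (g (cfg ε ω)) ∂sampleLaw =
      sampleLaw ((fun ω => f (cfg ε ω)) ⁻¹' s ∩ (fun ω => g (cfg ε ω)) ⁻¹' t) := by
    rw [← lintegral_indicator_one ((mf hs).inter (mg ht))]
    refine lintegral_congr fun ω => ?_
    classical
    by_cases h1 : f (cfg ε ω) ∈ s <;> by_cases h2 : g (cfg ε ω) ∈ t <;>
      simp [h1, h2, Set.indicator]
  rw [← e1, ← e2, ← e3]
  exact h

/-- **INDEP** for events -/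
theorem meas_inter {ε : ℝ} (hε : 0 < ε) {B B' : Set ℂ} (hB : MeasurableSet B)
    (hb : Bornology.IsBounded B) (hB' : MeasurableSet B') (hb' : Bornology.IsBounded B')
    (hd : Disjoint B B') {p q : Set (ℂ × Bool) → Prop} (hp : LocalOn B p) (hq : LocalOn B' q)
    (hm : FinMeas p) (hm' : FinMeas q) :
    sampleLaw {ω | p (cfg ε ω) ∧ q (cfg ε ω)} =
      sampleLaw {ω | p (cfg ε ω)} * sampleLaw {ω | q (cfg ε ω)} := by
  have h := (indepFun_iff_measure_inter_preimage_eq_mul.1
    (indepFun hε hB hb hB' hb' hd hp hq hm hm')) {True} {True} (by trivial) (by trivial)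
  have e : ∀ r : Set (ℂ × Bool) → Prop, (fun ω => r (cfg ε ω)) ⁻¹' {True} =
      {ω : Sample | r (cfg ε ω)} := by
    intro r; ext ω; simp
  rw [e, e] at h
  exact h

end Crest.Agent.R143.IndLocx279
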