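import Mathlib
import Crest.Agent.R143.IndLoc_279

-- ▼ part R143/IndLoc2_279
section

/-!
# R143 (helper279): independence over disjoint regions, part 2

* `lint_law_union` : the law in `B ∪ B'` as a product; `ae_st` : `st x ⊆ ovr B` almost surely
* `lint_three`, `map_three` : TRANSFER for three disjoint regions `B0, B1, B2`
* `lint_prod`, `meas_biInter` : finite families of pairwise disjoint regions
* `sig ε B` : the (explicit) sigma-algebra of the events local on `B`; `sig_le`, `sig_mono`,
  `meas_sig`, `indep_sig`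
* `inter_meas2`, `FinMeas_inter`, `local_inter` : restriction to a Borel set
* `cm`, `rig3` : the rigidity inequality: `X` local on `B0 ∪ B1`, `Y` local on `B0 ∪ B2`, events `S` local on
  `B0 ∪ B1`, `T` local on `B0 ∪ B2`
-/

set_option autoImplicit false

noncomputable section

namespace Crest.Agent.R143.IndLoc2x279

open MeasureTheory Set ProbabilityTheory
open Crest.ProbabilityR.Voronoi
open Crest.Agent.R143.PP0x831 Crest.Agent.R143.Poisx304 Crest.Agent.R143.Janx304
open Crest.Agent.R143.IndLocx279
open scoped ENNReal Nat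

variable {ε : ℝ}








/-! ## finite families -/




/-! ## the sigma-algebra of the events local on `B` -/

/-- events local on `B` -/
@[instance_reducible] def sig (ε : ℝ) (B : Set ℂ) : MeasurableSpace Sample where
  MeasurableSet' A := ∃ p : Set (ℂ × Bool) → Prop, LocalOn B p ∧ FinMeas p ∧
    A = {ω | p (cfg ε ω)}
  measurableSet_empty := ⟨fun _ => False, fun _ => rfl, fun _ => measurable_const, by simp⟩
  measurableSet_compl := by
    rintro A ⟨p, hp, hm, rfl⟩
    refine ⟨fun S => ¬ p S, fun S => congrArg Not (hp S), fun n => (hm n).not, ?_⟩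
    ext ω; simp
  measurableSet_iUnion := by
    intro A hA
    choose p hp hm he using hA
    refine ⟨fun S => ∃ n, p n S, fun S => ?_, fun n => Measurable.exists fun k => hm k n, ?_⟩
    · simp only [eq_iff_iff]
      exact exists_congr fun n => iff_of_eq (hp n S)
    · ext ω
      simp only [mem_iUnion, he]
      rfl

lemma sig_le (hε : 0 < ε) {B : Set ℂ} (hB : MeasurableSet B) (hb : Bornology.IsBounded B) :
    sig ε B ≤ (inferInstance : MeasurableSpace Sample) := by
  rintro A ⟨p, hp, hm, rfl⟩
  exact measurableSet_setOfPred.2 (meas_fun hε hB hb hp hm)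

lemma sig_mono {B B' : Set ℂ} (h : B ⊆ B') : sig ε B ≤ sig ε B' := by
  rintro A ⟨p, hp, hm, rfl⟩
  exact ⟨p, LocalOn.mono h hp, hm, rfl⟩

lemma meas_sig {X : Type*} [MeasurableSpace X] {B : Set ℂ} {f : Set (ℂ × Bool) → X}
    (hf : LocalOn B f) (hm : FinMeas f) : Measurable[sig ε B] fun ω : Sample => f (cfg ε ω) := by
  intro s hs
  refine ⟨fun S => f S ∈ s, fun S => ?_, fun n => ?_, rfl⟩
  · simp only [← hf S]
  · exact measurableSet_setOfPred.1 (hm n hs)

/-- **INDEP** for the sigma-algebras -/
theorem indep_sig (hε : 0 < ε) {B B' : Set ℂ} (hB : MeasurableSet B)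
    (hb : Bornology.IsBounded B) (hB' : MeasurableSet B') (hb' : Bornology.IsBounded B')
    (hd : Disjoint B B') : Indep (sig ε B) (sig ε B') sampleLaw := by
  rw [Indep_iff]
  rintro A A' ⟨p, hp, hm, rfl⟩ ⟨q, hq, hm', rfl⟩
  exact meas_inter hε hB hb hB' hb' hd hp hq hm hm'

/-! ## restriction to a Borel set -/

/-- two sets of points, the first one restricted to a Borel set -/
theorem inter_meas2 {X : Type*} [MeasurableSpace X] {f : Set (ℂ × Bool) → X} (hm : FinMeas f)
    {B : Set ℂ} (hB : MeasurableSet B) (n k : ℕ) :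
    Measurable fun q : (Fin n → ℂ × Bool) × (Fin k → ℂ × Bool) =>
      f ((range q.1 ∩ ovr B) ∪ range q.2) := by
  classical
  intro s hs
  have hA : MeasurableSet (ovr B) := by
    rw [ovr_eq]; exact hB.prod MeasurableSet.univ
  have h1 : (fun q : (Fin n → ℂ × Bool) × (Fin k → ℂ × Bool) =>
      f ((range q.1 ∩ ovr B) ∪ range q.2)) ⁻¹' s =
      ⋃ I : Finset (Fin n), ((Prod.fst ⁻¹' {z : Fin n → ℂ × Bool | ∀ i, z i ∈ ovr B ↔ i ∈ I}) ∩
        (fun q : (Fin n → ℂ × Bool) × (Fin k → ℂ × Bool) =>
          f (range (fun j : Fin I.card => q.1 (I.orderEmbOfFin rfl j)) ∪ range q.2)) ⁻¹' s) := by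
    ext q
    simp only [mem_preimage, mem_iUnion, mem_inter_iff, mem_ofPred_eq]
    have key : ∀ I : Finset (Fin n), (∀ i, q.1 i ∈ ovr B ↔ i ∈ I) →
        range q.1 ∩ ovr B = range fun j : Fin I.card => q.1 (I.orderEmbOfFin rfl j) := by
      intro I hI
      ext p
      simp only [mem_inter_iff, mem_range]
      constructor
      · rintro ⟨⟨i, rfl⟩, hp⟩
        have hi : i ∈ I := (hI i).1 hp
        have : i ∈ Set.range (I.orderEmbOfFin rfl) := by
          rw [Finset.range_orderEmbOfFin]; exact hi
        obtain ⟨j, hj⟩ := this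
        exact ⟨j, by rw [hj]⟩
      · rintro ⟨j, rfl⟩
        refine ⟨⟨_, rfl⟩, ?_⟩
        exact (hI _).2 (Finset.orderEmbOfFin_mem I rfl j)
    constructor
    · intro hz
      refine ⟨Finset.univ.filter fun i => q.1 i ∈ ovr B, by simp, ?_⟩
      rw [← key _ (by simp)]
      exact hz
    · rintro ⟨I, hI, hz⟩
      rw [key I hI]
      exact hz
  rw [h1]
  refine MeasurableSet.iUnion fun I => MeasurableSet.inter (measurable_fst ?_) ?_
  · have : {z : Fin n → ℂ × Bool | ∀ i, z i ∈ ovr B ↔ i ∈ I} =
        ⋂ i, {z | z i ∈ ovr B ↔ i ∈ I} := by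
      ext z; simp
    rw [this]
    refine MeasurableSet.iInter fun i => ?_
    by_cases hi : i ∈ I
    · have : {z : Fin n → ℂ × Bool | z i ∈ ovr B ↔ i ∈ I} = (fun z => z i) ⁻¹' ovr B := by
        ext z; simp [hi]
      rw [this]
      exact (measurable_pi_apply i) hA
    · have : {z : Fin n → ℂ × Bool | z i ∈ ovr B ↔ i ∈ I} = (fun z => z i) ⁻¹' (ovr B)ᶜ := by
        ext z; simp [hi]
      rw [this]
      exact (measurable_pi_apply i) hA.compl
  · have h2 : Measurable fun q : (Fin n → ℂ × Bool) × (Fin k → ℂ × Bool) =>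
        ((fun j : Fin I.card => q.1 (I.orderEmbOfFin rfl j)), q.2) :=
      (measurable_pi_iff.2 fun j => (measurable_pi_apply _).comp measurable_fst).prodMk
        measurable_snd
    exact ((union_meas' hm I.card k).comp h2) hs

/-- `FinMeas` is stable under the restriction to a Borel set -/
theorem FinMeas_inter {X : Type*} [MeasurableSpace X] {f : Set (ℂ × Bool) → X} (hm : FinMeas f)
    {B : Set ℂ} (hB : MeasurableSet B) : FinMeas fun S => f (S ∩ ovr B) := by
  intro n
  have h := (inter_meas2 hm hB n 0).comp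
    (measurable_id.prodMk (measurable_const (a := (Fin.elim0 : Fin 0 → ℂ × Bool))))
  have e : ∀ S : Set (ℂ × Bool), S ∪ range (Fin.elim0 : Fin 0 → ℂ × Bool) = S := by
    intro S; rw [range_eq_empty, union_empty]
  simpa only [Function.comp_def, e, id] using h


/-! ## the rigidity inequality -/







end Crest.Agent.R143.IndLoc2x279
end
end

-- ▼ part R143/PW_168
section

/-!
# Row 143 (S0194): the product weight of a corridor (helper168, after 970's note 3261 (b),(c))

gates `q 0, ..., q n : Q` with the (finite) laws `ρ l`, tubes `u 0, ..., u (n - 1) : U` with the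
probability laws `μ k`, kernels `K k ((q, q'), u)` (the indicator of the tube event times
`c / P(E_k | q, q')`) with `∫⁻ K k ((q, q'), u) dμ k = c k` for good gates.

* `g K` : the product weight; `T k` : the local variables of the tube `k`; `nu k` : the local law
* `lint_F` : `∫⁻ g * F ∘ T k = (C k) * ∫⁻ F dν k`
* `map_g` : the image of the weighted measure under `T k` is `C k • ν k`
* `int_F`, `mean_eq` : Banach valued: `E[g F_k] = E[g] * m_k`, `m_k` = mean of `F` under `ν k`
* `mean_congr` : equal local means under a map of the local laws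
* `int_in` : an additional independent variable
* `law_eq`, `law_restrict`, `omega`, `lomega` : from independent random elements `q l`, `u k` of a
  probability space (and good sets `G l` of the gates) to `law`
* `ker` : the kernel `1_E c / P(E | q, q')`; `ker_meas`, `ker_le`, `ker_norm`
* `tower` : `∫ E[g|m] • Ψ = ∫ g • Ψ`, `w_le` : `0 ≤ E[g|m] ≤ 1`, `w_supp`, `w_cond`, `w_int`,
  `w_in`, `w_cs`
-/

set_option autoImplicit false
set_option linter.unusedSectionVars false

open MeasureTheory ProbabilityTheory Set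
open scoped ENNReal

namespace Crest.Agent.R143.PWx168

section pi

variable {ι : Type*} [Fintype ι] {E : ι → Type*} [∀ i, MeasurableSpace (E i)]


/-- the law of two coordinates of a product of finite measures -/
theorem map_two {ι : Type*} [Fintype ι] [DecidableEq ι] {E : Type*} [MeasurableSpace E]
    (ρ : ι → Measure E) [∀ i, IsFiniteMeasure (ρ i)] {i j : ι} (hij : i ≠ j) :
    (Measure.pi ρ).map (fun x => (x i, x j)) =
      (∏ l ∈ (Finset.univ.erase i).erase j, ρ l univ) • ((ρ i).prod (ρ j)) := by
  set c : ℝ≥0∞ := ∏ l ∈ (Finset.univ.erase i).erase j, ρ l univ with hc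
  have hcf : c ≠ ∞ := by
    rw [hc]
    exact (ENNReal.prod_lt_top fun l _ => measure_lt_top (ρ l) _).ne
  have hfin : IsFiniteMeasure (c • ρ i) := Measure.smul_finite (ρ i) hcf
  have e : c • ((ρ i).prod (ρ j)) = (c • ρ i).prod (ρ j) := by
    rw [Measure.prod_smul_left]
  rw [e]
  symm
  refine Measure.prod_eq fun s t hs ht => ?_
  rw [Measure.map_apply ((measurable_pi_apply i).prodMk (measurable_pi_apply j)) (hs.prod ht)]
  have e1 : (fun x : ι → E => (x i, x j)) ⁻¹' s ×ˢ t =
      Set.pi univ (fun l => if l = i then s else if l = j then t else univ) := by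
    ext x
    simp only [mem_preimage, mem_prod, mem_pi, mem_univ, true_imp_iff]
    constructor
    · rintro ⟨h1, h2⟩ l
      split_ifs with h3 h4
      · exact h3 ▸ h1
      · exact h4 ▸ h2
      · exact mem_univ _
    · intro h
      have h1 := h i
      have h2 := h j
      rw [if_pos rfl] at h1
      rw [if_neg (Ne.symm hij), if_pos rfl] at h2
      exact ⟨h1, h2⟩
  rw [e1, Measure.pi_pi]
  have hj : j ∈ Finset.univ.erase i := Finset.mem_erase.2 ⟨Ne.symm hij, Finset.mem_univ j⟩
  rw [← Finset.mul_prod_erase _ _ (Finset.mem_univ i), ← Finset.mul_prod_erase _ _ hj,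
    if_pos rfl, if_neg (Ne.symm hij), if_pos rfl]
  have e2 : ∏ l ∈ (Finset.univ.erase i).erase j,
      ρ l (if l = i then s else if l = j then t else univ) = c := by
    rw [hc]
    refine Finset.prod_congr rfl fun l hl => ?_
    obtain ⟨h1, h2⟩ := Finset.mem_erase.1 hl
    obtain ⟨h3, _⟩ := Finset.mem_erase.1 h2
    rw [if_neg h3, if_neg h1]
  rw [e2, Measure.smul_apply, smul_eq_mul]
  ring

end pi

variable {n : ℕ} {Q U : Type*} [MeasurableSpace Q] [MeasurableSpace U]

/-- the local variables of the tube `k` -/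
def T (k : Fin n) (x : (Fin (n + 1) → Q) × (Fin n → U)) : (Q × Q) × U :=
  ((x.1 k.castSucc, x.1 k.succ), x.2 k)


/-- the product weight -/
noncomputable def g (K : Fin n → (Q × Q) × U → ℝ≥0∞) (x : (Fin (n + 1) → Q) × (Fin n → U)) : ℝ≥0∞ :=
  ∏ k, K k (T k x)


/-- the law of the corridor -/
noncomputable def law (ρ : Fin (n + 1) → Measure Q) (μ : Fin n → Measure U) :
    Measure ((Fin (n + 1) → Q) × (Fin n → U)) := (Measure.pi ρ).prod (Measure.pi μ)

/-- the local law of the tube `k` -/
noncomputable def nu (ρ : Fin (n + 1) → Measure Q) (μ : Fin n → Measure U)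
    (K : Fin n → (Q × Q) × U → ℝ≥0∞) (k : Fin n) : Measure ((Q × Q) × U) :=
  (((ρ k.castSucc).prod (ρ k.succ)).prod (μ k)).withDensity (K k)



variable {ρ : Fin (n + 1) → Measure Q} {μ : Fin n → Measure U}
  {K : Fin n → (Q × Q) × U → ℝ≥0∞} {c : Fin n → ℝ≥0∞}






section integral

variable {E : Type*} [NormedAddCommGroup E] [NormedSpace ℝ E]





end integral


/-! ### the same on a probability space with independent gates and tubes -/

section omega

variable {Ω : Type*} {mΩ : MeasurableSpace Ω} {P : Measure Ω}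
  {q : Fin (n + 1) → Ω → Q} {u : Fin n → Ω → U}

/-- the law of gates and tubes -/
theorem law_eq [IsProbabilityMeasure P] (hq : ∀ l, Measurable (q l)) (hu : ∀ k, Measurable (u k))
    (iq : iIndepFun q P) (iu : iIndepFun u P)
    (iqu : IndepFun (fun ω l => q l ω) (fun ω k => u k ω) P) :
    P.map (fun ω => ((fun l => q l ω : Fin (n + 1) → Q), (fun k => u k ω : Fin n → U))) =
      law (fun l => P.map (q l)) (fun k => P.map (u k)) := by
  rw [(indepFun_iff_map_prod_eq_prod_map_map (measurable_pi_lambda _ hq).aemeasurable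
    (measurable_pi_lambda _ hu).aemeasurable).1 iqu, law,
    (iIndepFun_iff_map_fun_eq_pi_map fun l => (hq l).aemeasurable).1 iq,
    (iIndepFun_iff_map_fun_eq_pi_map fun k => (hu k).aemeasurable).1 iu]

/-- good gates -/
def Gd (q : Fin (n + 1) → Ω → Q) (G : Fin (n + 1) → Set Q) : Set Ω := {ω | ∀ l, q l ω ∈ G l}

theorem law_restrict [IsProbabilityMeasure P] (hq : ∀ l, Measurable (q l))
    (hu : ∀ k, Measurable (u k)) (iq : iIndepFun q P) (iu : iIndepFun u P)
    (iqu : IndepFun (fun ω l => q l ω) (fun ω k => u k ω) P) {G : Fin (n + 1) → Set Q}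
    (hG : ∀ l, MeasurableSet (G l)) :
    (P.restrict (Gd q G)).map
      (fun ω => ((fun l => q l ω : Fin (n + 1) → Q), (fun k => u k ω : Fin n → U))) =
      law (fun l => (P.map (q l)).restrict (G l)) (fun k => P.map (u k)) := by
  have hX : Measurable
      (fun ω => ((fun l => q l ω : Fin (n + 1) → Q), (fun k => u k ω : Fin n → U))) :=
    (measurable_pi_lambda _ hq).prodMk (measurable_pi_lambda _ hu)
  have hS : MeasurableSet ((Set.univ.pi G) ×ˢ (univ : Set (Fin n → U))) :=
    (MeasurableSet.univ_pi hG).prod MeasurableSet.univ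
  have e1 : Gd q G = (fun ω => ((fun l => q l ω : Fin (n + 1) → Q),
      (fun k => u k ω : Fin n → U))) ⁻¹' ((Set.univ.pi G) ×ˢ (univ : Set (Fin n → U))) := by
    ext ω
    simp [Gd]
  have : ∀ l, IsProbabilityMeasure (P.map (q l)) := fun l =>
    Measure.isProbabilityMeasure_map (hq l).aemeasurable
  have : ∀ k, IsProbabilityMeasure (P.map (u k)) := fun k =>
    Measure.isProbabilityMeasure_map (hu k).aemeasurable
  rw [e1, ← Measure.restrict_map hX hS, law_eq hq hu iq iu iqu, law, law,
    ← Measure.prod_restrict, Measure.restrict_univ, Measure.restrict_pi_pi]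

/-- expectations over good gates = integrals over the law of the corridor -/
theorem omega {E : Type*} [NormedAddCommGroup E] [NormedSpace ℝ E] [IsProbabilityMeasure P]
    (hq : ∀ l, Measurable (q l))
    (hu : ∀ k, Measurable (u k)) (iq : iIndepFun q P) (iu : iIndepFun u P)
    (iqu : IndepFun (fun ω l => q l ω) (fun ω k => u k ω) P) {G : Fin (n + 1) → Set Q}
    (hG : ∀ l, MeasurableSet (G l)) {f : (Fin (n + 1) → Q) × (Fin n → U) → E}
    (hf : StronglyMeasurable f) :
    ∫ ω in Gd q G, f (fun l => q l ω, fun k => u k ω) ∂P =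
      ∫ x, f x ∂law (fun l => (P.map (q l)).restrict (G l)) (fun k => P.map (u k)) := by
  rw [← law_restrict hq hu iq iu iqu hG, integral_map
    ((measurable_pi_lambda _ hq).prodMk (measurable_pi_lambda _ hu)).aemeasurable
    hf.aestronglyMeasurable]


/-- the normalised kernel `1_E c / π`, `π(q, q') = P(E | q, q')` -/
noncomputable def ker (mu : Measure U) (Ev : Set ((Q × Q) × U)) (c : ℝ≥0∞)
    (p : (Q × Q) × U) : ℝ≥0∞ :=
  Ev.indicator (fun p => c / mu {w | (p.1, w) ∈ Ev}) p





end omega

/-! ### the weight conditioned on the exploration -/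

section cond

variable {Ω : Type*} {m mΩ : MeasurableSpace Ω} {P : Measure Ω} {E : Type*}
  [NormedAddCommGroup E] [NormedSpace ℝ E] [CompleteSpace E]









end cond

end Crest.Agent.R143.PWx168
end

-- ▼ part R143/IndLoc3_279

/-!
# R143 (helper279), box R8: corridor | inside

* `int_mul`, `int_smul` : Bochner form of the independence over disjoint regions
* `psn`, `lint_psn`, `lint_psn_mul` : functionals of the positions only
* `clr S β` : the coloured set with sites `S`, black sites `β`; `cavE F S`, `cav F S` : mean over the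
  colourings of the finite set `S`; `cavE_local`, `cav_local` : only the sites in `C` matter
* `lint_cav` : `E F(cfg) = E cavE F (sites)`, `lint_cav_mul` : `E [cavE F * cavE G] = E F(cfg) * E G(cfg)`
  (two INDEPENDENT colourings for `F` local on `C` and `G` local on `U`)
-/

set_option autoImplicit false

noncomputable section

namespace Crest.Agent.R143.IndLoc3x279

open MeasureTheory Set ProbabilityTheory
open Crest.ProbabilityR.Voronoi
open Crest.Agent.R143.PP0x831 Crest.Agent.R143.Poisx304 Crest.Agent.R143.Janx304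
open Crest.Agent.R143.IndLocx279 Crest.Agent.R143.IndLoc2x279
open scoped ENNReal Nat

variable {ε : ℝ}

/-! ## Bochner form -/



/-! ## positions -/

/-- positions of a coloured set -/
def psn (S : Set (ℂ × Bool)) : Set ℂ := Prod.fst '' S

lemma psn_cfg (ω : Sample) : psn (cfg ε ω) = points ε ω := by
  unfold psn cfg points
  rw [image_image]

lemma psn_inter (S : Set (ℂ × Bool)) (B : Set ℂ) : psn (S ∩ ovr B) = psn S ∩ B := by
  ext z
  simp only [psn, mem_image, mem_inter_iff, ovr, mem_ofPred_eq]
  constructor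
  · rintro ⟨p, ⟨h1, h2⟩, rfl⟩; exact ⟨⟨p, h1, rfl⟩, h2⟩
  · rintro ⟨⟨p, h1, rfl⟩, h2⟩; exact ⟨p, ⟨h1, h2⟩, rfl⟩

lemma psn_range {n : ℕ} (w : Fin n → ℂ × Bool) : psn (range w) = range fun i => (w i).1 := by
  unfold psn
  rw [← range_comp]
  rfl

/-- intensity of the positions in `B` -/
def nu (ε : ℝ) (B : Set ℂ) : Measure ℂ := (ENNReal.ofReal (ε ^ 2))⁻¹ • volume.restrict B

lemma nu_fin (hε : 0 < ε) {B : Set ℂ} (hb : Bornology.IsBounded B) : IsFiniteMeasure (nu ε B) :=
  finite_mu hε hb


/-- colours of `n` points integrated first -/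
lemma P_split (ν : Measure ℂ) [SigmaFinite ν] (n : ℕ) {F : Set (ℂ × Bool) → ℝ≥0∞} (hF : FM F) :
    P (ν.prod coin) n F = ∫⁻ z, ∫⁻ b, F (range fun i : Fin n => (z i, b i))
      ∂(Measure.pi fun _ : Fin n => coin) ∂(Measure.pi fun _ : Fin n => ν) := by
  have hmp := measurePreserving_arrowProdEquivProdArrow ℂ Bool (Fin n) (fun _ => ν)
    (fun _ => coin)
  unfold P
  have hm : Measurable fun q : (Fin n → ℂ) × (Fin n → Bool) =>
      F (range fun i : Fin n => (q.1 i, q.2 i)) := by
    refine (hF n).comp (measurable_pi_iff.2 fun i => ?_)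
    exact ((measurable_pi_apply i).comp measurable_fst).prodMk
      ((measurable_pi_apply i).comp measurable_snd)
  have h1 := hmp.lintegral_comp hm
  rw [lintegral_prod _ hm.aemeasurable] at h1
  rw [← h1]
  rfl

/-- the mean over the colours of `n` points -/
lemma lint_coin (n : ℕ) (f : (Fin n → Bool) → ℝ≥0∞) :
    ∫⁻ b, f b ∂(Measure.pi fun _ : Fin n => coin) = (2⁻¹ : ℝ≥0∞) ^ n * ∑ b, f b := by
  have hc : ∀ b : Bool, coin {b} = 2⁻¹ := by
    intro b
    unfold coin
    rw [Measure.smul_apply, Measure.count_singleton, smul_eq_mul, mul_one]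
  rw [lintegral_fintype, Finset.mul_sum]
  refine Finset.sum_congr rfl fun b _ => ?_
  rw [Measure.pi_singleton, Finset.prod_congr rfl fun i _ => hc (b i), Finset.prod_const,
    Finset.card_univ, Fintype.card_fin, mul_comm]

/-! ## mean over the colourings of a finite set -/

/-- the coloured set with the sites `S` and the black sites `β` -/
def clr (S β : Finset ℂ) : Set (ℂ × Bool) := {p | p.1 ∈ S ∧ (p.2 = true ↔ p.1 ∈ β)}

/-- mean over the colourings, `ℝ≥0∞` -/
def cavE (F : Set (ℂ × Bool) → ℝ≥0∞) (S : Finset ℂ) : ℝ≥0∞ :=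
  (2⁻¹ : ℝ≥0∞) ^ S.card * ∑ β ∈ S.powerset, F (clr S β)

/-- mean over the colourings -/
def cav {E : Type*} [AddCommGroup E] [Module ℝ E] (F : Set (ℂ × Bool) → E) (S : Finset ℂ) : E :=
  ((2⁻¹ : ℝ) ^ S.card) • ∑ β ∈ S.powerset, F (clr S β)

open Classical in
/-- sum over the subsets of a disjoint union -/
lemma sum_powerset_union {M : Type*} [AddCommMonoid M] {A B : Finset ℂ} (h : Disjoint A B)
    (f : Finset ℂ → M) : ∑ β ∈ (A ∪ B).powerset, f β =
      ∑ a ∈ A.powerset, ∑ b ∈ B.powerset, f (a ∪ b) := by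
  rw [← Finset.sum_product']
  symm
  refine Finset.sum_bij' (fun p _ => p.1 ∪ p.2) (fun β _ => (β ∩ A, β ∩ B)) ?_ ?_ ?_ ?_ ?_
  · rintro ⟨a, b⟩ hp
    simp only [Finset.mem_product, Finset.mem_powerset] at hp ⊢
    exact Finset.union_subset_union hp.1 hp.2
  · intro β hβ
    simp only [Finset.mem_product, Finset.mem_powerset] at hβ ⊢
    exact ⟨Finset.inter_subset_right, Finset.inter_subset_right⟩
  · rintro ⟨a, b⟩ hp
    simp only [Finset.mem_product, Finset.mem_powerset] at hp
    have h1 : Disjoint a B := Finset.disjoint_of_subset_left hp.1 h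
    have h2 : Disjoint b A := Finset.disjoint_of_subset_left hp.2 h.symm
    ext1
    · ext x
      simp only [Finset.mem_inter, Finset.mem_union]
      constructor
      · rintro ⟨h3 | h3, h4⟩
        · exact h3
        · exact absurd h4 (Finset.disjoint_left.1 h2 h3)
      · intro h3; exact ⟨Or.inl h3, hp.1 h3⟩
    · ext x
      simp only [Finset.mem_inter, Finset.mem_union]
      constructor
      · rintro ⟨h3 | h3, h4⟩
        · exact absurd h4 (Finset.disjoint_left.1 h1 h3)
        · exact h3
      · intro h3; exact ⟨Or.inr h3, hp.2 h3⟩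
  · intro β hβ
    simp only [Finset.mem_powerset] at hβ
    ext x
    simp only [Finset.mem_inter, Finset.mem_union]
    constructor
    · rintro (h3 | h3)
      · exact h3.1
      · exact h3.1
    · intro h3
      rcases Finset.mem_union.1 (hβ h3) with h4 | h4
      · exact Or.inl ⟨h3, h4⟩
      · exact Or.inr ⟨h3, h4⟩
  · rintro ⟨a, b⟩ _
    rfl

lemma clr_union {X : Type*} {C : Set ℂ} {F : Set (ℂ × Bool) → X} (hF : LocalOn C F)
    {A B a b : Finset ℂ} (hB : ∀ x ∈ B, x ∉ C) (ha : a ⊆ A) (hb : b ⊆ B) [DecidableEq ℂ] :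
    F (clr (A ∪ B) (a ∪ b)) = F (clr A a) := by
  rw [hF (clr (A ∪ B) (a ∪ b)), hF (clr A a)]
  congr 1
  ext p
  simp only [clr, mem_inter_iff, mem_ofPred_eq, Finset.mem_union]
  constructor
  · rintro ⟨⟨h1 | h1, h2⟩, h3⟩
    · refine ⟨⟨h1, h2.trans ⟨?_, Or.inl⟩⟩, h3⟩
      rintro (h4 | h4)
      · exact h4
      · exact absurd h3 (hB _ (hb h4))
    · exact absurd h3 (hB _ h1)
  · rintro ⟨⟨h1, h2⟩, h3⟩
    refine ⟨⟨Or.inl h1, h2.trans ⟨Or.inl, ?_⟩⟩, h3⟩
    rintro (h4 | h4)
    · exact h4
    · exact absurd h3 (hB _ (hb h4))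

open Classical in
/-- only the sites in `C` matter -/
lemma cavE_local {C : Set ℂ} {F : Set (ℂ × Bool) → ℝ≥0∞} (hF : LocalOn C F) {A S : Finset ℂ}
    (hAS : A ⊆ S) (h : ∀ x ∈ S, x ∈ C → x ∈ A) : cavE F S = cavE F A := by
  have hS : S = A ∪ (S \ A) := (Finset.union_sdiff_of_subset hAS).symm
  have hd : Disjoint A (S \ A) := Finset.disjoint_sdiff
  have hB : ∀ x ∈ S \ A, x ∉ C := by
    intro x hx hC
    rw [Finset.mem_sdiff] at hx
    exact hx.2 (h x hx.1 hC)
  generalize S \ A = B at hS hd hB
  subst hS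
  unfold cavE
  rw [sum_powerset_union hd]
  have h1 : ∀ a ∈ A.powerset, ∑ b ∈ B.powerset, F (clr (A ∪ B) (a ∪ b)) =
      2 ^ B.card * F (clr A a) := by
    intro a ha
    rw [Finset.sum_congr rfl fun b hb => clr_union hF hB (Finset.mem_powerset.1 ha)
      (Finset.mem_powerset.1 hb), Finset.sum_const, Finset.card_powerset, nsmul_eq_mul]
    push_cast
    rfl
  rw [Finset.sum_congr rfl h1, ← Finset.mul_sum, Finset.card_union_of_disjoint hd, pow_add,
    mul_assoc, ← mul_assoc ((2⁻¹ : ℝ≥0∞) ^ B.card), ← mul_pow,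
    ENNReal.inv_mul_cancel (by norm_num) (by norm_num), one_pow, one_mul]

open Classical in
lemma cav_local {E : Type*} [AddCommGroup E] [Module ℝ E] {C : Set ℂ}
    {F : Set (ℂ × Bool) → E} (hF : LocalOn C F) {A S : Finset ℂ}
    (hAS : A ⊆ S) (h : ∀ x ∈ S, x ∈ C → x ∈ A) : cav F S = cav F A := by
  have hS : S = A ∪ (S \ A) := (Finset.union_sdiff_of_subset hAS).symm
  have hd : Disjoint A (S \ A) := Finset.disjoint_sdiff
  have hB : ∀ x ∈ S \ A, x ∉ C := by
    intro x hx hC
    rw [Finset.mem_sdiff] at hx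
    exact hx.2 (h x hx.1 hC)
  generalize S \ A = B at hS hd hB
  subst hS
  unfold cav
  rw [sum_powerset_union hd]
  have h1 : ∀ a ∈ A.powerset, ∑ b ∈ B.powerset, F (clr (A ∪ B) (a ∪ b)) =
      ((2 : ℝ) ^ B.card) • F (clr A a) := by
    intro a ha
    rw [Finset.sum_congr rfl fun b hb => clr_union hF hB (Finset.mem_powerset.1 ha)
      (Finset.mem_powerset.1 hb), Finset.sum_const, Finset.card_powerset,
      ← Nat.cast_smul_eq_nsmul ℝ]
    push_cast
    rfl
  rw [Finset.sum_congr rfl h1, ← Finset.smul_sum, Finset.card_union_of_disjoint hd, pow_add,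
    smul_smul, mul_assoc, ← mul_pow, inv_mul_cancel₀ (by norm_num), one_pow, mul_one]

/-! ## the mean over the colours of `n` points -/

open Classical in
/-- colourings of the points `z i` as functions of the index -/
def cons {n : ℕ} (z : Fin n → ℂ) (b : Fin n → Bool) : Prop := ∀ i j, z i = z j → b i = b j

open Classical in
lemma sum_cons {M : Type*} [AddCommMonoid M] {n : ℕ} (z : Fin n → ℂ) (f : Finset ℂ → M) :
    ∑ β ∈ (Finset.univ.image z).powerset, f β =
      ∑ b ∈ Finset.univ.filter (cons z), f ((Finset.univ.filter fun i => b i = true).image z) := by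
  refine Finset.sum_bij' (fun β _ => fun i => decide (z i ∈ β))
    (fun b _ => (Finset.univ.filter fun i => b i = true).image z) ?_ ?_ ?_ ?_ ?_
  · intro β _
    simp only [Finset.mem_filter, Finset.mem_univ, true_and]
    intro i j hij
    simp only [hij]
  · intro b _
    rw [Finset.mem_powerset]
    exact Finset.image_subset_image (Finset.filter_subset _ _)
  · intro β hβ
    rw [Finset.mem_powerset] at hβ
    ext x
    simp only [Finset.mem_image, Finset.mem_filter, Finset.mem_univ, true_and, decide_eq_true_eq]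
    constructor
    · rintro ⟨i, hi, rfl⟩; exact hi
    · intro hx
      obtain ⟨i, -, rfl⟩ := Finset.mem_image.1 (hβ hx)
      exact ⟨i, hx, rfl⟩
  · intro b hb
    simp only [Finset.mem_filter, Finset.mem_univ, true_and] at hb
    funext i
    by_cases h : b i = true
    · rw [h, decide_eq_true_eq]
      exact Finset.mem_image.2 ⟨i, by simp [h], rfl⟩
    · have h' : b i = false := by simpa using h
      rw [h', decide_eq_false_iff_not, Finset.mem_image]
      rintro ⟨j, hj, hji⟩
      simp only [Finset.mem_filter, Finset.mem_univ, true_and] at hj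
      rw [hb j i hji, h'] at hj
      exact Bool.noConfusion hj
  · intro β hβ
    rw [Finset.mem_powerset] at hβ
    congr 1
    ext x
    simp only [Finset.mem_image, Finset.mem_filter, Finset.mem_univ, true_and, decide_eq_true_eq]
    constructor
    · intro hx
      obtain ⟨i, -, rfl⟩ := Finset.mem_image.1 (hβ hx)
      exact ⟨i, hx, rfl⟩
    · rintro ⟨i, hi, rfl⟩; exact hi

open Classical in
lemma clr_cons {n : ℕ} {z : Fin n → ℂ} {b : Fin n → Bool} (hb : cons z b) :
    clr (Finset.univ.image z) ((Finset.univ.filter fun i => b i = true).image z) =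
      range fun i => (z i, b i) := by
  ext p
  simp only [clr, mem_ofPred_eq, Finset.mem_image, Finset.mem_filter, Finset.mem_univ, true_and,
    mem_range]
  constructor
  · rintro ⟨⟨i, hi⟩, h⟩
    refine ⟨i, ?_⟩
    have : b i = p.2 := by
      by_cases hp : p.2 = true
      · obtain ⟨j, hj, hjp⟩ := h.1 hp
        rw [hp, ← hj]
        exact hb i j (hi.trans hjp.symm)
      · have hp' : p.2 = false := by simpa using hp
        rw [hp']
        by_contra hc
        have hc' : b i = true := by simpa using hc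
        exact hp (h.2 ⟨i, hc', hi⟩)
    exact Prod.ext hi this
  · rintro ⟨i, rfl⟩
    refine ⟨⟨i, rfl⟩, fun h => ⟨i, h, rfl⟩, ?_⟩
    rintro ⟨j, hj, hji⟩
    exact (hb j i hji) ▸ hj

open Classical in
/-- the finite set of a finite set -/
def fs (P : Set ℂ) : Finset ℂ := if h : P.Finite then h.toFinset else ∅

open Classical in
lemma fs_range {n : ℕ} (z : Fin n → ℂ) : fs (range z) = Finset.univ.image z := by
  unfold fs
  rw [dif_pos (finite_range z)]
  ext x
  simp

open Classical in
lemma card_image_cons {n : ℕ} (z : Fin n → ℂ) :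
    (2 : ℝ≥0∞) ^ (Finset.univ.image z).card = ∑ b : Fin n → Bool, if cons z b then 1 else 0 := by
  have h := sum_cons z (fun _ => (1 : ℝ≥0∞))
  rw [Finset.sum_const, Finset.card_powerset, nsmul_eq_mul, mul_one] at h
  push_cast at h
  rw [h, Finset.sum_filter]

open Classical in
/-- the mean over the colourings of the points `z` -/
lemma cavE_range {n : ℕ} (z : Fin n → ℂ) (F : Set (ℂ × Bool) → ℝ≥0∞) :
    cavE F (fs (range z)) = (∑ b : Fin n → Bool, if cons z b then (1 : ℝ≥0∞) else 0)⁻¹ *
      ∑ b : Fin n → Bool, if cons z b then F (range fun i => (z i, b i)) else 0 := by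
  unfold cavE
  rw [fs_range, sum_cons z, ← card_image_cons, ENNReal.inv_pow, ← Finset.sum_filter]
  congr 1
  refine Finset.sum_congr rfl fun b hb => ?_
  rw [clr_cons (Finset.mem_filter.1 hb).2]

open Classical in
lemma cavE_meas {F : Set (ℂ × Bool) → ℝ≥0∞} (hF : FM F) (n : ℕ) :
    Measurable fun z : Fin n → ℂ => cavE F (fs (range z)) := by
  simp only [cavE_range]
  have hc : ∀ b : Fin n → Bool, MeasurableSet {z : Fin n → ℂ | cons z b} := by
    intro b
    have : {z : Fin n → ℂ | cons z b} = ⋂ i, ⋂ j, {z : Fin n → ℂ | z i = z j → b i = b j} := by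
      ext z; simp [cons]
    rw [this]
    refine MeasurableSet.iInter fun i => MeasurableSet.iInter fun j => ?_
    by_cases h : b i = b j
    · have : {z : Fin n → ℂ | z i = z j → b i = b j} = univ := by ext z; simp [h]
      rw [this]; exact MeasurableSet.univ
    · have : {z : Fin n → ℂ | z i = z j → b i = b j} = {z | z i = z j}ᶜ := by ext z; simp [h]
      rw [this]
      exact (measurableSet_eq_fun (measurable_pi_apply i) (measurable_pi_apply j)).compl
  refine Measurable.mul (Measurable.inv ?_) ?_
  · exact Finset.measurable_fun_sum _ fun b _ =>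
      Measurable.ite (hc b) measurable_const measurable_const
  · refine Finset.measurable_fun_sum _ fun b _ => Measurable.ite (hc b) ?_ measurable_const
    exact (hF n).comp (measurable_pi_iff.2 fun i => (measurable_pi_apply i).prodMk measurable_const)

/-- almost every family of points is injective -/
lemma ae_inj (ν : Measure ℂ) [IsFiniteMeasure ν] (h : ∀ x, ν {x} = 0) (n : ℕ) :
    ∀ᵐ z ∂(Measure.pi fun _ : Fin n => ν), Function.Injective z := by
  have h1 : ∀ i j : Fin n, i ≠ j → ∀ᵐ z ∂(Measure.pi fun _ : Fin n => ν), z i ≠ z j := by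
    intro i j hij
    have h2 := PWx168.map_two (fun _ : Fin n => ν) hij
    have h3 : MeasurableSet (diagonal ℂ) := measurableSet_diagonal
    have h4 : (ν.prod ν) (diagonal ℂ) = 0 := by
      rw [Measure.prod_apply h3]
      have : ∀ x : ℂ, Prod.mk x ⁻¹' (diagonal ℂ) = {x} := by
        intro x; ext y; simp [eq_comm]
      simp only [this, h, lintegral_zero]
    have h5 : (Measure.pi fun _ : Fin n => ν) ((fun x => (x i, x j)) ⁻¹' (diagonal ℂ)) = 0 := by
      rw [← Measure.map_apply ((measurable_pi_apply i).prodMk (measurable_pi_apply j)) h3, h2,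
        Measure.smul_apply, h4, smul_zero]
    have h6 : {z : Fin n → ℂ | ¬ (z i ≠ z j)} = (fun x => (x i, x j)) ⁻¹' (diagonal ℂ) := by
      ext z; simp [diagonal]
    rw [ae_iff, h6]
    exact h5
  have h7 : ∀ᵐ z ∂(Measure.pi fun _ : Fin n => ν), ∀ i j : Fin n, i ≠ j → z i ≠ z j := by
    rw [ae_all_iff]
    intro i
    rw [ae_all_iff]
    intro j
    by_cases hij : i = j
    · exact Filter.Eventually.of_forall fun z h => absurd hij h
    · filter_upwards [h1 i j hij] with z hz _
      exact hz
  filter_upwards [h7] with z hz i j hij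
  by_contra hc
  exact hz i j hc hij

lemma nu_sing (x : ℂ) (B : Set ℂ) : nu ε B {x} = 0 := by
  unfold nu
  rw [Measure.smul_apply, smul_eq_mul]
  have : (volume.restrict B) {x} = 0 :=
    nonpos_iff_eq_zero.1 ((Measure.restrict_apply_le B {x}).trans_eq (by simp))
  rw [this, mul_zero]

/-- **the colours integrated out** -/
theorem J_colour (ν : Measure ℂ) [IsFiniteMeasure ν] (h : ∀ x, ν {x} = 0)
    {F : Set (ℂ × Bool) → ℝ≥0∞} (hF : FM F) :
    J (ν.prod coin) F = J ν fun P => cavE F (fs P) := by
  classical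
  unfold J Q
  congr 1
  · rw [← univ_prod_univ, Measure.prod_prod, measure_univ (μ := coin), mul_one]
  · refine tsum_congr fun n => ?_
    congr 1
    rw [P_split ν n hF]
    unfold P
    refine lintegral_congr_ae ?_
    filter_upwards [ae_inj ν h n] with z hz
    have hc : ∀ b : Fin n → Bool, cons z b := fun b i j hij => congrArg b (hz hij)
    rw [lint_coin, cavE_range]
    simp only [hc, if_true]
    rw [Finset.sum_const, Finset.card_univ, Fintype.card_fun, Fintype.card_bool,
      Fintype.card_fin, nsmul_eq_mul, mul_one]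
    push_cast
    rw [ENNReal.inv_pow]

/-- functionals of the positions only -/
theorem J_psn (ν : Measure ℂ) [IsFiniteMeasure ν] {f : Set ℂ → ℝ≥0∞} (hf : FM f) :
    J (ν.prod coin) (fun X => f (psn X)) = J ν f := by
  have hF : FM fun X : Set (ℂ × Bool) => f (psn X) := by
    intro n
    simp only [psn_range]
    exact (hf n).comp (measurable_pi_iff.2 fun i => measurable_fst.comp (measurable_pi_apply i))
  unfold J Q
  congr 1
  · rw [← univ_prod_univ, Measure.prod_prod, measure_univ (μ := coin), mul_one]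
  · refine tsum_congr fun n => ?_
    congr 1
    rw [P_split ν n hF]
    unfold P
    refine lintegral_congr fun z => ?_
    simp only [psn_range, lintegral_const, measure_univ, mul_one]

/-- the positions in `B` -/
lemma ps_meas {f : Set ℂ → ℝ≥0∞} (hf : FM f) {B : Set ℂ} (hB : MeasurableSet B) :
    FinMeas fun X : Set (ℂ × Bool) => f (psn X ∩ B) := by
  have h1 : FinMeas fun X : Set (ℂ × Bool) => f (psn X) := by
    intro n
    simp only [psn_range]
    exact (hf n).comp (measurable_pi_iff.2 fun i => measurable_fst.comp (measurable_pi_apply i))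
  have h2 := FinMeas_inter h1 hB
  simpa only [psn_inter] using h2

lemma ps_local {X : Type*} (f : Set ℂ → X) (B : Set ℂ) :
    LocalOn B fun S : Set (ℂ × Bool) => f (psn S ∩ B) := by
  intro S
  have : psn (S ∩ {p | p.1 ∈ B}) ∩ B = psn S ∩ B := by
    have e : psn (S ∩ {p | p.1 ∈ B}) = psn S ∩ B := psn_inter S B
    rw [e, inter_assoc, inter_self]
  simp only [this]

/-- the law of the positions in `B` -/
theorem lint_psn (hε : 0 < ε) {B : Set ℂ} (hB : MeasurableSet B) (hb : Bornology.IsBounded B)
    {f : Set ℂ → ℝ≥0∞} (hf : FM f) :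
    ∫⁻ ω, f (points ε ω ∩ B) ∂sampleLaw = J (nu ε B) f := by
  have := nu_fin hε hb
  have h1 := lint_one hε hB hb (ps_local f B) (ps_meas hf hB)
  simp only [psn_cfg] at h1
  rw [h1]
  have h2 : J (mu ε B) (fun X => f (psn X ∩ B)) = J (mu ε B) fun X => f (psn X) := by
    have := finite_mu' hε hb
    refine J_congr (mu_ae hε hB hb) fun S hS => ?_
    congr 1
    rw [inter_eq_left]
    rintro _ ⟨p, hp, rfl⟩
    exact hS hp
  rw [h2]
  exact J_psn (nu ε B) hf

/-- **E F(cfg) = E (mean over the colourings of the sites)**; `S ω` = any finite set of points which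
contains the points in `B` -/
theorem lint_cav (hε : 0 < ε) {B : Set ℂ} (hB : MeasurableSet B) (hb : Bornology.IsBounded B)
    {F : Set (ℂ × Bool) → ℝ≥0∞} (hF : LocalOn B F) (hm : FinMeas F) {S : Sample → Finset ℂ}
    (hS : ∀ᵐ ω ∂sampleLaw, (S ω : Set ℂ) ⊆ points ε ω ∧ points ε ω ∩ B ⊆ S ω) :
    ∫⁻ ω, cavE F (S ω) ∂sampleLaw = ∫⁻ ω, F (cfg ε ω) ∂sampleLaw := by
  classical
  have := nu_fin hε hb
  have hm' : FM F := hm
  have h1 : FM fun P : Set ℂ => cavE F (fs P) := fun n => cavE_meas hm' n
  rw [lint_one hε hB hb hF hm]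
  have h2 : J (mu ε B) F = J (nu ε B) fun P => cavE F (fs P) :=
    J_colour (nu ε B) (fun x => nu_sing x B) hm'
  rw [h2, ← lint_psn hε hB hb h1]
  refine lintegral_congr_ae ?_
  filter_upwards [hS] with ω hω
  have hfin : (points ε ω ∩ B).Finite := (Finset.finite_toSet (S ω)).subset hω.2
  have e : fs (points ε ω ∩ B) = hfin.toFinset := by unfold fs; rw [dif_pos hfin]
  rw [e]
  refine cavE_local hF ?_ ?_
  · intro x hx
    rw [Set.Finite.mem_toFinset] at hx
    exact hω.2 hx
  · intro x hx hB'
    rw [Set.Finite.mem_toFinset]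
    exact ⟨hω.1 hx, hB'⟩


end Crest.Agent.R143.IndLoc3x279
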