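import Crest.Agent.R143.Mass1_302
import Crest.Agent.R143.Frame8_395
import Crest.Agent.R143.DelG_806
import Crest.Agent.R143.Frame10_395

-- ▼ part R143/Mass2_302
section

/-!
# Row 143 (S0194): MASS, part 2 (helper302): local loops and blocks = loops and blocks of any closed
map which agrees with the Delaunay triangulation inside `U`

* `Agr P U M δ κ` : the closed map `M` agrees with the Delaunay triangulation of `P` on the faces
  with closed circumdisc in `U`; `δ a b` = dart of the directed side `(a, b)`, `κ a` = cell of `a`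
* `blk_img` : the block of a local loop of a compatible even configuration is the image of the
  local block `bl l s`
* `exists_ob` : every loop of `M` inside `U` comes from a local loop
-/

set_option autoImplicit false

noncomputable section

open scoped Classical

namespace Crest.Agent.R143.Mass2x302

open Crest.Agent.R143.B0x346 Crest.Agent.R143.SumScx302 Crest.Agent.R143.Mass1x302
  Crest.Agent.R143.DelGx806
open Crest.Agent.R143.Frame1x395 Crest.Agent.R143.Frame2x395 Crest.Agent.R143.Frame3x395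
  Crest.Agent.R143.Frame8x395

theorem del_rot {P : Set ℂ} {a b c : ℂ} (h : Del P a b c) : Del P b c a := by
  obtain ⟨ha, hb, hc, h1, o, h2, h3, h4⟩ := h
  refine ⟨hb, hc, ha, ?_, o, ?_, ?_, ?_⟩
  · rw [← cr_rot]; exact h1
  · rw [h3, h2]
  · exact h2.symm
  · intro s hs; rw [h2]; exact h4 s hs

theorem del_sub {P Q : Set ℂ} (hPQ : Q ⊆ P) {a b c : ℂ} (h : Del P a b c) (ha : a ∈ Q)
    (hb : b ∈ Q) (hc : c ∈ Q) : Del Q a b c := by
  obtain ⟨-, -, -, h1, o, h2, h3, h4⟩ := h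
  exact ⟨ha, hb, hc, h1, o, h2, h3, fun s hs => h4 s (hPQ hs)⟩

theorem gp_mono {P Q : Set ℂ} (hPQ : Q ⊆ P) (h : GP P) : GP Q :=
  ⟨fun a ha b hb c hc => h.line a (hPQ ha) b (hPQ hb) c (hPQ hc),
    fun a ha b hb c hc e he => h.circ a (hPQ ha) b (hPQ hb) c (hPQ hc) e (hPQ he)⟩

theorem del_uniq {P : Set ℂ} (hP : GP P) {a b c e : ℂ} (h : Del P a b c) (h' : Del P a b e) :
    c = e := by
  set S : Finset ℂ := {a, b, c, e} with hS
  have hsub : (S : Set ℂ) ⊆ P := by
    intro z hz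
    rw [hS] at hz
    simp only [Finset.coe_insert, Finset.coe_singleton, Set.mem_insert_iff,
      Set.mem_singleton_iff] at hz
    rcases hz with rfl | rfl | rfl | rfl
    · exact h.1
    · exact h.2.1
    · exact h.2.2.1
    · exact h'.2.2.1
  have ma : a ∈ (S : Set ℂ) := by simp [hS]
  have mb : b ∈ (S : Set ℂ) := by simp [hS]
  have mc : c ∈ (S : Set ℂ) := by simp [hS]
  have me : e ∈ (S : Set ℂ) := by simp [hS]
  exact (g1 S (gp_mono hsub hP)).2.1 a b c e (mem_delT.2 (del_sub hsub h ma mb mc))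
    (mem_delT.2 (del_sub hsub h' ma mb me))


theorem cdisc_rot (a b c : ℂ) : cdisc (b, c, a) = cdisc (a, b, c) := by
  ext z
  constructor
  · rintro ⟨o, h1, h2, h3⟩
    exact ⟨o, h2.symm, by rw [← h2] at h1; exact h1, by rw [← h2] at h3; exact h3⟩
  · rintro ⟨o, h1, h2, h3⟩
    change ‖b - o‖ = ‖a - o‖ at h1
    change ‖c - o‖ = ‖a - o‖ at h2
    change ‖z - o‖ ≤ ‖a - o‖ at h3
    refine ⟨o, ?_, ?_, ?_⟩
    · show ‖c - o‖ = ‖b - o‖
      rw [h1, h2]
    · exact h1.symm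
    · show ‖z - o‖ ≤ ‖b - o‖
      rw [h1]; exact h3

/-- Delaunay face with circumdisc in `U` -/
def Fc (P U : Set ℂ) (a b c : ℂ) : Prop := Del P a b c ∧ cdisc (a, b, c) ⊆ U

theorem Fc.rot {P U : Set ℂ} {a b c : ℂ} (h : Fc P U a b c) : Fc P U b c a :=
  ⟨del_rot h.1, by rw [cdisc_rot]; exact h.2⟩

variable {D C : Type} {M : CMap D C} {P U : Set ℂ} {δ : ℂ → ℂ → D} {κ : ℂ → C}

/-- the closed map `M` agrees with the Delaunay triangulation of `P` inside `U` -/
structure Agr (P U : Set ℂ) (M : CMap D C) (δ : ℂ → ℂ → D) (κ : ℂ → C) : Prop where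
  gp : GP P
  rho : ∀ a b c, Fc P U a b c → M.rho (δ a b) = δ b c
  iot : ∀ a b c e, Fc P U a b c → Fc P U b a e → M.iota (δ a b) = δ b a
  cel : ∀ a b c, Fc P U a b c → M.cell (δ a b) = κ a
  inj : ∀ a b c a' b' c', Fc P U a b c → Fc P U a' b' c' → κ a = κ a' → a = a'

/-- loops in `U` -/
structure LpU (P U : Set ℂ) (l : Finset T3) : Prop where
  lp : IsLp P l
  sub : ∀ t ∈ l, cdisc t ⊆ U

theorem LpU.fc {l : Finset T3} (h : LpU P U l) {t : T3} (ht : t ∈ l) : Fc P U t.1 t.2.1 t.2.2 :=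
  ⟨h.lp.del t ht, h.sub t ht⟩

/-- the even configuration `x` is compatible with the loop -/
def Cpt (δ : ℂ → ℂ → D) (x : D → ZMod 2) (l : Finset T3) : Prop := ∀ t ∈ l, x (δ t.1 t.2.1) = 1

/-- dart of a state -/
def dd (δ : ℂ → ℂ → D) (t : T3) : D := δ t.1 t.2.1

/-- the gap dart `(c, a)` of the state `(a, b, c)` -/
def gd (δ : ℂ → ℂ → D) (t : T3) : D := δ t.2.2 t.1

variable {x : D → ZMod 2} {l : Finset T3}

/-- faces of `U` are determined by their darts -/
theorem Agr.dinj (A : Agr P U M δ κ) {a b c a' b' c' : ℂ} (h : Fc P U a b c)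
    (h' : Fc P U a' b' c') (e : δ a b = δ a' b') : a = a' ∧ b = b' ∧ c = c' := by
  have h1 : a = a' := A.inj _ _ _ _ _ _ h h' (by rw [← A.cel _ _ _ h, ← A.cel _ _ _ h', e])
  have h2 : b = b' := by
    refine A.inj _ _ _ _ _ _ h.rot h'.rot ?_
    rw [← A.cel _ _ _ h.rot, ← A.cel _ _ _ h'.rot, ← A.rho _ _ _ h, ← A.rho _ _ _ h', e]
  subst h1
  subst h2
  exact ⟨rfl, rfl, del_uniq A.gp h.1 h'.1⟩

theorem Agr.dd_inj (A : Agr P U M δ κ) (h : LpU P U l) {s t : T3} (hs : s ∈ l) (ht : t ∈ l)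
    (e : dd δ s = dd δ t) : s = t := by
  obtain ⟨h1, h2, h3⟩ := A.dinj (h.fc hs) (h.fc ht) e
  exact Prod.ext h1 (Prod.ext h2 h3)

theorem Agr.gd_rho (A : Agr P U M δ κ) {s : T3} (hs : Fc P U s.1 s.2.1 s.2.2) :
    M.rho (gd δ s) = dd δ s := A.rho _ _ _ hs.rot.rot

theorem Agr.gd_eq (A : Agr P U M δ κ) {s : T3} (hs : Fc P U s.1 s.2.1 s.2.2) :
    gd δ s = M.rho (M.rho (dd δ s)) := by
  rw [← M.rho3 (gd δ s), A.gd_rho hs]

theorem Agr.gd_inj (A : Agr P U M δ κ) (h : LpU P U l) {s t : T3} (hs : s ∈ l) (ht : t ∈ l)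
    (e : gd δ s = gd δ t) : s = t := by
  apply A.dd_inj h hs ht
  rw [← A.gd_rho (h.fc hs), ← A.gd_rho (h.fc ht), e]

/-- left step: the third site is a left site -/
theorem Agr.step_l (A : Agr P U M δ κ) (hx : IsC M ∅ x) (h : LpU P U l) (hc : Cpt δ x l) {s t : T3}
    (hs : s ∈ l) (ht : t ∈ l) (h1 : t.1 = s.2.2) (h2 : t.2.1 = s.2.1) :
    stp M x (dd δ s) = dd δ t ∧ Gp M x (gd δ s) ∧ out M (gd δ s) = dd δ t := by
  obtain ⟨a, b, c⟩ := s
  obtain ⟨c', b', e⟩ := t
  change c' = c at h1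
  change b' = b at h2
  subst h1
  subst h2
  have fs : Fc P U a b' c' := h.fc hs
  have ft : Fc P U c' b' e := h.fc ht
  have x1 : x (δ a b') = 1 := hc _ hs
  have x2 : x (δ c' b') = 1 := hc _ ht
  have r1 : M.rho (δ a b') = δ b' c' := A.rho _ _ _ fs
  have r2 : M.rho (δ b' c') = δ c' a := A.rho _ _ _ fs.rot
  have i1 : M.iota (δ b' c') = δ c' b' := A.iot _ _ _ _ fs.rot ft
  have x3 : x (δ b' c') = 1 := by rw [← hx.iot, i1]; exact x2
  have x4 : x (δ c' a) = 0 := by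
    have := hx.par (δ a b')
    rw [if_neg (Set.notMem_empty _), r1, r2, x1, x3] at this
    revert this
    generalize x (δ c' a) = u
    revert u; decide
  have e1 : dd δ (a, b', c') = δ a b' := rfl
  have e2 : gd δ (a, b', c') = δ c' a := rfl
  have e3 : dd δ (c', b', e) = δ c' b' := rfl
  rw [e1, e2, e3]
  refine ⟨?_, ⟨x4, ?_⟩, ?_⟩
  · unfold stp
    rw [r1, if_pos x3, i1]
  · rw [A.rho _ _ _ fs.rot.rot]; exact x1
  · unfold out
    rw [A.rho _ _ _ fs.rot.rot, r1, i1]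

/-- right step -/
theorem Agr.step_r (A : Agr P U M δ κ) (hx : IsC M ∅ x) (h : LpU P U l) (hc : Cpt δ x l) {s t : T3}
    (hs : s ∈ l) (ht : t ∈ l) (h1 : t.1 = s.1) (h2 : t.2.1 = s.2.2) :
    stp M x (dd δ s) = dd δ t ∧ x (gd δ s) = 1 := by
  obtain ⟨a, b, c⟩ := s
  obtain ⟨a', c', e⟩ := t
  change a' = a at h1
  change c' = c at h2
  subst h1
  subst h2
  have fs : Fc P U a' b c' := h.fc hs
  have ft : Fc P U a' c' e := h.fc ht
  have x1 : x (δ a' b) = 1 := hc _ hs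
  have x2 : x (δ a' c') = 1 := hc _ ht
  have r1 : M.rho (δ a' b) = δ b c' := A.rho _ _ _ fs
  have r2 : M.rho (δ b c') = δ c' a' := A.rho _ _ _ fs.rot
  have i1 : M.iota (δ c' a') = δ a' c' := A.iot _ _ _ _ fs.rot.rot ft
  have x3 : x (δ c' a') = 1 := by rw [← hx.iot, i1]; exact x2
  have x4 : x (δ b c') = 0 := by
    have := hx.par (δ a' b)
    rw [if_neg (Set.notMem_empty _), r1, r2, x1, x3] at this
    revert this
    generalize x (δ b c') = u
    revert u; decide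
  refine ⟨?_, x3⟩
  show stp M x (δ a' b) = δ a' c'
  unfold stp
  rw [r1, r2, if_neg (by rw [x4]; decide), i1]

theorem Agr.step (A : Agr P U M δ κ) (hx : IsC M ∅ x) (h : LpU P U l) (hc : Cpt δ x l) {s t : T3}
    (hs : s ∈ l) (ht : t ∈ l) (hst : St l s t) : stp M x (dd δ s) = dd δ t := by
  rcases hst with ⟨-, h1, h2⟩ | ⟨-, h1, h2⟩
  · exact (A.step_l hx h hc hs ht h1 h2).1
  · exact (A.step_r hx h hc hs ht h1 h2).1

/-- the gap states are the states whose third site is on the left -/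
theorem Agr.gap_iff (A : Agr P U M δ κ) (hx : IsC M ∅ x) (h : LpU P U l) (hc : Cpt δ x l) {s : T3}
    (hs : s ∈ l) : Gp M x (gd δ s) ↔ s.2.2 ∈ lf l := by
  obtain ⟨t, ht, hst⟩ := h.lp.nx s hs
  constructor
  · intro hg
    rcases hst with ⟨h0, -, -⟩ | ⟨-, h1, h2⟩
    · exact h0
    · exfalso
      have := (A.step_r hx h hc hs ht h1 h2).2
      rw [hg.1] at this
      exact absurd this (by decide)
  · intro hl
    rcases hst with ⟨-, h1, h2⟩ | ⟨h0, -, -⟩
    · exact (A.step_l hx h hc hs ht h1 h2).2.1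
    · exact absurd h0 (Finset.disjoint_left.1 h.lp.dj hl)

theorem Agr.out_eq (A : Agr P U M δ κ) (hx : IsC M ∅ x) (h : LpU P U l) (hc : Cpt δ x l) {s t : T3}
    (hs : s ∈ l) (ht : t ∈ l) (hg : Gp M x (gd δ s)) (hst : St l s t) :
    out M (gd δ s) = dd δ t := by
  rw [← Gp.stp hx hg, A.gd_rho (h.fc hs)]
  exact A.step hx h hc hs ht hst

/-- next state (inside the loop) of a gap state -/
theorem LpU.next_mem (A : Agr P U M δ κ) (h : LpU P U l) {s s' : T3} (_ : s ∈ l)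
    (hst : St l s s') (hs' : s' ∈ l) : ∃! t, t ∈ l ∧ St l s t := by
  refine ⟨s', ⟨hs', hst⟩, ?_⟩
  rintro t ⟨ht, htt⟩
  have e : t.1 = s'.1 ∧ t.2.1 = s'.2.1 := by
    rcases hst with ⟨h0, h1, h2⟩ | ⟨h0, h1, h2⟩ <;> rcases htt with ⟨g0, g1, g2⟩ | ⟨g0, g1, g2⟩
    · exact ⟨by rw [g1, h1], by rw [g2, h2]⟩
    · exact absurd g0 (Finset.disjoint_left.1 h.lp.dj h0)
    · exact absurd h0 (Finset.disjoint_left.1 h.lp.dj g0)
    · exact ⟨by rw [g1, h1], by rw [g2, h2]⟩
  obtain ⟨t1, t2, t3⟩ := t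
  obtain ⟨s1, s2, s3⟩ := s'
  obtain ⟨e1, e2⟩ := e
  change t1 = s1 at e1
  change t2 = s2 at e2
  subst e1
  subst e2
  have : t3 = s3 := del_uniq A.gp (h.lp.del (t1, t2, t3) ht) (h.lp.del (t1, t2, s3) hs')
  rw [this]

/-- walks of the closed map stay in the loop -/
theorem Agr.iter (A : Agr P U M δ κ) (hx : IsC M ∅ x) (h : LpU P U l) (hc : Cpt δ x l) {s : T3}
    (hs : s ∈ l) (n : ℕ) : ∃ t ∈ l, (stp M x)^[n] (dd δ s) = dd δ t := by
  induction n with
  | zero => exact ⟨s, hs, rfl⟩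
  | succ n ih =>
    obtain ⟨t, ht, h1⟩ := ih
    obtain ⟨u, hu, h2⟩ := h.lp.nx t ht
    refine ⟨u, hu, ?_⟩
    rw [Function.iterate_succ_apply', h1]
    exact A.step hx h hc ht hu h2

theorem Agr.rtg (A : Agr P U M δ κ) (hx : IsC M ∅ x) (h : LpU P U l) (hc : Cpt δ x l)
    {Q : T3 → Prop} {s t : T3} (hs : s ∈ l)
    (hr : Relation.ReflTransGen (fun u v => v ∈ l ∧ St l u v ∧ Q v) s t) (h0 : Q s) :
    t ∈ l ∧ Q t ∧ ∃ n, (stp M x)^[n] (dd δ s) = dd δ t ∧
      ∀ k ≤ n, ∃ u ∈ l, Q u ∧ (stp M x)^[k] (dd δ s) = dd δ u := by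
  induction hr with
  | refl =>
    refine ⟨hs, h0, 0, rfl, fun k hk => ⟨s, hs, h0, ?_⟩⟩
    rw [Nat.le_zero.1 hk]; rfl
  | @tail u v _ huv ih =>
    obtain ⟨h1, h2, n, h3, h4⟩ := ih
    refine ⟨huv.1, huv.2.2, n + 1, ?_, fun k hk => ?_⟩
    · rw [Function.iterate_succ_apply', h3]
      exact A.step hx h hc h1 huv.1 huv.2.1
    · rcases Nat.lt_or_ge n k with hl | hl
      · have : k = n + 1 := by omega
        refine ⟨v, huv.1, huv.2.2, ?_⟩
        rw [this, Function.iterate_succ_apply', h3]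
        exact A.step hx h hc h1 huv.1 huv.2.1
      · exact h4 k hl

/-- a left site of the loop and its cell -/
theorem Agr.cell_dd (A : Agr P U M δ κ) (h : LpU P U l) {s : T3} (hs : s ∈ l) :
    M.cell (dd δ s) = κ s.1 := A.cel _ _ _ (h.fc hs)

/-- avoiding a site = avoiding its cell -/
theorem Agr.av_iff (A : Agr P U M δ κ) (hx : IsC M ∅ x) (h : LpU P U l) (hc : Cpt δ x l) {c : ℂ}
    (hcl : c ∈ lf l) {s t : T3} (hs : s ∈ l) (ht : t ∈ l) :
    AvL l c s t ↔ Av M x (κ c) (dd δ s) (dd δ t) := by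
  obtain ⟨w, hw, rfl⟩ := Finset.mem_image.1 hcl
  constructor
  · rintro ⟨-, h1, h2⟩
    obtain ⟨-, -, n, h3, h4⟩ := A.rtg hx h hc (Q := fun u => u.1 ≠ w.1) hs h2 h1
    refine ⟨n, h3, fun k hk => ?_⟩
    obtain ⟨u, hu, hq, e⟩ := h4 k hk
    rw [e, A.cell_dd h hu]
    exact fun hc => hq (A.inj _ _ _ _ _ _ (h.fc hu) (h.fc hw) hc)
  · rintro ⟨n, h1, h2⟩
    have key : ∀ m ≤ n, ∃ u ∈ l, (stp M x)^[m] (dd δ s) = dd δ u ∧
        Relation.ReflTransGen (fun u v => v ∈ l ∧ St l u v ∧ v.1 ≠ w.1) s u := by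
      intro m
      induction m with
      | zero => intro _; exact ⟨s, hs, rfl, Relation.ReflTransGen.refl⟩
      | succ m ih =>
        intro hm
        obtain ⟨u, hu, e, hr⟩ := ih (by omega)
        obtain ⟨v, hv, huv⟩ := h.lp.nx u hu
        have e2 : (stp M x)^[m + 1] (dd δ s) = dd δ v := by
          rw [Function.iterate_succ_apply', e]
          exact A.step hx h hc hu hv huv
        refine ⟨v, hv, e2, hr.tail ⟨hv, huv, fun hc => h2 (m + 1) hm ?_⟩⟩
        rw [e2, A.cell_dd h hv, hc]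
    obtain ⟨u, hu, e, hr⟩ := key n le_rfl
    have hut : u = t := A.dd_inj h hu ht (by rw [← e, h1])
    rw [hut] at hr
    refine ⟨hs, fun hc => h2 0 (Nat.zero_le _) ?_, hr⟩
    show M.cell (dd δ s) = κ w.1
    rw [A.cell_dd h hs, hc]

/-- avoiding a site which is not on the left of the loop is no condition -/
theorem avL_of (h : LpU P U l) {c : ℂ} (hcl : c ∉ lf l) {s t : T3} (hs : s ∈ l) (ht : t ∈ l) :
    AvL l c s t := by
  have key : ∀ u ∈ l, u.1 ≠ c := fun u hu hc =>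
    hcl (Finset.mem_image.2 ⟨u, hu, hc⟩)
  refine ⟨hs, key s hs, ?_⟩
  exact rtg_map (Equiv.refl T3) (fun u v a => ⟨a.1, a.2, key v a.1⟩) (h.lp.orb s hs t ht)

theorem Agr.av_of (A : Agr P U M δ κ) (hx : IsC M ∅ x) (h : LpU P U l) (hc : Cpt δ x l) {c : C}
    (hcl : ∀ a ∈ lf l, κ a ≠ c) {s t : T3} (hs : s ∈ l) (ht : t ∈ l) :
    Av M x c (dd δ s) (dd δ t) := by
  have h0 : Relation.ReflTransGen (fun u v => v ∈ l ∧ St l u v ∧ True) s t :=
    rtg_map (Equiv.refl T3) (fun u v a => ⟨a.1, a.2, trivial⟩) (h.lp.orb s hs t ht)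
  obtain ⟨-, -, n, h3, h4⟩ := A.rtg hx h hc (Q := fun _ => True) hs h0 trivial
  refine ⟨n, h3, fun k hk => ?_⟩
  obtain ⟨u, hu, -, e⟩ := h4 k hk
  rw [e, A.cell_dd h hu]
  exact hcl _ (Finset.mem_image.2 ⟨u, hu, rfl⟩)

/-- **the relation of the closed map = the local relation** -/
theorem Agr.rel_iff (A : Agr P U M δ κ) (hx : IsC M ∅ x) (h : LpU P U l) (hc : Cpt δ x l)
    {s t : T3} (hs : s ∈ l) (ht : t ∈ l) (hgs : Gp M x (gd δ s)) (hgt : Gp M x (gd δ t)) :
    Rel M x (gd δ s) (gd δ t) ↔ Rl l s t := by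
  obtain ⟨s', hs', hss⟩ := h.lp.nx s hs
  obtain ⟨t', ht', htt⟩ := h.lp.nx t ht
  have os := A.out_eq hx h hc hs hs' hgs hss
  have ot := A.out_eq hx h hc ht ht' hgt htt
  have rs := A.gd_rho (h.fc hs)
  have rt' := A.gd_rho (h.fc ht)
  constructor
  · intro H c
    by_cases hcl : c ∈ lf l
    · rcases H (κ c) with h1 | h1 | h1
      · exact Or.inl (A.gd_inj h hs ht h1)
      · rw [os, rt', ← A.av_iff hx h hc hcl hs' ht] at h1
        exact Or.inr (Or.inl ⟨s', hss, h1⟩)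
      · rw [ot, rs, ← A.av_iff hx h hc hcl ht' hs] at h1
        exact Or.inr (Or.inr ⟨t', htt, h1⟩)
    · exact Or.inr (Or.inl ⟨s', hss, avL_of h hcl hs' ht⟩)
  · intro H c
    by_cases hcl : ∀ a ∈ lf l, κ a ≠ c
    · refine Or.inr (Or.inl ?_)
      rw [os, rt']
      exact A.av_of hx h hc hcl hs' ht
    · push Not at hcl
      obtain ⟨a, ha, rfl⟩ := hcl
      rcases H a with h1 | ⟨u, hu, h1⟩ | ⟨u, hu, h1⟩
      · exact Or.inl (by rw [h1])
      · have hul : u ∈ l := h1.1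
        have e : u = s' := (h.next_mem A hs hss hs').unique ⟨hul, hu⟩ ⟨hs', hss⟩
        rw [e, A.av_iff hx h hc ha hs' ht] at h1
        exact Or.inr (Or.inl (by rw [os, rt']; exact h1))
      · have hul : u ∈ l := h1.1
        have e : u = t' := (h.next_mem A ht htt ht').unique ⟨hul, hu⟩ ⟨ht', htt⟩
        rw [e, A.av_iff hx h hc ha ht' hs] at h1
        exact Or.inr (Or.inr (by rw [ot, rs]; exact h1))

/-- **the block of the closed map is the image of the local block** -/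
theorem Agr.blk_img [Fintype D] (A : Agr P U M δ κ) (hx : IsC M ∅ x) (h : LpU P U l)
    (hc : Cpt δ x l) {s : T3} (hs : s ∈ l) (hgs : s.2.2 ∈ lf l) :
    blk M x (gd δ s) = (bl l s).image (gd δ) := by
  have gs := (A.gap_iff hx h hc hs).2 hgs
  ext g
  rw [mem_blk, Finset.mem_image]
  constructor
  · rintro ⟨hg, H⟩
    -- `g` is on the loop
    have h1 : ∃ n, (stp M x)^[n] (out M (gd δ s)) = M.rho g := by
      rcases H (M.cell g) with e | ⟨n, e, -⟩ | ⟨n, e, -⟩
      · obtain ⟨N, hN, eN⟩ := periodic hx gs.2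
        refine ⟨N - 1, ?_⟩
        rw [← e, ← Gp.stp hx gs, ← Function.iterate_succ_apply, show (N - 1).succ = N by omega, eN]
      · exact ⟨n, e⟩
      · exact come_back hx hg gs e
    obtain ⟨n, hn⟩ := h1
    obtain ⟨s', hs', hss⟩ := h.lp.nx s hs
    rw [A.out_eq hx h hc hs hs' gs hss] at hn
    obtain ⟨t, ht, e⟩ := A.iter hx h hc hs' n
    have e2 : gd δ t = g := by
      rw [A.gd_eq (h.fc ht), ← e, hn, M.rho3]
    refine ⟨t, ?_, e2⟩
    rw [← e2] at hg H
    unfold bl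
    rw [Finset.mem_filter]
    exact ⟨ht, (A.gap_iff hx h hc ht).1 hg, (A.rel_iff hx h hc hs ht gs hg).1 H⟩
  · rintro ⟨t, ht, rfl⟩
    unfold bl at ht
    rw [Finset.mem_filter] at ht
    obtain ⟨ht, h1, h2⟩ := ht
    have gt := (A.gap_iff hx h hc ht).2 h1
    exact ⟨gt, (A.rel_iff hx h hc hs ht gs gt).2 h2⟩

end Crest.Agent.R143.Mass2x302
end
end

-- ▼ part R143/Mass3_302
section

/-!
# Row 143 (S0194): MASS, part 3 (helper302)

* `Agr.exists_lp` : every loop of the closed map inside `U` is a local loop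
* `card_cpt` : the number of even configurations compatible with a local loop
* `mass_eq` : block sums of the closed map (loops inside `U`) = local objects
-/

set_option autoImplicit false

noncomputable section

open scoped Classical

namespace Crest.Agent.R143.Mass3x302

open Crest.Agent.R143.B0x346 Crest.Agent.R143.SumScx302 Crest.Agent.R143.Mass1x302
  Crest.Agent.R143.DelGx806 Crest.Agent.R143.Mass2x302
open Crest.Agent.R143.Frame1x395 Crest.Agent.R143.Frame2x395 Crest.Agent.R143.Frame3x395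
  Crest.Agent.R143.Frame4x395 Crest.Agent.R143.Frame8x395
open scoped ENNReal

variable {D C : Type} {M : CMap D C} {P U : Set ℂ} {δ : ℂ → ℂ → D} {κ : ℂ → C}
variable {x : D → ZMod 2} {l : Finset T3}

/-- the loop of the gap `g` is inside `U` -/
def InU (P U : Set ℂ) (M : CMap D C) (δ : ℂ → ℂ → D) (x : D → ZMod 2) (g : D) : Prop :=
  ∀ n, ∃ a b c, Fc P U a b c ∧ (stp M x)^[n] (M.rho g) = δ a b

/-- **every loop inside `U` is a local loop** -/
theorem exists_lp [Finite D] (A : Agr P U M δ κ) (hx : IsC M ∅ x) {g : D} (hg : Gp M x g)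
    (hU : InU P U M δ x g) : ∃ l s, LpU P U l ∧ s ∈ l ∧ s.2.2 ∈ lf l ∧ Cpt δ x l ∧ gd δ s = g ∧
      ∀ t, t ∈ l ↔ Fc P U t.1 t.2.1 t.2.2 ∧ ∃ n, (stp M x)^[n] (M.rho g) = dd δ t := by
  set p0 := M.rho g with hp0
  have xp : x p0 = 1 := hg.2
  set L : Set T3 := {t | Fc P U t.1 t.2.1 t.2.2 ∧ ∃ n, (stp M x)^[n] p0 = dd δ t} with hL
  have hfin : L.Finite := by
    refine Set.Finite.of_finite_image (f := dd δ) (Set.toFinite _) ?_
    rintro s ⟨hs, -⟩ t ⟨ht, -⟩ e
    obtain ⟨h1, h2, h3⟩ := A.dinj hs ht e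
    exact Prod.ext h1 (Prod.ext h2 h3)
  set l := hfin.toFinset with hl
  have ml : ∀ t, t ∈ l ↔ Fc P U t.1 t.2.1 t.2.2 ∧ ∃ n, (stp M x)^[n] p0 = dd δ t := by
    intro t
    rw [hl, Set.Finite.mem_toFinset]
    exact Iff.rfl
  -- every iterate is a state
  have it : ∀ n, ∃ t, t ∈ l ∧ (stp M x)^[n] p0 = dd δ t := by
    intro n
    obtain ⟨a, b, c, h1, h2⟩ := hU n
    exact ⟨(a, b, c), (ml _).2 ⟨h1, n, h2⟩, h2⟩
  -- colours
  obtain ⟨ψ, hψ⟩ := M.ex x hx.dead hx.iot (fun d => by rw [hx.par d, if_neg (Set.notMem_empty d)])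
  have hψ0 : ∀ d, x d = 0 → ψ (M.cell d) = ψ (M.cell (M.rho d)) := by
    intro d hd
    rw [hψ d] at hd
    revert hd
    generalize ψ (M.cell d) = a
    generalize ψ (M.cell (M.rho d)) = b
    revert a b; decide
  have cl : ∀ t ∈ l, ψ (κ t.1) = ψ (M.cell p0) ∧ ψ (κ t.2.1) ≠ ψ (M.cell p0) := by
    intro t ht
    obtain ⟨h1, n, h2⟩ := (ml t).1 ht
    have e1 : M.cell (dd δ t) = κ t.1 := A.cel _ _ _ h1
    have e2 : M.cell (M.rho (dd δ t)) = κ t.2.1 := by
      have : M.rho (dd δ t) = δ t.2.1 t.2.2 := A.rho _ _ _ h1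
      rw [this]; exact A.cel _ _ _ h1.rot
    have c1 := it_col hx xp hψ0 n
    rw [h2, e1] at c1
    have x1 : x (dd δ t) = 1 := by rw [← h2]; exact occ_it hx xp n
    refine ⟨c1, ?_⟩
    intro hc
    rw [hψ, e1, e2, c1, hc, z_self] at x1
    exact absurd x1 (by decide)
  have key : ∀ s ∈ l, ∀ n, (stp M x)^[n] p0 = dd δ s → ∃ t ∈ l, St l s t ∧
      (stp M x)^[n + 1] p0 = dd δ t := by
    intro s hs n hn
    obtain ⟨⟨a', b', c'⟩, ht, e⟩ := it (n + 1)
    refine ⟨(a', b', c'), ht, ?_, e⟩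
    have fs := ((ml s).1 hs).1
    have ft : Fc P U a' b' c' := ((ml _).1 ht).1
    obtain ⟨a, b, c⟩ := s
    change Fc P U a b c at fs
    have xs : x (δ a b) = 1 := by
      have := occ_it hx xp n
      rwa [hn] at this
    have e' : stp M x (δ a b) = δ a' b' := by
      rw [Function.iterate_succ_apply', hn] at e
      exact e
    have r1 : M.rho (δ a b) = δ b c := A.rho _ _ _ fs
    have r2 : M.rho (δ b c) = δ c a := A.rho _ _ _ fs.rot
    have r3 : M.rho (δ c a) = δ a b := A.rho _ _ _ fs.rot.rot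
    have r4 : M.rho (δ a' b') = δ b' c' := A.rho _ _ _ ft
    rcases stp_cases hx xs (Set.notMem_empty _) with ⟨h1, h2, h3⟩ | ⟨h1, h2, h3⟩
    · rw [r1] at h1 h3
      have lv := hx.lv h1
      rw [e'] at h3
      have k1 : κ a' = κ c := by
        rw [← A.cel _ _ _ ft, h3, M.cell_iota _ lv, r2, A.cel _ _ _ fs.rot.rot]
      have k2 : κ b' = κ b := by
        rw [← A.cel _ _ _ ft.rot, ← r4, h3, cell_rho_iota M lv, A.cel _ _ _ fs.rot]
      have e1 : a' = c := A.inj _ _ _ _ _ _ ft fs.rot.rot k1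
      have e2 : b' = b := A.inj _ _ _ _ _ _ ft.rot fs.rot k2
      left
      refine ⟨Finset.mem_image.2 ⟨(a', b', c'), ht, e1⟩, e1, e2⟩
    · rw [r1, r2] at h2 h3
      have lv := hx.lv h2
      rw [e'] at h3
      have k1 : κ a' = κ a := by
        rw [← A.cel _ _ _ ft, h3, M.cell_iota _ lv, r3, A.cel _ _ _ fs]
      have k2 : κ b' = κ c := by
        rw [← A.cel _ _ _ ft.rot, ← r4, h3, cell_rho_iota M lv, A.cel _ _ _ fs.rot.rot]
      have e1 : a' = a := A.inj _ _ _ _ _ _ ft fs k1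
      have e2 : b' = c := A.inj _ _ _ _ _ _ ft.rot fs.rot.rot k2
      right
      refine ⟨Finset.mem_image.2 ⟨(a', b', c'), ht, e2⟩, e1, e2⟩
  have hlp : LpU P U l := by
    refine ⟨⟨?_, ?_, ?_, ?_, ?_⟩, ?_⟩
    · obtain ⟨t, ht, -⟩ := it 0
      exact ⟨t, ht⟩
    · intro t ht
      exact ((ml t).1 ht).1.1
    · rw [Finset.disjoint_left]
      intro a ha hb
      obtain ⟨t, ht, rfl⟩ := Finset.mem_image.1 ha
      obtain ⟨u, hu, e⟩ := Finset.mem_image.1 hb
      have h1 := (cl t ht).1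
      have h2 := (cl u hu).2
      rw [e, h1] at h2
      exact h2 rfl
    · intro s hs
      obtain ⟨n, hn⟩ := ((ml s).1 hs).2
      obtain ⟨t, ht, h1, -⟩ := key s hs n hn
      exact ⟨t, ht, h1⟩
    · intro s hs t ht
      obtain ⟨n, hn⟩ := ((ml s).1 hs).2
      obtain ⟨m, hm⟩ := ((ml t).1 ht).2
      have walk : ∀ k, ∃ u ∈ l, (stp M x)^[n + k] p0 = dd δ u ∧
          Relation.ReflTransGen (fun u v => v ∈ l ∧ St l u v) s u := by
        intro k
        induction k with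
        | zero => exact ⟨s, hs, hn, Relation.ReflTransGen.refl⟩
        | succ k ih =>
          obtain ⟨u, hu, h1, h2⟩ := ih
          obtain ⟨v, hv, h3, h4⟩ := key u hu (n + k) h1
          exact ⟨v, hv, h4, h2.tail ⟨hv, h3⟩⟩
      obtain ⟨N, hN, eN⟩ := periodic hx xp
      have h5 : n ≤ m + n * N := by nlinarith
      obtain ⟨u, hu, h1, h2⟩ := walk (m + n * N - n)
      rw [Nat.add_sub_cancel' h5, Function.iterate_add_apply, per_mul eN, hm] at h1
      have e : t = u := by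
        obtain ⟨e1, e2, e3⟩ := A.dinj ((ml t).1 ht).1 ((ml u).1 hu).1 h1
        exact Prod.ext e1 (Prod.ext e2 e3)
      rw [e]; exact h2
    · intro t ht
      exact ((ml t).1 ht).1.2
  have hcp : Cpt δ x l := by
    intro t ht
    obtain ⟨n, hn⟩ := ((ml t).1 ht).2
    have := occ_it hx xp n
    rwa [hn] at this
  obtain ⟨s, hs, e0⟩ := it 0
  have e0' : M.rho g = dd δ s := e0
  have hgs : gd δ s = g := by
    rw [A.gd_eq (hlp.fc hs), ← e0', M.rho3]
  refine ⟨l, s, hlp, hs, ?_, hcp, hgs, ml⟩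
  rw [← A.gap_iff hx hlp hcp hs, hgs]
  exact hg

/-! ### counting the colours -/

/-- the same map with finitely many cells -/
def restr (M : CMap D C) : CMap D (Set.range M.cell) where
  rho := M.rho
  rho3 := M.rho3
  rho_ne := M.rho_ne
  iota := M.iota
  iota2 := M.iota2
  live := M.live
  iota_live := M.iota_live
  iota_ne := M.iota_ne
  cell := fun d => ⟨M.cell d, d, rfl⟩
  cell_iota := fun d hd => Subtype.ext (M.cell_iota d hd)
  dead := fun d hd => Subtype.ext (M.dead d hd)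
  ex := fun x h1 h2 h3 => by
    obtain ⟨χ, hχ⟩ := M.ex x h1 h2 h3
    exact ⟨fun c => χ c.1, hχ⟩

theorem isC_restr {O : Set D} : IsC (restr M) O x ↔ IsC M O x :=
  ⟨fun h => ⟨h.dead, h.iot, h.par⟩, fun h => ⟨h.dead, h.iot, h.par⟩⟩

theorem card_pres {K : Type} [Fintype K] (V : Finset K) (f : K → ZMod 2) :
    ((Finset.univ : Finset (K → ZMod 2)).filter fun χ => ∀ v ∈ V, χ v = f v).card * 2 ^ V.card =
      2 ^ Fintype.card K := by
  have e : ((Finset.univ : Finset (K → ZMod 2)).filter fun χ => ∀ v ∈ V, χ v = f v) =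
      Fintype.piFinset fun k => if k ∈ V then {f k} else Finset.univ := by
    ext χ
    rw [Finset.mem_filter, Fintype.mem_piFinset]
    constructor
    · rintro ⟨-, h⟩ k
      by_cases hk : k ∈ V
      · rw [if_pos hk, Finset.mem_singleton]; exact h k hk
      · rw [if_neg hk]; exact Finset.mem_univ _
    · intro h
      refine ⟨Finset.mem_univ _, fun k hk => ?_⟩
      have := h k
      rwa [if_pos hk, Finset.mem_singleton] at this
  rw [e, Fintype.card_piFinset]
  have e2 : ∀ k : K, (if k ∈ V then ({f k} : Finset (ZMod 2)) else Finset.univ).card =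
      if k ∈ V then 1 else 2 := by
    intro k
    split_ifs
    · rfl
    · rfl
  simp only [e2]
  rw [Finset.prod_ite, Finset.prod_const_one, one_mul, Finset.prod_const, ← pow_add]
  congr 1
  have h1 : (Finset.univ.filter fun k => k ∉ V) = Finset.univ \ V := by
    ext k; simp
  rw [h1, Finset.card_sdiff_of_subset (Finset.subset_univ V), Finset.card_univ]
  exact Nat.sub_add_cancel (Finset.card_le_univ V)

/-- **the number of the compatible even configurations** -/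
theorem card_cpt [Fintype D] (A : Agr P U M δ κ) (h : LpU P U l) :
    ((ev M).filter fun x => Cpt δ x l).card * 2 ^ (lf l ∪ rt l).card = 2 * (ev M).card := by
  have : Finite (Set.range M.cell) := Set.finite_range M.cell
  have : Fintype (Set.range M.cell) := Fintype.ofFinite _
  set K := Set.range M.cell with hK
  set M' := restr M with hM'
  have hev : ev M' = ev M := by
    ext x
    rw [mem_ev, mem_ev]
    exact isC_restr
  -- the sites and their cells
  have fcs : ∀ v ∈ lf l ∪ rt l, ∃ b c, Fc P U v b c := by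
    intro v hv
    rcases Finset.mem_union.1 hv with hv | hv
    · obtain ⟨t, ht, rfl⟩ := Finset.mem_image.1 hv
      exact ⟨_, _, h.fc ht⟩
    · obtain ⟨t, ht, rfl⟩ := Finset.mem_image.1 hv
      exact ⟨_, _, (h.fc ht).rot⟩
  have hr : ∀ v ∈ lf l ∪ rt l, κ v ∈ K := by
    intro v hv
    obtain ⟨b, c, hf⟩ := fcs v hv
    exact ⟨_, A.cel _ _ _ hf⟩
  set k0 : ℂ → K := fun v => if hv : v ∈ lf l ∪ rt l then ⟨κ v, hr v hv⟩ else
    ⟨κ (h.lp.ne.choose).1, hr _ (Finset.mem_union_left _ (Finset.mem_image.2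
      ⟨_, h.lp.ne.choose_spec, rfl⟩))⟩ with hk0
  have k0v : ∀ v ∈ lf l ∪ rt l, (k0 v).1 = κ v := by
    intro v hv
    simp only [hk0, dif_pos hv]
  have kinj : ∀ v ∈ lf l ∪ rt l, ∀ w ∈ lf l ∪ rt l, k0 v = k0 w → v = w := by
    intro v hv w hw e
    obtain ⟨b, c, hf⟩ := fcs v hv
    obtain ⟨b', c', hf'⟩ := fcs w hw
    exact A.inj _ _ _ _ _ _ hf hf' (by rw [← k0v v hv, ← k0v w hw, e])
  set V : Finset K := (lf l ∪ rt l).image k0 with hV
  have hVc : V.card = (lf l ∪ rt l).card :=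
    Finset.card_image_of_injOn fun v hv w hw e => kinj v hv w hw e
  -- the prescribed colours
  set f : ZMod 2 → K → ZMod 2 := fun ε k => if k ∈ (lf l).image k0 then ε else ε + 1 with hf
  have fl : ∀ ε, ∀ v ∈ lf l, f ε (k0 v) = ε := by
    intro ε v hv
    simp only [hf]
    rw [if_pos (Finset.mem_image_of_mem _ hv)]
  have fr : ∀ ε, ∀ v ∈ rt l, f ε (k0 v) = ε + 1 := by
    intro ε v hv
    simp only [hf]
    rw [if_neg]
    intro hc
    obtain ⟨w, hw, e⟩ := Finset.mem_image.1 hc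
    have := kinj w (Finset.mem_union_left _ hw) v (Finset.mem_union_right _ hv) e
    rw [this] at hw
    exact Finset.disjoint_left.1 h.lp.dj hw hv
  have hcp : ∀ χ : K → ZMod 2, Cpt δ (cfg M' χ) l ↔
      (∀ v ∈ V, χ v = f 0 v) ∨ (∀ v ∈ V, χ v = f 1 v) := by
    intro χ
    have val : ∀ t ∈ l, cfg M' χ (δ t.1 t.2.1) = χ (k0 t.1) + χ (k0 t.2.1) := by
      intro t ht
      have f1 := h.fc ht
      have m1 : t.1 ∈ lf l ∪ rt l := Finset.mem_union_left _ (Finset.mem_image.2 ⟨t, ht, rfl⟩)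
      have m2 : t.2.1 ∈ lf l ∪ rt l := Finset.mem_union_right _ (Finset.mem_image.2 ⟨t, ht, rfl⟩)
      have e1 : M'.cell (δ t.1 t.2.1) = k0 t.1 := by
        apply Subtype.ext
        rw [k0v _ m1]
        exact A.cel _ _ _ f1
      have e2 : M'.cell (M'.rho (δ t.1 t.2.1)) = k0 t.2.1 := by
        apply Subtype.ext
        rw [k0v _ m2]
        show M.cell (M.rho _) = _
        rw [A.rho _ _ _ f1]
        exact A.cel _ _ _ f1.rot
      show χ (M'.cell _) + χ (M'.cell (M'.rho _)) = _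
      rw [e1, e2]
    constructor
    · intro hc
      -- the colours are constant on the left and on the right
      obtain ⟨s0, hs0⟩ := h.lp.ne
      have st : ∀ s ∈ l, ∀ t ∈ l, St l s t → χ (k0 t.1) = χ (k0 s.1) := by
        -- the third site
        have third : ∀ s ∈ l, ∀ t ∈ l, St l s t → χ (k0 t.1) = χ (k0 s.1) := by
          intro s hs t ht hst
          rcases hst with ⟨-, h1, h2⟩ | ⟨-, h1, h2⟩
          · have c1 := hc s hs
            have c2 := hc t ht
            rw [val s hs] at c1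
            rw [val t ht, h2] at c2
            revert c1 c2
            generalize χ (k0 s.1) = u
            generalize χ (k0 s.2.1) = v
            generalize χ (k0 t.1) = w
            revert u v w; decide
          · rw [h1]
        exact third
      have lc : ∀ t ∈ l, χ (k0 t.1) = χ (k0 s0.1) := by
        intro t ht
        have hr := h.lp.orb s0 hs0 t ht
        have : t ∈ l ∧ χ (k0 t.1) = χ (k0 s0.1) := by
          clear ht
          induction hr with
          | refl => exact ⟨hs0, rfl⟩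
          | tail _ huv ih => exact ⟨huv.1, (st _ ih.1 _ huv.1 huv.2).trans ih.2⟩
        exact this.2
      have rc : ∀ t ∈ l, χ (k0 t.2.1) = χ (k0 s0.1) + 1 := by
        intro t ht
        have c1 := hc t ht
        rw [val t ht, lc t ht] at c1
        revert c1
        generalize χ (k0 s0.1) = u
        generalize χ (k0 t.2.1) = v
        revert u v; decide
      have hall : ∀ v ∈ V, χ v = f (χ (k0 s0.1)) v := by
        intro v hv
        obtain ⟨w, hw, rfl⟩ := Finset.mem_image.1 hv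
        rcases Finset.mem_union.1 hw with hw | hw
        · rw [fl _ w hw]
          obtain ⟨t, ht, rfl⟩ := Finset.mem_image.1 hw
          exact lc t ht
        · rw [fr _ w hw]
          obtain ⟨t, ht, rfl⟩ := Finset.mem_image.1 hw
          exact rc t ht
      rcases z01 (χ (k0 s0.1)) with h0 | h0
      · left; rw [h0] at hall; exact hall
      · right; rw [h0] at hall; exact hall
    · intro hc t ht
      show cfg M' χ (δ t.1 t.2.1) = 1
      rw [val t ht]
      have m1 : t.1 ∈ lf l := Finset.mem_image.2 ⟨t, ht, rfl⟩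
      have m2 : t.2.1 ∈ rt l := Finset.mem_image.2 ⟨t, ht, rfl⟩
      have v1 : k0 t.1 ∈ V := Finset.mem_image_of_mem _ (Finset.mem_union_left _ m1)
      have v2 : k0 t.2.1 ∈ V := Finset.mem_image_of_mem _ (Finset.mem_union_right _ m2)
      rcases hc with hc | hc
      · rw [hc _ v1, hc _ v2, fl _ _ m1, fr _ _ m2]; decide
      · rw [hc _ v1, hc _ v2, fl _ _ m1, fr _ _ m2]; decide
  -- counting
  have n1 := sum_cfg (M := M') (fun x => if Cpt δ x l then (1 : ℕ) else 0)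
  have n2 := sum_cfg (M := M') (fun _ => (1 : ℕ))
  rw [hev] at n1 n2
  have c0 := card_pres V (f 0)
  have c1 := card_pres V (f 1)
  have n3 : (∑ χ : K → ZMod 2, if Cpt δ (cfg M' χ) l then (1 : ℕ) else 0) =
      ((Finset.univ : Finset (K → ZMod 2)).filter fun χ => ∀ v ∈ V, χ v = f 0 v).card +
      ((Finset.univ : Finset (K → ZMod 2)).filter fun χ => ∀ v ∈ V, χ v = f 1 v).card := by
    rw [← Finset.card_union_of_disjoint, Finset.sum_boole, ← Finset.filter_or]
    · norm_cast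
      congr 1
      ext χ
      simp only [Finset.mem_filter, Finset.mem_univ, true_and]
      exact hcp χ
    · rw [Finset.disjoint_left]
      intro χ h0 h1
      obtain ⟨-, h0⟩ := Finset.mem_filter.1 h0
      obtain ⟨-, h1⟩ := Finset.mem_filter.1 h1
      obtain ⟨s0, hs0⟩ := h.lp.ne
      have m1 : s0.1 ∈ lf l := Finset.mem_image.2 ⟨s0, hs0, rfl⟩
      have v1 : k0 s0.1 ∈ V := Finset.mem_image_of_mem _ (Finset.mem_union_left _ m1)
      have e0 := h0 _ v1
      have e1 := h1 _ v1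
      rw [fl _ _ m1] at e0 e1
      rw [e0] at e1
      exact absurd e1 (by decide)
  have n4 : (∑ χ : K → ZMod 2, (1 : ℕ)) = 2 ^ Fintype.card K := by
    rw [Finset.sum_const, Finset.card_univ, Fintype.card_fun, smul_eq_mul, mul_one]
    rfl
  have n5 : (∑ x ∈ ev M, if Cpt δ x l then (1 : ℕ) else 0) =
      ((ev M).filter fun x => Cpt δ x l).card := by
    rw [Finset.sum_boole]
    rfl
  have n6 : (∑ x ∈ ev M, (1 : ℕ)) = (ev M).card := by simp
  have n1 : ((Finset.univ : Finset (K → ZMod 2)).filter fun χ => ∀ v ∈ V, χ v = f 0 v).card +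
      ((Finset.univ : Finset (K → ZMod 2)).filter fun χ => ∀ v ∈ V, χ v = f 1 v).card =
      nK M' * ((ev M).filter fun x => Cpt δ x l).card := by
    rw [← n5, ← smul_eq_mul, ← n3]
    convert n1
  have n2 : 2 ^ Fintype.card K = nK M' * (ev M).card := by
    rw [← n6, ← smul_eq_mul, ← n4]
    convert n2
  have hk : 0 < nK M' := by
    rcases Nat.eq_zero_or_pos (nK M') with h0 | h0
    · rw [h0, zero_mul] at n2
      exact absurd n2 (by positivity)
    · exact h0
  rw [← hVc]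
  apply Nat.eq_of_mul_eq_mul_left hk
  calc nK M' * (((ev M).filter fun x => Cpt δ x l).card * 2 ^ V.card)
      = (nK M' * ((ev M).filter fun x => Cpt δ x l).card) * 2 ^ V.card := by ring
    _ = 2 ^ Fintype.card K + 2 ^ Fintype.card K := by
        rw [← n1, add_mul]
        refine congrArg₂ (fun a b : ℕ => a + b) ?_ ?_
        · convert c0
        · convert c1
    _ = nK M' * (2 * (ev M).card) := by rw [n2]; ring

end Crest.Agent.R143.Mass3x302
end
end

-- ▼ part R143/Far_832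
section

/-!
# Row 143 (S0194): three far sites in general position (helper832)

* `gp_add` : a site can be added in every non empty open set, keeping general position
* `far` : three sites can be added outside of any disc such that no old site is on the hull
-/

set_option autoImplicit false

noncomputable section

open scoped Classical

namespace Crest.Agent.R143.Farx832

open MeasureTheory Set
open Crest.Agent.R143.B0x346 Crest.Agent.R143.DelGx806 Crest.Agent.R143.Frame10x395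

/-- the line through `a` and `b` -/
def lineS (a b : ℂ) : Set ℂ := {p | cr (b - a) (p - a) = 0}

/-- points on a circle through `a, b, c` -/
def circS (a b c : ℂ) : Set ℂ :=
  {p | ∃ o : ℂ, ‖b - o‖ = ‖a - o‖ ∧ ‖c - o‖ = ‖a - o‖ ∧ ‖p - o‖ = ‖a - o‖}

/-- `v ↦ cr u v` as a linear map -/
def crL (u : ℂ) : ℂ →ₗ[ℝ] ℝ where
  toFun v := cr u v
  map_add' v w := by unfold cr; simp only [Complex.add_re, Complex.add_im]; ring
  map_smul' t v := by
    unfold cr
    simp only [Complex.real_smul, Complex.mul_re, Complex.mul_im, Complex.ofReal_re,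
      Complex.ofReal_im, RingHom.id_apply, smul_eq_mul]
    ring

theorem vol_line {a b : ℂ} (h : a ≠ b) : volume (lineS a b) = 0 := by
  have hne : LinearMap.ker (crL (b - a)) ≠ ⊤ := by
    intro hk
    have h1 : Complex.I * (b - a) ∈ LinearMap.ker (crL (b - a)) := by rw [hk]; trivial
    have h2 : cr (b - a) (Complex.I * (b - a)) = 0 := h1
    have h3 : cr (b - a) (Complex.I * (b - a)) = (b - a).re ^ 2 + (b - a).im ^ 2 := by
      unfold cr
      simp only [Complex.mul_re, Complex.mul_im, Complex.I_re, Complex.I_im]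
      ring
    rw [h3] at h2
    have h4 : (b - a).re = 0 := by nlinarith [sq_nonneg (b - a).re, sq_nonneg (b - a).im]
    have h5 : (b - a).im = 0 := by nlinarith [sq_nonneg (b - a).re, sq_nonneg (b - a).im]
    have h6 : b - a = 0 := Complex.ext h4 h5
    exact h (sub_eq_zero.1 h6).symm
  have h1 : volume ((LinearMap.ker (crL (b - a)) : Submodule ℝ ℂ) : Set ℂ) = 0 :=
    Measure.addHaar_submodule volume _ hne
  have h2 : lineS a b = (fun p => p - a) ⁻¹' ((LinearMap.ker (crL (b - a)) : Submodule ℝ ℂ) : Set ℂ) := by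
    ext p
    rfl
  rw [h2]
  rw [(measurePreserving_sub_right volume a).measure_preimage_emb
    (MeasurableEquiv.subRight a).measurableEmbedding]
  exact h1

theorem sq_norm (z : ℂ) : ‖z‖ ^ 2 = z.re ^ 2 + z.im ^ 2 := by
  rw [← Complex.normSq_eq_norm_sq, Complex.normSq_apply]
  ring

/-- uniqueness of the circumcentre -/
theorem centre_uniq {a b c o o' : ℂ} (h : cr (b - a) (c - a) ≠ 0)
    (h1 : ‖b - o‖ = ‖a - o‖) (h2 : ‖c - o‖ = ‖a - o‖)
    (h3 : ‖b - o'‖ = ‖a - o'‖) (h4 : ‖c - o'‖ = ‖a - o'‖) : o = o' := by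
  have e1 : ‖b - o‖ ^ 2 = ‖a - o‖ ^ 2 := by rw [h1]
  have e2 : ‖c - o‖ ^ 2 = ‖a - o‖ ^ 2 := by rw [h2]
  have e3 : ‖b - o'‖ ^ 2 = ‖a - o'‖ ^ 2 := by rw [h3]
  have e4 : ‖c - o'‖ ^ 2 = ‖a - o'‖ ^ 2 := by rw [h4]
  simp only [sq_norm, Complex.sub_re, Complex.sub_im] at e1 e2 e3 e4
  unfold cr at h
  simp only [Complex.sub_re, Complex.sub_im] at h
  have f1 : (b.re - a.re) * (o.re - o'.re) + (b.im - a.im) * (o.im - o'.im) = 0 := by
    linarith
  have f2 : (c.re - a.re) * (o.re - o'.re) + (c.im - a.im) * (o.im - o'.im) = 0 := by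
    linarith
  have g1 : ((b.re - a.re) * (c.im - a.im) - (b.im - a.im) * (c.re - a.re)) * (o.re - o'.re) = 0 := by
    linear_combination (c.im - a.im) * f1 - (b.im - a.im) * f2
  have g2 : ((b.re - a.re) * (c.im - a.im) - (b.im - a.im) * (c.re - a.re)) * (o.im - o'.im) = 0 := by
    linear_combination (b.re - a.re) * f2 - (c.re - a.re) * f1
  apply Complex.ext
  · rcases mul_eq_zero.1 g1 with k | k
    · exact absurd k h
    · linarith
  · rcases mul_eq_zero.1 g2 with k | k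
    · exact absurd k h
    · linarith

theorem vol_circ {a b c : ℂ} (h : cr (b - a) (c - a) ≠ 0) : volume (circS a b c) = 0 := by
  by_cases hne : (circS a b c).Nonempty
  · obtain ⟨_, o, h1, h2, _⟩ := hne
    refine measure_mono_null (t := Metric.sphere o ‖a - o‖) ?_ ?_
    · rintro p ⟨o', k1, k2, k3⟩
      have := centre_uniq h k1 k2 h1 h2
      subst this
      rw [mem_sphere_iff_norm]
      exact k3
    · exact Measure.addHaar_sphere volume o ‖a - o‖
  · rw [Set.not_nonempty_iff_eq_empty.1 hne, measure_empty]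

/-- the bad positions of a new site -/
def bad (S : Finset ℂ) : Set ℂ :=
  (⋃ q ∈ (S ×ˢ S : Finset (ℂ × ℂ)).filter (fun q => q.1 ≠ q.2), lineS q.1 q.2) ∪
    ((⋃ q ∈ (S ×ˢ (S ×ˢ S) : Finset (ℂ × ℂ × ℂ)).filter
      (fun q => cr (q.2.1 - q.1) (q.2.2 - q.1) ≠ 0), circS q.1 q.2.1 q.2.2) ∪ (S : Set ℂ))

theorem vol_bad (S : Finset ℂ) : volume (bad S) = 0 := by
  unfold bad
  refine measure_union_null ?_ (measure_union_null ?_ ?_)
  · refine (measure_biUnion_null_iff (Finset.countable_toSet _)).2 fun q hq => ?_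
    have hq' := Finset.mem_coe.1 hq
    rw [Finset.mem_filter] at hq'
    exact vol_line hq'.2
  · refine (measure_biUnion_null_iff (Finset.countable_toSet _)).2 fun q hq => ?_
    have hq' := Finset.mem_coe.1 hq
    rw [Finset.mem_filter] at hq'
    exact vol_circ hq'.2
  · exact S.countable_toSet.measure_zero volume

/-- **a site can be added in every non empty open set** -/
theorem gp_add {S : Finset ℂ} (hS : GP (S : Set ℂ)) {U : Set ℂ} (hU : IsOpen U) (hne : U.Nonempty) :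
    ∃ p ∈ U, p ∉ S ∧ GP ((insert p S : Finset ℂ) : Set ℂ) := by
  have h1 : 0 < volume U := hU.measure_pos volume hne
  have h2 : ∃ p ∈ U, p ∉ bad S := by
    by_contra hcon
    push Not at hcon
    have : volume U ≤ volume (bad S) := measure_mono fun p hp => hcon p hp
    rw [vol_bad] at this
    exact absurd h1 (not_lt.2 this)
  obtain ⟨p, hpU, hp⟩ := h2
  unfold bad at hp
  simp only [mem_union, not_or] at hp
  obtain ⟨hp1, hp2, hp3⟩ := hp
  have hpS : p ∉ S := fun h => hp3 (Finset.mem_coe.2 h)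
  have hl : ∀ a ∈ S, ∀ b ∈ S, a ≠ b → cr (b - a) (p - a) ≠ 0 := by
    intro a ha b hb hab h
    apply hp1
    refine mem_biUnion (x := (a, b)) ?_ h
    exact Finset.mem_coe.2 (Finset.mem_filter.2 ⟨Finset.mk_mem_product ha hb, hab⟩)
  have hc : ∀ a ∈ S, ∀ b ∈ S, ∀ c ∈ S, a ≠ b → b ≠ c → a ≠ c → ∀ o : ℂ,
      ¬ (‖b - o‖ = ‖a - o‖ ∧ ‖c - o‖ = ‖a - o‖ ∧ ‖p - o‖ = ‖a - o‖) := by
    intro a ha b hb c hcS hab hbc hac o h
    apply hp2
    refine mem_biUnion (x := (a, b, c)) ?_ ⟨o, h⟩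
    exact Finset.mem_coe.2 (Finset.mem_filter.2 ⟨Finset.mk_mem_product ha
      (Finset.mk_mem_product hb hcS), hS.line a ha b hb c hcS hab hbc hac⟩)
  refine ⟨p, hpU, hpS, ?_, ?_⟩
  · intro a ha b hb c hcS hab hbc hac h
    rw [Finset.coe_insert, mem_insert_iff] at ha hb hcS
    rcases ha with rfl | ha
    · rcases hb with rfl | hb
      · exact hab rfl
      · rcases hcS with rfl | hcS
        · exact hac rfl
        · apply hl b hb c hcS hbc
          unfold cr at h ⊢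
          simp only [Complex.sub_re, Complex.sub_im] at h ⊢
          linarith
    · rcases hb with rfl | hb
      · rcases hcS with rfl | hcS
        · exact hbc rfl
        · apply hl a ha c hcS hac
          unfold cr at h ⊢
          simp only [Complex.sub_re, Complex.sub_im] at h ⊢
          linarith
      · rcases hcS with rfl | hcS
        · exact hl a ha b hb hab h
        · exact hS.line a ha b hb c hcS hab hbc hac h
  · rintro a ha b hb c hcS e he hab hac hae hbc hbe hce o ⟨h1, h2, h3⟩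
    rw [Finset.coe_insert, mem_insert_iff] at ha hb hcS he
    rcases ha with rfl | ha
    · have hb := hb.resolve_left fun h => hab h.symm
      have hcS := hcS.resolve_left fun h => hac h.symm
      have he := he.resolve_left fun h => hae h.symm
      exact hc b hb c hcS e he hbc hce hbe o ⟨h2.trans h1.symm, h3.trans h1.symm, h1.symm⟩
    · rcases hb with rfl | hb
      · have hcS := hcS.resolve_left fun h => hbc h.symm
        have he := he.resolve_left fun h => hbe h.symm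
        exact hc a ha c hcS e he hac hce hae o ⟨h2, h3, h1⟩
      · rcases hcS with rfl | hcS
        · have he := he.resolve_left fun h => hce h.symm
          exact hc a ha b hb e he hab hbe hae o ⟨h1, h3, h2⟩
        · rcases he with rfl | he
          · exact hc a ha b hb c hcS hab hbc hac o ⟨h1, h2, h3⟩
          · exact hS.circ a ha b hb c hcS e he hab hac hae hbc hbe hce o ⟨h1, h2, h3⟩

theorem abs_cr_le (u v : ℂ) : |cr u v| ≤ ‖u‖ * ‖v‖ := by
  have h1 : cr u v ^ 2 ≤ (‖u‖ * ‖v‖) ^ 2 := by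
    rw [mul_pow, sq_norm, sq_norm]
    unfold cr
    nlinarith [sq_nonneg (u.re * v.re + u.im * v.im)]
  exact abs_le_of_sq_le_sq h1 (by positivity)

/-- a point well inside the triangle of three far points is not on the hull -/
theorem not_onHull {S : Finset ℂ} {v p0 p1 p2 : ℂ} {R M : ℝ} (hM : ‖v‖ ≤ M) (hM0 : 0 ≤ M)
    (hR : 3 * (1 + M) < R)
    (h0 : ‖p0 - (R : ℂ) * 1‖ < 1) (h1 : ‖p1 - (R : ℂ) * (-1 + Complex.I)‖ < 1)
    (h2 : ‖p2 - (R : ℂ) * (-1 - Complex.I)‖ < 1)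
    (m0 : p0 ∈ S) (m1 : p1 ∈ S) (m2 : p2 ∈ S) : ¬ OnHull S v := by
  rintro ⟨a, ha⟩
  have hne : a ≠ v := Crest.Agent.R143.DelRx806.hullE.ne ha
  set d : ℂ := v - a with hd
  have hd0 : 0 < ‖d‖ := norm_pos_iff.2 (sub_ne_zero.2 hne.symm)
  have key : ∀ (p e : ℂ), ‖p - (R : ℂ) * e‖ < 1 → p ∈ S → -(‖d‖ * (1 + M)) ≤ R * cr d e := by
    intro p e hp hpS
    have k1 : 0 ≤ cr (v - a) (p - a) := hull_side ha p hpS
    have k2 : cr (v - a) (p - a) = R * cr d e + cr d ((p - (R : ℂ) * e) - v) := by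
      rw [hd]
      unfold cr
      simp only [Complex.sub_re, Complex.sub_im, Complex.mul_re, Complex.mul_im, Complex.ofReal_re,
        Complex.ofReal_im]
      ring
    have k3 : |cr d ((p - (R : ℂ) * e) - v)| ≤ ‖d‖ * (1 + M) := by
      refine (abs_cr_le _ _).trans (mul_le_mul_of_nonneg_left ?_ hd0.le)
      exact (norm_sub_le _ _).trans (add_le_add hp.le hM)
    have k4 := (abs_le.1 k3).2
    linarith
  have e0 := key p0 1 h0 m0
  have e1 := key p1 (-1 + Complex.I) h1 m1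
  have e2 := key p2 (-1 - Complex.I) h2 m2
  have c0 : cr d 1 = -d.im := by unfold cr; simp
  have c1 : cr d (-1 + Complex.I) = d.re + d.im := by unfold cr; simp
  have c2 : cr d (-1 - Complex.I) = -d.re + d.im := by unfold cr; simp
  rw [c0] at e0
  rw [c1] at e1
  rw [c2] at e2
  have hR0 : 0 < R := by linarith
  set t : ℝ := ‖d‖ * (1 + M) with ht
  have f1 : R * |d.im| ≤ t := by
    rcases abs_cases d.im with ⟨h, _⟩ | ⟨h, _⟩ <;> rw [h]
    · linarith
    · nlinarith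
  have f2 : R * |d.re| ≤ 2 * t := by
    rcases abs_cases d.re with ⟨h, _⟩ | ⟨h, _⟩ <;> rw [h]
    · nlinarith
    · nlinarith
  have f3 : ‖d‖ ≤ |d.re| + |d.im| := Complex.norm_le_abs_re_add_abs_im d
  have f4 : R * ‖d‖ ≤ 3 * t := by nlinarith
  have f5 : 3 * t = ‖d‖ * (3 * (1 + M)) := by rw [ht]; ring
  rw [f5] at f4
  have f6 : ‖d‖ * (3 * (1 + M)) < ‖d‖ * R := mul_lt_mul_of_pos_left hR hd0
  linarith

/-- **three far sites** such that no old site is on the hull (with the new sites not in `S`) -/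
theorem far' (S : Finset ℂ) (hS : GP (S : Set ℂ)) (r : ℝ) :
    ∃ F : Finset ℂ, F.card = 3 ∧ (∀ p ∈ F, r < ‖p‖) ∧ (∀ p ∈ F, p ∉ S) ∧
      GP ((S ∪ F : Finset ℂ) : Set ℂ) ∧ ∀ v ∈ S, ¬ OnHull (S ∪ F) v := by
  obtain ⟨M, hM0, hM⟩ : ∃ M : ℝ, 0 ≤ M ∧ ∀ v ∈ S, ‖v‖ ≤ M := by
    refine ⟨∑ v ∈ S, ‖v‖, Finset.sum_nonneg fun _ _ => norm_nonneg _, fun v hv => ?_⟩
    exact Finset.single_le_sum (f := fun v => ‖v‖) (fun _ _ => norm_nonneg _) hv
  set R : ℝ := 3 * (1 + M) + 1 + |r| with hR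
  have hr := abs_nonneg r
  have hR0 : 0 < R := by rw [hR]; positivity
  have hR3 : 3 * (1 + M) < R := by rw [hR]; linarith
  have hRr : r < R - 1 := by rw [hR]; linarith [le_abs_self r]
  obtain ⟨p0, u0, n0, g0⟩ := gp_add hS (U := Metric.ball ((R : ℂ) * 1) 1) Metric.isOpen_ball
    ⟨_, Metric.mem_ball_self one_pos⟩
  obtain ⟨p1, u1, n1, g1⟩ := gp_add g0 (U := Metric.ball ((R : ℂ) * (-1 + Complex.I)) 1)
    Metric.isOpen_ball ⟨_, Metric.mem_ball_self one_pos⟩
  obtain ⟨p2, u2, n2, g2⟩ := gp_add g1 (U := Metric.ball ((R : ℂ) * (-1 - Complex.I)) 1)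
    Metric.isOpen_ball ⟨_, Metric.mem_ball_self one_pos⟩
  rw [Metric.mem_ball, dist_eq_norm] at u0 u1 u2
  rw [Finset.mem_insert, not_or] at n1 n2
  rw [Finset.mem_insert, not_or] at n2
  have hun : S ∪ {p0, p1, p2} = insert p2 (insert p1 (insert p0 S)) := by
    ext z
    simp only [Finset.mem_union, Finset.mem_insert, Finset.mem_singleton]
    tauto
  have big : ∀ (p e : ℂ), ‖p - (R : ℂ) * e‖ < 1 → 1 ≤ ‖e‖ → r < ‖p‖ := by
    intro p e hp he
    have k1 : ‖(R : ℂ) * e‖ ≤ ‖p‖ + ‖p - (R : ℂ) * e‖ := by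
      have : (R : ℂ) * e = p - (p - (R : ℂ) * e) := by ring
      calc ‖(R : ℂ) * e‖ = ‖p - (p - (R : ℂ) * e)‖ := by rw [← this]
        _ ≤ _ := norm_sub_le _ _
    rw [norm_mul, Complex.norm_real, Real.norm_eq_abs, abs_of_pos hR0] at k1
    nlinarith
  have ne1 : (1 : ℝ) ≤ ‖(-1 + Complex.I : ℂ)‖ := by
    have := Complex.abs_im_le_norm (-1 + Complex.I : ℂ)
    simpa using this
  have ne2 : (1 : ℝ) ≤ ‖(-1 - Complex.I : ℂ)‖ := by
    have := Complex.abs_im_le_norm (-1 - Complex.I : ℂ)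
    simpa using this
  refine ⟨{p0, p1, p2}, ?_, ?_, ?_, ?_, ?_⟩
  · rw [Finset.card_eq_three]
    exact ⟨p0, p1, p2, Ne.symm n1.1, Ne.symm n2.2.1, Ne.symm n2.1, rfl⟩
  · intro p hp
    simp only [Finset.mem_insert, Finset.mem_singleton] at hp
    rcases hp with rfl | rfl | rfl
    · exact big _ 1 u0 (by simp)
    · exact big _ _ u1 ne1
    · exact big _ _ u2 ne2
  · intro p hp
    simp only [Finset.mem_insert, Finset.mem_singleton] at hp
    rcases hp with rfl | rfl | rfl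
    · exact n0
    · exact n1.2
    · exact n2.2.2
  · rw [hun]
    exact g2
  · intro v hv
    refine not_onHull (hM v hv) hM0 hR3 u0 u1 u2 ?_ ?_ ?_ <;>
      simp only [Finset.mem_union, Finset.mem_insert, Finset.mem_singleton] <;> tauto

/-- **(S1) FAR** -/
theorem far (S : Finset ℂ) (hS : GP (S : Set ℂ)) (r : ℝ) (_hr : 0 < r) :
    ∃ F : Finset ℂ, F.card = 3 ∧ (∀ p ∈ F, r < ‖p‖) ∧
      GP ((S ∪ F : Finset ℂ) : Set ℂ) ∧ ∀ v ∈ S, ¬ OnHull (S ∪ F) v := by
  obtain ⟨F, h1, h2, _, h4, h5⟩ := far' S hS r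
  exact ⟨F, h1, h2, h4, h5⟩

end Crest.Agent.R143.Farx832
end
end

-- ▼ part R143/Mass4_302

/-!
# Row 143 (S0194): MASS, part 4 (helper302)

* `sum_swap` : mean over the even configurations of a sum over the compatible local objects
* `le_blocks`, `blocks_le` : local objects against the blocks of the closed map
* `agr0` : `cm0 hS` agrees with the Delaunay triangulation inside `U`
* `ph_le` : the total weight of the objects inside `U` is at most the sum of `‖N‖²` over the faces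
  with circumdisc in `U`
-/

set_option autoImplicit false

noncomputable section

open scoped Classical

namespace Crest.Agent.R143.Mass4x302

open Crest.Agent.R143.B0x346 Crest.Agent.R143.SumScx302 Crest.Agent.R143.Mass1x302
  Crest.Agent.R143.DelGx806 Crest.Agent.R143.DelRx806 Crest.Agent.R143.Mass2x302
  Crest.Agent.R143.Mass3x302 Crest.Agent.R143.JColx54
open Crest.Agent.R143.Frame1x395 Crest.Agent.R143.Frame2x395 Crest.Agent.R143.Frame3x395
  Crest.Agent.R143.Frame4x395 Crest.Agent.R143.Frame8x395 Crest.Agent.R143.Frame10x395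
open Crest.Agent.R143.Frame5x395 (sd mem_sd th th_spec)
open scoped ENNReal

variable {D C : Type} {M : CMap D C} {P U : Set ℂ} {δ : ℂ → ℂ → D} {κ : ℂ → C}
variable {x : D → ZMod 2} {l : Finset T3}

theorem lpU_of {o : Obj} (h : IsOb P o) (hU : spt o ⊆ U) : LpU P U o.1 :=
  ⟨h.1, fun _ ht => (Set.subset_biUnion_of_mem (u := fun t => cdisc t) ht).trans hU⟩

/-! ### the mean over the colours -/

theorem wgt_mul [Fintype D] (A : Agr P U M δ κ) (h : LpU P U l) (c : ℝ≥0∞) :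
    ((ev M).card : ℝ≥0∞) * (c * ENNReal.ofReal (pc l)) =
      ∑ x ∈ ev M, if Cpt δ x l then c else 0 := by
  rw [← Finset.sum_filter, Finset.sum_const, nsmul_eq_mul]
  have h1 := card_cpt A h
  have h2 : (((ev M).filter fun x => Cpt δ x l).card : ℝ≥0∞) =
      ((ev M).card : ℝ≥0∞) * ENNReal.ofReal (pc l) := by
    have h3 : (((ev M).filter fun x => Cpt δ x l).card : ℝ) = ((ev M).card : ℝ) * pc l := by
      unfold pc
      have h4 : (0 : ℝ) < 2 ^ (lf l ∪ rt l).card := by positivity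
      rw [mul_div_assoc', eq_div_iff h4.ne']
      have h5 : ((((ev M).filter fun x => Cpt δ x l).card * 2 ^ (lf l ∪ rt l).card : ℕ) : ℝ) =
        ((2 * (ev M).card : ℕ) : ℝ) := by rw [h1]
      push_cast at h5
      linarith
    rw [← ENNReal.ofReal_natCast, h3, ENNReal.ofReal_mul (Nat.cast_nonneg _),
      ENNReal.ofReal_natCast]
  rw [h2]
  ring

theorem sum_swap [Fintype D] (A : Agr P U M δ κ) (R : Obj → Prop) (f : Obj → ℝ≥0∞) :
    ((ev M).card : ℝ≥0∞) * ∑' o : Obj, (if IsOb P o ∧ spt o ⊆ U ∧ R o then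
      f o * ENNReal.ofReal (pc o.1) else 0) =
    ∑ x ∈ ev M, ∑' o : Obj, if (IsOb P o ∧ spt o ⊆ U ∧ R o) ∧ Cpt δ x o.1 then f o else 0 := by
  rw [← Summable.tsum_finsetSum (fun _ _ => ENNReal.summable), ← ENNReal.tsum_mul_left]
  refine tsum_congr fun o => ?_
  by_cases h : IsOb P o ∧ spt o ⊆ U ∧ R o
  · rw [if_pos h, wgt_mul A (lpU_of h.1 h.2.1)]
    refine Finset.sum_congr rfl fun x _ => ?_
    by_cases h2 : Cpt δ x o.1
    · rw [if_pos h2, if_pos ⟨h, h2⟩]
    · rw [if_neg h2, if_neg fun h3 => h2 h3.2]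
  · rw [if_neg h, mul_zero]
    symm
    refine Finset.sum_eq_zero fun x _ => ?_
    rw [if_neg fun h3 => h h3.1]

/-- block of the closed map of a compatible object -/
def im (δ : ℂ → ℂ → D) (o : Obj) : Finset D := o.2.image (gd δ)

theorem im_mem [Fintype D] (A : Agr P U M δ κ) (hx : IsC M ∅ x) {o : Obj} (ho : IsOb P o)
    (hU : spt o ⊆ U) (hc : Cpt δ x o.1) : im δ o ∈ blks M x := by
  obtain ⟨l, β⟩ := o
  obtain ⟨hl, s, hs, h1, h2⟩ := ho
  have h := lpU_of (o := (l, β)) ⟨hl, s, hs, h1, h2⟩ hU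
  change β = bl l s at h2
  change s ∈ l at hs
  change s.2.2 ∈ lf l at h1
  change Cpt δ x l at hc
  have gs := (A.gap_iff hx h hc hs).2 h1
  have e := A.blk_img hx h hc hs h1
  show β.image (gd δ) ∈ blks M x
  rw [h2, ← e]
  exact Finset.mem_image_of_mem _ (mem_gaps.2 gs)

/-- the loop is determined by one of its states -/
theorem lp_uniq (A : Agr P U M δ κ) (hx : IsC M ∅ x) {l l' : Finset T3} (h : LpU P U l)
    (h' : LpU P U l') (hc : Cpt δ x l) (hc' : Cpt δ x l') {s s' : T3} (hs : s ∈ l)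
    (hs' : s' ∈ l') (e : dd δ s = dd δ s') : l = l' := by
  have key : ∀ {l l' : Finset T3}, LpU P U l → LpU P U l' → Cpt δ x l → Cpt δ x l' →
      ∀ {s s' : T3}, s ∈ l → s' ∈ l' → dd δ s = dd δ s' → l ⊆ l' := by
    intro l l' h h' hc hc' s s' hs hs' e t ht
    have h0 : Relation.ReflTransGen (fun u v => v ∈ l ∧ St l u v ∧ True) s t :=
      rtg_map (Equiv.refl T3) (fun u v a => ⟨a.1, a.2, trivial⟩) (h.lp.orb s hs t ht)
    obtain ⟨-, -, n, h3, -⟩ := A.rtg hx h hc (Q := fun _ => True) hs h0 trivial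
    obtain ⟨u, hu, e2⟩ := A.iter hx h' hc' hs' n
    rw [← e, h3] at e2
    obtain ⟨e3, e4, e5⟩ := A.dinj (h.fc ht) (h'.fc hu) e2
    have : t = u := Prod.ext e3 (Prod.ext e4 e5)
    rw [this]; exact hu
  exact Finset.Subset.antisymm (key h h' hc hc' hs hs' e) (key h' h hc' hc hs' hs e.symm)

/-- **a compatible object is determined by its block** -/
theorem im_inj (A : Agr P U M δ κ) (hx : IsC M ∅ x) {o o' : Obj} (ho : IsOb P o)
    (hU : spt o ⊆ U) (hc : Cpt δ x o.1) (ho' : IsOb P o') (hU' : spt o' ⊆ U)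
    (hc' : Cpt δ x o'.1) (e : im δ o = im δ o') : o = o' := by
  have h := lpU_of ho hU
  have h' := lpU_of ho' hU'
  obtain ⟨l, β⟩ := o
  obtain ⟨l', β'⟩ := o'
  obtain ⟨hl, s, hs, h1, h2⟩ := ho
  obtain ⟨hl', s', hs', h1', h2'⟩ := ho'
  change β.image (gd δ) = β'.image (gd δ) at e
  change β = bl l s at h2
  change β' = bl l' s' at h2'
  change s ∈ l at hs
  change s' ∈ l' at hs'
  change s.2.2 ∈ lf l at h1
  change LpU P U l at h
  change LpU P U l' at h'
  have bsub : ∀ t ∈ β, t ∈ l := by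
    intro t ht
    rw [h2] at ht
    exact (Finset.mem_filter.1 ht).1
  have bsub' : ∀ t ∈ β', t ∈ l' := by
    intro t ht
    rw [h2'] at ht
    exact (Finset.mem_filter.1 ht).1
  have sβ : s ∈ β := by
    rw [h2]
    exact Finset.mem_filter.2 ⟨hs, h1, fun c => Or.inl rfl⟩
  have key : ∀ t ∈ l, ∀ t' ∈ l', gd δ t = gd δ t' → t = t' := by
    intro t ht t' ht' e1
    have e2 : dd δ t = dd δ t' := by
      rw [← A.gd_rho (h.fc ht), ← A.gd_rho (h'.fc ht'), e1]
    obtain ⟨e3, e4, e5⟩ := A.dinj (h.fc ht) (h'.fc ht') e2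
    exact Prod.ext e3 (Prod.ext e4 e5)
  have hb : β = β' := by
    ext t
    constructor
    · intro ht
      have h3 := Finset.mem_image_of_mem (gd δ) ht
      rw [e] at h3
      obtain ⟨t', ht', e1⟩ := Finset.mem_image.1 h3
      rw [key t (bsub t ht) t' (bsub' t' ht') e1.symm]
      exact ht'
    · intro ht
      have h3 := Finset.mem_image_of_mem (gd δ) ht
      rw [← e] at h3
      obtain ⟨t', ht', e1⟩ := Finset.mem_image.1 h3
      rw [← key t' (bsub t' ht') t (bsub' t ht) e1]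
      exact ht'
  have hl2 : l = l' :=
    lp_uniq A hx h h' hc hc' hs (bsub' s (hb ▸ sβ)) rfl
  rw [hb, hl2]

/-- **local objects ≤ blocks** -/
theorem le_blocks [Fintype D] (A : Agr P U M δ κ) (hx : IsC M ∅ x) (R : Obj → Prop)
    (f : Obj → ℝ≥0∞) (F : Finset D → ℝ≥0∞)
    (hF : ∀ o, IsOb P o → spt o ⊆ U → Cpt δ x o.1 → f o ≤ F (im δ o)) :
    (∑' o : Obj, if (IsOb P o ∧ spt o ⊆ U ∧ R o) ∧ Cpt δ x o.1 then f o else 0) ≤
      ∑ β ∈ blks M x, F β := by
  have h1 : ∀ o : Obj, (if (IsOb P o ∧ spt o ⊆ U ∧ R o) ∧ Cpt δ x o.1 then f o else 0) ≤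
      ∑ β ∈ blks M x, if ((IsOb P o ∧ spt o ⊆ U ∧ R o) ∧ Cpt δ x o.1) ∧ im δ o = β then F β
        else 0 := by
    intro o
    by_cases h : (IsOb P o ∧ spt o ⊆ U ∧ R o) ∧ Cpt δ x o.1
    · rw [if_pos h]
      have hm := im_mem A hx h.1.1 h.1.2.1 h.2
      refine (hF o h.1.1 h.1.2.1 h.2).trans ?_
      have h2 : F (im δ o) = if ((IsOb P o ∧ spt o ⊆ U ∧ R o) ∧ Cpt δ x o.1) ∧ im δ o = im δ o
        then F (im δ o) else 0 := by rw [if_pos ⟨h, rfl⟩]
      rw [h2]
      exact Finset.single_le_sum (f := fun β => if ((IsOb P o ∧ spt o ⊆ U ∧ R o) ∧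
        Cpt δ x o.1) ∧ im δ o = β then F β else 0) (fun _ _ => zero_le) hm
    · rw [if_neg h]; exact zero_le
  refine (ENNReal.tsum_le_tsum h1).trans ?_
  rw [Summable.tsum_finsetSum (fun _ _ => ENNReal.summable)]
  refine Finset.sum_le_sum fun β _ => ?_
  by_cases h2 : ∃ o, ((IsOb P o ∧ spt o ⊆ U ∧ R o) ∧ Cpt δ x o.1) ∧ im δ o = β
  · obtain ⟨o, ho, he⟩ := h2
    rw [tsum_eq_single o]
    · rw [if_pos ⟨ho, he⟩]
    · intro o' hne
      rw [if_neg]
      rintro ⟨ho', he'⟩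
      exact hne (im_inj A hx ho'.1.1 ho'.1.2.1 ho'.2 ho.1.1 ho.1.2.1 ho.2 (he'.trans he.symm))
  · have h3 : ∀ o : Obj, (if ((IsOb P o ∧ spt o ⊆ U ∧ R o) ∧ Cpt δ x o.1) ∧ im δ o = β then F β
        else 0) = 0 := by
      intro o
      rw [if_neg fun h => h2 ⟨o, h⟩]
    simp only [h3, tsum_zero]
    exact zero_le

/-- **blocks ≤ local objects** -/
theorem blocks_le [Fintype D] (R : Obj → Prop)
    (f : Obj → ℝ≥0∞) (F : Finset D → ℝ≥0∞) (G : Finset (Finset D))
    (hG : ∀ β ∈ G, ∃ o, IsOb P o ∧ spt o ⊆ U ∧ R o ∧ Cpt δ x o.1 ∧ im δ o = β ∧ F β ≤ f o) :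
    ∑ β ∈ G, F β ≤
      ∑' o : Obj, if (IsOb P o ∧ spt o ⊆ U ∧ R o) ∧ Cpt δ x o.1 then f o else 0 := by
  choose! w hw using hG
  have hinj : ∀ β ∈ G, ∀ β' ∈ G, w β = w β' → β = β' := by
    intro β hβ β' hβ' e
    rw [← (hw β hβ).2.2.2.2.1, ← (hw β' hβ').2.2.2.2.1, e]
  calc ∑ β ∈ G, F β ≤ ∑ β ∈ G, f (w β) := Finset.sum_le_sum fun β hβ => (hw β hβ).2.2.2.2.2
    _ = ∑ β ∈ G, if (IsOb P (w β) ∧ spt (w β) ⊆ U ∧ R (w β)) ∧ Cpt δ x (w β).1 then f (w β)
        else 0 := by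
        refine Finset.sum_congr rfl fun β hβ => ?_
        rw [if_pos ⟨⟨(hw β hβ).1, (hw β hβ).2.1, (hw β hβ).2.2.1⟩, (hw β hβ).2.2.2.1⟩]
    _ = ∑ o ∈ G.image w, if (IsOb P o ∧ spt o ⊆ U ∧ R o) ∧ Cpt δ x o.1 then f o else 0 :=
        (Finset.sum_image (f := fun o => if (IsOb P o ∧ spt o ⊆ U ∧ R o) ∧ Cpt δ x o.1 then f o
          else 0) (fun β hβ β' hβ' e => hinj β hβ β' hβ' e)).symm
    _ ≤ _ := ENNReal.sum_le_tsum _

/-! ### the closed map of a finite set -/

section cm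

variable {S : Finset ℂ}

theorem fc_congr {P Q U : Set ℂ} (h : ∀ z ∈ U, z ∈ P ↔ z ∈ Q) {a b c : ℂ} (hf : Fc P U a b c) :
    Fc Q U a b c := by
  obtain ⟨⟨ha, hb, hc, h1, o, h2, h3, h4⟩, hU⟩ := hf
  have ma : a ∈ U := hU ⟨o, h2, h3, le_rfl⟩
  have mb : b ∈ U := hU ⟨o, h2, h3, h2.le⟩
  have mc : c ∈ U := hU ⟨o, h2, h3, h3.le⟩
  refine ⟨⟨(h a ma).1 ha, (h b mb).1 hb, (h c mc).1 hc, h1, o, h2, h3, fun s hs => ?_⟩, hU⟩
  by_contra hcon
  push Not at hcon
  have ms : s ∈ U := hU ⟨o, h2, h3, hcon.le⟩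
  have := h4 s ((h s ms).2 hs)
  linarith

theorem fc_memU {P U : Set ℂ} {a b c : ℂ} (hf : Fc P U a b c) : a ∈ U := by
  obtain ⟨⟨-, -, -, -, o, h2, h3, -⟩, hU⟩ := hf
  exact hU ⟨o, h2, h3, le_rfl⟩

/-- dart of a directed side -/
def dl (e0 : D0 S) (a b : ℂ) : D0 S := if h : (a, b) ∈ sd S then ⟨(a, b), h⟩ else e0

theorem dl_eq {e0 : D0 S} {a b : ℂ} (h : (a, b) ∈ sd S) : dl e0 a b = ⟨(a, b), h⟩ := dif_pos h

/-- **`cm0` agrees with the Delaunay triangulation of `P` inside `U`** -/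
theorem agr0 (hP : GP P) (hS : GP (S : Set ℂ)) (hPS : ∀ z ∈ U, z ∈ P ↔ z ∈ (S : Set ℂ))
    (hin : ∀ v ∈ S, v ∈ U → ¬ OnHull S v) (e0 : D0 S) :
    Agr P U (cm0 hS) (dl e0) (fun a => Quot.mk _ a) := by
  have key : ∀ {a b c : ℂ}, Fc P U a b c → (a, b, c) ∈ delT S := fun h =>
    mem_delT.2 (fc_congr hPS h).1
  have kd : ∀ {a b c : ℂ}, Fc P U a b c → (a, b) ∈ sd S := fun h => mem_sd.2 ⟨_, key h⟩
  refine ⟨hP, ?_, ?_, ?_, ?_⟩
  · intro a b c h
    rw [dl_eq (kd h), dl_eq (kd h.rot)]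
    exact Subtype.ext (Prod.ext rfl (th0 hS (key h)))
  · intro a b c e h h'
    rw [dl_eq (kd h), dl_eq (kd h')]
    exact io0_live (e := ⟨(a, b), kd h⟩) (kd h')
  · intro a b c h
    rw [dl_eq (kd h)]
    rfl
  · intro a b c a' b' c' h h' e
    have ha : a ∈ S := ((hPS a (fc_memU h)).1 h.1.1)
    exact (quot_inner hS (hin a ha (fc_memU h)) e).symm

/-- charge of a gap dart of `cm0` -/
def ch (P U : Set ℂ) (S : Finset ℂ) (g : D0 S) : ℂ :=
  if Fc P U g.1.1 g.1.2 (th S g.1) then Nn (g.1.2, th S g.1, g.1.1) else 0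

theorem om3 : om ^ 3 = 1 := by
  have := om_rel
  linear_combination (om - 1) * this

theorem om_ne : om ≠ 1 := by
  intro h
  have := om_rel
  rw [h] at this
  norm_num at this

theorem ch_spin (hS : GP (S : Set ℂ)) : Spin (cm0 hS) om (ch P U S) := by
  rintro ⟨⟨a, b⟩, he⟩
  set c := th S (a, b) with hc
  have ht : (a, b, c) ∈ delT S := th_spec he
  have h2 : th S (b, c) = a := th0 hS (delT_rot hS ht)
  have e1 : ch P U S ((cm0 hS).rho ⟨(a, b), he⟩) =
      if Fc P U b c a then Nn (c, a, b) else 0 := by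
    show (if Fc P U b c (th S (b, c)) then Nn (c, th S (b, c), b) else 0) = _
    rw [h2]
  have e2 : ch P U S ⟨(a, b), he⟩ = if Fc P U a b c then Nn (b, c, a) else 0 := rfl
  rw [e1, e2]
  have e3 : Fc P U b c a ↔ Fc P U a b c := ⟨fun h => h.rot.rot, fun h => h.rot⟩
  rw [if_congr e3 rfl rfl]
  split_ifs
  · unfold Nn
    show (starRingEnd ℂ) a + om * (starRingEnd ℂ) c + om ^ 2 * (starRingEnd ℂ) b =
      om * ((starRingEnd ℂ) c + om * (starRingEnd ℂ) b + om ^ 2 * (starRingEnd ℂ) a)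
    linear_combination (-(starRingEnd ℂ) a) * om3
  · rw [mul_zero]

theorem om_conj : (starRingEnd ℂ) om = om ^ 2 := by
  have hn : ‖om‖ = 1 := by
    unfold om
    exact Complex.norm_exp_ofReal_mul_I _
  have h1 : om * (starRingEnd ℂ) om = 1 := by
    rw [Complex.mul_conj, Complex.normSq_eq_norm_sq, hn]
    simp
  calc (starRingEnd ℂ) om = om ^ 3 * (starRingEnd ℂ) om := by rw [om3, one_mul]
    _ = om ^ 2 * (om * (starRingEnd ℂ) om) := by ring
    _ = om ^ 2 := by rw [h1, mul_one]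

theorem zero_ev [Fintype D] : (fun _ => 0 : D → ZMod 2) ∈ ev M := by
  rw [mem_ev]
  exact ⟨fun _ _ => rfl, fun _ => rfl, fun _ => by simp⟩

theorem nG_le_ev [Fintype D] (g : D) : nG M g ≤ (ev M).card := by
  unfold nG ev
  exact Finset.card_le_card fun x hx => by
    simp only [Finset.mem_filter, Finset.mem_univ, true_and] at hx ⊢
    exact hx.1

/-- the charge of a local block is the charge of its image -/
theorem sum_im (A : Agr P U M δ κ) {o : Obj} (ho : IsOb P o) (hU : spt o ⊆ U) (a : D → ℂ)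
    (ha : ∀ t ∈ o.1, a (gd δ t) = Nn t) : ∑ g ∈ im δ o, a g = NN o.2 := by
  have h := lpU_of ho hU
  have bsub : ∀ t ∈ o.2, t ∈ o.1 := by
    intro t ht
    obtain ⟨-, s, -, -, h2⟩ := ho
    rw [h2] at ht
    exact (Finset.mem_filter.1 ht).1
  unfold im NN
  rw [Finset.sum_image fun t ht t' ht' e => A.gd_inj h (bsub t ht) (bsub t' ht') e]
  exact Finset.sum_congr rfl fun t ht => ha t (bsub t ht)

theorem ch_gd (hS : GP (S : Set ℂ)) (hPS : ∀ z ∈ U, z ∈ P ↔ z ∈ (S : Set ℂ))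
    (e0 : D0 S) {t : T3} (hf : Fc P U t.1 t.2.1 t.2.2) : ch P U S (gd (dl e0) t) = Nn t := by
  obtain ⟨a, b, c⟩ := t
  change Fc P U a b c at hf
  have h3 := hf.rot.rot
  have ht : (c, a, b) ∈ delT S := mem_delT.2 (fc_congr hPS h3).1
  have e1 : gd (dl e0) (a, b, c) = ⟨(c, a), mem_sd.2 ⟨b, ht⟩⟩ := dl_eq (mem_sd.2 ⟨b, ht⟩)
  rw [e1]
  unfold ch
  show (if Fc P U c a (th S (c, a)) then Nn (a, th S (c, a), c) else 0) = _
  rw [th0 hS ht, if_pos h3]

/-- no condition -/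
def Tru (_ : Obj) : Prop := True

/-- **total weight of the objects inside `U`** -/
theorem ph_le (hP : GP P) (hfin : (P ∩ U).Finite) (hbd : Bornology.IsBounded U)
    {X : Set (ℂ × Bool)} (hX : ps X = P) :
    fam.Ph U X ≤ ∑' t : T3, if Fc P U t.1 t.2.1 t.2.2 then ENNReal.ofReal (‖Nn t‖ ^ 2) else 0 := by
  obtain ⟨r, hr⟩ := hbd.subset_closedBall 0
  set S0 := hfin.toFinset with hS0
  have m0 : ∀ z, z ∈ S0 ↔ z ∈ P ∧ z ∈ U := fun z => by rw [hS0, Set.Finite.mem_toFinset]; rfl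
  have g0 : GP (S0 : Set ℂ) := gp_mono (fun z hz => ((m0 z).1 hz).1) hP
  obtain ⟨F, hF3, hFr, hS, hin0⟩ := Farx832.far S0 g0 (max r 1) (by positivity)
  set S := S0 ∪ F with hSdef
  have hPS : ∀ z ∈ U, z ∈ P ↔ z ∈ (S : Set ℂ) := by
    intro z hz
    have hzr : ‖z‖ ≤ r := by simpa using hr hz
    rw [Finset.mem_coe, hSdef, Finset.mem_union, m0]
    constructor
    · exact fun h => Or.inl ⟨h, hz⟩
    · rintro (h | h)
      · exact h.1
      · have := hFr z h
        linarith [le_max_left r 1]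
  have hin : ∀ v ∈ S, v ∈ U → ¬ OnHull S v := by
    intro v hv hvU
    exact hin0 v ((m0 v).2 ⟨(hPS v hvU).2 hv, hvU⟩)
  have hc3 : 3 ≤ S.card := by
    rw [← hF3]
    exact Finset.card_le_card Finset.subset_union_right
  obtain ⟨a, b, c, o, hT⟩ := exists_tri hS hc3
  set e0 : D0 S := ⟨(a, b), mem_sd.2 ⟨c, mem_delT_iff.2 ⟨o, hT⟩⟩⟩ with he0
  have A := agr0 hP hS hPS hin e0
  set M := cm0 hS with hM
  have hE0 : (ev M).card ≠ 0 := Finset.card_ne_zero_of_mem zero_ev
  have hE : ((ev M).card : ℝ≥0∞) ≠ 0 := by exact_mod_cast hE0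
  have hE' : ((ev M).card : ℝ≥0∞) ≠ ∞ := ENNReal.natCast_ne_top _
  have s1 := sum_swap A Tru fun o => ENNReal.ofReal (‖NN o.2‖ ^ 2)
  have e1 : fam.Ph U X = ∑' o : Obj, (if IsOb P o ∧ spt o ⊆ U ∧ Tru o then
      ENNReal.ofReal (‖NN o.2‖ ^ 2) * ENNReal.ofReal (pc o.1) else 0) := by
    unfold Fam.Ph
    refine tsum_congr fun o => ?_
    show (if IsOb (ps X) o ∧ spt o ⊆ U then wgt o else 0) = _
    rw [hX]
    refine if_congr ⟨fun h => ⟨h.1, h.2, trivial⟩, fun h => ⟨h.1, h.2.1⟩⟩ ?_ rfl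
    unfold wgt
    rw [ENNReal.ofReal_mul (by positivity)]
  rw [← e1] at s1
  set R := ∑' t : T3, if Fc P U t.1 t.2.1 t.2.2 then ENNReal.ofReal (‖Nn t‖ ^ 2) else 0 with hR
  have s2 : ∑ x ∈ ev M, (∑' o : Obj, if (IsOb P o ∧ spt o ⊆ U ∧ Tru o) ∧ Cpt (dl e0) x o.1 then
      ENNReal.ofReal (‖NN o.2‖ ^ 2) else 0) ≤
      ∑ x ∈ ev M, ∑ β ∈ blks M x, ENNReal.ofReal (‖∑ g ∈ β, ch P U S g‖ ^ 2) := by
    refine Finset.sum_le_sum fun x hx => ?_
    refine le_blocks A (mem_ev.1 hx) Tru _ _ fun o ho hU hc => ?_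
    have h := lpU_of ho hU
    rw [sum_im A ho hU (ch P U S) fun t ht => ch_gd hS hPS e0 (h.fc ht)]
  have s3 : ∑ x ∈ ev M, ∑ β ∈ blks M x, ENNReal.ofReal (‖∑ g ∈ β, ch P U S g‖ ^ 2) =
      ENNReal.ofReal (∑ g, ‖ch P U S g‖ ^ 2 * (nG M g : ℝ)) := by
    rw [← i1_norm om3 om_ne om_conj (ch_spin hS),
      ENNReal.ofReal_sum_of_nonneg fun _ _ => Finset.sum_nonneg fun _ _ => by positivity]
    refine Finset.sum_congr rfl fun x _ => ?_
    rw [ENNReal.ofReal_sum_of_nonneg fun _ _ => by positivity]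
  have s4 : ENNReal.ofReal (∑ g, ‖ch P U S g‖ ^ 2 * (nG M g : ℝ)) ≤
      ((ev M).card : ℝ≥0∞) * ∑ g, ENNReal.ofReal (‖ch P U S g‖ ^ 2) := by
    rw [ENNReal.ofReal_sum_of_nonneg fun _ _ => by positivity, Finset.mul_sum]
    refine Finset.sum_le_sum fun g _ => ?_
    rw [ENNReal.ofReal_mul (by positivity), mul_comm, ENNReal.ofReal_natCast]
    gcongr
    exact nG_le_ev g
  have s5 : ∑ g, ENNReal.ofReal (‖ch P U S g‖ ^ 2) ≤ R := by
    set tt : D0 S → T3 := fun g => (g.1.2, th S g.1, g.1.1) with htt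
    have hi : ∀ g g' : D0 S, tt g = tt g' → g = g' := by
      intro g g' e
      have e1 : g.1.2 = g'.1.2 := congrArg (fun t : T3 => t.1) e
      have e2 : g.1.1 = g'.1.1 := congrArg (fun t : T3 => t.2.2) e
      exact Subtype.ext (Prod.ext e2 e1)
    calc ∑ g, ENNReal.ofReal (‖ch P U S g‖ ^ 2)
        = ∑ g, (fun t : T3 => if Fc P U t.1 t.2.1 t.2.2 then ENNReal.ofReal (‖Nn t‖ ^ 2) else 0)
          (tt g) := by
          refine Finset.sum_congr rfl fun g _ => ?_
          simp only [htt, ch]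
          have e3 : Fc P U g.1.2 (th S g.1) g.1.1 ↔ Fc P U g.1.1 g.1.2 (th S g.1) :=
            ⟨fun h => h.rot.rot, fun h => h.rot⟩
          rw [if_congr e3 rfl rfl]
          split_ifs
          · rfl
          · simp
      _ = ∑ t ∈ Finset.univ.image tt, (if Fc P U t.1 t.2.1 t.2.2 then
          ENNReal.ofReal (‖Nn t‖ ^ 2) else 0) :=
          (Finset.sum_image (f := fun t : T3 => if Fc P U t.1 t.2.1 t.2.2 then
            ENNReal.ofReal (‖Nn t‖ ^ 2) else 0) fun g _ g' _ e => hi g g' e).symm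
      _ ≤ R := ENNReal.sum_le_tsum _
  have s6 : ((ev M).card : ℝ≥0∞) * fam.Ph U X ≤ ((ev M).card : ℝ≥0∞) * R := by
    rw [s1]
    calc _ ≤ _ := s2
      _ = _ := s3
      _ ≤ _ := s4
      _ ≤ _ := by gcongr
  exact (ENNReal.mul_le_mul_iff_right hE hE').1 s6

end cm

end Crest.Agent.R143.Mass4x302
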