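import Crest.Agent.R151.V1

/-!
# R143 (helper831, BC8): Efron-Stein on countable products

* `mp_update`, `mp_piece`: resampling one coordinate / all coordinates off a finite set preserves
  the product law (dependent factors).
* `dvar_le_tsum`: `dvar μ f ≤ ∑' i, infl μ G f i` for bounded measurable `f` on a countable product.
-/

set_option autoImplicit false
set_option linter.unusedSectionVars false

open MeasureTheory ProbabilityTheory Filter Topology
open scoped ENNReal

namespace Crest.Agent.R143.ESx831

section dep

variable {I : Type*} {X : I → Type*} [∀ i, MeasurableSpace (X i)] (μ : ∀ i, Measure (X i))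
  [∀ i, IsProbabilityMeasure (μ i)]

/-- resampling the coordinate `i` preserves the product law -/
theorem mp_update [DecidableEq I] (i : I) :
    MeasurePreserving (fun p : (∀ j, X j) × X i => Function.update p.1 i p.2)
      ((Measure.infinitePi μ).prod (μ i)) (Measure.infinitePi μ) := by
  refine ⟨measurable_update', ?_⟩
  apply Measure.eq_infinitePi
  intro u A hA
  have hpi : MeasurableSet (Set.pi (u : Set I) A) :=
    MeasurableSet.pi u.countable_toSet fun j _ => hA j
  rw [Measure.map_apply measurable_update' hpi]
  by_cases hi : i ∈ u
  · have h1 : (fun p : (∀ j, X j) × X i => Function.update p.1 i p.2) ⁻¹' (Set.pi (u : Set I) A) =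
        (Set.pi ((u.erase i : Finset I) : Set I) A) ×ˢ (A i) := by
      ext p
      simp only [Set.mem_preimage, Set.mem_pi, Finset.mem_coe, Set.mem_prod, Finset.mem_erase]
      constructor
      · intro h
        refine ⟨fun j hj => ?_, ?_⟩
        · have := h j hj.2
          rwa [Function.update_of_ne hj.1] at this
        · have := h i hi
          rwa [Function.update_self] at this
      · rintro ⟨h, h'⟩ j hj
        by_cases hji : j = i
        · subst hji
          rw [Function.update_self]; exact h'
        · rw [Function.update_of_ne hji]
          exact h j ⟨hji, hj⟩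
    rw [h1, Measure.prod_prod, Measure.infinitePi_pi μ (fun j _ => hA j), mul_comm,
      Finset.mul_prod_erase u (fun j => μ j (A j)) hi]
  · have h1 : (fun p : (∀ j, X j) × X i => Function.update p.1 i p.2) ⁻¹' (Set.pi (u : Set I) A) =
        (Set.pi (u : Set I) A) ×ˢ (Set.univ : Set (X i)) := by
      ext p
      simp only [Set.mem_preimage, Set.mem_pi, Finset.mem_coe, Set.mem_prod, Set.mem_univ, and_true]
      refine forall₂_congr fun j hj => ?_
      rw [Function.update_of_ne (by rintro rfl; exact hi hj)]
    rw [h1, Measure.prod_prod, Measure.infinitePi_pi μ (fun j _ => hA j), measure_univ, mul_one]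



end dep

section homog

open Crest.Agent.R151.V

variable {I : Type*} {X : Type*} [MeasurableSpace X] (G : Measure X) [IsProbabilityMeasure G]

/-- average over the coordinates off `s` -/
noncomputable def avg [DecidableEq I] (f : (I → X) → ℝ) (s : Finset I) (x : I → X) : ℝ :=
  ∫ y, f (s.piecewise x y) ∂(Measure.infinitePi fun _ : I => G)

variable [DecidableEq I] {f : (I → X) → ℝ} {C : ℝ}
















end homog

end Crest.Agent.R143.ESx831
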