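import Crest.Agent.R143.PoisM4U_501
import Crest.Agent.R143.SumSc_302
import Crest.Agent.R143.Mass4_302
import Crest.Agent.R143.PoisM3_930

-- ▼ part R143/Mom_810
section

/-!
# Row 143 (S0194): second moment of the circumradii (helper810, leaf (S6) of helper302)

* `Circ S t o` : `o` is the centre of an empty circle through the three points `t` of `S`
* `cw S U t` : the square of the radius of such a circle, if its closed disc is contained in `U`
* `mom` : `E ∑ t, cw (points 1 ω) (sq 0 L) t ≤ C * L ^ 2`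
* `mom_if` : the same for every weight and predicate which is dominated by `cw`
-/

set_option autoImplicit false

noncomputable section

open scoped Classical

namespace Crest.Agent.R143.Momx810

open MeasureTheory Set ProbabilityTheory
open Crest.ProbabilityR.Voronoi
open Crest.Agent.R143.PP0x831 Crest.Agent.R143.SumScx302 Crest.Agent.R143.PoisM4x501
open Crest.Agent.R143.B0x346
open scoped ENNReal NNReal

/-- `o` is the centre of an empty circle through the three points of `t` -/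
structure Circ (S : Set ℂ) (t : ℂ × ℂ × ℂ) (o : ℂ) : Prop where
  m1 : t.1 ∈ S
  m2 : t.2.1 ∈ S
  m3 : t.2.2 ∈ S
  e2 : ‖t.2.1 - o‖ = ‖t.1 - o‖
  e3 : ‖t.2.2 - o‖ = ‖t.1 - o‖
  emp : ∀ s ∈ S, ‖t.1 - o‖ ≤ ‖s - o‖

/-- the square of the circumradius, if the closed circumdisc is contained in `U` -/
def cw (S U : Set ℂ) (t : ℂ × ℂ × ℂ) : ℝ≥0∞ :=
  ⨆ (o : ℂ) (_ : Circ S t o ∧ Metric.closedBall o ‖t.1 - o‖ ⊆ U), ENNReal.ofReal (‖t.1 - o‖ ^ 2)

/-- the cells of the square of side `L` -/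
def bx (L : ℕ) : Finset Cell := Finset.Ico 0 (L : ℤ) ×ˢ Finset.Ico 0 (L : ℤ)

theorem card_bx (L : ℕ) : (bx L).card = L ^ 2 := by
  simp [bx, pow_two]

/-- the points near the cell `k` -/
def pk (L : ℕ) (ω : Sample) (k : Cell) : Finset ℂ := pts 1 ω (nbr k (6 * eT L ω.1 k + 7))

/-- bound of the number of triangles with circumcentre in the cell `k`, times `r ^ 2` -/
def Yi (L : ℕ) (N : Cell → ℕ) (k : Cell) : ℝ≥0∞ := ⨆ B : ℕ, (Y L B N k : ℝ≥0∞)

theorem le_Yi (L : ℕ) (N : Cell → ℕ) (k : Cell) :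
    (((eT L N k + 1) ^ 2 * (∑ k' ∈ nbr k (6 * eT L N k + 7), N k') ^ 3 : ℕ) : ℝ≥0∞) ≤ Yi L N k := by
  refine le_trans (le_of_eq ?_) (le_iSup (fun B : ℕ => (Y L B N k : ℝ≥0∞))
    (∑ k' ∈ nbr k (6 * eT L N k + 7), N k'))
  have h : (∑ k' ∈ nbr k (6 * eT L N k + 7),
      min (N k') (∑ k' ∈ nbr k (6 * eT L N k + 7), N k')) =
      ∑ k' ∈ nbr k (6 * eT L N k + 7), N k' := by
    refine Finset.sum_congr rfl fun k' hk' => ?_
    exact min_eq_left (Finset.single_le_sum (f := N) (fun _ _ => Nat.zero_le _) hk')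
  unfold Y
  rw [h]

theorem lint_Yi (L : ℕ) (k : Cell) : ∫⁻ N, Yi L N k ∂mu ≤ mu0 := by
  unfold Yi
  rw [lintegral_iSup]
  · exact iSup_le fun B => lintegral_Y_le L B k
  · intro B
    refine meas_loc (nbr k (6 * L + 7)) _ fun N N' h => ?_
    rw [Y_congr h]
  · intro B B' h N
    show (Y L B N k : ℝ≥0∞) ≤ (Y L B' N k : ℝ≥0∞)
    unfold Y
    exact_mod_cast Nat.mul_le_mul_left _ (Nat.pow_le_pow_left
      (Finset.sum_le_sum fun k' _ => min_le_min_left _ h) 3)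

theorem lint_fst (F : (Cell → ℕ) → ℝ≥0∞) (hF : Measurable F) :
    ∫⁻ ω : Sample, F ω.1 ∂sampleLaw = ∫⁻ N, F N ∂mu := by
  have h : Measure.map Prod.fst sampleLaw = mu := by
    unfold sampleLaw
    rw [Measure.map_fst_prod, measure_univ, one_smul]
    rfl
  rw [← h, lintegral_map hF measurable_fst]

theorem meas_Yi (L : ℕ) (k : Cell) : Measurable fun N : Cell → ℕ => Yi L N k := by
  unfold Yi
  refine Measurable.iSup fun B => ?_
  refine meas_loc (nbr k (6 * L + 7)) _ fun N N' h => ?_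
  rw [Y_congr h]

/-- the radius is small and the three points are near the cell of the centre -/
theorem circ_bd {L : ℕ} {ω : Sample} {t : ℂ × ℂ × ℂ} {o : ℂ} (h : Circ (points 1 ω) t o)
    (hU : Metric.closedBall o ‖t.1 - o‖ ⊆ sq 0 (L : ℝ)) :
    cellOf 1 o ∈ bx L ∧ ‖t.1 - o‖ ≤ 2 * (eT L ω.1 (cellOf 1 o) + 1) := by
  have r0 : 0 ≤ ‖t.1 - o‖ := norm_nonneg _
  have ho := hU (Metric.mem_closedBall_self r0)
  have hp : o + (‖t.1 - o‖ : ℂ) ∈ Metric.closedBall o ‖t.1 - o‖ := by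
    rw [Metric.mem_closedBall, dist_eq_norm]
    simp
  have hm : o - (‖t.1 - o‖ : ℂ) ∈ Metric.closedBall o ‖t.1 - o‖ := by
    rw [Metric.mem_closedBall, dist_eq_norm]
    simp
  have h1 := hU hp
  have h2 := hU hm
  unfold SumScx302.sq at ho h1 h2
  simp only [mem_ofPred_eq, Complex.zero_re, Complex.zero_im, zero_add, Complex.add_re,
    Complex.sub_re, Complex.ofReal_re] at ho h1 h2
  constructor
  · unfold bx cellOf
    rw [Finset.mem_product, Finset.mem_Ico, Finset.mem_Ico, div_one, div_one]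
    refine ⟨⟨Int.floor_nonneg.2 ho.1, ?_⟩, ⟨Int.floor_nonneg.2 ho.2.2.1, ?_⟩⟩
    · exact Int.floor_lt.2 (by exact_mod_cast ho.2.1)
    · exact Int.floor_lt.2 (by exact_mod_cast ho.2.2.2)
  · rcases lt_or_ge (eT L ω.1 (cellOf 1 o)) L with hl | hl
    · obtain ⟨v, hv, hd⟩ := near (ε := 1) one_pos o hl
      have h3 := h.emp v hv
      rw [norm_sub_rev] at hd
      linarith
    · have hl' : (L : ℝ) ≤ (eT L ω.1 (cellOf 1 o) : ℝ) := by exact_mod_cast hl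
      nlinarith [h1.2.1, h2.1]

theorem circ_mem {L : ℕ} {ω : Sample} {t : ℂ × ℂ × ℂ} {o : ℂ} (h : Circ (points 1 ω) t o)
    (hr : ‖t.1 - o‖ ≤ 2 * (eT L ω.1 (cellOf 1 o) + 1)) :
    t ∈ (pk L ω (cellOf 1 o)) ×ˢ ((pk L ω (cellOf 1 o)) ×ˢ (pk L ω (cellOf 1 o))) := by
  have hb : ∀ v ∈ points 1 ω, ‖v - o‖ = ‖t.1 - o‖ → v ∈ pk L ω (cellOf 1 o) := by
    intro v hv he
    refine mem_pts one_pos hv ?_
    rw [he]
    have : (0 : ℝ) ≤ (eT L ω.1 (cellOf 1 o) : ℝ) := Nat.cast_nonneg _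
    linarith
  rw [Finset.mem_product, Finset.mem_product]
  exact ⟨hb _ h.m1 rfl, hb _ h.m2 h.e2, hb _ h.m3 h.e3⟩

/-- the pointwise bound -/
theorem cw_le (L : ℕ) (ω : Sample) (t : ℂ × ℂ × ℂ) :
    cw (points 1 ω) (sq 0 (L : ℝ)) t ≤ ∑ k ∈ bx L,
      if t ∈ (pk L ω k) ×ˢ ((pk L ω k) ×ˢ (pk L ω k)) then
        ((4 * (eT L ω.1 k + 1) ^ 2 : ℕ) : ℝ≥0∞) else 0 := by
  refine iSup_le fun o => iSup_le fun h => ?_
  obtain ⟨h1, h2⟩ := h
  obtain ⟨h3, h4⟩ := circ_bd h1 h2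
  refine le_trans ?_ (Finset.single_le_sum (f := fun k =>
    if t ∈ (pk L ω k) ×ˢ ((pk L ω k) ×ˢ (pk L ω k)) then
        ((4 * (eT L ω.1 k + 1) ^ 2 : ℕ) : ℝ≥0∞) else 0) (fun _ _ => zero_le) h3)
  show _ ≤ if _ then _ else _
  rw [if_pos (circ_mem h1 h4), ← ENNReal.ofReal_natCast]
  refine ENNReal.ofReal_le_ofReal ?_
  push_cast
  have r0 : 0 ≤ ‖t.1 - o‖ := norm_nonneg _
  nlinarith

/-- the sum over the triangles -/
theorem sum_cw (L : ℕ) (ω : Sample) :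
    ∑' t : ℂ × ℂ × ℂ, cw (points 1 ω) (sq 0 (L : ℝ)) t ≤ ∑ k ∈ bx L, 4 * Yi L ω.1 k := by
  calc ∑' t : ℂ × ℂ × ℂ, cw (points 1 ω) (sq 0 (L : ℝ)) t
      ≤ ∑' t : ℂ × ℂ × ℂ, ∑ k ∈ bx L,
        (if t ∈ (pk L ω k) ×ˢ ((pk L ω k) ×ˢ (pk L ω k)) then
          ((4 * (eT L ω.1 k + 1) ^ 2 : ℕ) : ℝ≥0∞) else 0) := ENNReal.tsum_le_tsum (cw_le L ω)
    _ = ∑ k ∈ bx L, ∑' t : ℂ × ℂ × ℂ,
        (if t ∈ (pk L ω k) ×ˢ ((pk L ω k) ×ˢ (pk L ω k)) then
          ((4 * (eT L ω.1 k + 1) ^ 2 : ℕ) : ℝ≥0∞) else 0) :=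
        Summable.tsum_finsetSum fun _ _ => ENNReal.summable
    _ ≤ ∑ k ∈ bx L, 4 * Yi L ω.1 k := by
        refine Finset.sum_le_sum fun k _ => ?_
        rw [tsum_eq_sum (s := (pk L ω k) ×ˢ ((pk L ω k) ×ˢ (pk L ω k)))
          (fun t ht => if_neg ht), Finset.sum_congr rfl (fun t ht => if_pos ht), Finset.sum_const,
          nsmul_eq_mul, Finset.card_product, Finset.card_product]
        refine le_trans ?_ (mul_le_mul_right (le_Yi L ω.1 k) 4)
        have hc : (pk L ω k).card ≤ ∑ k' ∈ nbr k (6 * eT L ω.1 k + 7), ω.1 k' := card_pts 1 ω _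
        have : (pk L ω k).card * ((pk L ω k).card * (pk L ω k).card) *
            (4 * (eT L ω.1 k + 1) ^ 2) ≤ 4 * ((eT L ω.1 k + 1) ^ 2 *
              (∑ k' ∈ nbr k (6 * eT L ω.1 k + 7), ω.1 k') ^ 3) := by
          have h3 : (pk L ω k).card * ((pk L ω k).card * (pk L ω k).card) ≤
              (∑ k' ∈ nbr k (6 * eT L ω.1 k + 7), ω.1 k') ^ 3 := by
            calc (pk L ω k).card * ((pk L ω k).card * (pk L ω k).card)
                = (pk L ω k).card ^ 3 := by ring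
              _ ≤ _ := Nat.pow_le_pow_left hc 3
          calc _ ≤ (∑ k' ∈ nbr k (6 * eT L ω.1 k + 7), ω.1 k') ^ 3 *
              (4 * (eT L ω.1 k + 1) ^ 2) := Nat.mul_le_mul_right _ h3
            _ = _ := by ring
        exact_mod_cast this

/-- **second moment of the circumradii** -/
theorem mom : ∃ C : ℝ≥0∞, C ≠ ∞ ∧ ∀ L : ℕ,
    ∫⁻ ω, ∑' t : ℂ × ℂ × ℂ, cw (points 1 ω) (sq 0 (L : ℝ)) t ∂sampleLaw ≤
      C * (L : ℝ≥0∞) ^ 2 := by
  refine ⟨4 * mu0, ENNReal.mul_ne_top (by simp) mu0_ne_top, fun L => ?_⟩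
  calc ∫⁻ ω, ∑' t : ℂ × ℂ × ℂ, cw (points 1 ω) (sq 0 (L : ℝ)) t ∂sampleLaw
      ≤ ∫⁻ ω : Sample, (fun N => ∑ k ∈ bx L, 4 * Yi L N k) ω.1 ∂sampleLaw :=
        lintegral_mono fun ω => sum_cw L ω
    _ = ∫⁻ N, ∑ k ∈ bx L, 4 * Yi L N k ∂mu :=
        lint_fst _ (Finset.measurable_sum _ fun k _ => (meas_Yi L k).const_mul _)
    _ = ∑ k ∈ bx L, 4 * ∫⁻ N, Yi L N k ∂mu := by
        rw [lintegral_finsetSum _ fun k _ => (meas_Yi L k).const_mul _]
        refine Finset.sum_congr rfl fun k _ => lintegral_const_mul _ (meas_Yi L k)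
    _ ≤ ∑ k ∈ bx L, 4 * mu0 := Finset.sum_le_sum fun k _ => mul_le_mul_right (lint_Yi L k) 4
    _ = 4 * mu0 * (L : ℝ≥0∞) ^ 2 := by
        rw [Finset.sum_const, card_bx, nsmul_eq_mul]
        push_cast
        ring

/-- every weight which is dominated by the square of the circumradius -/
theorem mom_if {W : Set ℂ → ℕ → ℂ × ℂ × ℂ → ℝ≥0∞} (c : ℝ≥0∞) (hc : c ≠ ∞)
    (hW : ∀ S L t, W S L t ≤ c * cw S (sq 0 (L : ℝ)) t) :
    ∃ C : ℝ≥0∞, C ≠ ∞ ∧ ∀ L : ℕ,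
      ∫⁻ ω, ∑' t : ℂ × ℂ × ℂ, W (points 1 ω) L t ∂sampleLaw ≤ C * (L : ℝ≥0∞) ^ 2 := by
  obtain ⟨C, hC, h⟩ := mom
  refine ⟨c * C, ENNReal.mul_ne_top hc hC, fun L => ?_⟩
  calc ∫⁻ ω, ∑' t : ℂ × ℂ × ℂ, W (points 1 ω) L t ∂sampleLaw
      ≤ ∫⁻ ω, c * ∑' t : ℂ × ℂ × ℂ, cw (points 1 ω) (sq 0 (L : ℝ)) t ∂sampleLaw := by
        refine lintegral_mono fun ω => ?_
        show _ ≤ c * ∑' t : ℂ × ℂ × ℂ, cw (points 1 ω) (sq 0 (L : ℝ)) t
        rw [← ENNReal.tsum_mul_left]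
        exact ENNReal.tsum_le_tsum fun t => hW _ _ _
    _ = c * ∫⁻ ω, ∑' t : ℂ × ℂ × ℂ, cw (points 1 ω) (sq 0 (L : ℝ)) t ∂sampleLaw :=
        lintegral_const_mul' _ _ hc
    _ ≤ c * (C * (L : ℝ≥0∞) ^ 2) := mul_le_mul_right (h L) c
    _ = c * C * (L : ℝ≥0∞) ^ 2 := (mul_assoc _ _ _).symm


theorem le_cw {S U : Set ℂ} {t : ℂ × ℂ × ℂ} {o : ℂ} (h : Circ S t o)
    (hU : Metric.closedBall o ‖t.1 - o‖ ⊆ U) : ENNReal.ofReal (‖t.1 - o‖ ^ 2) ≤ cw S U t := by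
  unfold cw
  exact le_iSup₂_of_le o ⟨h, hU⟩ le_rfl

end Crest.Agent.R143.Momx810
end
end

-- ▼ part R143/Mass5_302

/-!
# Row 143 (S0194): MASS, part 5 (helper302): **the sum rule**

* `a_le` : the mean weight of the objects in a square of side `L` (mesh `1`) is at most `C L²`
* `mass0` : the mean weight of the macroscopic objects tends to `0`
* `blocks_mass` : for every closed map which agrees with the Delaunay triangulation inside `U`, the
  blocks whose loop is inside `U`, but in no square of side `κ`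
* `sum_rule` : the final form
-/

set_option autoImplicit false

noncomputable section

open scoped Classical

namespace Crest.Agent.R143.Mass5x302

open MeasureTheory Filter Topology
open Crest.ProbabilityR.Voronoi
open Crest.Agent.R143.B0x346 Crest.Agent.R143.SumScx302 Crest.Agent.R143.Mass1x302
  Crest.Agent.R143.Mass2x302 Crest.Agent.R143.Mass3x302 Crest.Agent.R143.Mass4x302
  Crest.Agent.R143.PP0x831 Crest.Agent.R143.Momx810
open Crest.Agent.R143.Frame1x395 Crest.Agent.R143.Frame2x395 Crest.Agent.R143.Frame3x395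
  Crest.Agent.R143.Frame4x395
open Crest.Agent.R143.Frame8x395 hiding cfg
open scoped ENNReal

theorem ps_cfg (ε : ℝ) (ω : Sample) : ps (cfg ε ω) = points ε ω := by
  unfold ps cfg points
  rw [Set.image_image]

theorem Nn_le {t : T3} {o : ℂ} (h2 : ‖t.2.1 - o‖ = ‖t.1 - o‖) (h3 : ‖t.2.2 - o‖ = ‖t.1 - o‖) :
    ‖Nn t‖ ≤ 3 * ‖t.1 - o‖ := by
  have hn : ‖om‖ = 1 := by
    unfold om
    exact Complex.norm_exp_ofReal_mul_I _
  have e : Nn t = (starRingEnd ℂ) (t.2.1 - o) + om * (starRingEnd ℂ) (t.1 - o) +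
      om ^ 2 * (starRingEnd ℂ) (t.2.2 - o) := by
    unfold Nn
    rw [map_sub, map_sub, map_sub]
    linear_combination ((starRingEnd ℂ) o) * om_rel
  rw [e]
  refine (norm_add_le _ _).trans ?_
  have h4 := norm_add_le ((starRingEnd ℂ) (t.2.1 - o)) (om * (starRingEnd ℂ) (t.1 - o))
  rw [norm_mul, hn, Complex.norm_conj, Complex.norm_conj] at h4
  rw [norm_mul, norm_pow, hn, Complex.norm_conj]
  linarith

theorem fc_cw {S U : Set ℂ} (t : T3) :
    (if Fc S U t.1 t.2.1 t.2.2 then ENNReal.ofReal (‖Nn t‖ ^ 2) else 0) ≤ 9 * cw S U t := by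
  by_cases h : Fc S U t.1 t.2.1 t.2.2
  · rw [if_pos h]
    obtain ⟨⟨m1, m2, m3, -, o, h2, h3, h4⟩, hU⟩ := h
    have hc : Circ S t o := ⟨m1, m2, m3, h2, h3, h4⟩
    have hb : Metric.closedBall o ‖t.1 - o‖ ⊆ U := by
      intro z hz
      apply hU
      refine ⟨o, h2, h3, ?_⟩
      rwa [Metric.mem_closedBall, dist_eq_norm] at hz
    have h5 := Nn_le h2 h3
    calc ENNReal.ofReal (‖Nn t‖ ^ 2) ≤ ENNReal.ofReal ((3 * ‖t.1 - o‖) ^ 2) :=
          ENNReal.ofReal_le_ofReal (pow_le_pow_left₀ (norm_nonneg _) h5 2)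
      _ = 9 * ENNReal.ofReal (‖t.1 - o‖ ^ 2) := by
          rw [mul_pow, ENNReal.ofReal_mul (by positivity)]
          congr 1
          norm_num
      _ ≤ _ := by
          gcongr
          exact le_cw hc hb
  · rw [if_neg h]; exact zero_le

/-- **mean weight of a square, mesh `1`** -/
theorem a_le : ∃ C : ℝ≥0∞, C ≠ ∞ ∧ ∀ L : ℕ, fam.a L ≤ C * (L : ℝ≥0∞) ^ 2 := by
  obtain ⟨C, hC, h⟩ := mom_if (W := fun S L t =>
    if Fc S (sq 0 (L : ℝ)) t.1 t.2.1 t.2.2 then ENNReal.ofReal (‖Nn t‖ ^ 2) else 0) 9 (by simp)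
    fun S L t => fc_cw t
  refine ⟨C, hC, fun L => le_trans ?_ (h L)⟩
  unfold Fam.a
  refine lintegral_mono_ae ?_
  have h3 := PoisM3x930.m3a 1 one_pos
  filter_upwards [h3] with ω hω
  have hbd : Bornology.IsBounded (sq 0 (L : ℝ)) := by
    refine (Metric.isBounded_closedBall (x := (0 : ℂ)) (r := 2 * L)).subset ?_
    rintro w ⟨a1, a2, a3, a4⟩
    simp only [Complex.zero_re, zero_add, Complex.zero_im] at a1 a2 a3 a4
    rw [mem_closedBall_zero_iff]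
    have := Complex.norm_le_abs_re_add_abs_im w
    rw [abs_of_nonneg a1, abs_of_nonneg a3] at this
    linarith
  have hfin : (points 1 ω ∩ sq 0 (L : ℝ)).Finite := by
    obtain ⟨r, hr⟩ := hbd.subset_closedBall 0
    exact (hω.2.2 r).subset fun z hz => ⟨hz.1, hr hz.2⟩
  exact ph_le hω.1 hfin hbd (ps_cfg 1 ω)

/-- **the mean weight of the macroscopic objects tends to zero** -/
theorem mass0 {κ : ℝ} (hκ : 0 < κ) {U : Set ℂ} (hU : Bornology.IsBounded U) :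
    Tendsto (fun ε : ℝ => ∫⁻ ω, fam.Ps κ U (cfg ε ω) ∂sampleLaw) (𝓝[>] 0) (𝓝 0) := by
  obtain ⟨C, hC, h⟩ := a_le
  exact fam.mass hC h hκ hU

variable {D C : Type} {M : CMap D C} {P U : Set ℂ} {δ : ℂ → ℂ → D} {κ : ℂ → C}
variable {x : D → ZMod 2}

/-- the loop of the gap `g` (inside `U`) is in no square of side `k` -/
def Big (P U : Set ℂ) (M : CMap D C) (δ : ℂ → ℂ → D) (x : D → ZMod 2) (k : ℝ) (g : D) : Prop :=
  ∀ z, ∃ n a b c, Fc P U a b c ∧ (stp M x)^[n] (M.rho g) = δ a b ∧ ¬ cdisc (a, b, c) ⊆ sq z k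

/-- the blocks whose loop is inside `U`, but in no square of side `k` -/
def bigB [Fintype D] (P U : Set ℂ) (M : CMap D C) (δ : ℂ → ℂ → D) (k : ℝ) (x : D → ZMod 2) :
    Finset (Finset D) :=
  (blks M x).filter fun β => ∃ g ∈ β, InU P U M δ x g ∧ Big P U M δ x k g

/-- **macroscopic blocks of the closed map** -/
theorem blocks_mass [Fintype D] (A : Agr P U M δ κ) {X : Set (ℂ × Bool)} (hX : ps X = P) (k : ℝ)
    {a : D → ℂ} (ha : ∀ t : T3, Fc P U t.1 t.2.1 t.2.2 → a (gd δ t) = Nn t) :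
    ∑ x ∈ ev M, ∑ β ∈ bigB P U M δ k x, ENNReal.ofReal (‖∑ g ∈ β, a g‖ ^ 2) ≤
      ((ev M).card : ℝ≥0∞) * fam.Ps k U X := by
  set R : Obj → Prop := fun o => ∀ z, ¬ spt o ⊆ sq z k with hR
  have s1 := sum_swap A R fun o => ENNReal.ofReal (‖NN o.2‖ ^ 2)
  have e1 : fam.Ps k U X = ∑' o : Obj, (if IsOb P o ∧ spt o ⊆ U ∧ R o then
      ENNReal.ofReal (‖NN o.2‖ ^ 2) * ENNReal.ofReal (pc o.1) else 0) := by
    unfold Fam.Ps
    refine tsum_congr fun o => ?_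
    show (if IsOb (ps X) o ∧ spt o ⊆ U ∧ (∀ z, ¬ spt o ⊆ sq z k) then wgt o else 0) = _
    rw [hX]
    refine if_congr Iff.rfl ?_ rfl
    unfold wgt
    rw [ENNReal.ofReal_mul (by positivity)]
  rw [e1, s1]
  refine Finset.sum_le_sum fun x hx => ?_
  rw [mem_ev] at hx
  refine blocks_le R _ _ _ fun β hβ => ?_
  unfold bigB at hβ
  obtain ⟨hβ, g, hgβ, hU, hB⟩ := Finset.mem_filter.1 hβ
  obtain ⟨hg, hb⟩ := mem_blks hx hβ hgβ
  obtain ⟨l, s, hl, hs, h1, hc, h2, ml⟩ := exists_lp A hx hg hU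
  have ho : IsOb P (l, bl l s) := ⟨hl.lp, s, hs, h1, rfl⟩
  have hsp : spt (l, bl l s) ⊆ U := Set.iUnion₂_subset fun t ht => hl.sub t ht
  have him : im δ (l, bl l s) = β := by
    show (bl l s).image (gd δ) = β
    rw [← A.blk_img hx hl hc hs h1, h2, hb]
  refine ⟨(l, bl l s), ho, hsp, ?_, hc, him, ?_⟩
  · intro z hz
    obtain ⟨n, a, b, c, f1, f2, f3⟩ := hB z
    apply f3
    have f4 : (a, b, c) ∈ l := (ml _).2 ⟨f1, n, f2⟩
    exact (Set.subset_biUnion_of_mem (u := fun t => cdisc t) f4).trans hz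
  · rw [← sum_im A ho hsp a fun t ht => ha t (hl.fc ht), him]



end Crest.Agent.R143.Mass5x302
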