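import Crest.Agent.R143.ColSum_304
import Crest.Agent.R143.Mass1_302

/-!
# Row 143 (S0194): MASS with the actual colours (helper304)

`PsC κ U X` : sum of `‖N β‖²` over the blocks `β` of the interface loops of the *coloured* set `X`
(loop of the Delaunay triangulation of the positions, left sites of one colour, right sites of the
other colour) with support in `U` and in no square of side `κ`.

* `PsC_le` : `E PsC κ U (cfg ε) ≤ E fam.Ps κ U (cfg ε)` (`fam` = 302's family, colours by counting)
* `massC_of` : hence `E PsC → 0` from 302's theorem on `fam`
* `prob_massC` : in probability form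
-/

set_option autoImplicit false

noncomputable section

open scoped Classical

namespace Crest.Agent.R143.MassCx304

open MeasureTheory Set Filter Topology
open Crest.ProbabilityR.Voronoi
open Crest.Agent.R143.B0x346 Crest.Agent.R143.SumScx302 Crest.Agent.R143.Mass1x302
  Crest.Agent.R143.PP0x831 Crest.Agent.R143.ColSumx304
open scoped ENNReal

theorem ps_cfg (ε : ℝ) (ω : Sample) : ps (cfg ε ω) = points ε ω := by
  unfold ps cfg points
  rw [image_image]






theorem wgt_eq (o : Obj) : wgt o =
    ENNReal.ofReal (‖NN o.2‖ ^ 2) * (2 / 2 ^ (lf o.1 ∪ rt o.1).card) := by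
  unfold wgt pc
  rw [ENNReal.ofReal_mul (by positivity), ENNReal.ofReal_div_of_pos (by positivity),
    ENNReal.ofReal_pow (by norm_num)]
  norm_num







end Crest.Agent.R143.MassCx304
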