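import Crest.Agent.R143.WLoc7_713
import Crest.Agent.R143.Blk_838

/-!
# Row 143 (S0194), CORE-C block V, leaf V3 (helper713): chains and tube events

* `ch S χ κ A u v` : chain of Delaunay edges of the colour `κ` inside the set `A` from `u` to `v`
* `ch_loc` : locality; `iso_ch` : transport
* `TE A Q Q' G G' X` : tube event: chain of the colour 1 between the left sites and chain of the
  colour 0 between the right sites of the least gate darts of `X ∩ ovr Q`, `X ∩ ovr Q'`, inside `A`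
* `TE_fme`, `TE_cut`
-/

set_option autoImplicit false
set_option linter.all false

noncomputable section

open scoped Classical

namespace Crest.Agent.R143.WLocx713

open Set MeasureTheory
open Crest.Agent.R143.B0x346 Crest.Agent.R143.DelGx806 Crest.Agent.R143.DelRx806
  Crest.Agent.R143.JColx54
open Crest.Agent.R143.Frame10x395 Crest.Agent.R143.Locx922
open Crest.Agent.R143.Frame5x395 (sd mem_sd th th_spec)
open Crest.Agent.R143.Blkx838 (DE)
open Crest.Agent.R143.PP0x831 Crest.Agent.R143.Poisx304 Crest.Agent.R143.Janx304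
open Crest.Agent.R143.Prodx609 Crest.Agent.R143.FinMx609 Crest.Agent.R143.FinM2x609

variable {S S' : Finset ℂ} {W : Set ℂ} {d : ℝ} {χ χ' : ℂ → ZMod 2}

/-- one step of a chain -/
def cst (S : Finset ℂ) (χ : ℂ → ZMod 2) (κ : ZMod 2) (A : Set ℂ) (u v : ℂ) : Prop :=
  DE S u v ∧ χ u = κ ∧ χ v = κ ∧ u ∈ A ∧ v ∈ A

/-- chain of the colour `κ` in `A` -/
def ch (S : Finset ℂ) (χ : ℂ → ZMod 2) (κ : ZMod 2) (A : Set ℂ) (u v : ℂ) : Prop :=
  Relation.ReflTransGen (cst S χ κ A) u v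

theorem de_mem {u v : ℂ} (h : DE S u v) : u ∈ S ∧ v ∈ S := by
  rcases h with ⟨c, h⟩ | ⟨c, h⟩
  · exact ⟨(mem_delT.1 h).1, (mem_delT.1 h).2.1⟩
  · exact ⟨(mem_delT.1 h).2.1, (mem_delT.1 h).1⟩


/-- locality of a Delaunay edge -/
theorem de_loc (hd : 0 < d) (hH : Hol (S : Set ℂ) W d)
    (hA : Agr (S : Set ℂ) (S' : Set ℂ) W (2 * d)) {u v : ℂ} (hu : u ∈ W) :
    DE S u v ↔ DE S' u v := by
  unfold Blkx838.DE
  refine or_congr (exists_congr fun c => ?_) (exists_congr fun c => ?_)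
  · exact delT_vertex hd hH hA hu
  · exact delT_vertex2 hd hH hA hu

theorem de_near (hd : 0 < d) (hH : Hol (S : Set ℂ) W d) {u v : ℂ} (hu : u ∈ W) (h : DE S u v) :
    ‖v - u‖ < 2 * d := by
  rcases h with ⟨c, h⟩ | ⟨c, h⟩
  · have h1 := del_side hd hH hu (inD_self _ _ _) (mem_delT.1 h)
    rw [norm_sub_rev]; exact h1.1
  · exact (del_side hd hH hu (inD_snd _ _ _) (mem_delT.1 h)).1


section transport

variable {ι κ : Type*} [Finite ι] [Finite κ] {U : ι → Set ℂ} {R : κ → ℂ × ℂ × ℂ → Prop}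
  {X X' : Set (ℂ × Bool)} {e : ℂ → ℂ}

theorem iso_de (hX : X.Finite) (hX' : X'.Finite) (he : PIso U R X X' e) {u v : ℂ}
    (h : DE (sX X) u v) : DE (sX X') (e u) (e v) := by
  rcases h with ⟨c, h⟩ | ⟨c, h⟩
  · obtain ⟨h1, h2, h3⟩ := ps_of_del hX h
    exact Or.inl ⟨e c, (iso_del hX hX' he h1 h2 h3).1 h⟩
  · obtain ⟨h1, h2, h3⟩ := ps_of_del hX h
    exact Or.inr ⟨e c, (iso_del hX hX' he h1 h2 h3).1 h⟩

theorem de_ps (hX : X.Finite) {u v : ℂ} (h : DE (sX X) u v) : u ∈ ps X ∧ v ∈ ps X :=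
  ⟨(mem_sX hX).1 (de_mem h).1, (mem_sX hX).1 (de_mem h).2⟩


end transport

/-- **tube event** -/
def TE (A Q Q' : Set ℂ) (G G' : Set (ℂ × Bool) → ℂ × ℂ → Prop) (X : Set (ℂ × Bool)) : Prop :=
  ∃ p q, Least (G (X ∩ ovr Q)) p ∧ Least (G' (X ∩ ovr Q')) q ∧
    ch (sX X) (cX X) 1 A p.1 q.1 ∧ ch (sX X) (cX X) 0 A p.2 q.2



end Crest.Agent.R143.WLocx713
end
namespace Crest.Agent.R143.WLocx713.DE
end Crest.Agent.R143.WLocx713.DE
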