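import Crest.Agent.R143.SiteM_829
import Crest.Agent.R143.CorM_970
import Crest.Agent.R143.IndLoc3_279
import Crest.Agent.R143.WLoc9_713

/-!
# Row 143 (S0194), RIG glue (helper829; 831's ColX): the coloured sites of a colouring of the cells

`hS : GP S`, `s : Cs hS → ZMod 2` a colouring of the finitely many cells of `cm0 hS` (811).

* `bs hS h3 s` : the black sites; `Xc hS h3 s = clr S (bs ..)` : the coloured sites
* `fin_Xc`, `ps_Xc`, `sX_Xc`, `cX_Xc`, `bX_Xc`, `hullC_Xc`, `xc_Xc` (`xc = cfg (rc0 hS) s`)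
* `Xc_inter` : `Xc s ∩ ovr T = clr (S ∩ T) (black sites in T)`; `Xc_congr`, `Xc_glue_on`,
  `Xc_glue_off`, `Xc_mix_on`, `Xc_mix_off`
* `Xc_scol` : the colouring given by the set `β` of black sites
* **`av_Xc`** : mean over all the colourings of `F (Xc s)` = `cav F S` (279) for `F` local on a set
  without hull sites; `av_XcE` (`ℝ≥0∞`), `av_Xc_inter`; `av_pair` : two independent colourings
* `av_Xc_mul` : one colouring, two disjoint regions
-/

set_option autoImplicit false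
set_option linter.unusedSectionVars false

noncomputable section

open scoped Classical

namespace Crest.Agent.R143.ColXx829

open Set MeasureTheory
open Crest.Agent.R143.B0x346 Crest.Agent.R143.FinCx811 Crest.Agent.R143.Resax778
  Crest.Agent.R143.Frame10x395 Crest.Agent.R143.DelGx806 Crest.Agent.R143.Freshx829
  Crest.Agent.R143.Frame1x395
open Crest.Agent.R143.PP0x831 Crest.Agent.R143.Poisx304 Crest.Agent.R143.Janx304
  Crest.Agent.R143.FinMx609 Crest.Agent.R143.WLocx713 Crest.Agent.R143.IndLoc3x279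
open Crest.Agent.R143.CorMx970 (av)
open scoped ENNReal

variable {S : Finset ℂ}

/-- the black sites of a colouring of the cells -/
def bs (hS : GP (S : Set ℂ)) (h3 : 3 ≤ S.card) (s : Cs hS → ZMod 2) : Finset ℂ :=
  S.filter fun v => ∃ h : v ∈ S, s (cs hS h3 ⟨v, h⟩) = 1

/-- **the coloured sites** -/
def Xc (hS : GP (S : Set ℂ)) (h3 : 3 ≤ S.card) (s : Cs hS → ZMod 2) : Set (ℂ × Bool) :=
  clr S (bs hS h3 s)

section clr

variable {β : Finset ℂ}

theorem clr_fin : (clr S β).Finite := by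
  refine Set.Finite.subset ((S ×ˢ (Finset.univ : Finset Bool)).finite_toSet) ?_
  rintro ⟨v, b⟩ ⟨h, -⟩
  rw [Finset.mem_coe, Finset.mem_product]
  exact ⟨h, Finset.mem_univ _⟩

theorem ps_clr : ps (clr S β) = (S : Set ℂ) := by
  ext v
  constructor
  · rintro ⟨⟨w, b⟩, h, rfl⟩
    exact h.1
  · intro hv
    refine ⟨(v, decide (v ∈ β)), ⟨hv, ?_⟩, rfl⟩
    show decide (v ∈ β) = true ↔ v ∈ β
    exact decide_eq_true_iff

theorem sX_clr : sX (clr S β) = S := by
  ext v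
  rw [mem_sX clr_fin, ps_clr, Finset.mem_coe]

theorem cX_clr {v : ℂ} (hv : v ∈ S) : cX (clr S β) v = if v ∈ β then 1 else 0 := by
  unfold cX
  by_cases h : v ∈ β
  · rw [if_pos h, if_pos]
    exact ⟨hv, fun _ => h, fun _ => rfl⟩
  · rw [if_neg h, if_neg]
    rintro ⟨-, h'⟩
    exact h (h'.1 rfl)



/-- restrictions which agree -/
theorem clr_inter_congr {S' β' : Finset ℂ} {T : Set ℂ} (h1 : ∀ v ∈ T, v ∈ S ↔ v ∈ S')
    (h2 : ∀ v ∈ T, v ∈ S → (v ∈ β ↔ v ∈ β')) : clr S β ∩ ovr T = clr S' β' ∩ ovr T := by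
  ext ⟨v, b⟩
  simp only [clr, ovr, mem_inter_iff, mem_ofPred_eq]
  constructor
  · rintro ⟨⟨h3, h4⟩, h5⟩
    exact ⟨⟨(h1 v h5).1 h3, h4.trans (h2 v h5 h3)⟩, h5⟩
  · rintro ⟨⟨h3, h4⟩, h5⟩
    have h6 := (h1 v h5).2 h3
    exact ⟨⟨h6, h4.trans (h2 v h5 h6).symm⟩, h5⟩

end clr

section facts

variable {hS : GP (S : Set ℂ)} {h3 : 3 ≤ S.card} {s t : Cs hS → ZMod 2} {O : Finset (Cs hS)}

theorem mem_bs {v : ℂ} (hv : v ∈ S) : v ∈ bs hS h3 s ↔ s (cs hS h3 ⟨v, hv⟩) = 1 := by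
  unfold bs
  rw [Finset.mem_filter]
  exact ⟨fun ⟨_, _, h⟩ => h, fun h => ⟨hv, hv, h⟩⟩

theorem bs_sub : bs hS h3 s ⊆ S := Finset.filter_subset _ _


theorem fin_Xc : (Xc hS h3 s).Finite := clr_fin


theorem sX_Xc : sX (Xc hS h3 s) = S := sX_clr

theorem cX_Xc {v : ℂ} (hv : v ∈ S) : cX (Xc hS h3 s) v = s (cs hS h3 ⟨v, hv⟩) := by
  unfold Xc
  rw [cX_clr hv]
  by_cases h : s (cs hS h3 ⟨v, hv⟩) = 1
  · rw [if_pos ((mem_bs hv).2 h), h]
  · rw [if_neg fun h' => h ((mem_bs hv).1 h')]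
    revert h
    generalize s (cs hS h3 ⟨v, hv⟩) = a
    revert a; decide


theorem mem_hull {a b : ℂ} (h : hullE S a b) : a ∈ S ∧ b ∈ S := by
  obtain ⟨c, hc⟩ := h.1
  exact ⟨(mem_delT.1 hc).1, (mem_delT.1 hc).2.1⟩

theorem hullC_Xc : HullC S (cX (Xc hS h3 s)) := by
  intro a b h
  obtain ⟨ha, hb⟩ := mem_hull h
  rw [cX_Xc ha, cX_Xc hb, cs_hull hS h3 (v := ⟨a, ha⟩) (w := ⟨b, hb⟩) h]






/-- only the colours of the cells of the sites in `T` matter -/
theorem Xc_congr {T : Set ℂ} (h : ∀ v (hv : v ∈ S), v ∈ T →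
    s (cs hS h3 ⟨v, hv⟩) = t (cs hS h3 ⟨v, hv⟩)) :
    Xc hS h3 s ∩ ovr T = Xc hS h3 t ∩ ovr T := by
  refine clr_inter_congr (fun _ _ => Iff.rfl) fun v hvT hv => ?_
  rw [mem_bs hv, mem_bs hv, h v hv hvT]







end facts

/-! ### means -/

section means

variable (hS : GP (S : Set ℂ)) (h3 : 3 ≤ S.card)

theorem card_two {fi : Fintype (Cs hS → ZMod 2)} :
    Fintype.card (Cs hS → ZMod 2) = 2 ^ Fintype.card (Cs hS) := by
  rw [← Nat.card_eq_fintype_card, Nat.card_fun, Nat.card_eq_fintype_card,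
    Nat.card_eq_fintype_card, ZMod.card]







end means

/-! ### one colouring, two disjoint regions -/

section prod



end prod

end Crest.Agent.R143.ColXx829
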