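import Crest.Agent.R143.B0_346
import Crest.Agent.R143.B0D_346
import Crest.Agent.R143.DelG_806

-- ▼ part R143/CovA_126
section

/-!
# R143 (helper126): relabelling invariance of the networks

* `NIso N N' φ` : the bijection `φ` of the vertices maps the network `N` onto `N'`
* `NIso.joins_card`, `NIso.hj_card`, `NIso.cnt`, `NIso.Fob`, `NIso.F`, `NIso.triA`, `NIso.Q`
-/

set_option autoImplicit false
set_option linter.unusedSectionVars false

noncomputable section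

open scoped Classical

namespace Crest.Agent.R143.CovAx126

open Crest.Agent.R143.B0x346

variable {V W : Type}

/-- action on directed edges -/
def mE (φ : V ≃ W) (p : V × V) : W × W := (φ p.1, φ p.2)

/-- action on triples -/
def mT (φ : V ≃ W) (t : V × V × V) : W × W × W := (φ t.1, φ t.2.1, φ t.2.2)

lemma mE_inj (φ : V ≃ W) {p q : V × V} : mE φ p = mE φ q ↔ p = q := by
  obtain ⟨a, b⟩ := p
  obtain ⟨c, d⟩ := q
  simp [mE]


/-- action on edges as an equivalence -/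
def mEe (φ : V ≃ W) : V × V ≃ W × W := φ.prodCongr φ

lemma mEe_apply (φ : V ≃ W) (p : V × V) : mEe φ p = mE φ p := rfl


/-- action on sets of edges -/
def mJ (φ : V ≃ W) : Finset (V × V) ≃ Finset (W × W) := (mEe φ).finsetCongr

lemma mem_mJ (φ : V ≃ W) (J : Finset (V × V)) (p : V × V) : mE φ p ∈ mJ φ J ↔ p ∈ J := by
  rw [mJ, Equiv.finsetCongr_apply, ← mEe_apply, Finset.mem_map_equiv, Equiv.symm_apply_apply]

lemma mem_mJ' (φ : V ≃ W) (J : Finset (V × V)) (a b : V) : (φ a, φ b) ∈ mJ φ J ↔ (a, b) ∈ J :=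
  mem_mJ φ J (a, b)

/-- isomorphism of triangulations -/
structure TIso (G : Trg V) (G' : Trg W) (φ : V ≃ W) : Prop where
  tri : ∀ a b c : V, (φ a, φ b, φ c) ∈ G'.T ↔ (a, b, c) ∈ G.T

/-- isomorphism of networks -/
structure NIso (N : Net V) (N' : Net W) (φ : V ≃ W) : Prop extends
    TIso N.toTrg N'.toTrg φ where
  kil : ∀ a b : V, (φ a, φ b) ∈ N'.kl ↔ (a, b) ∈ N.kl
  exx : ∀ k, N'.ex k = mE φ (N.ex k)

theorem mem_E {G : Trg V} {p : V × V} : p ∈ G.E ↔
    (∃ c, (p.1, p.2, c) ∈ G.T) ∨ ∃ c, (p.2, p.1, c) ∈ G.T := by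
  unfold Trg.E
  simp only [Finset.mem_union, Finset.mem_image]
  constructor
  · rintro (⟨⟨a, b, c⟩, h, rfl⟩ | ⟨⟨a, b, c⟩, h, rfl⟩)
    · exact Or.inl ⟨c, h⟩
    · exact Or.inr ⟨c, h⟩
  · rintro (⟨c, h⟩ | ⟨c, h⟩)
    · exact Or.inl ⟨_, h, rfl⟩
    · exact Or.inr ⟨_, h, rfl⟩

variable {G : Trg V} {G' : Trg W} {φ : V ≃ W}

theorem TIso.exi (h : TIso G G' φ) (a b : V) : (∃ c, (φ a, φ b, c) ∈ G'.T) ↔
    ∃ c, (a, b, c) ∈ G.T := by
  constructor
  · rintro ⟨c, hc⟩
    refine ⟨φ.symm c, ?_⟩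
    rw [← h.tri, Equiv.apply_symm_apply]
    exact hc
  · rintro ⟨c, hc⟩
    exact ⟨φ c, (h.tri _ _ _).2 hc⟩

theorem TIso.all (h : TIso G G' φ) (a b : V) : (∀ c, (φ a, φ b, c) ∉ G'.T) ↔
    ∀ c, (a, b, c) ∉ G.T := by
  have := h.exi a b
  constructor
  · intro h1 c hc
    obtain ⟨c', hc'⟩ := this.2 ⟨c, hc⟩
    exact h1 c' hc'
  · intro h1 c hc
    obtain ⟨c', hc'⟩ := this.1 ⟨c, hc⟩
    exact h1 c' hc'

theorem TIso.E (h : TIso G G' φ) (p : V × V) : mE φ p ∈ G'.E ↔ p ∈ G.E := by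
  rw [mem_E, mem_E]
  exact or_congr (h.exi p.1 p.2) (h.exi p.2 p.1)

/-- every edge of `W` is an image -/
lemma forall_W {P : W → Prop} (φ : V ≃ W) : (∀ w, P w) ↔ ∀ v, P (φ v) :=
  ⟨fun h v => h _, fun h w => by simpa using h (φ.symm w)⟩

section join

variable {kl : Set (V × V)} {kl' : Set (W × W)} {O : Set (V × V × V)} {O' : Set (W × W × W)}
  {D : Set (V × V)} {D' : Set (W × W)}

/-- **joins are moved to joins** -/
theorem isJoin_iff (h : TIso G G' φ) (hk : ∀ a b, (φ a, φ b) ∈ kl' ↔ (a, b) ∈ kl)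
    (hO : ∀ a b c, (φ a, φ b, φ c) ∈ O' ↔ (a, b, c) ∈ O)
    (hD : ∀ a b, (φ a, φ b) ∈ D' ↔ (a, b) ∈ D) (J : Finset (V × V)) :
    IsJoin G' kl' O' D' (mJ φ J) ↔ IsJoin G kl O D J := by
  constructor
  · intro H
    refine ⟨?_, ?_, ?_, ?_, ?_, ?_⟩
    · intro p hp
      rw [← h.E]
      exact H.sub ((mem_mJ φ J p).2 hp)
    · intro a b h1 h2
      have := H.sym (φ a) (φ b) (by rwa [hD]) (by rwa [hD])
      rwa [mem_mJ', mem_mJ'] at this
    · intro a b h1
      have := H.mark (φ a) (φ b) (by rwa [hD])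
      rwa [mem_mJ', mem_mJ'] at this
    · intro a b h1 h2
      have := H.bdr (φ a) (φ b) (by rwa [h.all]) (by rwa [hD])
      rwa [mem_mJ', mem_mJ'] at this
    · intro a b h1 h2 h3
      have := H.kill (φ a) (φ b) (by rwa [hk]) (by rwa [hD]) (by rwa [hD])
      rwa [mem_mJ', mem_mJ'] at this
    · intro a b c h1
      have := H.par (φ a) (φ b) (φ c) (by rwa [h.tri])
      simpa only [mem_mJ', hO] using this
  · intro H
    refine ⟨?_, ?_, ?_, ?_, ?_, ?_⟩
    · intro p hp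
      have e1 : p = mE φ (φ.symm p.1, φ.symm p.2) := by simp [mE]
      rw [e1] at hp ⊢
      rw [h.E]
      exact H.sub ((mem_mJ φ J _).1 hp)
    · rw [forall_W φ]; intro a
      rw [forall_W φ]; intro b
      rw [hD, hD, mem_mJ', mem_mJ']
      exact H.sym a b
    · rw [forall_W φ]; intro a
      rw [forall_W φ]; intro b
      rw [hD, mem_mJ', mem_mJ']
      exact H.mark a b
    · rw [forall_W φ]; intro a
      rw [forall_W φ]; intro b
      rw [h.all, hD, mem_mJ', mem_mJ']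
      exact H.bdr a b
    · rw [forall_W φ]; intro a
      rw [forall_W φ]; intro b
      rw [hk, hD, hD, mem_mJ', mem_mJ']
      exact H.kill a b
    · rw [forall_W φ]; intro a
      rw [forall_W φ]; intro b
      rw [forall_W φ]; intro c
      rw [h.tri]
      simp only [mem_mJ', hO]
      exact H.par a b c

theorem mem_joins_iff {J : Finset (V × V)} : J ∈ joins G kl O D ↔ IsJoin G kl O D J := by
  unfold joins
  rw [Finset.mem_filter, Finset.mem_powerset]
  exact ⟨fun h => h.2, fun h => ⟨h.sub, h⟩⟩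

theorem joins_iff (h : TIso G G' φ) (hk : ∀ a b, (φ a, φ b) ∈ kl' ↔ (a, b) ∈ kl)
    (hO : ∀ a b c, (φ a, φ b, φ c) ∈ O' ↔ (a, b, c) ∈ O)
    (hD : ∀ a b, (φ a, φ b) ∈ D' ↔ (a, b) ∈ D) (J : Finset (V × V)) :
    mJ φ J ∈ joins G' kl' O' D' ↔ J ∈ joins G kl O D := by
  rw [mem_joins_iff, mem_joins_iff]
  exact isJoin_iff h hk hO hD J

/-- counting joins with a property -/
theorem joins_card_filter (h : TIso G G' φ) (hk : ∀ a b, (φ a, φ b) ∈ kl' ↔ (a, b) ∈ kl)
    (hO : ∀ a b c, (φ a, φ b, φ c) ∈ O' ↔ (a, b, c) ∈ O)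
    (hD : ∀ a b, (φ a, φ b) ∈ D' ↔ (a, b) ∈ D) {P : Finset (V × V) → Prop}
    {P' : Finset (W × W) → Prop} (hP : ∀ J, P' (mJ φ J) ↔ P J) :
    ((joins G' kl' O' D').filter P').card = ((joins G kl O D).filter P).card := by
  refine (Finset.card_equiv (mJ φ) fun J => ?_).symm
  rw [Finset.mem_filter, Finset.mem_filter, joins_iff h hk hO hD, hP]

theorem joins_card (h : TIso G G' φ) (hk : ∀ a b, (φ a, φ b) ∈ kl' ↔ (a, b) ∈ kl)
    (hO : ∀ a b c, (φ a, φ b, φ c) ∈ O' ↔ (a, b, c) ∈ O)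
    (hD : ∀ a b, (φ a, φ b) ∈ D' ↔ (a, b) ∈ D) :
    (joins G' kl' O' D').card = (joins G kl O D).card := by
  refine (Finset.card_equiv (mJ φ) fun J => ?_).symm
  rw [joins_iff h hk hO hD]

/-- steps of the walker -/
theorem step_iff (h : TIso G G' φ)
    (hO : ∀ a b c, (φ a, φ b, φ c) ∈ O' ↔ (a, b, c) ∈ O)
    (hD : ∀ a b, (φ a, φ b) ∈ D' ↔ (a, b) ∈ D) (J : Finset (V × V)) (p q : V × V) :
    Step G' O' D' (mJ φ J) (mE φ p) (mE φ q) ↔ Step G O D J p q := by
  unfold Step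
  constructor
  · rintro ⟨c, h1, h2, h3, h4⟩
    obtain ⟨c, rfl⟩ := φ.surjective c
    refine ⟨c, (h.tri _ _ _).1 h1, fun h' => h2 ((hO _ _ _).2 h'), fun h' => h3 ((hD _ _).2 h'), ?_⟩
    rcases h4 with ⟨h5, h6⟩ | ⟨h5, h5', h6⟩
    · left
      refine ⟨(mem_mJ' φ J _ _).1 h5, ?_⟩
      have : mE φ q = mE φ (c, p.2) := h6
      exact (mE_inj φ).1 this
    · right
      refine ⟨(mem_mJ' φ J _ _).1 h5, fun h' => h5' ((mem_mJ' φ J _ _).2 h'), ?_⟩
      have : mE φ q = mE φ (p.1, c) := h6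
      exact (mE_inj φ).1 this
  · rintro ⟨c, h1, h2, h3, h4⟩
    refine ⟨φ c, (h.tri _ _ _).2 h1, fun h' => h2 ((hO _ _ _).1 h'), fun h' => h3 ((hD _ _).1 h'), ?_⟩
    rcases h4 with ⟨h5, h6⟩ | ⟨h5, h5', h6⟩
    · left
      refine ⟨(mem_mJ' φ J _ _).2 h5, ?_⟩
      rw [h6]; rfl
    · right
      refine ⟨(mem_mJ' φ J _ _).2 h5, fun h' => h5' ((mem_mJ' φ J _ _).1 h'), ?_⟩
      rw [h6]; rfl

theorem leads_iff (h : TIso G G' φ)
    (hO : ∀ a b c, (φ a, φ b, φ c) ∈ O' ↔ (a, b, c) ∈ O)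
    (hD : ∀ a b, (φ a, φ b) ∈ D' ↔ (a, b) ∈ D) (J : Finset (V × V)) (p q : V × V) :
    Leads G' O' D' (mJ φ J) (mE φ p) (mE φ q) ↔ Leads G O D J p q := by
  unfold Leads
  constructor
  · intro H
    have key : ∀ x y : W × W, Relation.ReflTransGen (Step G' O' D' (mJ φ J)) x y →
        Relation.ReflTransGen (Step G O D J) ((mEe φ).symm x) ((mEe φ).symm y) := by
      intro x y hxy
      induction hxy with
      | refl => exact Relation.ReflTransGen.refl
      | tail _ hs ih =>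
        refine ih.tail ?_
        rw [← step_iff h hO hD]
        convert hs using 1
        · exact (mEe φ).apply_symm_apply _
        · exact (mEe φ).apply_symm_apply _
    have := key _ _ H
    rwa [← mEe_apply, ← mEe_apply, Equiv.symm_apply_apply, Equiv.symm_apply_apply] at this
  · intro H
    induction H with
    | refl => exact Relation.ReflTransGen.refl
    | tail _ hs ih => exact ih.tail ((step_iff h hO hD J _ _).2 hs)

theorem ends_iff (h : TIso G G' φ)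
    (hO : ∀ a b c, (φ a, φ b, φ c) ∈ O' ↔ (a, b, c) ∈ O)
    (hD : ∀ a b, (φ a, φ b) ∈ D' ↔ (a, b) ∈ D) (J : Finset (V × V)) (p x : V × V) :
    Ends G' O' D' (mJ φ J) (mE φ p) (mE φ x) ↔ Ends G O D J p x :=
  leads_iff h hO hD J p (x.2, x.1)

end join

variable {N : Net V} {N' : Net W}

namespace NIso

theorem mem_exS (h : NIso N N' φ) (a b : V) : (φ a, φ b) ∈ N'.exS ↔ (a, b) ∈ N.exS := by
  unfold Net.exS
  simp only [Set.mem_range]
  refine exists_congr fun k => ?_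
  rw [h.exx]
  exact mE_inj φ (p := N.ex k) (q := (a, b))

theorem mem_D (h : NIso N N' φ) (x y a b : V) :
    (φ a, φ b) ∈ N'.exS ∪ {(φ x, φ y)} ↔ (a, b) ∈ N.exS ∪ {(x, y)} := by
  simp only [Set.mem_union, Set.mem_singleton_iff, h.mem_exS, Prod.mk.injEq,
    EmbeddingLike.apply_eq_iff_eq]

theorem hj_card (h : NIso N N' φ) (a b : V) : (N'.hj (φ a) (φ b)).card = (N.hj a b).card :=
  joins_card h.toTIso h.kil (by simp) (h.mem_D a b)

theorem cnt (h : NIso N N' φ) (a b : V) (k : ZMod 3) : N'.cnt (φ a) (φ b) k = N.cnt a b k := by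
  unfold Net.cnt Net.hj
  refine joins_card_filter h.toTIso h.kil (by simp) (h.mem_D a b) fun J => ?_
  rw [h.exx]
  exact ends_iff h.toTIso (by simp) (h.mem_D a b) J (a, b) (N.ex k)

theorem Fob (h : NIso N N' φ) (a b : V) : N'.Fob (φ a) (φ b) = N.Fob a b := by
  unfold Net.Fob
  simp only [h.cnt, h.hj_card]

theorem F (h : NIso N N' φ) (a b : V) : N'.F (φ a) (φ b) = N.F a b := by
  have hp : (fun k => N'.ex k = (φ a, φ b) ∨ N'.ex k = (φ b, φ a)) =
      fun k => N.ex k = (a, b) ∨ N.ex k = (b, a) := by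
    funext k
    have e1 : (N'.ex k = (φ a, φ b)) ↔ N.ex k = (a, b) := by
      rw [h.exx]; exact mE_inj φ (p := N.ex k) (q := (a, b))
    have e2 : (N'.ex k = (φ b, φ a)) ↔ N.ex k = (b, a) := by
      rw [h.exx]; exact mE_inj φ (p := N.ex k) (q := (b, a))
    rw [e1, e2]
  have key : ∀ (P P' : ZMod 3 → Prop) (_ : P' = P) (x : ℂ) (_ : Decidable (∃ k, P' k))
      (_ : Decidable (∃ k, P k)), (if hh : ∃ k, P' k then omz hh.choose else x) =
        if hh : ∃ k, P k then omz hh.choose else x := by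
    intro P P' hPP x i1 i2
    subst hPP
    by_cases hh : ∃ k, P' k
    · rw [dif_pos hh, dif_pos hh]
    · rw [dif_neg hh, dif_neg hh]
  unfold Net.F
  rw [h.Fob]
  exact key _ _ hp _ _ _

/-- membership in the rotations of a triangle -/
theorem mem_rots (φ : V ≃ W) (t : V × V × V) (a b c : V) :
    (φ a, φ b, φ c) ∈ rots (mT φ t) ↔ (a, b, c) ∈ rots t := by
  unfold rots mT
  obtain ⟨x, y, z⟩ := t
  simp

theorem tj_card (h : NIso N N' φ) (t : V × V × V) : (N'.tj (mT φ t)).card = (N.tj t).card :=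
  joins_card h.toTIso h.kil (mem_rots φ t) h.mem_exS

theorem tri3 (h : NIso N N' φ) (t : V × V × V) (k : ZMod 3) (J : Finset (V × V)) :
    N'.Tri3 (mT φ t) k (mJ φ J) ↔ N.Tri3 t k J := by
  unfold Net.Tri3
  have e1 : ∀ a b : V, (φ a, φ b) ∈ mJ φ J ↔ (a, b) ∈ J := mem_mJ' φ J
  have e2 : ∀ (a b : V) (j : ZMod 3), Ends N'.toTrg (rots (mT φ t)) N'.exS (mJ φ J) (φ a, φ b)
      (N'.ex j) ↔ Ends N.toTrg (rots t) N.exS J (a, b) (N.ex j) := by
    intro a b j
    rw [h.exx]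
    exact ends_iff h.toTIso (mem_rots φ t) h.mem_exS J (a, b) (N.ex j)
  exact and_congr (e1 _ _) (and_congr (e1 _ _) (and_congr (e1 _ _)
    (and_congr (e2 _ _ _) (and_congr (e2 _ _ _) (e2 _ _ _)))))

theorem triA (h : NIso N N' φ) (t : V × V × V) (k : ZMod 3) : N'.triA (mT φ t) k = N.triA t k := by
  unfold Net.triA
  rw [h.tj_card]
  congr 2
  unfold Net.tj
  exact joins_card_filter h.toTIso h.kil (mem_rots φ t) h.mem_exS (h.tri3 t k)

/-- the spin one amplitude is invariant -/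
theorem Q (h : NIso N N' φ) (t : V × V × V) : N'.Q (mT φ t) = N.Q t := by
  unfold Net.Q
  simp only [h.triA]

end NIso

end Crest.Agent.R143.CovAx126
end
end

-- ▼ part R143/CovB_126

/-!
# R143 (helper126): covariance of the Delaunay networks and of the observable under rigid motions

* `Mo φ e` : `φ` is the motion `z ↦ e z + b`, `‖e‖ = 1`
* `Mo.del`, `Mo.gp`, `Mo.delT`, `Mo.hullE`, `Mo.vedge`, `Mo.crossRay`
* `Dom.mv` : the moved domain; `Mo.kl`, `Mo.rayMark`, `Mo.niso`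
* `Mo.hval`, `Mo.h` : **the observable of the moved domain at the moved point**
-/

set_option autoImplicit false
set_option linter.unusedSectionVars false

noncomputable section

open scoped Classical

namespace Crest.Agent.R143.CovBx126

open Crest.ProbabilityR.Voronoi
open Crest.Agent.R143.B0x346 Crest.Agent.R143.B0Dx346 Crest.Agent.R143.CovAx126
open Crest.Agent.R143.DelGx806

/-- `φ` is a rigid motion with rotation part `e` -/
structure Mo (φ : ℂ ≃ ℂ) (e : ℂ) : Prop where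
  ne : ‖e‖ = 1
  sub : ∀ z w : ℂ, φ z - φ w = e * (z - w)

variable {φ : ℂ ≃ ℂ} {e : ℂ}

theorem cr_mul {e : ℂ} (he : ‖e‖ = 1) (u v : ℂ) : cr (e * u) (e * v) = cr u v := by
  have h : e.re ^ 2 + e.im ^ 2 = 1 := by
    have := Complex.sq_norm e
    rw [he, Complex.normSq_apply] at this
    nlinarith
  unfold cr
  simp only [Complex.mul_re, Complex.mul_im]
  linear_combination (u.re * v.im - u.im * v.re) * h

namespace Mo

theorem norm (h : Mo φ e) (z w : ℂ) : ‖φ z - φ w‖ = ‖z - w‖ := by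
  rw [h.sub, norm_mul, h.ne, one_mul]

theorem cr (h : Mo φ e) (a b c d : ℂ) : cr (φ a - φ b) (φ c - φ d) = B0x346.cr (a - b) (c - d) := by
  rw [h.sub, h.sub, cr_mul h.ne]

theorem lft (h : Mo φ e) (x a b : ℂ) : Lft (φ x) (φ a) (φ b) ↔ Lft x a b := by
  unfold Lft
  rw [h.cr]

theorem inTri (h : Mo φ e) (x a b c : ℂ) : InTri (φ x) (φ a) (φ b) (φ c) ↔ InTri x a b c := by
  unfold InTri
  rw [h.lft, h.lft, h.lft]

theorem eq_add (h : Mo φ e) (z w : ℂ) : φ z = φ w + e * (z - w) := by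
  rw [← h.sub]; ring

/-- the motion of the ray -/
theorem ray (h : Mo φ e) (c q : ℂ) (t : ℝ) : φ (c + t * q) = φ c + t * (e * q) := by
  rw [h.eq_add (c + t * q) c]; ring

theorem segment (h : Mo φ e) (x a b : ℂ) : φ x ∈ segment ℝ (φ a) (φ b) ↔ x ∈ segment ℝ a b := by
  have hne : e ≠ 0 := by
    intro h0
    have := h.ne
    rw [h0, norm_zero] at this
    exact zero_ne_one this
  rw [segment_eq_image, segment_eq_image, Set.mem_image, Set.mem_image]
  refine exists_congr fun t => and_congr_right fun _ => ?_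
  have e1 : (1 - t) • φ a + t • φ b = φ a + e * (t * (b - a)) := by
    rw [h.eq_add b a]
    simp only [Complex.real_smul, Complex.ofReal_sub, Complex.ofReal_one]
    ring
  have e2 : (1 - t) • a + t • b = a + t * (b - a) := by
    simp only [Complex.real_smul, Complex.ofReal_sub, Complex.ofReal_one]
    ring
  rw [e1, e2, h.eq_add x a]
  constructor
  · intro h1
    have h2 : e * (t * (b - a)) = e * (x - a) := by linear_combination h1
    have h3 := mul_left_cancel₀ hne h2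
    linear_combination h3
  · intro h1
    linear_combination e * h1

/-! ### Delaunay triangulations -/

theorem ball_image (S : Set ℂ) (P : ℂ → Prop) : (∀ s ∈ φ '' S, P s) ↔ ∀ s ∈ S, P (φ s) :=
  Set.forall_mem_image

theorem del (h : Mo φ e) (S : Set ℂ) (a b c : ℂ) :
    Del (φ '' S) (φ a) (φ b) (φ c) ↔ Del S a b c := by
  unfold Del
  rw [φ.injective.mem_set_image, φ.injective.mem_set_image, φ.injective.mem_set_image, h.cr,
    φ.surjective.exists]
  simp only [ball_image, h.norm]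

theorem gp (h : Mo φ e) (S : Set ℂ) : GP (φ '' S) ↔ GP S := by
  constructor
  · intro H
    refine ⟨?_, ?_⟩
    · intro a ha b hb c hc h1 h2 h3
      have := H.line (φ a) ⟨a, ha, rfl⟩ (φ b) ⟨b, hb, rfl⟩ (φ c) ⟨c, hc, rfl⟩ (φ.injective.ne h1)
        (φ.injective.ne h2) (φ.injective.ne h3)
      rwa [h.cr] at this
    · intro a ha b hb c hc d hd h1 h2 h3 h4 h5 h6 o ho
      refine H.circ (φ a) ⟨a, ha, rfl⟩ (φ b) ⟨b, hb, rfl⟩ (φ c) ⟨c, hc, rfl⟩ (φ d) ⟨d, hd, rfl⟩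
        (φ.injective.ne h1) (φ.injective.ne h2) (φ.injective.ne h3) (φ.injective.ne h4)
        (φ.injective.ne h5) (φ.injective.ne h6) (φ o) ?_
      simp only [h.norm]
      exact ho
  · intro H
    refine ⟨?_, ?_⟩
    · rintro _ ⟨a, ha, rfl⟩ _ ⟨b, hb, rfl⟩ _ ⟨c, hc, rfl⟩ h1 h2 h3
      rw [h.cr]
      exact H.line a ha b hb c hc (fun h' => h1 (by rw [h'])) (fun h' => h2 (by rw [h']))
        (fun h' => h3 (by rw [h']))
    · rintro _ ⟨a, ha, rfl⟩ _ ⟨b, hb, rfl⟩ _ ⟨c, hc, rfl⟩ _ ⟨d, hd, rfl⟩ h1 h2 h3 h4 h5 h6 o ho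
      obtain ⟨o, rfl⟩ := φ.surjective o
      simp only [h.norm] at ho
      exact H.circ a ha b hb c hc d hd (fun h' => h1 (by rw [h'])) (fun h' => h2 (by rw [h']))
        (fun h' => h3 (by rw [h'])) (fun h' => h4 (by rw [h'])) (fun h' => h5 (by rw [h']))
        (fun h' => h6 (by rw [h'])) o ho

variable {S : Finset ℂ}

theorem coe_map (S : Finset ℂ) : ((S.map φ.toEmbedding : Finset ℂ) : Set ℂ) = φ '' (S : Set ℂ) := by
  simp

theorem mem_delT' {a b c : ℂ} : (a, b, c) ∈ delT S ↔ Del (S : Set ℂ) a b c := by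
  unfold delT
  rw [Finset.mem_filter, Finset.mem_product, Finset.mem_product]
  constructor
  · exact fun h => h.2
  · exact fun h => ⟨⟨h.1, h.2.1, h.2.2.1⟩, h⟩

theorem delT (h : Mo φ e) (a b c : ℂ) :
    (φ a, φ b, φ c) ∈ delT (S.map φ.toEmbedding) ↔ (a, b, c) ∈ B0x346.delT S := by
  rw [mem_delT', mem_delT', coe_map, h.del]

theorem exi (h : Mo φ e) (a b : ℂ) : (∃ c, (φ a, φ b, c) ∈ B0x346.delT (S.map φ.toEmbedding)) ↔
    ∃ c, (a, b, c) ∈ B0x346.delT S := by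
  rw [φ.surjective.exists]
  exact exists_congr fun c => h.delT a b c

theorem all (h : Mo φ e) (a b : ℂ) : (∀ c, (φ a, φ b, c) ∉ B0x346.delT (S.map φ.toEmbedding)) ↔
    ∀ c, (a, b, c) ∉ B0x346.delT S := by
  rw [φ.surjective.forall]
  exact forall_congr' fun c => not_congr (h.delT a b c)

theorem hullE (h : Mo φ e) (a b : ℂ) :
    hullE (S.map φ.toEmbedding) (φ a) (φ b) ↔ B0x346.hullE S a b :=
  and_congr (h.exi a b) (h.all b a)

theorem vedge (h : Mo φ e) (S : Set ℂ) (a b z : ℂ) :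
    φ z ∈ vedge (φ '' S) (φ a) (φ b) ↔ z ∈ B0Dx346.vedge S a b := by
  unfold B0Dx346.vedge
  simp only [Set.mem_ofPred_eq, ball_image, h.norm]

theorem voronoiCell (h : Mo φ e) (S : Set ℂ) (a z : ℂ) :
    φ z ∈ voronoiCell (φ '' S) (φ a) ↔ z ∈ Crest.ProbabilityR.Voronoi.voronoiCell S a := by
  unfold Crest.ProbabilityR.Voronoi.voronoiCell
  simp only [Set.mem_ofPred_eq, ball_image, h.norm]

theorem crossRay (h : Mo φ e) (c q : ℂ) (p : ℂ × ℂ) :
    crossRay (S.map φ.toEmbedding) (φ c) (e * q) (mE φ p) ↔ B0Dx346.crossRay S c q p := by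
  unfold B0Dx346.crossRay
  refine and_congr (h.hullE p.1 p.2) (exists_congr fun t => and_congr_right fun _ => ?_)
  rw [← h.ray]
  exact h.segment _ _ _

theorem rayMark (h : Mo φ e) {c q : ℂ} (hu : ∃! p, B0Dx346.crossRay S c q p) :
    rayMark (S.map φ.toEmbedding) (φ c) (e * q) = mE φ (B0Dx346.rayMark S c q) := by
  obtain ⟨p, hp, hu⟩ := hu
  have e1 : B0Dx346.rayMark S c q = p := by
    have hex : ∃ p, B0Dx346.crossRay S c q p := ⟨p, hp⟩
    unfold B0Dx346.rayMark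
    rw [dif_pos hex]
    exact hu _ hex.choose_spec
  have e2 : B0Dx346.rayMark (S.map φ.toEmbedding) (φ c) (e * q) = mE φ p := by
    have hex : ∃ p, B0Dx346.crossRay (S.map φ.toEmbedding) (φ c) (e * q) p :=
      ⟨mE φ p, (h.crossRay c q p).2 hp⟩
    unfold B0Dx346.rayMark
    rw [dif_pos hex]
    have h3 := hex.choose_spec
    set p' := hex.choose with hp'
    have h4 : p' = mE φ (φ.symm p'.1, φ.symm p'.2) := by simp [mE]
    rw [h4] at h3
    rw [h4, mE_inj]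
    exact hu _ ((h.crossRay c q _).1 h3)
  rw [e1, e2]

end Mo

/-! ### domains -/

/-- the moved domain -/
def _root_.Crest.Agent.R143.B0Dx346.Dom.mv (D : Dom) (φ : ℂ ≃ ℂ) (e : ℂ) : Dom where
  c := φ D.c
  L := D.L
  R i := φ '' D.R i
  q k := e * D.q k

theorem mv_out (D : Dom) (φ : ℂ ≃ ℂ) (e : ℂ) : (D.mv φ e).out = φ '' D.out := by
  unfold Dom.out Dom.mv
  rw [Set.image_iUnion]

namespace Mo

variable {S : Finset ℂ} {D : Dom}

theorem kl (h : Mo φ e) (a b : ℂ) :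
    (φ a, φ b) ∈ (D.mv φ e).kl (S.map φ.toEmbedding) ↔ (a, b) ∈ D.kl S := by
  unfold Dom.kl
  simp only [Set.mem_ofPred_eq, mv_out, coe_map]
  constructor
  · rintro ⟨_, hz, ⟨z, hz', rfl⟩⟩
    exact ⟨z, (h.vedge _ _ _ _).1 hz, hz'⟩
  · rintro ⟨z, hz, hz'⟩
    exact ⟨φ z, (h.vedge _ _ _ _).2 hz, ⟨z, hz', rfl⟩⟩

/-- the ray marks of the domain are unique -/
def _root_.Crest.Agent.R143.CovBx126.UMark (D : Dom) (S : Finset ℂ) : Prop :=
  ∀ k, ∃! p, B0Dx346.crossRay S D.c (D.q k) p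

theorem netS_eq' (hS : GP (S : Set ℂ)) :
    D.netS S = D.net S (g1 S hS).1 (g1 S hS).2.1 (g1 S hS).2.2 := by
  unfold Dom.netS
  rw [dif_pos (g1 S hS)]

/-- **the network of the moved domain is the moved network** -/
theorem niso (h : Mo φ e) (hS : GP (S : Set ℂ)) (hu : UMark D S) :
    NIso (D.netS S) ((D.mv φ e).netS (S.map φ.toEmbedding)) φ := by
  have hS' : GP ((S.map φ.toEmbedding : Finset ℂ) : Set ℂ) := by
    rw [coe_map]; exact (h.gp _).2 hS
  rw [netS_eq' hS, netS_eq' hS']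
  have hm : ∀ k, B0Dx346.rayMark (S.map φ.toEmbedding) (D.mv φ e).c ((D.mv φ e).q k) =
      mE φ (B0Dx346.rayMark S D.c (D.q k)) := fun k => h.rayMark (hu k)
  refine ⟨⟨fun a b c => h.delT a b c⟩, ?_, hm⟩
  intro a b
  show ((φ a, φ b) ∈ (D.mv φ e).kl (S.map φ.toEmbedding) ∧
    (∀ k, B0Dx346.rayMark (S.map φ.toEmbedding) (D.mv φ e).c ((D.mv φ e).q k) ≠ (φ a, φ b)) ∧
    ∀ k, B0Dx346.rayMark (S.map φ.toEmbedding) (D.mv φ e).c ((D.mv φ e).q k) ≠ (φ b, φ a)) ↔
    (a, b) ∈ D.kl S ∧ (∀ k, B0Dx346.rayMark S D.c (D.q k) ≠ (a, b)) ∧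
    ∀ k, B0Dx346.rayMark S D.c (D.q k) ≠ (b, a)
  rw [h.kl]
  refine and_congr_right fun _ => and_congr (forall_congr' fun k => ?_) (forall_congr' fun k => ?_)
  · rw [hm, show (φ a, φ b) = mE φ (a, b) from rfl, Ne, Ne, mE_inj]
  · rw [hm, show (φ b, φ a) = mE φ (b, a) from rfl, Ne, Ne, mE_inj]

/-- the observable at a point, for isomorphic networks -/
theorem hval (h : Mo φ e) (hS : GP (S : Set ℂ)) {N N' : Net ℂ} (hN : NIso N N' φ)
    (hT : N.T = B0x346.delT S) (z : ℂ) : hval N' (φ z) = B0Dx346.hval N z := by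
  by_cases hex : ∃ t : ℂ × ℂ × ℂ, t ∈ N.T ∧ InTri z t.1 t.2.1 t.2.2
  · have hex' : ∃ t : ℂ × ℂ × ℂ, t ∈ N'.T ∧ InTri (φ z) t.1 t.2.1 t.2.2 := by
      obtain ⟨t, ht, hz⟩ := hex
      exact ⟨mT φ t, (hN.tri _ _ _).2 ht, (h.inTri _ _ _ _).2 hz⟩
    unfold B0Dx346.hval
    rw [dif_pos hex, dif_pos hex']
    obtain ⟨h1, h2⟩ := hex.choose_spec
    obtain ⟨h3, h4⟩ := hex'.choose_spec
    set t := hex.choose
    set t' := hex'.choose
    obtain ⟨s, hs⟩ : ∃ s : ℂ × ℂ × ℂ, t' = mT φ s :=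
      ⟨(φ.symm t'.1, φ.symm t'.2.1, φ.symm t'.2.2), by simp [mT]⟩
    rw [hs] at h3 h4 ⊢
    have h3' : s ∈ N.T := (hN.tri _ _ _).1 h3
    have h4' : InTri z s.1 s.2.1 s.2.2 := (h.inTri _ _ _ _).1 h4
    obtain ⟨o, hTri⟩ := mem_delT_iff.1 (show (t.1, t.2.1, t.2.2) ∈ B0x346.delT S from hT ▸ h1)
    obtain ⟨o', hTri'⟩ := mem_delT_iff.1 (show (s.1, s.2.1, s.2.2) ∈ B0x346.delT S from hT ▸ h3')
    have hd := disj hS hTri hTri' h2 (InO.inT h4')
    have e1 : ∀ a b, N'.F (φ a) (φ b) = N.F a b := hN.F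
    simp only [mT, e1]
    simp only [rots, Set.mem_insert_iff, Set.mem_singleton_iff, Prod.mk.injEq] at hd
    rcases hd with ⟨a1, a2, a3⟩ | ⟨a1, a2, a3⟩ | ⟨a1, a2, a3⟩
    · rw [a1, a2, a3]
    · rw [a1, a2, a3]; ring
    · rw [a1, a2, a3]; ring
  · have hex' : ¬ ∃ t : ℂ × ℂ × ℂ, t ∈ N'.T ∧ InTri (φ z) t.1 t.2.1 t.2.2 := by
      rintro ⟨t', ht', hz'⟩
      obtain ⟨s, rfl⟩ : ∃ s : ℂ × ℂ × ℂ, t' = mT φ s :=
        ⟨(φ.symm t'.1, φ.symm t'.2.1, φ.symm t'.2.2), by simp [mT]⟩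
      exact hex ⟨s, (hN.tri _ _ _).1 ht', (h.inTri _ _ _ _).1 hz'⟩
    unfold B0Dx346.hval
    rw [dif_neg hex, dif_neg hex']

/-- the sites of the moved domain -/
theorem sites (h : Mo φ e) {ε : ℝ} {ω ω' : Sample} (hp : points ε ω' = φ '' points ε ω) :
    (D.mv φ e).sites ε ω' = (D.sites ε ω).map φ.toEmbedding := by
  have e1 : points ε ω' ∩ Metric.closedBall (D.mv φ e).c (D.mv φ e).L =
      φ '' (points ε ω ∩ Metric.closedBall D.c D.L) := by
    rw [hp, Set.image_inter φ.injective]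
    congr 1
    ext z
    obtain ⟨z, rfl⟩ := φ.surjective z
    rw [φ.injective.mem_set_image, Metric.mem_closedBall, Metric.mem_closedBall, dist_eq_norm,
      dist_eq_norm]
    show ‖φ z - φ D.c‖ ≤ D.L ↔ _
    rw [h.norm]
  unfold Dom.sites
  by_cases hf : (points ε ω ∩ Metric.closedBall D.c D.L).Finite
  · have hf' : (points ε ω' ∩ Metric.closedBall (D.mv φ e).c (D.mv φ e).L).Finite := by
      rw [e1]; exact hf.image _
    rw [dif_pos hf, dif_pos hf']
    apply Finset.coe_injective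
    rw [Set.Finite.coe_toFinset, coe_map, Set.Finite.coe_toFinset, e1]
  · have hf' : ¬ (points ε ω' ∩ Metric.closedBall (D.mv φ e).c (D.mv φ e).L).Finite := by
      rw [e1]
      intro h'
      exact hf (h'.of_finite_image φ.injective.injOn)
    rw [dif_neg hf, dif_neg hf', Finset.map_empty]

theorem netS_T' (hS : GP (S : Set ℂ)) : (D.netS S).T = B0x346.delT S := by
  rw [netS_eq' hS]; rfl

/-- **the observable of the moved domain and the moved sample at the moved point** -/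
theorem h (h : Mo φ e) {ε : ℝ} {ω ω' : Sample} (hp : points ε ω' = φ '' points ε ω)
    (hS : GP (D.sites ε ω : Set ℂ)) (hu : UMark D (D.sites ε ω)) (z : ℂ) :
    (D.mv φ e).h ε ω' (φ z) = D.h ε ω z := by
  unfold Dom.h
  rw [h.sites hp]
  exact h.hval hS (h.niso hS hu) (netS_T' hS) z

/-- good environments -/
theorem env (h : Mo φ e) {ε d M : ℝ} {c : ℂ} {L : ℝ} {ω ω' : Sample}
    (hp : points ε ω' = φ '' points ε ω) (H : Env ε d M c L ω) : Env ε d M (φ c) L ω' := by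
  have e1 : ∀ (c : ℂ) (r : ℝ), points ε ω' ∩ Metric.closedBall (φ c) r =
      φ '' (points ε ω ∩ Metric.closedBall c r) := by
    intro c r
    rw [hp, Set.image_inter φ.injective]
    congr 1
    ext z
    obtain ⟨z, rfl⟩ := φ.surjective z
    rw [φ.injective.mem_set_image, Metric.mem_closedBall, Metric.mem_closedBall, dist_eq_norm,
      dist_eq_norm, h.norm]
  have e2 : ∀ (c : ℂ) (r : ℝ), points ε ω' ∩ Metric.ball (φ c) r =
      φ '' (points ε ω ∩ Metric.ball c r) := by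
    intro c r
    rw [hp, Set.image_inter φ.injective]
    congr 1
    ext z
    obtain ⟨z, rfl⟩ := φ.surjective z
    rw [φ.injective.mem_set_image, Metric.mem_ball, Metric.mem_ball, dist_eq_norm,
      dist_eq_norm, h.norm]
  refine ⟨?_, ?_, ?_, ?_⟩
  · rw [e1]; exact H.fin.image _
  · rw [hp]; exact (h.gp _).2 H.gp
  · intro z hz
    obtain ⟨z, rfl⟩ := φ.surjective z
    rw [Metric.mem_closedBall, dist_eq_norm, h.norm, ← dist_eq_norm] at hz
    rw [e2]
    exact (H.hole z hz).image _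
  · intro z hz
    obtain ⟨z, rfl⟩ := φ.surjective z
    rw [Metric.mem_closedBall, dist_eq_norm, h.norm, ← dist_eq_norm] at hz
    rw [e1, Set.ncard_image_of_injective _ φ.injective]
    exact H.cnt z hz

end Mo

end Crest.Agent.R143.CovBx126
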