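import Crest.Agent.R143.WLoc10_713
import Crest.Agent.R143.CovB_126

/-!
# Row 143 (S0194), CORE-C block V, box R3 (helper713): covariance under rigid motions

`φ` is a rigid motion `z ↦ c z + b`, `‖c‖ = 1` (126's `Mo φ c`); `mvX φ X` the moved configuration
(978's `mv`, 176's `im`).

* `piso_mv` : `φ` is an isomorphism of `X` onto `mvX φ X`
* `GPar.mv` : the moved gate; `NG_mv`, `LG_mv`
* `zC_mv` : `zC f' W' St' En' (mvX φ X) = zC (f' ∘ φ) W St En X`; `zC_mul`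
* `zC_gate_mv` : for neck gates and a field with `f' (φ t) = k * f t`
* `TC_mv`, `TC_gate_mv` : tile events
* `Nn_mv` : `Nn (φ t) = conj c * Nn t`
-/

set_option autoImplicit false
set_option linter.all false

noncomputable section

open scoped Classical

namespace Crest.Agent.R143.WLocx713

open Set MeasureTheory
open Crest.Agent.R143.B0x346 Crest.Agent.R143.DelGx806 Crest.Agent.R143.DelRx806
  Crest.Agent.R143.JColx54
open Crest.Agent.R143.Frame1x395 Crest.Agent.R143.Frame3x395 Crest.Agent.R143.Frame8x395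
  Crest.Agent.R143.Frame10x395 Crest.Agent.R143.Locx922
open Crest.Agent.R143.Frame5x395 (sd mem_sd th th_spec)
open Crest.Agent.R143.Blkx838 (DE)
open Crest.Agent.R143.ToolWx838 (prs)
open Crest.Agent.R143.Neckx921 (Neck NeckD Tile Lk)
open Crest.Agent.R143.PP0x831 Crest.Agent.R143.Poisx304 Crest.Agent.R143.Janx304
open Crest.Agent.R143.Prodx609 Crest.Agent.R143.FinMx609 Crest.Agent.R143.FinM2x609
open Crest.Agent.R143.CovBx126 (Mo)

/-- the moved configuration -/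
abbrev mvX (φ : ℂ → ℂ) (X : Set (ℂ × Bool)) : Set (ℂ × Bool) :=
  (fun p : ℂ × Bool => (φ p.1, p.2)) '' X

/-- no location -/
def U0 : Empty → Set ℂ := fun k => Empty.elim k

section basic

variable {φ : ℂ ≃ ℂ} {c : ℂ} {X : Set (ℂ × Bool)}

theorem ps_mvX {φ : ℂ → ℂ} : ps (mvX φ X) = φ '' ps X := by
  ext v
  simp only [ps, mem_image]
  constructor
  · rintro ⟨_, ⟨p, hp, rfl⟩, rfl⟩
    exact ⟨p.1, ⟨p, hp, rfl⟩, rfl⟩
  · rintro ⟨_, ⟨p, hp, rfl⟩, rfl⟩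
    exact ⟨(φ p.1, p.2), ⟨p, hp, rfl⟩, rfl⟩

theorem mem_mvX {x : ℂ} {b : Bool} : (φ x, b) ∈ mvX φ X ↔ (x, b) ∈ X := by
  constructor
  · rintro ⟨p, hp, h⟩
    have h1 : p.1 = x := φ.injective (congrArg Prod.fst h)
    have h2 : p.2 = b := congrArg Prod.snd h
    rw [← h1, ← h2]
    exact hp
  · intro h
    exact ⟨(x, b), h, rfl⟩

theorem mvX_inter {Q Q' : Set ℂ} (hQ : ∀ s, φ s ∈ Q' ↔ s ∈ Q) :
    mvX φ X ∩ ovr Q' = mvX φ (X ∩ ovr Q) := by
  ext ⟨v, b⟩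
  obtain ⟨x, rfl⟩ := φ.surjective v
  rw [mem_inter_iff, mem_mvX, mem_mvX, mem_inter_iff]
  exact and_congr_right fun _ => hQ x

theorem mvX_symm : mvX φ.symm (mvX φ X) = X := by
  ext ⟨v, b⟩
  have h : v = φ.symm (φ v) := (φ.symm_apply_apply v).symm
  rw [h, mem_mvX, mem_mvX, ← h]

theorem mo_symm (h : Mo φ c) : Mo φ.symm c⁻¹ := by
  have hc : c ≠ 0 := by
    intro h0
    have := h.ne
    rw [h0, norm_zero] at this
    exact zero_ne_one this
  refine ⟨by rw [norm_inv, h.ne, inv_one], fun z w => ?_⟩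
  have h1 := h.sub (φ.symm z) (φ.symm w)
  rw [φ.apply_symm_apply, φ.apply_symm_apply] at h1
  rw [h1, ← mul_assoc, inv_mul_cancel₀ hc, one_mul]

/-- **a rigid motion is an isomorphism of configurations** -/
theorem piso_mv (h : Mo φ c) : PIso U0 R0 X (mvX φ X) φ := by
  refine ⟨⟨?_, φ.injective.injOn, ?_⟩, ?_, ?_, ?_, ?_, ?_⟩
  · intro x hx
    rw [ps_mvX]
    exact ⟨x, hx, rfl⟩
  · intro y hy
    rw [ps_mvX] at hy
    exact hy
  · intro x _ b
    exact mem_mvX.symm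
  · intro x _ a
    exact Empty.elim a
  · intro x _ y _ w _
    rw [ps_mvX]
    exact (h.del _ _ _ _).symm
  · intro x _ y _ w _ a
    exact Empty.elim a
  · intro x _ y _ w _ a
    exact Empty.elim a

end basic

/-! ### transport with two regions -/

section two

variable {ι κ : Type*} [Finite ι] [Finite κ] {U : ι → Set ℂ} {R : κ → ℂ × ℂ × ℂ → Prop}
  {X X' : Set (ℂ × Bool)} {e : ℂ → ℂ} {W W' : Set ℂ}

theorem iso_inw2 (hX : X.Finite) (hX' : X'.Finite) (he : PIso U R X X' e) (h : U3 (sX X))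
    (hW : ∀ s ∈ ps X, s ∈ W → e s ∈ W') {p : ℂ × ℂ} (hp : InW (sX X) W p) :
    InW (sX X') W' (mp e p) := by
  obtain ⟨h1, h2⟩ := sd_ps hX hp.1
  exact ⟨(iso_th hX hX' he h hp.1).1, hW _ h1 hp.2.1, hW _ h2 hp.2.2⟩

theorem iso_arrB2 (hX : X.Finite) (hX' : X'.Finite) (he : PIso U R X X' e) (h : U3 (sX X))
    (hW : ∀ s ∈ ps X, s ∈ W → e s ∈ W') {p q : ℂ × ℂ} (h1 : p.1 ∈ ps X) (h2 : p.2 ∈ ps X)
    {m : ℕ} (hm : ArrB (sX X) (cX X) W p q m) :
    ArrB (sX X') (cX X') W' (mp e p) (mp e q) m := by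
  have h3 := iso_it hX hX' he h h1 h2 (n := m) (fun i hi => (hm.2.2 i hi.le).1)
  refine ⟨?_, fun i hi => ?_, fun i hi => ?_⟩
  · rw [(h3 m le_rfl).1, hm.1]
  · rw [(h3 i hi.le).1]
    intro hc
    obtain ⟨h4, h5⟩ := (h3 i hi.le).2
    have h6 := (h3 m le_rfl).2
    rw [hm.1] at h6
    exact hm.2.1 i hi (Prod.ext (he.bij.injOn h4 h6.1 (congrArg Prod.fst hc))
      (he.bij.injOn h5 h6.2 (congrArg Prod.snd hc)))
  · rw [(h3 i hi).1]
    exact iso_inw2 hX hX' he h hW (hm.2.2 i hi)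

theorem iso_fap2 (hX : X.Finite) (hX' : X'.Finite) (he : PIso U R X X' e) (h : U3 (sX X))
    (hW : ∀ s ∈ ps X, s ∈ W → e s ∈ W') {p q : ℂ × ℂ} (h1 : p.1 ∈ ps X) (h2 : p.2 ∈ ps X)
    (hf : FAp (sX X) (cX X) W p q) : FAp (sX X') (cX X') W' (mp e p) (mp e q) := by
  obtain ⟨m, hm⟩ := fap_iff.1 hf
  exact fap_iff.2 ⟨m, iso_arrB2 hX hX' he h hW h1 h2 hm⟩

theorem iso_fap2_iff (hX : X.Finite) (hX' : X'.Finite) (he : PIso U R X X' e) (h : U3 (sX X))
    (hW : ∀ s ∈ ps X, (s ∈ W ↔ e s ∈ W')) {p q : ℂ × ℂ} (h1 : p.1 ∈ ps X) (h2 : p.2 ∈ ps X)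
    (h3 : q.1 ∈ ps X) (h4 : q.2 ∈ ps X) :
    FAp (sX X) (cX X) W p q ↔ FAp (sX X') (cX X') W' (mp e p) (mp e q) := by
  refine ⟨iso_fap2 hX hX' he h (fun s hs => (hW s hs).1) h1 h2, fun hf => ?_⟩
  obtain ⟨m1, m2⟩ := mp_mem he h1 h2
  have h5 := iso_fap2 (W' := W) hX' hX he.symm (iso_u3 hX hX' he h) (fun s hs hs' => by
    have h6 := Function.invFunOn_mem (he.bij.surjOn hs)
    have h7 : e (Function.invFunOn e (ps X) s) = s := Function.invFunOn_eq (he.bij.surjOn hs)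
    exact (hW _ h6).2 (by rw [h7]; exact hs')) m1 m2 hf
  rwa [inv_mp he h1 h2, inv_mp he h3 h4] at h5

theorem iso_cb2 (hX : X.Finite) (hX' : X'.Finite) (he : PIso U R X X' e) (h : U3 (sX X))
    (hW : ∀ s ∈ ps X, s ∈ W → e s ∈ W') {p q : ℂ × ℂ} (h1 : p.1 ∈ ps X) (h2 : p.2 ∈ ps X)
    {t : ℂ × ℂ × ℂ} (ht : CB (sX X) (cX X) W p q t) :
    CB (sX X') (cX X') W' (mp e p) (mp e q) (e t.1, e t.2.1, e t.2.2) := by
  obtain ⟨n, hn, i, hi, e1, e2, e3, e4⟩ := ht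
  have hsd : ∀ i < n, (nx (sX X) (cX X))^[i] p ∈ sd (sX X) := fun i hi => (hn.2.2 i hi.le).1
  have h3 := iso_it hX hX' he h h1 h2 hsd
  have h4 : (t.1, t.2.1) ∈ sd (sX X) := e1 ▸ hsd i hi
  obtain ⟨-, h5, -⟩ := iso_th hX hX' he h h4
  refine ⟨n, iso_arrB2 hX hX' he h hW h1 h2 hn, i, hi, ?_, ?_, ?_,
    iso_np hX hX' he h h1 h2 hsd hi e4⟩
  · rw [(h3 i hi.le).1, e1]
    rfl
  · show e t.2.2 = th (sX X') (mp e (t.1, t.2.1))
    rw [h5, e2]
  · exact (iso_lg hX hX' he h h4).2 e3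

theorem iso_cz2 (hX : X.Finite) (hX' : X'.Finite) (he : PIso U R X X' e) (h : U3 (sX X))
    (hW : ∀ s ∈ ps X, (s ∈ W ↔ e s ∈ W')) {p q : ℂ × ℂ} (h1 : p.1 ∈ ps X) (h2 : p.2 ∈ ps X)
    (h3 : q.1 ∈ ps X) (h4 : q.2 ∈ ps X) {t : ℂ × ℂ × ℂ} (ht : CZ (sX X) (cX X) W p q t) :
    CZ (sX X') (cX X') W' (mp e p) (mp e q) (e t.1, e t.2.1, e t.2.2) := by
  rcases ht with ht | ⟨h5, ht⟩
  · exact Or.inl (iso_cb2 hX hX' he h (fun s hs => (hW s hs).1) h1 h2 ht)
  · exact Or.inr ⟨fun hf => h5 ((iso_fap2_iff hX hX' he h hW h1 h2 h3 h4).2 hf),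
      iso_cb2 hX hX' he h (fun s hs => (hW s hs).1) h3 h4 ht⟩

end two

/-! ### the charge -/

/-- a dart property whose darts are pairs of sites -/
def OnPs (St : Set (ℂ × Bool) → ℂ × ℂ → Prop) : Prop := ∀ X p, St X p → p.1 ∈ ps X ∧ p.2 ∈ ps X

section mv

variable {φ : ℂ ≃ ℂ} {c : ℂ} {X : Set (ℂ × Bool)} {W W' : Set ℂ}
  {St En St' En' : Set (ℂ × Bool) → ℂ × ℂ → Prop}

theorem pC_mv (h : Mo φ c) (hW : ∀ s, φ s ∈ W' ↔ s ∈ W) (hSt : OnPs St) (hEn : OnPs En)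
    (h1 : ∀ p, St X p → St' (mvX φ X) (mp φ p)) (h2 : ∀ p, En X p → En' (mvX φ X) (mp φ p))
    {t : ℂ × ℂ × ℂ} (ht : pC W St En X t) :
    pC W' St' En' (mvX φ X) (φ t.1, φ t.2.1, φ t.2.2) := by
  obtain ⟨hX, h3, p, q, hp, hq, ht⟩ := ht
  have hX' : (mvX φ X).Finite := hX.image _
  exact ⟨hX', iso_u3 hX hX' (piso_mv h) h3, mp φ p, mp φ q, h1 p hp, h2 q hq,
    iso_cz2 hX hX' (piso_mv h) h3 (fun s _ => (hW s).symm) (hSt X p hp).1 (hSt X p hp).2
      (hEn X q hq).1 (hEn X q hq).2 ht⟩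

theorem mp_symm (p : ℂ × ℂ) : mp φ.symm (mp φ p) = p :=
  Prod.ext (φ.symm_apply_apply _) (φ.symm_apply_apply _)

theorem mp_symm' (p : ℂ × ℂ) : mp φ (mp φ.symm p) = p :=
  Prod.ext (φ.apply_symm_apply _) (φ.apply_symm_apply _)

theorem pC_mv_iff (h : Mo φ c) (hW : ∀ s, φ s ∈ W' ↔ s ∈ W) (hSt : OnPs St) (hEn : OnPs En)
    (hSt' : OnPs St') (hEn' : OnPs En')
    (h1 : ∀ p, St' (mvX φ X) (mp φ p) ↔ St X p) (h2 : ∀ p, En' (mvX φ X) (mp φ p) ↔ En X p)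
    (t : ℂ × ℂ × ℂ) :
    pC W' St' En' (mvX φ X) (φ t.1, φ t.2.1, φ t.2.2) ↔ pC W St En X t := by
  refine ⟨fun ht => ?_, pC_mv h hW hSt hEn (fun p => (h1 p).2) fun p => (h2 p).2⟩
  have h3 := pC_mv (X := mvX φ X) (St := St') (En := En') (St' := St) (En' := En) (W := W')
    (W' := W) (mo_symm h) (fun s => by
      rw [← hW, φ.apply_symm_apply]) hSt' hEn' (fun p hp => by
      rw [mvX_symm]
      rw [← h1, mp_symm']
      exact hp) (fun p hp => by
      rw [mvX_symm]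
      rw [← h2, mp_symm']
      exact hp) ht
  rw [mvX_symm] at h3
  simp only [φ.symm_apply_apply] at h3
  exact h3

/-- **covariance of the charge** -/
theorem zC_mv (h : Mo φ c) (hW : ∀ s, φ s ∈ W' ↔ s ∈ W) (hSt : OnPs St) (hEn : OnPs En)
    (hSt' : OnPs St') (hEn' : OnPs En')
    (h1 : ∀ p, St' (mvX φ X) (mp φ p) ↔ St X p) (h2 : ∀ p, En' (mvX φ X) (mp φ p) ↔ En X p)
    (f : ℂ × ℂ × ℂ → ℂ) :
    zC f W' St' En' (mvX φ X) = zC (fun t => f (φ t.1, φ t.2.1, φ t.2.2)) W St En X := by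
  unfold zC
  rw [← finsum_comp_equiv (φ.prodCongr (φ.prodCongr φ))]
  refine finsum_congr fun t => finsum_congr_Prop ?_ fun _ => rfl
  exact propext (pC_mv_iff h hW hSt hEn hSt' hEn' h1 h2 t)

/-- the charge as a finite sum -/
theorem zC_sum (f : ℂ × ℂ × ℂ → ℂ) :
    zC f W St En X = ∑ t ∈ delT (sX X), if pC W St En X t then f t else 0 := by
  unfold zC
  rw [← Finset.sum_filter, ← finsum_mem_coe_finset]
  refine finsum_congr fun t => finsum_congr_Prop ?_ fun _ => rfl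
  rw [Finset.mem_coe, Finset.mem_filter]
  apply propext
  constructor
  · intro h
    obtain ⟨-, -, p, q, -, -, h'⟩ := id h
    exact ⟨h'.mem, h⟩
  · exact fun h => h.2

theorem zC_mul (k : ℂ) (f : ℂ × ℂ × ℂ → ℂ) :
    zC (fun t => k * f t) W St En X = k * zC f W St En X := by
  rw [zC_sum, zC_sum, Finset.mul_sum]
  refine Finset.sum_congr rfl fun t _ => ?_
  split_ifs <;> simp



end mv

/-! ### moved gates -/

/-- the moved gate -/
def GPar.mv (g : GPar) (φ : ℂ → ℂ) (c : ℂ) : GPar :=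
  { z0 := φ g.z0, e := c * g.e, a0 := g.a0, a1 := g.a1, b0 := g.b0, b1 := g.b1, m := g.m }

section gates

variable {φ : ℂ ≃ ℂ} {c : ℂ} {X : Set (ℂ × Bool)}

theorem mo_ne (h : Mo φ c) : c ≠ 0 := by
  intro h0
  have := h.ne
  rw [h0, norm_zero] at this
  exact zero_ne_one this

theorem nrm_mv (h : Mo φ c) (g : GPar) (s : ℂ) : nrm (g.mv φ c) (φ s) = nrm g s := by
  show (φ s - φ g.z0) / (c * g.e) = (s - g.z0) / g.e
  rw [h.sub, mul_div_mul_left _ _ (mo_ne h)]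

theorem X_mv (h : Mo φ c) (z0 e s : ℂ) : Gatex838.X (φ z0) (c * e) (φ s) = Gatex838.X z0 e s := by
  unfold Gatex838.X
  rw [h.sub, mul_div_mul_left _ _ (mo_ne h)]

theorem Y_mv (h : Mo φ c) (z0 e s : ℂ) : Gatex838.Y (φ z0) (c * e) (φ s) = Gatex838.Y z0 e s := by
  unfold Gatex838.Y
  rw [h.sub, mul_div_mul_left _ _ (mo_ne h)]

theorem U_mv (h : Mo φ c) (g : GPar) (i : Fin 5) (s : ℂ) :
    φ s ∈ (g.mv φ c).U i ↔ s ∈ g.U i := by
  have hX := X_mv h g.z0 g.e s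
  have hY := Y_mv h g.z0 g.e s
  fin_cases i
  · show (g.a0 < Gatex838.X (φ g.z0) (c * g.e) (φ s) ∧ Gatex838.X (φ g.z0) (c * g.e) (φ s) < g.a1) ∧
      g.b0 - g.m ≤ Gatex838.Y (φ g.z0) (c * g.e) (φ s) ∧
        Gatex838.Y (φ g.z0) (c * g.e) (φ s) ≤ g.b1 + g.m ↔
      (g.a0 < Gatex838.X g.z0 g.e s ∧ Gatex838.X g.z0 g.e s < g.a1) ∧
      g.b0 - g.m ≤ Gatex838.Y g.z0 g.e s ∧ Gatex838.Y g.z0 g.e s ≤ g.b1 + g.m
    rw [hX, hY]
  · show g.b0 < Gatex838.Y (φ g.z0) (c * g.e) (φ s) ↔ _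
    rw [hY]; rfl
  · show Gatex838.Y (φ g.z0) (c * g.e) (φ s) < g.b1 ↔ _
    rw [hY]; rfl
  · show g.b1 ≤ Gatex838.Y (φ g.z0) (c * g.e) (φ s) ↔ _
    rw [hY]; rfl
  · show Gatex838.Y (φ g.z0) (c * g.e) (φ s) ≤ g.b0 ↔ _
    rw [hY]; rfl


theorem mv_symm (h : Mo φ c) (g : GPar) : (g.mv φ c).mv φ.symm c⁻¹ = g := by
  unfold GPar.mv
  simp only [φ.symm_apply_apply]
  rw [← mul_assoc, inv_mul_cancel₀ (mo_ne h), one_mul]

/-- transport of the gate predicate with moved sets -/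
theorem neck_tr {ι κ : Type*} [Finite ι] [Finite κ] {U : ι → Set ℂ}
    {R : κ → ℂ × ℂ × ℂ → Prop} {X X' : Set (ℂ × Bool)} {f : ℂ → ℂ} {g g' : GPar}
    (hX : X.Finite) (hX' : X'.Finite) (he : PIso U R X X' f)
    (loc0 : ∀ i, ∀ s ∈ ps X, s ∈ g.U i ↔ f s ∈ g'.U i) {p : ℂ × ℂ} (h : NG g X p) :
    NG g' X' (mp f p) := by
  have hps : ∀ s, ∀ up dn : List ℂ, ∀ y : ℂ,
      Neck (sX X) g.z0 g.e g.a0 g.a1 g.b0 g.b1 g.m (sX X) (bX X) up y dn →
      s ∈ up ++ y :: dn → s ∈ ps X := by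
    intro s up dn y h hs
    have key : ∀ l : List ℂ, (∀ p ∈ prs l, DE (sX X) p.1 p.2) → 2 ≤ l.length →
        ∀ s ∈ l, s ∈ ps X := by
      intro l
      induction l with
      | nil => intro _ _ s hs; simp at hs
      | cons a l ih =>
        cases l with
        | nil => intro _ h2; simp at h2
        | cons b l =>
          intro hl _ s hs
          have hab := hl (a, b) (by rw [prs]; simp)
          rcases List.mem_cons.1 hs with rfl | hs
          · exact (de_ps hX hab).1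
          · cases l with
            | nil =>
              rw [List.mem_singleton] at hs
              rw [hs]
              exact (de_ps hX hab).2
            | cons c l =>
              exact ih (fun p hp => hl p (by rw [prs]; exact List.mem_cons_of_mem _ hp))
                (by simp) s hs
    refine key _ h.adj ?_ s hs
    have h1 := List.length_pos_of_ne_nil h.nu
    rw [List.length_append, List.length_cons]
    omega
  obtain ⟨y, x⟩ := p
  obtain ⟨-, up, dn, h, hx⟩ := h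
  change Neck (sX X) g.z0 g.e g.a0 g.a1 g.b0 g.b1 g.m (sX X) (bX X) up y dn at h
  change up.getLast h.nu = x at hx
  have h1 : ∀ s ∈ up ++ y :: dn, s ∈ ps X := fun s hs => hps s up dn y h hs
  have loc : ∀ i, ∀ s ∈ up ++ y :: dn, s ∈ g.U i ↔ f s ∈ g'.U i :=
    fun i s hs => loc0 i s (h1 s hs)
  show NG g' X' (f y, f x)
  have hmap : up.map f ++ f y :: dn.map f = (up ++ y :: dn).map f := by simp
  have my : y ∈ up ++ y :: dn := by simp
  have mu : ∀ s ∈ up, s ∈ up ++ y :: dn := fun s hs => List.mem_append_left _ hs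
  have md : ∀ s ∈ dn, s ∈ up ++ y :: dn := fun s hs =>
    List.mem_append_right _ (List.mem_cons_of_mem _ hs)
  have hN : Neck (sX X') g'.z0 g'.e g'.a0 g'.a1 g'.b0 g'.b1 g'.m (sX X') (bX X') (up.map f) (f y)
      (dn.map f) := by
    constructor
    case nu => simpa using h.nu
    case nd => simpa using h.nd
    case adj =>
      rw [hmap]
      exact iso_adj hX hX' he h.adj
    case cu =>
      intro s' hs'
      obtain ⟨s, hs, rfl⟩ := List.mem_map.1 hs'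
      have h2 := h1 s (mu s hs)
      rw [← iso_sX hX hX' he h2, ← iso_bX hX hX' he h2]
      exact h.cu s hs
    case cd =>
      intro s' hs' hs2
      obtain ⟨s, hs, rfl⟩ := List.mem_map.1 hs'
      have h2 := h1 s (md s hs)
      rw [← iso_sX hX hX' he h2, ← iso_bX hX hX' he h2]
      exact h.cd s hs ((loc 1 s (md s hs)).2 hs2)
    case cy =>
      have h2 := h1 y my
      rw [← iso_sX hX hX' he h2, ← iso_bX hX hX' he h2]
      exact h.cy
    case win =>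
      intro s' hs'
      rw [hmap] at hs'
      obtain ⟨s, hs, rfl⟩ := List.mem_map.1 hs'
      exact (loc 0 s hs).1 (h.win s hs)
    case yb => exact ⟨(loc 1 y my).1 h.yb.1, (loc 2 y my).1 h.yb.2⟩
    case top =>
      rw [List.head_map]
      exact (loc 3 _ (mu _ (List.head_mem _))).1 h.top
    case bot =>
      rw [List.getLast_map]
      exact (loc 4 _ (md _ (List.getLast_mem _))).1 h.bot
    all_goals
      intro s' hs'
      obtain ⟨s, hs, rfl⟩ := List.mem_map.1 hs'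
      exact (loc 1 s (mu s hs)).1 (h.upb s hs)
  refine ⟨hX', up.map f, dn.map f, hN, ?_⟩
  show (up.map f).getLast _ = f x
  rw [List.getLast_map, hx]

/-- **covariance of the gate predicate** -/
theorem NG_mv (h : Mo φ c) (g : GPar) (p : ℂ × ℂ) :
    NG (g.mv φ c) (mvX φ X) (mp φ p) ↔ NG g X p := by
  constructor
  · intro hp
    have hX' : (mvX φ X).Finite := hp.1
    have hX : X.Finite := by
      have := hX'.image fun p : ℂ × Bool => (φ.symm p.1, p.2)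
      rwa [show (fun p : ℂ × Bool => (φ.symm p.1, p.2)) '' mvX φ X = X from mvX_symm] at this
    have h1 := neck_tr (X := mvX φ X) (X' := mvX φ.symm (mvX φ X)) (g := g.mv φ c)
      (g' := (g.mv φ c).mv φ.symm c⁻¹) hX' (hX'.image _) (piso_mv (mo_symm h))
      (fun i s _ => (U_mv (mo_symm h) (g.mv φ c) i s).symm) hp
    rw [mv_symm h, mvX_symm, mp_symm] at h1
    exact h1
  · intro hp
    exact neck_tr hp.1 (hp.1.image _) (piso_mv h) (fun i s _ => (U_mv h g i s).symm) hp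

theorem NG_onPs (g : GPar) {X : Set (ℂ × Bool)} {p : ℂ × ℂ} (h : NG g X p) :
    p.1 ∈ ps X ∧ p.2 ∈ ps X := by
  have h2 : GInv g.U R0 (NG g) := neck_ginv fun i => ⟨i, rfl⟩
  exact h2.mem X p h

theorem LG_onPs (g : GPar) (Q : Set ℂ) : OnPs (LG g Q) := by
  intro X p hp
  have h := NG_onPs g hp.1
  rw [ps_inter] at h
  exact ⟨h.1.1, h.2.1⟩

/-- **covariance of the selected gate dart** -/
theorem LG_mv (h : Mo φ c) (g : GPar) {Q Q' : Set ℂ} (hQ : ∀ s, φ s ∈ Q' ↔ s ∈ Q) (p : ℂ × ℂ) :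
    LG (g.mv φ c) Q' (mvX φ X) (mp φ p) ↔ LG g Q X p := by
  have key : ∀ q, dlt (mp (nrm (g.mv φ c)) (mp φ p)) (mp (nrm (g.mv φ c)) (mp φ q)) ↔
      dlt (mp (nrm g) p) (mp (nrm g) q) := by
    intro q
    have e : ∀ r, mp (nrm (g.mv φ c)) (mp φ r) = mp (nrm g) r := fun r =>
      Prod.ext (nrm_mv h g _) (nrm_mv h g _)
    rw [e, e]
  unfold LG
  rw [mvX_inter hQ, NG_mv h]
  refine and_congr_right fun _ => ?_
  constructor
  · intro h1 q hq
    rcases h1 (mp φ q) ((NG_mv h g q).2 hq) with h2 | h2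
    · left
      exact mp_inj φ.injective h2
    · exact Or.inr ((key q).1 h2)
  · intro h1 q hq
    have e : q = mp φ (mp φ.symm q) := (mp_symm' q).symm
    rw [e] at hq ⊢
    rcases h1 _ ((NG_mv h g _).1 hq) with h2 | h2
    · exact Or.inl (by rw [h2])
    · exact Or.inr ((key _).2 h2)

/-- **covariance of the charge between two neck gates** -/
theorem zC_gate_mv (h : Mo φ c) (g g' : GPar) {W W' Q Q' Q1 Q1' : Set ℂ}
    (hW : ∀ s, φ s ∈ W' ↔ s ∈ W) (hQ : ∀ s, φ s ∈ Q' ↔ s ∈ Q) (hQ1 : ∀ s, φ s ∈ Q1' ↔ s ∈ Q1)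
    {f f' : ℂ × ℂ × ℂ → ℂ} {k : ℂ} (hf : ∀ t, f' (φ t.1, φ t.2.1, φ t.2.2) = k * f t) :
    zC f' W' (LG (g.mv φ c) Q') (LG (g'.mv φ c) Q1') (mvX φ X) =
      k * zC f W (LG g Q) (LG g' Q1) X := by
  rw [zC_mv h hW (LG_onPs g Q) (LG_onPs g' Q1) (LG_onPs _ _) (LG_onPs _ _)
    (fun p => LG_mv h g hQ p) (fun p => LG_mv h g' hQ1 p), ← zC_mul]
  congr 1
  funext t
  exact hf t

/-! ### tile events -/




/-! ### the field of 302 -/


end gates

end Crest.Agent.R143.WLocx713
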