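import Crest.Agent.R143.PathG_503
import Crest.Agent.R143.CorrD_117
import Crest.Agent.R143.WLoc11_713
import Crest.Agent.R143.RingP_503
import Crest.Agent.R143.TileR2_228

-- ▼ part R143/DCorG_713
section

/-!
# Row 143 (S0194): from selected gate darts and tile events to corridors and rings (helper713)

* `Gts.corr` : open corridor `DCorr` of 117 from 503's `GPath` and `Gts` (mirror of `Gts.ring`)
* `dg g Q X` : the selected gate dart of `X` (`LG g Q X (dg g Q X)` if there is a neck)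
* `UG P k` : the gate `k` is an end of a tile in use
* `gts_of` : `LG` and `TC` give `Gts (sX X) (sX X) (bX X)`
* `val_zC` : 117's `ZZ` between consecutive gates is `zC`
* `corr_of`, `ring_of` : `DCorr` / `DRing` and the values, directly from `TC`
-/

set_option autoImplicit false
set_option linter.all false

noncomputable section

open scoped Classical

namespace Crest.Agent.R143.DCorGx713

open Set
open Crest.Agent.R143.B0x346 Crest.Agent.R143.DelGx806 Crest.Agent.R143.DelRx806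
  Crest.Agent.R143.JColx54
open Crest.Agent.R143.Frame1x395 Crest.Agent.R143.Frame2x395 Crest.Agent.R143.Frame3x395
  Crest.Agent.R143.Frame4x395 Crest.Agent.R143.Frame8x395 Crest.Agent.R143.Frame9x395
  Crest.Agent.R143.Frame10x395 Crest.Agent.R143.Frame11x395
open Crest.Agent.R143.Frame5x395 (sd mem_sd th th_spec)
open Crest.Agent.R143.Locx922
open Crest.Agent.R143.Splx117 Crest.Agent.R143.WLocx713
open Crest.Agent.R143.Blkx838 (DE)
open Crest.Agent.R143.Neckx921 (Neck NeckD Tile Lk)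
open Crest.Agent.R143.PP0x831 Crest.Agent.R143.FinMx609
open Crest.Agent.R143.RingDx117 (RD DRing StC StR)
open Crest.Agent.R143.CorrDx117 (DCorr)
open Crest.Agent.R143.PathDx503

/-! ### open corridors -/

section corr

variable {S V β : Finset ℂ} {χ : ℂ → ZMod 2} {z0 e : ℕ → ℂ} {R B : ℕ → Set ℂ}
  {a0 a1 b0 b1 m m' : ℝ} {y x : ℕ → ℂ} {b : ZMod 2}

/-- the gates of the tiles `k < n` -/
theorem gts_le {n : ℕ} (n1 : 1 ≤ n)
    (h : Gts S V β (fun k => k < n) z0 e R a0 a1 b0 b1 m y x) {k : ℕ} (hk : k ≤ n) :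
    NeckD S (z0 k) (e k) a0 a1 b0 b1 m V β (y k) (x k) := by
  rcases Nat.lt_or_ge k n with h1 | h1
  · exact h.gate k (Or.inl h1)
  · exact h.gate k (Or.inr ⟨n - 1, by omega, by omega⟩)

/-- **the open corridor** -/
theorem Gts.corr {hS : GP (S : Set ℂ)} {hχ : HullC S χ} {n : ℕ} (n1 : 1 ≤ n)
    (hβ : ∀ s ∈ V, χ s = b ↔ s ∈ β) (hβV : β ⊆ V)
    (G : GPath S (fun k => k < n) z0 e R a0 a1 b0 b1 m')
    (h : Gts S V β (fun k => k < n) z0 e R a0 a1 b0 b1 m y x)
    (innB : ∀ k, k < n → ∀ v ∈ S, v ∈ B k → ¬ OnHull S v)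
    (dis : ∀ k j, k + 2 ≤ j → j < n → Disjoint (R k) (R j))
    (far : ∀ k j, k < n → j ≤ n → j ≠ k → j ≠ k + 1 →
      Disjoint (Win (z0 j) (e j) a0 a1 b0 b1) (B k))
    (conf : ∀ k, k < n → ∀ p q : D0 S, p.1 = (y k, x k) → q.1 = (y (k + 1), x (k + 1)) →
      FA (cm0 hS) (xc hS hχ) (RD S (B k)) p q ∨ FA (cm0 hS) (xc hS hχ) (RD S (B k)) q p)
    {p : ℕ → D0 S} (hp : ∀ k, k ≤ n → (p k).1 = (y k, x k)) :
    DCorr hS hχ n y x R B p where
  n1 := n1
  st := hp
  col := fun k hk => (neck_col hβ (gts_le n1 h hk)).2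
  innA := fun k hk => G.inn k hk
  innB := innB
  link := fun k hk => h.stc hβ hβV hk
  mem0 := fun k hk => (h.link k hk).1.1.2
  mem1 := fun k hk => (h.link k hk).1.2.2
  ne := fun k hk => h.ne G hk
  dis := dis
  far := fun k j h1 h2 h3 h4 h5 =>
    Set.disjoint_left.1 (far k j h1 h2 h3 h4) (neck_win (gts_le n1 h h2)) h5
  cross := fun k hk => h.crs hS hβ G (by omega) hk
  conf := fun k hk => conf k hk _ _ (hp k (by omega)) (hp (k + 1) (by omega))

end corr

/-! ### selected gate darts -/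

/-- the selected gate dart -/
def dg (g : GPar) (Q : Set ℂ) (X : Set (ℂ × Bool)) : ℂ × ℂ :=
  if h : ∃ p, LG g Q X p then h.choose else 0

theorem dg_spec {g : GPar} {Q : Set ℂ} {X : Set (ℂ × Bool)} (h : ∃ p, LG g Q X p) :
    LG g Q X (dg g Q X) := by
  unfold dg
  rw [dif_pos h]
  exact h.choose_spec

theorem dg_eq {g : GPar} {Q : Set ℂ} {X : Set (ℂ × Bool)} {p : ℂ × ℂ} (h : LG g Q X p) :
    dg g Q X = p := h.uniq (dg_spec ⟨p, h⟩)


section

variable {X : Set (ℂ × Bool)} {P : ℕ → Prop} {g : ℕ → GPar} {Q R B : ℕ → Set ℂ} {d : ℝ}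


/-- the tile between the selected darts -/
theorem tile_of {A Q Q' : Set ℂ} {g g' : GPar} (h : TC A (LG g Q) (LG g' Q') X) :
    Tile (sX X) (sX X) (bX X) A (dg g Q X).1 (dg g Q X).2 (dg g' Q' X).1 (dg g' Q' X).2 := by
  obtain ⟨-, p, q, hp, hq, h⟩ := h
  rw [dg_eq hp, dg_eq hq]
  exact h

variable {z0 e : ℕ → ℂ} {a0 a1 b0 b1 m m' : ℝ}




theorem bX_iff : ∀ s ∈ sX X, cX X s = 1 ↔ s ∈ bX X := by
  intro s hs
  unfold bX
  rw [Finset.mem_filter]
  exact ⟨fun h => ⟨hs, h⟩, fun h => h.2⟩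

theorem bX_sub : bX X ⊆ sX X := Finset.filter_subset _ _

/-- **the value of 117's `ZZ` between two selected darts** -/
theorem val_zC (hX : X.Finite) (hS : GP (sX X : Set ℂ)) (hχ : HullC (sX X) (cX X)) {g g' : GPar}
    {Q Q' W : Set ℂ} {p q : D0 (sX X)} (hp : LG g Q X p.1) (hq : LG g' Q' X q.1)
    (op : xc hS hχ p = 1) (oq : xc hS hχ q = 1)
    (hW : ∀ v ∈ sX X, v ∈ W → ¬ OnHull (sX X) v) {f : ℂ × ℂ × ℂ → ℂ} {w : D0 (sX X) → ℂ}
    (hw : ∀ e : D0 (sX X), e.1.2 ∈ W → th (sX X) e.1 ∈ W → w e = f (e.1.2, th (sX X) e.1, e.1.1)) :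
    ZZ (cm0 hS) (xc hS hχ) w (RD (sX X) W) p q = zC f W (LG g Q) (LG g' Q') X :=
  zz_zC hX hS hχ op oq hp hq (fun r hr => hp.uniq hr) (fun r hr => hq.uniq hr)
    (fun v hv hv' => hW v hv' hv) hw

/-! ### corridors and rings of a configuration -/








end

end Crest.Agent.R143.DCorGx713
end
end

-- ▼ part R143/DCorF_713

/-!
# Row 143 (S0194): corridors of a configuration along a fine path (helper713)

* `neck_scale` : the gate in the unit `η`
* `gF η h W r a` : gate `a` of the path, window `r` in the unit `η` (frame `gz`, `η * ge`)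
* `evp_of` : selected darts and tile events give 503's `Evp`
* `Evp.corr` : the open corridor `DCorr`
* `corF` : `TC` along the tiles `o .. o + n - 1` of a good configuration gives `DCorr` and the values
* `ringF` : the same for the closed path, `DRing`
* `lk_chain` : chain of (white) links; `dsj_of`, `num_std`, `win_box` : numbers
-/

set_option autoImplicit false
set_option linter.all false

noncomputable section

open scoped Classical

namespace Crest.Agent.R143.DCorFx713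

open Set
open Crest.Agent.R143.B0x346 Crest.Agent.R143.DelGx806 Crest.Agent.R143.DelRx806
  Crest.Agent.R143.JColx54
open Crest.Agent.R143.Frame1x395 Crest.Agent.R143.Frame2x395 Crest.Agent.R143.Frame3x395
  Crest.Agent.R143.Frame4x395 Crest.Agent.R143.Frame8x395 Crest.Agent.R143.Frame9x395
  Crest.Agent.R143.Frame10x395 Crest.Agent.R143.Frame11x395
open Crest.Agent.R143.Frame5x395 (sd mem_sd th th_spec)
open Crest.Agent.R143.Locx922
open Crest.Agent.R143.Splx117 Crest.Agent.R143.WLocx713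
open Crest.Agent.R143.Blkx838 (DE)
open Crest.Agent.R143.Neckx921 (Neck NeckD Tile Lk)
open Crest.Agent.R143.PP0x831 Crest.Agent.R143.FinMx609
open Crest.Agent.R143.RingDx117 (RD DRing StC StR)
open Crest.Agent.R143.CorrDx117 (DCorr)
open Crest.Agent.R143.Gatex838 (X Y)
open Crest.Agent.R143.TileRx228 Crest.Agent.R143.PathDx503 Crest.Agent.R143.PathGx503
open Crest.Agent.R143.RingPx503 Crest.Agent.R143.DCorGx713

/-! ### the unit of the gate -/

section scale

variable {S V β : Finset ℂ} {z0 e : ℂ} {a0 a1 b0 b1 m η : ℝ}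

theorem X_sc (s : ℂ) : X z0 (η * e) s = X z0 e s / η := X_scale z0 e s

theorem Y_sc (s : ℂ) : Y z0 (η * e) s = Y z0 e s / η := Y_scale z0 e s

theorem neck_scale (hη : 0 < η) {y x : ℂ} : NeckD S z0 (η * e) a0 a1 b0 b1 m V β y x ↔
    NeckD S z0 e (η * a0) (η * a1) (η * b0) (η * b1) (η * m) V β y x := by
  have l1 : ∀ (a t : ℝ), a < t / η ↔ η * a < t := fun a t => by rw [lt_div_iff₀ hη, mul_comm]
  have l2 : ∀ (a t : ℝ), t / η < a ↔ t < η * a := fun a t => by rw [div_lt_iff₀ hη, mul_comm]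
  have l3 : ∀ (a t : ℝ), a ≤ t / η ↔ η * a ≤ t := fun a t => by rw [le_div_iff₀ hη, mul_comm]
  have l4 : ∀ (a t : ℝ), t / η ≤ a ↔ t ≤ η * a := fun a t => by rw [div_le_iff₀ hη, mul_comm]
  constructor
  · rintro ⟨up, dn, h, hx⟩
    refine ⟨up, dn, ?_, hx⟩
    constructor
    case nu => exact h.nu
    case nd => exact h.nd
    case adj => exact h.adj
    case cu => exact h.cu
    case cd => exact fun s hs h1 => h.cd s hs (by rw [Y_sc, l1]; exact h1)
    case cy => exact h.cy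
    case win =>
      intro s hs
      obtain ⟨⟨h1, h2⟩, h3, h4⟩ := h.win s hs
      rw [X_sc, l1] at h1
      rw [X_sc, l2] at h2
      rw [Y_sc, l3, mul_sub] at h3
      rw [Y_sc, l4, mul_add] at h4
      exact ⟨⟨h1, h2⟩, h3, h4⟩
    case yb =>
      obtain ⟨h1, h2⟩ := h.yb
      rw [Y_sc, l1] at h1
      rw [Y_sc, l2] at h2
      exact ⟨h1, h2⟩
    case top =>
      have h1 := h.top
      rw [Y_sc, l3] at h1
      exact h1
    case bot =>
      have h1 := h.bot
      rw [Y_sc, l4] at h1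
      exact h1
    all_goals
      intro s hs
      have h1 := h.upb s hs
      rw [Y_sc, l1] at h1
      exact h1
  · rintro ⟨up, dn, h, hx⟩
    refine ⟨up, dn, ?_, hx⟩
    constructor
    case nu => exact h.nu
    case nd => exact h.nd
    case adj => exact h.adj
    case cu => exact h.cu
    case cd => exact fun s hs h1 => h.cd s hs (by rw [Y_sc, l1] at h1; exact h1)
    case cy => exact h.cy
    case win =>
      intro s hs
      obtain ⟨⟨h1, h2⟩, h3, h4⟩ := h.win s hs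
      rw [← mul_sub] at h3
      rw [← mul_add] at h4
      rw [X_sc, l1, l2, Y_sc, l3, l4]
      exact ⟨⟨h1, h2⟩, h3, h4⟩
    case yb =>
      rw [Y_sc, l1, l2]
      exact h.yb
    case top =>
      rw [Y_sc, l3]
      exact h.top
    case bot =>
      rw [Y_sc, l4]
      exact h.bot
    all_goals
      intro s hs
      rw [Y_sc, l1]
      exact h.upb s hs

end scale

/-! ### gates of the path -/

/-- numbers of the windows in the unit `η` -/
structure WPar where
  a0 : ℝ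
  a1 : ℝ
  b0 : ℝ
  b1 : ℝ
  m : ℝ

/-- the gate `a` of the path -/
def gF (η h : ℝ) (W : ℤ → ℤ × ℤ) (r : WPar) (a : ℤ) : GPar :=
  ⟨gz h W a, η * ge W a, r.a0, r.a1, r.b0, r.b1, r.m⟩

/-- the gate at the origin -/
def g1 (η : ℝ) (r : WPar) : GPar := ⟨0, η, r.a0, r.a1, r.b0, r.b1, r.m⟩


theorem gz_per {M : ℕ} {W : ℤ → ℤ × ℤ} (F : FPath M W) (h : ℝ) (a : ℤ) :
    gz h W (a + M) = gz h W a := by
  unfold gz
  rw [F.per, show a + (M : ℤ) - 1 = a - 1 + M by ring, F.per]

theorem ge_per {M : ℕ} {W : ℤ → ℤ × ℤ} (F : FPath M W) (a : ℤ) : ge W (a + M) = ge W a := by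
  unfold ge
  rw [F.per, show a + (M : ℤ) - 1 = a - 1 + M by ring, F.per]


section

variable {X : Set (ℂ × Bool)} {P : ℤ → Prop} {g : ℤ → GPar} {Q R : ℤ → Set ℂ} {d : ℝ}

/-- the tile events give the selected darts -/
theorem lgZ (hT : ∀ a, P a → TC (R a) (LG (g a) (Q a)) (LG (g (a + 1)) (Q (a + 1))) X) {a : ℤ}
    (ha : P a ∨ P (a - 1)) : LG (g a) (Q a) X (dg (g a) (Q a) X) := by
  rcases ha with ha | ha
  · obtain ⟨-, p, -, hp, -⟩ := hT a ha
    exact dg_spec ⟨p, hp⟩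
  · obtain ⟨-, -, q, -, hq, -⟩ := hT (a - 1) ha
    rw [sub_add_cancel] at hq
    exact dg_spec ⟨q, hq⟩

variable {η h A B : ℝ} {W : ℤ → ℤ × ℤ} {r : WPar}

/-- **gates and tiles of a configuration along the path** -/
theorem evp_of (hX : X.Finite) (hd : 0 < d) (hη : 0 < η)
    (hH : ∀ a, P a ∨ P (a - 1) → Hol (ps X) (gF η h W r a).win d)
    (hQ : ∀ a, P a ∨ P (a - 1) → ∀ w ∈ (gF η h W r a).win, ∀ s, ‖s - w‖ < 2 * d → s ∈ Q a)
    (hT : ∀ a, P a → TC (RR A B h W a) (LG (gF η h W r a) (Q a))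
      (LG (gF η h W r (a + 1)) (Q (a + 1))) X) :
    Evp (sX X) (sX X) (bX X) h A B (η * r.a0) (η * r.a1) (η * r.b0) (η * r.b1) (η * r.m) W P
      (fun a => (dg (gF η h W r a) (Q a) X).1) (fun a => (dg (gF η h W r a) (Q a) X).2) where
  gate := fun a ha => by
    rw [← neck_scale hη]
    exact LG_neck hX hd (hH a ha) (hQ a ha) (lgZ hT ha)
  tile := fun a ha => tile_of (hT a ha)

end

/-! ### the open corridor -/

section corr

variable {S V β : Finset ℂ} {χ : ℂ → ZMod 2} {h A B A' B' m m' τ κ bb : ℝ} {a0 a1 b0 b1 : ℝ}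
  {M : ℕ} {W : ℤ → ℤ × ℤ} {b : ZMod 2} {P : ℤ → Prop} {y x : ℤ → ℂ} {U : Set ℂ}

theorem nd_of {M : ℕ} {n : ℕ} (hM : M = 0 ∨ n < M) {t : ℤ} (ht : t ≠ 0) (h1 : -n ≤ t)
    (h2 : t ≤ n) : ¬ (M : ℤ) ∣ t := by
  intro hd
  rcases hM with rfl | hM
  · rw [Nat.cast_zero, zero_dvd_iff] at hd
    exact ht hd
  · rcases lt_or_gt_of_ne ht with h3 | h3
    · have := Int.le_of_dvd (by omega) ((dvd_neg (a := (M : ℤ))).2 hd)
      omega
    · have := Int.le_of_dvd h3 hd
      omega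

/-- **the open corridor of a fine path** -/
theorem Evp.corr (E : Evp S V β h A B a0 a1 b0 b1 m' W P y x)
    (N : Num h A B κ bb a0 a1 b0 b1 m) (F : FPath M W) (hS : GP (S : Set ℂ)) (hχ : HullC S χ)
    (hβ : ∀ s ∈ V, χ s = b ↔ s ∈ β) (hβV : β ⊆ V) (hE : Envr S U m) (hτ : m < τ) {n : ℕ}
    (n1 : 1 ≤ n) (hM : M = 0 ∨ n < M) (o : ℤ) (hP : ∀ k : ℕ, k < n → P (o + k))
    (hU : ∀ k : ℕ, k < n → RR (A + τ) (B + τ) h W (o + k) ⊆ U) (hA : bb ≤ A')
    (hB : h / 2 + κ ≤ B') (hA2 : A + τ ≤ A') (hB2 : B + τ ≤ B') (hD : Dsj A' B' h M W)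
    {p : ℕ → D0 S} (hp : ∀ k : ℕ, k ≤ n → (p k).1 = (y (o + k), x (o + k))) :
    DCorr hS hχ n (fun k : ℕ => y (o + k)) (fun k : ℕ => x (o + k))
      (fun k : ℕ => RR A B h W (o + k)) (fun k : ℕ => RR (A + τ) (B + τ) h W (o + k)) p := by
  have n0 := N.m0
  have hsub : ∀ k : ℕ, k < n → RR A B h W (o + k) ⊆ U := fun k hk =>
    (ConfTx503.rr_sub (by linarith) (by linarith) _).trans (hU k hk)
  have hM4 : M = 0 ∨ 4 ≤ M := F.M_cases
  have G := gpath_gen (S := S) (P := fun k => k < n) N F o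
    (fun k h1 h2 u v huv hu hv => hE.step u v huv
      (hu.elim (fun h => hsub _ h1 h) (fun h => hsub _ h2 h))
      (hv.elim (fun h => hsub _ h1 h) (fun h => hsub _ h2 h)))
    (fun k hk s hs hs2 => hE.inn s hs (hsub _ hk hs2))
  have hG : Gts S V β (fun k => k < n) (fun k : ℕ => gz h W (o + k)) (fun k : ℕ => ge W (o + k))
      (fun k : ℕ => RR A B h W (o + k)) a0 a1 b0 b1 m' (fun k : ℕ => y (o + k))
      (fun k : ℕ => x (o + k)) := by
    refine ⟨?_, fun k hk => ?_⟩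
    · rintro k (hk | ⟨j, rfl, hj⟩)
      · exact E.gate _ (Or.inl (hP k hk))
      · refine E.gate _ (Or.inr ?_)
        have e : o + ((j + 1 : ℕ) : ℤ) - 1 = o + j := by push_cast; ring
        rw [e]
        exact hP j hj
    · have e : o + ((k + 1 : ℕ) : ℤ) = o + (k : ℤ) + 1 := by push_cast; ring
      simp only [e]
      exact (E.tile _ (hP k hk)).1
  refine Gts.corr (m' := m) n1 hβ hβV G hG (fun k hk v hv hv2 => hE.inn v hv (hU k hk hv2))
    (fun k j h1 h2 => ?_) (fun k j h1 h2 h3 h4 => ?_) (fun k hk p q hp hq => ?_) hp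
  · refine dsj_mono (by linarith) (by linarith) hD _ _ ?_ ?_ ?_
    · exact nd_of hM (by push_cast; omega) (by push_cast; omega) (by push_cast; omega)
    · exact nd_of hM (by push_cast; omega) (by push_cast; omega) (by push_cast; omega)
    · exact nd_of hM (by push_cast; omega) (by push_cast; omega) (by push_cast; omega)
  · have e0 : o + (j : ℤ) - (o + (k : ℤ)) = (j : ℤ) - k := by ring
    refine (far_win N F hA hB hD (a := o + k) (c := o + j) ?_ ?_ ?_ ?_).mono_right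
      (ConfTx503.rr_sub hA2 hB2 _)
    · exact nd_of hM (by omega) (by omega) (by omega)
    · exact nd_of hM (by omega) (by omega) (by omega)
    · by_cases h5 : (M : ℤ) ∣ o + (j : ℤ) - (o + k) + 1
      · right
        intro h6
        have h7 : (M : ℤ) ∣ 3 := by
          have := dvd_sub h5 h6
          rwa [show o + (j : ℤ) - (o + k) + 1 - (o + j - (o + k) - 2) = 3 by ring] at this
        exact F.not3 h7
      · exact Or.inl h5
    · intro _ h6
      exact nd_of hM (t := o + (j : ℤ) - 1 - (o + k) + 1) (by omega) (by omega) (by omega) h6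
  · have e : o + ((k + 1 : ℕ) : ℤ) = o + (k : ℤ) + 1 := by push_cast; ring
    simp only [e] at hq
    exact E.conf N F hS hχ hβ hβV hE hτ (hP k hk) (hU k hk) hp hq

end corr

/-! ### corridors of a configuration -/

section conf

variable {X : Set (ℂ × Bool)} {M : ℕ} {W : ℤ → ℤ × ℤ} {Q : ℤ → Set ℂ} {r : WPar} {U : Set ℂ}
  {η h A B A' B' m τ κ bb d : ℝ}

/-- data of a corridor which do not depend on the colours: numbers, path, environment -/
structure CEnv (X : Set (ℂ × Bool)) (U : Set ℂ) (M : ℕ) (W : ℤ → ℤ × ℤ) (Q : ℤ → Set ℂ)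
    (r : WPar) (η h A B A' B' m τ κ bb d : ℝ) (P : ℤ → Prop) : Prop where
  fin : X.Finite
  gp : GP (sX X : Set ℂ)
  hull : HullC (sX X) (cX X)
  d0 : 0 < d
  η0 : 0 < η
  num : Num h A B κ bb (η * r.a0) (η * r.a1) (η * r.b0) (η * r.b1) m
  path : FPath M W
  env : Envr (sX X) U m
  mτ : m < τ
  dsj : Dsj A' B' h M W
  hA : bb ≤ A'
  hB : h / 2 + κ ≤ B'
  hA2 : A + τ ≤ A'
  hB2 : B + τ ≤ B'
  hol : ∀ a, P a ∨ P (a - 1) → Hol (ps X) (gF η h W r a).win d
  box : ∀ a, P a ∨ P (a - 1) → ∀ w ∈ (gF η h W r a).win, ∀ s, ‖s - w‖ < 2 * d → s ∈ Q a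
  sub : ∀ a, P a → RR (A + τ) (B + τ) h W a ⊆ U
  evt : ∀ a, P a → TC (RR A B h W a) (LG (gF η h W r a) (Q a))
    (LG (gF η h W r (a + 1)) (Q (a + 1))) X

variable {P : ℤ → Prop}

theorem CEnv.evp (C : CEnv X U M W Q r η h A B A' B' m τ κ bb d P) :
    Evp (sX X) (sX X) (bX X) h A B (η * r.a0) (η * r.a1) (η * r.b0) (η * r.b1) (η * r.m) W P
      (fun a => (dg (gF η h W r a) (Q a) X).1) (fun a => (dg (gF η h W r a) (Q a) X).2) :=
  evp_of C.fin C.d0 C.η0 C.hol C.box C.evt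

/-- the state at the gate `a` -/
theorem CEnv.sd (C : CEnv X U M W Q r η h A B A' B' m τ κ bb d P) {a : ℤ}
    (ha : P a ∨ P (a - 1)) : dg (gF η h W r a) (Q a) X ∈ sd (sX X) :=
  neck_sd C.hull (V := sX X) (b := 1) bX_iff (C.evp.gate a ha)

theorem CEnv.lg (C : CEnv X U M W Q r η h A B A' B' m τ κ bb d P) {a : ℤ}
    (ha : P a ∨ P (a - 1)) : LG (gF η h W r a) (Q a) X (dg (gF η h W r a) (Q a) X) :=
  lgZ C.evt ha

/-- colours of the selected dart -/
theorem CEnv.col (C : CEnv X U M W Q r η h A B A' B' m τ κ bb d P) {a : ℤ}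
    (ha : P a ∨ P (a - 1)) : cX X (dg (gF η h W r a) (Q a) X).1 = 1 ∧
      cX X (dg (gF η h W r a) (Q a) X).1 + cX X (dg (gF η h W r a) (Q a) X).2 = 1 :=
  neck_col (b := 1) bX_iff (C.evp.gate a ha)


/-- **the value of an arc of the corridor** -/
theorem CEnv.val (C : CEnv X U M W Q r η h A B A' B' m τ κ bb d P) {a : ℤ} (ha : P a)
    {p q : D0 (sX X)} (hp : LG (gF η h W r a) (Q a) X p.1)
    (hq : LG (gF η h W r (a + 1)) (Q (a + 1)) X q.1) {f : ℂ × ℂ × ℂ → ℂ} {w : D0 (sX X) → ℂ}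
    (hw : ∀ e : D0 (sX X), e.1.2 ∈ RR (A + τ) (B + τ) h W a →
      th (sX X) e.1 ∈ RR (A + τ) (B + τ) h W a → w e = f (e.1.2, th (sX X) e.1, e.1.1)) :
    ZZ (cm0 C.gp) (xc C.gp C.hull) w (RD (sX X) (RR (A + τ) (B + τ) h W a)) p q =
      zC f (RR (A + τ) (B + τ) h W a) (LG (gF η h W r a) (Q a))
        (LG (gF η h W r (a + 1)) (Q (a + 1))) X := by
  have h1 := (C.col (Or.inl ha)).2
  have h2 := (C.col (a := a + 1) (Or.inr (by rw [add_sub_cancel_right]; exact ha))).2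
  rw [dg_eq hp] at h1
  rw [dg_eq hq] at h2
  exact val_zC C.fin C.gp C.hull hp hq h1 h2 (fun v hv hv2 => C.env.inn v hv (C.sub a ha hv2)) hw


end conf

/-! ### numbers -/

/-- 503's disjointness from 228's -/
theorem dsj_of {A B h : ℝ} {M : ℕ} {W : ℤ → ℤ × ℤ} (F : FPath M W) (hA : 0 < A) (hAB : A ≤ B)
    (hh : A + B < h) : Dsj A B h M W := fun a c h0 h1 h2 =>
  disj F hA hAB hh h0 (fun h3 => h1 (by rwa [show c - a - 1 = c - (a + 1) by ring]))
    fun h3 => h2 (by rwa [show c - a + 1 = c - (a - 1) by ring])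




/-! ### chains of white links -/


end Crest.Agent.R143.DCorFx713
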