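import Crest.Agent.R143.TileR0_228

/-!
# Row 143 (S0194), CORE-C, RIG: the spatial regions of the tiles (helper523)

On `TileR0_228` (`RR A B h W a` = region of the tile `a` of a closed lattice path `W` of period `M`).

* `RL A B h W a` : part of `RR a` between the middle lines of the gate boxes `a`, `a + 1`
* `GB`, `TB` : gate box `RR (a - 1) ∩ RR a`, tube box `RR a ∖ (RR (a - 1) ∪ RR (a + 1))`
* `Far` : `RR a`, `RR b` are disjoint unless `b = a - 1, a, a + 1` modulo `M`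
* `RL_disj`, `RL_cover`, `GB_disj`, `TB_disj`, `GT_disj`, `RR_split`
* `RL_win` : points near `RL a` are in the window `RR (a - 1) ∪ RR a ∪ RR (a + 1)`
-/

set_option autoImplicit false

noncomputable section

open scoped Classical

namespace Crest.Agent.R143.RegBx523

open Set
open Crest.Agent.R143.Gatex838 (X Y)
open Crest.Agent.R143.TileRx228

variable {A B h : ℝ} {M : ℕ} {W : ℤ → ℤ × ℤ}

/-! ### periodicity -/

theorem W_per (hW : FPath M W) (a k : ℤ) : W (a + k * M) = W a := by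
  induction k using Int.induction_on with
  | zero => simp
  | succ n ih =>
    rw [show a + ((n : ℤ) + 1) * M = (a + n * M) + M by ring, hW.per, ih]
  | pred n ih =>
    rw [← hW.per (a + (-(n : ℤ) - 1) * M), show a + (-(n : ℤ) - 1) * M + M = a + -(n : ℤ) * M by ring,
      ih]

theorem W_cong (hW : FPath M W) {a b : ℤ} (h : (M : ℤ) ∣ b - a) : W b = W a := by
  obtain ⟨k, hk⟩ := h
  have : b = a + k * M := by linarith
  rw [this, W_per hW]

theorem cen_cong (hW : FPath M W) {a b : ℤ} (hab : (M : ℤ) ∣ b - a) : cen h W b = cen h W a := by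
  unfold cen; rw [W_cong hW hab]

theorem gz_cong (hW : FPath M W) {a b : ℤ} (hab : (M : ℤ) ∣ b - a) : gz h W b = gz h W a := by
  unfold gz
  rw [W_cong hW hab, W_cong hW (a := a - 1) (b := b - 1) (by simpa using hab)]

theorem ge_cong (hW : FPath M W) {a b : ℤ} (hab : (M : ℤ) ∣ b - a) : ge W b = ge W a := by
  unfold ge
  rw [W_cong hW hab, W_cong hW (a := a - 1) (b := b - 1) (by simpa using hab)]

theorem RR_cong (hW : FPath M W) {a b : ℤ} (hab : (M : ℤ) ∣ b - a) :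
    RR A B h W b = RR A B h W a := by
  unfold RR
  rw [cen_cong hW hab, W_cong hW hab, W_cong hW (a := a - 1) (b := b - 1) (by simpa using hab),
    W_cong hW (a := a + 1) (b := b + 1) (by simpa using hab)]

/-! ### the regions -/


/-- gate box -/
def GB (A B h : ℝ) (W : ℤ → ℤ × ℤ) (a : ℤ) : Set ℂ := RR A B h W (a - 1) ∩ RR A B h W a

/-- tube box -/
def TB (A B h : ℝ) (W : ℤ → ℤ × ℤ) (a : ℤ) : Set ℂ :=
  RR A B h W a \ (RR A B h W (a - 1) ∪ RR A B h W (a + 1))

/-- tiles which are not neighbours are disjoint -/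
def Far (M : ℕ) (A B h : ℝ) (W : ℤ → ℤ × ℤ) : Prop := ∀ a b : ℤ, ¬ (M : ℤ) ∣ b - a →
  ¬ (M : ℤ) ∣ b - (a + 1) → ¬ (M : ℤ) ∣ b - (a - 1) → Disjoint (RR A B h W a) (RR A B h W b)

/-- with gaps -/
def FarG (M : ℕ) (g A B h : ℝ) (W : ℤ → ℤ × ℤ) : Prop := ∀ a b : ℤ, ¬ (M : ℤ) ∣ b - a →
  ¬ (M : ℤ) ∣ b - (a + 1) → ¬ (M : ℤ) ∣ b - (a - 1) →
  ∀ s ∈ RR A B h W a, ∀ t ∈ RR A B h W b, g ≤ ‖s - t‖

theorem FarG.far {g : ℝ} (hg : 0 < g) (h1 : FarG M g A B h W) : Far M A B h W := by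
  intro a b h2 h3 h4
  rw [Set.disjoint_left]
  intro s hs ht
  have := h1 a b h2 h3 h4 s hs s ht
  rw [sub_self, norm_zero] at this
  linarith





/-! ### measurability -/









/-! ### boundedness -/

/-- in a unit frame the distance is bounded by the coordinates -/
theorem norm_le_XY {c u s : ℂ} (hu : ‖u‖ = 1) : ‖s - c‖ ≤ |X c u s| + |Y c u s| := by
  have h1 : ‖s - c‖ = ‖(s - c) / u‖ := by rw [norm_div, hu, div_one]
  rw [h1]
  exact Complex.norm_le_abs_re_add_abs_im _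

theorem norm_U4 {u : ℤ × ℤ} (hu : U4 u) : ‖cz u‖ = 1 := by
  rcases hu with rfl | rfl | rfl | rfl
  · have : cz (1, 0) = 1 := by apply Complex.ext <;> simp [cz]
    rw [this]; simp
  · have : cz (0, 1) = Complex.I := by apply Complex.ext <;> simp [cz]
    rw [this]; simp
  · have : cz (-1, 0) = -1 := by apply Complex.ext <;> simp [cz]
    rw [this]; simp
  · have : cz (0, -1) = -Complex.I := by apply Complex.ext <;> simp [cz]
    rw [this]; simp

theorem Arm_ball {c u s : ℂ} (hu : ‖u‖ = 1) (hs : s ∈ Arm A B c u) :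
    ‖s - c‖ < max A B + A := by
  obtain ⟨⟨h1, h2⟩, h3⟩ := hs
  refine (norm_le_XY hu).trans_lt (add_lt_add ?_ h3)
  rw [abs_lt]
  exact ⟨lt_of_le_of_lt (neg_le_neg (le_max_left _ _)) h1, lt_of_lt_of_le h2 (le_max_right _ _)⟩

theorem U4_neg {u : ℤ × ℤ} (hu : U4 u) : U4 (-u) := by
  rcases hu with rfl | rfl | rfl | rfl
  · exact Or.inr (Or.inr (Or.inl (by simp)))
  · exact Or.inr (Or.inr (Or.inr (by simp)))
  · exact Or.inl (by simp)
  · exact Or.inr (Or.inl (by simp))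

theorem U4_step' (hW : FPath M W) (a : ℤ) : U4 (W a - W (a - 1)) := by
  have := hW.step (a - 1)
  rwa [sub_add_cancel] at this

theorem U4_back (hW : FPath M W) (a : ℤ) : U4 (W (a - 1) - W a) := by
  have := U4_neg (U4_step' hW a)
  rwa [neg_sub] at this

theorem norm_ge (hW : FPath M W) (a : ℤ) : ‖ge W a‖ = 1 := norm_U4 (U4_step' hW a)

theorem ge_ne (hW : FPath M W) (a : ℤ) : ge W a ≠ 0 := by
  intro h
  have := norm_ge hW a
  rw [h, norm_zero] at this
  exact zero_ne_one this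

theorem RR_ball (hW : FPath M W) {a : ℤ} {s : ℂ} (hs : s ∈ RR A B h W a) :
    ‖s - cen h W a‖ < max A B + A := by
  rcases hs with hs | hs
  · exact Arm_ball (norm_U4 (U4_back hW a)) hs
  · exact Arm_ball (norm_U4 (hW.step a)) hs





/-! ### disjointness -/



theorem GB_sub (a : ℤ) : GB A B h W a ⊆ RR A B h W a := inter_subset_right

theorem GB_sub' (a : ℤ) : GB A B h W a ⊆ RR A B h W (a - 1) := inter_subset_left





/-- two tiles with a common point -/
theorem Far.near (hF : Far M A B h W) {a b : ℤ} {s : ℂ} (h1 : s ∈ RR A B h W a)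
    (h2 : s ∈ RR A B h W b) : (M : ℤ) ∣ b - a ∨ (M : ℤ) ∣ b - (a + 1) ∨ (M : ℤ) ∣ b - (a - 1) := by
  by_contra h
  push Not at h
  exact Set.disjoint_left.1 (hF a b h.1 h.2.1 h.2.2) h1 h2



/-! ### coordinates -/




theorem cz_sub (u v : ℤ × ℤ) : cz (u - v) = cz u - cz v := by
  apply Complex.ext <;> simp [cz]



theorem gz_succ (a : ℤ) : gz h W (a + 1) = gz h W a + (h : ℂ) / 2 * (ge W a + ge W (a + 1)) := by
  unfold gz ge
  rw [cz_sub, cz_sub, add_sub_cancel_right]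
  ring











/-- size conditions: unit `η`, `A = 9 η + ρ`, `B = 51 η + ρ`, `h = 100 η` -/
structure Sz (A B h : ℝ) : Prop where
  A0 : 0 < A
  A2 : 2 * A ≤ h
  B2 : h / 2 < B
  AB : A + B ≤ h

theorem Sz.h0 (z : Sz A B h) : 0 < h := by
  have := z.A0
  have := z.A2
  linarith




/-- the corridor -/
def Cor (A B h : ℝ) (W : ℤ → ℤ × ℤ) : Set ℂ := ⋃ a, RR A B h W a



/-- every tile is one of `M` consecutive ones -/
theorem rep (hM : 0 < M) (a b : ℤ) : ∃ c : ℤ, a ≤ c ∧ c < a + M ∧ (M : ℤ) ∣ b - c := by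
  refine ⟨a + (b - a) % M, ?_, ?_, ?_⟩
  · have := Int.emod_nonneg (b - a) (show (M : ℤ) ≠ 0 by omega)
    linarith
  · have := Int.emod_lt_of_pos (b - a) (show (0 : ℤ) < M by omega)
    linarith
  · refine ⟨(b - a) / M, ?_⟩
    have := Int.emod_add_mul_ediv (b - a) M
    linarith





/-- **window**: points of the corridor near the tile `a` -/
theorem win {g : ℝ} (hW : FPath M W) (hF : FarG M g A B h W) {a : ℤ} {s t : ℂ}
    (hs : s ∈ RR A B h W a) (ht : t ∈ Cor A B h W) (hst : ‖s - t‖ < g) :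
    t ∈ RR A B h W (a - 1) ∪ RR A B h W a ∪ RR A B h W (a + 1) := by
  obtain ⟨b, hb⟩ := mem_iUnion.1 ht
  by_cases h1 : (M : ℤ) ∣ b - a
  · rw [RR_cong hW h1] at hb
    exact Or.inl (Or.inr hb)
  by_cases h2 : (M : ℤ) ∣ b - (a + 1)
  · rw [RR_cong hW h2] at hb
    exact Or.inr hb
  by_cases h3 : (M : ℤ) ∣ b - (a - 1)
  · rw [RR_cong hW h3] at hb
    exact Or.inl (Or.inl hb)
  · exact absurd (hF a b h1 h2 h3 s hs t hb) (not_le.2 hst)

/-! ### template sets -/

/-- turn of the tile: straight, left, right -/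
def tc (t : Fin 3) : ℂ := if t = 0 then 1 else if t = 1 then Complex.I else -Complex.I




/-- type of the tile `a` -/
def tn (W : ℤ → ℤ × ℤ) (a : ℤ) : Fin 3 :=
  if ge W (a + 1) = ge W a * 1 then 0 else if ge W (a + 1) = ge W a * Complex.I then 1 else 2



/-- coordinate in the next frame -/
def nxt (h : ℝ) (t : Fin 3) (z : ℂ) : ℂ := (z - (h : ℂ) / 2) / tc t - (h : ℂ) / 2


/-- gate box -/
def QT (A B h : ℝ) : Set ℂ := {z | |z.re| < B - h / 2 ∧ |z.im| < A}

/-- tile -/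
def RT (A B h : ℝ) (t : Fin 3) : Set ℂ :=
  {z | ((-A < h / 2 - z.re ∧ h / 2 - z.re < B) ∧ |z.im| < A) ∨
    ((-A < h / 2 + (nxt h t z).re ∧ h / 2 + (nxt h t z).re < B) ∧ |(nxt h t z).im| < A)}

/-- tube box -/
def DT (A B h : ℝ) (t : Fin 3) : Set ℂ := RT A B h t \ (QT A B h ∪ nxt h t ⁻¹' QT A B h)

/-- spatial region -/
def LT (A B h : ℝ) (t : Fin 3) : Set ℂ := {z | z ∈ RT A B h t ∧ 0 ≤ z.re ∧ (nxt h t z).re < 0}



















end Crest.Agent.R143.RegBx523
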