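import Crest.Agent.R143.Tpl_978

/-!
# R143 (helper978): windows, `lintegral` forms (note 3745 (b): the law of `V_l` under `g P` depends only
on the types)

* `Win.lratio` : `E[g F] · mass = E[g] · E[w F]`, `F ≥ 0` local on the window
* `Win.lsame` : `F' ∘ mv g = F` gives `E[w' F'] = E[w F]`; `Win.mass_same`
* `Win.lboth` : `E[g] · E[g' F'] = E[g'] · E[g F]` (two pieces of two paths)
* `Win.transfer` : a bound `E[g F] ≤ K E[g]` at ONE place gives it at all places of the same types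

-/

set_option autoImplicit false

noncomputable section

namespace Crest.Agent.R143.Tplx978

open MeasureTheory Set ProbabilityTheory
open Crest.ProbabilityR.Voronoi
open Crest.Agent.R143.PP0x831 Crest.Agent.R143.Poisx304 Crest.Agent.R143.Janx304
open Crest.Agent.R143.IndLocx279 Crest.Agent.R143.PWx978
open scoped ENNReal

variable {ε : ℝ} {Ty : Type*} {T : Tpl ε Ty} {ι κ ι' κ' : Type*}

namespace Win

variable {n : ℕ} {τ : ℕ → Ty} {P : Pth T ι κ} {P' : Pth T ι' κ'}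

lemma hN_of [DecidableEq ι] {P : Pth T ι κ} {I : Finset ι} {J : Finset κ}
    (hN : ∀ k ∈ J, P.src k ∈ I ∧ P.tgt k ∈ I) : ∀ k ∈ J, P.net.N k ⊆ I := by
  intro k hk i hi
  have h1 : i ∈ ({P.src k, P.tgt k} : Finset ι) := hi
  rw [Finset.mem_insert, Finset.mem_singleton] at h1
  rcases h1 with rfl | rfl
  · exact (hN k hk).1
  · exact (hN k hk).2





/-- the mass of a piece of a path -/
lemma piece_mass [DecidableEq ι] [DecidableEq κ] {P : Pth T ι κ} {I : Finset ι} {J : Finset κ}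
    (hN : ∀ k ∈ J, P.src k ∈ I ∧ P.tgt k ∈ I) :
    ∫⁻ ω, P.net.gw I J (cfg ε ω) ∂sampleLaw =
      T.c ^ J.card * (∫⁻ ω, T.A (cfg ε ω) ∂sampleLaw) ^ I.card := by
  have h3 : ∀ i, ∫⁻ ω, P.net.a i (cfg ε ω) ∂sampleLaw = ∫⁻ ω, T.A (cfg ε ω) ∂sampleLaw := by
    intro i
    exact iso ε T.eps T.Q T.Qm T.Qb (P.fr i).e.symm ((P.fr i).mp.symm (P.fr i).e)
      ((P.fr i).bdd' _ T.Qb) T.A T.Al T.Am
  rw [P.net.mass (hN_of hN), Finset.prod_congr rfl fun i _ => h3 i, Finset.prod_const]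
  rfl

lemma A_le (T : Tpl ε Ty) : ∫⁻ ω, T.A (cfg ε ω) ∂sampleLaw ≤ 1 := by
  have : IsProbabilityMeasure sampleLaw := by unfold sampleLaw; infer_instance
  calc ∫⁻ ω, T.A (cfg ε ω) ∂sampleLaw ≤ ∫⁻ _, 1 ∂sampleLaw := lintegral_mono fun ω => T.A1 _
    _ = 1 := by simp




end Win

end Crest.Agent.R143.Tplx978
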