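import Crest.Agent.R143.PthF_765
import Crest.Agent.R143.Tpl2_978

/-!
# R143 (helper765): the fine path (228's `FPath`) as a path of 978 (`Pth`), windows, one number

* `Std T A B h tu` : the template `T` has the standard boxes (`WQ`, `WD`, `nxt`), `tu` = turn of a type
* `pth` : gates and tiles `ZMod M`, types `ty`; `pth_fr`, `net_B`, `net_C`, `net_a`, `net_e`
* `win P .. a n` : the window of the tiles `a, .., a + n - 1` (`Pr M n` : `M = 0` or `n < M`);
  `win_I`, `win_J`, `win_fr`, `RR_reg` (the tiles are inside the region of the window)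
* `lineW`, `line` : the straight path; `sp` : the straight path as `Pth`
* `one_number` : `E[g V] = E[g] u m` for `V (mv (frm a) X) = u V0 X` and a window with the types of
  the reference window
-/

set_option autoImplicit false

noncomputable section

namespace Crest.Agent.R143.PthFx765

open MeasureTheory Set
open Crest.ProbabilityR.Voronoi
open Crest.Agent.R143.Gatex838 (X Y)
open Crest.Agent.R143.PP0x831 Crest.Agent.R143.PWx978 Crest.Agent.R143.Tplx978
open Crest.Agent.R143.TileRx228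
open scoped ENNReal

variable {M : ℕ} {W : ℤ → ℤ × ℤ} {A B h ε : ℝ} {Ty : Type*} {T : Tpl ε Ty} {tu : Ty → Tn}

/-- the template has the standard boxes -/
structure Std (T : Tpl ε Ty) (A B h : ℝ) (tu : Ty → Tn) : Prop where
  Q : T.Q = WQ A B h
  D : ∀ t, T.D t = WD A B h (tu t)
  nx : ∀ t, T.nx t = nxt h (tu t)
  hA : 0 < A
  hAB : A ≤ B
  hh : A + B < h

theorem Std.hB (H : Std T A B h tu) : B ≤ h := by linarith [H.hA, H.hh]

/-- types of the tiles -/
def Typ (W : ℤ → ℤ × ℤ) (tu : Ty → Tn) (ty : ZMod M → Ty) : Prop := ∀ k, tu (ty k) = tn W (zc k)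

theorem Typ.eq (P : FPath M W) {ty : ZMod M → Ty} (h : Typ W tu ty) (a : ℤ) :
    tu (ty a) = tn W a := by
  rw [h, tn_dvd P (zc_dvd a)]


theorem pre_Q (P : FPath M W) (H : Std T A B h tu) (a : ℤ) :
    (frm P h a).e.symm ⁻¹' T.Q = GB A B h W a := by
  ext s
  rw [mem_preimage, H.Q, mem_WQ]

theorem pre_D (P : FPath M W) (H : Std T A B h tu) {t : Ty} {a : ℤ} (ht : tu t = tn W a) :
    (frm P h a).e.symm ⁻¹' T.D t = TB A B h W a := by
  ext s
  rw [mem_preimage, H.D, ht, mem_WD]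

/-- **the path** -/
def pth (P : FPath M W) (H : Std T A B h tu) (ty : ZMod M → Ty) (hty : Typ W tu ty) :
    Pth T (ZMod M) (ZMod M) where
  src k := k
  tgt k := k + 1
  ty := ty
  fr i := frm P h (zc i)
  step k z := by
    rw [frm_dvd P (zc_succ k), frm_succ, H.nx, hty]
  BB i j hij := by
    rw [pre_Q P H, pre_Q P H]
    exact GB_GB P H.hA H.hAB H.hh (zc_ne hij)
  CC i j hij := by
    rw [pre_D P H (hty i), pre_D P H (hty j)]
    exact TB_TB P H.hA H.hAB H.hh (zc_ne hij)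
  BC i k := by
    rw [pre_Q P H, pre_D P H (hty k)]
    exact GB_TB P H.hA H.hAB H.hh _ _

section path

variable [DecidableEq (ZMod M)] (P : FPath M W) (H : Std T A B h tu) {ty : ZMod M → Ty}
  (hty : Typ W tu ty)

omit [DecidableEq (ZMod M)] in
@[simp] theorem pth_src (k : ZMod M) : (pth P H ty hty).src k = k := rfl

omit [DecidableEq (ZMod M)] in
@[simp] theorem pth_tgt (k : ZMod M) : (pth P H ty hty).tgt k = k + 1 := rfl

omit [DecidableEq (ZMod M)] in
@[simp] theorem pth_ty (k : ZMod M) : (pth P H ty hty).ty k = ty k := rfl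

omit [DecidableEq (ZMod M)] in
theorem pth_fr (a : ℤ) : (pth P H ty hty).fr a = frm P h a := frm_dvd P (zc_dvd a) h

theorem net_B (a : ℤ) : (pth P H ty hty).net.B a = GB A B h W a := by
  change (frm P h (zc (a : ZMod M))).e.symm ⁻¹' T.Q = _
  rw [pre_Q P H, GB_dvd P (zc_dvd a)]

theorem net_C (a : ℤ) : (pth P H ty hty).net.C a = TB A B h W a := by
  change (frm P h (zc (a : ZMod M))).e.symm ⁻¹' T.D (ty a) = _
  rw [pre_D P H (hty a), TB_dvd P (zc_dvd a)]



theorem net_N (k : ZMod M) : (pth P H ty hty).net.N k = {k, k + 1} := rfl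

end path

/-! ### windows -/

/-- the window of length `n` is proper -/
def Pr (M n : ℕ) : Prop := M = 0 ∨ n < M

theorem zc_lt {n i : ℕ} (h : Pr M n) (hi : i ≤ n) : zc ((i : ℤ) : ZMod M) = i := by
  unfold zc
  rw [ZMod.coe_intCast]
  rcases h with h | h
  · subst h
    simp
  · exact Int.emod_eq_of_lt (by positivity) (by exact_mod_cast hi.trans_lt h)

theorem add_inj {n i j : ℕ} (h : Pr M n) (hi : i ≤ n) (hj : j ≤ n) {a : ℤ}
    (he : ((a + (i : ℤ) : ℤ) : ZMod M) = ((a + (j : ℤ) : ℤ) : ZMod M)) : i = j := by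
  have e : ((i : ℤ) : ZMod M) = ((j : ℤ) : ZMod M) := by
    push_cast at he ⊢
    exact add_left_cancel he
  have := congrArg zc e
  rw [zc_lt h hi, zc_lt h hj] at this
  exact_mod_cast this

/-- **the window of the tiles `a, .., a + n - 1`** -/
def win (P : FPath M W) (H : Std T A B h tu) {ty : ZMod M → Ty} (hty : Typ W tu ty) {n : ℕ}
    (hn : Pr M n) (a : ℤ) {τ : ℕ → Ty} (hτ : ∀ j < n, ty ((a + (j : ℤ) : ℤ) : ZMod M) = τ j) :
    Win (pth P H ty hty) n τ where
  i j := ((a + (j : ℤ) : ℤ) : ZMod M)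
  k j := ((a + (j : ℤ) : ℤ) : ZMod M)
  src j _ := rfl
  tgt j _ := by
    show ((a + (j : ℤ) : ℤ) : ZMod M) + 1 = ((a + ((j + 1 : ℕ) : ℤ) : ℤ) : ZMod M)
    push_cast
    ring
  ty j hj := hτ j hj
  injI i hi j hj hij := add_inj hn hi hj hij
  injK i hi j hj hij := add_inj hn hi.le hj.le hij

section window

variable (P : FPath M W) (H : Std T A B h tu) {ty : ZMod M → Ty} (hty : Typ W tu ty) {n : ℕ}
    (hn : Pr M n) (a : ℤ) {τ : ℕ → Ty} (hτ : ∀ j < n, ty ((a + (j : ℤ) : ℤ) : ZMod M) = τ j)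

theorem win_fr : (win P H hty hn a hτ).fr = frm P h a := by
  change frm P h (zc ((a + ((0 : ℕ) : ℤ) : ℤ) : ZMod M)) = _
  rw [Nat.cast_zero, add_zero, frm_dvd P (zc_dvd a)]

theorem win_I [DecidableEq (ZMod M)] :
    (win P H hty hn a hτ).I = (Finset.range (n + 1)).image fun j : ℕ => ((a + (j : ℤ) : ℤ) : ZMod M) :=
  rfl

theorem win_J [DecidableEq (ZMod M)] :
    (win P H hty hn a hτ).J = (Finset.range n).image fun j : ℕ => ((a + (j : ℤ) : ℤ) : ZMod M) := rfl

/-- **the tiles are inside the region of the window** -/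
theorem RR_reg [DecidableEq (ZMod M)] {j : ℕ} (hj : j < n) :
    RR A B h W (a + j) ⊆ (win P H hty hn a hτ).reg := by
  intro s hs
  unfold Win.reg Net.reg
  have hI : ∀ i ≤ n, s ∈ GB A B h W (a + (i : ℤ)) →
      s ∈ ⋃ i ∈ (win P H hty hn a hτ).I, (pth P H ty hty).net.B i := by
    intro i hi h1
    refine mem_iUnion₂.2 ⟨((a + (i : ℤ) : ℤ) : ZMod M), ?_, ?_⟩
    · rw [win_I]
      exact Finset.mem_image_of_mem _ (Finset.mem_range.2 (by omega))
    · rw [net_B]
      exact h1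
  by_cases h1 : s ∈ GB A B h W (a + (j : ℤ))
  · exact Or.inl (hI j hj.le h1)
  by_cases h2 : s ∈ GB A B h W (a + (j : ℤ) + 1)
  · exact Or.inl (hI (j + 1) hj (by
      rwa [show a + ((j + 1 : ℕ) : ℤ) = a + (j : ℤ) + 1 by push_cast; ring]))
  refine Or.inr (mem_iUnion₂.2 ⟨((a + (j : ℤ) : ℤ) : ZMod M), ?_, ?_⟩)
  · rw [win_J]
    exact Finset.mem_image_of_mem _ (Finset.mem_range.2 hj)
  · rw [net_C]
    exact ⟨hs, fun h3 => h3.elim h1 h2⟩

theorem reg_sub [DecidableEq (ZMod M)] :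
    (win P H hty hn a hτ).reg ⊆ (⋃ j ∈ Finset.range (n + 1), GB A B h W (a + (j : ℤ))) ∪
      ⋃ j ∈ Finset.range n, RR A B h W (a + (j : ℤ)) := by
  intro s hs
  rcases hs with hs | hs
  · obtain ⟨i, hi, hs⟩ := mem_iUnion₂.1 hs
    rw [win_I] at hi
    obtain ⟨j, hj, rfl⟩ := Finset.mem_image.1 hi
    rw [net_B] at hs
    exact Or.inl (mem_iUnion₂.2 ⟨j, hj, hs⟩)
  · obtain ⟨i, hi, hs⟩ := mem_iUnion₂.1 hs
    rw [win_J] at hi
    obtain ⟨j, hj, rfl⟩ := Finset.mem_image.1 hi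
    rw [net_C] at hs
    exact Or.inr (mem_iUnion₂.2 ⟨j, hj, hs.1⟩)

end window

/-! ### the straight path -/

/-- the straight path -/
def lineW (a : ℤ) : ℤ × ℤ := (a, 0)

theorem line : FPath 0 lineW where
  per a := by simp
  step a := by
    left
    simp [lineW]
  turn a := by
    simp [lineW]
  simple a b hab := by
    have h1 : a = b := by
      have := congrArg Prod.fst hab
      simpa [lineW] using this
    rw [h1]
    simp

theorem line_tn (a : ℤ) : tn lineW a = Tn.S := by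
  rw [tn_eq_S line]
  simp [lineW]

theorem line_typ {t : Ty} (ht : tu t = Tn.S) : Typ (M := 0) lineW tu fun _ => t := by
  intro k
  rw [line_tn, ht]

/-- **ONE NUMBER**: the mean under the weight of any piece of the path which contains the window -/
theorem one_number {M' : ℕ} [DecidableEq (ZMod M)] [DecidableEq (ZMod M')] {W' : ℤ → ℤ × ℤ}
    (P : FPath M W) (P' : FPath M' W')
    (H : Std T A B h tu) {ty : ZMod M → Ty} (hty : Typ W tu ty) {ty' : ZMod M' → Ty}
    (hty' : Typ W' tu ty') {n : ℕ} (hn : Pr M n) (hn' : Pr M' n) (a a' : ℤ) {τ : ℕ → Ty}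
    (hτ : ∀ j < n, ty ((a + (j : ℤ) : ℤ) : ZMod M) = τ j)
    (hτ' : ∀ j < n, ty' ((a' + (j : ℤ) : ℤ) : ZMod M') = τ j)
    (hA0 : ∫⁻ ω, T.A (cfg ε ω) ∂sampleLaw ≠ 0) {I J : Finset (ZMod M')}
    (hI : (win P' H hty' hn' a' hτ').I ⊆ I) (hJ : (win P' H hty' hn' a' hτ').J ⊆ J)
    (hN : ∀ k ∈ J, k ∈ I ∧ k + 1 ∈ I) {V V' V0 : Cf → ℂ} {u u' : ℂ} (hu : u ≠ 0)
    (hV : LocalOn (win P H hty hn a hτ).reg V) (hVm : FinMeas V)
    (hV' : LocalOn (win P' H hty' hn' a' hτ').reg V') (hVm' : FinMeas V')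
    (hc : ∀ S : Cf, S.Finite → V (mv (frm P h a).e S) = u * V0 S)
    (hc' : ∀ S : Cf, S.Finite → V' (mv (frm P' h a').e S) = u' * V0 S) :
    ∫ ω, (((pth P' H ty' hty').net.gw I J (cfg ε ω)).toReal : ℂ) * V' (cfg ε ω) ∂sampleLaw =
      ((∫⁻ ω, (pth P' H ty' hty').net.gw I J (cfg ε ω) ∂sampleLaw).toReal : ℂ) *
        (u' / u * (win P H hty hn a hτ).m V) := by
  rw [(win P' H hty' hn' a' hτ').mean hA0 hI hJ hN hV' hVm']
  rw [(win P H hty hn a hτ).same' (win P' H hty' hn' a' hτ') hu hV hVm hV' hVm'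
    (by rw [win_fr]; exact hc) (by rw [win_fr]; exact hc')]

end Crest.Agent.R143.PthFx765
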