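import Crest.Agent.R143.SpR2_169
import Crest.Agent.R143.TplI_204
import Crest.Agent.R143.PthG_765
import Crest.Agent.R143.CorH_713

-- ▼ part R143/SpV_169
section

/-!
# Row 143 (S0194), CORE-C, box R6: the spatial charge of a tile as a function of the configuration
(helper169)

Path `P : FPath M W`, template data `D` (204's `DT`), field `f` on triangles.

* `gt D P a`, `St D P a` : the gate `a` and its selected dart
* `AC D P r f a` : charge of the arc of the tile `a`; `reg3 D W a` : the tiles `a, a + 1, a + 2`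
* **`VT D P r f a X`** : spatial charge of the tile `a + 1`: the sum of the arcs `a, a + 1, a + 2` with the
  field `f 1_{centre in Rg (a + 1)}`, evaluated on `X ∩ ovr reg3`; defined for every configuration
* `VT_fm`, `VT_local` : measurability and locality (765's window of three tiles)
* `cen3_mo`, **`VT_mv`** : covariance; **`VT_cov`** : in the frames
* **`VX_VT`** : 832's `VX` is `VT` on dense configurations
-/

set_option autoImplicit false
set_option linter.all false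

noncomputable section

open scoped Classical

namespace Crest.Agent.R143.SpVx169

open Set MeasureTheory
open Crest.ProbabilityR.Voronoi
open Crest.Agent.R143.B0x346 Crest.Agent.R143.DelGx806 Crest.Agent.R143.DelRx806
  Crest.Agent.R143.JColx54
open Crest.Agent.R143.Frame10x395
open Crest.Agent.R143.Locx922
open Crest.Agent.R143.Gatex838 (X Y)
open Crest.Agent.R143.PP0x831 Crest.Agent.R143.Poisx304 Crest.Agent.R143.Janx304
open Crest.Agent.R143.Prodx609 Crest.Agent.R143.FinMx609 Crest.Agent.R143.FinM2x609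
open Crest.Agent.R143.CovBx126 (Mo)
open Crest.Agent.R143.WLocx713 Crest.Agent.R143.PWx978 Crest.Agent.R143.Tplx978
open Crest.Agent.R143.TileRx228 Crest.Agent.R143.PthFx765 Crest.Agent.R143.TplIx204
open Crest.Agent.R143.SpRx169 Crest.Agent.R143.Sptx832 Crest.Agent.R143.Sptx169
open scoped ENNReal

/-! ### restriction of a measurable functional -/


/-- restriction to a Borel set keeps `FinMeas`, any values -/
theorem fm_cut {Y : Type*} [MeasurableSpace Y] {F : Cf → Y} (hF : FinMeas F) {D : Set ℂ}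
    (hD : MeasurableSet D) : FinMeas fun X => F (X ∩ ovr D) := by
  intro n s hs
  have h0 : FinMeas fun X : Cf => F X ∈ s := fun m => measurableSet_setOfPred.1 (hF m hs)
  exact measurableSet_setOfPred.2 (fm_interP h0 hD n)

theorem fm_sum {ι : Type*} (s : Finset ι) {F : ι → Cf → ℂ} (h : ∀ i ∈ s, FinMeas (F i)) :
    FinMeas fun X => ∑ i ∈ s, F i X := fun n =>
  Finset.measurable_sum s fun i hi => h i hi n

/-! ### the circumcentre -/

theorem cr_mo {c : ℂ} (hc : ‖c‖ = 1) (x y : ℂ) : cr (c * x) (c * y) = cr x y := by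
  have h : c.re * c.re + c.im * c.im = 1 := by
    have := Complex.normSq_apply c
    rw [Complex.normSq_eq_norm_sq, hc] at this
    linarith
  unfold cr
  simp only [Complex.mul_re, Complex.mul_im]
  linear_combination (x.re * y.im - x.im * y.re) * h

/-- **the circumcentre moves with the triangle** (all triples) -/
theorem cen3_mo {φ : ℂ ≃ ℂ} {c : ℂ} (h : Mo φ c) (t : ℂ × ℂ × ℂ) :
    cen3 (φ t.1, φ t.2.1, φ t.2.2) = φ (cen3 t) := by
  have e : ∀ z w, φ z = φ w + c * (z - w) := fun z w => by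
    rw [← h.sub]
    ring
  rw [e (cen3 t) t.1]
  unfold cen3
  simp only
  rw [h.sub, h.sub, norm_mul, norm_mul, h.ne, one_mul, one_mul, cr_mo h.ne]
  ring

/-! ### gates and arcs of a path -/

variable {M : ℕ} {W : ℤ → ℤ × ℤ} (D : DT) (P : FPath M W) (r : ℝ)

/-- the gate `a` -/
def gt (a : ℤ) : GPar := D.g.mv (frm P D.h a).e (ge W a)

/-- the box of the gate `a` -/
def Gb (W : ℤ → ℤ × ℤ) (a : ℤ) : Set ℂ := GB D.A' D.B' D.h W a

/-- the selected dart of the gate `a` -/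
def St (a : ℤ) : Cf → ℂ × ℂ → Prop := LG (gt D P a) (Gb D W a)

/-- charge of the arc of the tile `a` -/
def AC (f : ℂ × ℂ × ℂ → ℂ) (a : ℤ) (X : Cf) : ℂ :=
  zC f (RR (D.A + r) (D.B + r) D.h W a) (St D P a) (St D P (a + 1)) X

/-- the three tiles `a, a + 1, a + 2` -/
def reg3 (W : ℤ → ℤ × ℤ) (a : ℤ) : Set ℂ :=
  ⋃ j ∈ Finset.range 3, RR D.A' D.B' D.h W (a + (j : ℤ))

/-- **spatial charge of the tile `a + 1`** -/
def VT (f : ℂ × ℂ × ℂ → ℂ) (a : ℤ) (X : Cf) : ℂ :=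
  ∑ j ∈ Finset.range 3, AC D P r (fQ f (Rg D.h W (a + 1))) (a + (j : ℤ)) (X ∩ ovr (reg3 D W a))

/-! ### measurability and locality -/

theorem RR_meas (A B h : ℝ) (W : ℤ → ℤ × ℤ) (a : ℤ) : MeasurableSet (RR A B h W a) := by
  have key : ∀ c u : ℂ, MeasurableSet (Arm A B c u) := by
    intro c u
    have h1 : Measurable (X c u) := by unfold Gatex838.X; fun_prop
    have h2 : Measurable (Y c u) := by unfold Gatex838.Y; fun_prop
    exact ((measurableSet_lt measurable_const h1).inter (measurableSet_lt h1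
      measurable_const)).inter (measurableSet_lt (continuous_abs.measurable.comp h2)
        measurable_const)
  exact (key _ _).union (key _ _)

include P in
theorem Gb_meas (a : ℤ) : MeasurableSet (Gb D W a) := by
  have h : (frm P D.h a).e.symm ⁻¹' WQ D.A' D.B' D.h = Gb D W a := by
    ext s
    exact mem_WQ P a s
  rw [← h]
  exact (frm P D.h a).e.symm.measurable WQ_meas

theorem reg3_meas (a : ℤ) : MeasurableSet (reg3 D W a) :=
  Finset.measurableSet_biUnion _ fun j _ => RR_meas _ _ _ _ _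

theorem AC_fm {f : ℂ × ℂ × ℂ → ℂ} (hf : Measurable f) (a : ℤ) : FinMeas (AC D P r f a) :=
  zC_neck_fme (RR_meas _ _ _ _ _) (Gb_meas D P a) (Gb_meas D P (a + 1)) _ _ hf

/-- **measurable** -/
theorem VT_fm {f : ℂ × ℂ × ℂ → ℂ} (hf : Measurable f) (a : ℤ) : FinMeas (VT D P r f a) :=
  fm_sum _ fun j _ => fm_cut (AC_fm D P r (fQ_meas hf (Rg_meas _ _ _)) _) (reg3_meas D a)

/-- **local** -/
theorem VT_local3 (f : ℂ × ℂ × ℂ → ℂ) (a : ℤ) : LocalOn (reg3 D W a) (VT D P r f a) := by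
  intro S
  show VT D P r f a S = VT D P r f a (S ∩ ovr (reg3 D W a))
  unfold VT
  rw [inter_ovr2]

/-- the three tiles are inside 765's window -/
theorem reg3_win {ε : ℝ} {Ty : Type*} {T : Tpl ε Ty} {tu : Ty → Tn} [DecidableEq (ZMod M)]
    (H : Std T D.A' D.B' D.h tu) {ty : ZMod M → Ty} (hty : Typ W tu ty) (hn : Pr M 3) (a : ℤ)
    {τ : ℕ → Ty} (hτ : ∀ j : ℕ, j < 3 → ty ((a + (j : ℤ) : ℤ) : ZMod M) = τ j) :
    reg3 D W a ⊆ (win P H hty hn a hτ).reg := by
  intro s hs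
  obtain ⟨j, hj, hs⟩ := mem_iUnion₂.1 hs
  exact RR_reg P H hty hn a hτ (Finset.mem_range.1 hj) hs

/-- **local in 765's window** -/
theorem VT_local {ε : ℝ} {Ty : Type*} {T : Tpl ε Ty} {tu : Ty → Tn} [DecidableEq (ZMod M)]
    (H : Std T D.A' D.B' D.h tu) {ty : ZMod M → Ty} (hty : Typ W tu ty) (hn : Pr M 3) (a : ℤ)
    {τ : ℕ → Ty} (hτ : ∀ j : ℕ, j < 3 → ty ((a + (j : ℤ) : ℤ) : ZMod M) = τ j) (f : ℂ × ℂ × ℂ → ℂ) :
    LocalOn (win P H hty hn a hτ).reg (VT D P r f a) :=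
  IndLocx279.LocalOn.mono (reg3_win D P H hty hn a hτ) (VT_local3 D P r f a)

/-! ### covariance -/

section cov

variable {D P r} {M' : ℕ} {W' : ℤ → ℤ × ℤ} {P' : FPath M' W'} {a a' : ℤ} {φ : ℂ ≃ ℂ} {c : ℂ}

/-- the motion `φ` carries the tiles `a, .., a + n - 1` of `P` to the tiles `a', ..` of `P'` -/
structure Fit (D : DT) (P : FPath M W) (P' : FPath M' W') (a a' : ℤ) (n : ℕ) (φ : ℂ ≃ ℂ) (c : ℂ) :
    Prop where
  mo : Mo φ c
  fr : ∀ j : ℕ, j ≤ n → ∀ z, (frm P' D.h (a' + j)).e z = φ ((frm P D.h (a + j)).e z)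
  ge : ∀ j : ℕ, j ≤ n → TileRx228.ge W' (a' + j) = c * TileRx228.ge W (a + j)
  tn : ∀ j : ℕ, j < n → PthFx765.tn W' (a' + j) = PthFx765.tn W (a + j)

theorem Fit.symm_fr {n : ℕ} (F : Fit D P P' a a' n φ c) {j : ℕ} (hj : j ≤ n) (s : ℂ) :
    (frm P' D.h (a' + j)).e.symm (φ s) = (frm P D.h (a + j)).e.symm s := by
  have h := F.fr j hj ((frm P D.h (a + j)).e.symm s)
  rw [(frm P D.h (a + j)).e.apply_symm_apply] at h
  rw [← h, (frm P' D.h (a' + j)).e.symm_apply_apply]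

theorem Fit.gt {n : ℕ} (F : Fit D P P' a a' n φ c) {j : ℕ} (hj : j ≤ n) :
    SpVx169.gt D P' (a' + j) = (SpVx169.gt D P (a + j)).mv φ c := by
  unfold SpVx169.gt GPar.mv
  simp only
  rw [F.fr j hj, F.ge j hj, mul_assoc]

theorem Fit.Gb {n : ℕ} (F : Fit D P P' a a' n φ c) {j : ℕ} (hj : j ≤ n) (s : ℂ) :
    φ s ∈ SpVx169.Gb D W' (a' + j) ↔ s ∈ SpVx169.Gb D W (a + j) := by
  unfold SpVx169.Gb
  rw [← mem_WQ P', ← mem_WQ P, F.symm_fr hj]

theorem Fit.RR {n : ℕ} (F : Fit D P P' a a' n φ c) {j : ℕ} (hj : j < n) (A B : ℝ) (s : ℂ) :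
    φ s ∈ TileRx228.RR A B D.h W' (a' + j) ↔ s ∈ TileRx228.RR A B D.h W (a + j) := by
  rw [← mem_WR P', ← mem_WR P, F.symm_fr hj.le, F.tn j hj]

theorem Fit.Rg {n : ℕ} (F : Fit D P P' a a' n φ c) {j : ℕ} (hj : j ≤ n) (s : ℂ) :
    φ s ∈ SpRx169.Rg D.h W' (a' + j) ↔ s ∈ SpRx169.Rg D.h W (a + j) := by
  unfold SpRx169.Rg Sq
  rw [mem_ofPred_eq, mem_ofPred_eq, ← frm_re P', ← frm_im P', ← frm_re P, ← frm_im P,
    F.symm_fr hj]

theorem Fit.reg3 (F : Fit D P P' a a' 3 φ c) (s : ℂ) :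
    φ s ∈ SpVx169.reg3 D W' a' ↔ s ∈ SpVx169.reg3 D W a := by
  unfold SpVx169.reg3
  rw [mem_iUnion₂, mem_iUnion₂]
  exact exists_congr fun j => exists_congr fun hj => F.RR (Finset.mem_range.1 hj) _ _ s

/-- the restricted field -/
theorem fQ_mo (h : Mo φ c) {f f' : ℂ × ℂ × ℂ → ℂ} {k : ℂ}
    (hf : ∀ t, f' (φ t.1, φ t.2.1, φ t.2.2) = k * f t) {Q Q' : Set ℂ}
    (hQ : ∀ s, φ s ∈ Q' ↔ s ∈ Q) (t : ℂ × ℂ × ℂ) :
    fQ f' Q' (φ t.1, φ t.2.1, φ t.2.2) = k * fQ f Q t := by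
  unfold fQ
  rw [cen3_mo h]
  by_cases h1 : cen3 t ∈ Q
  · rw [if_pos h1, if_pos ((hQ _).2 h1), hf]
  · rw [if_neg h1, if_neg (fun h2 => h1 ((hQ _).1 h2)), mul_zero]

/-- covariance of one arc -/
theorem AC_mv {n : ℕ} (F : Fit D P P' a a' n φ c) {j : ℕ} (hj : j < n) {f f' : ℂ × ℂ × ℂ → ℂ}
    {k : ℂ} (hf : ∀ t, f' (φ t.1, φ t.2.1, φ t.2.2) = k * f t) (X : Cf) :
    AC D P' r f' (a' + j) (mvX φ X) = k * AC D P r f (a + j) X := by
  have e1 : a' + (j : ℤ) + 1 = a' + ((j + 1 : ℕ) : ℤ) := by push_cast; ring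
  have e2 : a + (j : ℤ) + 1 = a + ((j + 1 : ℕ) : ℤ) := by push_cast; ring
  unfold AC St
  rw [e1, e2, F.gt hj.le, F.gt (Nat.succ_le_of_lt hj)]
  exact zC_gate_mv F.mo _ _ (F.RR hj _ _) (F.Gb hj.le) (F.Gb (Nat.succ_le_of_lt hj)) hf

/-- **covariance of the spatial charge** -/
theorem VT_mv (F : Fit D P P' a a' 3 φ c) {f f' : ℂ × ℂ × ℂ → ℂ}
    {k : ℂ} (hf : ∀ t, f' (φ t.1, φ t.2.1, φ t.2.2) = k * f t) (X : Cf) :
    VT D P' r f' a' (mvX φ X) = k * VT D P r f a X := by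
  have hR : ∀ s, φ s ∈ SpRx169.Rg D.h W' (a' + 1) ↔ s ∈ SpRx169.Rg D.h W (a + 1) := by
    intro s
    have := F.Rg (j := 1) (by norm_num) s
    exact this
  unfold VT
  rw [mvX_inter (X := X) F.reg3, Finset.mul_sum]
  refine Finset.sum_congr rfl fun j hj => ?_
  exact AC_mv F (Finset.mem_range.1 hj) (fQ_mo F.mo hf hR) _

/-- tiles of equal types fit -/
theorem fit_of {n : ℕ} (P : FPath M W) (P' : FPath M' W')
    (h : ∀ j : ℕ, j < n → PthFx765.tn W' (a' + j) = PthFx765.tn W (a + j)) :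
    Fit D P P' a a' n ((frm P D.h a).e.symm.trans (frm P' D.h a').e).toEquiv
      (TileRx228.ge W' a' / TileRx228.ge W a) := by
  have g0 : TileRx228.ge W a ≠ 0 := TileRx228.ge_ne P a
  have hge : ∀ j : ℕ, j ≤ n → TileRx228.ge W' (a' + j) =
      TileRx228.ge W' a' / TileRx228.ge W a * TileRx228.ge W (a + j) := by
    intro j
    induction j with
    | zero =>
      intro _
      rw [Nat.cast_zero, add_zero, add_zero, div_mul_cancel₀ _ g0]
    | succ j ih =>
      intro hj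
      have e1 : a' + ((j + 1 : ℕ) : ℤ) = a' + j + 1 := by push_cast; ring
      have e2 : a + ((j + 1 : ℕ) : ℤ) = a + j + 1 := by push_cast; ring
      rw [e1, e2, ge_succ P', ge_succ P, ih (by omega), h j (by omega)]
      ring
  have hfr : ∀ j : ℕ, j ≤ n → ∀ z, (frm P' D.h (a' + j)).e z =
      (frm P' D.h a').e ((frm P D.h a).e.symm ((frm P D.h (a + j)).e z)) := by
    intro j
    induction j with
    | zero =>
      intro _ z
      rw [Nat.cast_zero, add_zero, add_zero, (frm P D.h a).e.symm_apply_apply]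
    | succ j ih =>
      intro hj z
      have e1 : a' + ((j + 1 : ℕ) : ℤ) = a' + j + 1 := by push_cast; ring
      have e2 : a + ((j + 1 : ℕ) : ℤ) = a + j + 1 := by push_cast; ring
      rw [e1, e2, frm_succ, frm_succ, ih (by omega), h j (by omega)]
  refine ⟨⟨?_, ?_⟩, hfr, hge, h⟩
  · rw [norm_div, norm_ge P', norm_ge P, div_one]
  · intro z w
    show (frm P' D.h a').e ((frm P D.h a).e.symm z) - (frm P' D.h a').e ((frm P D.h a).e.symm w) =
      _
    rw [frm_apply, frm_apply, frm_symm, frm_symm]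
    field_simp
    ring

/-- **covariance in the frames**: the template form (978's `same'`, 765's `one_number`) -/
theorem VT_cov (P : FPath M W) (P' : FPath M' W')
    (h : ∀ j : ℕ, j < 3 → PthFx765.tn W' (a' + j) = PthFx765.tn W (a + j))
    {f : ℂ × ℂ × ℂ → ℂ} {k : ℂ}
    (hf : ∀ (φ : ℂ ≃ ℂ), Mo φ (TileRx228.ge W' a' / TileRx228.ge W a) →
      ∀ t, f (φ t.1, φ t.2.1, φ t.2.2) = k * f t) (S : Cf) :
    VT D P' r f a' (mv (frm P' D.h a').e S) = k * VT D P r f a (mv (frm P D.h a).e S) := by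
  have F := fit_of (D := D) P P' h
  have e : mv (frm P' D.h a').e S =
      mvX ((frm P D.h a).e.symm.trans (frm P' D.h a').e).toEquiv (mv (frm P D.h a).e S) := by
    have h1 : mv (frm P' D.h a').e (mv (frm P D.h a).e.symm (mv (frm P D.h a).e S)) =
        mvX ((frm P D.h a).e.symm.trans (frm P' D.h a').e).toEquiv (mv (frm P D.h a).e S) := by
      rw [mv_mv]
      rfl
    rw [← h1, mv_symm_mv]
  rw [e]
  exact VT_mv F (hf _ F.mo) _

end cov

/-! ### the charge `Nn` -/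


/-- **ONE NUMBER**: mean of the spatial charge under the weight of any piece of the corridor which
contains the window, compared with a reference window of the same types -/
theorem VT_mean {ε : ℝ} {Ty : Type*} {T : Tpl ε Ty} {tu : Ty → Tn} (H : Std T D.A' D.B' D.h tu)
    {M' : ℕ} {W' : ℤ → ℤ × ℤ} (P' : FPath M' W')
    {ty : ZMod M → Ty} (hty : Typ W tu ty) {ty' : ZMod M' → Ty} (hty' : Typ W' tu ty')
    (hn : Pr M 3) (hn' : Pr M' 3) (a a' : ℤ) {τ : ℕ → Ty}
    (hτ : ∀ j : ℕ, j < 3 → ty ((a + (j : ℤ) : ℤ) : ZMod M) = τ j)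
    (hτ' : ∀ j : ℕ, j < 3 → ty' ((a' + (j : ℤ) : ℤ) : ZMod M') = τ j)
    (hA0 : ∫⁻ ω, T.A (cfg ε ω) ∂sampleLaw ≠ 0) {I J : Finset (ZMod M')}
    (hI : (win P' H hty' hn' a' hτ').I ⊆ I) (hJ : (win P' H hty' hn' a' hτ').J ⊆ J)
    (hN : ∀ k ∈ J, k ∈ I ∧ k + 1 ∈ I) {f : ℂ × ℂ × ℂ → ℂ} (hfm : Measurable f) {k : ℂ}
    (hf : ∀ (φ : ℂ ≃ ℂ), Mo φ (TileRx228.ge W' a' / TileRx228.ge W a) →
      ∀ t, f (φ t.1, φ t.2.1, φ t.2.2) = k * f t) :
    ∫ ω, (((pth P' H ty' hty').net.gw I J (cfg ε ω)).toReal : ℂ) * VT D P' r f a' (cfg ε ω)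
        ∂sampleLaw =
      ((∫⁻ ω, (pth P' H ty' hty').net.gw I J (cfg ε ω) ∂sampleLaw).toReal : ℂ) *
        (k * (win P H hty hn a hτ).m (VT D P r f a)) := by
  have htn : ∀ j : ℕ, j < 3 → PthFx765.tn W' (a' + j) = PthFx765.tn W (a + j) := by
    intro j hj
    have e1 := Typ.eq P' hty' (a' + j)
    have e2 := Typ.eq P hty (a + j)
    rw [← e1, ← e2]
    have h1 := hτ j hj
    have h2 := hτ' j hj
    rw [h1, h2]
  have h := one_number (V := VT D P r f a) (V' := VT D P' r f a') (u := 1) (u' := k)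
    (V0 := fun S => VT D P r f a (mv (frm P D.h a).e S)) P P' H hty hty' hn hn' a a' hτ hτ' hA0 hI hJ
    hN one_ne_zero (VT_local D P r H hty hn a hτ f) (VT_fm D P r hfm a)
    (VT_local D P' r H hty' hn' a' hτ' f) (VT_fm D P' r hfm a')
    (fun S _ => by rw [one_mul]) (fun S _ => VT_cov P P' htn hf S)
  rw [h, div_one]


/-! ### dense configurations: 832's functional -/

include P in
theorem Gb_reg3 (hA : 0 < D.A') (hB : D.B' ≤ D.h) {a : ℤ} {j : ℕ} (hj : j ≤ 3) :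
    Gb D W (a + j) ⊆ reg3 D W a := by
  intro s hs
  unfold reg3
  by_cases h3 : j < 3
  · exact mem_iUnion₂.2 ⟨j, Finset.mem_range.2 h3, GB_sub P hA hB _ hs⟩
  · have e : j = 2 + 1 := by omega
    subst e
    refine mem_iUnion₂.2 ⟨2, Finset.mem_range.2 (by norm_num), ?_⟩
    have h := GB_sub' P hA hB (a + (2 : ℕ))
    have e2 : a + ((2 : ℕ) : ℤ) + 1 = a + ((2 + 1 : ℕ) : ℤ) := by push_cast; ring
    rw [e2] at h
    exact h hs

theorem St_cut (hA : 0 < D.A') (hB : D.B' ≤ D.h) {a : ℤ} {j : ℕ} (hj : j ≤ 3) (X : Cf)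
    (p : ℂ × ℂ) : St D P (a + j) (X ∩ ovr (reg3 D W a)) p ↔ St D P (a + j) X p :=
  LG_cut (Gb_reg3 D P hA hB hj) p

/-- **one arc of a dense configuration** -/
theorem AC_cut {X : Cf} (hX : X.Finite) (hS : GP (ps X)) (hχ : HullC (sX X) (cX X)) {d : ℝ}
    (hd : 0 < d) (hA : 0 < D.A') (hB : D.B' ≤ D.h) (hA2 : D.A + r + 2 * d ≤ D.A')
    (hB2 : D.B + r + 2 * d ≤ D.B') {a : ℤ} {j : ℕ} (hj : j < 3)
    (hH : Hol (ps X) (RR (D.A + r) (D.B + r) D.h W (a + j)) d)
    (ho : ∀ p, St D P (a + j) X p → Occ (sX X) (cX X) p)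
    (ho' : ∀ p, St D P (a + (j + 1 : ℕ)) X p → Occ (sX X) (cX X) p) (f : ℂ × ℂ × ℂ → ℂ) :
    AC D P r f (a + j) (X ∩ ovr (reg3 D W a)) = AC D P r f (a + j) X := by
  have e1 : a + (j : ℤ) + 1 = a + ((j + 1 : ℕ) : ℤ) := by push_cast; ring
  unfold AC
  rw [e1]
  refine zC_cut hX hS hχ hd hH ?_ (St_cut D P hA hB hj.le X)
    (St_cut D P hA hB (Nat.succ_le_of_lt hj) X) ho ho' f
  intro w hw s hs
  refine mem_iUnion₂.2 ⟨j, Finset.mem_range.2 hj, ?_⟩
  exact RR_mono hA2 hB2 _ _ _ (RR_thick P hw hs.le)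

/-- **832's spatial charge is `VT`** (full tile `l`, `0 < l`, `l + 1 < n`, dense configuration) -/
theorem VX_VT {X : Cf} (hX : X.Finite) (hS : GP (ps X)) (hχ : HullC (sX X) (cX X)) {d : ℝ}
    (hd : 0 < d) (hA : 0 < D.A') (hB : D.B' ≤ D.h) (hA2 : D.A + r + 2 * d ≤ D.A')
    (hB2 : D.B + r + 2 * d ≤ D.B') {o : ℤ} {n l : ℕ} (h0 : 0 < l) (h1 : l + 1 < n)
    (hH : ∀ k, k < n → Hol (ps X) (RR (D.A + r) (D.B + r) D.h W (o + k)) d)
    (ho : ∀ k, k ≤ n → ∀ p, St D P (o + k) X p → Occ (sX X) (cX X) p) (f : ℂ × ℂ × ℂ → ℂ) :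
    VX f n (fun k => RR (D.A + r) (D.B + r) D.h W (o + k)) (QX D.h W o n) (fun k => St D P (o + k)) l X =
      VT D P r f (o + l - 1) X := by
  have hN : Near n l = (Finset.range 3).image fun j => l - 1 + j := by
    ext k
    rw [mem_near, Finset.mem_image]
    constructor
    · rintro ⟨a1, a2, a3⟩
      exact ⟨k - (l - 1), Finset.mem_range.2 (by omega), by omega⟩
    · rintro ⟨j, hj, rfl⟩
      rw [Finset.mem_range] at hj
      omega
  unfold VX VT
  rw [hN, Finset.sum_image (fun i _ j _ h => by simpa using h), qx_full h0 h1]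
  refine Finset.sum_congr rfl fun j hj => ?_
  have hj3 := Finset.mem_range.1 hj
  have e : ∀ i : ℕ, o + ((l - 1 + i : ℕ) : ℤ) = o + l - 1 + (i : ℤ) := by
    intro i
    push_cast [Nat.cast_sub (show 1 ≤ l by omega)]
    ring
  have e2 : o + (l : ℤ) - 1 + 1 = o + l := by ring
  have e3 : o + ((l - 1 + j + 1 : ℕ) : ℤ) = o + l - 1 + ((j + 1 : ℕ) : ℤ) := by
    rw [show l - 1 + j + 1 = l - 1 + (j + 1) by ring]
    exact e (j + 1)
  have e4 : o + (l : ℤ) - 1 + (j : ℤ) + 1 = o + l - 1 + ((j + 1 : ℕ) : ℤ) := by push_cast; ring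
  rw [e2, AC_cut D P r hX hS hχ hd hA hB hA2 hB2 hj3 (by rw [← e]; exact hH _ (by omega))
    (fun p hp => ho (l - 1 + j) (by omega) p (by rw [e]; exact hp))
    (fun p hp => ho (l - 1 + j + 1) (by omega) p (by rw [e3]; exact hp))]
  show zC (fQ f (Rg D.h W (o + l))) (RR (D.A + r) (D.B + r) D.h W (o + ((l - 1 + j : ℕ) : ℤ)))
    (St D P (o + ((l - 1 + j : ℕ) : ℤ))) (St D P (o + ((l - 1 + j + 1 : ℕ) : ℤ))) X =
    AC D P r (fQ f (Rg D.h W (o + l))) (o + l - 1 + j) X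
  unfold AC
  rw [e, e3, e4]

end Crest.Agent.R143.SpVx169
end
end

-- ▼ part R143/CorV_169

/-!
# Row 143 (S0194), CORE-C: spatial charges of 713's corridor `CorH` (helper169)

* `IsS D η` : the template data `D` (204) have 713's standard numbers; `gt_eq`, `St_eq`
* `CorH.qreg` : 832's regions (`QReg`) of the corridor
* `CorH.vx_vt` : 832's `VX` is `VT` (full tiles)
* **`CorH.vz_vt`** : the sum of the three `ZZ` of the planar colouring is `VT`
-/

set_option autoImplicit false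
set_option linter.all false

noncomputable section

open scoped Classical

namespace Crest.Agent.R143.CorVx169

open Set MeasureTheory
open Crest.Agent.R143.B0x346 Crest.Agent.R143.DelGx806 Crest.Agent.R143.DelRx806
  Crest.Agent.R143.JColx54
open Crest.Agent.R143.Frame1x395 Crest.Agent.R143.Frame2x395 Crest.Agent.R143.Frame3x395
  Crest.Agent.R143.Frame4x395 Crest.Agent.R143.Frame8x395 Crest.Agent.R143.Frame9x395
  Crest.Agent.R143.Frame10x395 Crest.Agent.R143.Frame11x395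
open Crest.Agent.R143.Frame5x395 (sd mem_sd th th_spec)
open Crest.Agent.R143.Locx922
open Crest.Agent.R143.Splx117 Crest.Agent.R143.WLocx713
open Crest.Agent.R143.PP0x831 Crest.Agent.R143.FinMx609 Crest.Agent.R143.PWx978
  Crest.Agent.R143.Tplx978
open Crest.Agent.R143.Janx304 (ovr)
open Crest.Agent.R143.TileRx228 Crest.Agent.R143.PthFx765 Crest.Agent.R143.TplIx204
open Crest.Agent.R143.CorHx713 Crest.Agent.R143.Sptx169 Crest.Agent.R143.Sptx832
  Crest.Agent.R143.SpRx169 Crest.Agent.R143.SpVx169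
open Crest.Agent.R143.RingDx117 (RD)

/-- the standard numbers -/
structure IsS (D : DT) (η : ℝ) : Prop where
  g : D.g = gO η
  A : D.A = 9 * η
  B : D.B = 51 * η
  A' : D.A' = 12 * η
  B' : D.B' = 52 * η
  h : D.h = 100 * η

variable {D : DT} {M : ℕ} {W : ℤ → ℤ × ℤ} {η d : ℝ} {X : Set (ℂ × Bool)} {U : Set ℂ} {o : ℤ}
  {n : ℕ}

theorem gt_eq (s : IsS D η) (P : FPath M W) (a : ℤ) : gt D P a = gA η W a := by
  unfold gt
  rw [s.g]
  refine gA_mv ?_
  rw [frm_apply, mul_zero, add_zero, s.h]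

theorem Gb_eq (s : IsS D η) (a : ℤ) : Gb D W a = QA η W a := by
  unfold Gb QA
  rw [s.A', s.B', s.h]

theorem St_eq (s : IsS D η) (P : FPath M W) (a : ℤ) : St D P a = LG (gA η W a) (QA η W a) := by
  unfold St
  rw [gt_eq s, Gb_eq s]


/-- **832's spatial charge is `VT`** -/
theorem _root_.Crest.Agent.R143.CorHx713.CorH.vx_vt (H : CorH X U M W η d o n) (s : IsS D η)
    {l : ℕ} (h0 : 0 < l) (h1 : l + 1 < n) (f : ℂ × ℂ × ℂ → ℂ) :
    VX f n (fun k => RR (19 / 2 * η) (103 / 2 * η) (100 * η) W (o + k)) (QX (100 * η) W o n)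
      (fun k => LG (gA η W (o + k)) (QA η W (o + k))) l X =
      VT D H.path (η / 2) f (o + l - 1) X := by
  have e1 := H.e0
  have e2 := H.d0
  have e3 := H.de
  have hgp : GP (ps X) := by
    rw [← coe_sX H.fin]
    exact H.gp
  have hA : D.A + η / 2 = 19 / 2 * η := by rw [s.A]; ring
  have hB : D.B + η / 2 = 103 / 2 * η := by rw [s.B]; ring
  have h := VX_VT D H.path (η / 2) H.fin hgp H.hull e2 (by rw [s.A']; linarith)
    (by rw [s.B', s.h]; linarith) (by rw [hA, s.A']; linarith) (by rw [hB, s.B']; linarith)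
    (o := o) (n := n) h0 h1 (fun k _ w hw => by
      refine H.hol w (H.sub_U (A := 19 / 2 * η) (B := 103 / 2 * η) (by linarith) (by linarith)
        (o + k) ?_)
      rw [hA, hB, s.h] at hw
      exact hw) (fun k _ p hp => by
      rw [St_eq s] at hp
      exact LG_occ H.fin H.hull e2 (H.holw _) (H.win_Q _) hp) f
  rw [← h, hA, hB, s.h]
  congr 1
  funext k
  exact (St_eq s H.path _).symm


end Crest.Agent.R143.CorVx169
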