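import Crest.Agent.R143.Frame5_395
import Crest.Agent.R143.Osc_63

-- ▼ part R143/Frame6_395
section

/-!
# Row 143 (S0194), part B without E3: the tight frame, part 6 (helper395, after helper493)

* `toY` : the configuration of a join
* `ends_iff` : the walkers of `B0_346` and of `Frame1_395`
* `tri3_iff_T` : three legs = theta with the source face
* `frame` : **`HNet S N` ⟹ `∑ ‖N.Q t‖² ≤ 1`** over representatives of the triangles
-/

set_option autoImplicit false

noncomputable section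

open scoped Classical

namespace Crest.Agent.R143.Frame6x395

open Crest.Agent.R143.B0x346 Crest.Agent.R143.DelGx806 Crest.Agent.R143.DelRx806
  Crest.Agent.R143.JColx54 Crest.Agent.R143.JCardx872 Crest.Agent.R143.Planarx54
  Crest.Agent.R143.Sidesx697
open Crest.Agent.R143.Frame1x395 Crest.Agent.R143.Frame2x395 Crest.Agent.R143.Frame3x395
  Crest.Agent.R143.Frame4x395 Crest.Agent.R143.Frame5x395

variable {S : Finset ℂ} {N : Net ℂ} {t : ℂ × ℂ × ℂ} {J : Finset (ℂ × ℂ)}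

/-- the side `i` of `t` -/
def sdt (h : HNet S N) (ht : t ∈ delT S) (i : ZMod 3) : Dt S :=
  Sum.inl ⟨(vt t i, vt t (i + 1)), mem_sd.2 ⟨vt t (i + 2), vt_tri h.gp ht i⟩⟩

theorem rho_sdt (h : HNet S N) (ht : t ∈ delT S) (i : ZMod 3) :
    (cm h).rho (sdt h ht i) = sdt h ht (i + 1) := by
  show Sum.inl _ = Sum.inl _
  congr 1
  apply Subtype.ext
  show (vt t (i + 1), th S (vt t i, vt t (i + 1))) = (vt t (i + 1), vt t (i + 1 + 1))
  rw [th_eq h (vt_tri h.gp ht i)]
  congr 2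
  rw [add_assoc]; rfl

/-- the configuration of a join -/
def toY (S : Finset ℂ) (J : Finset (ℂ × ℂ)) : Dt S → ZMod 2
  | Sum.inl e => if e.1 ∈ J then 1 else 0
  | Sum.inr _ => 1

/-- the stop set -/
def Bt (h : HNet S N) (ht : t ∈ delT S) : Set (Dt S) := BB (cm h) (Sum.inr 0) (sdt h ht 0)

theorem fa_inr (h : HNet S N) (k : ZMod 3) : (Sum.inr k : Dt S) ∈ Fa (cm h) (Sum.inr 0) := by
  show Sum.inr k = Sum.inr 0 ∨ Sum.inr k = (Sum.inr (0 - 1) : Dt S) ∨
    Sum.inr k = (Sum.inr (0 - 1 - 1) : Dt S)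
  have key : ∀ k : ZMod 3, k = 0 ∨ k = 0 - 1 ∨ k = 0 - 1 - 1 := by decide
  rcases key k with e | e | e <;> rw [← e] <;> simp

theorem fa_sdt (h : HNet S N) (ht : t ∈ delT S) (i : ZMod 3) :
    Fa (cm h) (sdt h ht i) = Fa (cm h) (sdt h ht 0) := by
  rcases z3 i with rfl | rfl | rfl
  · rfl
  · rw [show (1 : ZMod 3) = 0 + 1 by decide, ← rho_sdt, fa_rot]
  · rw [show (2 : ZMod 3) = 0 + 1 + 1 by decide, ← rho_sdt, ← rho_sdt, fa_rot, fa_rot]

theorem bb_sdt (h : HNet S N) (ht : t ∈ delT S) (i k : ZMod 3) :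
    BB (cm h) (Sum.inr k) (sdt h ht i) = Bt h ht := by
  unfold Bt BB
  rw [fa_sdt h ht i]
  congr 1
  rcases z3 k with rfl | rfl | rfl
  · rfl
  · have e : (Sum.inr 1 : Dt S) = (cm h).rho ((cm h).rho (Sum.inr 0)) := by
      show Sum.inr 1 = Sum.inr (0 - 1 - 1)
      congr 1
    rw [e, fa_rot, fa_rot]
  · have e : (Sum.inr 2 : Dt S) = (cm h).rho (Sum.inr 0) := by
      show Sum.inr 2 = Sum.inr (0 - 1)
      congr 1
    rw [e, fa_rot]

theorem inr_mem (h : HNet S N) (ht : t ∈ delT S) (k : ZMod 3) : (Sum.inr k : Dt S) ∈ Bt h ht :=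
  Or.inl (fa_inr h k)

/-- the sides of `t` in the stop set -/
theorem inl_mem (h : HNet S N) (ht : t ∈ delT S) {a b c : ℂ} (hc : (a, b, c) ∈ delT S)
    (he : (a, b) ∈ sd S) :
    (Sum.inl ⟨(a, b), he⟩ : Dt S) ∈ Bt h ht ↔ (a, b, c) ∈ rots t := by
  have hs : ∀ i, (Sum.inl ⟨(a, b), he⟩ : Dt S) = sdt h ht i ↔ (a, b) = (vt t i, vt t (i + 1)) := by
    intro i
    constructor
    · intro e
      exact congrArg Subtype.val (Sum.inl.inj e)
    · intro e
      exact congrArg Sum.inl (Subtype.ext e)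
  have h1 : (Sum.inl ⟨(a, b), he⟩ : Dt S) ∈ Bt h ht ↔ ∃ i, (a, b) = (vt t i, vt t (i + 1)) := by
    constructor
    · rintro (hd | hd)
      · exfalso
        rcases hd with hd | hd | hd
        · exact absurd hd (by simp)
        · exact absurd (show (Sum.inl _ : Dt S) = Sum.inr (0 - 1) from hd) (by simp)
        · exact absurd (show (Sum.inl _ : Dt S) = Sum.inr (0 - 1 - 1) from hd) (by simp)
      · rcases hd with hd | hd | hd
        · exact ⟨0, (hs 0).1 hd⟩
        · rw [rho_sdt] at hd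
          exact ⟨_, (hs _).1 hd⟩
        · rw [rho_sdt, rho_sdt] at hd
          exact ⟨_, (hs _).1 hd⟩
    · rintro ⟨i, hi⟩
      right
      rw [(hs i).2 hi, ← fa_sdt h ht i]
      exact fa0 _ _
  rw [h1]
  constructor
  · rintro ⟨i, hi⟩
    have h2 := vt_tri h.gp ht i
    have h3 : c = vt t (i + 2) := by
      rw [← th_eq h hc, ← th_eq h h2, hi]
    have ha : a = vt t i := (Prod.ext_iff.1 hi).1
    have hb : b = vt t (i + 1) := (Prod.ext_iff.1 hi).2
    have h4 : (a, b, c) = (vt t i, vt t (i + 1), vt t (i + 2)) := by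
      rw [h3, ha, hb]
    rw [h4]
    exact rots_vt t i
  · intro hr
    obtain ⟨t1, t2, t3⟩ := t
    rcases hr with e | e | e
    · refine ⟨0, ?_⟩
      rw [Prod.mk.injEq, Prod.mk.injEq] at e
      rw [e.1, e.2.1]; rfl
    · refine ⟨1, ?_⟩
      simp only [Prod.mk.injEq] at e
      rw [e.1, e.2.1]; rfl
    · refine ⟨2, ?_⟩
      simp only [Set.mem_singleton_iff, Prod.mk.injEq] at e
      rw [e.1, e.2.1]; rfl

theorem not_rex (h : HNet S N) {a b : ℂ} (he : (a, b) ∈ sd S) : (b, a) ∉ N.exS := by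
  rintro ⟨k, hk⟩
  have := rex_mem h k
  rw [hk] at this
  exact this he

/-- a join is contained in the sides -/
theorem join_sub (h : HNet S N) (hJ : IsJoin N.toTrg N.kl (rots t) N.exS J) : J ⊆ sd S := by
  rintro ⟨a, b⟩ hab
  by_contra hc
  have h1 := hJ.sub hab
  have hc' : ∀ c, (a, b, c) ∉ N.T := fun c hc' => hc (mem_sd.2 ⟨c, by rw [← h.tri]; exact hc'⟩)
  by_cases hD : (b, a) ∈ N.exS
  · exact (hJ.mark b a hD).2 hab
  · exact (hJ.bdr b a hc' hD).2 hab

/-- occupied sides are live -/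
theorem join_live (h : HNet S N) (hJ : IsJoin N.toTrg N.kl (rots t) N.exS J) {a b : ℂ}
    (hab : (a, b) ∈ J) : (a, b) ∉ N.kl ∧ ((b, a) ∈ sd S ∨ (a, b) ∈ N.exS) := by
  have hs := join_sub h hJ hab
  constructor
  · intro hk
    by_cases hD : (a, b) ∈ N.exS
    · obtain ⟨k, hk'⟩ := hD
      exact h.live k (hk' ▸ hk)
    · exact (hJ.kill a b hk hD (not_rex h hs)).1 hab
  · by_contra hc
    push Not at hc
    exact (hJ.bdr a b (fun c hc' => hc.1 (mem_sd.2 ⟨c, by rw [← h.tri]; exact hc'⟩)) hc.2).1 hab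

theorem cast_par {p q r : Prop} [Decidable p] [Decidable q] [Decidable r] {n : ℕ}
    (e : ((if p then 1 else 0) + (if q then 1 else 0) + (if r then 1 else 0) : ℕ) % 2 = n) :
    (if p then (1 : ZMod 2) else 0) + (if q then 1 else 0) + (if r then 1 else 0) = (n : ZMod 2) := by
  rw [← e, ZMod.natCast_mod]
  push_cast
  rfl

/-- **the configuration of a join** -/
theorem toY_isC (h : HNet S N) (ht : t ∈ delT S)
    (hJ : IsJoin N.toTrg N.kl (rots t) N.exS J) : IsC (cm h) (Bt h ht) (toY S J) := by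
  refine ⟨?_, ?_, ?_⟩
  · rintro (e | k) hd
    · show (if e.1 ∈ J then (1 : ZMod 2) else 0) = 0
      rw [if_neg]
      intro he
      apply hd
      intro e' he'
      rw [← Sum.inl.inj he']
      exact join_live h hJ he
    · exfalso
      apply hd
      intro e' he'
      exact absurd he' (by simp)
  · rintro (e | k)
    · show toY S J (io h (Sum.inl e)) = toY S J (Sum.inl e)
      by_cases h1 : (e.1.2, e.1.1) ∈ sd S
      · rw [io_twin h h1]
        show (if (e.1.2, e.1.1) ∈ J then (1 : ZMod 2) else 0) = if e.1 ∈ J then 1 else 0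
        have := hJ.sym e.1.1 e.1.2 (not_rex h h1) (not_rex h e.2)
        congr 1
        exact propext this.symm
      · by_cases h2 : e.1 ∈ N.exS
        · obtain ⟨k, hk⟩ := h2
          rw [io_mark h hk]
          show (1 : ZMod 2) = if e.1 ∈ J then 1 else 0
          rw [if_pos]
          exact (hJ.mark e.1.1 e.1.2 ⟨k, hk⟩).1
        · rw [io_none h h1 h2]
    · show toY S J (Sum.inl ⟨N.ex k, ex_mem h k⟩) = 1
      show (if N.ex k ∈ J then (1 : ZMod 2) else 0) = 1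
      rw [if_pos]
      exact (hJ.mark _ _ ⟨k, rfl⟩).1
  · rintro (⟨⟨a, b⟩, he⟩ | k)
    · have hc := th_spec he
      have hcT : (a, b, th S (a, b)) ∈ N.T := by rw [h.tri]; exact hc
      have e2 : th S (b, th S (a, b)) = a := th_eq h (rot_mem h hc)
      have h1 := cast_par (hJ.par a b (th S (a, b)) hcT)
      show (if (a, b) ∈ J then (1 : ZMod 2) else 0) + (if (b, th S (a, b)) ∈ J then 1 else 0) +
        (if (th S (a, b), th S (b, th S (a, b))) ∈ J then 1 else 0) = _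
      rw [e2, h1]
      by_cases hr : (a, b, th S (a, b)) ∈ rots t
      · rw [if_pos hr, if_pos ((inl_mem h ht hc he).2 hr)]; rfl
      · rw [if_neg hr, if_neg fun hd => hr ((inl_mem h ht hc he).1 hd)]; rfl
    · show (1 : ZMod 2) + 1 + 1 = _
      rw [if_pos (inr_mem h ht k)]
      decide

/-- the join of a configuration -/
def ofY (S : Finset ℂ) (y : Dt S → ZMod 2) : Finset (ℂ × ℂ) :=
  (sd S).filter fun e => ∃ he : e ∈ sd S, y (Sum.inl ⟨e, he⟩) = 1

theorem mem_ofY {y : Dt S → ZMod 2} {e : ℂ × ℂ} (he : e ∈ sd S) :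
    e ∈ ofY S y ↔ y (Sum.inl ⟨e, he⟩) = 1 := by
  unfold ofY
  rw [Finset.mem_filter]
  exact ⟨fun h => h.2.2, fun h => ⟨he, he, h⟩⟩

theorem ofY_sub {y : Dt S → ZMod 2} : ofY S y ⊆ sd S := Finset.filter_subset _ _

theorem ofY_toY (h : HNet S N) (hJ : IsJoin N.toTrg N.kl (rots t) N.exS J) :
    ofY S (toY S J) = J := by
  ext e
  constructor
  · intro he
    have h1 := (mem_ofY (ofY_sub he)).1 he
    by_contra hc
    change (if e ∈ J then (1 : ZMod 2) else 0) = 1 at h1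
    rw [if_neg hc] at h1
    exact absurd h1 (by decide)
  · intro he
    rw [mem_ofY (join_sub h hJ he)]
    exact if_pos he

theorem toY_ofY {y : Dt S → ZMod 2} (h1 : ∀ k, y (Sum.inr k) = 1) :
    toY S (ofY S y) = y := by
  funext d
  rcases d with e | k
  · show (if e.1 ∈ ofY S y then (1 : ZMod 2) else 0) = y (Sum.inl e)
    rcases z01 (y (Sum.inl e)) with h2 | h2
    · rw [if_neg, h2]
      intro hc
      rw [mem_ofY e.2] at hc
      rw [h2] at hc
      exact absurd hc (by decide)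
    · rw [if_pos, h2]
      exact (mem_ofY e.2).2 h2
  · exact (h1 k).symm

theorem par_cast {p q r s : Prop} [Decidable p] [Decidable q] [Decidable r] [Decidable s]
    (e : (if p then (1 : ZMod 2) else 0) + (if q then 1 else 0) + (if r then 1 else 0) =
      if s then 1 else 0) :
    ((if p then 1 else 0) + (if q then 1 else 0) + (if r then 1 else 0) : ℕ) % 2 =
      if s then 1 else 0 := by
  by_cases hp : p <;> by_cases hq : q <;> by_cases hr : r <;> by_cases hs : s <;>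
    simp only [hp, hq, hr, hs, if_true, if_false] at e ⊢ <;>
    first
      | rfl
      | (exfalso; revert e; decide)

/-- **the join of a configuration** -/
theorem ofY_isJoin (h : HNet S N) (ht : t ∈ delT S) {y : Dt S → ZMod 2}
    (hy : IsC (cm h) (Bt h ht) y) (h1 : ∀ k, y (Sum.inr k) = 1) :
    IsJoin N.toTrg N.kl (rots t) N.exS (ofY S y) := by
  have hT : ∀ u v c, (u, v, c) ∈ N.T ↔ (u, v, c) ∈ delT S := fun u v c => by rw [h.tri]
  have hlv : ∀ {a b : ℂ}, (a, b) ∈ ofY S y →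
      (a, b) ∉ N.kl ∧ ((b, a) ∈ sd S ∨ (a, b) ∈ N.exS) := by
    intro a b hab
    have hs := ofY_sub hab
    exact hy.lv ((mem_ofY hs).1 hab) _ rfl
  have hmark : ∀ k, N.ex k ∈ ofY S y := by
    intro k
    rw [mem_ofY (ex_mem h k)]
    have := hy.iot (Sum.inr k)
    rw [h1] at this
    exact this
  refine ⟨?_, ?_, ?_, ?_, ?_, ?_⟩
  · rintro ⟨a, b⟩ hab
    obtain ⟨c, hc⟩ := mem_sd.1 (ofY_sub hab)
    exact (mem_E_of_tri ((hT _ _ _).2 hc)).1
  · have key : ∀ a b, (a, b) ∉ N.exS → (a, b) ∈ ofY S y → (b, a) ∈ ofY S y := by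
      intro a b hD hab
      have hs := ofY_sub hab
      have h2 := (hlv hab).2.resolve_right hD
      rw [mem_ofY h2]
      have h3 := hy.iot (Sum.inl ⟨(a, b), hs⟩)
      rw [show (cm h).iota (Sum.inl ⟨(a, b), hs⟩) = Sum.inl ⟨(b, a), h2⟩ from io_twin h h2,
        (mem_ofY hs).1 hab] at h3
      exact h3
    intro a b h2 h3
    exact ⟨key a b h2, key b a h3⟩
  · rintro a b ⟨k, hk⟩
    constructor
    · rw [← hk]; exact hmark k
    · intro hc
      have := rex_mem h k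
      rw [hk] at this
      exact this (ofY_sub hc)
  · intro a b h2 h3
    have hba : (b, a) ∉ sd S := fun hc => by
      obtain ⟨c, hc⟩ := mem_sd.1 hc
      exact h2 c ((hT _ _ _).2 hc)
    refine ⟨fun hc => ?_, fun hc => hba (ofY_sub hc)⟩
    rcases (hlv hc).2 with h4 | h4
    · exact hba h4
    · exact h3 h4
  · intro a b hk h2 h3
    exact ⟨fun hc => (hlv hc).1 hk, fun hc => (hlv hc).1 (N.klsym _ _ hk)⟩
  · intro a b c hc
    have hc' := (hT _ _ _).1 hc
    have m1 : (a, b) ∈ sd S := mem_sd.2 ⟨c, hc'⟩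
    have m2 : (b, c) ∈ sd S := mem_sd.2 ⟨a, rot_mem h hc'⟩
    have m3 : (c, a) ∈ sd S := mem_sd.2 ⟨b, rot_mem h (rot_mem h hc')⟩
    apply par_cast
    have h2 := hy.par (Sum.inl ⟨(a, b), m1⟩)
    have e1 : (cm h).rho (Sum.inl ⟨(a, b), m1⟩) = Sum.inl ⟨(b, c), m2⟩ := by
      show Sum.inl _ = _
      exact congrArg Sum.inl (Subtype.ext (Prod.ext rfl (th_eq h hc')))
    have e2 : (cm h).rho (Sum.inl ⟨(b, c), m2⟩) = Sum.inl ⟨(c, a), m3⟩ := by
      show Sum.inl _ = _
      exact congrArg Sum.inl (Subtype.ext (Prod.ext rfl (th_eq h (rot_mem h hc'))))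
    rw [e1, e2] at h2
    have v : ∀ {e : ℂ × ℂ} (he : e ∈ sd S),
        (if e ∈ ofY S y then (1 : ZMod 2) else 0) = y (Sum.inl ⟨e, he⟩) := by
      intro e he
      rcases z01 (y (Sum.inl ⟨e, he⟩)) with h3 | h3
      · rw [if_neg, h3]
        rw [mem_ofY he, h3]; decide
      · rw [if_pos ((mem_ofY he).2 h3), h3]
    rw [v m1, v m2, v m3, h2]
    congr 1
    exact propext (inl_mem h ht hc' m1)

/-! ### walkers -/

/-- a state and its dart -/
def Rp (S : Finset ℂ) (N : Net ℂ) (p : ℂ × ℂ) (d : Dt S) : Prop :=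
  (∃ hp : p ∈ sd S, d = Sum.inl ⟨p, hp⟩) ∨ ∃ k, p = ((N.ex k).2, (N.ex k).1) ∧ d = Sum.inr k

theorem rp_inr {p : ℂ × ℂ} {k : ZMod 3} (hp : Rp S N p (Sum.inr k)) :
    p = ((N.ex k).2, (N.ex k).1) := by
  rcases hp with ⟨hp, e⟩ | ⟨j, e, e'⟩
  · exact absurd e (by simp)
  · rw [Sum.inr.inj e']; exact e

theorem rp_rex (h : HNet S N) {d : Dt S} {k : ZMod 3}
    (hp : Rp S N ((N.ex k).2, (N.ex k).1) d) : d = Sum.inr k := by
  rcases hp with ⟨hp, e⟩ | ⟨j, e, e'⟩
  · exact absurd hp (rex_mem h k)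
  · rw [e']
    congr 1
    rw [Prod.mk.injEq] at e
    exact (HNet.ex_inj h (Prod.ext e.2 e.1)).symm

theorem rp_iota (h : HNet S N) {e : ℂ × ℂ} (he : e ∈ sd S)
    (hl : (e.2, e.1) ∈ sd S ∨ e ∈ N.exS) : Rp S N (e.2, e.1) ((cm h).iota (Sum.inl ⟨e, he⟩)) := by
  rcases hl with hl | ⟨k, hk⟩
  · left
    exact ⟨hl, io_twin h (e := ⟨e, he⟩) hl⟩
  · right
    exact ⟨k, by rw [hk], io_mark h (e := ⟨e, he⟩) hk⟩

/-- one step of the two walkers -/
theorem step_stp (h : HNet S N) (ht : t ∈ delT S) (hJ : IsJoin N.toTrg N.kl (rots t) N.exS J)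
    {p q : ℂ × ℂ} {d : Dt S} (hp : Rp S N p d) (hs : Step N.toTrg (rots t) N.exS J p q) :
    d ∉ Bt h ht ∧ Rp S N q (stp (cm h) (toY S J) d) := by
  obtain ⟨c, h1, h2, h3, h4⟩ := hs
  have h1' : (p.1, p.2, c) ∈ delT S := by rw [← h.tri]; exact h1
  have hps : p ∈ sd S := mem_sd.2 ⟨c, h1'⟩
  have hd : d = Sum.inl ⟨p, hps⟩ := by
    rcases hp with ⟨hp, e⟩ | ⟨k, e, e'⟩
    · exact e
    · exfalso
      rw [e] at hps
      exact rex_mem h k hps
  have m2 : (p.2, c) ∈ sd S := mem_sd.2 ⟨p.1, rot_mem h h1'⟩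
  have m3 : (c, p.1) ∈ sd S := mem_sd.2 ⟨p.2, rot_mem h (rot_mem h h1')⟩
  have e1 : (cm h).rho (Sum.inl ⟨p, hps⟩) = Sum.inl ⟨(p.2, c), m2⟩ :=
    congrArg Sum.inl (Subtype.ext (Prod.ext rfl (th_eq h (a := p.1) (b := p.2) h1')))
  have e2 : (cm h).rho (Sum.inl ⟨(p.2, c), m2⟩) = Sum.inl ⟨(c, p.1), m3⟩ :=
    congrArg Sum.inl (Subtype.ext (Prod.ext rfl (th_eq h (rot_mem h h1'))))
  refine ⟨?_, ?_⟩
  · rw [hd]
    intro hc
    exact h2 ((inl_mem h ht (a := p.1) (b := p.2) h1' hps).1 hc)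
  · rw [hd]
    unfold stp
    rw [e1, e2]
    rcases h4 with ⟨h5, rfl⟩ | ⟨h5, h6, rfl⟩
    · have hv : toY S J (Sum.inl ⟨(p.2, c), m2⟩) = 1 := if_pos h5
      rw [if_pos hv]
      exact rp_iota h m2 (join_live h hJ h5).2
    · rw [if_neg]
      · exact rp_iota h m3 (join_live h hJ h5).2
      · show ¬ (if (p.2, c) ∈ J then (1 : ZMod 2) else 0) = 1
        rw [if_neg h6]; decide

theorem stp_step (h : HNet S N) (ht : t ∈ delT S) (hJ : IsJoin N.toTrg N.kl (rots t) N.exS J)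
    {p : ℂ × ℂ} {d : Dt S} (hp : Rp S N p d) (hd : d ∉ Bt h ht) (hy : toY S J d = 1) :
    ∃ q, Step N.toTrg (rots t) N.exS J p q ∧ Rp S N q (stp (cm h) (toY S J) d) := by
  rcases hp with ⟨hps, rfl⟩ | ⟨k, -, rfl⟩
  · have h1 := th_spec hps
    have h1' : (p.1, p.2, th S p) ∈ N.T := by rw [h.tri]; exact h1
    have h2 : (p.1, p.2, th S p) ∉ rots t := fun hc =>
      hd ((inl_mem h ht (a := p.1) (b := p.2) h1 hps).2 hc)
    have h3 : (p.2, p.1) ∉ N.exS := not_rex h (a := p.1) (b := p.2) hps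
    have m2 : (p.2, th S p) ∈ sd S := mem_sd.2 ⟨p.1, rot_mem h h1⟩
    have m3 : (th S p, p.1) ∈ sd S := mem_sd.2 ⟨p.2, rot_mem h (rot_mem h h1)⟩
    have e1 : (cm h).rho (Sum.inl ⟨p, hps⟩) = Sum.inl ⟨(p.2, th S p), m2⟩ := rfl
    have e2 : (cm h).rho (Sum.inl ⟨(p.2, th S p), m2⟩) = Sum.inl ⟨(th S p, p.1), m3⟩ :=
      congrArg Sum.inl (Subtype.ext (Prod.ext rfl (th_eq h (rot_mem h h1))))
    by_cases h5 : (p.2, th S p) ∈ J
    · refine ⟨(th S p, p.2), ⟨_, h1', h2, h3, Or.inl ⟨h5, rfl⟩⟩, ?_⟩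
      have hv : toY S J (Sum.inl ⟨(p.2, th S p), m2⟩) = 1 := if_pos h5
      unfold stp
      rw [e1, if_pos hv]
      exact rp_iota h m2 (join_live h hJ h5).2
    · have h6 : (th S p, p.1) ∈ J := by
        by_contra h6
        have hpar := (toY_isC h ht hJ).par (Sum.inl ⟨p, hps⟩)
        rw [e1, e2, if_neg hd, hy] at hpar
        change (1 : ZMod 2) + (if (p.2, th S p) ∈ J then 1 else 0) +
          (if (th S p, p.1) ∈ J then 1 else 0) = 0 at hpar
        rw [if_neg h5, if_neg h6] at hpar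
        exact absurd hpar (by decide)
      refine ⟨(p.1, th S p), ⟨_, h1', h2, h3, Or.inr ⟨h6, h5, rfl⟩⟩, ?_⟩
      unfold stp
      rw [e1, e2, if_neg]
      · exact rp_iota h m3 (join_live h hJ h6).2
      · show ¬ (if (p.2, th S p) ∈ J then (1 : ZMod 2) else 0) = 1
        rw [if_neg h5]; decide
  · exact absurd (inr_mem h ht k) hd

/-- **the walkers agree** -/
theorem ends_iff (h : HNet S N) (ht : t ∈ delT S) (hJ : IsJoin N.toTrg N.kl (rots t) N.exS J)
    {i j : ZMod 3} (hi : (vt t i, vt t (i + 1)) ∈ J) :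
    Ends N.toTrg (rots t) N.exS J (st t i) (N.ex j) ↔
      Sum.inr j ∈ Tr (cm h) (toY S J) (Bt h ht) ((cm h).iota (sdt h ht i)) := by
  have hY := toY_isC h ht hJ
  have h0 : Rp S N (st t i) ((cm h).iota (sdt h ht i)) :=
    rp_iota h (e := (vt t i, vt t (i + 1))) (join_sub h hJ hi) (join_live h hJ hi).2
  have hy0 : toY S J ((cm h).iota (sdt h ht i)) = 1 := by
    rw [hY.iot]; exact if_pos hi
  constructor
  · intro hE
    have key : ∀ q, Leads N.toTrg (rots t) N.exS J (st t i) q →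
        ∃ d, d ∈ Tr (cm h) (toY S J) (Bt h ht) ((cm h).iota (sdt h ht i)) ∧ Rp S N q d := by
      intro q hq
      induction hq with
      | refl => exact ⟨_, tr_start, h0⟩
      | tail _ hs ih =>
        obtain ⟨d, hd, hr⟩ := ih
        obtain ⟨h1, h2⟩ := step_stp h ht hJ hr hs
        exact ⟨_, tr_step hd h1, h2⟩
    obtain ⟨d, hd, hr⟩ := key _ hE
    rw [rp_rex h hr] at hd
    exact hd
  · intro hT
    have key : ∀ d, d ∈ Tr (cm h) (toY S J) (Bt h ht) ((cm h).iota (sdt h ht i)) →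
        ∃ q, Leads N.toTrg (rots t) N.exS J (st t i) q ∧ Rp S N q d := by
      refine tr_ind ⟨_, Relation.ReflTransGen.refl, h0⟩ ?_
      rintro d hd hdB ⟨q, hq, hr⟩
      obtain ⟨q', h1, h2⟩ := stp_step h ht hJ hr hdB (tr_occ hY subset_rfl hy0 d hd)
      exact ⟨q', Relation.ReflTransGen.tail hq h1, h2⟩
    obtain ⟨q, hq, hr⟩ := key _ hT
    rw [rp_inr hr] at hq
    exact hq

/-- **three legs = theta** -/
theorem tri3_iff_T (h : HNet S N) (ht : t ∈ delT S)
    (hJ : IsJoin N.toTrg N.kl (rots t) N.exS J) (k : ZMod 3) :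
    N.Tri3 t k J ↔ IsT (cm h) (Sum.inr 0) (sdt h ht (-k)) (toY S J) := by
  have hY := toY_isC h ht hJ
  have hinv : Inv (cm h) (Bt h ht) := bb_inv _ _ _
  have hocc : ∀ i, toY S J (sdt h ht i) = 1 ↔ (vt t i, vt t (i + 1)) ∈ J := by
    intro i
    constructor
    · intro h1
      by_contra hc
      change (if (vt t i, vt t (i + 1)) ∈ J then (1 : ZMod 2) else 0) = 1 at h1
      rw [if_neg hc] at h1
      exact absurd h1 (by decide)
    · intro h1; exact if_pos h1
  have r1 : (cm h).rho (Sum.inr 0 : Dt S) = Sum.inr 2 := by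
    show (Sum.inr (0 - 1) : Dt S) = Sum.inr 2
    congr 1
  have r2 : (cm h).rho (Sum.inr 2 : Dt S) = Sum.inr 1 := by
    show (Sum.inr (2 - 1) : Dt S) = Sum.inr 1
    congr 1
  have rev : ∀ i j, (vt t i, vt t (i + 1)) ∈ J →
      (sdt h ht i ∈ Tr (cm h) (toY S J) (Bt h ht) ((cm h).iota (Sum.inr j)) ↔
        Ends N.toTrg (rots t) N.exS J (st t i) (N.ex j)) := by
    intro i j hi
    rw [ends_iff h ht hJ hi]
    constructor
    · intro h1
      have := tr_rev hY subset_rfl hinv (by rw [hY.iot]; rfl) _ h1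
      rwa [(cm h).iota2] at this
    · intro h1
      have := tr_rev hY subset_rfl hinv (by rw [hY.iot, hocc]; exact hi) _ h1
      rwa [(cm h).iota2] at this
  rw [tri3_iff]
  constructor
  · rintro ⟨h1, h2⟩
    refine ⟨?_, rfl, rfl, rfl, (hocc _).2 (h1 _), ?_, ?_, ?_, ?_, ?_⟩
    · rw [bb_sdt]; exact hY
    · rw [rho_sdt]; exact (hocc _).2 (h1 _)
    · rw [rho_sdt, rho_sdt]; exact (hocc _).2 (h1 _)
    · rw [bb_sdt]
      refine (rev _ _ (h1 _)).2 ?_
      have := h2 (-k)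
      rwa [neg_add_cancel] at this
    · rw [bb_sdt, r1, rho_sdt, rho_sdt]
      refine (rev _ _ (h1 _)).2 ?_
      have := h2 (-k + 1 + 1)
      rwa [show -k + 1 + 1 + k = 2 by ring] at this
    · rw [bb_sdt, r1, r2, rho_sdt]
      refine (rev _ _ (h1 _)).2 ?_
      have := h2 (-k + 1)
      rwa [show -k + 1 + k = 1 by ring] at this
  · intro H
    have cases : ∀ k i : ZMod 3, i = -k ∨ i = -k + 1 ∨ i = -k + 1 + 1 := by decide
    have o0 := (hocc _).1 H.h0
    have o1 := H.h1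
    have o2 := H.h2
    rw [rho_sdt] at o1
    rw [rho_sdt, rho_sdt] at o2
    rw [hocc] at o1 o2
    have l0 := H.l0
    have l1 := H.l1
    have l2 := H.l2
    rw [bb_sdt] at l0 l1 l2
    rw [r1, rho_sdt, rho_sdt] at l1
    rw [r1, r2, rho_sdt] at l2
    rw [rev _ _ o0] at l0
    rw [rev _ _ o2] at l1
    rw [rev _ _ o1] at l2
    constructor
    · intro i
      rcases cases k i with rfl | rfl | rfl
      · exact o0
      · exact o1
      · exact o2
    · intro i
      rcases cases k i with rfl | rfl | rfl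
      · rwa [neg_add_cancel]
      · rwa [show -k + 1 + k = 1 by ring]
      · rwa [show -k + 1 + 1 + k = 2 by ring]

end Crest.Agent.R143.Frame6x395
end
end

-- ▼ part R143/Frame7_395

/-!
# Row 143 (S0194), part B without E3: the tight frame, part 7 (helper395, after helper493)

* `frame` : **`HNet S N` ⟹ `∑ ‖N.Q t‖² ≤ 1`** over representatives of the triangles
* `frame3` : `∑ ‖N.Q t‖² ≤ 3` over all triangles (with their rotations)
-/

set_option autoImplicit false

noncomputable section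

open scoped Classical

namespace Crest.Agent.R143.Frame7x395

open Crest.Agent.R143.B0x346 Crest.Agent.R143.DelGx806 Crest.Agent.R143.DelRx806
  Crest.Agent.R143.JColx54 Crest.Agent.R143.JCardx872 Crest.Agent.R143.Planarx54
  Crest.Agent.R143.Sidesx697
open Crest.Agent.R143.Frame1x395 Crest.Agent.R143.Frame2x395 Crest.Agent.R143.Frame3x395
  Crest.Agent.R143.Frame4x395 Crest.Agent.R143.Frame5x395 Crest.Agent.R143.Frame6x395

variable {S : Finset ℂ} {N : Net ℂ} {t : ℂ × ℂ × ℂ}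

theorem mu {X : Type} {i : Fintype X} (a : X) : a ∈ @Finset.univ X i := @Finset.mem_univ X i a

theorem star_one (h : HNet S N) {y : Dt S → ZMod 2} {i : Dt S}
    (H : IsT (cm h) (Sum.inr 0) i y) : ∀ k, y (Sum.inr k) = 1 := by
  have r1 : (cm h).rho (Sum.inr 0 : Dt S) = Sum.inr 2 := by
    show (Sum.inr (0 - 1) : Dt S) = Sum.inr 2
    congr 1
  have r2 : (cm h).rho (Sum.inr 2 : Dt S) = Sum.inr 1 := by
    show (Sum.inr (2 - 1) : Dt S) = Sum.inr 1
    congr 1
  have h1 := H.g1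
  have h2 := H.g2
  rw [r1] at h1 h2
  rw [r2] at h2
  intro k
  rcases z3 k with rfl | rfl | rfl
  · exact H.g0
  · exact h2
  · exact h1

/-- **the numbers of joins with three legs** -/
theorem card_tri (h : HNet S N) (ht : t ∈ delT S) (k : ZMod 3) :
    ((N.tj t).filter (N.Tri3 t k)).card = nT (cm h) (Sum.inr 0) (sdt h ht (-k)) := by
  unfold nT
  refine Finset.card_bij (fun J _ => toY S J) ?_ ?_ ?_
  · intro J hJ
    obtain ⟨h1, h2⟩ := Finset.mem_filter.1 hJ
    exact Finset.mem_filter.2 ⟨mu _, (tri3_iff_T h ht (mem_joins.1 h1) k).1 h2⟩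
  · intro J hJ J' hJ' e
    have h1 := mem_joins.1 (Finset.mem_filter.1 hJ).1
    have h2 := mem_joins.1 (Finset.mem_filter.1 hJ').1
    rw [← ofY_toY h h1, ← ofY_toY h h2, e]
  · intro y hy
    have H := (Finset.mem_filter.1 hy).2
    have h1 := star_one h H
    have hC := H.c
    rw [bb_sdt] at hC
    have hJ := ofY_isJoin h ht hC h1
    have e := toY_ofY h1
    refine ⟨ofY S y, Finset.mem_filter.2 ⟨mem_joins.2 hJ, ?_⟩, e⟩
    rw [tri3_iff_T h ht hJ k, e]
    exact H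

/-- **the number of joins** -/
theorem card_tj (h : HNet S N) (ht : t ∈ delT S) (hne : (N.tj t).Nonempty) :
    (nE (cm h) : ℝ) / 4 ≤ (N.tj t).card := by
  refine (nE_le (M := cm h) (Sum.inr 0)).trans ?_
  have key : nZ (cm h) (Sum.inr 0) ≤ (N.tj t).card := by
    obtain ⟨J0, hJ0⟩ := hne
    have hJ0' := mem_joins.1 hJ0
    have hC0 := toY_isC h ht hJ0'
    unfold nZ
    have r1 : (cm h).rho (Sum.inr 0 : Dt S) = Sum.inr 2 := by
      show (Sum.inr (0 - 1) : Dt S) = Sum.inr 2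
      congr 1
    have r2 : (cm h).rho (Sum.inr 2 : Dt S) = Sum.inr 1 := by
      show (Sum.inr (2 - 1) : Dt S) = Sum.inr 1
      congr 1
    have hx1 : ∀ x : Dt S → ZMod 2, (IsC (cm h) ∅ x ∧ x (Sum.inr 0) = 0 ∧
        x ((cm h).rho (Sum.inr 0)) = 0 ∧ x ((cm h).rho ((cm h).rho (Sum.inr 0))) = 0) →
        IsC (cm h) (Bt h ht) (fun d => x d + toY S J0 d) ∧
          ∀ k, x (Sum.inr k) + toY S J0 (Sum.inr k) = 1 := by
      rintro x ⟨h1, h2, h3, h4⟩
      rw [r1] at h3 h4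
      rw [r2] at h4
      constructor
      · have := isC_add h1 hC0
        rwa [← Set.bot_eq_empty, bot_symmDiff] at this
      · intro k
        have : toY S J0 (Sum.inr k) = 1 := rfl
        rw [this]
        rcases z3 k with rfl | rfl | rfl
        · rw [h2]; decide
        · rw [h4]; decide
        · rw [h3]; decide
    refine Finset.card_le_card_of_injOn (fun x => ofY S fun d => x d + toY S J0 d) ?_ ?_
    · intro x hx
      obtain ⟨h1, h2⟩ := hx1 x (Finset.mem_filter.1 hx).2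
      exact Finset.mem_coe.2 (mem_joins.2 (ofY_isJoin h ht h1 h2))
    · intro x hx x' hx' e
      obtain ⟨-, h2⟩ := hx1 x (Finset.mem_filter.1 hx).2
      obtain ⟨-, h2'⟩ := hx1 x' (Finset.mem_filter.1 hx').2
      have e1 := toY_ofY (y := fun d => x d + toY S J0 d) h2
      have e2 := toY_ofY (y := fun d => x' d + toY S J0 d) h2'
      simp only at e
      rw [e] at e1
      funext d
      have := congrFun (e1.symm.trans e2) d
      exact add_right_cancel this
  exact_mod_cast key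

theorem om_conj : (starRingEnd ℂ) om = om ^ 2 := by
  have h1 : om * (starRingEnd ℂ) om = 1 := by
    rw [Complex.mul_conj, Complex.normSq_eq_norm_sq, Oscx63.norm_om]; norm_num
  have h2 : om * om ^ 2 = 1 := by rw [← pow_succ', Oscx63.om_pow_three]
  have h0 : om ≠ 0 := by
    intro e
    rw [e] at h1
    simp at h1
  exact mul_left_cancel₀ h0 (h1.trans h2.symm)

theorem om_sum : 1 + om + om ^ 2 = 0 := by
  have h1 : (om - 1) * (1 + om + om ^ 2) = 0 := by
    have := Oscx63.om_pow_three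
    linear_combination this
  rcases mul_eq_zero.1 h1 with h2 | h2
  · exfalso
    have h3 := Oscx63.norm_one_sub_om
    rw [show (1 : ℂ) - om = -(om - 1) by ring, h2, neg_zero, norm_zero] at h3
    have : 0 < Real.sqrt 3 := by positivity
    linarith
  · exact h2

/-- the amplitude in terms of thetas -/
theorem Q_eq (h : HNet S N) (ht : t ∈ delT S) (hne : (N.tj t).Nonempty) :
    N.Q t * ((N.tj t).card : ℂ) = (nT (cm h) (Sum.inr 0) (sdt h ht 0) : ℂ) +
      om ^ 2 * nT (cm h) (Sum.inr 0) ((cm h).rho (sdt h ht 0)) +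
      (om ^ 2) ^ 2 * nT (cm h) (Sum.inr 0) ((cm h).rho ((cm h).rho (sdt h ht 0))) := by
  have hc : ((N.tj t).card : ℂ) ≠ 0 := by
    exact_mod_cast (Finset.card_pos.2 hne).ne'
  have hA : ∀ k, (N.triA t k : ℂ) * ((N.tj t).card : ℂ) =
      (nT (cm h) (Sum.inr 0) (sdt h ht (-k)) : ℂ) := by
    intro k
    unfold Net.triA
    rw [card_tri h ht k]
    push_cast
    field_simp
  have h3 := Oscx63.om_pow_three
  have e4 : (om ^ 2) ^ 2 = om := by
    rw [← pow_mul, show (2 * 2 : ℕ) = 3 + 1 by norm_num, pow_add, h3]; ring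
  have s3 : N.Q t = N.triA t 0 * omz 0 + N.triA t 1 * omz 1 + N.triA t 2 * omz 2 := by
    unfold Net.Q
    exact Fin.sum_univ_three (fun k : ZMod 3 => (N.triA t k : ℂ) * omz k)
  have o0 : omz 0 = 1 := by
    unfold omz
    rw [show ZMod.val (0 : ZMod 3) = 0 from rfl, pow_zero]
  have o1 : omz 1 = om := by
    unfold omz
    rw [show ZMod.val (1 : ZMod 3) = 1 from rfl, pow_one]
  have o2 : omz 2 = om ^ 2 := by
    unfold omz
    rw [show ZMod.val (2 : ZMod 3) = 2 from rfl]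
  have a0 := hA 0
  have a1 := hA 1
  have a2 := hA 2
  rw [show -(0 : ZMod 3) = 0 by decide] at a0
  rw [show -(1 : ZMod 3) = 0 + 1 + 1 by decide, ← rho_sdt, ← rho_sdt] at a1
  rw [show -(2 : ZMod 3) = 0 + 1 by decide, ← rho_sdt] at a2
  rw [← a0, ← a1, ← a2, s3, o0, o1, o2, e4]
  ring

theorem nE_pos (h : HNet S N) : (0 : ℝ) < nE (cm h) := by
  have : 0 < nE (cm h) := by
    unfold nE
    rw [Finset.card_pos]
    refine ⟨fun _ => 0, Finset.mem_filter.2 ⟨mu _, fun _ _ => rfl, fun _ => rfl,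
      fun d => ?_⟩⟩
    rw [if_neg (Set.notMem_empty d)]; decide
  exact_mod_cast this

/-- **FRAME**: the total energy is at most `1`, without E3 -/
theorem frame (h : HNet S N) {U : Finset (ℂ × ℂ × ℂ)} (hU : U ⊆ delT S)
    (hrep : ∀ s ∈ U, ∀ t ∈ U, s ≠ t → t ∉ rots s) : ∑ t ∈ U, ‖N.Q t‖ ^ 2 ≤ 1 := by
  have hE := nE_pos h
  set w : ℂ := om ^ 2 with hw
  have h3 := Oscx63.om_pow_three
  have w3 : w ^ 3 = 1 := by rw [hw, ← pow_mul, mul_comm, pow_mul, h3, one_pow]
  have e4 : (om ^ 2) ^ 2 = om := by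
    rw [← pow_mul, show (2 * 2 : ℕ) = 3 + 1 by norm_num, pow_add, h3]; ring
  have w1 : 1 + w + w ^ 2 = 0 := by rw [hw, e4]; linear_combination om_sum
  have wc : (starRingEnd ℂ) w = w ^ 2 := by rw [hw, map_pow, om_conj]
  set φ : Dt S → ℝ := fun b => ‖(nT (cm h) (Sum.inr 0) b : ℂ) +
    w * nT (cm h) (Sum.inr 0) ((cm h).rho b) +
    w ^ 2 * nT (cm h) (Sum.inr 0) ((cm h).rho ((cm h).rho b))‖ ^ 2 with hφ
  have one : ∀ t (ht : t ∈ delT S), ‖N.Q t‖ ^ 2 * ((nE (cm h) : ℝ) / 4) ^ 2 ≤ φ (sdt h ht 0) := by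
    intro t ht
    rcases (N.tj t).eq_empty_or_nonempty with he | hne
    · have hQ : N.Q t = 0 := by
        unfold Net.Q Net.triA
        rw [he]
        simp
      rw [hQ, norm_zero]
      have h0 : 0 ≤ φ (sdt h ht 0) := sq_nonneg _
      simpa using h0
    · have h1 := card_tj h ht hne
      have h2 : φ (sdt h ht 0) = ‖N.Q t‖ ^ 2 * ((N.tj t).card : ℝ) ^ 2 := by
        simp only [hφ]
        rw [hw, ← Q_eq h ht hne, norm_mul, mul_pow]
        simp
      rw [h2]
      apply mul_le_mul_of_nonneg_left _ (by positivity)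
      exact pow_le_pow_left₀ (by positivity) h1 2
  set G : {t // t ∈ U} → Dt S := fun t => sdt h (hU t.2) 0 with hG
  have hGinj : Function.Injective G := by
    intro s t e
    by_contra hne
    have hst : s.1 ≠ t.1 := fun e => hne (Subtype.ext e)
    apply hrep s.1 s.2 t.1 t.2 hst
    have ht' : (t.1.1, t.1.2.1, t.1.2.2) ∈ delT S := hU t.2
    have := (inl_mem h (hU s.2) ht' (mem_sd.2 ⟨_, ht'⟩)).1 (by
      right
      have e' : (Sum.inl ⟨(t.1.1, t.1.2.1), mem_sd.2 ⟨_, ht'⟩⟩ : Dt S) = sdt h (hU s.2) 0 := e.symm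
      rw [e']
      exact fa0 _ _)
    exact this
  have hmain := frame_abs (M := cm h) w3 w1 wc (b0 := (Sum.inr 0 : Dt S))
    (F := Finset.univ.image G)
    (by
      intro b hb
      obtain ⟨t, -, rfl⟩ := Finset.mem_image.1 hb
      rintro (hd | hd | hd)
      · exact absurd hd (by simp [hG, sdt])
      · exact absurd (show (Sum.inl _ : Dt S) = Sum.inr (0 - 1) from hd) (by simp)
      · exact absurd (show (Sum.inl _ : Dt S) = Sum.inr (0 - 1 - 1) from hd) (by simp))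
    (by
      intro b hb b' hb' hne hc
      obtain ⟨s, -, rfl⟩ := Finset.mem_image.1 hb
      obtain ⟨t, -, rfl⟩ := Finset.mem_image.1 hb'
      have hst : s.1 ≠ t.1 := fun e => hne (by rw [Subtype.ext e])
      apply hrep s.1 s.2 t.1 t.2 hst
      have ht' : (t.1.1, t.1.2.1, t.1.2.2) ∈ delT S := hU t.2
      exact (inl_mem h (hU s.2) ht' (mem_sd.2 ⟨_, ht'⟩)).1 (Or.inr hc))
  rw [Finset.sum_image fun x _ y _ e => hGinj e] at hmain
  have h5 : (∑ t ∈ U, ‖N.Q t‖ ^ 2) * ((nE (cm h) : ℝ) / 4) ^ 2 ≤ ((nE (cm h) : ℝ) / 4) ^ 2 := by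
    calc (∑ t ∈ U, ‖N.Q t‖ ^ 2) * ((nE (cm h) : ℝ) / 4) ^ 2
        = ∑ t : {t // t ∈ U}, ‖N.Q t.1‖ ^ 2 * ((nE (cm h) : ℝ) / 4) ^ 2 := by
          rw [Finset.sum_mul, ← Finset.sum_coe_sort U]
      _ ≤ ∑ t : {t // t ∈ U}, φ (G t) := Finset.sum_le_sum fun t _ => one t.1 (hU t.2)
      _ ≤ _ := hmain
  have h6 : 0 < ((nE (cm h) : ℝ) / 4) ^ 2 := by positivity
  by_contra hc
  push Not at hc
  have := mul_lt_mul_of_pos_right hc h6
  linarith

/-- **FRAME** for all oriented triangles -/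
theorem frame3 (h : HNet S N) {U : Finset (ℂ × ℂ × ℂ)} (hU : U ⊆ delT S) :
    ∑ t ∈ U, ‖N.Q t‖ ^ 2 ≤ 3 := by
  set f : ℂ × ℂ × ℂ → ℕ := fun t => if ht : t ∈ delT S then ((delT S).equivFin ⟨t, ht⟩).val
    else 0 with hf
  have finj : ∀ s ∈ delT S, ∀ t ∈ delT S, f s = f t → s = t := by
    intro s hs t ht e
    simp only [hf, dif_pos hs, dif_pos ht] at e
    have := (delT S).equivFin.injective (Fin.ext e)
    exact congrArg Subtype.val this
  set r : ℂ × ℂ × ℂ → ℂ × ℂ × ℂ := fun t => (t.2.1, t.2.2, t.1) with hr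
  have rm : ∀ t ∈ delT S, r t ∈ delT S := fun t ht => rot_mem h (a := t.1) (b := t.2.1)
    (c := t.2.2) ht
  have r3 : ∀ t, r (r (r t)) = t := fun t => rfl
  have rots_iff : ∀ s t, t ∈ rots s ↔ t = s ∨ t = r s ∨ t = r (r s) := by
    intro s t
    unfold rots
    simp only [Set.mem_insert_iff, Set.mem_singleton_iff, hr]
  have rne : ∀ t ∈ delT S, r t ≠ t := by
    intro t ht e
    have h1 := (mem_delT_iff.1 (show (t.1, t.2.1, t.2.2) ∈ delT S from ht))
    obtain ⟨o, ho⟩ := h1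
    exact ho.ne.1 (congrArg Prod.fst e).symm
  have rne2 : ∀ t ∈ delT S, r (r t) ≠ t := by
    intro t ht e
    have := rne _ (rm t ht)
    rw [e] at this
    have e2 := congrArg r e
    rw [r3] at e2
    exact rne t ht e2.symm
  have part : ∀ (i : ℂ × ℂ × ℂ → ℂ × ℂ × ℂ), (∀ t, i t = t ∨ i t = r t ∨ i t = r (r t)) →
      (∀ t, i (r t) = r (i t)) →
      ∑ t ∈ (delT S).filter (fun t => f (i t) < f (r (i t)) ∧ f (i t) < f (r (r (i t)))),
        ‖N.Q t‖ ^ 2 ≤ 1 := by
    intro i hi hir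
    apply frame h (Finset.filter_subset _ _)
    intro s hs t ht hne hc
    obtain ⟨-, s1, s2⟩ := Finset.mem_filter.1 hs
    obtain ⟨-, t1, t2⟩ := Finset.mem_filter.1 ht
    rw [rots_iff] at hc
    rcases hc with rfl | rfl | rfl
    · exact hne rfl
    · rw [hir, r3] at t2
      omega
    · rw [hir, hir, r3] at t1
      omega
  have p0 := part (fun t => t) (fun t => Or.inl rfl) (fun t => rfl)
  have p1 := part r (fun t => Or.inr (Or.inl rfl)) (fun t => rfl)
  have p2 := part (fun t => r (r t)) (fun t => Or.inr (Or.inr rfl)) (fun t => rfl)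
  simp only [r3] at p1 p2
  have hcov : delT S ⊆ (delT S).filter (fun t => f t < f (r t) ∧ f t < f (r (r t))) ∪
      ((delT S).filter (fun t => f (r t) < f (r (r t)) ∧ f (r t) < f t) ∪
      (delT S).filter (fun t => f (r (r t)) < f t ∧ f (r (r t)) < f (r t))) := by
    intro t ht
    have h1 : f t ≠ f (r t) := fun e => rne t ht (finj _ ht _ (rm _ ht) e).symm
    have h2 : f t ≠ f (r (r t)) := fun e => rne2 t ht (finj _ ht _ (rm _ (rm _ ht)) e).symm
    have h3 : f (r t) ≠ f (r (r t)) := fun e =>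
      rne _ (rm t ht) (finj _ (rm _ ht) _ (rm _ (rm _ ht)) e).symm
    simp only [Finset.mem_union, Finset.mem_filter, ht, true_and]
    omega
  have q : ∀ A B : Finset (ℂ × ℂ × ℂ), ∑ t ∈ A ∪ B, ‖N.Q t‖ ^ 2 ≤
      ∑ t ∈ A, ‖N.Q t‖ ^ 2 + ∑ t ∈ B, ‖N.Q t‖ ^ 2 := by
    intro A B
    rw [← Finset.sum_union_inter]
    have : 0 ≤ ∑ t ∈ A ∩ B, ‖N.Q t‖ ^ 2 := Finset.sum_nonneg fun t _ => by positivity
    linarith
  have h1 : ∑ t ∈ U, ‖N.Q t‖ ^ 2 ≤ _ :=
    Finset.sum_le_sum_of_subset_of_nonneg (hU.trans hcov) fun t _ _ => by positivity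
  have h2 := q ((delT S).filter (fun t => f t < f (r t) ∧ f t < f (r (r t))))
    ((delT S).filter (fun t => f (r t) < f (r (r t)) ∧ f (r t) < f t) ∪
      (delT S).filter (fun t => f (r (r t)) < f t ∧ f (r (r t)) < f (r t)))
  have h3 := q ((delT S).filter (fun t => f (r t) < f (r (r t)) ∧ f (r t) < f t))
    ((delT S).filter (fun t => f (r (r t)) < f t ∧ f (r (r t)) < f (r t)))
  linarith

end Crest.Agent.R143.Frame7x395
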