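import Crest.Agent.R143.Frame8_395
import Crest.Agent.R143.Frame7_395

/-!
# Row 143 (S0194), route without E3 / ZF: literal objects (helper346), built on Frame1..8_395

Abstract closed map `M : CMap D C` (a dart `g` with `Gp M x g` = a face of degree two; `cell g`,
`cell (rho g)` = the two majority cells, `cell (rho (rho g))` = the minority cell; `blk M x g` = block).

* `rs M a o`  = sum over the even configurations with the gap `o` of the block sum of `a` over the
  block of `o` (so `rs M a o / nG M o` = expectation of the block sum given the gap `o`);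
* `rs_pair`, `rs_rot` (COLOUR SWITCHING: `rs M a o = w * rs M a (rho o)` for spin `w` fields which
  vanish on the root face), `rs_bound` (FRAME for the root block);

Fields on the darts of a network `cm h` (`h : HNet S N`); the dart `inl (a, b)` has the tail `a`, the
head `b`, the third vertex `c = th S (a, b)`, `(a, b, c)` counterclockwise:
* `dv` = `b - a` (step of the circuit), `nv` = `(a + b)/2 - c` (normal), `ctv` = centre of the face;
* `Pv = c + om² a + om b` (the big field), `Rv = c + om a + om² b` (zero for an equilateral face);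
* `Pv_eq : Pv = - nv + i (√3/2) dv`, `Rv_eq : Rv = - nv - i (√3/2) dv`;
* `spinP : Spin (cm h) om Pv`, `spinR : Spin (cm h) (om ^ 2) Rv`, also with a test function of the
  centre; source darts `inr k` carry the value `0`.
-/

set_option autoImplicit false

noncomputable section

open scoped Classical

namespace Crest.Agent.R143.DefsNx346

open Crest.Agent.R143.B0x346 Crest.Agent.R143.DelGx806 Crest.Agent.R143.DelRx806
open Crest.Agent.R143.Frame1x395 Crest.Agent.R143.Frame2x395 Crest.Agent.R143.Frame3x395
  Crest.Agent.R143.Frame4x395 Crest.Agent.R143.Frame5x395 Crest.Agent.R143.Frame7x395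
  Crest.Agent.R143.Frame8x395

section abstractpart

variable {D C : Type} [Fintype D] {M : CMap D C}

/-- block sum of a field -/
def bs (M : CMap D C) (x : D → ZMod 2) (a : D → ℂ) (g : D) : ℂ := ∑ k ∈ blk M x g, a k

/-- sum over the even configurations with the gap `o` of the block sum over the block of `o` -/
def rs (M : CMap D C) (a : D → ℂ) (o : D) : ℂ :=
  ∑ x ∈ (ev M).filter (fun x => Gp M x o), bs M x a o

/-- expectation of the block sum of `a` over the root block, given the gap `o` -/
def EV (M : CMap D C) (a : D → ℂ) (o : D) : ℂ := rs M a o / (nG M o : ℂ)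





end abstractpart

/-! ### fields -/

variable {S : Finset ℂ} {N : Net ℂ}

/-- `i √3 / 2` -/
def hi : ℂ := ((Real.sqrt 3 / 2 : ℝ) : ℂ) * Complex.I

/-- centre of the face -/
def cE (S : Finset ℂ) (e : ℂ × ℂ) : ℂ := (e.1 + e.2 + th S e) / 3
/-- big field -/
def PE (S : Finset ℂ) (e : ℂ × ℂ) : ℂ := th S e + om ^ 2 * e.1 + om * e.2
/-- small field -/
def RE (S : Finset ℂ) (e : ℂ × ℂ) : ℂ := th S e + om * e.1 + om ^ 2 * e.2

/-- a function of the sides as a field on the darts of a network (zero on the source face) -/
def fld (f : ℂ × ℂ → ℂ) : Dt S → ℂ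
  | Sum.inl e => f e.1
  | Sum.inr _ => 0

def Pv (phi : ℂ → ℂ) : Dt S → ℂ := fld fun e => phi (cE S e) * PE S e

theorem om_val : om = -(1 / 2) + hi := by
  unfold om hi
  rw [Complex.exp_mul_I, ← Complex.ofReal_cos, ← Complex.ofReal_sin]
  have h1 : Real.cos (2 * Real.pi / 3) = -(1 / 2) := by
    rw [show 2 * Real.pi / 3 = Real.pi - Real.pi / 3 by ring, Real.cos_pi_sub,
      Real.cos_pi_div_three]
  have h2 : Real.sin (2 * Real.pi / 3) = Real.sqrt 3 / 2 := by
    rw [show 2 * Real.pi / 3 = Real.pi - Real.pi / 3 by ring, Real.sin_pi_sub,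
      Real.sin_pi_div_three]
  rw [h1, h2]
  push_cast
  ring

theorem om2_val : om ^ 2 = -(1 / 2) - hi := by
  have h1 := om_sum
  have h2 := om_val
  linear_combination h1 - h2

theorem om_ne : om ≠ 1 := by
  intro h
  have h1 := om_sum
  rw [h] at h1
  norm_num at h1

theorem om3 : om ^ 3 = 1 := Oscx63.om_pow_three













end Crest.Agent.R143.DefsNx346
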