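import Crest.Agent.R143.Mass5_302
import Crest.Agent.R143.DefsN_346

/-!
# Row 143 (S0194): closed maps with finitely many cells (helper811)

The cells of `cm0 hS` are `Quot (hullE S)`, an infinite type; the averages over the colourings
(`Frame8x395.sum_cfg`, giants, resampling) need a finite type of cells. `restr M` (302) is the same
map with the cells `Set.range M.cell`.

* `rel_restr`, `blk_restr`, `blks_restr`, `ev_restr`, `nG_restr`, `rs_restr`, `EV_restr`,
  `bigB_restr`, `agr_restr` : nothing changes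
* `cfg_restr`, `cfg_ext` : configurations of colourings
* `sum_comp_inj` : averages of functions of some coordinates
* `Cs hS`, `cs`, `rc0 hS` : the (finite) cells of `cm0 hS`, and `cm0 hS` with these cells; `sites_cells` : the average over the colourings of
  the cells = the average over the sets of black sites, for functions of the inner sites
-/

set_option autoImplicit false

noncomputable section

open scoped Classical

namespace Crest.Agent.R143.FinCx811

open Crest.Agent.R143.B0x346 Crest.Agent.R143.SumScx302 Crest.Agent.R143.Mass1x302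
  Crest.Agent.R143.DelGx806 Crest.Agent.R143.Mass2x302 Crest.Agent.R143.Mass3x302
  Crest.Agent.R143.Mass5x302
open Crest.Agent.R143.Frame1x395 Crest.Agent.R143.Frame2x395 Crest.Agent.R143.Frame3x395
  Crest.Agent.R143.Frame4x395 Crest.Agent.R143.Frame8x395 Crest.Agent.R143.Frame10x395
open Crest.Agent.R143.DefsNx346 (rs EV bs)
open Crest.Agent.R143.Frame5x395 (sd mem_sd th th_spec)

variable {D C : Type} {M : CMap D C} {x : D → ZMod 2}

/-! ### the same map with finitely many cells -/




theorem av_restr {c : Set.range M.cell} {p q : D} : Av (restr M) x c p q ↔ Av M x c.1 p q := by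
  constructor
  · rintro ⟨n, h1, h2⟩
    exact ⟨n, h1, fun k hk e => h2 k hk (Subtype.ext e)⟩
  · rintro ⟨n, h1, h2⟩
    exact ⟨n, h1, fun k hk e => h2 k hk (congrArg Subtype.val e)⟩

theorem rel_restr {g h : D} : Rel (restr M) x g h ↔ Rel M x g h := by
  constructor
  · intro H c
    by_cases hc : c ∈ Set.range M.cell
    · rcases H ⟨c, hc⟩ with h1 | h1 | h1
      · exact Or.inl h1
      · exact Or.inr (Or.inl (av_restr.1 h1))
      · exact Or.inr (Or.inr (av_restr.1 h1))
    · rcases H ⟨M.cell g, g, rfl⟩ with h1 | ⟨n, h1, -⟩ | ⟨n, h1, -⟩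
      · exact Or.inl h1
      · exact Or.inr (Or.inl ⟨n, h1, fun k _ e => hc ⟨_, e⟩⟩)
      · exact Or.inr (Or.inr ⟨n, h1, fun k _ e => hc ⟨_, e⟩⟩)
  · intro H c
    rcases H c.1 with h1 | h1 | h1
    · exact Or.inl h1
    · exact Or.inr (Or.inl (av_restr.2 h1))
    · exact Or.inr (Or.inr (av_restr.2 h1))

section fin

variable [Fintype D]

theorem ev_restr : ev (restr M) = ev M := by
  ext x
  rw [mem_ev, mem_ev]
  exact isC_restr


theorem blk_restr {g : D} : blk (restr M) x g = blk M x g := by
  ext h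
  rw [mem_blk, mem_blk, rel_restr]
  exact Iff.rfl








end fin


/-! ### colourings -/


/-- extension of a colouring by `0` -/
def ext (χ : Set.range M.cell → ZMod 2) (c : C) : ZMod 2 :=
  if h : c ∈ Set.range M.cell then χ ⟨c, h⟩ else 0



/-- **functions of some of the coordinates** -/
theorem sum_comp_inj {I K B A : Type*} [Fintype I] [Fintype K] [Fintype B] [AddCommMonoid A]
    {j : I → K} (hj : Function.Injective j) (G : (I → B) → A) :
    ∑ χ : K → B, G (fun i => χ (j i)) =
      (Fintype.card B ^ (Fintype.card K - Fintype.card I)) • ∑ ψ : I → B, G ψ := by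
  set e : (K → B) ≃ ({k // k ∈ Set.range j} → B) × ({k // k ∉ Set.range j} → B) :=
    Equiv.piEquivPiSubtypeProd (fun k => k ∈ Set.range j) fun _ => B with he
  set e1 : I ≃ {k // k ∈ Set.range j} := Equiv.ofInjective j hj with he1
  set e2 : ({k // k ∈ Set.range j} → B) ≃ (I → B) := Equiv.arrowCongr e1.symm (Equiv.refl B)
    with he2
  have h1 : ∑ χ : K → B, G (fun i => χ (j i)) =
      ∑ p : (I → B) × ({k // k ∉ Set.range j} → B), G p.1 := by
    refine Fintype.sum_equiv (e.trans (Equiv.prodCongr e2 (Equiv.refl _))) _ _ fun χ => ?_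
    congr 1
  rw [h1, Fintype.sum_prod_type]
  rw [Finset.smul_sum]
  refine Finset.sum_congr rfl fun ψ _ => ?_
  simp only
  rw [Finset.sum_const, Finset.card_univ, Fintype.card_fun]
  congr 2
  rw [Fintype.card_subtype_compl]
  congr 1
  exact (Fintype.card_congr e1).symm

/-! ### the cells of `cm0` -/

variable {S : Finset ℂ}

/-- the cells of `cm0 hS` (a definition, not an abbreviation: `DecidableEq` is the classical one) -/
def Cs (hS : GP (S : Set ℂ)) : Type := Set.range (cm0 hS).cell

instance (hS : GP (S : Set ℂ)) : Fintype (Cs hS) :=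
  inferInstanceAs (Fintype (Set.range (cm0 hS).cell))

/-- **`cm0 hS` with its finitely many cells** -/
def rc0 (hS : GP (S : Set ℂ)) : CMap (D0 S) (Cs hS) := restr (cm0 hS)





theorem blk_rc0 (hS : GP (S : Set ℂ)) {x : D0 S → ZMod 2} {g : D0 S} :
    blk (rc0 hS) x g = blk (cm0 hS) x g := blk_restr




theorem cell_mem (hS : GP (S : Set ℂ)) (h3 : 3 ≤ S.card) {v : ℂ} (hv : v ∈ S) :
    (Quot.mk (hullE S) v : Quot (hullE S)) ∈ Set.range (cm0 hS).cell := by
  obtain ⟨b, hb⟩ := Crest.Agent.R143.DelRx806.exists_tri_at hS h3 hv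
  obtain ⟨c, hT⟩ := Crest.Agent.R143.DelRx806.mem_nbs.1 hb
  exact ⟨⟨(v, b), mem_sd.2 ⟨c, hT⟩⟩, rfl⟩

/-- the cell of a site -/
def cs (hS : GP (S : Set ℂ)) (h3 : 3 ≤ S.card) (v : {v // v ∈ S}) : Cs hS :=
  ⟨Quot.mk _ v.1, cell_mem hS h3 v.2⟩

theorem cs_inj (hS : GP (S : Set ℂ)) (h3 : 3 ≤ S.card) {v w : {v // v ∈ S}}
    (hv : ¬ OnHull S v.1) (h : cs hS h3 v = cs hS h3 w) : w = v :=
  Subtype.ext (quot_inner hS hv (congrArg Subtype.val h))

/-- two sites joined by an edge of the hull are in one cell -/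
theorem cs_hull (hS : GP (S : Set ℂ)) (h3 : 3 ≤ S.card) {v w : {v // v ∈ S}}
    (h : hullE S v.1 w.1) : cs hS h3 v = cs hS h3 w := Subtype.ext (Quot.sound h)

/-- every cell is the cell of a site -/
theorem cs_surj (hS : GP (S : Set ℂ)) (h3 : 3 ≤ S.card) (c : Cs hS) : ∃ v, cs hS h3 v = c := by
  obtain ⟨_, ⟨⟨⟨a, b⟩, he⟩, rfl⟩⟩ := c
  obtain ⟨c, hc⟩ := mem_sd.1 he
  exact ⟨⟨a, (mem_delT.1 hc).1⟩, rfl⟩


/-- colouring of the cells given by a planar colouring which is constant along the hull -/
def rcol (hS : GP (S : Set ℂ)) (χ : ℂ → ZMod 2) (h : ∀ a b, hullE S a b → χ a = χ b) :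
    Cs hS → ZMod 2 := fun c => Quot.lift χ h c.1


/-- **average over the colourings of the cells = average over the colourings of the sites**, for
functions of the colours of the inner sites -/
theorem sites_cells (hS : GP (S : Set ℂ)) (h3 : 3 ≤ S.card) {A : Type*} [AddCommMonoid A]
    (G : ({v : {v // v ∈ S} // ¬ OnHull S v.1} → ZMod 2) → A) :
    (2 ^ (S.card - (S.filter fun v => ¬ OnHull S v).card)) •
        ∑ χ : Cs hS → ZMod 2, G (fun v => χ (cs hS h3 v.1)) =
      (2 ^ (Fintype.card (Cs hS) - (S.filter fun v => ¬ OnHull S v).card)) •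
        ∑ σ : {v // v ∈ S} → ZMod 2, G (fun v => σ v.1) := by
  have hc : Fintype.card {v : {v // v ∈ S} // ¬ OnHull S v.1} =
      (S.filter fun v => ¬ OnHull S v).card := by
    rw [Fintype.card_subtype]
    rw [← Finset.card_map (Function.Embedding.subtype _)]
    congr 1
    ext v
    simp only [Finset.mem_map, Finset.mem_filter, Finset.mem_univ, true_and,
      Function.Embedding.coe_subtype, Subtype.exists, exists_and_left, exists_prop,
      exists_eq_right_right]
    tauto
  have h1 := sum_comp_inj (B := ZMod 2) (j := fun v : {v : {v // v ∈ S} // ¬ OnHull S v.1} =>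
    cs hS h3 v.1) (fun v w h => by
      have := cs_inj hS h3 v.2 h
      exact (Subtype.ext this).symm) G
  have h2 := sum_comp_inj (B := ZMod 2) (j := fun v : {v : {v // v ∈ S} // ¬ OnHull S v.1} =>
    v.1) Subtype.val_injective G
  rw [ZMod.card, hc] at h1 h2
  rw [Fintype.card_coe] at h2
  have h1' : ∑ χ : Cs hS → ZMod 2, G (fun v => χ (cs hS h3 v.1)) =
      (2 ^ (Fintype.card (Cs hS) - (S.filter fun v => ¬ OnHull S v).card)) • ∑ ψ, G ψ := by
    convert h1
  have h2' : ∑ σ : {v // v ∈ S} → ZMod 2, G (fun v => σ v.1) =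
      (2 ^ (S.card - (S.filter fun v => ¬ OnHull S v).card)) • ∑ ψ, G ψ := by
    convert h2
  rw [h1', h2', smul_smul, smul_smul, mul_comm]

end Crest.Agent.R143.FinCx811
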