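import Crest.Agent.R143.InpI_609

/-!
# Row 143 (S0194), RIG: the same as `InpI_609` for `MeasDx609.mI` (points in `P`, window `U ⊇ P`)
(helper609)

* `mv u ε ω i = mI u ε i id ω` ; `sig_mv`, `norm_mv`, `tI`, `dI` of it
* `envX_gen` : `EnvX om κ T D e` for any `T`, `D` measurable on `U`, `‖T‖ ≤ M`; `l1d_gen` : any
  phase `t`, output `L1D` of 854
* `envX_in`, `l1d_in`, **`rig_t3_in`** : the frozen ends for `mv`
-/

set_option autoImplicit false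
set_option linter.unusedSectionVars false

noncomputable section

open scoped Classical

namespace Crest.Agent.R143.InpJx609

open MeasureTheory Set Filter Topology
open scoped ENNReal
open Crest.ProbabilityR.Voronoi
open Crest.Agent.R143.PP0x831 Crest.Agent.R143.Dbl2x609 Crest.Agent.R143.B0x346
open Crest.Agent.R143.MeasPx609 Crest.Agent.R143.MeasDx609 Crest.Agent.R143.InpIx609
open Crest.Agent.R143.PolyUx346 (Poly)
open Crest.Agent.R143.IndLoc2x279 (sig sig_le sig_mono)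
open Crest.Agent.R143.IndLoc3x279 (clr cav)
open Crest.Agent.R143.EnvIx279
open Crest.Agent.R143.CorMx970 (tot)
open Crest.Agent.R143.RigCx654 Crest.Agent.R143.RigDx654
open Crest.Agent.R143.PolyQx854 Crest.Agent.R143.PolySx854
open Crest.Agent.R143.PolyEx854
open Crest.Agent.R143.AsmNx758 (POLY)

variable {u : Poly} {ε : ℝ} {U C : Set ℂ}

/-- mean end points of the points in `P` -/
def mv (u : Poly) (ε : ℝ) (ω : Sample) (i : ZMod 3) : ℂ := mI u ε i id ω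

theorem sig_mv (hε : 0 < ε) (u : Poly) (hU : u.P ⊆ U) (i : ZMod 3) :
    Measurable[sig ε U] fun ω => mv u ε ω i := sig_mI hε u hU i measurable_id

theorem norm_mv (hε : 0 < ε) (u : Poly) (ω : Sample) (i : ZMod 3) : ‖mv u ε ω i‖ ≤ Mb u :=
  norm_mI hε u (Mb_pos u).le
    (fun _ hv => norm_Wn u zero_le_one (P_sub_Wn u 0 hv)) i ω

theorem sig_tv (hε : 0 < ε) (u : Poly) (hU : u.P ⊆ U) (i : ZMod 3) :
    Measurable[sig ε U] fun ω => tI (mv u ε ω) i :=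
  ((sig_mv hε u hU (i + 1)).add ((sig_mv hε u hU (i + 2)).const_mul om)).add
    ((sig_mv hε u hU i).const_mul (om ^ 2))

theorem sig_dv (hε : 0 < ε) (u : Poly) (hU : u.P ⊆ U) (i : ZMod 3) :
    Measurable[sig ε U] fun ω => dI (mv u ε ω) i :=
  (sig_mv hε u hU i).sub (sig_mv hε u hU (i + 1))

theorem norm_tv (hε : 0 < ε) (u : Poly) (ω : Sample) (i : ZMod 3) :
    ‖tI (mv u ε ω) i‖ ≤ 3 * Mb u := by
  unfold tI
  refine (norm_add_le _ _).trans ?_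
  have h0 := norm_mv hε u ω i
  have h1 := norm_mv hε u ω (i + 1)
  have h2 := norm_mv hε u ω (i + 2)
  have h3 : ‖om * mv u ε ω (i + 2)‖ ≤ Mb u := by
    rw [norm_mul, norm_om1, one_mul]; exact h2
  have h4 : ‖om ^ 2 * mv u ε ω i‖ ≤ Mb u := by
    rw [norm_mul, norm_pow, norm_om1, one_pow, one_mul]; exact h0
  linarith [norm_add_le (mv u ε ω (i + 1)) (om * mv u ε ω (i + 2))]

theorem norm_dv (hε : 0 < ε) (u : Poly) (ω : Sample) (i : ZMod 3) :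
    ‖dI (mv u ε ω) i‖ ≤ 2 * Mb u := by
  unfold dI
  have h0 := norm_mv hε u ω i
  have h1 := norm_mv hε u ω (i + 1)
  linarith [norm_sub_le (mv u ε ω i) (mv u ε ω (i + 1))]

/-- the two conventions -/
theorem a_mv (u : Poly) (ε : ℝ) (ω : Sample) : aI u ε ω = -sg (mv u ε ω) := rfl

theorem D_mv (u : Poly) (ε : ℝ) (ω : Sample) (k : ZMod 3) :
    DI u ε ω k = RigCx654.dd (mv u ε ω) k := rfl

theorem dv_eq (u : Poly) (ε : ℝ) (ω : Sample) (i : ZMod 3) :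
    dI (mv u ε ω) i = -DI u ε ω (i + 2) := by
  unfold dI DI mv
  have e1 : i + 2 + 2 = i + 1 := by revert i; decide
  have e2 : i + 2 + 1 = i := by revert i; decide
  rw [e1, e2]
  ring


/-! ### any observables of the window -/

section env

variable {n r : ℕ} {S : Sample → Finset ℂ} {g : Set (ℂ × Bool) → ℝ}
  {V : ℕ → Set (ℂ × Bool) → ℂ} {a b : Set (ℂ × Bool) → ℕ}

/-- **970's data for any `T`, `D` measurable on the window** -/
theorem env_gen (h : Inp ε C U n S g V a b) {T D : Sample → ℂ} {M t' : ℝ} {t : ℂ} (ht : ‖t‖ = 1)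
    (hT : Measurable[sig ε U] T) (hD : Measurable[sig ε U] D) (Tb : ∀ ω, ‖T ω‖ ≤ M)
    (Db : ∀ ω, ‖D ω‖ ≤ t') {J : Finset ℕ} {κ : ℂ} {z : ℕ → ℂ} {a1 a2 K q q' c θ ρ : ℝ}
    {bad : Set Sample} {Q Q' E1 dd : Sample → ℝ} (J_le : J ⊆ Finset.range n)
    (g0_pos : 0 < ∫ ω, g (cfg ε ω) ∂sampleLaw) (K0 : 0 ≤ K) (θ0 : 0 ≤ θ) (ρ0 : 0 ≤ ρ)
    (q0 : 0 ≤ q) (q0' : 0 ≤ q') (ha2 : 0 ≤ a2) (mbad : MeasurableSet bad)
    (hbad : sampleLaw.real bad ≤ ρ * ∫ ω, g (cfg ε ω) ∂sampleLaw)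
    (good : ∀ᵐ ω ∂sampleLaw, ω ∉ bad → Good n r S g V a b t (T ω) (E1 ω) a2 θ (Q ω) (Q' ω) ω)
    (hE : ∀ ω, 0 ≤ E1 ω) (i1 : Integrable E1 sampleLaw)
    (e1 : ∫ ω, E1 ω ∂sampleLaw ≤ a1 * ∫ ω, g (cfg ε ω) ∂sampleLaw)
    (e3 : ∀ l ∈ Finset.range n, ∫ ω, g (cfg ε ω) * ‖V l (cfg ε ω)‖ ^ 2 ∂sampleLaw ≤
      K ^ 2 * ∫ ω, g (cfg ε ω) ∂sampleLaw)
    (iQ : Integrable Q sampleLaw) (Q0 : ∀ ω, 0 ≤ Q ω)
    (eQ : ∫ ω, Q ω ∂sampleLaw ≤ q ^ 2 * ∫ ω, g (cfg ε ω) ∂sampleLaw)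
    (iQ' : Integrable Q' sampleLaw) (Q0' : ∀ ω, 0 ≤ Q' ω)
    (eQ' : ∫ ω, Q' ω ∂sampleLaw ≤ q' ^ 2 * ∫ ω, g (cfg ε ω) ∂sampleLaw)
    (mean : ∀ l ∈ J, ∫ ω, (g (cfg ε ω) : ℂ) * V l (cfg ε ω) ∂sampleLaw =
      ((∫ ω, g (cfg ε ω) ∂sampleLaw : ℝ) : ℂ) * (κ * z l))
    (idd : Integrable dd sampleLaw) (edd : ∫ ω, dd ω ∂sampleLaw ≤ c)
    (disp : ∀ᵐ ω ∂sampleLaw, ‖D ω - ∑ l ∈ J, z l * (qo S a b l ω : ℂ)‖ ≤ dd ω) :
    L1D t κ T D (tot n r J a1 (a2 + M * ρ) K q q' c θ ρ ‖κ‖) ∧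
      ∃ (gv : ℕ → ℂ) (G : Sample → ℝ) (v : ℕ → Sample → ℂ) (w w2 o na nb : ℕ → Sample → ℝ)
        (E2 : Sample → ℝ), CorMx970.Env sampleLaw n r J t κ z
          (∫ ω, g (cfg ε ω) ∂sampleLaw) a1 (a2 + M * ρ) K q q' c θ ρ gv bad G v w w2 o na nb Q Q'
          E1 E2 dd T D ∧ ∀ f : Sample → ℂ, Measurable[sig ε U] f → (∀ ω, ‖f ω‖ ≤ 1) →
          CorMx970.EnvF sampleLaw n (∫ ω, g (cfg ε ω) ∂sampleLaw) gv G v o T f := by
  have iD : Integrable D sampleLaw := int_of_sig h.hε h.hU h.hUb hD Db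
  have hM : 0 ≤ M := by
    have : Nonempty Sample := by
      have hp : IsProbabilityMeasure sampleLaw := probS
      by_contra hc
      rw [not_nonempty_iff] at hc
      have h1 := hp.measure_univ
      rw [Measure.eq_zero_of_isEmpty sampleLaw] at h1
      simp at h1
    exact (norm_nonneg _).trans (Tb (Classical.arbitrary Sample))
  have h2 := E2_int (a2 := a2) hM mbad hbad h.iG h.eG
  have hmain := main_of (T := T) ht h.g0 h.g1 ha2 θ0 hE Tb good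
  have henv := h.env (t := t) (κ := κ) (z := z) J_le g0_pos K0 θ0 ρ0 q0 q0' ht mbad hbad
    hmain i1 e1 h2.1 h2.2 e3 iQ Q0 eQ iQ' Q0' eQ' mean hT Tb iD idd edd disp
  refine ⟨⟨henv.iT, iD, ?_⟩, _, _, _, _, _, _, _, _, _, henv,
    fun f hf f1 => h.envF hT Tb hf f1⟩
  exact Inp.l1 h rfl rfl henv hT Tb hD

end env

/-! ### phases -/

/-- 654's phase at the type `k + 1` is 854's phase at the white class `k` -/
theorem l1d_in (hε : 0 < ε) (u : Poly) (k : ZMod 3) {κ : ℂ} {e : ℝ}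
    (h : L1D om κ (fun ω => tI (mv u ε ω) (k + 1)) (fun ω => dI (mv u ε ω) (k + 1)) e) :
    L1D (omz k ^ 2) (om * κ) (aI u ε) (fun ω => DI u ε ω k) e := by
  refine ⟨int_aI hε u, int_DI hε u k, ?_⟩
  refine le_trans (le_of_eq ?_) h.le
  refine integral_congr_ae (ae_of_all _ fun ω => ?_)
  have h3 := key_norm (mv u ε ω) κ k
  simp only
  rw [← h3, a_mv, D_mv]
  congr 1
  ring

variable {I : Type}






end Crest.Agent.R143.InpJx609
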