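import Crest.Agent.R143.Det_421
import Crest.Agent.R143.Cont7_920
import Crest.Agent.R143.Hex_877

/-!
# Row 143 (S0194), CONT: `DetsS` (920) and static CONT for the frozen `TS` (helper421)

* `detsS` : 920's `DetsS` for every family of 877
* `detsS_hull`, `detsS_root` : oriented hits, hull version and root face version
* `cont_hull`, `cont_root` : **static CONT** `‖TS S A z - TS S A' z‖ ≤ ..` with the geometric
  hypotheses only
-/

set_option autoImplicit false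

noncomputable section

open scoped Classical

namespace Crest.Agent.R143.DetSx421

open Set
open Crest.Agent.R143.B0x346 Crest.Agent.R143.DelGx806 Crest.Agent.R143.JColx54
  Crest.Agent.R143.RE0x723
open Crest.Agent.R143.K33x877 (Clu Hit fr CtrT CtrX Fam Cls Tr TrR fam_hull fam_root)
open Crest.Agent.R143.GateKx421 Crest.Agent.R143.Detx421
open Crest.Agent.R143.Cont5x920 (OP ff_coe hitO_hit)
open Crest.Agent.R143.Cont6x920
open Crest.Agent.R143.Cont7x920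
open Crest.Agent.R143.NetUx346 (ff TS Hex)
open Crest.Agent.R143.Hexx877

variable {S : Finset ℂ} {A A' : ZMod 3 → Set ℂ} {P : (ZMod 3 → Set ℂ) → Prop}
  {O : Set (ℂ × ℂ × ℂ)}

/-- geometric hypotheses of CONT: `m` length of the edges at the free sites, `d0` width of the
layer, `Rg` region of the arms -/
structure Lay (S : Finset ℂ) (A A' : ZMod 3 → Set ℂ) (Rg : Set ℂ) (d0 m : ℝ) : Prop where
  hs : ∀ i, A i ⊆ A' i
  vis : ∃ X, CtrX S A' X
  dnn : 0 ≤ d0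
  mnn : 0 ≤ m
  edge : ∀ a ∈ fr S A, ∀ b, Adj S a b → ‖a - b‖ ≤ m
  thin : ∀ l, Thin S A A' l d0
  reg : fr S A ⊆ Rg
  reg' : ∀ z, (∃ w ∈ fr S A', Adj S z w) → z ∈ Rg

/-- **920's `DetsS`** -/
theorem detsS (F : Fam S P O) (hA : P A) (hA' : P A') {Q : ℂ → ℂ → ℂ → Prop}
    (hQ : ∀ (i : ZMod 3) T b v u, Hit S A (i + 1) (i + 2) i T b v u → Q b v u →
      (b, v, u) ∉ O ∧ (v, b, u) ∉ O)
    (hQ' : ∀ (i : ZMod 3) T b v u, Hit S A' (i + 1) (i + 2) i T b v u → Q b v u →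
      (b, v, u) ∉ O ∧ (v, b, u) ∉ O) {Rg : Set ℂ} {d0 m d D : ℝ} (L : Lay S A A' Rg d0 m)
    (hdm : d0 + 2 * m ≤ d) (hdp : 0 < d) : DetsS S (ff S A) A A' Q Rg d D := by
  intro i ρ1 ρ2 η h1 h2 h3 _
  have h12 : ∀ i : ZMod 3, i + 1 ≠ i + 2 ∧ i + 1 ≠ i ∧ i + 2 ≠ i := by decide
  obtain ⟨e1, e2, e3⟩ := h12 i
  obtain ⟨p0, -, p1, -, h⟩ := det_lit F hA hA' L.hs L.vis e1 e2 e3 (hQ i) (hQ' i) L.dnn L.mnn hdm
    hdp h1 h2 h3 L.edge L.thin (V := ff S A) ff_coe L.reg L.reg'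
  exact ⟨p0, p1, h⟩


/-- root face version -/
theorem detsS_root {o : ℂ × ℂ × ℂ} {l : ZMod 3} (hA : TrR S o l A) (hA' : TrR S o l A')
    (hn : NegO A o) {Rg : Set ℂ} {d0 m d D : ℝ} (L : Lay S A A' Rg d0 m)
    (hdm : d0 + 2 * m ≤ d) (hdp : 0 < d) : DetsS S (ff S A) A A' (OP S) Rg d D := by
  have hn' : NegO A' o := ⟨L.hs 0 hn.1, L.hs 2 hn.2.1, L.hs 1 hn.2.2⟩
  refine detsS (fam_root S o l) hA hA' (fun i T b v u h1 h2 => ?_) (fun i T b v u h1 h2 => ?_) L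
    hdm hdp
  · exact (hitO_off hA hn ((hitO_hit hA.gp).2 ⟨h1, h2⟩)).off
  · exact (hitO_off hA' hn' ((hitO_hit hA.gp).2 ⟨h1, h2⟩)).off

/-! ### static CONT -/



end Crest.Agent.R143.DetSx421
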