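import Crest.Agent.R143.LayQ_811
import Crest.Agent.R143.TileR2_228

/-!
# Row 143 (S0194), CORE-C, box R1f: layout of the corridors round a labelled polygon (helper416)

`Lay n M m p W A e` : `W` is the fine path (clockwise, 228's `FPath`) along the coarse walk `p`
(811's `Seg`), `e j` is the coarse edge which carries the mark `j` (absolute integer indices,
`e (j + 3) = e j + n`).
* `g j` : the gate of the mark `j`; `g (j + 3) = g j + M`, `g j + 7 ≤ g (j + 1)`
* label of the tiles `g j ≤ a < g (j + 1)` is `-j : ZMod 3` (clockwise order `0, 2, 1`)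
* `Lay.ex`, `Lay.uniq` : every tile is in exactly one `[g j, g (j + 1))`
* `al i`, `mi i`, `be i` : gates `0`, `r`, `n` of the corridor of the label `i`; the out tiles are
  `al i ≤ a < be i`, the white tiles `be i ≤ a < al i + M` carry the label `i`
* `run`, `run4`, `run_mi` : consecutive straight tiles at the marks
* `gate_mark` : gate and mark are close
* `quasi_cor`, `quasi_arc` : quasi-geodesic inside a corridor
-/

set_option autoImplicit false

noncomputable section

open scoped Classical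

namespace Crest.Agent.R143.Layx416

open Crest.Agent.R143.TileRx228 Crest.Agent.R143.LayQx811
open Crest.Agent.R143.Gatex838 (X Y)

/-- **layout** -/
structure Lay (n M : ℕ) (m : ℤ) (p W : ℤ → ℤ × ℤ) (A e : ℤ → ℤ) : Prop
    extends Seg n M m p W A where
  fp : FPath M W
  m10 : 10 ≤ m
  eper : ∀ j, e (j + 3) = e j + n
  elt : ∀ j, e j < e (j + 1)

/-- gate of the mark `j` -/
def g (A e : ℤ → ℤ) (j : ℤ) : ℤ := A (e j) + (A (e j + 1) - A (e j)) / 2

variable {n M : ℕ} {m : ℤ} {p W : ℤ → ℤ × ℤ} {A e : ℤ → ℤ}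

namespace Lay

theorem g_per (H : Lay n M m p W A e) (j : ℤ) : g A e (j + 3) = g A e j + M := by
  unfold g
  rw [H.eper, H.Aper, show e j + (n : ℤ) + 1 = e j + 1 + n by ring, H.Aper]
  rw [show A (e j + 1) + (M : ℤ) - (A (e j) + M) = A (e j + 1) - A (e j) by ring]
  ring

/-- the gate of a mark is well inside its edge -/
theorem g_mem (H : Lay n M m p W A e) (j : ℤ) :
    2 * A (e j) + m ≤ 2 * g A e j + 3 ∧ 2 * g A e j + m ≤ 2 * A (e j + 1) + 3 ∧
      A (e j) + 4 ≤ g A e j ∧ g A e j + 4 ≤ A (e j + 1) := by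
  have h1 := abs_le.1 (H.len (e j))
  have h2 := H.m10
  unfold g
  omega

theorem g_lt (H : Lay n M m p W A e) (j : ℤ) : g A e j + 8 ≤ g A e (j + 1) := by
  have h1 := (H.g_mem j).2.2.2
  have h2 := (H.g_mem (j + 1)).2.2.1
  have h3 := H.Amono.monotone (show e j + 1 ≤ e (j + 1) by have := H.elt j; omega)
  omega

theorem g_gap (H : Lay n M m p W A e) (j : ℤ) : g A e j + m - 3 ≤ g A e (j + 1) := by
  have h1 := (H.g_mem j).2.1
  have h2 := (H.g_mem (j + 1)).1
  have h3 := H.Amono.monotone (show e j + 1 ≤ e (j + 1) by have := H.elt j; omega)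
  omega

theorem g_mono (H : Lay n M m p W A e) : StrictMono (g A e) :=
  strictMono_int_of_lt_succ fun j => by have := H.g_lt j; omega

theorem g_per' (H : Lay n M m p W A e) (j t : ℤ) : g A e (j + 3 * t) = g A e j + t * M := by
  induction t using Int.induction_on with
  | zero => simp
  | succ t ih => rw [show j + 3 * ((t : ℤ) + 1) = j + 3 * t + 3 by ring, H.g_per, ih]; ring
  | pred t ih =>
    have := H.g_per (j + 3 * (-(t : ℤ) - 1))
    rw [show j + 3 * (-(t : ℤ) - 1) + 3 = j + 3 * -(t : ℤ) by ring, ih] at this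
    linarith

theorem M_pos (H : Lay n M m p W A e) : 24 ≤ M := by
  have h0 := H.g_per 0
  have h1 := H.g_lt 0
  have h2 := H.g_lt 1
  have h3 := H.g_lt 2
  norm_num at h0 h1 h2 h3
  omega

/-- every tile is in one arc -/
theorem ex (H : Lay n M m p W A e) (a : ℤ) : ∃ j, g A e j ≤ a ∧ a < g A e (j + 1) := by
  have hge : ∀ (k : ℤ) (t : ℕ), g A e k + t ≤ g A e (k + t) := by
    intro k t
    induction t with
    | zero => simp
    | succ t ih =>
      have := H.g_lt (k + t)
      push_cast
      rw [← add_assoc k]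
      omega
  have h1 : ∃ k, g A e k ≤ a := by
    refine ⟨0 - (g A e 0 - a).toNat, ?_⟩
    have := hge (0 - (g A e 0 - a).toNat) (g A e 0 - a).toNat
    rw [sub_add_cancel] at this
    omega
  have h2 : ∀ k, g A e k ≤ a → k ≤ (a - g A e 0).toNat := by
    intro k hk
    by_contra hc
    push Not at hc
    have := hge 0 ((a - g A e 0).toNat)
    rw [zero_add] at this
    have h3 := H.g_mono hc
    omega
  obtain ⟨k, hk, hmax⟩ := Int.exists_greatest_of_bdd ⟨_, h2⟩ h1
  refine ⟨k, hk, ?_⟩
  by_contra hc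
  push Not at hc
  have := hmax (k + 1) hc
  omega

theorem uniq (H : Lay n M m p W A e) {a j k : ℤ} (h1 : g A e j ≤ a) (h2 : a < g A e (j + 1))
    (h3 : g A e k ≤ a) (h4 : a < g A e (k + 1)) : j = k := by
  rcases lt_trichotomy j k with hl | hl | hl
  · have := H.g_mono.monotone (show j + 1 ≤ k by omega)
    omega
  · exact hl
  · have := H.g_mono.monotone (show k + 1 ≤ j by omega)
    omega

/-- **all tiles of the edge of a mark are straight** -/
theorem run (H : Lay n M m p W A e) (j : ℤ) {a : ℤ} (h1 : A (e j) < a) (h2 : a < A (e j + 1)) :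
    ge W (a + 1) = ge W a := by
  unfold ge
  rw [add_sub_cancel_right, H.straight]
  intro k hk
  rcases lt_or_ge k (e j + 1) with h3 | h3
  · have := H.Amono.monotone (show k ≤ e j by omega)
    omega
  · have := H.Amono.monotone h3
    omega

/-- **four straight tiles round the gate of a mark** -/
theorem run4 (H : Lay n M m p W A e) (j : ℤ) {a : ℤ} (h1 : g A e j - 3 ≤ a)
    (h2 : a ≤ g A e j + 3) : ge W (a + 1) = ge W a := by
  have h := H.g_mem j
  exact H.run j (by omega) (by omega)


end Lay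

/-! ### the corridor of a label -/

/-- index of the white arc of the label `i` -/
def jj (i : ZMod 3) : ℤ := ((-i).val : ℤ)

/-- gate `0`, middle gate, gate `n` of the corridor of the label `i` -/
def al (A e : ℤ → ℤ) (i : ZMod 3) : ℤ := g A e (jj i + 1)
def mi (A e : ℤ → ℤ) (i : ZMod 3) : ℤ := g A e (jj i + 2)
def be (A e : ℤ → ℤ) (i : ZMod 3) : ℤ := g A e (jj i + 3)

/-- number of the out tiles, middle index -/
def nn (A e : ℤ → ℤ) (i : ZMod 3) : ℕ := (be A e i - al A e i).toNat
def rr (A e : ℤ → ℤ) (i : ZMod 3) : ℕ := (mi A e i - al A e i).toNat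

theorem jj_lab (i : ZMod 3) : (-(jj i : ZMod 3)) = i := by
  unfold jj
  rw [Int.cast_natCast, ZMod.natCast_zmod_val, neg_neg]

namespace Lay

theorem al_mi (H : Lay n M m p W A e) (i : ZMod 3) : al A e i + 8 ≤ mi A e i := by
  have := H.g_lt (jj i + 1)
  rw [add_assoc] at this
  exact this

theorem mi_be (H : Lay n M m p W A e) (i : ZMod 3) : mi A e i + 8 ≤ be A e i := by
  have := H.g_lt (jj i + 2)
  rw [add_assoc] at this
  exact this

theorem al_M (H : Lay n M m p W A e) (i : ZMod 3) : al A e i + M = g A e (jj i + 3 + 1) := by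
  unfold al
  rw [show jj i + 3 + 1 = jj i + 1 + 3 by ring, H.g_per]

theorem be_al (H : Lay n M m p W A e) (i : ZMod 3) : be A e i + 8 ≤ al A e i + M := by
  rw [H.al_M]
  exact H.g_lt (jj i + 3)

theorem be_al' (H : Lay n M m p W A e) (i : ZMod 3) : be A e i + m - 3 ≤ al A e i + M := by
  rw [H.al_M]
  exact H.g_gap (jj i + 3)

theorem nn_eq (H : Lay n M m p W A e) (i : ZMod 3) : al A e i + nn A e i = be A e i := by
  have h1 := H.al_mi i
  have h2 := H.mi_be i
  unfold nn
  omega

theorem rr_eq (H : Lay n M m p W A e) (i : ZMod 3) : al A e i + rr A e i = mi A e i := by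
  have h1 := H.al_mi i
  unfold rr
  omega

theorem rr_pos (H : Lay n M m p W A e) (i : ZMod 3) : 8 ≤ rr A e i := by
  have h1 := H.al_mi i
  have := H.rr_eq i
  omega

theorem rr_lt (H : Lay n M m p W A e) (i : ZMod 3) : rr A e i + 8 ≤ nn A e i := by
  have h1 := H.mi_be i
  have := H.rr_eq i
  have := H.nn_eq i
  omega

theorem nn_lt (H : Lay n M m p W A e) (i : ZMod 3) : nn A e i + 8 ≤ M := by
  have h1 := H.be_al i
  have := H.nn_eq i
  omega




/-- **seven consecutive straight out tiles**: `mi i - 3, …, mi i + 3` -/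
theorem run_mi (H : Lay n M m p W A e) (i : ZMod 3) {a : ℤ} (h1 : mi A e i - 3 ≤ a)
    (h2 : a ≤ mi A e i + 3) : ge W (a + 1) = ge W a ∧ al A e i ≤ a ∧ a < be A e i := by
  have := H.al_mi i
  have := H.mi_be i
  exact ⟨H.run4 (jj i + 2) h1 h2, by omega, by omega⟩

/-- **quasi-geodesic in the corridor** -/
theorem quasi_cor (H : Lay n M m p W A e) (i : ZMod 3) {r a b : ℤ} (hr : 2 * r + 4 ≤ m)
    (hr7 : r + 7 ≤ m) (hr0 : 0 ≤ r) (hab : sd2 (W a) (W b) ≤ r) (a1 : al A e i ≤ a)
    (a2 : a ≤ be A e i) (b1 : al A e i ≤ b) (b2 : b ≤ be A e i) : |a - b| ≤ 2 * r := by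
  have := H.be_al' i
  exact H.quasi_open hr7 hr0 hab a1 a2 b1 b2 (by omega)


end Lay

end Crest.Agent.R143.Layx416
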