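import Crest.Agent.R143.NetU_346
import Crest.Agent.R143.K33_877
import Crest.Agent.R143.Appl1_359

/-!
# Row 143 (S0194), CONT (K8'): the static `T` is local (helper277)

`X` = a connected set of free sites which is adjacent to the three giants (`CtrX`) and closed (all its
other neighbours are in the giants).

* `K3 S A` : K33 for (triangle, set) and (set, set); `k3_tr` : it holds for `Tr S A`
* `Lo S A X S' A'` : the nets `(S, A)` and `(S', A')` have the same triangles at `X` and the same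
  labels at the neighbours of `X`; `Lo.refl`, `Lo.symm`
* `near` : the hit triple has a vertex in `X`, its other vertices are in `X` or in the giants
* `hitO_loc` : **the same hit triples**
* `exC_inter` : mean of a function of `T ∩ X`
* `TS_loc` : **`TS S A z = TS S' A' z`** ; `TS_same` : the same sites and free sites
* `TS_small` : no centre `X` : `‖TS S A z‖ ≤ 6 r`, `r` = maximum of `‖z a - z b‖` over the edges
-/

set_option autoImplicit false

noncomputable section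

open scoped Classical

namespace Crest.Agent.R143.Loc8x277

open Crest.Agent.R143.B0x346 Crest.Agent.R143.DelGx806 Crest.Agent.R143.DelRx806
open Crest.Agent.R143.JColx54 (Adj adj_tri adj_tri' adj_tri'')
open Crest.Agent.R143.RE0x723 (Pth Pth.refl Pth.snd Pth.trans Pth.tail Pth.single Pth.symm Pth.mono
  Pth.ind Pth.self)
open Crest.Agent.R143.K33x877
open Crest.Agent.R143.RB2x54 (Vt)
open Crest.Agent.R143.NetUx346

variable {S S' : Finset ℂ} {A A' : ZMod 3 → Set ℂ} {X : Set ℂ} {i m : ZMod 3}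

/-- K33 -/
structure K3 (S : Finset ℂ) (A : ZMod 3 → Set ℂ) : Prop where
  gp : GP (S : Set ℂ)
  tx : ∀ t X, CtrT S A t → ¬ CtrX S A X
  xx : ∀ X Y, CtrX S A X → CtrX S A Y → ¬ Disjoint X Y


/-- the nets `(S, A)` and `(S', A')` coincide at `X` -/
structure Lo (S : Finset ℂ) (A : ZMod 3 → Set ℂ) (X : Set ℂ) (S' : Finset ℂ)
    (A' : ZMod 3 → Set ℂ) : Prop where
  ctr : CtrX S A X
  cl : ∀ x ∈ X, ∀ v, Adj S x v → v ∈ X ∨ ∃ i, v ∈ A i
  tri : ∀ t, (∃ v, Vt t v ∧ v ∈ X) → (t ∈ delT S ↔ t ∈ delT S')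
  lab : ∀ x ∈ X, ∀ v, Adj S x v → ∀ i, (v ∈ A i ↔ v ∈ A' i)
  dis : ∀ i, Disjoint X (A' i)

theorem Lo.adj (h : Lo S A X S' A') {x v : ℂ} (hx : x ∈ X) : Adj S x v ↔ Adj S' x v := by
  constructor
  · rintro (⟨c, hc⟩ | ⟨c, hc⟩)
    · exact Or.inl ⟨c, (h.tri _ ⟨x, Or.inl rfl, hx⟩).1 hc⟩
    · exact Or.inr ⟨c, (h.tri _ ⟨x, Or.inr (Or.inl rfl), hx⟩).1 hc⟩
  · rintro (⟨c, hc⟩ | ⟨c, hc⟩)
    · exact Or.inl ⟨c, (h.tri _ ⟨x, Or.inl rfl, hx⟩).2 hc⟩
    · exact Or.inr ⟨c, (h.tri _ ⟨x, Or.inr (Or.inl rfl), hx⟩).2 hc⟩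

/-- a site of a centre is a site -/
theorem ctr_sub (h : CtrX S A X) : X ⊆ (S : Set ℂ) := by
  intro x hx
  obtain ⟨y, hy, w, -, hyw⟩ := h.2.2 0
  rcases Relation.ReflTransGen.cases_head (h.2.1 x hx y hy).2 with e | ⟨c, hc, -⟩
  · rw [e]; exact (Adj.mem hyw).1
  · exact (Adj.mem hc.1).1

theorem Lo.refl (h : CtrX S A X) (hcl : ∀ x ∈ X, ∀ v, Adj S x v → v ∈ X ∨ ∃ i, v ∈ A i) :
    Lo S A X S A :=
  ⟨h, hcl, fun _ _ => Iff.rfl, fun _ _ _ _ _ => Iff.rfl, h.1⟩

theorem Lo.symm (h : Lo S A X S' A') : Lo S' A' X S A where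
  ctr := by
    refine ⟨h.dis, ?_, ?_⟩
    · intro x hx y hy
      obtain ⟨h1, h2⟩ := h.ctr.2.1 x hx y hy
      refine ⟨h1, ?_⟩
      have key : ∀ y, Relation.ReflTransGen (fun a b => Adj S a b ∧ b ∈ X) x y →
          y ∈ X ∧ Relation.ReflTransGen (fun a b => Adj S' a b ∧ b ∈ X) x y := by
        intro y hy
        induction hy with
        | refl => exact ⟨h1, Relation.ReflTransGen.refl⟩
        | tail _ h3 ih => exact ⟨h3.2, ih.2.tail ⟨(h.adj ih.1).1 h3.1, h3.2⟩⟩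
      exact (key y h2).2
    · intro i
      obtain ⟨x, hx, y, hy, hxy⟩ := h.ctr.2.2 i
      exact ⟨x, hx, y, (h.lab x hx y hxy i).1 hy, (h.adj hx).1 hxy⟩
  cl := by
    intro x hx v hv
    have hv' := (h.adj hx).2 hv
    rcases h.cl x hx v hv' with h1 | ⟨i, h1⟩
    · exact Or.inl h1
    · exact Or.inr ⟨i, (h.lab x hx v hv' i).1 h1⟩
  tri := fun t ht => (h.tri t ht).symm
  lab := fun x hx v hv i => (h.lab x hx v ((h.adj hx).2 hv) i).symm
  dis := h.ctr.1

/-! ### the hit triple is near `X` -/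

/-- the last site of a chain in `B` -/
theorem clu_out {F B : Set ℂ} {b : ℂ} (h : b ∈ Clu S F B) :
    b ∈ B ∨ (b ∈ F ∧ ∃ a ∈ B, ∃ c, Adj S a c ∧ Pth S F c b) := by
  obtain ⟨x, hx, hp⟩ := h
  refine hp.ind (P := fun b => b ∈ B ∨ (b ∈ F ∧ ∃ a ∈ B, ∃ c, Adj S a c ∧ Pth S F c b))
    (Or.inl hx) ?_
  intro a b ha hb hab ih
  by_cases hbB : b ∈ B
  · exact Or.inl hbB
  · have hbF : b ∈ F := hb.resolve_right hbB
    right
    refine ⟨hbF, ?_⟩
    rcases ih with h1 | ⟨h1, a', ha', c, hc, hp⟩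
    · exact ⟨a, h1, b, hab, Pth.refl hbF⟩
    · exact ⟨a', ha', c, hc, hp.tail hab hbF⟩


/-- the free component of `b` -/
def Cp (S : Finset ℂ) (A : ZMod 3 → Set ℂ) (b : ℂ) : Set ℂ := {y | Pth S (fr S A) b y}

theorem cp_ctr {b : ℂ} (h : ∀ i, ∃ x ∈ Cp S A b, ∃ y ∈ A i, Adj S x y) : CtrX S A (Cp S A b) := by
  refine ⟨?_, ?_, h⟩
  · intro i
    rw [Set.disjoint_left]
    intro v hv hvi
    exact (Pth.snd hv).2 i hvi
  · intro x hx y hy
    have h1 : Pth S (fr S A) x y := (Pth.symm hx).trans hy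
    refine (Pth.self h1).mono ?_
    rintro v ⟨-, hv⟩
    exact Pth.trans hy hv.symm

/-- `X` is closed along free sites -/
theorem cl_path (hcl : ∀ x ∈ X, ∀ v, Adj S x v → v ∈ X ∨ ∃ i, v ∈ A i) {x y : ℂ} (hx : x ∈ X)
    (h : Pth S (fr S A) x y) : y ∈ X := by
  refine h.ind (P := fun y => y ∈ X) hx ?_
  intro a b _ hb hab ha
  rcases hcl a ha b hab with h1 | ⟨i, h1⟩
  · exact h1
  · exact absurd h1 (hb.2 i)

theorem z3 : ∀ i k : ZMod 3, k = i ∨ k = i + 1 ∨ k = i + 2 := by decide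

theorem z3n : ∀ i : ZMod 3, i ≠ i + 1 ∧ i ≠ i + 2 ∧ i + 1 ≠ i + 2 := by decide

/-- the hit triple either consists of sites of the giants, or one of the free components of its
vertices is a centre -/
theorem hit_cases (hS : GP (S : Set ℂ)) {T : Set ℂ} {t : ℂ × ℂ × ℂ} (h : HitO S A i T t) :
    CtrT S A t ∨ (t.2.1 ∈ fr S A ∧ CtrX S A (Cp S A t.2.1) ∧
      (t.2.2 ∈ A (i + 2) ∨ t.2.2 ∈ fr S A)) ∨
    (t.2.2 ∈ fr S A ∧ CtrX S A (Cp S A t.2.2) ∧ t.2.1 ∈ A (i + 1)) := by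
  obtain ⟨u, b, v⟩ := t
  obtain ⟨h1, h2, h3, h4⟩ := h
  simp only at h2 h3 h4 ⊢
  have aub : Adj S u b := adj_tri h1
  have abv : Adj S b v := adj_tri' hS h1
  have avu : Adj S v u := adj_tri'' hS h1
  rcases clu_out h3 with hb | ⟨hb, a, ha, c, hac, hp⟩
  · rcases clu_out h4 with hv | ⟨hv, a, ha, c, hac, hp⟩
    · left
      refine ⟨h1, fun k => ?_⟩
      rcases z3 i k with rfl | rfl | rfl
      · exact ⟨u, Or.inl rfl, h2⟩
      · exact ⟨b, Or.inr (Or.inl rfl), hb⟩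
      · exact ⟨v, Or.inr (Or.inr rfl), hv⟩
    · right; right
      refine ⟨hv.1, cp_ctr fun k => ?_, hb⟩
      have vv : v ∈ Cp S A v := Pth.refl hv.1
      rcases z3 i k with rfl | rfl | rfl
      · exact ⟨v, vv, u, h2, avu⟩
      · exact ⟨v, vv, b, hb, abv.symm⟩
      · exact ⟨c, (hp.mono Set.sdiff_subset).symm, a, ha, hac.symm⟩
  · right; left
    have bb : b ∈ Cp S A b := Pth.refl hb.1
    rcases clu_out h4 with hv | ⟨hv, a', ha', c', hac', hp'⟩
    · refine ⟨hb.1, cp_ctr fun k => ?_, Or.inl hv⟩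
      rcases z3 i k with rfl | rfl | rfl
      · exact ⟨b, bb, u, h2, aub.symm⟩
      · exact ⟨c, (hp.mono Set.inter_subset_left).symm, a, ha, hac.symm⟩
      · exact ⟨b, bb, v, hv, abv⟩
    · refine ⟨hb.1, cp_ctr fun k => ?_, Or.inr hv.1⟩
      rcases z3 i k with rfl | rfl | rfl
      · exact ⟨b, bb, u, h2, aub.symm⟩
      · exact ⟨c, (hp.mono Set.inter_subset_left).symm, a, ha, hac.symm⟩
      · refine ⟨c', ?_, a', ha', hac'.symm⟩
        exact (Pth.single hb.1 abv hv.1).trans (hp'.mono Set.sdiff_subset).symm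

/-- **the hit triple is near `X`** -/
theorem near (K : K3 S A) (hX : CtrX S A X)
    (hcl : ∀ x ∈ X, ∀ v, Adj S x v → v ∈ X ∨ ∃ i, v ∈ A i) {T : Set ℂ} {t : ℂ × ℂ × ℂ}
    (h : HitO S A i T t) : (t.2.1 ∈ X ∨ t.2.1 ∈ A (i + 1)) ∧ (t.2.2 ∈ X ∨ t.2.2 ∈ A (i + 2)) ∧
      (t.2.1 ∈ X ∨ t.2.2 ∈ X) := by
  have hS := K.gp
  have key : ∀ b, CtrX S A (Cp S A b) → b ∈ X := by
    intro b hb
    have h1 := K.xx _ _ hb hX
    rw [Set.not_disjoint_iff] at h1
    obtain ⟨z, hz, hzX⟩ := h1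
    exact cl_path hcl hzX (Pth.symm hz)
  rcases hit_cases hS h with h1 | ⟨hb, h1, hv⟩ | ⟨hv, h1, hb⟩
  · exact absurd hX (K.tx t X h1)
  · have bX := key _ h1
    refine ⟨Or.inl bX, ?_, Or.inl bX⟩
    rcases hv with hv | hv
    · exact Or.inr hv
    · left
      refine cl_path hcl bX (Pth.single hb ?_ hv)
      exact adj_tri' hS (show (t.1, t.2.1, t.2.2) ∈ delT S from h.1)
  · have vX := key _ h1
    exact ⟨Or.inr hb, Or.inl vX, Or.inr vX⟩

/-! ### the same hit triples -/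

theorem Lo.mem (h : Lo S A X S' A') {x : ℂ} (hx : x ∈ X) : x ∈ S' := ctr_sub h.symm.ctr hx

theorem Lo.free (h : Lo S A X S' A') {x : ℂ} (hx : x ∈ X) : x ∈ fr S' A' :=
  ⟨h.mem hx, fun i hi => Set.disjoint_left.1 (h.dis i) hx hi⟩




/-! ### means -/

/-- mean of a function of `T ∩ X` -/
theorem exC_inter {V X : Finset ℂ} (hXV : X ⊆ V) {f g : Finset ℂ → ℂ}
    (h : ∀ T ⊆ V, f T = g (T ∩ X)) : exC V f = exC X g := by
  unfold exC
  have e1 : ∑ T ∈ V.powerset, f T = ∑ p ∈ X.powerset ×ˢ (V \ X).powerset, g p.1 := by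
    refine Finset.sum_nbij' (fun T => (T ∩ X, T \ X)) (fun p => p.1 ∪ p.2) ?_ ?_ ?_ ?_ ?_
    · intro T hT
      rw [Finset.mem_powerset] at hT
      rw [Finset.mem_product, Finset.mem_powerset, Finset.mem_powerset]
      exact ⟨Finset.inter_subset_right, Finset.sdiff_subset_sdiff hT subset_rfl⟩
    · intro p hp
      rw [Finset.mem_product, Finset.mem_powerset, Finset.mem_powerset] at hp
      rw [Finset.mem_powerset]
      exact Finset.union_subset (hp.1.trans hXV) (hp.2.trans Finset.sdiff_subset)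
    · intro T _
      show T ∩ X ∪ T \ X = T
      ext x
      simp only [Finset.mem_union, Finset.mem_inter, Finset.mem_sdiff]
      tauto
    · intro p hp
      rw [Finset.mem_product, Finset.mem_powerset, Finset.mem_powerset] at hp
      refine Prod.ext ?_ ?_
      · show (p.1 ∪ p.2) ∩ X = p.1
        ext x
        simp only [Finset.mem_union, Finset.mem_inter]
        constructor
        · rintro ⟨h1 | h1, h2⟩
          · exact h1
          · exact absurd h2 (Finset.mem_sdiff.1 (hp.2 h1)).2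
        · exact fun h1 => ⟨Or.inl h1, hp.1 h1⟩
      · show (p.1 ∪ p.2) \ X = p.2
        ext x
        simp only [Finset.mem_union, Finset.mem_sdiff]
        constructor
        · rintro ⟨h1 | h1, h2⟩
          · exact absurd (hp.1 h1) h2
          · exact h1
        · exact fun h1 => ⟨Or.inr h1, (Finset.mem_sdiff.1 (hp.2 h1)).2⟩
    · intro T hT
      exact h T (Finset.mem_powerset.1 hT)
  rw [e1, Finset.sum_product]
  simp only [Finset.sum_const, Finset.card_powerset, nsmul_eq_mul]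
  rw [← Finset.mul_sum]
  have hc : V.card = (V \ X).card + X.card := by
    rw [Finset.card_sdiff_add_card_eq_card hXV]
  rw [hc, pow_add]
  push_cast
  rw [mul_div_mul_left _ _ (pow_ne_zero _ two_ne_zero)]







/-! ### the same sites, the same free sites -/




/-! ### no centre of free sites -/



end Crest.Agent.R143.Loc8x277
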