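import Crest.Agent.R143.R10_930
import Crest.Agent.R143.DetS_421
import Crest.Agent.R143.Loc8_277
import Crest.Agent.R143.Lay_416
import Crest.Agent.R143.Neck1_921
import Crest.Agent.R143.Loc_922

/-!
# Row 143 (S0194), box R10: CONT for the class triple of `U_K` against the labelled polygon `u`,
the two ends (helper923)

* `yV S V B i T` : hit vertex of the labelled free set (`NetV_346`) if there is exactly one, else `0`
* `Cpl S A V B η θ` : **coupling form** : same colours, `P (η < ‖hv S A i - yV S V B i‖) ≤ θ`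
* `cpl_ey` : then the mean end points differ by `≤ η + 2 b θ`
* `cpl_ts` : then `‖TS S A z - TV S V B z‖ ≤ 9 (η + 2 b θ)`
* `Out S A A' o i P e L m Rg d0 mm ρ D` : output of the geometric half R10g (969, 845): classes `A'`
  with free sites `Vin S P e`, right labels off the marks, thin layer
* **`cpl_out`** : `Out` + environment (`EnvM`, `ArmV`) ⟹ `Cpl` with
  `θ = 8 (C 16 ^ c) (d / η) ^ (c / 3) + C' (ρ / D) ^ c'`
* **`UKin`** : interface with the class triple of `U_K` (166, 831, 372, 117, 568, 523, 700)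
-/

set_option autoImplicit false

noncomputable section

open scoped Classical

namespace Crest.Agent.R143.R10Px923

open Crest.Agent.R143.B0x346 Crest.Agent.R143.DelGx806 Crest.Agent.R143.DelRx806
open Crest.Agent.R143.JColx54 (Adj)
open Crest.Agent.R143.RE0x723 (Pth)
open Crest.Agent.R143.K33x877 (Clu Hit fr)
open Crest.Agent.R143.Harx315 (pr nb)
open Crest.Agent.R143.NetUx346 Crest.Agent.R143.NetVx346
open Crest.Agent.R143.Loc8x277 (exC_inter)

variable {S V : Finset ℂ} {A B : ZMod 3 → Set ℂ} {i : ZMod 3} {z : ℂ → ℂ} {η θ b : ℝ}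

/-- hit vertex of the labelled free set if there is exactly one hit, else `0` -/
def yV (S V : Finset ℂ) (B : ZMod 3 → Set ℂ) (i : ZMod 3) (T : Set ℂ) : ℂ := zV S V B i T id





/-- **coupling form of CONT** : the same colours in the two nets -/
def Cpl (S : Finset ℂ) (A : ZMod 3 → Set ℂ) (V : Finset ℂ) (B : ZMod 3 → Set ℂ) (η θ : ℝ) : Prop :=
  ∀ i : ZMod 3, pr (ff S A) (fun β => η < ‖hv S A i (β : Set ℂ) -
    yV S V B i ((β ∩ V : Finset ℂ) : Set ℂ)‖) ≤ θ








/-! ### the master form -/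

open Crest.Agent.R143.K33x877 Crest.Agent.R143.Hexx877
open Crest.Agent.R143.Stabx930 (Mk NR BdE Nxt)
open Crest.Agent.R143.Stab2x930 (EnvM mk_of bde_pow)
open Crest.Agent.R143.Cont6x920 (ArmV)
open Crest.Agent.R143.DetSx421 (detsS_root)

variable {A' : ZMod 3 → Set ℂ} {o : ℂ × ℂ × ℂ} {l0 : ZMod 3} {P Rg : Set ℂ} {e : ℝ}
  {L : ℂ → ZMod 3} {m : ZMod 3 → ℂ} {d0 mm ρ d D D0 C c : ℝ}


/-- **output of the geometric half** : `A` the classes of `U_K` (root face `o`, outer class `l0`),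
`A'` classes with free sites `Vin S P e`, labels `L` off the marks, thin layer of width `d0`; edges at
the free sites `≤ mm`, region of the arms `Rg` -/
structure Out (S : Finset ℂ) (A A' : ZMod 3 → Set ℂ) (o : ℂ × ℂ × ℂ) (l0 : ZMod 3) (P : Set ℂ)
    (e : ℝ) (L : ℂ → ZMod 3) (m : ZMod 3 → ℂ) (Rg : Set ℂ) (d0 mm ρ D : ℝ) : Prop where
  rt : TrR S o l0 A
  ng : NegO A o
  cls : Cls S A'
  lay : DetSx421.Lay S A A' Rg d0 mm
  fv : ff S A' = Vin S P e
  lab : ∀ x, Nxt S (Vin S P e) x → (∀ k, ρ < ‖x - m k‖) → ∀ j, x ∈ A' j → L x = j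
  opp : ∀ k, ∃ f, ∀ x, Nxt S (Vin S P e) x → x ∉ Vin S P e → (x ∈ A' f ∨ L x = f) →
    D < ‖x - m k‖






/-! ### the interface with the class triple of `U_K` -/

open Crest.Agent.R143.ToolWx838 Crest.Agent.R143.Blkx838
open Crest.Agent.R143.Gatex838 (X Y)
open Crest.Agent.R143.TileRx228 (RR gz ge)
open Crest.Agent.R143.Layx416 (g)
open Crest.Agent.R143.Neckx921 (Neck)
open Crest.Agent.R143.Locx922 (Hol)

/-- the gate `a` is over the coarse edge `k` (six tiles from its corners), between the mark gates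
`g j` and `g (j + 1)` (three tiles from both) -/
def Use (Ai ei : ℤ → ℤ) (a k j : ℤ) : Prop :=
  (Ai k + 6 ≤ a ∧ a + 6 ≤ Ai (k + 1)) ∧ g Ai ei j + 3 ≤ a ∧ a + 3 ≤ g Ai ei (j + 1)

/-- the neck column in site language: a chain from `y` down to the level `b0`, in the window -/
structure Col (S : Finset ℂ) (z0 u : ℂ) (a0 a1 b0 b1 m' : ℝ) (y : ℂ) (dn : List ℂ) : Prop where
  nd : dn ≠ []
  adj : ∀ p ∈ prs (y :: dn), DE S p.1 p.2
  win : ∀ s ∈ y :: dn, (a0 < X z0 u s ∧ X z0 u s < a1) ∧ b0 - m' ≤ Y z0 u s ∧ Y z0 u s ≤ b1 + m'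
  bot : Y z0 u (dn.getLast nd) ≤ b0

/-- from 921's neck -/
theorem col_of_neck {V' β : Finset ℂ} {z0 u y : ℂ} {a0 a1 b0 b1 m' : ℝ} {up dn : List ℂ}
    (h : Neck S z0 u a0 a1 b0 b1 m' V' β up y dn) : Col S z0 u a0 a1 b0 b1 m' y dn where
  nd := h.nd
  adj := fun p hp => by
    refine h.adj p ?_
    have : ∀ (l : List ℂ), p ∈ prs (l ++ y :: dn) := by
      intro l
      induction l with
      | nil => exact hp
      | cons a l ih =>
        cases l with
        | nil =>
          show p ∈ prs (a :: y :: dn)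
          unfold prs
          exact List.mem_cons_of_mem _ ih
        | cons b l =>
          show p ∈ prs (a :: b :: (l ++ y :: dn))
          unfold prs
          exact List.mem_cons_of_mem _ ih
    exact this up
  win := fun s hs => h.win s (List.mem_append_right _ hs)
  bot := h.bot

/-- **UKin** : what R10 needs from the class triple `A` of `U_K` at the label `i` of the white part.
`P` region of the polygon, `h` fine unit, `W` fine path of period `M` (clockwise, `P` on the right at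
distance `h`), `Ai k` corner `k`, `g Ai ei j` gate of the mark `j`; the tiles of `[g j, g (j + 1))`
have the label `- j`. Window of the gates: `a0 < X < a1`, `b0 - m' ≤ Y ≤ b1 + m'`. -/
structure UKin (S : Finset ℂ) (A : ZMod 3 → Set ℂ) (o : ℂ × ℂ × ℂ) (i : ZMod 3) (P : Set ℂ)
    (h A1 B1 w a0 a1 b0 b1 m' : ℝ) (W : ℤ → ℤ × ℤ) (Ai ei : ℤ → ℤ) : Prop where
  /-- disjoint, connected, root face `o`, the hull is in `A i` -/
  rt : TrR S o i A
  ng : NegO A o
  /-- no class site near the polygon -/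
  far : ∀ l, ∀ s ∈ A l, ∀ z ∈ P, h / 2 ≤ ‖s - z‖
  /-- the sites at sup distance `> 2 h` from the polygon are in the white class (`OUTS`) -/
  outs : ∀ s ∈ S, (∀ z ∈ P, 2 * h < |(s - z).re| ∨ 2 * h < |(s - z).im|) → s ∈ A i
  /-- the sites of the two other classes are in the tiles of their label, up to two tiles at the
  marks (`WT`) -/
  reg : ∀ l, l ≠ i → ∀ s ∈ A l, ∃ a j : ℤ, s ∈ RR A1 B1 h W a ∧ g Ai ei j ≤ a + 2 ∧
    a ≤ g Ai ei (j + 1) + 1 ∧ (-(j : ZMod 3)) = l
  /-- below the gates of the out tiles there is no class site down to the polygon (`LOW`) -/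
  low : ∀ a k j : ℤ, Use Ai ei a k j → (-(j : ZMod 3)) ≠ i → ∀ l, ∀ s ∈ A l,
    |X (gz h W a) (ge W a) s| < w → -h ≤ Y (gz h W a) (ge W a) s →
    b0 < Y (gz h W a) (ge W a) s
  /-- the necks of the out tiles (`DN`) -/
  nk : ∀ a k j : ℤ, Use Ai ei a k j → (-(j : ZMod 3)) ≠ i → ∃ y dn,
    Col S (gz h W a) (ge W a) a0 a1 b0 b1 m' y dn ∧ y ∈ A (-(j : ZMod 3)) ∧
      ∀ s ∈ dn, ∀ l, s ∉ A l

/-- numbers: window inside the strip of half width `w`, everything at distance `≥ h / 2` from the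
polygon -/
structure Nw (h d w a0 a1 b0 b1 m' : ℝ) : Prop where
  d0 : 0 < d
  w0 : -w + 2 * d ≤ a0
  w1 : a1 + 2 * d ≤ w
  wh : w ≤ h / 2
  bl : -(h / 2) + m' + 2 * d ≤ b0
  bu : b1 + m' ≤ h / 2
  b01 : b0 < b1
  m0 : 0 ≤ m'

end Crest.Agent.R143.R10Px923
end
namespace Crest.Agent.R143.R10Px923.Out
end Crest.Agent.R143.R10Px923.Out
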