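import Crest.Agent.R143.SysD_166
import Crest.Agent.R143.RigE_654
import Crest.Agent.R143.QuenS_654
import Crest.Agent.R143.R10P_923
import Crest.Agent.R143.InpJ_609

/-!
# Row 143 (S0194), RIG: one environment, composition (helper654)

`M = rc0 hS`, `Y : Sys M H R Q pa na Ev` (358); tiles `0 .. n - 1` of the polygon, regions `F j` in the
order of the time of the strand (`F j` belongs to the tile `n - 1 - j`).

* `quen_of2` : 166's `quen_of`, charges asked for `2 ≤ l`, `l + 2 < n` only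
* `hl_gA`, `far_gA` : the hull cell and its neighbours are in the white giant
* `cont_gA` : field `cont` from the coupling `Cpl` of 923 / 930
* **`quenI`** : `Quen` in the order of the tiles for 609's `mI`; **`goodI`** : `Good n (r + 3) ..`
-/

set_option autoImplicit false
set_option linter.unusedSectionVars false

noncomputable section

open scoped Classical

namespace Crest.Agent.R143.GoodAx654

open Crest.ProbabilityR.Voronoi
open Crest.Agent.R143.B0x346 Crest.Agent.R143.DelGx806 Crest.Agent.R143.DelRx806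
  Crest.Agent.R143.FinCx811 Crest.Agent.R143.Resax778 Crest.Agent.R143.SmallAx304
  Crest.Agent.R143.C2SBx395 Crest.Agent.R143.C2SCx395 Crest.Agent.R143.C2SDx395
open Crest.Agent.R143.Frame1x395 Crest.Agent.R143.Frame2x395 Crest.Agent.R143.Frame3x395
  Crest.Agent.R143.Frame4x395 Crest.Agent.R143.Frame8x395 Crest.Agent.R143.Frame9x395
  Crest.Agent.R143.Frame10x395
open Crest.Agent.R143.Coarse2x166 (zs)
open Crest.Agent.R143.NetUx346 Crest.Agent.R143.NetVx346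
open Crest.Agent.R143.CorMx970 (av far)
open Crest.Agent.R143.IndLoc3x279 (clr)
open Crest.Agent.R143.OutSx358 Crest.Agent.R143.SysCx166 Crest.Agent.R143.SysDx166
  Crest.Agent.R143.RigDx654 Crest.Agent.R143.QuenSx654
open Crest.Agent.R143.Extx358 (Ext Ad ext_ad)

section one

variable {S : Finset ℂ} (hS : GP (S : Set ℂ)) (h3 : 3 ≤ S.card)

variable {H R : Set (Cs hS)} {Q : Set (D0 S)} {ι : Type} {pa : ι → (Cs hS → ZMod 2) → D0 S}
  {na : ι → (Cs hS → ZMod 2) → ℕ} {Ev : ι → (Cs hS → ZMod 2) → Prop} {d₀ : D0 S} {k : ZMod 3}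
  {nn m : ℕ} {F : ℕ → Set (D0 S)} {tl : Cs hS → ℕ}

/-- 166's `quen_of`, charges for `2 ≤ l`, `l + 2 < nn` only -/
theorem quen_of2 (Y : Sys (rc0 hS) H R Q pa na Ev) {n r : ℕ} {g : Set (ℂ × Bool) → ℝ}
    {V : ℕ → Set (ℂ × Bool) → ℂ} {a b : Set (ℂ × Bool) → ℕ} {T : ℂ} {E1 a2 θ Qq : ℝ}
    {z : Cs hS → ℂ} (hnn : 0 < nn) (hn : nn ≤ n) (hm : m ≤ n)
    (hg : ∀ σ ∈ S.powerset, 0 < g (clr S σ) → Hx (rc0 hS) pa na Ev nn m F tl (chiS hS h3 σ))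
    (hV : ∀ σ ∈ S.powerset, 0 < g (clr S σ) → ∀ l, 2 ≤ l → l + 2 < nn →
      V l (clr S σ) = Vs (rc0 hS) pa na Ev (zs (rc0 hS) om z) F l (chiS hS h3 σ))
    (hb' : ∀ τ ∈ S.powerset, b (clr S τ) ≤ n)
    (small : av S.powerset (fun σ => g (clr S σ) * av S.powerset fun τ =>
      ‖Vb (rc0 hS) H R Q pa na Ev d₀ (zs (rc0 hS) om z) (chiS hS h3 σ) (chiS hS h3 τ)‖) ≤ E1)
    (cont : ∀ σ ∈ S.powerset, 0 < g (clr S σ) →
      ‖TKs hS H R Q pa na Ev k z (chiS hS h3 σ) - T‖ ≤ a2)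
    (hθ : ∀ σ ∈ S.powerset, 0 < g (clr S σ) → av S.powerset (far r
      (fun σ τ => ka (rc0 hS) H R Q pa na Ev nn m F tl (chiS hS h3 σ) (chiS hS h3 τ))
      (fun σ τ => kb (rc0 hS) H R Q pa na Ev nn m F tl (chiS hS h3 σ) (chiS hS h3 τ))
      (fun τ => a (clr S τ)) (fun τ => b (clr S τ)) σ) ≤ θ)
    (hQ : ∑ l ∈ Finset.range n, av S.powerset (fun σ => g (clr S σ) * av S.powerset fun τ =>
      ‖Wd (rc0 hS) H R Q pa na Ev k d₀ (zs (rc0 hS) om z) F l (chiS hS h3 σ)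
        (chiS hS h3 τ)‖ ^ 2) ≤ Qq) :
    Quen n r 2 S g V a b om T E1 a2 θ Qq
      (fun σ τ => Vb (rc0 hS) H R Q pa na Ev d₀ (zs (rc0 hS) om z) (chiS hS h3 σ)
        (chiS hS h3 τ))
      (fun σ τ => Vg (rc0 hS) H R Q pa na Ev k d₀ (zs (rc0 hS) om z) (chiS hS h3 σ)
        (chiS hS h3 τ))
      (fun σ => TKs hS H R Q pa na Ev k z (chiS hS h3 σ))
      (fun l σ τ => Wd (rc0 hS) H R Q pa na Ev k d₀ (zs (rc0 hS) om z) F l (chiS hS h3 σ)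
        (chiS hS h3 τ))
      (fun σ τ => ka (rc0 hS) H R Q pa na Ev nn m F tl (chiS hS h3 σ) (chiS hS h3 τ))
      (fun σ τ => kb (rc0 hS) H R Q pa na Ev nn m F tl (chiS hS h3 σ) (chiS hS h3 τ)) where
  hb' := hb'
  hkb := fun σ hσ h0 τ _ => by
    have := (Y.fields k d₀ (hg σ hσ h0) hnn (zs (rc0 hS) om z) (chiS hS h3 τ)).1.2
    omega
  hWV := fun σ hσ h0 τ _ l hl h1 h2 => by
    obtain ⟨h4, h5, -⟩ := Y.fields k d₀ (hg σ hσ h0) hnn (zs (rc0 hS) om z) (chiS hS h3 τ)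
    rw [hV σ hσ h0 l (by omega) (by omega)]
    exact h5 l h1 h2
  hW0 := fun σ hσ h0 τ _ l _ h1 =>
    (Y.fields k d₀ (hg σ hσ h0) hnn (zs (rc0 hS) om z) (chiS hS h3 τ)).2.2.1 l h1
  close := fun σ hσ h0 τ _ => by
    obtain ⟨-, -, -, h1, h2⟩ :=
      Y.fields k d₀ (hg σ hσ h0) hnn (zs (rc0 hS) om z) (chiS hS h3 τ)
    rw [h2]
    congr 1
    refine Finset.sum_subset (fun l hl => ?_) fun l _ hl => ?_
    · exact Finset.mem_range.2 (lt_of_lt_of_le (Finset.mem_range.1 hl) hm)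
    · exact h1 l (by simpa using hl)
  fresh := fun σ hσ h0 => by
    obtain ⟨x, hx⟩ := hg σ hσ h0
    exact fresh_av hS h3 Y ⟨x.1, hx.1⟩ z
  small := small
  cont := cont
  hθ := hθ
  hQ := hQ

end one

/-- only the tile charges with `l < n` count -/
theorem quen_congr {n r c : ℕ} {S : Finset ℂ} {g : Set (ℂ × Bool) → ℝ}
    {V : ℕ → Set (ℂ × Bool) → ℂ} {a b : Set (ℂ × Bool) → ℕ} {t T : ℂ} {E1 a2 θ Q : ℝ}
    {Vβ Vγ : Finset ℂ → Finset ℂ → ℂ} {TK : Finset ℂ → ℂ}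
    {W W' : ℕ → Finset ℂ → Finset ℂ → ℂ} {ka kb : Finset ℂ → Finset ℂ → ℕ}
    (hW : ∀ l < n, ∀ σ τ, W' l σ τ = W l σ τ)
    (h : Quen n r c S g V a b t T E1 a2 θ Q Vβ Vγ TK W ka kb) :
    Quen n r c S g V a b t T E1 a2 θ Q Vβ Vγ TK W' ka kb where
  hb' := h.hb'
  hkb := h.hkb
  hWV := fun σ hσ h0 τ hτ l hl h1 h2 => by
    rw [hW l hl]
    exact h.hWV σ hσ h0 τ hτ l hl h1 h2
  hW0 := fun σ hσ h0 τ hτ l hl h1 => by
    rw [hW l hl]
    exact h.hW0 σ hσ h0 τ hτ l hl h1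
  close := fun σ hσ h0 τ hτ => by
    rw [h.close σ hσ h0 τ hτ]
    congr 1
    exact Finset.sum_congr rfl fun l hl => (hW l (Finset.mem_range.1 hl) σ τ).symm
  fresh := h.fresh
  small := h.small
  cont := h.cont
  hθ := h.hθ
  hQ := by
    refine le_trans (le_of_eq ?_) h.hQ
    refine Finset.sum_congr rfl fun l hl => ?_
    have e : ∀ σ τ, W' l σ τ = W l σ τ := hW l (Finset.mem_range.1 hl)
    simp only [e]

/-! ### the hull -/

section hull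

variable {S : Finset ℂ} {hS : GP (S : Set ℂ)} {H R : Set (Cs hS)} {Q : Set (D0 S)} {ι : Type}
  {pa : ι → (Cs hS → ZMod 2) → D0 S} {na : ι → (Cs hS → ZMod 2) → ℕ}
  {Ev : ι → (Cs hS → ZMod 2) → Prop} {σ : Cs hS → ZMod 2} {k : ZMod 3} {i : ι}

/-- a neighbour of a cell of `Ext` is in the white giant -/
theorem nb_W {p : D0 S} {n : ℕ} {d : D0 S}
    (h : Ext (rc0 hS) H (zc (rc0 hS) R p n σ) ((rc0 hS).cell d)) :
    (rc0 hS).cell ((rc0 hS).rho d) ∈ Extx358.Ww (rc0 hS) H R p n σ ∧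
      (rc0 hS).cell ((rc0 hS).rho ((rc0 hS).rho d)) ∈ Extx358.Ww (rc0 hS) H R p n σ := by
  have key : ∀ c, Ad (rc0 hS) ((rc0 hS).cell d) c → c ∈ Extx358.Ww (rc0 hS) H R p n σ :=
    fun c hc => by
      rcases ext_ad h hc with h1 | h1
      · exact Or.inl (Or.inl h1)
      · exact Or.inl (Or.inr h1)
  have self : (rc0 hS).cell d ∈ Extx358.Ww (rc0 hS) H R p n σ := Or.inl (Or.inl h)
  constructor
  · by_cases hl : d ∈ (rc0 hS).live
    · exact key _ ⟨d, hl, rfl, rfl⟩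
    · rw [← (rc0 hS).dead d hl]
      exact self
  · by_cases hl : (rc0 hS).rho ((rc0 hS).rho d) ∈ (rc0 hS).live
    · exact key _ (Ad.symm ⟨_, hl, rfl, by rw [(rc0 hS).rho3]⟩)
    · rw [(rc0 hS).dead _ hl, (rc0 hS).rho3]
      exact self

/-- the hull cells are not blocked -/
theorem ext_hull (Y : Sys (rc0 hS) H R Q pa na Ev)
    (hZ : ∀ c ∈ H, c ∉ ac (rc0 hS) (pa i σ) (na i σ) σ) {c : Cs hS} (hc : c ∈ H) :
    Ext (rc0 hS) H (zc (rc0 hS) R (pa i σ) (na i σ) σ) c := by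
  refine Ext.hull hc fun h => ?_
  rcases h with h | h
  · refine hZ c hc ?_
    rw [← Finset.mem_coe, coe_ac]
    exact h
  · exact Y.hR c hc h.1

theorem gA_2 (Y : Sys (rc0 hS) H R Q pa na Ev) (h : Ev i σ) :
    gA (rc0 hS) H R Q pa na Ev k σ (k + 2) =
      Extx358.Ww (rc0 hS) H R (pa i σ) (na i σ) σ := by
  rw [Y.gA_eq k h]
  exact Crest.Agent.R143.R5qx166.AA_2

/-- **the hull cell is in the white giant** -/
theorem hl_gA (Y : Sys (rc0 hS) H R Q pa na Ev)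
    (hH : ∀ c : Cs hS, ∀ v, OnHull S v → c.1 = Quot.mk (hullE S) v → c ∈ H) (h : Ev i σ)
    (hZ : ∀ c ∈ H, c ∉ ac (rc0 hS) (pa i σ) (na i σ) σ) :
    Hl (gA (rc0 hS) H R Q pa na Ev k σ) (k + 2) := by
  intro c v hv e
  rw [gA_2 Y h]
  exact Or.inl (Or.inl (ext_hull Y hZ (hH c v hv e)))

/-- **the faces at the hull are in the white giant** -/
theorem far_gA (Y : Sys (rc0 hS) H R Q pa na Ev)
    (hH : ∀ c : Cs hS, ∀ v, OnHull S v → c.1 = Quot.mk (hullE S) v → c ∈ H) (h : Ev i σ)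
    (hZ : ∀ c ∈ H, c ∉ ac (rc0 hS) (pa i σ) (na i σ) σ) :
    Far (gA (rc0 hS) H R Q pa na Ev k σ) (k + 2) := by
  intro d hd
  rw [gA_2 Y h]
  have h1 := ext_hull Y hZ (hH ((rc0 hS).cell d) d.1.1 hd rfl)
  exact ⟨Or.inl (Or.inl h1), (nb_W h1).1, (nb_W h1).2⟩

end hull

/-! ### cont -/

section cont

open Crest.Agent.R143.R10Px923 (Cpl)

variable {S : Finset ℂ} {hS : GP (S : Set ℂ)} {H R : Set (Cs hS)} {Q : Set (D0 S)} {ι : Type}
  {pa : ι → (Cs hS → ZMod 2) → D0 S} {na : ι → (Cs hS → ZMod 2) → ℕ}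
  {Ev : ι → (Cs hS → ZMod 2) → Prop} {σ : Cs hS → ZMod 2} {k : ZMod 3} {i : ι}
  {u : PolyUx346.Poly} {ε η θ b : ℝ} {ω : Sample}

/-- **field `cont`** from the coupling of 923 / 930 -/
theorem cont_gA (Y : Sys (rc0 hS) H R Q pa na Ev)
    (hH : ∀ c : Cs hS, ∀ v, OnHull S v → c.1 = Quot.mk (hullE S) v → c ∈ H) (h : Ev i σ)
    (hZ : ∀ c ∈ H, c ∉ ac (rc0 hS) (pa i σ) (na i σ) σ) (hε : 0 < ε)
    (hd : Crest.Agent.R143.Locx922.Hol (S : Set ℂ) (LocUx700.deep u.P √ε) √ε)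
    (hP : ∀ x ∈ u.P, x ∈ S ↔ x ∈ points ε ω) (hb0 : 0 ≤ b) (hb : ∀ v ∈ S, ‖v‖ ≤ b)
    (hη : 0 ≤ η)
    (hV : Vin S u.P √ε ⊆ ff S (st (gA (rc0 hS) H R Q pa na Ev k σ)))
    (hC : Cpl S (st (gA (rc0 hS) H R Q pa na Ev k σ)) (Vin S u.P √ε)
      (Bl S (Vin S u.P √ε) u.Lab) η θ) :
    ‖TKs hS H R Q pa na Ev k (zc hS id) σ - RigCx654.tI (InpJx609.mv u ε ω) k‖ ≤
      3 * (η + 2 * b * θ) := by
  obtain ⟨G, Rt, -, -, -, -⟩ := Y.main (d₀ := gr (rc0 hS) Q pa na i σ) k ⟨i, h⟩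
  exact cont_of G (hl_gA Y hH h hZ) (far_gA Y hH h hZ) Rt hV hη hb hb0
    (fun l v hv => hv.1) (m := InpJx609.mv u ε ω) (fun l => m_mI hε hd hP l) hC

end cont

/-! ### the polygon -/

section poly

open Crest.Agent.R143.R10Px923 (Cpl)

variable {S : Finset ℂ} {hS : GP (S : Set ℂ)} {h3 : 3 ≤ S.card} {H R : Set (Cs hS)}
  {Q : Set (D0 S)} {ι : Type}
  {pa : ι → (Cs hS → ZMod 2) → D0 S} {na : ι → (Cs hS → ZMod 2) → ℕ}
  {Ev : ι → (Cs hS → ZMod 2) → Prop} {F : ℕ → Set (D0 S)} {tl : Cs hS → ℕ} {d₀ : D0 S}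
  {u : PolyUx346.Poly} {ε E1 η θ0 b θ Qq : ℝ} {ω : Sample} {i : ZMod 3} {n r : ℕ}
  {g : Set (ℂ × Bool) → ℝ} {V : ℕ → Set (ℂ × Bool) → ℂ} {ta tb : Set (ℂ × Bool) → ℕ}

/-- **ONE ENVIRONMENT**: 654's `Quen` in the order of the tiles, phases of the type `i` -/
theorem quenI (Y : Sys (rc0 hS) H R Q pa na Ev) (hn : 0 < n)
    (hH : ∀ c : Cs hS, ∀ v, OnHull S v → c.1 = Quot.mk (hullE S) v → c ∈ H)
    (hZ : ∀ j σ, Ev j σ → ∀ c ∈ H, c ∉ ac (rc0 hS) (pa j σ) (na j σ) σ)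
    (hx : ∀ σ ∈ S.powerset, 0 < g (clr S σ) →
      Hx (rc0 hS) pa na Ev n n F tl (chiS hS h3 σ))
    (hV : ∀ σ ∈ S.powerset, 0 < g (clr S σ) → ∀ l, 2 ≤ l → l + 2 < n →
      V (n - 1 - l) (clr S σ) =
        Vs (rc0 hS) pa na Ev (zs (rc0 hS) om (zc hS id)) F l (chiS hS h3 σ))
    (ha : ∀ τ ∈ S.powerset, ta (clr S τ) ≤ n) (hb : ∀ τ ∈ S.powerset, tb (clr S τ) ≤ n)
    (small : av S.powerset (fun σ => g (clr S σ) * av S.powerset fun τ =>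
      ‖Vb (rc0 hS) H R Q pa na Ev d₀ (zs (rc0 hS) om (zc hS id)) (chiS hS h3 σ)
        (chiS hS h3 τ)‖) ≤ E1)
    (hε : 0 < ε) (hd : Crest.Agent.R143.Locx922.Hol (S : Set ℂ) (LocUx700.deep u.P √ε) √ε)
    (hP : ∀ x ∈ u.P, x ∈ S ↔ x ∈ points ε ω) (hb0 : 0 ≤ b) (hbS : ∀ v ∈ S, ‖v‖ ≤ b)
    (hη : 0 ≤ η)
    (hC : ∀ σ ∈ S.powerset, 0 < g (clr S σ) →
      Vin S u.P √ε ⊆ ff S (st (gA (rc0 hS) H R Q pa na Ev i (chiS hS h3 σ))) ∧
      Cpl S (st (gA (rc0 hS) H R Q pa na Ev i (chiS hS h3 σ))) (Vin S u.P √ε)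
        (Bl S (Vin S u.P √ε) u.Lab) η θ0)
    (hθ : ∀ σ ∈ S.powerset, 0 < g (clr S σ) → av S.powerset (far r
      (fun σ τ => ka (rc0 hS) H R Q pa na Ev n n F tl (chiS hS h3 σ) (chiS hS h3 τ))
      (fun σ τ => kb (rc0 hS) H R Q pa na Ev n n F tl (chiS hS h3 σ) (chiS hS h3 τ))
      (fun τ => n - tb (clr S τ)) (fun τ => n - ta (clr S τ)) σ) ≤ θ)
    (hQ : ∑ l ∈ Finset.range n, av S.powerset (fun σ => g (clr S σ) * av S.powerset fun τ =>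
      ‖Wd (rc0 hS) H R Q pa na Ev i d₀ (zs (rc0 hS) om (zc hS id)) F l (chiS hS h3 σ)
        (chiS hS h3 τ)‖ ^ 2) ≤ Qq) :
    Quen n (r + 1) 3 S g V ta tb om (RigCx654.tI (InpJx609.mv u ε ω) i) E1
      (3 * (η + 2 * b * θ0)) θ Qq
      (fun σ τ => Vb (rc0 hS) H R Q pa na Ev d₀ (zs (rc0 hS) om (zc hS id)) (chiS hS h3 σ)
        (chiS hS h3 τ))
      (fun σ τ => Vg (rc0 hS) H R Q pa na Ev i d₀ (zs (rc0 hS) om (zc hS id)) (chiS hS h3 σ)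
        (chiS hS h3 τ))
      (fun σ => TKs hS H R Q pa na Ev i (zc hS id) (chiS hS h3 σ))
      (fun l σ τ => Wd (rc0 hS) H R Q pa na Ev i d₀ (zs (rc0 hS) om (zc hS id)) F (n - 1 - l)
        (chiS hS h3 σ) (chiS hS h3 τ))
      (fun σ τ => n - 1 -
        kb (rc0 hS) H R Q pa na Ev n n F tl (chiS hS h3 σ) (chiS hS h3 τ))
      (fun σ τ => n - 1 -
        ka (rc0 hS) H R Q pa na Ev n n F tl (chiS hS h3 σ) (chiS hS h3 τ)) := by
  refine Quen.refl ha hb (quen_congr (fun l hl σ τ => ?_) (quen_of2 hS h3 Y (V := fun l =>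
    V (n - 1 - l)) (a := fun X => n - tb X) (b := fun X => n - ta X) hn le_rfl le_rfl hx hV
    (fun τ _ => Nat.sub_le _ _) small (fun σ hσ h0 => ?_) hθ hQ))
  · simp only [show n - 1 - (n - 1 - l) = l by omega]
  · obtain ⟨x, h1⟩ := hx σ hσ h0
    obtain ⟨h4, h5⟩ := hC σ hσ h0
    exact cont_gA Y hH h1.1 (hZ _ _ h1.1) hε hd hP hb0 hbS hη h4 h5


end poly

end Crest.Agent.R143.GoodAx654
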