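import Crest.Agent.R143.Cd4_806

/-!
# Row 143 (S0194), block D, TentC, file 5 (helper806): body and tentacles

* `Bt s c M U k` : tentacle `k` with its cone
* `Bt_closed`, `CellDom.body_eq`, `CellDom.bd`, `CellDom.tt_dist`, `CellDom.tr`, `CellDom.tc`
-/

set_option autoImplicit false

noncomputable section

namespace Crest.Agent.R143.Cdx806

open Set Metric
open Crest.Agent.R158.Sp896 Crest.Agent.R143.Tentx359 Crest.Agent.R158.Tj656
open Crest.Agent.R143.Tenx416 (nx Pg)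

/-- cells of the tentacle `k` -/
def Tc (U : ℕ → ℕ → V) (k : ZMod 4) : Set V := {q | ∃ j, q = U k.val (j + 1)}

/-- tentacle `k` with its cone -/
def Bt (s : ℝ) (c : V) (M : ℤ) (U : ℕ → ℕ → V) (k : ZMod 4) : Set ℂ :=
  Pg s (Tc U k) ∪ Cn s c M k

theorem mem_Pg {s : ℝ} {S : Set V} {z : ℂ} : z ∈ Pg s S ↔ ∃ q ∈ S, z ∈ sq s q := by
  unfold Pg
  rw [mem_iUnion₂]
  constructor
  · rintro ⟨q, h1, h2⟩; exact ⟨q, h1, h2⟩
  · rintro ⟨q, h1, h2⟩; exact ⟨q, h1, h2⟩

theorem Pg_closed {s : ℝ} (hs : 0 < s) (S : Set V) : IsClosed (Pg s S) := by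
  have h := compl_om hs Sᶜ
  rw [compl_compl] at h
  have : Pg s S = (Om s Sᶜ)ᶜ := h.symm
  rw [this]
  exact (om_open s _).isClosed_compl


section

variable {F : Set V} {L : ℕ} {v : ℕ → V} {m : ℕ → ℕ} {c : V} {M : ℤ} {U : ℕ → ℕ → V} {s : ℝ}

theorem body_not_Om (hs : 0 < s) {q : V} (hq : q ∈ body F U 4) {z : ℂ} (hz : z ∈ sq s q)
    (i : ZMod 4) : z ∉ Om s (cl F v m U i) := fun h => ((mem_om hs).1 h q hz).1 hq

theorem CellDom.body_eq (D : CellDom F L v m c M U) (hs : 0 < s) :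
    (cfgC s F v m c M U).outᶜ = Pg s F ∪ ⋃ k, Bt s c M U k := by
  ext z
  have h0 : z ∈ (cfgC s F v m c M U).outᶜ ↔ ∀ i, z ∉ Rg s F v m c M U i := by
    rw [mem_compl_iff, Cfgx416.Cfg.out, mem_iUnion, not_exists]
    rfl
  rw [h0, mem_union, mem_iUnion]
  constructor
  · intro h
    by_cases hC : ∃ k, z ∈ Cn s c M k
    · obtain ⟨k, hk⟩ := hC
      exact Or.inr ⟨k, Or.inr hk⟩
    · have h1 : ∀ i, z ∉ Om s (cl F v m U i) := fun i hi => h i ⟨hi, by rwa [mem_iUnion]⟩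
      have h2 : ∃ q, z ∈ sq s q ∧ q ∈ body F U 4 := by
        by_contra h3
        push Not at h3
        obtain ⟨i, hi⟩ := D.mem_some_Om hs h3
        exact h1 i hi
      obtain ⟨q, hq, hqF | ⟨i, hi, j, hj⟩⟩ := h2
      · exact Or.inl (mem_Pg.2 ⟨q, hqF, hq⟩)
      · obtain ⟨k, rfl⟩ := nat_z4 hi
        exact Or.inr ⟨k, Or.inl (mem_Pg.2 ⟨q, ⟨j, hj⟩, hq⟩)⟩
  · rintro (h | ⟨k, h | h⟩) i hi
    · obtain ⟨q, hq, hz⟩ := mem_Pg.1 h
      exact body_not_Om hs (Or.inl hq) hz i hi.1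
    · obtain ⟨q, ⟨j, hj⟩, hz⟩ := mem_Pg.1 h
      exact body_not_Om hs (Or.inr ⟨k.val, zlt k, j, hj⟩) hz i hi.1
    · exact hi.2 (mem_iUnion.2 ⟨k, h⟩)

theorem CellDom.F_norm (D : CellDom F L v m c M U) (hs : 0 < s) {z : ℂ} (hz : z ∈ Pg s F) :
    ‖z - cen s c‖ ≤ Lr s M / 4 := by
  obtain ⟨q, hq, hzq⟩ := mem_Pg.1 hz
  have h1 := D.cfg.box q hq
  have h2 := norm_box hs (c := c) (R := M) ⟨h1.1.le, h1.2.le⟩ hzq
  have hM : (1 : ℝ) ≤ M := by exact_mod_cast D.cfg.M_pos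
  unfold Lr
  nlinarith

theorem CellDom.bd (D : CellDom F L v m c M U) (hs : 0 < s) :
    Pg s F ⊆ closedBall (cfgC s F v m c M U).c ((cfgC s F v m c M U).L / 4) := by
  intro z hz
  rw [mem_closedBall, dist_eq_norm]
  exact D.F_norm hs hz


/-! ### distances -/

theorem Lr_ge (hs : 0 < s) (hM : 0 < M) : 48 * s ≤ Lr s M := by
  have hMr : (1 : ℝ) ≤ M := by exact_mod_cast hM
  unfold Lr
  nlinarith

theorem Cn_main (hs : 0 < s) (hM : 0 < M) {k : ZMod 4} {z : ℂ} (hz : z ∈ Cn s c M k) :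
    47 / 48 * ‖z - cen s c‖ ≤ fa (cen s c) k z := by
  obtain ⟨h1, h2, h3⟩ := hz
  have h4 := norm_le_fa (cen s c) k z
  rw [abs_of_nonneg h2] at h4
  have h5 := mul_le_mul_of_nonneg_right (e_le hs hM) (norm_nonneg (z - cen s c))
  linarith

theorem Cn_other (hs : 0 < s) (hM : 0 < M) {k j : ZMod 4} (hj : j ≠ k) {z : ℂ}
    (hz : z ∈ Cn s c M k) : fa (cen s c) j z ≤ 1 / 48 * ‖z - cen s c‖ := by
  obtain ⟨h1, h2, h3⟩ := hz
  have h5 := mul_le_mul_of_nonneg_right (e_le hs hM) (norm_nonneg (z - cen s c))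
  rw [abs_le] at h3
  obtain ⟨i, rfl⟩ : ∃ i, j = k + i := ⟨j - k, by ring⟩
  rcases z4 i with rfl | rfl | rfl | rfl
  · exact absurd (add_zero k) hj
  · linarith [h3.2]
  · rw [fa_two]
    have := norm_nonneg (z - cen s c)
    linarith
  · rw [fa_three]; linarith [h3.1]

/-- cells of the tentacles: in the box or on the ray -/
theorem CellDom.tent_cases (D : CellDom F L v m c M U) (k : ZMod 4) (j : ℕ) :
    U k.val (j + 1) ∈ Box c M ∨
      (M < ga c k (U k.val (j + 1)) ∧ ga c (k + 1) (U k.val (j + 1)) = 0) := by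
  obtain ⟨j0, h0, h1, h2⟩ := D.cfg.ray k.val (zlt k)
  by_cases hle : j + 1 ≤ j0
  · exact Or.inl (h1 (j + 1) hle)
  · right
    obtain ⟨t, ht⟩ : ∃ t, j + 1 = j0 + (t + 1) := ⟨j - j0, by omega⟩
    rw [ht, h2 (t + 1)]
    have e : ((c.1 + (M + ((t + 1 : ℕ) : ℤ)) * (dir k.val).1,
        c.2 + (M + ((t + 1 : ℕ) : ℤ)) * (dir k.val).2) : V) =
        fp c k.val (M + ((t + 1 : ℕ) : ℤ)) 0 := by
      unfold fp; simp
    rw [e]
    obtain ⟨g1, g2⟩ := ga_fp c k (M + ((t + 1 : ℕ) : ℤ)) 0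
    refine ⟨?_, g2⟩
    rw [g1]
    push_cast
    omega

/-- other coordinates of the tentacle cells are small -/
theorem CellDom.tent_other (D : CellDom F L v m c M U) (hs : 0 < s) {k j : ZMod 4} (hj : j ≠ k)
    {z : ℂ} (hz : z ∈ Pg s (Tc U k)) : fa (cen s c) j z ≤ s * (2 * M + 1) := by
  obtain ⟨q, ⟨n, rfl⟩, hzq⟩ := mem_Pg.1 hz
  have hM := D.cfg.M_pos
  have hMr : (1 : ℝ) ≤ M := by exact_mod_cast hM
  rcases D.tent_cases k n with h | ⟨h1, h2⟩
  · have h3 := norm_box hs h hzq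
    have h4 := (abs_le.1 (fa_le_norm (cen s c) j z)).2
    linarith
  · have a1 := sq_fa (c := c) k hzq
    have a2 := sq_fa (c := c) (k + 1) hzq
    rw [h2] at a2
    push_cast at a2
    have h1' : (M : ℝ) < ga c k (U k.val (n + 1)) := by exact_mod_cast h1
    obtain ⟨i, rfl⟩ : ∃ i, j = k + i := ⟨j - k, by ring⟩
    rcases z4 i with rfl | rfl | rfl | rfl
    · exact absurd (add_zero k) hj
    · nlinarith [a2.2]
    · rw [fa_two]
      nlinarith [a1.1]
    · rw [fa_three]; nlinarith [a2.1]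

theorem CellDom.tt_dist (D : CellDom F L v m c M U) (hs : 0 < s) {j k : ZMod 4} (hjk : j ≠ k)
    {y w : ℂ} (hy : y ∈ Bt s c M U j) (hw : w ∈ Bt s c M U k) : s / 4 ≤ dist y w := by
  have hM := D.cfg.M_pos
  have hMr : (1 : ℝ) ≤ M := by exact_mod_cast hM
  have hLd : Lr s M / 2 = 8 * s * (M + 2) := by unfold Lr; ring
  have key : ∀ j k : ZMod 4, j ≠ k → ∀ y ∈ Pg s (Tc U j), ∀ w ∈ Cn s c M k, s / 4 ≤ dist y w := by
    intro j k hjk y hy w hw
    have h1 := D.tent_other hs (j := k) hjk.symm hy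
    have h2 := Cn_main hs hM hw
    have h3 := hw.1
    have h4 := (abs_le.1 (fa_sub (cen s c) k y w)).1
    nlinarith
  rcases hy with hy | hy
  · rcases hw with hw | hw
    · obtain ⟨q, ⟨n, rfl⟩, hq⟩ := mem_Pg.1 hy
      obtain ⟨q', ⟨n', rfl⟩, hq'⟩ := mem_Pg.1 hw
      by_contra hcon
      push Not at hcon
      have h1 := near_N8 hs hq hq' (by linarith)
      have h2 := D.tt _ (zlt j) _ (zlt k) n n' h1
      exact hjk (ZMod.val_injective 4 h2)
    · exact key j k hjk y hy w hw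
  · rcases hw with hw | hw
    · rw [dist_comm]
      exact key k j hjk.symm w hw y hy
    · have a1 := Cn_main hs hM hy
      have a2 := Cn_main hs hM hw
      have b1 := Cn_other hs hM hjk hw
      have b2 := Cn_other hs hM hjk.symm hy
      have c1 := (abs_le.1 (fa_sub (cen s c) j y w)).2
      have c2 := (abs_le.1 (fa_sub (cen s c) k y w)).1
      have d1 := hy.1
      have d2 := hw.1
      nlinarith

theorem mem_out {z : ℂ} : z ∈ (cfgC s F v m c M U).out ↔ ∃ i, z ∈ Rg s F v m c M U i := by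
  rw [Cfgx416.Cfg.out, mem_iUnion]
  rfl

theorem CellDom.tr (D : CellDom F L v m c M U) (hs : 0 < s) (k : ZMod 4) {y w : ℂ}
    (hy : y ∈ Bt s c M U k) (h : dist w y < s / 4) :
    w ∈ Bt s c M U k ∨ w ∈ Pg s F ∨ w ∈ Rg s F v m c M U (k - 1) ∨ w ∈ Rg s F v m c M U k := by
  have hM := D.cfg.M_pos
  by_cases hw : w ∈ (cfgC s F v m c M U).out
  · obtain ⟨i, hi⟩ := mem_out.1 hw
    have hq := (mem_om hs).1 hi.1 _ (mem_cellOf hs w)
    suffices hh : i = k ∨ i = k - 1 by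
      rcases hh with rfl | rfl
      · exact Or.inr (Or.inr (Or.inr hi))
      · exact Or.inr (Or.inr (Or.inl hi))
    rcases hy with hy | hy
    · obtain ⟨q, ⟨n, rfl⟩, hq'⟩ := mem_Pg.1 hy
      have h1 := near_N8 hs hq' (mem_cellOf hs w) (by rw [dist_comm]; linarith)
      rcases D.near_tent k h1 hq.1 with h2 | h2
      · exact Or.inl (D.disj hq h2)
      · exact Or.inr (D.disj hq h2)
    · have a1 := Cn_main hs hM hy
      have a2 := hy.1
      have a3 := Lr_ge hs hM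
      have a4 : ‖y - cen s c‖ ≤ dist w y + ‖w - cen s c‖ := by
        have := norm_sub_le_norm_sub_add_norm_sub y w (cen s c)
        rwa [← dist_eq_norm y w, dist_comm] at this
      have a5 : cellOf s w ∉ Box c (M + 1) :=
        not_box (hs := hs) hM (mem_cellOf hs w) (by linarith)
      obtain ⟨b1, b2, -⟩ := D.far_Om hs hi.1 (mem_cellOf hs w) a5
      have c1 := (abs_le.1 (fa_sub (cen s c) k w y)).1
      have c2 : 0 < fa (cen s c) k w := by linarith
      obtain ⟨j, rfl⟩ : ∃ j, i = k + j := ⟨i - k, by ring⟩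
      rcases z4 j with rfl | rfl | rfl | rfl
      · exact Or.inl (add_zero k)
      · exfalso
        rw [show k + 1 + 1 = k + 2 by rw [add_assoc]; rfl, fa_two] at b2
        linarith
      · exfalso
        rw [fa_two] at b1
        linarith
      · right
        rw [sub_eq_add_neg]
        rfl
  · have h1 : w ∈ (cfgC s F v m c M U).outᶜ := hw
    rw [D.body_eq hs] at h1
    rcases h1 with h1 | h1
    · exact Or.inr (Or.inl h1)
    · obtain ⟨k', hk'⟩ := mem_iUnion.1 h1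
      by_cases hkk : k = k'
      · exact Or.inl (hkk ▸ hk')
      · exact absurd (D.tt_dist hs hkk hy hk') (by rw [dist_comm]; linarith)

end

end Crest.Agent.R143.Cdx806
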