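import Crest.Agent.R143.DicA_831
import Crest.Agent.R143.Frame7_395
import Crest.Agent.R143.B1_991

/-!
# Row 143 (S0194), dichotomy without part A, 2 (helper831): the root block of a network

`cm h` = closed map of the network `N` (Frame5_395), root darts `Sum.inr k`, darts `Sum.inl (a, b)`
with the third vertex `th S (a, b)`.
* `nrm` : (middle of the two majority cells) - (minority cell); `tng` : `a - b` (clockwise edge of
  the two majority cells); `ctr` : centre of gravity; zero at the root darts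
* `P1 = - tng / 2 - (I / √3) nrm`, `P2 = - tng / 2 + (I / √3) nrm` : spin functions
* `W`, `W'` : `∑ φ P1 Q`, `∑ φ conj P2 Q` as block sums; exact relations
* `Rq`, `Bq` : quenched first moment and tail of the sum of `f` over the root block
* `key_db`, `key_dd` : **`‖(b + a √3/2) ∑ Q φ P1‖ ≤ 4 Rq`**, `f = φ ctr (a nrm - I b tng)`
-/

set_option autoImplicit false

noncomputable section

open scoped Classical

namespace Crest.Agent.R143.DicBx831

open Crest.Agent.R143.B0x346 Crest.Agent.R143.DelGx806 Crest.Agent.R143.DelRx806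
  Crest.Agent.R143.JColx54 Crest.Agent.R143.JCardx872 Crest.Agent.R143.Planarx54
  Crest.Agent.R143.Sidesx697
open Crest.Agent.R143.Frame1x395 Crest.Agent.R143.Frame2x395 Crest.Agent.R143.Frame3x395
  Crest.Agent.R143.Frame4x395 Crest.Agent.R143.Frame5x395 Crest.Agent.R143.Frame6x395
  Crest.Agent.R143.Frame7x395 Crest.Agent.R143.Frame8x395 Crest.Agent.R143.DicAx831

variable {S : Finset ℂ} {N : Net ℂ} {t : ℂ × ℂ × ℂ}

/-! ### third roots of unity -/

theorem om_im : om.im = Real.sqrt 3 / 2 := by
  have h : Real.sin (2 * Real.pi / 3) = Real.sqrt 3 / 2 := by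
    have h1 : (2 * Real.pi / 3) = Real.pi - Real.pi / 3 := by ring
    rw [h1, Real.sin_pi_sub, Real.sin_pi_div_three]
  unfold om
  rw [Complex.exp_ofReal_mul_I_im, h]

/-- `√3` as a complex number -/
def s3 : ℂ := ((Real.sqrt 3 : ℝ) : ℂ)




theorem om_val : om = -1 / 2 + s3 / 2 * Complex.I := by
  apply Complex.ext
  · rw [Oscx63.om_re]
    unfold s3
    simp
  · rw [om_im]
    unfold s3
    simp

theorem II : Complex.I * Complex.I = -1 := Complex.I_mul_I

theorem om2_val : om ^ 2 = -1 / 2 - s3 / 2 * Complex.I := by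
  have h := om_sum
  have h1 := om_val
  linear_combination h - h1

/-! ### the local vectors -/



/-- centre of gravity of the triangle of a dart -/
def ctr (S : Finset ℂ) : Dt S → ℂ
  | Sum.inl e => (e.1.1 + e.1.2 + th S e.1) / 3
  | Sum.inr _ => 0









/-! ### the root face -/


/-- the root function -/
def A1 (S : Finset ℂ) : Dt S → ℂ
  | Sum.inl _ => 0
  | Sum.inr k => omz k






/-! ### amplitudes -/

theorem w3 : (om ^ 2) ^ 3 = 1 := by
  rw [← pow_mul, mul_comm, pow_mul, Oscx63.om_pow_three, one_pow]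

theorem e4 : (om ^ 2) ^ 2 = om := by
  rw [← pow_mul, show (2 * 2 : ℕ) = 3 + 1 by norm_num, pow_add, Oscx63.om_pow_three]; ring

theorem w1 : om ^ 2 ≠ 1 := by
  intro h
  have h1 := om_sum
  have h2 : om = 1 := by
    have := Oscx63.om_pow_three
    calc om = om ^ 3 * om := by rw [this, one_mul]
      _ = om ^ 2 * om ^ 2 := by ring
      _ = 1 := by rw [h]; ring
  rw [h2] at h1
  norm_num at h1


/-- number of even configurations which vanish at the root face -/
def nz (h : HNet S N) : ℕ := nZ (cm h) (Sum.inr 0)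







/-- centre of gravity -/
def cc (t : ℂ × ℂ × ℂ) : ℂ := (t.1 + t.2.1 + t.2.2) / 3

def p1 (t : ℂ × ℂ × ℂ) : ℂ :=
  ((t.2.1 - t.1) + om * (t.2.2 - t.2.1) + om ^ 2 * (t.1 - t.2.2)) / 3

def p2 (t : ℂ × ℂ × ℂ) : ℂ :=
  ((t.2.1 - t.1) + om ^ 2 * (t.2.2 - t.2.1) + om * (t.1 - t.2.2)) / 3







/-! ### block sums -/



/-- sum of products of block sums with the root function -/
def WW (h : HNet S N) (f : Dt S → ℂ) : ℂ :=
  ∑ x ∈ ev (cm h), ∑ β ∈ blks (cm h) x, (∑ g ∈ β, A1 S g) * (∑ k ∈ β, f k)




















end Crest.Agent.R143.DicBx831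
end
private theorem rz_5f4bada05f : type_of% @_root_.Crest.Agent.R143.DicBx831.A1.eq_1 := @_root_.Crest.Agent.R143.DicBx831.A1.eq_1 -- L173
private theorem rz_c6570b6180 : type_of% @_root_.Crest.Agent.R143.DicBx831.ctr.eq_1 := @_root_.Crest.Agent.R143.DicBx831.ctr.eq_1 -- L91
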