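import Crest.Agent.R143.B1g_991
import Crest.Agent.R143.Rel2_63
import Crest.Agent.R143.PP1_831
import Crest.Agent.R143.Y0_831
import Crest.Agent.R143.DicB_831
import Crest.Agent.R143.DomA_722

-- ▼ part R143/B1h_991
section

/-!
# Row 143 (S0194), block B1: unconditional form (helper991)

`stk_net`, `stkD` : the two Stokes identities for the mollifier, no hypothesis on joins (the local
identities are `Rel2x63.relAt`; the sides near `z₀` are no marks)
-/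

set_option autoImplicit false

noncomputable section

open scoped Classical

namespace Crest.Agent.R143.B1hx991

open Complex Set MeasureTheory
open Crest.Agent.R143.B0x346 Crest.Agent.R143.B0Dx346 Crest.Agent.R143.BC0x336
open Crest.Agent.R143.DelGx806 Crest.Agent.R143.B1x991 Crest.Agent.R143.B1ex991
  Crest.Agent.R143.B1gx991
open Crest.Agent.R143.B1bx796 (touch Stk)
open Crest.Agent.R143.Locx922

variable {F F' : Finset ℂ} {d r : ℝ} {z₀ : ℂ}

/-- the local identity at a triangle with live sides and vertices in `W` -/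
theorem lid_of {N : Net ℂ} {W : Set ℂ} (hd : 0 < d) (hN : HNet F N) (hH : Hol (F : Set ℂ) W d)
    {t : ℂ × ℂ × ℂ} (ht : t ∈ delT F) (h1 : (t.1, t.2.1) ∉ N.kl) (h2 : (t.2.1, t.2.2) ∉ N.kl)
    (h3 : (t.2.2, t.1) ∉ N.kl) (ha : t.1 ∈ W) (hb : t.2.1 ∈ W) : LId N t := by
  refine LId_of (J1x872.j1 Rel2x63.p1all N F hN t ht h1 h2 h3 (Or.inr ⟨?_, ?_, ?_⟩))
  · rintro ⟨k, hk⟩
    exact (mark_W (b := t.2.1) hd hN hH ha k).1 hk
  · rintro ⟨k, hk⟩
    exact (mark_W (b := t.2.2) hd hN hH hb k).1 hk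
  · rintro ⟨k, hk⟩
    exact (mark_W (b := t.2.2) hd hN hH ha k).2 hk

/-- **B1**, unconditional: a network with live sides near `z₀` -/
theorem stk_net {N : Net ℂ} (hd : 0 < d) (hr : 0 < r) (hN : HNet F N)
    (hH : Hol (F : Set ℂ) (Metric.closedBall z₀ (r + 2 * d)) d)
    (hL : ∀ t ∈ touch z₀ r F, (t.1, t.2.1) ∉ N.kl ∧ (t.2.1, t.2.2) ∉ N.kl ∧
      (t.2.2, t.1) ∉ N.kl) : Stk F N r z₀ := by
  have hH' := hH.mono (Metric.closedBall_subset_closedBall (show r ≤ r + 2 * d by linarith))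
  refine stk hN hr (fun _ _ h => hull_far hd hH' h) fun t ht => ?_
  obtain ⟨h1, h2, h3⟩ := hL t ht
  obtain ⟨n1, n2, n3⟩ := touch_near hd hH' ht
  have htT : t ∈ delT F := by
    rw [touch, Finset.mem_filter] at ht
    exact ht.1
  refine lid_of hd hN hH htT h1 h2 h3 ?_ ?_
  · rw [Metric.mem_closedBall, dist_eq_norm]; exact n1.le
  · rw [Metric.mem_closedBall, dist_eq_norm]; exact n2.le

/-- **B1** for domains, unconditional -/
theorem stkD (hd : 0 < d) (hr : 0 < r) {D : Dom} (hN : HNet F (D.netS F))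
    (hH : Hol (F : Set ℂ) (Metric.closedBall z₀ (r + 2 * d)) d)
    (hO : ∀ z, ‖z - z₀‖ < r + 3 * d → z ∉ D.out) : Stk F (D.netS F) r z₀ :=
  stk_net hd hr hN hH fun _ ht => touch_live hd hN hH hO ht

/-- **B1** for the sites of a domain in a good environment -/
theorem stk_env {ε M : ℝ} {ω : Crest.ProbabilityR.Voronoi.Sample} {D : Dom} (hd : 0 < d)
    (hr : 0 < r) (hE : Env ε d M D.c D.L ω)
    (hN : HNet (D.sites ε ω) (D.netS (D.sites ε ω)))
    (hb : ‖z₀ - D.c‖ + r + 4 * d ≤ D.L) (hO : ∀ z, ‖z - z₀‖ < r + 3 * d → z ∉ D.out) :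
    Stk (D.sites ε ω) (D.netS (D.sites ε ω)) r z₀ := by
  refine stkD hd hr hN ((Env.hol_sites hE).mono ?_) hO
  intro w hw
  rw [Metric.mem_closedBall, dist_eq_norm] at hw ⊢
  have := norm_tri w z₀ D.c
  linarith

end Crest.Agent.R143.B1hx991
end
end

-- ▼ part R143/B6D_654
section

/-!
# Row 143 (S0194), B6 (helper654): sum of the squared lengths of Delaunay sides, from `diamSum`
-/

set_option autoImplicit false

noncomputable section

namespace Crest.Agent.R143.B6Dx654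

open Set MeasureTheory
open Crest.ProbabilityR.Voronoi Crest.Agent.R143.B0x346 Crest.Agent.R143.PP1x831
open scoped ENNReal

theorem cr_cyc (a b c : ℂ) : cr (c - b) (a - b) = cr (b - a) (c - a) := by
  simp only [cr, Complex.sub_re, Complex.sub_im]
  ring

theorem del_rot {P : Set ℂ} {a b c : ℂ} (h : Del P a b c) : Del P b c a := by
  obtain ⟨ha, hb, hc, h1, o, h2, h3, h4⟩ := h
  refine ⟨hb, hc, ha, by rw [cr_cyc]; exact h1, o, ?_, ?_, fun s hs => ?_⟩
  · rw [h3, h2]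
  · rw [h2]
  · rw [h2]; exact h4 s hs

/-- the length of a Delaunay side is at most the sum of the diameters of the two cells -/
theorem edist_le {P : Set ℂ} {a b c : ℂ} (h : Del P a b c) :
    edist a b ≤ Metric.ediam (voronoiCell P a) + Metric.ediam (voronoiCell P b) := by
  obtain ⟨ha, hb, hc, h1, o, h2, h3, h4⟩ := h
  have ho : o ∈ voronoiCell P a := fun s hs => by
    rw [norm_sub_rev o a, norm_sub_rev o s]; exact h4 s hs
  have ho' : o ∈ voronoiCell P b := fun s hs => by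
    rw [norm_sub_rev o b, norm_sub_rev o s, h2]; exact h4 s hs
  have haa : a ∈ voronoiCell P a := fun s _ => by rw [sub_self, norm_zero]; exact norm_nonneg _
  have hbb : b ∈ voronoiCell P b := fun s _ => by rw [sub_self, norm_zero]; exact norm_nonneg _
  calc edist a b ≤ edist a o + edist o b := edist_triangle _ _ _
    _ ≤ _ := add_le_add (Metric.edist_le_ediam_of_mem haa ho) (Metric.edist_le_ediam_of_mem ho' hbb)

theorem sq_le (x y : ℝ≥0∞) : (x + y) ^ 2 ≤ 2 * x ^ 2 + 2 * y ^ 2 := by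
  have h := ENNReal.rpow_add_le_mul_rpow_add_rpow x y (p := 2) (by norm_num)
  have e : ((2 : ℝ≥0∞) ^ ((2 : ℝ) - 1)) = 2 := by norm_num
  rw [e] at h
  have e2 : ∀ u : ℝ≥0∞, u ^ (2 : ℝ) = u ^ 2 := fun u => by
    rw [← ENNReal.rpow_natCast]; norm_num
  rw [e2, e2, e2, mul_add] at h
  exact h

/-- the index set of `diamSum` -/
def Idx (P W : Set ℂ) : Set (ℂ × ℂ × ℂ) := {t | Del P t.1 t.2.1 t.2.2 ∧
    ((voronoiCell P t.1 ∪ voronoiCell P t.2.1 ∪ voronoiCell P t.2.2) ∩ W).Nonempty}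

theorem sum_le_diamSum {P W : Set ℂ} (T : Finset (ℂ × ℂ × ℂ)) (g : ℂ × ℂ × ℂ → ℂ × ℂ × ℂ)
    (hg : ∀ t ∈ T, ∀ s ∈ T, g t = g s → t = s) (hT : ∀ t ∈ T, g t ∈ Idx P W) :
    ∑ t ∈ T, (Metric.ediam (voronoiCell P (g t).1)) ^ 2 ≤ diamSum P W := by
  classical
  set f : ℂ × ℂ × ℂ → ℝ≥0∞ := fun t => (Metric.ediam (voronoiCell P t.1)) ^ 2 with hf
  have h1 : diamSum P W = ∑' t, (Idx P W).indicator f t := by
    rw [← tsum_subtype (Idx P W) f]
    rfl
  rw [h1]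
  calc ∑ t ∈ T, f (g t) = ∑ s ∈ T.image g, f s := by
        rw [Finset.sum_image]
        exact fun t ht s hs h => hg t ht s hs h
    _ = ∑ s ∈ T.image g, (Idx P W).indicator f s := by
        refine Finset.sum_congr rfl fun s hs => ?_
        obtain ⟨t, ht, rfl⟩ := Finset.mem_image.1 hs
        rw [indicator_of_mem (hT t ht)]
    _ ≤ ∑' t, (Idx P W).indicator f t := ENNReal.sum_le_tsum _

/-- **(m5)** -/
theorem sum_sq_le {P W : Set ℂ} (T : Finset (ℂ × ℂ × ℂ))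
    (hT : ∀ t ∈ T, Del P t.1 t.2.1 t.2.2 ∧ t.1 ∈ W) :
    ∑ t ∈ T, ENNReal.ofReal (‖t.2.1 - t.1‖ ^ 2) ≤ 4 * diamSum P W := by
  have hmem : ∀ a : ℂ, a ∈ voronoiCell P a := fun a s _ => by
    rw [sub_self, norm_zero]; exact norm_nonneg _
  have h1 : ∑ t ∈ T, (Metric.ediam (voronoiCell P t.1)) ^ 2 ≤ diamSum P W :=
    sum_le_diamSum T id (fun _ _ _ _ h => h) fun t ht =>
      ⟨(hT t ht).1, t.1, Or.inl (Or.inl (hmem _)), (hT t ht).2⟩
  have h2 : ∑ t ∈ T, (Metric.ediam (voronoiCell P t.2.1)) ^ 2 ≤ diamSum P W := by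
    refine sum_le_diamSum T (fun t => (t.2.1, t.2.2, t.1)) ?_ fun t ht =>
      ⟨del_rot (hT t ht).1, t.1, Or.inr (hmem _), (hT t ht).2⟩
    rintro ⟨a, b, c⟩ _ ⟨a', b', c'⟩ _ h
    simp only [Prod.mk.injEq] at h ⊢
    tauto
  have h3 : ∀ t ∈ T, ENNReal.ofReal (‖t.2.1 - t.1‖ ^ 2) ≤
      2 * (Metric.ediam (voronoiCell P t.1)) ^ 2 + 2 * (Metric.ediam (voronoiCell P t.2.1)) ^ 2 := by
    intro t ht
    have e : ENNReal.ofReal (‖t.2.1 - t.1‖ ^ 2) = (edist t.1 t.2.1) ^ 2 := by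
      rw [edist_dist, dist_eq_norm, norm_sub_rev, ENNReal.ofReal_pow (norm_nonneg _)]
    rw [e]
    calc (edist t.1 t.2.1) ^ 2
        ≤ (Metric.ediam (voronoiCell P t.1) + Metric.ediam (voronoiCell P t.2.1)) ^ 2 := by
          gcongr
          exact edist_le (hT t ht).1
      _ ≤ _ := sq_le _ _
  calc ∑ t ∈ T, ENNReal.ofReal (‖t.2.1 - t.1‖ ^ 2)
      ≤ ∑ t ∈ T, (2 * (Metric.ediam (voronoiCell P t.1)) ^ 2 +
          2 * (Metric.ediam (voronoiCell P t.2.1)) ^ 2) := Finset.sum_le_sum h3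
    _ = 2 * ∑ t ∈ T, (Metric.ediam (voronoiCell P t.1)) ^ 2 +
          2 * ∑ t ∈ T, (Metric.ediam (voronoiCell P t.2.1)) ^ 2 := by
        rw [Finset.sum_add_distrib, Finset.mul_sum, Finset.mul_sum]
    _ ≤ 2 * diamSum P W + 2 * diamSum P W := by gcongr
    _ = 4 * diamSum P W := by ring

/-- real form -/
theorem sum_sq_le' {P W : Set ℂ} {C : ℝ} (hC : 0 ≤ C) (T : Finset (ℂ × ℂ × ℂ))
    (hT : ∀ t ∈ T, Del P t.1 t.2.1 t.2.2 ∧ t.1 ∈ W) (h : diamSum P W ≤ ENNReal.ofReal C) :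
    ∑ t ∈ T, ‖t.2.1 - t.1‖ ^ 2 ≤ 4 * C := by
  have h1 := (sum_sq_le T hT).trans (mul_le_mul_right h 4)
  rw [← ENNReal.ofReal_sum_of_nonneg fun t _ => by positivity] at h1
  have e : (4 : ℝ≥0∞) * ENNReal.ofReal C = ENNReal.ofReal (4 * C) := by
    rw [ENNReal.ofReal_mul (by norm_num)]
    norm_num
  rw [e] at h1
  exact (ENNReal.ofReal_le_ofReal_iff (by positivity)).1 h1

end Crest.Agent.R143.B6Dx654
end
end

-- ▼ part R143/B6C_654
section

/-!
# Row 143 (S0194), B6: the input (CA) from M4 (helper654)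

* `touch_sq` : in a good environment the sides of the triangles which touch the ball are short and the
  sum of the squares of their lengths is at most `16 C4 r ^ 2`
-/

set_option autoImplicit false

noncomputable section

open scoped Classical

namespace Crest.Agent.R143.B6Cx654

open Complex Set Filter Topology MeasureTheory
open Crest.ProbabilityR.Voronoi
open Crest.Agent.R143.B0x346 Crest.Agent.R143.B0Dx346 Crest.Agent.R143.PP1x831
open Crest.Agent.R143.Y0x831 Crest.Agent.R143.B1gx991 Crest.Agent.R143.Locx922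
open Crest.Agent.R143.B1bx796 (touch)
open Crest.Agent.R143.B6Dx654

/-- the triangles which touch the ball, in an environment -/
theorem touch_env {D : Dom} {ε d M : ℝ} {ω : Sample} (hE : Env ε d M D.c D.L ω) (hd : 0 < d)
    {z₀ : ℂ} {r : ℝ} (hz : ‖z₀ - D.c‖ + r + 2 * d ≤ D.L) {t : ℂ × ℂ × ℂ}
    (ht : t ∈ touch z₀ r (D.sites ε ω)) :
    Del (points ε ω) t.1 t.2.1 t.2.2 ∧ ‖t.1 - z₀‖ < r + 2 * d ∧ ‖t.2.1 - z₀‖ < r + 2 * d ∧
      ‖t.2.2 - z₀‖ < r + 2 * d ∧ ‖t.2.1 - t.1‖ < 2 * d := by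
  have hsub : Metric.closedBall z₀ r ⊆ Metric.closedBall D.c (D.L - 2 * d) := by
    refine Metric.closedBall_subset_closedBall' ?_
    rw [dist_eq_norm]
    linarith
  have hH : Hol (D.sites ε ω : Set ℂ) (Metric.closedBall z₀ r) d := (Env.hol_sites hE).mono hsub
  obtain ⟨h1, h2, h3⟩ := touch_near hd hH ht
  have h4 := touch_short hd hH ht
  refine ⟨?_, h1, h2, h3, h4⟩
  rw [touch, Finset.mem_filter] at ht
  obtain ⟨ht, x, hx, hxr⟩ := ht
  have hxW : x ∈ Metric.closedBall D.c (D.L - 2 * d) := hsub (by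
    rw [Metric.mem_closedBall, dist_eq_norm]; exact hxr.le)
  exact (Env.mem_delT hd hE hxW (side_inT (tri_pos ht) hx)).1 ht

/-- **(CA)** -/
theorem touch_sq {D : Dom} {ε C K a C4 : ℝ} {ω : Sample} (hG : Good D ε C K a C4 ω)
    (hd : 0 < rad C ε) (hC4 : 0 ≤ C4) {z₀ : ℂ} {r : ℝ} (hrd : 2 * rad C ε ≤ r)
    (hz : ‖z₀ - D.c‖ + r + 2 * rad C ε ≤ D.L) (h1 : ε * Real.log (1 / ε) ^ a ≤ 2 * r)
    (h2 : 2 * r ≤ 1) :
    (∀ t ∈ touch z₀ r (D.sites ε ω), ‖t.2.1 - t.1‖ ≤ r) ∧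
      ∑ t ∈ touch z₀ r (D.sites ε ω), ‖t.2.1 - t.1‖ ^ 2 ≤ 16 * C4 * r ^ 2 := by
  refine ⟨fun t ht => ?_, ?_⟩
  · have := (touch_env hG.env hd hz ht).2.2.2.2
    linarith
  · have hz0 : z₀ ∈ Metric.closedBall D.c D.L := by
      rw [Metric.mem_closedBall, dist_eq_norm]
      linarith
    have h3 := hG.diam z₀ hz0 (2 * r) h1 h2
    have h4 := sum_sq_le' (P := points ε ω) (W := Metric.ball z₀ (2 * r)) (C := C4 * (2 * r) ^ 2)
      (by positivity) (touch z₀ r (D.sites ε ω)) (fun t ht => ?_) h3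
    · refine h4.trans (le_of_eq ?_)
      ring
    · obtain ⟨e1, e2, -, -, -⟩ := touch_env hG.env hd hz ht
      refine ⟨e1, ?_⟩
      rw [Metric.mem_ball, dist_eq_norm]
      linarith


end Crest.Agent.R143.B6Cx654
end
end

-- ▼ part R143/DicC_831

/-!
# Row 143 (S0194), dichotomy without part A, 3 (helper831): from the observable to `∑ Q e φ`

* `phi_lip` : the mollifier is Lipschitz
* `cc_inT` : the centre of gravity is in the triangle
* `approx` : `∑ Q w seg φ = ∑ Q w φ(cc) + O(d)` (frame + Cauchy-Schwarz)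
* `sq_bound` : the sum of the squares of the sides near a point is bounded (M4)
-/

set_option autoImplicit false

noncomputable section

open scoped Classical

namespace Crest.Agent.R143.DicCx831

open Complex Set Filter Topology MeasureTheory
open Crest.ProbabilityR.Voronoi
open Crest.Agent.R143.B0x346 Crest.Agent.R143.B0Dx346 Crest.Agent.R143.PP1x831
open Crest.Agent.R143.BC0x336 Crest.Agent.R143.Mollx887
open Crest.Agent.R143.DelGx806 Crest.Agent.R143.B1gx991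
open Crest.Agent.R143.Y0x831 (Good)
open Crest.Agent.R143.B1bx796 (touch Stk phi phi_zero seg seg_off)
open Crest.Agent.R143.Locx922
open Crest.Agent.R143.DicBx831

variable {F : Finset ℂ} {N : Net ℂ} {d r : ℝ} {z₀ : ℂ}

/-- the mollifier is Lipschitz -/
theorem phi_lip (hr : 0 < r) (z₀ : ℂ) :
    ∃ L : ℝ, 0 ≤ L ∧ ∀ x y, ‖phi r z₀ x - phi r z₀ y‖ ≤ L * ‖x - y‖ := by
  have h1 : ContDiff ℝ 1 (phi r z₀) := B1bx796.phi_contDiff r z₀ (n := 1)
  have h2 : HasCompactSupport (phi r z₀) := by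
    refine HasCompactSupport.of_support_subset_isCompact (isCompact_closedBall z₀ r) ?_
    intro w hw
    rw [Function.mem_support] at hw
    rw [Metric.mem_closedBall, dist_eq_norm]
    by_contra hcon
    push Not at hcon
    exact hw (phi_zero hr hcon.le)
  obtain ⟨K, hK⟩ := h1.lipschitzWith_of_hasCompactSupport h2 one_ne_zero
  refine ⟨K, K.2, fun x y => ?_⟩
  have := hK.dist_le_mul x y
  rwa [dist_eq_norm, dist_eq_norm] at this

/-- the centre of gravity is in the triangle -/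
theorem cc_inT {a b c : ℂ} (hp : 0 < cr (b - a) (c - a)) : InT (cc (a, b, c)) a b c := by
  have e1 : cr (b - a) (cc (a, b, c) - a) = cr (b - a) (c - a) / 3 := by
    simp only [cc, cr, Complex.sub_re, Complex.sub_im, Complex.div_ofNat_re, Complex.div_ofNat_im,
      Complex.add_re, Complex.add_im]
    ring
  have e2 : cr (c - b) (cc (a, b, c) - b) = cr (b - a) (c - a) / 3 := by
    simp only [cc, cr, Complex.sub_re, Complex.sub_im, Complex.div_ofNat_re, Complex.div_ofNat_im,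
      Complex.add_re, Complex.add_im]
    ring
  have e3 : cr (a - c) (cc (a, b, c) - c) = cr (b - a) (c - a) / 3 := by
    simp only [cc, cr, Complex.sub_re, Complex.sub_im, Complex.div_ofNat_re, Complex.div_ofNat_im,
      Complex.add_re, Complex.add_im]
    ring
  refine ⟨?_, ?_, ?_⟩
  · rw [e1]; positivity
  · rw [e2]; positivity
  · rw [e3]; positivity

/-- the vertices are near every point of the triangle in the ball -/
theorem near_pt {R : ℝ} (hd : 0 < d) (hH : Hol (F : Set ℂ) (Metric.closedBall z₀ R) d)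
    {t : ℂ × ℂ × ℂ} (ht : t ∈ delT F) {x : ℂ} (hx : InT x t.1 t.2.1 t.2.2) (hxR : ‖x - z₀‖ ≤ R) :
    ‖t.1 - x‖ < 2 * d ∧ ‖t.2.1 - x‖ < 2 * d ∧ ‖t.2.2 - x‖ < 2 * d := by
  have hxW : x ∈ Metric.closedBall z₀ R := by
    rw [Metric.mem_closedBall, dist_eq_norm]; exact hxR
  have hD : Del (F : Set ℂ) t.1 t.2.1 t.2.2 := DelGx806.mem_delT.1 ht
  obtain ⟨o, -, -, -, -, -, ga, gb, gc⟩ := del_small hd hH hxW (InT.inD (tri_pos ht) hx) hD
  exact ⟨ga, gb, gc⟩

theorem cc_near {x : ℂ} {t : ℂ × ℂ × ℂ} (h1 : ‖t.1 - x‖ < 2 * d) (h2 : ‖t.2.1 - x‖ < 2 * d)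
    (h3 : ‖t.2.2 - x‖ < 2 * d) : ‖cc t - x‖ ≤ 2 * d := by
  have e : cc t - x = ((t.1 - x) + (t.2.1 - x) + (t.2.2 - x)) / 3 := by
    unfold cc
    ring
  have h4 := norm_add₃_le (a := t.1 - x) (b := t.2.1 - x) (c := t.2.2 - x)
  have h5 : ‖(3 : ℂ)‖ = 3 := by simp
  rw [e, norm_div, h5, div_le_iff₀ (by norm_num)]
  linarith

/-- the two ways to evaluate the mollifier -/
theorem seg_cc {L : ℝ} (hL0 : 0 ≤ L) (hL : ∀ x y, ‖phi r z₀ x - phi r z₀ y‖ ≤ L * ‖x - y‖)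
    {x : ℂ} {t : ℂ × ℂ × ℂ} (h1 : ‖t.1 - x‖ < 2 * d) (h2 : ‖t.2.1 - x‖ < 2 * d)
    (h3 : ‖t.2.2 - x‖ < 2 * d) :
    ‖seg (phi r z₀) t.1 t.2.1 - phi r z₀ (cc t)‖ ≤ L * (4 * d) := by
  have hcc := cc_near h1 h2 h3
  have hc : Continuous (phi r z₀) := (B1bx796.phi_contDiff r z₀ (n := 0)).continuous
  have e : seg (phi r z₀) t.1 t.2.1 - phi r z₀ (cc t) =
      ∫ s in (0 : ℝ)..1, (phi r z₀ (t.1 + s * (t.2.1 - t.1)) - phi r z₀ (cc t)) := by
    rw [intervalIntegral.integral_sub]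
    · unfold B1bx796.seg
      simp
    · exact (hc.comp (by fun_prop)).intervalIntegrable _ _
    · exact continuous_const.intervalIntegrable _ _
  rw [e]
  have := intervalIntegral.norm_integral_le_of_norm_le_const (a := (0 : ℝ)) (b := 1)
    (C := L * (4 * d))
    (f := fun s : ℝ => phi r z₀ (t.1 + s * (t.2.1 - t.1)) - phi r z₀ (cc t)) ?_
  · simpa using this
  · intro s hs
    rw [uIoc_of_le zero_le_one] at hs
    refine (hL _ _).trans (mul_le_mul_of_nonneg_left ?_ hL0)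
    have e1 : t.1 + s * (t.2.1 - t.1) - x = (1 - s : ℂ) * (t.1 - x) + s * (t.2.1 - x) := by ring
    have e2 : ‖t.1 + s * (t.2.1 - t.1) - x‖ ≤ 2 * d := by
      rw [e1]
      refine (norm_add_le _ _).trans ?_
      rw [norm_mul, norm_mul]
      have n1 : ‖(1 - s : ℂ)‖ = 1 - s := by
        rw [← Complex.ofReal_one, ← Complex.ofReal_sub, Complex.norm_real,
          Real.norm_of_nonneg (by linarith [hs.2])]
      have n2 : ‖(s : ℂ)‖ = s := by
        rw [Complex.norm_real, Real.norm_of_nonneg hs.1.le]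
      rw [n1, n2]
      have h01 : 0 ≤ 1 - s := by linarith [hs.2]
      nlinarith [hs.1, hs.2]
    have e3 := norm_tri (t.1 + s * (t.2.1 - t.1)) x (cc t)
    rw [norm_sub_rev x (cc t)] at e3
    linarith

/-- **the sums of the Stokes identities**, evaluated at the centres of gravity -/
theorem approx (hN : HNet F N) (hd : 0 < d) (hr : 0 < r) (hdr : 2 * d ≤ r)
    (hH : Hol (F : Set ℂ) (Metric.closedBall z₀ (2 * r)) d) {L : ℝ} (hL0 : 0 ≤ L)
    (hL : ∀ x y, ‖phi r z₀ x - phi r z₀ y‖ ≤ L * ‖x - y‖) (w : ℂ × ℂ × ℂ → ℂ)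
    (hw : ∀ t, ‖w t‖ ≤ ‖t.2.1 - t.1‖) {V : ℝ}
    (hV : ∑ t ∈ touch z₀ (2 * r) F, ‖t.2.1 - t.1‖ ^ 2 ≤ V) :
    ‖∑ t ∈ delT F, N.Q t * w t * seg (phi r z₀) t.1 t.2.1 -
      ∑ t ∈ delT F, N.Q t * (w t * phi r z₀ (cc t))‖ ≤ L * (4 * d) * (2 * Real.sqrt V) := by
  rw [← Finset.sum_sub_distrib]
  have hsub : touch z₀ (2 * r) F ⊆ delT F := Finset.filter_subset _ _
  have hzero : ∀ t ∈ delT F, t ∉ touch z₀ (2 * r) F →
      N.Q t * w t * seg (phi r z₀) t.1 t.2.1 - N.Q t * (w t * phi r z₀ (cc t)) = 0 := by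
    intro t ht hnt
    have h1 : seg (phi r z₀) t.1 t.2.1 = 0 := by
      refine seg_off hr ?_
      rintro ⟨x, hx, hxr⟩
      exact hnt (Finset.mem_filter.2 ⟨ht, x, hx, by linarith⟩)
    have h2 : phi r z₀ (cc t) = 0 := by
      refine phi_zero hr ?_
      by_contra hcon
      push Not at hcon
      have h3 := (near_pt hd hH ht (cc_inT (tri_pos ht)) (by
        show ‖cc t - z₀‖ ≤ 2 * r
        linarith)).1
      have h4 := norm_tri t.1 (cc t) z₀
      refine hnt (Finset.mem_filter.2 ⟨ht, t.1, left_mem_segment ℝ _ _, ?_⟩)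
      have h5 : ‖t.1 - cc t‖ < 2 * d := h3
      linarith
    rw [h1, h2]
    ring
  rw [← Finset.sum_subset hsub hzero]
  have hone : ∀ t ∈ touch z₀ (2 * r) F,
      ‖N.Q t * w t * seg (phi r z₀) t.1 t.2.1 - N.Q t * (w t * phi r z₀ (cc t))‖ ≤
        L * (4 * d) * (‖N.Q t‖ * ‖t.2.1 - t.1‖) := by
    intro t ht
    obtain ⟨htT, x, hx, hxr⟩ := Finset.mem_filter.1 ht
    obtain ⟨h1, h2, h3⟩ := near_pt hd hH htT (side_inT (tri_pos htT) hx) hxr.le
    have h4 := seg_cc hL0 hL h1 h2 h3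
    have e : N.Q t * w t * seg (phi r z₀) t.1 t.2.1 - N.Q t * (w t * phi r z₀ (cc t)) =
        N.Q t * (w t * (seg (phi r z₀) t.1 t.2.1 - phi r z₀ (cc t))) := by ring
    rw [e, norm_mul, norm_mul]
    have h5 := hw t
    have h6 : ‖w t‖ * ‖seg (phi r z₀) t.1 t.2.1 - phi r z₀ (cc t)‖ ≤
        ‖t.2.1 - t.1‖ * (L * (4 * d)) := mul_le_mul h5 h4 (norm_nonneg _) (norm_nonneg _)
    calc ‖N.Q t‖ * (‖w t‖ * ‖seg (phi r z₀) t.1 t.2.1 - phi r z₀ (cc t)‖)
        ≤ ‖N.Q t‖ * (‖t.2.1 - t.1‖ * (L * (4 * d))) :=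
          mul_le_mul_of_nonneg_left h6 (norm_nonneg _)
      _ = _ := by ring
  refine (norm_sum_le _ _).trans ((Finset.sum_le_sum hone).trans ?_)
  rw [← Finset.mul_sum]
  refine mul_le_mul_of_nonneg_left ?_ (by positivity)
  have h7 := Real.sum_mul_le_sqrt_mul_sqrt (touch z₀ (2 * r) F) (fun t => ‖N.Q t‖)
    (fun t => ‖t.2.1 - t.1‖)
  refine h7.trans (mul_le_mul ?_ (Real.sqrt_le_sqrt hV) (Real.sqrt_nonneg _) (by norm_num))
  have h8 := Frame7x395.frame3 hN hsub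
  rw [Real.sqrt_le_left (by norm_num)]
  linarith

/-! ### bounded energy of the mesh -/

theorem sum_biUnion_le {ι κ : Type*} [DecidableEq κ] (T : Finset ι) (f : ι → Finset κ) (g : κ → ℝ)
    (hg : ∀ k, 0 ≤ g k) : ∑ k ∈ T.biUnion f, g k ≤ ∑ i ∈ T, ∑ k ∈ f i, g k := by
  induction T using Finset.induction_on with
  | empty => simp
  | insert a T ha ih =>
      rw [Finset.biUnion_insert, Finset.sum_insert ha]
      have h1 : ∑ k ∈ f a ∪ T.biUnion f, g k + ∑ k ∈ f a ∩ T.biUnion f, g k =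
        ∑ k ∈ f a, g k + ∑ k ∈ T.biUnion f, g k := Finset.sum_union_inter
      have h2 : 0 ≤ ∑ k ∈ f a ∩ T.biUnion f, g k := Finset.sum_nonneg fun k _ => hg k
      linarith

theorem ev_unit : ∀ᶠ ε : ℝ in 𝓝[>] 0, 0 < ε ∧ ε < 1 := by
  have h3 : Set.Ioo (0 : ℝ) 1 ∈ 𝓝[>] (0 : ℝ) := Ioo_mem_nhdsGT (by norm_num)
  filter_upwards [h3] with ε hε using hε

theorem log_small (a : ℝ) : Tendsto (fun ε : ℝ => ε * Real.log (1 / ε) ^ a) (𝓝[>] 0) (𝓝 0) := by
  have h1 := (isLittleO_abs_log_rpow_rpow_nhdsGT_zero (s := -1) a (by norm_num))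
  rw [Asymptotics.isLittleO_iff] at h1
  rw [Metric.tendsto_nhds]
  intro e he
  filter_upwards [h1 (show (0 : ℝ) < e / 2 by linarith), ev_unit] with ε h2 h4
  have h5 : Real.log (1 / ε) = |Real.log ε| := by
    rw [one_div, Real.log_inv, abs_of_neg (Real.log_neg h4.1 h4.2)]
  rw [Real.norm_eq_abs, Real.norm_eq_abs, abs_of_nonneg (Real.rpow_nonneg (abs_nonneg _) _),
    Real.rpow_neg_one, abs_of_nonneg (inv_nonneg.2 h4.1.le)] at h2
  rw [dist_zero_right, h5, Real.norm_of_nonneg (mul_nonneg h4.1.le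
    (Real.rpow_nonneg (abs_nonneg _) _))]
  have h6 := mul_le_mul_of_nonneg_left h2 h4.1.le
  have h7 : ε * (e / 2 * ε⁻¹) = e / 2 := by
    have := h4.1.ne'
    field_simp
  linarith

theorem rad_small (C : ℝ) : Tendsto (fun ε : ℝ => rad C ε) (𝓝[>] 0) (𝓝 0) := by
  have h1 := (log_small (1 / 2)).const_mul C
  rw [mul_zero] at h1
  refine h1.congr fun ε => ?_
  unfold rad
  rw [Real.sqrt_eq_rpow]
  ring

theorem rad_pos {C ε : ℝ} (hC : 0 < C) (h1 : 0 < ε ∧ ε < 1) : 0 < rad C ε := by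
  unfold rad
  have h2 : 0 < Real.log (1 / ε) := Real.log_pos (by rw [lt_div_iff₀ h1.1]; linarith)
  have h3 := Real.sqrt_pos.2 h2
  have h4 := h1.1
  positivity

/-- covering by small balls, one environment -/
theorem sq_cov {D : Dom} {C K a C4 ε : ℝ} {ω : Sample} (hG : Good D ε C K a C4 ω)
    (hrad : 0 < rad C ε) (hC4 : 0 ≤ C4) {R r0 : ℝ} {T : Finset ℂ}
    (hT : ∀ c ∈ T, ‖c - z₀‖ ≤ R) (hcov : ∀ x : ℂ, ‖x - z₀‖ ≤ R → ∃ c ∈ T, ‖x - c‖ < r0)
    (h1 : 2 * rad C ε ≤ r0) (h2 : ‖z₀ - D.c‖ + R + r0 + 2 * rad C ε ≤ D.L)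
    (h3 : ε * Real.log (1 / ε) ^ a ≤ 2 * r0) (h4 : 2 * r0 ≤ 1) :
    ∑ t ∈ touch z₀ R (D.sites ε ω), ‖t.2.1 - t.1‖ ^ 2 ≤ T.card * (16 * C4 * r0 ^ 2) := by
  have hcov2 : touch z₀ R (D.sites ε ω) ⊆ T.biUnion fun c => touch c r0 (D.sites ε ω) := by
    intro t ht
    obtain ⟨htT, x, hx, hxr⟩ := Finset.mem_filter.1 ht
    obtain ⟨c, hc, hxc⟩ := hcov x hxr.le
    rw [Finset.mem_biUnion]
    exact ⟨c, hc, Finset.mem_filter.2 ⟨htT, x, hx, hxc⟩⟩
  refine (Finset.sum_le_sum_of_subset_of_nonneg hcov2 fun _ _ _ => sq_nonneg _).trans ?_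
  refine (sum_biUnion_le T _ _ fun _ => sq_nonneg _).trans ?_
  have h5 : ∀ c ∈ T, ∑ t ∈ touch c r0 (D.sites ε ω), ‖t.2.1 - t.1‖ ^ 2 ≤ 16 * C4 * r0 ^ 2 := by
    intro c hc
    have hcB := hT c hc
    have hc2 := norm_tri c z₀ D.c
    exact (B6Cx654.touch_sq hG hrad hC4 h1 (by linarith) h3 h4).2
  refine (Finset.sum_le_sum h5).trans (le_of_eq ?_)
  rw [Finset.sum_const, nsmul_eq_mul]

/-- **the sum of the squares of the sides near a point is bounded** -/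
theorem sq_bound {D : Dom} {C K a C4 : ℝ} (hC : 0 < C) (hC4 : 0 ≤ C4) {R : ℝ}
    (hR : ‖z₀ - D.c‖ + R < D.L) : ∃ V : ℝ, 0 ≤ V ∧ ∀ᶠ ε : ℝ in 𝓝[>] 0,
      ∀ ω : Sample, Good D ε C K a C4 ω →
        ∑ t ∈ touch z₀ R (D.sites ε ω), ‖t.2.1 - t.1‖ ^ 2 ≤ V := by
  obtain ⟨r0, hr0, hr1, hr2⟩ : ∃ r0 : ℝ, 0 < r0 ∧ 2 * r0 ≤ 1 ∧
      ‖z₀ - D.c‖ + R + 2 * r0 ≤ D.L := by
    refine ⟨min (1 / 2) ((D.L - ‖z₀ - D.c‖ - R) / 2), lt_min (by norm_num) (by linarith), ?_, ?_⟩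
    · have := min_le_left (1 / 2) ((D.L - ‖z₀ - D.c‖ - R) / 2)
      linarith
    · have := min_le_right (1 / 2) ((D.L - ‖z₀ - D.c‖ - R) / 2)
      linarith
  obtain ⟨T, hT, hTf, hcov⟩ := (isCompact_closedBall z₀ R).finite_cover_balls hr0
  refine ⟨hTf.toFinset.card * (16 * C4 * r0 ^ 2), by positivity, ?_⟩
  filter_upwards [ev_unit, (log_small a).eventually (ge_mem_nhds (show (0 : ℝ) < 2 * r0 by linarith)),
    (rad_small C).eventually (ge_mem_nhds (show (0 : ℝ) < r0 / 2 by linarith))] with ε h1 h2 h3 ω hω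
  refine sq_cov hω (rad_pos hC h1) hC4 (fun c hc => ?_) (fun x hx => ?_) (by linarith)
    (by linarith) h2 hr1
  · have hcB := hT (hTf.mem_toFinset.1 hc)
    rwa [Metric.mem_closedBall, dist_eq_norm] at hcB
  · have hxc : x ∈ Metric.closedBall z₀ R := by
      rw [Metric.mem_closedBall, dist_eq_norm]; exact hx
    obtain ⟨c, hc, hxc⟩ := mem_iUnion₂.1 (hcov hxc)
    rw [Metric.mem_ball, dist_eq_norm] at hxc
    exact ⟨c, hTf.mem_toFinset.2 hc, hxc⟩

end Crest.Agent.R143.DicCx831
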