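import Crest.Agent.R143.CB_838

-- ▼ part R143/Multi_838
section

/-!
# Row 143, block X (helper838): many crossings and circuits, explored sites black

* `free_up` : `V` free sites, `E` explored sites which count as black, increasing events
* `multi` : finitely many increasing events (Harris)
* `multi_circ` : black circuits around finitely many centres
* `multi_all` : circuits, horizontal and vertical crossings together
-/

set_option autoImplicit false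

noncomputable section

open scoped Classical

namespace Crest.Agent.R143.Multix838

open Crest.Agent.R143.B0x346 Crest.Agent.R143.DelGx806 Crest.Agent.R143.DelRx806
open Crest.Agent.R143.ToolWx838 Crest.Agent.R143.Blkx838 Crest.Agent.R143.ToolW2x838
open Crest.Agent.R143.ToolW3x838 Crest.Agent.R143.Circ4x838 Crest.Agent.R143.Harx315
open Crest.Agent.R143.RB0x838 Crest.Agent.R143.CircPx838 Crest.Agent.R143.Gatex838
open Crest.Agent.R143.CBx838

variable {S V E : Finset ℂ} {z0 e : ℂ}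

/-- increasing in all colourings -/
def Inc (A : Finset ℂ → Prop) : Prop := ∀ β β', β ⊆ β' → A β → A β'

theorem Inc.up {A : Finset ℂ → Prop} (h : Inc A) (V : Finset ℂ) : Up V A := fun β β' h1 _ h2 => h β β' h1 h2







/-- a rectangle with its crossing: centre `z`, direction `e`, `x0 x1 y0 y1 m`, horizontal or vertical -/
structure Rect where
  z : ℂ
  e : ℂ
  x0 : ℝ
  x1 : ℝ
  y0 : ℝ
  y1 : ℝ
  m : ℝ
  hor : Bool

/-- the crossing event -/
def Rect.Ev (S : Finset ℂ) (q : Rect) (β : Finset ℂ) : Prop :=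
  if q.hor then ∃ l, HC S q.z q.e q.x0 q.x1 q.y0 q.y1 q.m β l
  else ∃ l, VC S q.z q.e q.x0 q.x1 q.y0 q.y1 q.m β l


/-- shape conditions at the scale `ρ` with the constant `k` -/
structure Rect.Fit (q : Rect) (k ρ : ℝ) : Prop where
  e : ‖q.e‖ = 1
  x0 : |q.x0| ≤ k * ρ
  x1 : |q.x1| ≤ k * ρ
  y0 : |q.y0| ≤ k * ρ
  y1 : |q.y1| ≤ k * ρ
  x : ρ ≤ k * (q.x1 - q.x0)
  y : ρ ≤ k * (q.y1 - q.y0)
  w : if q.hor then q.y1 - q.y0 ≤ 2 * ρ ∧ (q.y1 - q.y0) / 2 ≤ q.m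
    else q.x1 - q.x0 ≤ 2 * ρ ∧ (q.x1 - q.x0) / 2 ≤ q.m



end Crest.Agent.R143.Multix838
end
end

-- ▼ part R143/RBp_838
section

/-!
# Row 143: the weak form `RBp` of the rectangle crossings (helper838)

`RBp` : for every aspect ratio `k` and every mesh constant `C4` there is a `p > 0` (and `c1`, `K`,
all depending on `k` and `C4`) with crossing probability `≥ p`.  The users `circ_prp`, `no_circp`,
`no_circ_whitep`, `cbp`, `tbp`, `rb_hcp`, `rb_vcp`, `multip` are the old statements with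
`exp (- C (1 + C4))` replaced by `p`.
-/
namespace Crest.Agent.R143.RBpx838
end Crest.Agent.R143.RBpx838
end

-- ▼ part R143/RBm_838

/-!
# Row 143: rectangle crossings with the mesh bound at all scales (helper838)

`MeshA S z0 R c b C` : `Mesh` at all scales `b' ∈ [c b, b]`;
`RBm` : for every aspect ratio `k` and every mesh constant `C4` there are `p, c1, c2, K > 0` with
crossing probability `≥ p` as soon as `MeshA .. c2 b C4`.  Users `circ_prm`, `no_circm`,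
`no_circ_whitem`, `cbm`, `tbm`, `rb_hcm`, `rb_vcm`, `multim`.
-/

set_option autoImplicit false

noncomputable section

open scoped Classical

namespace Crest.Agent.R143.RBmx838

open Crest.Agent.R143.B0x346 Crest.Agent.R143.DelGx806 Crest.Agent.R143.DelRx806
open Crest.Agent.R143.ToolWx838 Crest.Agent.R143.Blkx838 Crest.Agent.R143.ToolW2x838
open Crest.Agent.R143.ToolW3x838 Crest.Agent.R143.Circ4x838 Crest.Agent.R143.Harx315
open Crest.Agent.R143.RB0x838 Crest.Agent.R143.CircPx838 Crest.Agent.R143.Gatex838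
open Crest.Agent.R143.CBx838 Crest.Agent.R143.Multix838 Crest.Agent.R143.RBpx838

variable {S V : Finset ℂ} {z0 e : ℂ} {a b r : ℝ}

/-- mesh bound at all scales between `c b` and `b` -/
def MeshA (S : Finset ℂ) (z0 : ℂ) (R c b C : ℝ) : Prop :=
  ∀ b' : ℝ, c * b ≤ b' → b' ≤ b → Mesh S z0 R b' C

theorem MeshA.shift {z1 : ℂ} {R R' c C : ℝ} (h : MeshA S z0 R c b C)
    (h1 : ‖z1 - z0‖ + R' ≤ R) : MeshA S z1 R' c b C :=
  fun b' h2 h3 => mesh_shift (h b' h2 h3) h1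

/-- restriction of the range of scales -/
theorem MeshA.sub {R c c' b' C : ℝ} (h : MeshA S z0 R c b C) (h1 : c * b ≤ c' * b') (h2 : b' ≤ b) :
    MeshA S z0 R c' b' C := fun x h3 h4 => h x (h1.trans h3) (h4.trans h2)



/-- environment at the scales `[c ρ, ρ]` around `z0` -/
structure NvA (S : Finset ℂ) (z0 : ℂ) (R c ρ d C4 : ℝ) : Prop where
  dns : LDns S z0 R d
  mesh : MeshA S z0 R c ρ C4

/-- **RBm**: crossings of rectangles of bounded aspect ratio, mesh bound at all scales -/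
def RBm : Prop := ∀ k : ℝ, 1 ≤ k → ∀ C4 : ℝ, 0 ≤ C4 →
  ∃ p c1 c2 K : ℝ, 0 < p ∧ 0 < c1 ∧ 0 < c2 ∧ c2 ≤ 1 ∧ 0 < K ∧
  ∀ (S : Finset ℂ) (z0 e : ℂ) (a b d : ℝ), ‖e‖ = 1 → 0 < a → 0 < b → a ≤ k * b → b ≤ k * a →
    LDns S z0 (K * (a + b)) d → MeshA S z0 (K * (a + b)) c2 b C4 → d ≤ c1 * b →
    ∃ V : Finset ℂ, V ⊆ S ∧ p ≤ pr V (fun β => ∃ l, Cross S z0 e a b β l)



/-- circuits -/
theorem circ_prm (hRB : RBm) : ∀ C4 : ℝ, 0 ≤ C4 → ∃ p c1 c2 K : ℝ, 0 < p ∧ 0 < c1 ∧ 0 < c2 ∧ c2 ≤ 1 ∧ 0 < K ∧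
    ∀ (S : Finset ℂ) (z0 : ℂ) (r d : ℝ), 0 < r → LDns S z0 (K * r) d →
    MeshA S z0 (K * r) c2 r C4 → d ≤ c1 * r →
    ∀ V : Finset ℂ, V ⊆ S → (∀ s ∈ S, r < sup (s - z0) → sup (s - z0) < 2 * r → s ∈ V) →
    p ≤ pr V (fun β => ∃ c, CircC S z0 r β c) := by
  intro C4 hC4
  obtain ⟨p, c1, c2, K, hp, hc1, hc2, hc2', hK, h⟩ := hRB 6 (by norm_num) C4 hC4
  refine ⟨p ^ 4, c1 / 4, c2 / 4, 7 / 4 * K + 5 / 4, by positivity, by positivity, by positivity,
    by linarith, by positivity, ?_⟩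
  intro S z0 r d hr hD hM hd V hV hann
  have hk : ∀ k, p ≤ pr V (fun β => CE S z0 r k β) := by
    intro k
    have hsh : ‖zc z0 r k - z0‖ + K * (3 / 2 * r + 1 / 4 * r) ≤ (7 / 4 * K + 5 / 4) * r := by
      rw [norm_zc hr]; nlinarith
    have hM' : MeshA S (zc z0 r k) (K * (3 / 2 * r + 1 / 4 * r)) c2 (1 / 4 * r) C4 :=
      (hM.shift hsh).sub (by linarith) (by linarith)
    obtain ⟨V0, hV0, h0⟩ := h S (zc z0 r k) (dir k) (3 / 2 * r) (1 / 4 * r) d (norm_dir k)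
      (by positivity) (by positivity) (by linarith) (by linarith)
      (LDns.shift hD hsh) hM' (by linarith)
    refine pr_transfer (S := S) hV0 (fun β β' h1 ⟨l, hl⟩ => ⟨l, cross_mono hl h1⟩) ?_ hV h0
    rintro β hβ ⟨l, hl⟩
    have ha := CE.ann hr hl
    exact ⟨l, hl.ne, hl.adj, fun s hs => Finset.mem_inter.2 ⟨hl.col s hs,
      hann s (hβ (hl.col s hs)) (ha s hs).1 (ha s hs).2⟩, hl.strip, hl.loc, hl.left, hl.right⟩
  exact circ_ge hD.gp hr hp.le hk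



/-- crossing of an annulus by one colour, arbitrary free sites -/
theorem cbm (hRB : RBm) : ∀ C4 : ℝ, 0 ≤ C4 → ∃ p c1 c2 K : ℝ, 0 < p ∧ 0 < c1 ∧ 0 < c2 ∧ c2 ≤ 1 ∧ 0 < K ∧
    ∀ (S : Finset ℂ) (z0 : ℂ) (r d : ℝ), 0 < r → LDns S z0 (K * r) d →
    MeshA S z0 (K * r) c2 r C4 → d ≤ c1 * r → ∀ V : Finset ℂ, V ⊆ S →
    pr V (fun β => ∃ l, Arm S z0 r (3 * r) β l) ≤ 1 - p := by
  intro C4 hC4
  obtain ⟨p, c1, c2, K, hp, hc1, hc2, hc2', hK, h⟩ := circ_prm hRB C4 hC4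
  refine ⟨p, c1, c2, K, hp, hc1, hc2, hc2', hK, fun S z0 r d hr hD hM hd V hV => ?_⟩
  refine (pr_le_of_sub hV fun β β' h1 ⟨l, hl⟩ => ⟨l, hl.ne, hl.adj, fun s hs => h1 (hl.col s hs),
    hl.left, hl.right⟩).trans ?_
  have h1 := h S z0 r d hr hD hM hd S subset_rfl (fun s hs _ _ => hs)
  rw [← pr_white] at h1
  have h2 : pr S (fun β => ∃ l, Arm S z0 r (3 * r) β l) ≤
      pr S (fun β => ¬ ∃ c, CircC S z0 r (S \ β) c) := by
    refine pr_mono fun β _ ⟨l, hl⟩ ⟨c, hc⟩ => arm_blocked hD.gp hr ?_ hl hc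
    exact Finset.disjoint_sdiff
  rw [pr_not] at h2
  linarith


/-- rectangles given by their coordinates, horizontal -/
theorem rb_hcm (hRB : RBm) : ∀ k : ℝ, 1 ≤ k → ∀ C4 : ℝ, 0 ≤ C4 →
    ∃ p c1 c2 K : ℝ, 0 < p ∧ 0 < c1 ∧ 0 < c2 ∧ c2 ≤ 1 ∧ 0 < K ∧
    ∀ (S : Finset ℂ) (z0 : ℂ) (ρ d : ℝ), 0 < ρ → NvA S z0 (K * ρ) c2 ρ d C4 → d ≤ c1 * ρ →
    ∀ (e : ℂ) (x0 x1 y0 y1 m : ℝ), ‖e‖ = 1 → |x0| ≤ k * ρ → |x1| ≤ k * ρ → |y0| ≤ k * ρ →
    |y1| ≤ k * ρ → ρ ≤ k * (x1 - x0) → ρ ≤ k * (y1 - y0) → y1 - y0 ≤ 2 * ρ → (y1 - y0) / 2 ≤ m →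
    ∀ V : Finset ℂ, V ⊆ S → (∀ s ∈ S, y0 < Y z0 e s → Y z0 e s < y1 → x0 - m ≤ X z0 e s →
      X z0 e s ≤ x1 + m → s ∈ V) →
    p ≤ pr V (fun β => ∃ l, HC S z0 e x0 x1 y0 y1 m β l) := by
  intro k hk C4 hC4
  obtain ⟨p, c1, c2, K, hp, hc1, hc2, hc2', hK, h⟩ := hRB (2 * k ^ 2) (by nlinarith) C4 hC4
  refine ⟨p, min (c1 / (2 * k)) 1, c2 / (2 * k), 2 * k * K + 2 * k, hp, by positivity,
    by positivity, ?_, by positivity, ?_⟩
  · rw [div_le_one (by positivity)]; linarith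
  intro S z0 ρ d hρ hN hd e x0 x1 y0 y1 m he hx0 hx1 hy0 hy1 hx hy hy2 hm V hV hreg
  have hk0 : 0 < k := by linarith
  have he0 : e ≠ 0 := by rintro rfl; simp at he
  rw [abs_le] at hx0 hx1 hy0 hy1
  have hxx : 0 < x1 - x0 := by
    by_contra hcon; push Not at hcon; nlinarith
  have hyy : 0 < y1 - y0 := by
    by_contra hcon; push Not at hcon; nlinarith
  set a : ℝ := (x1 - x0) / 2 with ha
  set b : ℝ := (y1 - y0) / 2 with hb
  set u : ℝ := (x0 + x1) / 2 with hu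
  set v : ℝ := (y0 + y1) / 2 with hv
  set z1 : ℂ := z0 + e * ((u : ℂ) + (v : ℂ) * Complex.I) with hz1
  have ha0 : 0 < a := by rw [ha]; linarith
  have hb0 : 0 < b := by rw [hb]; linarith
  have hak : a ≤ k * ρ := by rw [ha]; linarith
  have hbk : b ≤ k * ρ := by rw [hb]; linarith
  have hρa : ρ ≤ 2 * k * a := by rw [ha]; linarith
  have hρb : ρ ≤ 2 * k * b := by rw [hb]; linarith
  have hnz : ‖z1 - z0‖ ≤ 2 * k * ρ := by
    rw [hz1, add_sub_cancel_left, norm_mul, he, one_mul]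
    refine (norm_add_le _ _).trans ?_
    rw [norm_mul, Complex.norm_I, mul_one, Complex.norm_real, Complex.norm_real, Real.norm_eq_abs,
      Real.norm_eq_abs]
    have h1 : |u| ≤ k * ρ := by rw [hu, abs_le]; constructor <;> linarith
    have h2 : |v| ≤ k * ρ := by rw [hv, abs_le]; constructor <;> linarith
    linarith
  have hsh : ‖z1 - z0‖ + K * (a + b) ≤ (2 * k * K + 2 * k) * ρ := by nlinarith
  have hM : MeshA S z1 (K * (a + b)) c2 b C4 := by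
    refine (hN.mesh.shift hsh).sub ?_ (by linarith)
    rw [div_mul_eq_mul_div, div_le_iff₀ (by positivity)]
    nlinarith
  have hdb : d ≤ c1 * b := by
    have h1 := hd.trans (mul_le_mul_of_nonneg_right (min_le_left _ _) hρ.le)
    have h2 : c1 / (2 * k) * ρ ≤ c1 * b := by
      rw [div_mul_eq_mul_div, div_le_iff₀ (by positivity)]
      nlinarith
    linarith
  obtain ⟨V0, hV0, h0⟩ := h S z1 e a b d he ha0 hb0 (by nlinarith) (by nlinarith)
    (LDns.shift hN.dns hsh) hM hdb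
  · refine (pr_transfer (S := S) (V := V0) (V' := V) (A := fun β => ∃ l, HC S z0 e x0 x1 y0 y1 m β l)
      hV0 (fun β β' h1 ⟨l, hl⟩ => ⟨l, hl.mono h1⟩) ?_ hV (h0.trans (pr_mono ?_)))
    · rintro β hβ ⟨l, hl⟩
      exact ⟨l, hl.ne, hl.adj, fun s hs => Finset.mem_inter.2 ⟨hl.col s hs,
        hreg s (hβ (hl.col s hs)) (hl.strip s hs).1 (hl.strip s hs).2 (hl.loc s hs).1
        (hl.loc s hs).2⟩, hl.strip, hl.loc, hl.left, hl.right⟩
    · rintro β hβ ⟨l, hl⟩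
      refine ⟨l, hl.ne, hl.adj, hl.col, fun s hs => ?_, fun s hs => ?_, ?_, ?_⟩
      · have h1 := hl.strip s hs
        have h2 := (coord_shift (z0 := z0) he0 u v s).2
        rw [← hz1] at h2
        rw [h2, abs_lt] at h1
        constructor <;> linarith [h1.1, h1.2]
      · have h1 := hl.loc s hs
        have h2 := (coord_shift (z0 := z0) he0 u v s).1
        rw [← hz1] at h2
        rw [h2, abs_le] at h1
        constructor <;> linarith [h1.1, h1.2]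
      · have h1 := hl.left
        have h2 := (coord_shift (z0 := z0) he0 u v (l.head hl.ne)).1
        rw [← hz1] at h2
        rw [h2] at h1
        linarith
      · have h1 := hl.right
        have h2 := (coord_shift (z0 := z0) he0 u v (l.getLast hl.ne)).1
        rw [← hz1] at h2
        rw [h2] at h1
        linarith

/-- rectangles given by their coordinates, vertical -/
theorem rb_vcm (hRB : RBm) : ∀ k : ℝ, 1 ≤ k → ∀ C4 : ℝ, 0 ≤ C4 →
    ∃ p c1 c2 K : ℝ, 0 < p ∧ 0 < c1 ∧ 0 < c2 ∧ c2 ≤ 1 ∧ 0 < K ∧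
    ∀ (S : Finset ℂ) (z0 : ℂ) (ρ d : ℝ), 0 < ρ → NvA S z0 (K * ρ) c2 ρ d C4 → d ≤ c1 * ρ →
    ∀ (e : ℂ) (x0 x1 y0 y1 m : ℝ), ‖e‖ = 1 → |x0| ≤ k * ρ → |x1| ≤ k * ρ → |y0| ≤ k * ρ →
    |y1| ≤ k * ρ → ρ ≤ k * (x1 - x0) → ρ ≤ k * (y1 - y0) → x1 - x0 ≤ 2 * ρ → (x1 - x0) / 2 ≤ m →
    ∀ V : Finset ℂ, V ⊆ S → (∀ s ∈ S, x0 < X z0 e s → X z0 e s < x1 → y0 - m ≤ Y z0 e s →
      Y z0 e s ≤ y1 + m → s ∈ V) →
    p ≤ pr V (fun β => ∃ l, VC S z0 e x0 x1 y0 y1 m β l) := by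
  intro k hk C4 hC4
  obtain ⟨p, c1, c2, K, hp, hc1, hc2, hc2', hK, h⟩ := rb_hcm hRB k hk C4 hC4
  refine ⟨p, c1, c2, K, hp, hc1, hc2, hc2', hK, ?_⟩
  intro S z0 ρ d hρ hN hd e x0 x1 y0 y1 m he hx0 hx1 hy0 hy1 hx hy hx2 hm V hV hreg
  refine (h S z0 ρ d hρ hN hd (e * Complex.I) y0 y1 (-x1) (-x0) m (by simp [he]) hy0 hy1
    (by rwa [abs_neg]) (by rwa [abs_neg]) hy (by linarith) (by linarith) (by linarith) V hV ?_).trans
    (pr_mono fun β _ ⟨l, hl⟩ => ⟨l, vc_of_hc hl⟩)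
  intro s hs h1 h2 h3 h4
  rw [Y_turn] at h1 h2
  rw [X_turn] at h3 h4
  exact hreg s hs (by linarith) (by linarith) h3 h4


end Crest.Agent.R143.RBmx838
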