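import Crest.Agent.R143.D3J_802
import Crest.Agent.R143.RBm_838
import Crest.Agent.R143.MG_501
import Crest.Agent.R143.DicC_831

/-!
# Row 143 (S0194), RIG, box R1h: the environment of the corridor (helper653)

* `mesh_agr` : `Mesh` for ANY finite set of sites which agrees with `P` near the disc
* `Cab`, `mgA` : good environments with an ABSOLUTE mesh constant (independent of the disc, of the
  domain, of the scale of the corridor)
* `nva_good` : `NvA` (= `LDns` and `MeshA`) for any finite `S` in general position which agrees with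
  the sample near `z0`, at every scale `ρ` with `ε log(1/ε)^8 ≤ 2 c2 ρ`, `2 ρ ≤ 1`
* `EnvH`, `env_h` : for fixed `K1 c1 c2 ρ0` this holds at all places and all scales `ρ ∈ [ρ0, 1/2]`
  with probability `≥ 1 - ε ^ A`
-/

set_option autoImplicit false

noncomputable section

open scoped Classical ENNReal

namespace Crest.Agent.R143.EnvHx653

open Set MeasureTheory Filter Topology
open Crest.ProbabilityR.Voronoi
open Crest.Agent.R143.B0x346 Crest.Agent.R143.B0Dx346 Crest.Agent.R143.Oscx63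
open Crest.Agent.R143.DelGx806 Crest.Agent.R143.Circx63 Crest.Agent.R143.Scalx63
open Crest.Agent.R143.EQ2x63 Crest.Agent.R143.Locx922
open Crest.Agent.R143.PP1x831 Crest.Agent.R143.B6Ix903
open Crest.Agent.R143.RB0x838 (LDns Mesh)
open Crest.Agent.R143.RBmx838 (MeshA NvA)

/-! ### any finite set which agrees with the sample -/

variable {P : Set ℂ} {S : Finset ℂ} {z0 : ℂ} {R b d C : ℝ}

/-- the sum of the squares of the longest sides of the triangles meeting a disc -/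
theorem mesh_ball_agr (hd : 0 < d) {W : Set ℂ} (hH : Hol P W d) (hA : Agr P (S : Set ℂ) W (2 * d))
    {x : ℂ} (hC : 0 ≤ C) (hb : 2 * d ≤ b) (hx : Metric.closedBall x b ⊆ W)
    (hM : diamSum P (Metric.ball x (2 * b)) ≤ ENNReal.ofReal (C * (2 * b) ^ 2)) :
    ∑ t ∈ (delT S).filter (fun t => (cT t ∩ Metric.closedBall x b).Nonempty),
      dm t ^ 2 ≤ 16 * C * b ^ 2 := by
  set F := (delT S).filter
    (fun t => (cT t ∩ Metric.closedBall x b).Nonempty) with hF
  set Q : Set (ℂ × ℂ × ℂ) := {t : ℂ × ℂ × ℂ | Del P t.1 t.2.1 t.2.2 ∧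
    ((voronoiCell P t.1 ∪ voronoiCell P t.2.1 ∪
      voronoiCell P t.2.2) ∩ Metric.ball x (2 * b)).Nonempty} with hQ
  have key : ∀ t ∈ F, t ∈ Q ∧
      ENNReal.ofReal (dm t ^ 2) ≤ 4 * (Metric.ediam (voronoiCell P t.1)) ^ 2 := by
    rintro ⟨a, b', c⟩ ht
    rw [hF, Finset.mem_filter] at ht
    obtain ⟨htS, y, hy, hyb⟩ := ht
    obtain ⟨o', hT⟩ := mem_delT_iff.1 htS
    have hyx : ‖y - x‖ ≤ b := by rwa [mem_closedBall_iff_norm] at hyb
    have hyW : y ∈ W := hx hyb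
    have hyT : InT y a b' c := hy
    have hDel : Del P a b' c :=
      (del_local hd hH hA hyW hyT).2 (DelGx806.mem_delT.1 htS)
    obtain ⟨o, h1, h2, h3, h4, h5, ga, gb, gc⟩ := del_small hd hH hyW
      (InT.inD hT.pos hyT) hDel
    constructor
    · refine ⟨hDel, a, Or.inl (Or.inl ?_), ?_⟩
      · intro s hs
        simp
      · rw [mem_ball_iff_norm]
        have := norm_tri a y x
        linarith
    · have hdm : dm (a, b', c) ≤ 2 * ‖a - o‖ := EQ4x63.dm_le le_rfl h1.le h2.le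
      have hdm0 : 0 ≤ dm (a, b', c) := le_max_of_le_right (norm_nonneg _)
      have ha : a ∈ voronoiCell P a := fun s hs => by simp
      have ho : o ∈ voronoiCell P a := by
        intro s hs
        rw [norm_sub_rev o a, norm_sub_rev o s]
        exact h3 s hs
      have h6 : ENNReal.ofReal ‖a - o‖ ≤ Metric.ediam (voronoiCell P a) := by
        have := Metric.edist_le_ediam_of_mem ha ho
        rwa [edist_dist, dist_eq_norm] at this
      calc ENNReal.ofReal (dm (a, b', c) ^ 2) ≤ ENNReal.ofReal (4 * ‖a - o‖ ^ 2) := by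
            apply ENNReal.ofReal_le_ofReal
            nlinarith [norm_nonneg (a - o)]
        _ = 4 * (ENNReal.ofReal ‖a - o‖) ^ 2 := by
            rw [ENNReal.ofReal_mul (by norm_num), ENNReal.ofReal_pow (norm_nonneg _)]
            norm_num
        _ ≤ 4 * (Metric.ediam (voronoiCell P a)) ^ 2 := by gcongr
  have hsum : ∑ t ∈ F, ENNReal.ofReal (dm t ^ 2) ≤
      4 * diamSum P (Metric.ball x (2 * b)) := by
    have e1 : diamSum P (Metric.ball x (2 * b)) =
        ∑' t : ℂ × ℂ × ℂ, Q.indicator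
          (fun t => (Metric.ediam (voronoiCell P t.1)) ^ 2) t := by
      rw [← tsum_subtype]
      rfl
    rw [e1]
    calc ∑ t ∈ F, ENNReal.ofReal (dm t ^ 2)
        ≤ ∑ t ∈ F, 4 * Q.indicator
          (fun t => (Metric.ediam (voronoiCell P t.1)) ^ 2) t := by
          apply Finset.sum_le_sum
          intro t ht
          rw [Set.indicator_of_mem (key t ht).1]
          exact (key t ht).2
      _ = 4 * ∑ t ∈ F, Q.indicator
          (fun t => (Metric.ediam (voronoiCell P t.1)) ^ 2) t := by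
          rw [Finset.mul_sum]
      _ ≤ _ := by
          gcongr
          exact ENNReal.sum_le_tsum _
  have h7 : ENNReal.ofReal (∑ t ∈ F, dm t ^ 2) ≤ ENNReal.ofReal (16 * C * b ^ 2) := by
    rw [ENNReal.ofReal_sum_of_nonneg fun t _ => sq_nonneg _]
    refine hsum.trans ((mul_le_mul_right hM 4).trans (le_of_eq ?_))
    have e2 : (4 : ℝ≥0∞) = ENNReal.ofReal 4 := by norm_num
    rw [e2, ← ENNReal.ofReal_mul (by norm_num)]
    congr 1
    ring
  exact (ENNReal.ofReal_le_ofReal_iff (by positivity)).1 h7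

/-- **`Mesh` for any finite set of sites which agrees with `P` near the disc** -/
theorem mesh_agr (hd : 0 < d) (hH : Hol P (Metric.closedBall z0 (R + b)) d)
    (hA : Agr P (S : Set ℂ) (Metric.closedBall z0 (R + b)) (2 * d)) (hC : 0 ≤ C) (hb : 2 * d ≤ b)
    (hM : ∀ z : ℂ, ‖z - z0‖ ≤ R → diamSum P (Metric.ball z (2 * b)) ≤
      ENNReal.ofReal (C * (2 * b) ^ 2)) :
    Mesh S z0 R b (16 * C) := by
  intro z hz
  refine mesh_ball_agr hd hH hA hC hb ?_ (hM z hz)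
  intro y hy
  rw [mem_closedBall_iff_norm] at hy ⊢
  have := norm_tri y z z0
  linarith

/-- `LDns` for any finite set of sites which agrees with `P` near the disc -/
theorem ldns_agr (hd : 0 < d) (hgp : GP (S : Set ℂ)) (hH : Hol P (Metric.closedBall z0 R) d)
    (hA : Agr P (S : Set ℂ) (Metric.closedBall z0 R) (2 * d)) : LDns S z0 R d := by
  refine ⟨hgp, hd, fun z hz => ?_⟩
  obtain ⟨s, hs, hsz⟩ := (hH.agr hA) z (mem_closedBall_iff_norm.2 hz) z
    (by rw [sub_self, norm_zero]; exact hd.le)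
  exact ⟨s, hs, hsz⟩

/-! ### absolute constants -/

/-- absolute constant of M4 -/
def Ca0 : ℝ := 400 * (2 * PoisM4x501.m0 + 1)

theorem Ca0_pos : 0 < Ca0 := by
  unfold Ca0
  have := PoisM4x501.m0_nonneg
  linarith

/-- **the absolute mesh constant** -/
def Cab : ℝ := 16 * Ca0

theorem Cab_pos : 0 < Cab := by
  unfold Cab
  have := Ca0_pos
  linarith


/-- M4 with the absolute constant -/
theorem m4a (R A : ℝ) : ∀ᶠ ε : ℝ in 𝓝[>] 0,
    sampleLaw {ω | ¬ ∀ z ∈ Metric.closedBall (0 : ℂ) R, ∀ ρ : ℝ,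
      ε * Real.log (1 / ε) ^ (8 : ℝ) ≤ ρ → ρ ≤ 1 →
        diamSum (points ε ω) (Metric.ball z ρ) ≤ ENNReal.ofReal (Ca0 * ρ ^ 2)} ≤
          ENNReal.ofReal (ε ^ A) := by
  set A' := max A 1 with hA'
  have hA1 : 1 ≤ A' := le_max_right _ _
  have hlt := PoisM4x501.tendsto_logInv
  have f1 : ∀ᶠ ε : ℝ in 𝓝[>] 0, 0 < ε := eventually_mem_nhdsWithin
  have f2 : ∀ᶠ ε : ℝ in 𝓝[>] 0, ε ≤ 1 :=
    nhdsWithin_le_nhds ((eventually_lt_nhds (by norm_num : (0 : ℝ) < 1)).mono fun _ h => h.le)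
  have f3 := hlt.eventually_ge_atTop (18 * (A' + 3))
  have f4 := hlt.eventually_ge_atTop ((A' + 4) * ((39 * (A' + 3)) ^ 2 * ((3 * (A' + 3)) ^ 2 *
      ((39 * (A' + 3)) ^ 2 * (2 * (A' + 3))) ^ 3)))
  have f5 := hlt.eventually_ge_atTop (56 * (A' + 3) + 20)
  have f6 : ∀ᶠ ε : ℝ in 𝓝[>] 0, ε < ((2 * |R| + 9) ^ 2 +
      (2 * |R| + 9) ^ 2 * Real.exp (Real.exp 1 - 1) + (2 * |R| + 9) ^ 3)⁻¹ :=
    nhdsWithin_le_nhds (eventually_lt_nhds (by positivity))
  filter_upwards [f1, f2, f3, f4, f5, f6] with ε h0 h1 h2 h3 h4 h5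
  have hl1 : 1 ≤ Real.log (1 / ε) := by linarith
  have hfix := PoisM4x501.fixed (R := R) hA1 h0 h1 h2 (h3.trans (by nlinarith)) (by
    have h6 : 1 / ε = Real.exp (Real.log (1 / ε)) := (Real.exp_log (by positivity)).symm
    have h7 := Real.quadratic_le_exp_of_nonneg (x := Real.log (1 / ε)) (by linarith)
    rw [h6]
    rw [Real.log_exp]
    nlinarith) (by
    rw [← le_div_iff₀ (by positivity), one_div]
    exact h5.le)
  refine le_trans (le_trans (le_of_eq ?_) hfix) ?_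
  · congr 1
    ext ω
    simp only [mem_ofPred_eq]
    have h8 : Real.log (1 / ε) ^ (8 : ℝ) = Real.log (1 / ε) ^ (8 : ℕ) := by
      rw [← Real.rpow_natCast]
      norm_num
    rw [h8]
    rfl
  · exact ENNReal.ofReal_le_ofReal
      (Real.rpow_le_rpow_of_exponent_ge h0 h1 (le_max_left _ _))

/-- **good environments with the absolute constants `a = 8`, `C4 = Ca0`** -/
theorem mgA (R A : ℝ) : ∃ C K : ℝ, 0 < C ∧ 0 < K ∧
    MP R A C K 8 Ca0 := by
  obtain ⟨C, hC, h3c⟩ := PoisM3cx501.m3c R (A + 1)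
  obtain ⟨K, hK, h3d⟩ := PoisM3cx501.m3d R (A + 1) (2 * C)
  have h4 := m4a R (A + 1)
  refine ⟨C, K, hC, hK, ?_⟩
  have f1 : ∀ᶠ ε : ℝ in 𝓝[>] 0, 0 < ε := eventually_mem_nhdsWithin
  have f3 := PoisM4x501.tendsto_logInv.eventually_ge_atTop 1
  unfold MP
  filter_upwards [f1, PoisM3cx501.ev_small (1 / 3) (by norm_num), f3, h3c, h3d, h4] with
    ε h0 h1 h2 g1 g2 g3
  have hlog : 0 < Real.log (1 / ε) := by linarith
  have hrad : 0 < rad C ε := by unfold rad; positivity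
  have hrad2 : rad (2 * C) ε = 2 * rad C ε := by unfold rad; ring
  have h3a : sampleLaw {ω | ¬ (GP (points ε ω) ∧
      ∀ r : ℝ, (points ε ω ∩ Metric.closedBall 0 r).Finite)} = 0 := by
    have h := PoisM3x930.m3a ε h0
    have h' : ∀ᵐ ω ∂sampleLaw, GP (points ε ω) ∧
        ∀ r : ℝ, (points ε ω ∩ Metric.closedBall 0 r).Finite := by
      filter_upwards [h] with ω hω
      exact ⟨hω.1, hω.2.2⟩
    exact ae_iff.1 h'
  have hsub : {ω : Sample | ¬ GoodB R ε C K 8 Ca0 ω} ⊆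
      ({ω | ¬ (GP (points ε ω) ∧ ∀ r : ℝ, (points ε ω ∩ Metric.closedBall 0 r).Finite)} ∪
      {ω | ∃ z ∈ Metric.closedBall (0 : ℂ) R, points ε ω ∩ Metric.ball z (rad C ε) = ∅}) ∪
      ({ω | ¬ ∀ z ∈ Metric.closedBall (0 : ℂ) R,
        (points ε ω ∩ Metric.ball z (rad (2 * C) ε)).encard ≤
          ((⌊K * Real.log (1 / ε)⌋₊ : ℕ) : ℕ∞)} ∪
      {ω | ¬ ∀ z ∈ Metric.closedBall (0 : ℂ) R, ∀ ρ : ℝ,
        ε * Real.log (1 / ε) ^ (8 : ℝ) ≤ ρ → ρ ≤ 1 →
        diamSum (points ε ω) (Metric.ball z ρ) ≤ ENNReal.ofReal (Ca0 * ρ ^ 2)}) := by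
    intro ω hω
    by_contra hc
    simp only [mem_union, not_or, Set.mem_ofPred_eq, not_not] at hc
    obtain ⟨⟨⟨c1, c2⟩, c3⟩, c4, c5⟩ := hc
    apply hω
    refine ⟨⟨c2 R, c1, ?_, ?_⟩, c5⟩
    · intro z hz
      rw [nonempty_iff_ne_empty]
      intro hempty
      apply c3
      refine ⟨z, ?_, hempty⟩
      rw [Metric.mem_closedBall] at hz ⊢
      linarith
    · intro z hz
      have hle := c4 z hz
      have hsub2 : points ε ω ∩ Metric.closedBall z (rad C ε) ⊆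
          points ε ω ∩ Metric.ball z (rad (2 * C) ε) := by
        refine inter_subset_inter_right _ (Metric.closedBall_subset_ball ?_)
        rw [hrad2]; linarith
      have hle2 : (points ε ω ∩ Metric.closedBall z (rad C ε)).encard ≤
          ((⌊K * Real.log (1 / ε)⌋₊ : ℕ) : ℕ∞) := (encard_le_encard hsub2).trans hle
      have hle3 : (points ε ω ∩ Metric.closedBall z (rad C ε)).ncard ≤
          ⌊K * Real.log (1 / ε)⌋₊ := ENat.toNat_le_of_le_natCast hle2
      calc ((points ε ω ∩ Metric.closedBall z (rad C ε)).ncard : ℝ)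
          ≤ (⌊K * Real.log (1 / ε)⌋₊ : ℝ) := by exact_mod_cast hle3
        _ ≤ K * Real.log (1 / ε) := Nat.floor_le (by positivity)
  have hE : 0 ≤ ε ^ (A + 1) := (Real.rpow_pos_of_pos h0 _).le
  calc sampleLaw {ω : Sample | ¬ GoodB R ε C K 8 Ca0 ω}
      ≤ (sampleLaw {ω | ¬ (GP (points ε ω) ∧
          ∀ r : ℝ, (points ε ω ∩ Metric.closedBall 0 r).Finite)} +
        sampleLaw {ω | ∃ z ∈ Metric.closedBall (0 : ℂ) R,
          points ε ω ∩ Metric.ball z (rad C ε) = ∅}) +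
        (sampleLaw {ω | ¬ ∀ z ∈ Metric.closedBall (0 : ℂ) R,
          (points ε ω ∩ Metric.ball z (rad (2 * C) ε)).encard ≤
            ((⌊K * Real.log (1 / ε)⌋₊ : ℕ) : ℕ∞)} +
        sampleLaw {ω | ¬ ∀ z ∈ Metric.closedBall (0 : ℂ) R, ∀ ρ : ℝ,
          ε * Real.log (1 / ε) ^ (8 : ℝ) ≤ ρ → ρ ≤ 1 →
          diamSum (points ε ω) (Metric.ball z ρ) ≤ ENNReal.ofReal (Ca0 * ρ ^ 2)}) :=
        (measure_mono hsub).trans ((measure_union_le _ _).trans
          (add_le_add (measure_union_le _ _) (measure_union_le _ _)))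
    _ ≤ (0 + ENNReal.ofReal (ε ^ (A + 1))) +
        (ENNReal.ofReal (ε ^ (A + 1)) + ENNReal.ofReal (ε ^ (A + 1))) := by
        gcongr
        exact h3a.le
    _ = ENNReal.ofReal (3 * ε ^ (A + 1)) := by
        rw [zero_add, ← ENNReal.ofReal_add hE hE, ← ENNReal.ofReal_add hE (by positivity)]
        congr 1
        ring
    _ ≤ ENNReal.ofReal (ε ^ A) := by
        apply ENNReal.ofReal_le_ofReal
        rw [Real.rpow_add h0, Real.rpow_one]
        have : 0 < ε ^ A := Real.rpow_pos_of_pos h0 _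
        nlinarith

/-! ### `NvA` in a good environment -/



/-- **`NvA` for any finite set of sites which agrees with a good sample near `z0`** -/
theorem nva_good {R0 ε C' K K1 c2 ρ : ℝ} {ω : Sample} (hG : GoodB R0 ε C' K 8 Ca0 ω)
    (hd : 0 < rad C' ε) (hgp : GP (S : Set ℂ)) (hK1 : 0 ≤ K1) (hc2 : 0 < c2) (hρ : 0 < ρ)
    (h1 : ε * Real.log (1 / ε) ^ (8 : ℝ) ≤ 2 * (c2 * ρ)) (h2 : 2 * ρ ≤ 1)
    (h3 : 2 * rad C' ε ≤ c2 * ρ) (h4 : ‖z0‖ + (K1 + 1) * ρ + 2 * rad C' ε ≤ R0)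
    (hA : ∀ s : ℂ, ‖s - z0‖ ≤ (K1 + 1) * ρ + 2 * rad C' ε → (s ∈ points ε ω ↔ s ∈ S)) :
    NvA S z0 (K1 * ρ) c2 ρ (rad C' ε) Cab := by
  have hK0 : 0 ≤ K1 * ρ := by positivity
  have hol : ∀ b : ℝ, b ≤ ρ → Hol (points ε ω) (Metric.closedBall z0 (K1 * ρ + b)) (rad C' ε) := by
    intro b hb
    refine (Env.hol hG.env).mono ?_
    intro w hw
    rw [mem_closedBall_iff_norm] at hw
    rw [mem_closedBall_zero_iff]
    have := norm_add_le (w - z0) z0
    rw [sub_add_cancel] at this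
    nlinarith
  have agr : ∀ b : ℝ, b ≤ ρ →
      Agr (points ε ω) (S : Set ℂ) (Metric.closedBall z0 (K1 * ρ + b)) (2 * rad C' ε) := by
    intro b hb w hw s hs
    rw [mem_closedBall_iff_norm] at hw
    rw [Finset.mem_coe]
    refine hA s ?_
    have := norm_tri s w z0
    nlinarith
  refine ⟨?_, fun b h5 h6 => ?_⟩
  · have e1 := hol 0 hρ.le
    have e2 := agr 0 hρ.le
    rw [add_zero] at e1 e2
    exact ldns_agr hd hgp e1 e2
  · have hb : 0 < b := lt_of_lt_of_le (by positivity) h5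
    refine mesh_agr hd (hol b h6) (agr b h6) Ca0_pos.le (h3.trans h5) fun z hz => ?_
    refine hG.diam z ?_ (2 * b) (by linarith) (by linarith)
    rw [mem_closedBall_zero_iff]
    have := norm_add_le (z - z0) z0
    rw [sub_add_cancel] at this
    nlinarith [hd]

/-! ### the environment of the corridor -/

/-- environment at all the places of the disc of radius `R0` and at all the scales in `[ρ0, 1/2]`,
for all finite sets of sites which agree with the sample near the place -/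
def EnvH (R0 ε d K1 c2 ρ0 : ℝ) (ω : Sample) : Prop :=
  ∀ (S : Finset ℂ) (z0 : ℂ) (ρ : ℝ), GP (S : Set ℂ) → ρ0 ≤ ρ → 2 * ρ ≤ 1 →
    ‖z0‖ + (K1 + 1) * ρ + 2 * d ≤ R0 →
    (∀ s : ℂ, ‖s - z0‖ ≤ (K1 + 1) * ρ + 2 * d → (s ∈ points ε ω ↔ s ∈ S)) →
    NvA S z0 (K1 * ρ) c2 ρ d Cab

theorem log8_small : Tendsto (fun ε : ℝ => ε * Real.log (1 / ε) ^ (8 : ℝ)) (𝓝[>] 0) (𝓝 0) := by
  exact DicCx831.log_small 8

/-- **the environment of the corridor** -/
theorem env_h (R0 A : ℝ) : ∃ C : ℝ, 0 < C ∧ ∀ K1 c1 c2 ρ0 : ℝ, 0 ≤ K1 → 0 < c1 → 0 < c2 → 0 < ρ0 →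
    ∀ᶠ ε : ℝ in 𝓝[>] 0, (0 < rad C ε ∧ rad C ε ≤ c1 * ρ0) ∧
      sampleLaw {ω | ¬ EnvH R0 ε (rad C ε) K1 c2 ρ0 ω} ≤ ENNReal.ofReal (ε ^ A) := by
  obtain ⟨C, K, hC, hK, hMP⟩ := mgA R0 A
  refine ⟨C, hC, fun K1 c1 c2 ρ0 hK1 hc1 hc2 hρ0 => ?_⟩
  unfold MP at hMP
  have f1 : ∀ᶠ ε : ℝ in 𝓝[>] 0, rad C ε < min (c1 * ρ0) (c2 * ρ0 / 2) :=
    (DicCx831.rad_small C).eventually_lt_const (by positivity)
  have f2 : ∀ᶠ ε : ℝ in 𝓝[>] 0, ε * Real.log (1 / ε) ^ (8 : ℝ) < 2 * (c2 * ρ0) :=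
    log8_small.eventually_lt_const (by positivity)
  have f3 : ∀ᶠ ε : ℝ in 𝓝[>] 0, 0 < ε := eventually_mem_nhdsWithin
  have f4 := PoisM4x501.tendsto_logInv.eventually_ge_atTop 1
  filter_upwards [hMP, f1, f2, f3, f4] with ε h1 h2 h3 h4 h5
  have hrad : 0 < rad C ε := by
    have hlog : 0 < Real.log (1 / ε) := by linarith
    unfold rad
    positivity
  have h2a := h2.trans_le (min_le_left _ _)
  have h2b := h2.trans_le (min_le_right _ _)
  refine ⟨⟨hrad, h2a.le⟩, (measure_mono ?_).trans h1⟩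
  intro ω hω hG
  refine hω fun S z0 ρ g1 g2 g3 g4 g5 => ?_
  have hρ : 0 < ρ := hρ0.trans_le g2
  have e1 : c2 * ρ0 ≤ c2 * ρ := mul_le_mul_of_nonneg_left g2 hc2.le
  exact nva_good hG hrad g1 hK1 hc2 hρ (by linarith) g3 (by linarith) g4 g5

end Crest.Agent.R143.EnvHx653
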