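import Crest.Agent.R143.X0C_683
import Crest.Agent.R143.JWalk_872

/-!
# Row 143 (S0194), block X: leaf INDEP (helper583)

* `bd_join`, `flip_join`, `at_join` : flips of interior sites / change of the face keep joins
* `exit_tip` : a walk which starts with both sites outside `W` and does not end so has a tip
* `Tips_congr` : `Tips` only looks at the edges with both sites outside `W`
* `dep_HO`, `dep_HI` : the outer (inner) legs look at the sites outside (inside)
* `ex_out` : the marks are outside the disc
* `indep : INDEP`
-/

set_option autoImplicit false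

noncomputable section

open scoped Classical

namespace Crest.Agent.R143.Indepx583

open Crest.Agent.R143.B0x346 Crest.Agent.R143.DelGx806 Crest.Agent.R143.DelRx806
open Crest.Agent.R143.ToolWx838 Crest.Agent.R143.Blkx838 Crest.Agent.R143.Harx315
open Crest.Agent.R143.RB0x838 Crest.Agent.R143.Planarx54
open Crest.Agent.R143.X0Bx683 Crest.Agent.R143.X0Cx683
open Crest.Agent.R143.JCardx872 Crest.Agent.R143.JWalkx872

variable {S : Finset ℂ} {N : Net ℂ} {z0 : ℂ} {R R1 d b0 C4 r : ℝ}

/-! ### joins after a flip -/











/-! ### walks and sets -/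

section walk

variable {G : Trg ℂ} {O O' : Set (ℂ × ℂ × ℂ)} {D : Set (ℂ × ℂ)} {J J' : Finset (ℂ × ℂ)} {W : Set ℂ}

theorem leadsO_out {p q : ℂ × ℂ} (h : LeadsO G O D J W p q) : OutP W q := by
  obtain ⟨h0, h⟩ := h
  rcases Relation.ReflTransGen.cases_tail h with h | ⟨m, _, hm⟩
  · exact h ▸ h0
  · exact hm.2

theorem leadsO_leads {p q : ℂ × ℂ} (h : LeadsO G O D J W p q) : Leads G O D J p q := by
  obtain ⟨_, h⟩ := h
  induction h with
  | refl => exact Relation.ReflTransGen.refl
  | tail _ h2 ih => exact ih.tail h2.1









end walk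

/-! ### dependence on the colours -/







/-! ### three legs to the marks reach both radii -/

theorem Tri3.occ {t : ℂ × ℂ × ℂ} {k : ZMod 3} {J : Finset (ℂ × ℂ)} (h : N.Tri3 t k J)
    (i : ZMod 3) : (vt t i, vt t (i + 1)) ∈ J := by
  obtain ⟨h1, h2, h3, _⟩ := h
  rcases z3 i with rfl | rfl | rfl
  · exact h1
  · exact h2
  · exact h3






end Crest.Agent.R143.Indepx583
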