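import Crest.Agent.R143.CircP_838

/-!
# Row 143, block X, leaf V+ (one gate), part A (helper838)

* `X z0 e s`, `Y z0 e s` : coordinates with origin `z0` and first axis `e`
* `cross_e` : a horizontal and a vertical chain of a rectangle (any direction `e`) share a site
* `HC`, `VC` : horizontal / vertical crossing of a rectangle by a chain of sites of `β`
* `rb_hc`, `rb_vc` : probabilities from `RB`
* `Cl`, `JC`, `jc_stop` : exploration of a cluster is a stopping set
* `last_split` : last explored site of a chain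
-/

set_option autoImplicit false

noncomputable section

open scoped Classical

namespace Crest.Agent.R143.Gatex838

open Crest.Agent.R143.B0x346 Crest.Agent.R143.DelGx806 Crest.Agent.R143.DelRx806
open Crest.Agent.R143.ToolWx838 Crest.Agent.R143.Blkx838 Crest.Agent.R143.ToolW2x838
open Crest.Agent.R143.ToolW3x838 Crest.Agent.R143.Circ4x838 Crest.Agent.R143.Harx315
open Crest.Agent.R143.RB0x838 Crest.Agent.R143.CircPx838

variable {S V : Finset ℂ} {z0 e : ℂ}

/-- first coordinate -/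
def X (z0 e s : ℂ) : ℝ := ((s - z0) / e).re

/-- second coordinate -/
def Y (z0 e s : ℂ) : ℝ := ((s - z0) / e).im

theorem prs_map (f : ℂ → ℂ) (l : List ℂ) : prs (l.map f) = (prs l).map fun p => (f p.1, f p.2) := by
  induction l with
  | nil => rfl
  | cons a l ih =>
    cases l with
    | nil => rfl
    | cons b l =>
      change (f a, f b) :: prs ((b :: l).map f) = (f a, f b) :: (prs (b :: l)).map _
      rw [ih]

/-- a horizontal and a vertical chain of a rectangle share a site, any direction -/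
theorem cross_e (hS : GP (S : Set ℂ)) (he : e ≠ 0) {P Q : List ℂ} (hP : P ≠ []) (hQ : Q ≠ [])
    (dP : ∀ p ∈ prs P, DE S p.1 p.2) (dQ : ∀ p ∈ prs Q, DE S p.1 p.2) {x0 x1 y0 y1 : ℝ}
    (hPy : ∀ a ∈ P, y0 < Y z0 e a ∧ Y z0 e a < y1) (hQx : ∀ a ∈ Q, x0 < X z0 e a ∧ X z0 e a < x1)
    (hP0 : X z0 e (P.head hP) ≤ x0) (hP1 : x1 ≤ X z0 e (P.getLast hP))
    (hQ0 : Y z0 e (Q.head hQ) ≤ y0) (hQ1 : y1 ≤ Y z0 e (Q.getLast hQ)) : ∃ s, s ∈ P ∧ s ∈ Q := by
  set f : ℂ → ℂ := fun s => (s - z0) / e with hf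
  have hP' : P.map f ≠ [] := by simpa using hP
  have hQ' : Q.map f ≠ [] := by simpa using hQ
  obtain ⟨p, hp, r, hr, z, hz1, hz2⟩ := cross_rect (P := P.map f) (Q := Q.map f) hP' hQ'
    (x0 := x0) (x1 := x1) (y0 := y0) (y1 := y1)
    (by
      intro a ha
      rw [List.mem_map] at ha
      obtain ⟨b, hb, rfl⟩ := ha
      exact hPy b hb)
    (by
      intro a ha
      rw [List.mem_map] at ha
      obtain ⟨b, hb, rfl⟩ := ha
      exact hQx b hb)
    (by rw [List.head_map]; exact hP0) (by rw [List.getLast_map]; exact hP1)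
    (by rw [List.head_map]; exact hQ0) (by rw [List.getLast_map]; exact hQ1)
  rw [prs_map, List.mem_map] at hp hr
  obtain ⟨p', hp', rfl⟩ := hp
  obtain ⟨r', hr', rfl⟩ := hr
  have back : ∀ a b : ℂ, z ∈ segment ℝ (f a) (f b) → z0 + e * z ∈ segment ℝ a b := by
    intro a b h
    obtain ⟨s, t, hs, ht, hst, rfl⟩ := h
    refine ⟨s, t, hs, ht, hst, ?_⟩
    have h1 : s = 1 - t := by linarith
    subst h1
    simp only [hf, Complex.real_smul]
    push_cast
    field_simp
    ring
  exact common_site hS dP dQ ⟨p', hp', r', hr', z0 + e * z, back _ _ hz1, back _ _ hz2⟩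

/-- horizontal crossing -/
structure HC (S : Finset ℂ) (z0 e : ℂ) (x0 x1 y0 y1 m : ℝ) (β : Finset ℂ) (l : List ℂ) : Prop where
  ne : l ≠ []
  adj : ∀ p ∈ prs l, DE S p.1 p.2
  col : ∀ s ∈ l, s ∈ β
  strip : ∀ s ∈ l, y0 < Y z0 e s ∧ Y z0 e s < y1
  loc : ∀ s ∈ l, x0 - m ≤ X z0 e s ∧ X z0 e s ≤ x1 + m
  left : X z0 e (l.head ne) ≤ x0
  right : x1 ≤ X z0 e (l.getLast ne)

/-- vertical crossing -/
structure VC (S : Finset ℂ) (z0 e : ℂ) (x0 x1 y0 y1 m : ℝ) (β : Finset ℂ) (l : List ℂ) : Prop where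
  ne : l ≠ []
  adj : ∀ p ∈ prs l, DE S p.1 p.2
  col : ∀ s ∈ l, s ∈ β
  strip : ∀ s ∈ l, x0 < X z0 e s ∧ X z0 e s < x1
  loc : ∀ s ∈ l, y0 - m ≤ Y z0 e s ∧ Y z0 e s ≤ y1 + m
  left : Y z0 e (l.head ne) ≤ y0
  right : y1 ≤ Y z0 e (l.getLast ne)

theorem HC.meet {β β' : Finset ℂ} {P Q : List ℂ} {x0 x1 y0 y1 x0' x1' y0' y1' m m' : ℝ}
    (hS : GP (S : Set ℂ)) (he : e ≠ 0) (h : HC S z0 e x0 x1 y0 y1 m β P)
    (h' : VC S z0 e x0' x1' y0' y1' m' β' Q) (h1 : x0 ≤ x0') (h2 : x1' ≤ x1) (h3 : y0' ≤ y0)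
    (h4 : y1 ≤ y1') : ∃ s, s ∈ P ∧ s ∈ Q :=
  cross_e hS he h.ne h'.ne h.adj h'.adj h.strip h'.strip (h.left.trans h1) (h2.trans h.right)
    (h'.left.trans h3) (h4.trans h'.right)

theorem HC.mono {β β' : Finset ℂ} {l : List ℂ} {x0 x1 y0 y1 m : ℝ} (h : HC S z0 e x0 x1 y0 y1 m β l)
    (hβ : β ⊆ β') : HC S z0 e x0 x1 y0 y1 m β' l :=
  ⟨h.ne, h.adj, fun s hs => hβ (h.col s hs), h.strip, h.loc, h.left, h.right⟩

theorem VC.mono {β β' : Finset ℂ} {l : List ℂ} {x0 x1 y0 y1 m : ℝ} (h : VC S z0 e x0 x1 y0 y1 m β l)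
    (hβ : β ⊆ β') : VC S z0 e x0 x1 y0 y1 m β' l :=
  ⟨h.ne, h.adj, fun s hs => hβ (h.col s hs), h.strip, h.loc, h.left, h.right⟩

theorem up_hc (V S : Finset ℂ) (z0 e : ℂ) (x0 x1 y0 y1 m : ℝ) :
    Up V (fun β => ∃ l, HC S z0 e x0 x1 y0 y1 m β l) :=
  fun _ _ h1 _ ⟨l, hl⟩ => ⟨l, hl.mono h1⟩

theorem up_vc (V S : Finset ℂ) (z0 e : ℂ) (x0 x1 y0 y1 m : ℝ) :
    Up V (fun β => ∃ l, VC S z0 e x0 x1 y0 y1 m β l) :=
  fun _ _ h1 _ ⟨l, hl⟩ => ⟨l, hl.mono h1⟩

/-- a vertical crossing is a horizontal crossing in the turned coordinates -/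
theorem X_turn (z0 e s : ℂ) : X z0 (e * Complex.I) s = Y z0 e s := by
  unfold X Y
  rw [← div_div, div_I]
  simp

theorem Y_turn (z0 e s : ℂ) : Y z0 (e * Complex.I) s = -X z0 e s := by
  unfold X Y
  rw [← div_div, div_I]
  simp

theorem vc_of_hc {β : Finset ℂ} {l : List ℂ} {x0 x1 y0 y1 m : ℝ}
    (h : HC S z0 (e * Complex.I) y0 y1 (-x1) (-x0) m β l) : VC S z0 e x0 x1 y0 y1 m β l := by
  refine ⟨h.ne, h.adj, h.col, fun s hs => ?_, fun s hs => ?_, ?_, ?_⟩
  · have := h.strip s hs
    rw [Y_turn] at this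
    constructor <;> linarith [this.1, this.2]
  · have := h.loc s hs
    rw [X_turn] at this
    exact this
  · have := h.left
    rw [X_turn] at this
    exact this
  · have := h.right
    rw [X_turn] at this
    exact this

/-- coordinates of a point around another centre -/
theorem coord_shift (he : e ≠ 0) (u v : ℝ) (s : ℂ) :
    ((s - (z0 + e * ((u : ℂ) + (v : ℂ) * Complex.I))) / e).re = X z0 e s - u ∧
    ((s - (z0 + e * ((u : ℂ) + (v : ℂ) * Complex.I))) / e).im = Y z0 e s - v := by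
  have h : (s - (z0 + e * ((u : ℂ) + (v : ℂ) * Complex.I))) / e =
      (s - z0) / e - ((u : ℂ) + (v : ℂ) * Complex.I) := by
    field_simp
    ring
  rw [h]
  constructor
  · unfold X; simp
  · unfold Y; simp

/-- environment at the scale `ρ` around `z0` -/
structure Nv (S : Finset ℂ) (z0 : ℂ) (R ρ d C4 : ℝ) : Prop where
  dns : LDns S z0 R d
  mesh : Mesh S z0 R ρ C4
  C4 : 0 ≤ C4



/-! ### exploration of a cluster -/

/-- cluster of the seeds `A` in the allowed set `U` (the seeds count as black) -/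
inductive Cl (R : ℂ → ℂ → Prop) (A U β : Finset ℂ) : ℂ → Prop
  | seed {x : ℂ} : x ∈ A → Cl R A U β x
  | step {x y : ℂ} : Cl R A U β x → R x y → y ∈ U → y ∈ β → Cl R A U β y

/-- explored set: `B` (always explored), the seeds, the cluster and its neighbours in `U` -/
def JC (R : ℂ → ℂ → Prop) (A B U V β : Finset ℂ) : Finset ℂ :=
  V.filter fun y => y ∈ B ∨ Cl R A U β y ∨ (y ∈ U ∧ ∃ x, Cl R A U β x ∧ R x y)

variable {R : ℂ → ℂ → Prop} {A B U β β' : Finset ℂ}

theorem mem_JC {y : ℂ} : y ∈ JC R A B U V β ↔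
    y ∈ V ∧ (y ∈ B ∨ Cl R A U β y ∨ (y ∈ U ∧ ∃ x, Cl R A U β x ∧ R x y)) := by
  unfold JC; simp

theorem cl_congr (hU : U ⊆ V) (h : β ∩ JC R A B U V β = β' ∩ JC R A B U V β) (x : ℂ) :
    Cl R A U β x ↔ Cl R A U β' x := by
  constructor
  · intro hx
    induction hx with
    | seed hx => exact Cl.seed hx
    | step hx hr hyU hyβ ih =>
      refine Cl.step ih hr hyU ?_
      have : _ ∈ β ∩ JC R A B U V β := Finset.mem_inter.2 ⟨hyβ, mem_JC.2 ⟨hU hyU,
        Or.inr (Or.inr ⟨hyU, _, hx, hr⟩)⟩⟩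
      rw [h] at this
      exact (Finset.mem_inter.1 this).1
  · intro hx
    induction hx with
    | seed hx => exact Cl.seed hx
    | step hx hr hyU hyβ ih =>
      refine Cl.step ih hr hyU ?_
      have : _ ∈ β' ∩ JC R A B U V β := Finset.mem_inter.2 ⟨hyβ, mem_JC.2 ⟨hU hyU,
        Or.inr (Or.inr ⟨hyU, _, ih, hr⟩)⟩⟩
      rw [← h] at this
      exact (Finset.mem_inter.1 this).1

/-- **the exploration of a cluster is a stopping set** -/
theorem jc_stop (hU : U ⊆ V) : IsStop V (JC R A B U V) where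
  sub β _ := Finset.filter_subset _ _
  stop β β' _ _ h := by
    ext y
    rw [mem_JC, mem_JC]
    have h1 := cl_congr hU h
    simp only [h1]

/-- the last explored site of a chain -/
theorem last_split {P : ℂ → Prop} {l : List ℂ} (hl : l ≠ []) (h1 : P (l.head hl))
    (h2 : ¬ P (l.getLast hl)) : ∃ l1 y y' l2, l = l1 ++ y :: y' :: l2 ∧ P y ∧
      ∀ s ∈ y' :: l2, ¬ P s := by
  induction l with
  | nil => exact absurd rfl hl
  | cons a l ih =>
    cases l with
    | nil => exact absurd h1 h2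
    | cons b l =>
      by_cases hc : ∃ s ∈ b :: l, P s
      · by_cases hb : P b
        · obtain ⟨l1, y, y', l2, e, hy, hn⟩ := ih (by simp) hb (by simpa using h2)
          exact ⟨a :: l1, y, y', l2, by rw [e]; rfl, hy, hn⟩
        · -- `b` is not in `P` but a later one is
          have key : ∀ m : List ℂ, (∃ s ∈ m, P s) → ∀ hm : m ≠ [], ¬ P (m.getLast hm) →
              ∃ l1 y y' l2, m = l1 ++ y :: y' :: l2 ∧ P y ∧ ∀ s ∈ y' :: l2, ¬ P s := by
            intro m
            induction m with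
            | nil => rintro ⟨s, hs, -⟩; simp at hs
            | cons c m ihm =>
              intro hex hm hlast
              by_cases hm2 : ∃ s ∈ m, P s
              · have hm3 : m ≠ [] := by rintro rfl; obtain ⟨s, hs, -⟩ := hm2; simp at hs
                obtain ⟨l1, y, y', l2, e, hy, hn⟩ := ihm hm2 hm3 (by
                  rwa [List.getLast_cons hm3] at hlast)
                exact ⟨c :: l1, y, y', l2, by rw [e]; rfl, hy, hn⟩
              · push Not at hm2
                obtain ⟨s, hs, hPs⟩ := hex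
                have hPc : P c := by
                  rcases List.mem_cons.1 hs with h | h
                  · exact h ▸ hPs
                  · exact absurd hPs (hm2 s h)
                cases m with
                | nil => exact absurd hPc hlast
                | cons c' m' => exact ⟨[], c, c', m', rfl, hPc, hm2⟩
          obtain ⟨l1, y, y', l2, e, hy, hn⟩ := key (b :: l) hc (by simp) (by simpa using h2)
          exact ⟨a :: l1, y, y', l2, by rw [e]; rfl, hy, hn⟩
      · push Not at hc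
        exact ⟨[], a, b, l, rfl, h1, hc⟩

/-- a chain from a seed to a site of the cluster, black and allowed after the seed -/
theorem Cl.chain {x : ℂ} (h : Cl R A U β x) : ∃ a l, a ∈ A ∧ (a :: l).IsChain R ∧
    (a :: l).getLast (by simp) = x ∧ ∀ s ∈ l, s ∈ U ∧ s ∈ β := by
  induction h with
  | seed hx => exact ⟨_, [], hx, by simp, rfl, by simp⟩
  | @step x y hx hr hyU hyβ ih =>
    obtain ⟨a, l, ha, hc, hlast, hl⟩ := ih
    refine ⟨a, l ++ [y], ha, ?_, by simp, ?_⟩
    · have h1 : (a :: l ++ [y]).IsChain R := by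
        rw [List.isChain_append]
        refine ⟨hc, by simp, ?_⟩
        intro u hu v hv
        simp only [List.head?_cons, Option.mem_def, Option.some.injEq] at hv
        subst hv
        rw [List.getLast?_eq_some_getLast (by simp)] at hu
        simp only [Option.mem_def, Option.some.injEq] at hu
        rw [← hu, hlast]
        exact hr
      simpa using h1
    · intro s hs
      rcases List.mem_append.1 hs with hs | hs
      · exact hl s hs
      · rw [List.mem_singleton] at hs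
        subst hs
        exact ⟨hyU, hyβ⟩

end Crest.Agent.R143.Gatex838
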