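import Crest.Agent.R143.Blk_838

-- ▼ part R143/ToolW2_838
section

/-!
# Row 143, block P, Tool W, part 2: jump formula (helper838)

* `tri_in`, `tri_out` : total angle of a triangle
* `jump` : the total angle of a loop jumps by `2π (#(a,b) - #(b,a))` across the edge `(a, b)`
* `jump_hull` : the same for a hull edge
-/

set_option autoImplicit false

noncomputable section

open scoped Classical

namespace Crest.Agent.R143.ToolW2x838

open Crest.Agent.R143.B0x346 Crest.Agent.R143.DelGx806 Crest.Agent.R143.DelRx806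
open Crest.Agent.R143.ToolWx838 Crest.Agent.R143.Blkx838

variable {S : Finset ℂ}

/-! ### triangles -/

theorem ang_pos {x a b : ℂ} (h : 0 < cr (a - x) (b - x)) : 0 < ang x a b ∧ ang x a b < Real.pi := by
  have hne : a - x ≠ 0 := by
    intro h0; rw [h0] at h; simp [cr] at h
  have him : 0 < ((b - x) / (a - x)).im := by
    have e : ((b - x) / (a - x)).im = cr (a - x) (b - x) / Complex.normSq (a - x) := by
      rw [Complex.div_im]; unfold cr; ring
    rw [e]
    exact div_pos h (Complex.normSq_pos.2 hne)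
  unfold ang
  constructor
  · have h1 := Complex.arg_nonneg_iff.2 him.le
    rcases h1.lt_or_eq with h2 | h2
    · exact h2
    · exfalso
      have := Complex.arg_eq_zero_iff.1 h2.symm
      linarith [this.2]
  · have h1 := Complex.arg_le_pi ((b - x) / (a - x))
    rcases h1.lt_or_eq with h2 | h2
    · exact h2
    · exfalso
      have := (Complex.arg_eq_pi_iff.1 h2).2
      linarith

theorem cr_view (x a b : ℂ) : cr (a - x) (b - x) = cr (b - a) (x - a) := by
  unfold cr; simp only [Complex.sub_re, Complex.sub_im]; ring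

theorem tri_in {a b c x : ℂ} (hx : InO x a b c) :
    ang x a b + ang x b c + ang x c a = 2 * Real.pi := by
  obtain ⟨x1, x2, x3⟩ := hx
  unfold Lft at x1 x2 x3
  rw [← cr_view] at x1 x2 x3
  have a1 := ang_pos x1
  have a2 := ang_pos x2
  have a3 := ang_pos x3
  have hne : ∀ s ∈ [a, b, c, a], s ≠ x := by
    intro s hs
    simp only [List.mem_cons, List.not_mem_nil, or_false] at hs
    rcases hs with rfl | rfl | rfl | rfl
    · rintro rfl; simp [cr] at x1
    · rintro rfl; simp [cr] at x1
    · rintro rfl; simp [cr] at x2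
    · rintro rfl; simp [cr] at x1
  obtain ⟨k, hk⟩ := asum_closed hne (by simp)
  simp only [asum_cons, asum_one, add_zero] at hk
  have hpi := Real.pi_pos
  have k1 : (0 : ℝ) < k := by
    by_contra hcon
    push Not at hcon
    have := mul_nonpos_of_nonneg_of_nonpos (by positivity : (0:ℝ) ≤ 2 * Real.pi) hcon
    linarith
  have k2 : (k : ℝ) < 2 := by
    by_contra hcon
    push Not at hcon
    have : 2 * Real.pi * 2 ≤ 2 * Real.pi * k := mul_le_mul_of_nonneg_left hcon (by positivity)
    linarith
  have k3 : k = 1 := by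
    have h1 : 0 < k := by exact_mod_cast k1
    have h2 : k < 2 := by exact_mod_cast k2
    omega
  rw [k3] at hk
  push_cast at hk
  linarith

theorem tri_out {a b c y : ℂ} (hpos : 0 < cr (b - a) (c - a)) (hy : Lft y b a) :
    ang y a b + ang y b c + ang y c a = 0 := by
  unfold Lft at hy
  rw [cr_swap] at hy
  have h := asum_out (l := [a, b, c, a]) (a := a) (b := b) (y := y) (by simp) (by
    intro s hs
    simp only [List.mem_cons, List.not_mem_nil, or_false] at hs
    rcases hs with rfl | rfl | rfl | rfl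
    · rw [cr_left]
    · rw [cr_right]
    · exact hpos.le
    · rw [cr_left]) (by linarith)
  simp only [asum_cons, asum_one, add_zero] at h
  linarith

/-! ### detours -/

/-- the chain with the edge `{a, b}` replaced by the way through `c` -/
def ins (a b c : ℂ) : List ℂ → List ℂ
  | [] => []
  | [p] => [p]
  | p :: q :: l =>
    if (p = a ∧ q = b) ∨ (p = b ∧ q = a) then p :: c :: ins a b c (q :: l)
    else p :: ins a b c (q :: l)

theorem ins_head (a b c : ℂ) (q : ℂ) (l : List ℂ) : ∃ m, ins a b c (q :: l) = q :: m := by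
  cases l with
  | nil => exact ⟨[], rfl⟩
  | cons r l =>
    unfold ins
    split_ifs
    · exact ⟨_, rfl⟩
    · exact ⟨_, rfl⟩

theorem ins_head? (a b c : ℂ) (l : List ℂ) : (ins a b c l).head? = l.head? := by
  cases l with
  | nil => rfl
  | cons q l =>
    obtain ⟨m, hm⟩ := ins_head a b c q l
    rw [hm]; rfl

theorem ins_getLast? (a b c : ℂ) (l : List ℂ) : (ins a b c l).getLast? = l.getLast? := by
  induction l with
  | nil => rfl
  | cons p l ih =>
    cases l with
    | nil => rfl
    | cons q l =>
      obtain ⟨m, hm⟩ := ins_head a b c q l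
      unfold ins
      rw [hm] at ih ⊢
      split_ifs
      · rw [List.getLast?_cons_cons, List.getLast?_cons_cons, ih, List.getLast?_cons_cons]
      · rw [List.getLast?_cons_cons, ih, List.getLast?_cons_cons]

theorem prs_ins {a b c : ℂ} {l : List ℂ} {p : ℂ × ℂ} (h : p ∈ prs (ins a b c l)) :
    (p ∈ prs l ∧ p ≠ (a, b) ∧ p ≠ (b, a)) ∨ p = (a, c) ∨ p = (c, b) ∨ p = (b, c) ∨ p = (c, a) := by
  induction l with
  | nil => simp [ins] at h
  | cons r l ih =>
    cases l with
    | nil => simp [ins] at h
    | cons q l =>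
      obtain ⟨m, hm⟩ := ins_head a b c q l
      unfold ins at h
      rw [hm] at h ih
      split_ifs at h with h0
      · simp only [prs_cons, List.mem_cons] at h
        rcases h with h | h | h
        · rcases h0 with ⟨rfl, rfl⟩ | ⟨rfl, rfl⟩
          · exact Or.inr (Or.inl h)
          · exact Or.inr (Or.inr (Or.inr (Or.inl h)))
        · rcases h0 with ⟨rfl, rfl⟩ | ⟨rfl, rfl⟩
          · exact Or.inr (Or.inr (Or.inl h))
          · exact Or.inr (Or.inr (Or.inr (Or.inr h)))
        · rcases ih h with h1 | h1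
          · exact Or.inl ⟨by simp only [prs_cons, List.mem_cons]; exact Or.inr h1.1, h1.2⟩
          · exact Or.inr h1
      · simp only [prs_cons, List.mem_cons] at h
        rcases h with h | h
        · left
          refine ⟨by simp only [prs_cons, List.mem_cons]; exact Or.inl h, ?_, ?_⟩
          · rintro rfl
            apply h0
            simp only [Prod.mk.injEq] at h
            exact Or.inl ⟨h.1.symm, h.2.symm⟩
          · rintro rfl
            apply h0
            simp only [Prod.mk.injEq] at h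
            exact Or.inr ⟨h.1.symm, h.2.symm⟩
        · rcases ih h with h1 | h1
          · exact Or.inl ⟨by simp only [prs_cons, List.mem_cons]; exact Or.inr h1.1, h1.2⟩
          · exact Or.inr h1

/-- signed number of uses of the edge `(a, b)` -/
def num (l : List ℂ) (a b : ℂ) : ℤ := ((prs l).count (a, b) : ℤ) - ((prs l).count (b, a) : ℤ)

theorem asum_ins {a b c : ℂ} (hab : a ≠ b) (z : ℂ) (l : List ℂ) :
    asum z (ins a b c l) = asum z l +
      ((prs l).count (a, b) : ℝ) * (ang z a c + ang z c b - ang z a b) +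
      ((prs l).count (b, a) : ℝ) * (ang z b c + ang z c a - ang z b a) := by
  induction l with
  | nil => simp [ins]
  | cons p l ih =>
    cases l with
    | nil => simp [ins]
    | cons q l =>
      obtain ⟨m, hm⟩ := ins_head a b c q l
      unfold ins
      rw [hm] at ih ⊢
      split_ifs with h0
      · rw [asum_cons, asum_cons, ih, asum_cons, prs_cons, List.count_cons, List.count_cons]
        rcases h0 with ⟨rfl, rfl⟩ | ⟨rfl, rfl⟩
        · have e1 : ((p, q) == (q, p)) = false := by
            simp only [beq_eq_false_iff_ne, ne_eq, Prod.mk.injEq, not_and]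
            intro h; exact absurd h hab
          simp only [beq_self_eq_true, if_true, e1, Bool.false_eq_true, if_false]
          push_cast
          ring
        · have e1 : ((p, q) == (q, p)) = false := by
            simp only [beq_eq_false_iff_ne, ne_eq, Prod.mk.injEq, not_and]
            intro h; exact absurd h.symm hab
          simp only [beq_self_eq_true, if_true, e1, Bool.false_eq_true, if_false]
          push_cast
          ring
      · rw [asum_cons, ih, asum_cons, prs_cons, List.count_cons, List.count_cons]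
        push Not at h0
        have e1 : ((p, q) == (a, b)) = false := by
          simp only [beq_eq_false_iff_ne, ne_eq, Prod.mk.injEq, not_and]
          exact h0.1
        have e2 : ((p, q) == (b, a)) = false := by
          simp only [beq_eq_false_iff_ne, ne_eq, Prod.mk.injEq, not_and]
          exact h0.2
        simp only [e1, e2, Bool.false_eq_true, if_false]
        push_cast
        ring

theorem ins_loop {l : List ℂ} (hl : Loop S l) {a b c : ℂ} (h : (a, b, c) ∈ delT S) :
    Loop S (ins a b c l) := by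
  refine ⟨by rw [ins_head?, ins_getLast?]; exact hl.closed, fun p hp => ?_⟩
  rcases prs_ins hp with h1 | rfl | rfl | rfl | rfl
  · exact hl.del p h1.1
  · exact Or.inr ⟨b, rot_mem (rot_mem h)⟩
  · exact Or.inr ⟨a, rot_mem h⟩
  · exact Or.inl ⟨a, rot_mem h⟩
  · exact Or.inl ⟨b, rot_mem (rot_mem h)⟩

theorem ins_avoid {l : List ℂ} {a b c : ℂ} (h : (a, b, c) ∈ delT S) :
    Avoid (ins a b c l) (a, b) := by
  obtain ⟨o, ho⟩ := mem_delT_iff.1 h
  obtain ⟨n1, n2, n3⟩ := ho.ne
  constructor
  · intro hp
    rcases prs_ins hp with h1 | h1 | h1 | h1 | h1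
    · exact h1.2.1 rfl
    · simp only [Prod.mk.injEq] at h1; exact n2 h1.2
    · simp only [Prod.mk.injEq] at h1; exact n3 h1.1
    · simp only [Prod.mk.injEq] at h1; exact n1 h1.1
    · simp only [Prod.mk.injEq] at h1; exact n3 h1.1
  · intro hp
    rw [Prod.swap_prod_mk] at hp
    rcases prs_ins hp with h1 | h1 | h1 | h1 | h1
    · exact h1.2.2 rfl
    · simp only [Prod.mk.injEq] at h1; exact n1 h1.1.symm
    · simp only [Prod.mk.injEq] at h1; exact n2 h1.1
    · simp only [Prod.mk.injEq] at h1; exact n3 h1.2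
    · simp only [Prod.mk.injEq] at h1; exact n2 h1.1

theorem asum_ins_in {l : List ℂ} (hS : GP (S : Set ℂ)) {a b c x : ℂ} (h : (a, b, c) ∈ delT S)
    (hx : InO x a b c) : asum x (ins a b c l) = asum x l - 2 * Real.pi * (num l a b : ℝ) := by
  obtain ⟨o, ho⟩ := mem_delT_iff.1 h
  rw [asum_ins ho.ne.1]
  have h1 := tri_in hx
  have o1 := edge_open hS h hx (a' := a) (b' := b) (Or.inl ⟨c, h⟩)
  have o2 := edge_open hS h hx (a' := b) (b' := c) (Or.inl ⟨a, rot_mem h⟩)
  have o3 := edge_open hS h hx (a' := c) (b' := a) (Or.inl ⟨b, rot_mem (rot_mem h)⟩)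
  rw [ang_comm o1, ang_comm o2, ang_comm o3]
  have e1 : ang x a b = 2 * Real.pi - ang x b c - ang x c a := by linarith
  rw [e1]
  unfold num
  push_cast
  ring

theorem asum_ins_out {l : List ℂ} {a b c y : ℂ} (h : (a, b, c) ∈ delT S)
    (hy : Lft y b a) (o1 : y ∉ segment ℝ a b) (o2 : y ∉ segment ℝ b c) (o3 : y ∉ segment ℝ c a) :
    asum y (ins a b c l) = asum y l := by
  obtain ⟨o, ho⟩ := mem_delT_iff.1 h
  rw [asum_ins ho.ne.1]
  have h1 := tri_out (c := c) ho.pos hy
  rw [ang_comm o1, ang_comm o2, ang_comm o3]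
  have e1 : ang y a b = - ang y b c - ang y c a := by linarith
  rw [e1]
  ring

/-- **jump formula** -/
theorem jump (hS : GP (S : Set ℂ)) {l : List ℂ} (hl : Loop S l) {a b c e x y : ℂ}
    (h : (a, b, c) ∈ delT S) (h' : (b, a, e) ∈ delT S) (hx : InO x a b c) (hy : InO y b a e) :
    asum x l - asum y l = 2 * Real.pi * (num l a b : ℝ) := by
  have hl' := ins_loop hl h
  have hav := ins_avoid (l := l) h
  have h1 := asum_open_mid hS hl' h hx hav
  have h2 := asum_open_mid hS hl' h' hy hav.swap
  rw [mid_swap b a, ← h1] at h2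
  rw [asum_ins_in hS h hx, asum_ins_out h hy.1
    (edge_open hS h' hy (Or.inl ⟨c, h⟩)) (edge_open hS h' hy (Or.inl ⟨a, rot_mem h⟩))
    (edge_open hS h' hy (Or.inl ⟨b, rot_mem (rot_mem h)⟩))] at h2
  linarith


end Crest.Agent.R143.ToolW2x838
end
private theorem rz_94b37cd73f : type_of% @_root_.Crest.Agent.R143.ToolW2x838.ins.eq_def := @_root_.Crest.Agent.R143.ToolW2x838.ins.eq_def -- L107
private theorem rz_6b847f4de5 : type_of% @_root_.Crest.Agent.R143.ToolW2x838.ins.eq_1 := @_root_.Crest.Agent.R143.ToolW2x838.ins.eq_1 -- L107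
end

-- ▼ part R143/ToolW3_838
section

/-!
# Row 143, block P, Tool W, part 3: crossing lemmas (helper838)

* `edge_vertex`, `edges_meet` : two Delaunay edges with a common point have a common end which is
  this point, or they are the same edge
* `asum_walk` : the total angle of a closed chain is constant along a polyline which misses it
* `meet_of_ne` : a polyline which joins two points with different total angles meets the chain
* `common_site` : the same for two chains of Delaunay edges: they have a common site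
* `cross_rect` : a chain from left to right and a chain from bottom to top meet
-/

set_option autoImplicit false

noncomputable section

open scoped Classical

namespace Crest.Agent.R143.ToolW3x838

open Crest.Agent.R143.B0x346 Crest.Agent.R143.DelGx806 Crest.Agent.R143.DelRx806
open Crest.Agent.R143.ToolWx838 Crest.Agent.R143.Blkx838 Crest.Agent.R143.ToolW2x838

variable {S : Finset ℂ}

/-! ### two Delaunay edges -/

/-- a site on a Delaunay edge is one of its ends -/
theorem edge_vertex (hS : GP (S : Set ℂ)) {a b s : ℂ} (h : DE S a b) (hs : s ∈ S)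
    (hseg : s ∈ segment ℝ a b) : s = a ∨ s = b := by
  obtain ⟨e, o, me, ma, mb, hne, hb0, he0, hemp, hmem, hcr⟩ := h.circ hS
  by_contra hcon
  push Not at hcon
  have hcr0 := cr_of_seg hseg
  by_cases hab : a = s
  · exact hcon.1 hab.symm
  by_cases hbs : b = s
  · exact hcon.2 hbs.symm
  exact hS.line a ma b mb s hs hne hbs hab hcr0

/-- two Delaunay edges with a common point -/
theorem edges_meet (hS : GP (S : Set ℂ)) {a b a' b' x : ℂ} (h : DE S a b) (h' : DE S a' b')
    (hx : x ∈ segment ℝ a b) (hx' : x ∈ segment ℝ a' b') :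
    a = a' ∨ a = b' ∨ b = a' ∨ b = b' := by
  have hx0 := hx
  obtain ⟨s, t, hs, ht, hst, rfl⟩ := hx
  rcases hs.lt_or_eq with hs | hs
  · rcases ht.lt_or_eq with ht | ht
    · rcases edge_side hS h hs ht hst (x := s • a + t • b) (by simp) h' hx' with h1 | h1
      · exact Or.inl h1.1.symm
      · exact Or.inr (Or.inl h1.2.symm)
    · have e : s • a + t • b = a := by
        rw [← ht, show s = 1 by linarith]; simp
      rw [e] at hx'
      obtain ⟨-, -, -, ma, -, -⟩ := h.circ hS
      rcases edge_vertex hS h' ma hx' with h1 | h1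
      · exact Or.inl h1
      · exact Or.inr (Or.inl h1)
  · have e : s • a + t • b = b := by
      rw [← hs, show t = 1 by linarith]; simp
    rw [e] at hx'
    obtain ⟨-, -, -, -, mb, -⟩ := h.circ hS
    rcases edge_vertex hS h' mb hx' with h1 | h1
    · exact Or.inr (Or.inr (Or.inl h1))
    · exact Or.inr (Or.inr (Or.inr h1))

/-! ### polylines -/

theorem asum_walk {l : List ℂ} (hl : l.head? = l.getLast?) {q : List ℂ} (hq : q ≠ [])
    (hoff : ∀ p ∈ prs q, ∀ z ∈ segment ℝ p.1 p.2, Off z l) :
    asum (q.head hq) l = asum (q.getLast hq) l := by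
  induction q with
  | nil => exact absurd rfl hq
  | cons a q ih =>
    cases q with
    | nil => rfl
    | cons b q =>
      have h1 := ih (by simp) (fun p hp => hoff p (by
        simp only [prs_cons, List.mem_cons] at hp ⊢; exact Or.inr hp))
      have h2 : asum a l = asum b l := asum_seg hl (hoff (a, b) (by simp))
      simp only [List.head_cons, List.getLast_cons_cons] at h1 ⊢
      rw [h2, h1]

/-- a polyline between two points which see the closed chain under different angles meets it -/
theorem meet_of_ne {l : List ℂ} (hl : l.head? = l.getLast?) {q : List ℂ} (hq : q ≠ [])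
    (hne : asum (q.head hq) l ≠ asum (q.getLast hq) l) :
    ∃ p ∈ prs q, ∃ r ∈ prs l, ∃ z, z ∈ segment ℝ p.1 p.2 ∧ z ∈ segment ℝ r.1 r.2 := by
  by_contra hcon
  push Not at hcon
  exact hne (asum_walk hl hq fun p hp z hz r hr => hcon p hp r hr z hz)

/-- two chains of Delaunay edges which meet have a common site -/
theorem common_site (hS : GP (S : Set ℂ)) {l q : List ℂ} (hl : ∀ p ∈ prs l, DE S p.1 p.2)
    (hq : ∀ p ∈ prs q, DE S p.1 p.2)
    (h : ∃ p ∈ prs q, ∃ r ∈ prs l, ∃ z, z ∈ segment ℝ p.1 p.2 ∧ z ∈ segment ℝ r.1 r.2) :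
    ∃ s, s ∈ l ∧ s ∈ q := by
  obtain ⟨p, hp, r, hr, z, hz1, hz2⟩ := h
  have m1 := mem_of_prs hp
  have m2 := mem_of_prs hr
  rcases edges_meet hS (hq p hp) (hl r hr) hz1 hz2 with h | h | h | h
  · exact ⟨r.1, m2.1, h ▸ m1.1⟩
  · exact ⟨r.2, m2.2, h ▸ m1.1⟩
  · exact ⟨r.1, m2.1, h ▸ m1.2⟩
  · exact ⟨r.2, m2.2, h ▸ m1.2⟩

/-- a chain of Delaunay edges from inside to outside of a loop has a site on the loop -/
theorem site_of_ne (hS : GP (S : Set ℂ)) {l q : List ℂ} (hl : Loop S l)
    (hq : ∀ p ∈ prs q, DE S p.1 p.2) (hn : q ≠ [])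
    (hne : asum (q.head hn) l ≠ asum (q.getLast hn) l) : ∃ s, s ∈ l ∧ s ∈ q :=
  common_site hS hl.del hq (meet_of_ne hl.closed hn hne)

/-! ### rectangles -/

theorem arg_I_mul_low {w : ℂ} (h : w.im < 0) : (Complex.I * w).arg = w.arg + Real.pi / 2 := by
  have hw : w ≠ 0 := by rintro rfl; simp at h
  have h1 : w.arg < 0 := Complex.arg_neg_iff.2 h
  have h2 := Complex.neg_pi_lt_arg w
  rw [Complex.arg_mul Complex.I_ne_zero hw]
  · rw [Complex.arg_I]; ring
  · rw [Complex.arg_I]
    constructor
    · linarith [Real.pi_pos]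
    · linarith [Real.pi_pos]

theorem arg_div_I_up {w : ℂ} (h : 0 < w.im) : (w / Complex.I).arg = w.arg - Real.pi / 2 := by
  have hw : w ≠ 0 := by rintro rfl; simp at h
  have h1 : 0 ≤ w.arg := Complex.arg_nonneg_iff.2 h.le
  have h2 := Complex.arg_le_pi w
  rw [div_eq_mul_inv, Complex.inv_I, Complex.arg_mul hw (neg_ne_zero.2 Complex.I_ne_zero)]
  · rw [Complex.arg_neg_I]; ring
  · rw [Complex.arg_neg_I]
    constructor
    · linarith [Real.pi_pos]
    · linarith [Real.pi_pos]

theorem arg_neg_up {w : ℂ} (h : 0 < w.im) : (-w).arg = w.arg - Real.pi := by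
  exact Complex.arg_neg_eq_arg_sub_pi_of_im_pos h

theorem arg_neg_low {w : ℂ} (h : w.im < 0) : (-w).arg = w.arg + Real.pi := by
  exact Complex.arg_neg_eq_arg_add_pi_of_im_neg h

/-- the winding number of the closed chain `P` (below `z`) closed above `z` -/
theorem asum_rect {P : List ℂ} (hP : P ≠ []) {z : ℂ} {H : ℝ} (hH : z.im < H)
    (hlow : ∀ a ∈ P, a.im < z.im) (hhead : (P.head hP).re < z.re)
    (hlast : z.re < (P.getLast hP).re) :
    asum z P + (ang z (P.getLast hP) ⟨(P.getLast hP).re, H⟩ +
      ang z ⟨(P.getLast hP).re, H⟩ ⟨(P.head hP).re, H⟩ +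
      ang z ⟨(P.head hP).re, H⟩ (P.head hP)) = 2 * Real.pi := by
  set L := P.getLast hP with hL
  set K := P.head hP with hK
  have hLm := hlow L (List.getLast_mem hP)
  have hKm := hlow K (List.head_mem hP)
  set A : ℂ := ⟨L.re, H⟩ with hA
  set B : ℂ := ⟨K.re, H⟩ with hB
  have e1 : asum z P = (L - z).arg - (K - z).arg := by
    rw [asum_half (x := z) (u := -Complex.I) hP, ← hL, ← hK]
    · have e : ∀ w : ℂ, w / (-Complex.I) = Complex.I * w := by
        intro w
        rw [div_eq_iff (neg_ne_zero.2 Complex.I_ne_zero)]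
        linear_combination w * Complex.I_mul_I
      rw [e, e, arg_I_mul_low (by simpa using hLm), arg_I_mul_low (by simpa using hKm)]
      ring
    · intro a ha
      have := hlow a ha
      have e : (a - z) / (-Complex.I) = Complex.I * (a - z) := by
        rw [div_eq_iff (neg_ne_zero.2 Complex.I_ne_zero)]
        linear_combination (a - z) * Complex.I_mul_I
      rw [e]
      simp only [Complex.mul_re, Complex.I_re, Complex.I_im, Complex.sub_im, Complex.sub_re]
      linarith
  have e2 : ang z L A = (A - z).arg - (L - z).arg := by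
    have h1 : 0 < (L - z).re := by simp; linarith
    have h2 : 0 < (A - z).re := by simp [hA]; linarith
    exact arg_div_half h1 h2
  have e3 : ang z A B = (B - z).arg - (A - z).arg := by
    have i1 : 0 < (A - z).im := by simp [hA]; linarith
    have i2 : 0 < (B - z).im := by simp [hB]; linarith
    have h1 : 0 < ((A - z) / Complex.I).re := by
      rw [div_eq_mul_inv, Complex.inv_I]; simpa using i1
    have h2 : 0 < ((B - z) / Complex.I).re := by
      rw [div_eq_mul_inv, Complex.inv_I]; simpa using i2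
    have h3 := arg_div_half h1 h2
    rw [arg_div_I_up i1, arg_div_I_up i2, div_div_div_cancel_right₀ Complex.I_ne_zero] at h3
    unfold ang
    rw [h3]; ring
  have e4 : ang z B K = (K - z).arg - (B - z).arg + 2 * Real.pi := by
    have i1 : 0 < (B - z).im := by simp [hB]; linarith
    have i2 : (K - z).im < 0 := by simp; linarith
    have h1 : 0 < (-(B - z)).re := by simp [hB]; linarith
    have h2 : 0 < (-(K - z)).re := by simp; linarith
    have h3 := arg_div_half h1 h2
    rw [neg_div_neg_eq, arg_neg_up i1, arg_neg_low i2] at h3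
    unfold ang
    rw [h3]; ring
  rw [e1, e2, e3, e4]
  ring

/-- **rectangle crossing lemma**: a polyline `P` from the left to the right and a polyline `Q` from
the bottom to the top meet -/
theorem cross_rect {P Q : List ℂ} (hP : P ≠ []) (hQ : Q ≠ []) {x0 x1 y0 y1 : ℝ}
    (hPy : ∀ a ∈ P, y0 < a.im ∧ a.im < y1) (hQx : ∀ a ∈ Q, x0 < a.re ∧ a.re < x1)
    (hP0 : (P.head hP).re ≤ x0) (hP1 : x1 ≤ (P.getLast hP).re)
    (hQ0 : (Q.head hQ).im ≤ y0) (hQ1 : y1 ≤ (Q.getLast hQ).im) :
    ∃ p ∈ prs Q, ∃ r ∈ prs P, ∃ z, z ∈ segment ℝ p.1 p.2 ∧ z ∈ segment ℝ r.1 r.2 := by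
  by_contra hcon
  push Not at hcon
  set L := P.getLast hP with hL
  set K := P.head hP with hK
  -- height above everything
  obtain ⟨H, hHQ⟩ : ∃ H : ℝ, y1 < H ∧ ∀ a ∈ Q, a.im < H := by
    obtain ⟨M, hM⟩ := (Q.toFinset.image Complex.im).exists_le
    refine ⟨max y1 M + 1, by linarith [le_max_left y1 M], fun a ha => ?_⟩
    have := hM a.im (Finset.mem_image_of_mem _ (List.mem_toFinset.2 ha))
    linarith [le_max_right y1 M]
  obtain ⟨hH1, hHQ⟩ := hHQ
  set A : ℂ := ⟨L.re, H⟩ with hA
  set B : ℂ := ⟨K.re, H⟩ with hB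
  set l : List ℂ := P ++ [A, B, K] with hl
  have hhd : l.head? = some K := by
    rw [hl, List.head?_append_of_ne_nil _ hP, List.head?_eq_some_head hP]
  have hlst : l.getLast? = some K := by
    rw [hl]; simp
  have hcl : l.head? = l.getLast? := by rw [hhd, hlst]
  -- consecutive pairs of the closed chain
  have hprs : ∀ p ∈ prs l, p ∈ prs P ∨ p = (L, A) ∨ p = (A, B) ∨ p = (B, K) := by
    intro p hp
    have e : l = P.dropLast ++ L :: [A, B, K] := by
      calc l = (P.dropLast ++ [L]) ++ [A, B, K] := by rw [hL, List.dropLast_append_getLast hP]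
        _ = _ := by simp
    rw [e, prs_append] at hp
    rw [List.mem_append] at hp
    rcases hp with hp | hp
    · left
      rw [hL, List.dropLast_append_getLast hP] at hp
      exact hp
    · simp only [prs_cons, prs_one, List.mem_cons, List.not_mem_nil, or_false] at hp
      exact Or.inr hp
  have hwalk := asum_walk hcl hQ (fun p hp z hz r hr => by
    intro hz2
    have hzQ1 : x0 < z.re ∧ z.re < x1 ∧ z.im < H := by
      have m := mem_of_prs hp
      have a1 := hQx p.1 m.1
      have a2 := hQx p.2 m.2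
      have b1 := hHQ p.1 m.1
      have b2 := hHQ p.2 m.2
      obtain ⟨s, t, hs, ht, hst, rfl⟩ := hz
      simp only [Complex.add_re, Complex.add_im, Complex.real_smul, Complex.mul_re, Complex.mul_im,
        Complex.ofReal_re, Complex.ofReal_im, zero_mul, sub_zero, add_zero]
      have c1 := convex_Ioi x0 a1.1 a2.1 hs ht hst
      have c2 := convex_Iio x1 a1.2 a2.2 hs ht hst
      have c3 := convex_Iio H b1 b2 hs ht hst
      simp only [smul_eq_mul, Set.mem_Ioi, Set.mem_Iio] at c1 c2 c3
      exact ⟨c1, c2, c3⟩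
    rcases hprs r hr with h1 | h1 | h1 | h1
    · exact hcon p hp r h1 z hz hz2
    · rw [h1] at hz2
      obtain ⟨s, t, hs, ht, hst, rfl⟩ := hz2
      have : (s • L + t • A).re = L.re := by
        simp only [Complex.add_re, Complex.real_smul, Complex.mul_re,
          Complex.ofReal_re, Complex.ofReal_im, zero_mul, sub_zero, hA]
        rw [← add_mul, hst, one_mul]
      rw [this] at hzQ1
      linarith
    · rw [h1] at hz2
      obtain ⟨s, t, hs, ht, hst, rfl⟩ := hz2
      have : (s • A + t • B).im = H := by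
        simp only [Complex.add_im, Complex.real_smul, Complex.mul_im,
          Complex.ofReal_re, Complex.ofReal_im, zero_mul, add_zero, hA, hB]
        rw [← add_mul, hst, one_mul]
      rw [this] at hzQ1
      linarith
    · rw [h1] at hz2
      obtain ⟨s, t, hs, ht, hst, rfl⟩ := hz2
      have : (s • B + t • K).re = K.re := by
        simp only [Complex.add_re, Complex.real_smul, Complex.mul_re,
          Complex.ofReal_re, Complex.ofReal_im, zero_mul, sub_zero, hB]
        rw [← add_mul, hst, one_mul]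
      rw [this] at hzQ1
      linarith)
  -- the bottom end
  have h0 : asum (Q.head hQ) l = 0 := by
    refine asum_half_closed (u := Complex.I) hcl fun a ha => ?_
    have e : (a - Q.head hQ) / Complex.I = -Complex.I * (a - Q.head hQ) := by
      rw [div_eq_mul_inv, Complex.inv_I]; ring
    rw [e]
    have : (-Complex.I * (a - Q.head hQ)).re = a.im - (Q.head hQ).im := by simp
    rw [this]
    rw [hl, List.mem_append] at ha
    have hKm : K ∈ P := List.head_mem hP
    rcases ha with ha | ha
    · linarith [(hPy a ha).1]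
    · simp only [List.mem_cons, List.not_mem_nil, or_false] at ha
      have hy := (hPy K hKm)
      rcases ha with rfl | rfl | rfl
      · simp only [hA]; linarith
      · simp only [hB]; linarith
      · linarith
  -- the top end
  have h1 : asum (Q.getLast hQ) l = 2 * Real.pi := by
    have e : l = P.dropLast ++ L :: [A, B, K] := by
      calc l = (P.dropLast ++ [L]) ++ [A, B, K] := by rw [hL, List.dropLast_append_getLast hP]
        _ = _ := by simp
    have hx := hQx _ (List.getLast_mem hQ)
    have hP0' : (P.head hP).re < (Q.getLast hQ).re := by linarith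
    have hP1' : (Q.getLast hQ).re < (P.getLast hP).re := by linarith
    rw [e, asum_append, hL, List.dropLast_append_getLast hP]
    have := asum_rect hP (z := Q.getLast hQ) (H := H) (hHQ _ (List.getLast_mem hQ))
      (fun a ha => lt_of_lt_of_le (hPy a ha).2 hQ1) hP0' hP1'
    simp only [asum_cons, asum_one, add_zero]
    rw [← this]
    simp only [← hL, ← hK, ← hA, ← hB]
    ring
  rw [h0, h1] at hwalk
  linarith [Real.pi_pos]

/-- two chains of Delaunay edges which cross a rectangle in the two directions have a common site -/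
theorem cross_rect_site (hS : GP (S : Set ℂ)) {P Q : List ℂ} (hP : P ≠ []) (hQ : Q ≠ [])
    (dP : ∀ p ∈ prs P, DE S p.1 p.2) (dQ : ∀ p ∈ prs Q, DE S p.1 p.2) {x0 x1 y0 y1 : ℝ}
    (hPy : ∀ a ∈ P, y0 < a.im ∧ a.im < y1) (hQx : ∀ a ∈ Q, x0 < a.re ∧ a.re < x1)
    (hP0 : (P.head hP).re ≤ x0) (hP1 : x1 ≤ (P.getLast hP).re)
    (hQ0 : (Q.head hQ).im ≤ y0) (hQ1 : y1 ≤ (Q.getLast hQ).im) : ∃ s, s ∈ P ∧ s ∈ Q :=
  common_site hS dP dQ (cross_rect hP hQ hPy hQx hP0 hP1 hQ0 hQ1)

end Crest.Agent.R143.ToolW3x838
end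
end

-- ▼ part R143/Circ4_838

/-!
# Row 143, block X (CI), deterministic half: gluing four crossings to a circuit (helper838)

* `sub_chain` : a chain between two members of a chain
* `glue4` : four chains which cross the four rectangles of a square annulus contain a closed chain
  around the inner square
* `circuit` : the same for chains of Delaunay edges (no intersection hypotheses)
-/

set_option autoImplicit false

noncomputable section

open scoped Classical

namespace Crest.Agent.R143.Circ4x838

open Crest.Agent.R143.B0x346 Crest.Agent.R143.DelGx806 Crest.Agent.R143.DelRx806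
open Crest.Agent.R143.ToolWx838 Crest.Agent.R143.Blkx838 Crest.Agent.R143.ToolW2x838
open Crest.Agent.R143.ToolW3x838

variable {S : Finset ℂ}

/-- `m` is a chain from `a` to `b` inside the chain `l` (forwards or backwards) -/
structure Sub (l : List ℂ) (a b : ℂ) (m : List ℂ) : Prop where
  head : m.head? = some a
  last : m.getLast? = some b
  mem : ∀ s ∈ m, s ∈ l
  prs : ∀ p ∈ prs m, p ∈ prs l ∨ p.swap ∈ prs l

theorem Sub.ne {l m : List ℂ} {a b : ℂ} (h : Sub l a b m) : m ≠ [] := by
  rintro rfl; simpa using h.head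

theorem Sub.reverse {l m : List ℂ} {a b : ℂ} (h : Sub l a b m) : Sub l b a m.reverse where
  head := by rw [List.head?_reverse]; exact h.last
  last := by rw [List.getLast?_reverse]; exact h.head
  mem s hs := h.mem s (List.mem_reverse.1 hs)
  prs p hp := by
    rw [prs_reverse] at hp
    simp only [List.mem_reverse, List.mem_map] at hp
    obtain ⟨q, hq, rfl⟩ := hp
    rw [Prod.swap_swap]
    exact (h.prs q hq).symm

theorem sub_chain_aux {l1 l2 : List ℂ} {a b : ℂ} (hb : b ∈ a :: l2) :
    ∃ m, Sub (l1 ++ a :: l2) a b m := by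
  obtain ⟨u, v, huv⟩ := List.append_of_mem hb
  -- a :: l2 = u ++ b :: v
  refine ⟨u ++ [b], ?_, by simp, ?_, ?_⟩
  · cases u with
    | nil => simp only [List.nil_append, List.cons.injEq] at huv; simp [huv.1]
    | cons c u => simp only [List.cons_append, List.cons.injEq] at huv; simp [huv.1]
  · intro s hs
    rw [List.mem_append]; right
    rw [huv]
    simp only [List.mem_append, List.mem_cons, List.not_mem_nil, or_false] at hs ⊢
    rcases hs with h | h
    · exact Or.inl h
    · exact Or.inr (Or.inl h)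
  · intro p hp
    left
    rw [prs_append, List.mem_append]; right
    rw [huv, prs_append, List.mem_append]
    exact Or.inl hp

/-- a chain between two members of a chain -/
theorem sub_chain {l : List ℂ} {a b : ℂ} (ha : a ∈ l) (hb : b ∈ l) : ∃ m, Sub l a b m := by
  obtain ⟨l1, l2, rfl⟩ := List.append_of_mem ha
  rw [List.mem_append] at hb
  rcases hb with hb | hb
  · -- b comes before a
    obtain ⟨u, v, rfl⟩ := List.append_of_mem hb
    have e : (u ++ b :: v) ++ a :: l2 = u ++ b :: (v ++ a :: l2) := by simp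
    rw [e]
    obtain ⟨m, hm⟩ := sub_chain_aux (l1 := u) (l2 := v ++ a :: l2) (a := b) (b := a) (by simp)
    exact ⟨_, hm.reverse⟩
  · exact sub_chain_aux hb

/-- concatenation at a common end -/
def cat (l m : List ℂ) : List ℂ := l ++ m.tail

theorem cat_last {l m : List ℂ} {b : ℂ} (h1 : l.getLast? = some b) (h2 : m.head? = some b) :
    (cat l m).getLast? = m.getLast? := by
  cases m with
  | nil => simp at h2
  | cons c m =>
    simp only [List.head?_cons, Option.some.injEq] at h2
    subst h2
    unfold cat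
    cases m with
    | nil => simpa using h1
    | cons d m =>
      rw [List.tail_cons, List.getLast?_append_of_ne_nil _ (List.cons_ne_nil d m),
        List.getLast?_cons_cons]

theorem cat_head {l m : List ℂ} (h : l ≠ []) : (cat l m).head? = l.head? := by
  unfold cat
  rw [List.head?_append_of_ne_nil _ h]

theorem cat_eq {l m : List ℂ} {b : ℂ} (h1 : l.getLast? = some b) (h2 : m.head? = some b) :
    cat l m = l.dropLast ++ m := by
  cases m with
  | nil => simp at h2
  | cons c m =>
    simp only [List.head?_cons, Option.some.injEq] at h2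
    subst h2
    have hl : l ≠ [] := by rintro rfl; simp at h1
    have : l.getLast hl = c := by
      rw [List.getLast?_eq_some_getLast hl] at h1
      exact Option.some.inj h1
    unfold cat
    conv_lhs => rw [← List.dropLast_append_getLast hl, this]
    simp

theorem prs_cat {l m : List ℂ} {b : ℂ} (h1 : l.getLast? = some b) (h2 : m.head? = some b) :
    prs (cat l m) = prs l ++ prs m := by
  rw [cat_eq h1 h2]
  cases m with
  | nil => simp at h2
  | cons c m =>
    simp only [List.head?_cons, Option.some.injEq] at h2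
    subst h2
    have hl : l ≠ [] := by rintro rfl; simp at h1
    have : l.getLast hl = c := by
      rw [List.getLast?_eq_some_getLast hl] at h1
      exact Option.some.inj h1
    rw [prs_append]
    congr 2
    conv_rhs => rw [← List.dropLast_append_getLast hl, this]

theorem asum_cat {l m : List ℂ} {b : ℂ} (h1 : l.getLast? = some b) (h2 : m.head? = some b) (z : ℂ) :
    asum z (cat l m) = asum z l + asum z m := by
  rw [asum_eq, asum_eq, asum_eq, prs_cat h1 h2, List.map_append, List.sum_append]

theorem mem_cat {l m : List ℂ} {s : ℂ} (h : s ∈ cat l m) : s ∈ l ∨ s ∈ m := by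
  unfold cat at h
  rcases List.mem_append.1 h with h | h
  · exact Or.inl h
  · exact Or.inr (List.mem_of_mem_tail h)

/-- total angle of a chain in a half plane, by the ends -/
theorem asum_ends {z u a b : ℂ} {m : List ℂ} (h1 : m.head? = some a) (h2 : m.getLast? = some b)
    (h : ∀ s ∈ m, 0 < ((s - z) / u).re) :
    asum z m = ((b - z) / u).arg - ((a - z) / u).arg := by
  have hm : m ≠ [] := by rintro rfl; simp at h1
  rw [asum_half hm h]
  rw [List.head?_eq_some_head hm] at h1
  rw [List.getLast?_eq_some_getLast hm] at h2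
  rw [Option.some.inj h1, Option.some.inj h2]

theorem div_I (w : ℂ) : w / Complex.I = -Complex.I * w := by
  rw [div_eq_mul_inv, Complex.inv_I]; ring

theorem div_negI (w : ℂ) : w / (-Complex.I) = Complex.I * w := by
  rw [div_eq_iff (neg_ne_zero.2 Complex.I_ne_zero)]
  linear_combination w * Complex.I_mul_I

theorem div_neg1 (w : ℂ) : w / (-1) = -w := by
  rw [div_neg, div_one]

/-- **gluing**: closed chain through the four quadrants -/
theorem asum_glue {z s1 s2 s3 s4 : ℂ} {mT mL mB mR : List ℂ}
    (hT1 : mT.head? = some s1) (hT2 : mT.getLast? = some s2) (hL1 : mL.head? = some s2)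
    (hL2 : mL.getLast? = some s3) (hB1 : mB.head? = some s3) (hB2 : mB.getLast? = some s4)
    (hR1 : mR.head? = some s4) (hR2 : mR.getLast? = some s1)
    (hT : ∀ s ∈ mT, z.im < s.im) (hL : ∀ s ∈ mL, s.re < z.re) (hB : ∀ s ∈ mB, s.im < z.im)
    (hR : ∀ s ∈ mR, z.re < s.re) :
    asum z mT + asum z mL + asum z mB + asum z mR = 2 * Real.pi := by
  have mem1 : ∀ {m : List ℂ} {a : ℂ}, m.head? = some a → a ∈ m := fun h => List.mem_of_head? h
  have mem2 : ∀ {m : List ℂ} {a : ℂ}, m.getLast? = some a → a ∈ m := fun h =>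
    List.mem_of_getLast? h
  have i1 : 0 < (s1 - z).im := by simpa using hT s1 (mem1 hT1)
  have i2 : 0 < (s2 - z).im := by simpa using hT s2 (mem2 hT2)
  have i3 : (s3 - z).im < 0 := by simpa using hB s3 (mem1 hB1)
  have i4 : (s4 - z).im < 0 := by simpa using hB s4 (mem2 hB2)
  have eT := asum_ends (z := z) (u := Complex.I) hT1 hT2 (fun s hs => by
    rw [div_I]; simpa using hT s hs)
  have eL := asum_ends (z := z) (u := -1) hL1 hL2 (fun s hs => by
    rw [div_neg1]; simpa using hL s hs)
  have eB := asum_ends (z := z) (u := -Complex.I) hB1 hB2 (fun s hs => by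
    rw [div_negI]; simpa using hB s hs)
  have eR := asum_ends (z := z) (u := 1) hR1 hR2 (fun s hs => by
    rw [div_one]; simpa using hR s hs)
  rw [arg_div_I_up i1, arg_div_I_up i2] at eT
  rw [div_neg1, div_neg1, arg_neg_up i2, arg_neg_low i3] at eL
  rw [div_negI, div_negI, arg_I_mul_low i3, arg_I_mul_low i4] at eB
  rw [div_one, div_one] at eR
  rw [eT, eL, eB, eR]
  ring

/-- closed chain made of pieces of the four chains -/
structure Circ (T L B R : List ℂ) (r : ℝ) (z0 : ℂ) (c : List ℂ) : Prop where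
  closed : c.head? = c.getLast?
  mem : ∀ s ∈ c, s ∈ T ∨ s ∈ L ∨ s ∈ B ∨ s ∈ R
  prs : ∀ p ∈ prs c, (p ∈ prs T ∨ p.swap ∈ prs T) ∨ (p ∈ prs L ∨ p.swap ∈ prs L) ∨
    (p ∈ prs B ∨ p.swap ∈ prs B) ∨ (p ∈ prs R ∨ p.swap ∈ prs R)
  wind : ∀ z : ℂ, |z.re - z0.re| ≤ r → |z.im - z0.im| ≤ r → asum z c = 2 * Real.pi

theorem glue4 {T L B R : List ℂ} {r : ℝ} {z0 s1 s2 s3 s4 : ℂ}
    (hT : ∀ s ∈ T, z0.im + r < s.im) (hL : ∀ s ∈ L, s.re < z0.re - r)
    (hB : ∀ s ∈ B, s.im < z0.im - r) (hR : ∀ s ∈ R, z0.re + r < s.re)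
    (h1 : s1 ∈ T ∧ s1 ∈ R) (h2 : s2 ∈ T ∧ s2 ∈ L) (h3 : s3 ∈ B ∧ s3 ∈ L) (h4 : s4 ∈ B ∧ s4 ∈ R) :
    ∃ c, Circ T L B R r z0 c := by
  obtain ⟨mT, kT⟩ := sub_chain h1.1 h2.1
  obtain ⟨mL, kL⟩ := sub_chain h2.2 h3.2
  obtain ⟨mB, kB⟩ := sub_chain h3.1 h4.1
  obtain ⟨mR, kR⟩ := sub_chain h4.2 h1.2
  have e1 := kT.last
  have e2 : (cat mT mL).getLast? = some s3 := by rw [cat_last kT.last kL.head]; exact kL.last
  have e3 : (cat (cat mT mL) mB).getLast? = some s4 := by rw [cat_last e2 kB.head]; exact kB.last
  have n1 : cat mT mL ≠ [] := by intro h; rw [h] at e2; simp at e2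
  have n2 : cat (cat mT mL) mB ≠ [] := by intro h; rw [h] at e3; simp at e3
  refine ⟨cat (cat (cat mT mL) mB) mR, ?_, ?_, ?_, ?_⟩
  · rw [cat_last e3 kR.head, kR.last, cat_head n2, cat_head n1, cat_head kT.ne, kT.head]
  · intro s hs
    rcases mem_cat hs with hs | hs
    · rcases mem_cat hs with hs | hs
      · rcases mem_cat hs with hs | hs
        · exact Or.inl (kT.mem s hs)
        · exact Or.inr (Or.inl (kL.mem s hs))
      · exact Or.inr (Or.inr (Or.inl (kB.mem s hs)))
    · exact Or.inr (Or.inr (Or.inr (kR.mem s hs)))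
  · intro p hp
    rw [prs_cat e3 kR.head, prs_cat e2 kB.head, prs_cat kT.last kL.head] at hp
    simp only [List.mem_append] at hp
    rcases hp with ((hp | hp) | hp) | hp
    · exact Or.inl (kT.prs p hp)
    · exact Or.inr (Or.inl (kL.prs p hp))
    · exact Or.inr (Or.inr (Or.inl (kB.prs p hp)))
    · exact Or.inr (Or.inr (Or.inr (kR.prs p hp)))
  · intro z hz1 hz2
    rw [abs_le] at hz1 hz2
    rw [asum_cat e3 kR.head, asum_cat e2 kB.head, asum_cat kT.last kL.head]
    exact asum_glue kT.head kT.last kL.head kL.last kB.head kB.last kR.head kR.last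
      (fun s hs => by have := hT s (kT.mem s hs); linarith)
      (fun s hs => by have := hL s (kL.mem s hs); linarith)
      (fun s hs => by have := hB s (kB.mem s hs); linarith)
      (fun s hs => by have := hR s (kR.mem s hs); linarith)

/-- **circuit**: four chains of Delaunay edges crossing the four rectangles of the square annulus
`r < |.|_∞ < R` around `z0` -/
theorem circuit (hS : GP (S : Set ℂ)) {T L B R : List ℂ} {r ρ : ℝ} {z0 : ℂ} (hr : -ρ ≤ r)
    (nT : T ≠ []) (nL : L ≠ []) (nB : B ≠ []) (nR : R ≠ [])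
    (dT : ∀ p ∈ prs T, DE S p.1 p.2) (dL : ∀ p ∈ prs L, DE S p.1 p.2)
    (dB : ∀ p ∈ prs B, DE S p.1 p.2) (dR : ∀ p ∈ prs R, DE S p.1 p.2)
    (hT : ∀ s ∈ T, z0.im + r < s.im ∧ s.im < z0.im + ρ)
    (hL : ∀ s ∈ L, z0.re - ρ < s.re ∧ s.re < z0.re - r)
    (hB : ∀ s ∈ B, z0.im - ρ < s.im ∧ s.im < z0.im - r)
    (hR : ∀ s ∈ R, z0.re + r < s.re ∧ s.re < z0.re + ρ)
    (T0 : (T.head nT).re ≤ z0.re - ρ) (T1 : z0.re + ρ ≤ (T.getLast nT).re)
    (B0 : (B.head nB).re ≤ z0.re - ρ) (B1 : z0.re + ρ ≤ (B.getLast nB).re)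
    (L0 : (L.head nL).im ≤ z0.im - ρ) (L1 : z0.im + ρ ≤ (L.getLast nL).im)
    (R0 : (R.head nR).im ≤ z0.im - ρ) (R1 : z0.im + ρ ≤ (R.getLast nR).im) :
    ∃ c, Circ T L B R r z0 c ∧ Loop S c := by
  obtain ⟨s1, a1, b1⟩ := cross_rect_site hS nT nR dT dR (x0 := z0.re + r) (x1 := z0.re + ρ)
    (y0 := z0.im + r) (y1 := z0.im + ρ) hT hR (by linarith) T1 (by linarith) R1
  obtain ⟨s2, a2, b2⟩ := cross_rect_site hS nT nL dT dL (x0 := z0.re - ρ) (x1 := z0.re - r)
    (y0 := z0.im + r) (y1 := z0.im + ρ) hT hL T0 (by linarith) (by linarith) L1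
  obtain ⟨s3, a3, b3⟩ := cross_rect_site hS nB nL dB dL (x0 := z0.re - ρ) (x1 := z0.re - r)
    (y0 := z0.im - ρ) (y1 := z0.im - r) hB hL B0 (by linarith) L0 (by linarith)
  obtain ⟨s4, a4, b4⟩ := cross_rect_site hS nB nR dB dR (x0 := z0.re + r) (x1 := z0.re + ρ)
    (y0 := z0.im - ρ) (y1 := z0.im - r) hB hR (by linarith) B1 R0 (by linarith)
  obtain ⟨c, hc⟩ := glue4 (r := r) (z0 := z0) (fun s hs => (hT s hs).1) (fun s hs => (hL s hs).2)
    (fun s hs => (hB s hs).2) (fun s hs => (hR s hs).1) ⟨a1, b1⟩ ⟨a2, b2⟩ ⟨a3, b3⟩ ⟨a4, b4⟩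
  refine ⟨c, hc, hc.closed, fun p hp => ?_⟩
  have key : ∀ m : List ℂ, (∀ p ∈ prs m, DE S p.1 p.2) → (p ∈ prs m ∨ p.swap ∈ prs m) →
      DE S p.1 p.2 := by
    intro m hm h
    rcases h with h | h
    · exact hm p h
    · exact (hm _ h).symm
  rcases hc.prs p hp with h | h | h | h
  · exact key _ dT h
  · exact key _ dL h
  · exact key _ dB h
  · exact key _ dR h

end Crest.Agent.R143.Circ4x838
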