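import Crest.Agent.R143.Blk_838
import Crest.Agent.R143.Planar_54
import Crest.Agent.R143.Circ4_838

/-!
# Row 143 (S0194), block X: topology leaves, object-free (helper343)

* `Touch l p` : the closed chain `l` uses the edge `p`
* `walk_asum` : as long as the walk does not touch the closed chain `l`, the total angle of `l` seen
  from the middle of its states (and from all points of its segments) does not change
* `exit_edge` : **T1** : a walk whose two ends see `l` under different angles touches `l`, and the
  first contact comes before the angle changes
* `wind_zero` : **T3** : a closed polygon all of whose points see `l` under a nonzero angle has the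
  same total angle around two points which are joined off `l` and see `l` under the angle `0`
* `wind_far` : the total angle is `0` if the second point is far away
-/

set_option autoImplicit false

noncomputable section

open scoped Classical

namespace Crest.Agent.R143.XGx343

open Crest.Agent.R143.B0x346 Crest.Agent.R143.DelGx806 Crest.Agent.R143.DelRx806
open Crest.Agent.R143.ToolWx838 Crest.Agent.R143.Blkx838 Crest.Agent.R143.Planarx54
open Crest.Agent.R143.Circ4x838

variable {S : Finset ℂ} {G : Trg ℂ} {O : Set (ℂ × ℂ × ℂ)} {D : Set (ℂ × ℂ)} {J : Finset (ℂ × ℂ)}

/-- the closed chain `l` uses the edge `p` -/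
def Touch (l : List ℂ) (p : ℂ × ℂ) : Prop := p ∈ prs l ∨ p.swap ∈ prs l










/-- the polygon of the middles of a walk -/
def mids (n : ℕ) (p : ℕ → ℂ × ℂ) : List ℂ := (List.range (n + 1)).map fun k => mid (p k)



end Crest.Agent.R143.XGx343
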