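import Crest.Agent.R143.XLeg_126
import Crest.Agent.R143.XD_697
import Crest.Agent.R143.Indep_583
import Crest.Agent.R143.Loc_922

-- ▼ part R143/XStop_126
section

/-!
# Row 143 (S0194), block X: exploration of legs as a stopping set (helper126)

* `ExS` : the sites of the states explored from the starts `st0 i` (any index type: one leg, three
  legs), the walker stays outside `W`
* `leadsO_loc`, `exS_loc`, `legTip_loc` : if two joins agree on the edges with both ends in `ExS`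
  then they have the same explored part
* `Ex V`, `isStop` : `β ↦ ExS (flip J β) ∩ V` is a stopping set (`Harx315.IsStop`)
* `decided` : every event in terms of the tips is decided by the exploration; `decided_HO`,
  `decided_GO`, `decided_HI`, `decided_GI`
* `frozen` : the colours outside the explored set do not change the explored part
* `pr_shift` : change of gauge
-/

set_option autoImplicit false

noncomputable section

open scoped Classical

namespace Crest.Agent.R143.XStopx126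

open Crest.Agent.R143.B0x346 Crest.Agent.R143.DelGx806 Crest.Agent.R143.DelRx806
open Crest.Agent.R143.ToolWx838 Crest.Agent.R143.Blkx838 Crest.Agent.R143.Planarx54
open Crest.Agent.R143.XGx343 Crest.Agent.R143.X0Bx683 Crest.Agent.R143.JCardx872
open Crest.Agent.R143.JWalkx872 Crest.Agent.R143.JCol2x54 Crest.Agent.R143.XLegx126
open Crest.Agent.R143.Harx315

variable {S : Finset ℂ} {G : Trg ℂ} {kl : Set (ℂ × ℂ)} {O : Set (ℂ × ℂ × ℂ)} {D : Set (ℂ × ℂ)}
  {J J' : Finset (ℂ × ℂ)} {W : Set ℂ} {ι : Type} {st0 : ι → ℂ × ℂ}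

/-- sites of the explored states -/
def ExS (G : Trg ℂ) (O : Set (ℂ × ℂ × ℂ)) (D : Set (ℂ × ℂ)) (J : Finset (ℂ × ℂ)) (W : Set ℂ)
    (st0 : ι → ℂ × ℂ) : Set ℂ :=
  {s | ∃ i, s = (st0 i).1 ∨ s = (st0 i).2 ∨
    (st0 i ∈ J ∧ ∃ x, LeadsO G O D J W (st0 i) x ∧ (s = x.1 ∨ s = x.2))}




/-- the two joins agree on the explored edges -/
def Agr (G : Trg ℂ) (O : Set (ℂ × ℂ × ℂ)) (D : Set (ℂ × ℂ)) (J J' : Finset (ℂ × ℂ)) (W : Set ℂ)
    (st0 : ι → ℂ × ℂ) : Prop :=
  ∀ a b, a ∈ ExS G O D J W st0 → b ∈ ExS G O D J W st0 → ((a, b) ∈ J ↔ (a, b) ∈ J')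





/-! ### stopping sets -/



/-- explored sites in `V` -/
def Ex (G : Trg ℂ) (O : Set (ℂ × ℂ × ℂ)) (D : Set (ℂ × ℂ)) (J : Finset (ℂ × ℂ)) (W : Set ℂ)
    (st0 : ι → ℂ × ℂ) (V : Finset ℂ) (β : Finset ℂ) : Finset ℂ :=
  V.filter fun s => s ∈ ExS G O D (flip G J β) W st0

variable {V : Finset ℂ}





/-! ### the four events -/



variable {N : Net ℂ} {s0 : ℂ × ℂ × ℂ}





/-! ### change of gauge -/



end Crest.Agent.R143.XStopx126
end
end

-- ▼ part R143/XLift_697
section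

/-!
# Row 143 (S0194), block X: total angle of a leg inside a family of closed chains (helper697)

* `Ch` : closed chain `l` with a region `K` (the middles of its edges and all points seen by it) on
  which the angle around `x` has the lift `f`
* `lift_wk` : if the states `p m`, `m < k`, are inside chains of the family and `p k` touches a chain
  which has `p (k - 1)` inside, then the total angle around `x` is `f (end) - f (start)`
* `ch_circ` : circuits around the centres of a tube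
-/

set_option autoImplicit false

noncomputable section

open scoped Classical

namespace Crest.Agent.R143.XLiftx697

open Crest.Agent.R143.B0x346 Crest.Agent.R143.DelGx806 Crest.Agent.R143.DelRx806
open Crest.Agent.R143.ToolWx838 Crest.Agent.R143.Blkx838 Crest.Agent.R143.Planarx54
open Crest.Agent.R143.XGx343 Crest.Agent.R143.X0Bx683 Crest.Agent.R143.CircPx838
open Crest.Agent.R143.XLegx126 Crest.Agent.R143.XDx697

variable {S : Finset ℂ} {G : Trg ℂ} {O : Set (ℂ × ℂ × ℂ)} {D : Set (ℂ × ℂ)} {J : Finset (ℂ × ℂ)}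

/-- closed chain with its region and the lift of the angle -/
structure Ch (S : Finset ℂ) (x : ℂ) (l : List ℂ) (K : Set ℂ) (f : ℂ → ℝ) : Prop where
  loop : Loop S l
  edge : ∀ e, Touch l e → mid e ∈ K
  see : ∀ z, asum z l ≠ 0 → z ∈ K
  ang : ∀ z ∈ K, ∀ w ∈ K, ToolWx838.ang x z w = f w - f z








/-- inside the inner square -/
theorem CircC.ins {c : ℂ} {h : ℝ} {β : Finset ℂ} {l : List ℂ} (hl : CircC S c h β l)
    (hh : 0 < h) {a b : ℂ} (hab : Avoid l (a, b)) (h1 : sup (mid (a, b) - c) ≤ h) :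
    Ins l (a, b) := ⟨hab, by rw [hl.wind _ h1]; positivity⟩

end Crest.Agent.R143.XLiftx697
end
end

-- ▼ part R143/GLIa_126

/-!
# Row 143 (S0194), block X, GLUE-I, part a: circuits, gauges and legs (helper126)

* `tri_len`, `de_len` : edges are short
* `seen_of` : every reachable state is between the start and the tip
* `circ_in`, `circ_far` : edges near the centre of a circuit / far from it
* `gauge_edge` : an occupied edge between two black sites belongs to `G0`
* `InCfg`, `LamI` : explored inner legs with tubes, gauge, circuits / the chain around the port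
* `InCfg.leg` : the leg leaves the circuits of its tube and the chain `lam` through the gate
-/

set_option autoImplicit false

noncomputable section

open scoped Classical

namespace Crest.Agent.R143.GLIx126

open Crest.Agent.R143.B0x346 Crest.Agent.R143.DelGx806 Crest.Agent.R143.DelRx806
open Crest.Agent.R143.ToolWx838 Crest.Agent.R143.Blkx838 Crest.Agent.R143.Planarx54
open Crest.Agent.R143.XGx343 Crest.Agent.R143.X0Bx683 Crest.Agent.R143.JCardx872
open Crest.Agent.R143.JWalkx872 Crest.Agent.R143.JCol2x54 Crest.Agent.R143.XLegx126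
open Crest.Agent.R143.XStopx126 Crest.Agent.R143.Harx315 Crest.Agent.R143.RB0x838
open Crest.Agent.R143.CircPx838 Crest.Agent.R143.Gatex838 Crest.Agent.R143.XDx697
open Crest.Agent.R143.Locx922

variable {S : Finset ℂ} {G : Trg ℂ} {kl : Set (ℂ × ℂ)} {O : Set (ℂ × ℂ × ℂ)} {D : Set (ℂ × ℂ)}
  {J : Finset (ℂ × ℂ)} {W : Set ℂ} {ι : Type} {st0 q : ι → ℂ × ℂ}

/-! ### short edges -/

theorem tri_len {z0 : ℂ} {R d : ℝ} (hD : LDns S z0 R d) {a b c : ℂ} (h : (a, b, c) ∈ delT S)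
    (hc : ‖a - z0‖ + d ≤ R ∨ ‖b - z0‖ + d ≤ R ∨ ‖c - z0‖ + d ≤ R) :
    ‖a - b‖ < 2 * d ∧ ‖b - c‖ < 2 * d ∧ ‖c - a‖ < 2 * d := by
  have hdel : Del (S : Set ℂ) a b c := DelGx806.mem_delT.1 h
  have hol : ∀ w : ℂ, ‖w - z0‖ + d ≤ R → Hol (S : Set ℂ) {w} d := by
    intro w hw v hv z hz
    rw [Set.mem_singleton_iff] at hv
    subst hv
    obtain ⟨s, hs, hsz⟩ := hD.hole z (by
      have e : z - z0 = (z - v) + (v - z0) := by ring
      rw [e]
      exact (norm_add_le _ _).trans (by linarith))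
    exact ⟨s, hs, hsz⟩
  rcases hc with hc | hc | hc
  · exact del_side hD.dpos (hol a hc) (Set.mem_singleton a) (inD_self a b c) hdel
  · exact del_side hD.dpos (hol b hc) (Set.mem_singleton b) (inD_snd a b c) hdel
  · exact del_side hD.dpos (hol c hc) (Set.mem_singleton c) (inD_trd a b c) hdel

theorem de_len {z0 : ℂ} {R d : ℝ} (hD : LDns S z0 R d) {a b : ℂ} (h : DE S a b)
    (hc : ‖a - z0‖ + d ≤ R ∨ ‖b - z0‖ + d ≤ R) : ‖a - b‖ < 2 * d := by
  rcases h with ⟨c, h⟩ | ⟨c, h⟩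
  · exact (tri_len hD h (hc.imp_right Or.inl)).1
  · rw [norm_sub_rev]
    exact (tri_len hD h (hc.symm.imp_right Or.inl)).1

/-! ### reachable states -/


/-! ### circuits -/










/-! ### gauge -/



/-! ### coordinates of the boxes -/














/-! ### the inner configuration -/

/-- explored inner legs with tubes, gauge and circuits -/
structure InCfg (S : Finset ℂ) (N : Net ℂ) (t : ℂ × ℂ × ℂ) (z0 : ℂ) (q h d : ℝ)
    (J : Finset (ℂ × ℂ)) (tip : ZMod 3 → ℂ × ℂ) (c : ZMod 3 → ℂ) (M : ℕ)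
    (pi : Equiv.Perm (ZMod 3)) (n : ZMod 3 → ℕ) (l : ZMod 3 → ℕ → ℂ) (th : ZMod 3 → ℕ → ℝ)
    (G0 : Finset (ℂ × ℂ)) (σ : Finset ℂ) : Prop where
  H : HNet S N
  dns : LDns S z0 (300 * q) d
  hpos : 0 < h
  hq : h ≤ q / 100
  hd : 16 * d ≤ h
  tm : t ∈ delT S
  tn : ∀ i, ‖vt t i - z0‖ ≤ q
  nmk : ∀ i, (vt t i, vt t (i + 1)) ∉ N.exS
  Jm : IsJoin N.toTrg N.kl (rots t) N.exS J
  occ : ∀ i, (vt t i, vt t (i + 1)) ∈ J
  tips : ∀ i, LeadsO N.toTrg (rots t) N.exS J (Dsc z0 (25 * q))ᶜ (st t i) (tip i)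
  apex : ∀ i, ((tip i).1, (tip i).2, c i) ∈ N.T ∧ c i ∉ Dsc z0 (25 * q)
  tub : TubesI z0 q h M c pi n l th
  gau : GaugeI N t z0 q h J n l G0 σ
  cir : ∀ i, ∀ k, k ≤ n i → ∃ C, CircC S (l i k) h σ C

/-- the closed chain of the box `k` (bottom, windows, gate), inner side -/
structure LamI (S : Finset ℂ) (z0 : ℂ) (q : ℝ) (k : ZMod 3) (J : Finset (ℂ × ℂ)) (σ : Finset ℂ)
    (g : ℂ × ℂ) (lam : List ℂ) : Prop where
  loop : Loop S lam
  mem : ∀ s ∈ lam, s ∈ S
  box : ∀ s ∈ lam, |X z0 (ed k) s| ≤ 12 * q ∧ 78 * q ≤ Y z0 (ed k) s ∧ Y z0 (ed k) s ≤ 143 * q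
  mid : ∀ s ∈ lam, Y z0 (ed k) s ≤ 94 * q ∨ 6 * q < |X z0 (ed k) s| ∨ 100 * q < Y z0 (ed k) s
  ins : ∀ z : ℂ, |X z0 (ed k) z| ≤ 6 * q → 94 * q ≤ Y z0 (ed k) z → Y z0 (ed k) z ≤ 102 * q →
    asum z lam ≠ 0
  occ : ∀ e : ℂ × ℂ, Touch lam e → (e ∈ J ∨ e.swap ∈ J) → (e = g ∨ e.swap = g) ∨
    (e.1 ∈ σ ∧ e.2 ∈ σ ∧ ((Y z0 (ed k) e.1 ≤ 94 * q ∧ Y z0 (ed k) e.2 ≤ 94 * q) ∨
      (6 * q < |X z0 (ed k) e.1| ∧ 6 * q < |X z0 (ed k) e.2|)))

variable {N : Net ℂ} {t : ℂ × ℂ × ℂ} {z0 : ℂ} {qq h d : ℝ} {tip : ZMod 3 → ℂ × ℂ} {c : ZMod 3 → ℂ}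
  {M : ℕ} {pi : Equiv.Perm (ZMod 3)} {n : ZMod 3 → ℕ} {l : ZMod 3 → ℕ → ℂ} {th : ZMod 3 → ℕ → ℝ}
  {G0 : Finset (ℂ × ℂ)} {σ : Finset ℂ} {J : Finset (ℂ × ℂ)}


theorem InCfg.dpos (C : InCfg S N t z0 qq h d J tip c M pi n l th G0 σ) : 0 < d := C.dns.dpos

theorem InCfg.out (C : InCfg S N t z0 qq h d J tip c M pi n l th G0 σ) (i : ZMod 3) {k : ℕ}
    (hk : k ≤ n i) : 25 * qq ≤ ‖l i k - z0‖ := by
  have key : ∀ w : ℂ, w ∈ (Dsc z0 (25 * qq))ᶜ → 25 * qq ≤ ‖w - z0‖ := by
    intro w hw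
    by_contra hcon
    exact hw (not_le.1 hcon)
  have T := C.tub.tube i
  rcases k with _ | k
  · rw [C.tub.start i]
    exact key _ (C.apex i).2
  · rcases k with _ | k
    · exact key _ (T.fst (Metric.mem_closedBall_self (norm_nonneg _)))
    · refine key _ (T.dep (k + 1) (by omega) (by omega) (Metric.mem_closedBall_self ?_))
      have := C.hpos
      positivity
















end Crest.Agent.R143.GLIx126
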