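import Crest.Agent.R158.Sp0_896
import Crest.Agent.R143.TileR0_228

-- ▼ part R143/Fine_422
section

/-!
# Row 143 (S0194), CORE-C, RIG, box R1b: the fine parallel curve of a lattice polygon (helper422)

Input: `Cyc F n v` (R158): boundary walk of the set of unit cells `F`, `F` on the left.
`Cl F n p` : the same walk clockwise, indexed by `ℤ` (`F` on the right, outside on the left).
`Fine F n m p M W A` : the parallel curve `W` of `m F` at distance `1` outside of `m F`, clockwise:
* `W (a + M) = W a`, `W a = W b → M ∣ a - b`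
* `W a = W (A k) + (a - A k) • (p (k + 1) - p k)` for `A k ≤ a ≤ A (k + 1)`
* `|W (A k) - m p k| ≤ 1`, `|A (k + 1) - A k - m| ≤ 2`, `A (k + n) = A k + M`
* `off` : no fine cell around `W a` is in `m F`
* `near` : `W a` is at sup distance `≤ 1` from a cell of `m F`
-/

set_option autoImplicit false
set_option linter.all false

namespace Crest.Agent.R143.Finex422

open Crest.Agent.R158.Sp896

/-! ### unit vectors -/

/-- unit vector -/
def Un (d : V) : Prop := d = (1, 0) ∨ d = (0, 1) ∨ d = (-1, 0) ∨ d = (0, -1)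

/-- rotation by 90 degrees -/
def ro (d : V) : V := (-d.2, d.1)

theorem adj_un {a b : V} (h : Adj a b) : Un (b - a) := by
  unfold Adj at h
  unfold Un
  simp only [Prod.ext_iff, Prod.fst_sub, Prod.snd_sub]
  omega


/-- turn number from `e` to `d`: `1` = left turn, `-1` = right turn -/
def tn (e d : V) : ℤ := e.1 * d.2 - e.2 * d.1



/-! ### the clockwise walk -/

/-- clockwise boundary walk, `F` on the right -/
structure Cl (F : Set V) (n : ℕ) (p : ℤ → V) : Prop where
  n4 : 4 ≤ n
  per : ∀ k, p (k + n) = p k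
  inj : ∀ j k, p j = p k → (n : ℤ) ∣ j - k
  step : ∀ k, Adj (p k) (p (k + 1))
  right : ∀ k, rc (p k) (p (k + 1)) ∈ F
  left : ∀ k, lc (p k) (p (k + 1)) ∉ F
  all : ∀ a b, Adj a b → rc a b ∈ F → lc a b ∉ F → ∃ k, p k = a ∧ p (k + 1) = b

theorem lc_swap {a b : V} : lc b a = rc a b := by
  simp only [lc, rc, Prod.mk.injEq]
  constructor <;> congr 1 <;> ring

theorem rc_swap {a b : V} : rc b a = lc a b := by
  simp only [lc, rc, Prod.mk.injEq]
  constructor <;> congr 1 <;> ring

section ofcyc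

variable {F : Set V} {n : ℕ} {v : ℕ → V}

/-- the reversed walk -/
def rev (n : ℕ) (v : ℕ → V) (k : ℤ) : V := v ((-k) % n).toNat

theorem cyc_mul (h : Cyc F n v) (i j : ℕ) : v (i + n * j) = v i := by
  induction j with
  | zero => simp
  | succ j ih => rw [Nat.mul_succ, ← Nat.add_assoc, h.per, ih]

theorem cyc_mod (h : Cyc F n v) (i : ℕ) : v (i % n) = v i := by
  conv_rhs => rw [← Nat.mod_add_div i n]
  rw [cyc_mul h]

theorem rev_eq (h : Cyc F n v) {k : ℤ} {i : ℕ} (hi : (n : ℤ) ∣ k + i) : rev n v k = v i := by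
  have hn : (0 : ℤ) < n := by have := h.four_le; omega
  have h1 : ((-k) % (n : ℤ)) = ((i : ℤ) % n) := by
    apply Int.emod_eq_emod_iff_emod_sub_eq_zero.2
    apply Int.emod_eq_zero_of_dvd
    have : -k - (i : ℤ) = -(k + i) := by ring
    rw [this]
    exact (dvd_neg).2 hi
  rw [rev, h1, ← Int.natCast_mod, Int.toNat_natCast, cyc_mod h]

theorem exists_nat (hn : 0 < n) (k : ℤ) : ∃ i : ℕ, i < n ∧ (n : ℤ) ∣ k + i := by
  have hn' : (0 : ℤ) < n := by exact_mod_cast hn
  refine ⟨((-k) % n).toNat, ?_, ?_⟩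
  · have h1 := Int.emod_lt_of_pos (-k) hn'
    have h2 := Int.emod_nonneg (-k) hn'.ne'
    omega
  · have h2 := Int.emod_nonneg (-k) hn'.ne'
    rw [Int.toNat_of_nonneg h2]
    have h3 := Int.emod_add_mul_ediv (-k) n
    refine ⟨-(-k / n), ?_⟩
    linear_combination h3

theorem cl_of_cyc (h : Cyc F n v) : Cl F n (rev n v) where
  n4 := h.four_le
  per k := by
    have hn : 0 < n := by have := h.four_le; omega
    obtain ⟨i, _, hi⟩ := exists_nat hn k
    rw [rev_eq h hi, rev_eq h (i := i)]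
    have : k + n + (i : ℤ) = (k + i) + n := by ring
    rw [this]
    exact dvd_add hi (dvd_refl _)
  inj j k hjk := by
    have hn : 0 < n := by have := h.four_le; omega
    obtain ⟨i, hi0, hi⟩ := exists_nat hn j
    obtain ⟨i', hi0', hi'⟩ := exists_nat hn k
    rw [rev_eq h hi, rev_eq h hi'] at hjk
    have := h.inj i hi0 i' hi0' hjk
    subst this
    have e : j - k = (j + i) - (k + i) := by ring
    rw [e]
    exact dvd_sub hi hi'
  step k := by
    have hn : 0 < n := by have := h.four_le; omega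
    obtain ⟨i, _, hi⟩ := exists_nat hn (k + 1)
    rw [rev_eq h hi, rev_eq h (k := k) (i := i + 1) (by push_cast; convert hi using 1; ring)]
    exact (h.step i).symm
  right k := by
    have hn : 0 < n := by have := h.four_le; omega
    obtain ⟨i, _, hi⟩ := exists_nat hn (k + 1)
    rw [rev_eq h hi, rev_eq h (k := k) (i := i + 1) (by push_cast; convert hi using 1; ring),
      rc_swap]
    exact h.left i
  left k := by
    have hn : 0 < n := by have := h.four_le; omega
    obtain ⟨i, _, hi⟩ := exists_nat hn (k + 1)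
    rw [rev_eq h hi, rev_eq h (k := k) (i := i + 1) (by push_cast; convert hi using 1; ring),
      lc_swap]
    exact h.right i
  all a b hab h1 h2 := by
    rw [← lc_swap] at h1
    rw [← rc_swap] at h2
    obtain ⟨i, _, h3, h4⟩ := h.all b a hab.symm h1 h2
    refine ⟨-((i : ℤ) + 1), ?_, ?_⟩
    · rw [rev_eq h (i := i + 1) (by push_cast; simp), h4]
    · rw [rev_eq h (i := i) (by simp), h3]

end ofcyc

/-! ### positions -/

section pos

/-- cumulative positions -/
def cum (l : ℤ → ℤ) : ℤ → ℤ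
  | Int.ofNat n => ∑ j ∈ Finset.range n, l j
  | Int.negSucc n => -∑ j ∈ Finset.range (n + 1), l (-(j + 1))

theorem cum_zero (l : ℤ → ℤ) : cum l 0 = 0 := by
  show cum l (Int.ofNat 0) = 0
  simp [cum]

theorem cum_succ (l : ℤ → ℤ) (k : ℤ) : cum l (k + 1) = cum l k + l k := by
  rcases k with n | n
  · show cum l (Int.ofNat (n + 1)) = cum l (Int.ofNat n) + l (Int.ofNat n)
    simp only [cum, Finset.sum_range_succ]
    rfl
  · rcases n with _ | n
    · show cum l (Int.ofNat 0) = cum l (Int.negSucc 0) + l (Int.negSucc 0)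
      simp [cum]
    · have e : Int.negSucc (n + 1) + 1 = Int.negSucc n := by
        rw [Int.negSucc_eq, Int.negSucc_eq]; push_cast; ring
      rw [e]
      simp only [cum]
      rw [Finset.sum_range_succ _ (n + 1)]
      have e2 : Int.negSucc (n + 1) = -(((n + 1 : ℕ) : ℤ) + 1) := by
        rw [Int.negSucc_eq]
      rw [e2]
      ring

variable {l : ℤ → ℤ} (hl : ∀ k, 1 ≤ l k)

include hl

theorem cum_add_le (k : ℤ) (j : ℕ) : cum l k + j ≤ cum l (k + j) := by
  induction j with
  | zero => simp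
  | succ j ih =>
    have h1 := cum_succ l (k + j)
    have h2 := hl (k + j)
    have e : k + ((j + 1 : ℕ) : ℤ) = k + j + 1 := by push_cast; ring
    rw [e, h1]
    push_cast
    linarith

theorem cum_le {j k : ℤ} (h : j ≤ k) : cum l j + (k - j) ≤ cum l k := by
  have h1 := cum_add_le hl j (k - j).toNat
  rw [Int.toNat_of_nonneg (by omega)] at h1
  have e : j + (k - j) = k := by ring
  rwa [e] at h1

theorem cum_lt {j k : ℤ} (h : j < k) : cum l j < cum l k := by
  have := cum_le hl h.le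
  linarith

theorem cum_loc (a : ℤ) : ∃ k, cum l k ≤ a ∧ a < cum l (k + 1) := by
  have hbd : ∃ b : ℤ, ∀ z : ℤ, cum l z ≤ a → z ≤ b := by
    refine ⟨max a 0, fun z hz => ?_⟩
    rcases le_total z 0 with h | h
    · exact h.trans (le_max_right _ _)
    · have h1 := cum_le hl h
      rw [cum_zero] at h1
      exact (by linarith : z ≤ a).trans (le_max_left _ _)
  have hin : ∃ z : ℤ, cum l z ≤ a := by
    refine ⟨min a 0, ?_⟩
    have h1 := cum_le hl (min_le_right a 0)
    rw [cum_zero] at h1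
    have := min_le_left a 0
    linarith
  obtain ⟨k, hk, hk'⟩ := Int.exists_greatest_of_bdd hbd hin
  refine ⟨k, hk, ?_⟩
  by_contra h
  have := hk' (k + 1) (not_lt.1 h)
  omega

theorem cum_uniq {a j k : ℤ} (h1 : cum l j ≤ a) (h2 : a < cum l (j + 1)) (h3 : cum l k ≤ a)
    (h4 : a < cum l (k + 1)) : j = k := by
  by_contra hne
  rcases lt_or_gt_of_ne hne with h | h
  · have := cum_le hl (show j + 1 ≤ k by omega)
    linarith [show (0 : ℤ) ≤ k - (j + 1) by omega]
  · have := cum_le hl (show k + 1 ≤ j by omega)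
    linarith [show (0 : ℤ) ≤ j - (k + 1) by omega]

omit hl in
theorem cum_per {n : ℤ} (hp : ∀ k, l (k + n) = l k) (k : ℤ) : cum l (k + n) = cum l k + cum l n := by
  induction k using Int.induction_on with
  | zero => simp [cum_zero]
  | succ k ih =>
    have e : (k : ℤ) + 1 + n = (k + n) + 1 := by ring
    rw [e, cum_succ, cum_succ, ih, hp]
    ring
  | pred k ih =>
    have e1 : (-(k : ℤ) - 1 + n) + 1 = -k + n := by ring
    have e2 : (-(k : ℤ) - 1) + 1 = -k := by ring
    have h1 := cum_succ l (-(k : ℤ) - 1 + n)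
    have h2 := cum_succ l (-(k : ℤ) - 1)
    rw [e1] at h1
    rw [e2] at h2
    rw [hp] at h1
    linarith

end pos

/-! ### the parallel curve -/

/-- direction of the edge `k` -/
def D (p : ℤ → V) (k : ℤ) : V := p (k + 1) - p k

/-- turn number at the vertex `k` -/
def st (p : ℤ → V) (k : ℤ) : ℤ := tn (D p (k - 1)) (D p k)

/-- the point at parameter `t` along the edge `k`, at distance `1` on the left -/
def pt (m : ℤ) (p : ℤ → V) (k t : ℤ) : V :=
  (m * (p k).1 - (D p k).2 + t * (D p k).1, m * (p k).2 + (D p k).1 + t * (D p k).2)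

/-- length of the piece `k` of the parallel curve -/
def len (m : ℤ) (p : ℤ → V) (k : ℤ) : ℤ := m - st p k - st p (k + 1)

/-- position of the corner `k` -/
def A (m : ℤ) (p : ℤ → V) (k : ℤ) : ℤ := cum (len m p) k

open scoped Classical in
/-- the piece of the position `a` -/
noncomputable def loc (m : ℤ) (p : ℤ → V) (a : ℤ) : ℤ :=
  Classical.epsilon fun k => A m p k ≤ a ∧ a < A m p (k + 1)

/-- **the parallel curve** -/
noncomputable def W (m : ℤ) (p : ℤ → V) (a : ℤ) : V :=
  pt m p (loc m p a) (st p (loc m p a) + (a - A m p (loc m p a)))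

theorem tn_abs {e d : V} (he : Un e) (hd : Un d) : -1 ≤ tn e d ∧ tn e d ≤ 1 := by
  rcases he with rfl | rfl | rfl | rfl <;> rcases hd with rfl | rfl | rfl | rfl <;> simp [tn]

theorem corner {d e : V} (hd : Un d) (he : Un e) (h : e ≠ -d) :
    -e.2 + tn d e * e.1 = -d.2 - tn d e * d.1 ∧ e.1 + tn d e * e.2 = d.1 - tn d e * d.2 := by
  rcases hd with rfl | rfl | rfl | rfl <;> rcases he with rfl | rfl | rfl | rfl <;>
    simp [tn] at h ⊢

section walk

variable {F : Set V} {n : ℕ} {p : ℤ → V} {m : ℤ}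

theorem D_eq (p : ℤ → V) (k : ℤ) : p (k + 1) = p k + D p k := by simp [D]

theorem Cl.un (h : Cl F n p) (k : ℤ) : Un (D p k) := adj_un (h.step k)

theorem Cl.nb (h : Cl F n p) (k : ℤ) : D p (k + 1) ≠ -D p k := by
  intro e
  have h1 : p (k + 1 + 1) = p k := by
    rw [D_eq p (k + 1), D_eq p k, e]; simp
  have h2 := h.inj _ _ h1
  have e2 : k + 1 + 1 - k = 2 := by ring
  rw [e2] at h2
  have := Int.le_of_dvd (by norm_num) h2
  have := h.n4
  omega

theorem Cl.nb' (h : Cl F n p) (k : ℤ) : D p k ≠ -D p (k - 1) := by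
  have := h.nb (k - 1)
  rwa [sub_add_cancel] at this

theorem Cl.perD (h : Cl F n p) (k : ℤ) : D p (k + n) = D p k := by
  unfold D
  rw [h.per, show k + (n : ℤ) + 1 = (k + 1) + n by ring, h.per]

theorem Cl.perst (h : Cl F n p) (k : ℤ) : st p (k + n) = st p k := by
  unfold st
  rw [h.perD, show k + (n : ℤ) - 1 = (k - 1) + n by ring, h.perD]

theorem Cl.st_abs (h : Cl F n p) (k : ℤ) : -1 ≤ st p k ∧ st p k ≤ 1 := tn_abs (h.un _) (h.un _)

theorem Cl.perlen (h : Cl F n p) (k : ℤ) : len m p (k + n) = len m p k := by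
  unfold len
  rw [h.perst, show k + (n : ℤ) + 1 = (k + 1) + n by ring, h.perst]

theorem Cl.len_pos (h : Cl F n p) (hm : 4 ≤ m) (k : ℤ) : 1 ≤ len m p k := by
  have h1 := h.st_abs k
  have h2 := h.st_abs (k + 1)
  unfold len
  omega

theorem pt_end (h : Cl F n p) (k : ℤ) :
    pt m p (k + 1) (st p (k + 1)) = pt m p k (m - st p (k + 1)) := by
  have h1 := corner (h.un k) (h.un (k + 1)) (h.nb k)
  have e : st p (k + 1) = tn (D p k) (D p (k + 1)) := by
    unfold st; rw [add_sub_cancel_right]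
  rw [← e] at h1
  unfold pt
  rw [D_eq p k]
  ext
  · simp only [Prod.fst_add]
    linear_combination h1.1
  · simp only [Prod.snd_add]
    linear_combination h1.2

theorem W_at0 (h : Cl F n p) (hm : 4 ≤ m) {k a : ℤ} (h1 : A m p k ≤ a) (h2 : a < A m p (k + 1)) :
    W m p a = pt m p k (st p k + (a - A m p k)) := by
  have h3 := Classical.epsilon_spec (cum_loc (h.len_pos hm) a)
  have h4 : loc m p a = k := cum_uniq (h.len_pos hm) h3.1 h3.2 h1 h2
  rw [W, h4]

theorem A_succ (m : ℤ) (p : ℤ → V) (k : ℤ) : A m p (k + 1) = A m p k + len m p k := cum_succ _ _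

theorem W_at (h : Cl F n p) (hm : 4 ≤ m) {k a : ℤ} (h1 : A m p k ≤ a) (h2 : a ≤ A m p (k + 1)) :
    W m p a = pt m p k (st p k + (a - A m p k)) := by
  rcases h2.lt_or_eq with h3 | h3
  · exact W_at0 h hm h1 h3
  · have h4 : A m p (k + 1) < A m p (k + 1 + 1) := cum_lt (h.len_pos hm) (by omega)
    rw [W_at0 h hm (k := k + 1) h3.ge (h3 ▸ h4), h3, sub_self, add_zero, pt_end h, A_succ]
    congr 1
    unfold len
    ring

theorem W_A (h : Cl F n p) (hm : 4 ≤ m) (k : ℤ) : W m p (A m p k) = pt m p k (st p k) := by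
  rw [W_at h hm le_rfl (cum_lt (h.len_pos hm) (by omega)).le, sub_self, add_zero]

theorem loc_ex (h : Cl F n p) (hm : 4 ≤ m) (a : ℤ) : ∃ k, A m p k ≤ a ∧ a < A m p (k + 1) :=
  cum_loc (h.len_pos hm) a

theorem A_per (h : Cl F n p) (k : ℤ) : A m p (k + n) = A m p k + A m p n :=
  cum_per h.perlen k

theorem W_per (h : Cl F n p) (hm : 4 ≤ m) (a : ℤ) : W m p (a + A m p n) = W m p a := by
  obtain ⟨k, h1, h2⟩ := loc_ex h hm a
  have h3 := A_per (m := m) h k
  have h4 := A_per (m := m) h (k + 1)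
  have e : k + 1 + (n : ℤ) = k + n + 1 := by ring
  rw [e] at h4
  rw [W_at h hm h1 h2.le, W_at h hm (k := k + n) (by linarith) (by linarith), h.perst]
  have e2 : a + A m p n - A m p (k + n) = a - A m p k := by rw [h3]; ring
  rw [e2]
  unfold pt
  rw [h.perD, h.per]

theorem W_step (h : Cl F n p) (hm : 4 ≤ m) {k a : ℤ} (h1 : A m p k ≤ a) (h2 : a < A m p (k + 1)) :
    W m p (a + 1) - W m p a = D p k := by
  rw [W_at h hm h1 h2.le, W_at h hm (k := k) (a := a + 1) (by omega) (by omega)]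
  unfold pt
  ext
  · simp only [Prod.fst_sub]; ring
  · simp only [Prod.snd_sub]; ring


/-! ### injectivity -/

theorem small {m a s : ℤ} (hm : 4 ≤ m) (h : m * a = s) (h1 : s ≤ 2 * m + 3)
    (h2 : -(2 * m + 3) ≤ s) : -2 ≤ a ∧ a ≤ 2 := by
  constructor
  · by_contra hc
    have : a ≤ -3 := by omega
    nlinarith
  · by_contra hc
    have : 3 ≤ a := by omega
    nlinarith

/-- points of the parallel curves of two unit edges without common end point are different -/
theorem far_pt {m : ℤ} (hm : 4 ≤ m) {P Q d e : V} (hd : Un d) (he : Un e) {t u : ℤ}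
    (ht : -1 ≤ t) (ht' : t ≤ m + 1) (hu : -1 ≤ u) (hu' : u ≤ m + 1)
    (h1 : m * P.1 - d.2 + t * d.1 = m * Q.1 - e.2 + u * e.1)
    (h2 : m * P.2 + d.1 + t * d.2 = m * Q.2 + e.1 + u * e.2) :
    P = Q ∨ P = Q + e ∨ P + d = Q ∨ P + d = Q + e := by
  obtain ⟨p1, p2⟩ := P
  obtain ⟨q1, q2⟩ := Q
  obtain ⟨a, ha⟩ : ∃ a, a = q1 - p1 := ⟨_, rfl⟩
  obtain ⟨b, hb⟩ : ∃ b, b = q2 - p2 := ⟨_, rfl⟩
  obtain rfl : q1 = p1 + a := by omega
  obtain rfl : q2 = p2 + b := by omega
  have e1 : m * a = -d.2 + t * d.1 + e.2 - u * e.1 := by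
    simp only at h1
    linear_combination -h1
  have e2 : m * b = d.1 + t * d.2 - e.1 - u * e.2 := by
    simp only at h2
    linear_combination -h2
  clear h1 h2 ha hb
  have key : (-2 ≤ a ∧ a ≤ 2) ∧ (-2 ≤ b ∧ b ≤ 2) := by
    rcases hd with rfl | rfl | rfl | rfl <;> rcases he with rfl | rfl | rfl | rfl <;>
      simp only at e1 e2 <;>
      exact ⟨small hm e1 (by linarith) (by linarith), small hm e2 (by linarith) (by linarith)⟩
  obtain ⟨⟨a0, a1⟩, b0, b1⟩ := key
  have ca : a = -2 ∨ a = -1 ∨ a = 0 ∨ a = 1 ∨ a = 2 := by omega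
  have cb : b = -2 ∨ b = -1 ∨ b = 0 ∨ b = 1 ∨ b = 2 := by omega
  simp only [Prod.mk.injEq, Prod.ext_iff, Prod.fst_add, Prod.snd_add]
  rcases hd with rfl | rfl | rfl | rfl <;> rcases he with rfl | rfl | rfl | rfl <;>
    simp only at e1 e2 ⊢ <;>
    rcases ca with rfl | rfl | rfl | rfl | rfl <;> rcases cb with rfl | rfl | rfl | rfl | rfl <;>
    omega

theorem par {F : Set V} (h : Cl F n p) (hm : 4 ≤ m) {k a : ℤ} (h1 : A m p k ≤ a)
    (h2 : a ≤ A m p (k + 1)) :
    -1 ≤ st p k + (a - A m p k) ∧ st p k + (a - A m p k) ≤ m + 1 := by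
  have h3 := h.st_abs k
  have h4 := h.st_abs (k + 1)
  rw [A_succ] at h2
  unfold len at h2
  constructor <;> linarith [h3.1, h3.2, h4.1, h4.2]

theorem W_mul (h : Cl F n p) (hm : 4 ≤ m) (a : ℤ) (j : ℤ) : W m p (a + A m p n * j) = W m p a := by
  induction j using Int.induction_on with
  | zero => simp
  | succ j ih => rw [mul_add, mul_one, ← add_assoc, W_per h hm, ih]
  | pred j ih =>
    have h1 := W_per h hm (a + A m p n * (-(j : ℤ) - 1))
    have e : a + A m p n * (-(j : ℤ) - 1) + A m p n = a + A m p n * (-(j : ℤ)) := by ring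
    rw [← h1, e, ih]

theorem A_mul (h : Cl F n p) (k j : ℤ) : A m p (k + n * j) = A m p k + A m p n * j := by
  induction j using Int.induction_on with
  | zero => simp
  | succ j ih =>
    have e : k + (n : ℤ) * (j + 1) = (k + n * j) + n := by ring
    rw [e, A_per h, ih]; ring
  | pred j ih =>
    have h1 := A_per (m := m) h (k + n * (-(j : ℤ) - 1))
    have e : k + (n : ℤ) * (-(j : ℤ) - 1) + n = k + n * (-(j : ℤ)) := by ring
    rw [e, ih] at h1
    linarith

theorem p_mul (h : Cl F n p) (k j : ℤ) : p (k + n * j) = p k := by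
  induction j using Int.induction_on with
  | zero => simp
  | succ j ih =>
    have e : k + (n : ℤ) * (j + 1) = (k + n * j) + n := by ring
    rw [e, h.per, ih]
  | pred j ih =>
    have h1 := h.per (k + n * (-(j : ℤ) - 1))
    have e : k + (n : ℤ) * (-(j : ℤ) - 1) + n = k + n * (-(j : ℤ)) := by ring
    rw [e, ih] at h1
    exact h1.symm

/-- two positions on the same piece or on consecutive pieces -/
theorem inj_near (h : Cl F n p) (hm : 4 ≤ m) {k l a b : ℤ} (h1 : A m p k ≤ a)
    (h2 : a < A m p (k + 1)) (h3 : A m p l ≤ b) (h4 : b < A m p (l + 1))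
    (hl : l = k ∨ l = k + 1) (e : W m p a = W m p b) : a = b := by
  rw [W_at h hm h1 h2.le, W_at h hm h3 h4.le] at e
  rcases hl with rfl | rfl
  · unfold pt at e
    rw [Prod.mk.injEq] at e
    obtain ⟨e1, e2⟩ := e
    rcases h.un l with hd | hd | hd | hd <;> rw [hd] at e1 e2 <;> simp only at e1 e2 <;> linarith
  · exfalso
    -- the corner
    have hc : pt m p (k + 1) (st p (k + 1)) = pt m p k (m - st p (k + 1)) := pt_end h k
    have e3 : A m p (k + 1) = A m p k + (m - st p k - st p (k + 1)) := A_succ m p k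
    obtain ⟨x, hx⟩ : ∃ x, x = A m p (k + 1) - a := ⟨_, rfl⟩
    obtain ⟨y, hy⟩ : ∃ y, y = b - A m p (k + 1) := ⟨_, rfl⟩
    have hx0 : 0 < x := by omega
    have hy0 : 0 ≤ y := by omega
    have hb := h.nb k
    unfold pt at e hc
    rw [Prod.mk.injEq] at e hc
    obtain ⟨e1, e2⟩ := e
    obtain ⟨c1, c2⟩ := hc
    have g1 : x * (D p k).1 + y * (D p (k + 1)).1 = 0 := by
      have ea : a = A m p k + (m - st p k - st p (k + 1)) - x := by omega
      have eb : b = A m p k + (m - st p k - st p (k + 1)) + y := by omega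
      rw [ea, eb, e3] at e1
      linear_combination -e1 - c1
    have g2 : x * (D p k).2 + y * (D p (k + 1)).2 = 0 := by
      have ea : a = A m p k + (m - st p k - st p (k + 1)) - x := by omega
      have eb : b = A m p k + (m - st p k - st p (k + 1)) + y := by omega
      rw [ea, eb, e3] at e2
      linear_combination -e2 - c2
    rcases h.un k with hd | hd | hd | hd <;> rcases h.un (k + 1) with he | he | he | he <;>
      rw [hd, he] at g1 g2 hb <;> simp at g1 g2 hb <;> omega

theorem W_inj (h : Cl F n p) (hm : 4 ≤ m) {a b : ℤ} (e : W m p a = W m p b) :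
    A m p n ∣ b - a := by
  obtain ⟨k, h1, h2⟩ := loc_ex h hm a
  obtain ⟨l, h3, h4⟩ := loc_ex h hm b
  have hpa := par h hm h1 h2.le
  have hpb := par h hm h3 h4.le
  have e' := e
  rw [W_at h hm h1 h2.le, W_at h hm h3 h4.le] at e'
  unfold pt at e'
  rw [Prod.mk.injEq] at e'
  have hf := far_pt hm (h.un k) (h.un l) hpa.1 hpa.2 hpb.1 hpb.2 e'.1 e'.2
  rw [← D_eq p k, ← D_eq p l] at hf
  -- shift
  have shift : ∀ j : ℤ, (∃ q : ℤ, l + n * q = j) → (j = k ∨ j = k + 1 ∨ j = k - 1) →
      A m p n ∣ b - a := by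
    rintro j ⟨q, hq⟩ hj
    have s1 := A_mul (m := m) h l q
    have s2 := A_mul (m := m) h (l + 1) q
    rw [hq] at s1
    have e5 : l + 1 + (n : ℤ) * q = j + 1 := by rw [← hq]; ring
    rw [e5] at s2
    have e6 : W m p (b + A m p n * q) = W m p b := W_mul h hm b q
    have h5 : A m p j ≤ b + A m p n * q := by linarith
    have h6 : b + A m p n * q < A m p (j + 1) := by linarith
    have h7 : a = b + A m p n * q := by
      rcases hj with rfl | rfl | rfl
      · exact inj_near h hm h1 h2 h5 h6 (Or.inl rfl) (e.trans e6.symm)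
      · exact inj_near h hm h1 h2 h5 h6 (Or.inr rfl) (e.trans e6.symm)
      · exact (inj_near h hm h5 h6 h1 h2 (Or.inr (by ring)) (e6.trans e.symm)).symm
    refine ⟨-q, ?_⟩
    rw [h7]; ring
  rcases hf with hf | hf | hf | hf
  · obtain ⟨q, hq⟩ := h.inj _ _ hf
    exact shift k ⟨q, by linarith⟩ (Or.inl rfl)
  · obtain ⟨q, hq⟩ := h.inj _ _ hf
    exact shift (k - 1) ⟨q, by linarith⟩ (Or.inr (Or.inr rfl))
  · obtain ⟨q, hq⟩ := h.inj _ _ hf
    exact shift (k + 1) ⟨q, by linarith⟩ (Or.inr (Or.inl rfl))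
  · obtain ⟨q, hq⟩ := h.inj _ _ hf
    exact shift k ⟨q, by linarith⟩ (Or.inl rfl)


/-! ### outside of `m F`, at distance `1` -/

/-- no fine cell around the fine vertex `w` is in `m F` -/
def Off (m : ℤ) (F : Set V) (w : V) : Prop := ∀ f : V, (f.1 = w.1 - 1 ∨ f.1 = w.1) →
  (f.2 = w.2 - 1 ∨ f.2 = w.2) → (f.1 / m, f.2 / m) ∉ F

/-- the fine vertex `w` is at sup distance `≤ 1` from a cell of `m F` -/
def Near (m : ℤ) (F : Set V) (w : V) : Prop := ∃ c ∈ F, (m * c.1 - 1 ≤ w.1 ∧ w.1 ≤ m * (c.1 + 1) + 1) ∧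
  (m * c.2 - 1 ≤ w.2 ∧ w.2 ≤ m * (c.2 + 1) + 1)

theorem div_small {m x r : ℤ} (hm : 4 ≤ m) (h1 : -m ≤ r) (h2 : r < 2 * m) :
    (r < 0 ∧ (m * x + r) / m = x - 1) ∨ (0 ≤ r ∧ r < m ∧ (m * x + r) / m = x) ∨
      (m ≤ r ∧ (m * x + r) / m = x + 1) := by
  have hm0 : 0 < m := by omega
  rcases lt_or_ge r 0 with h | h
  · left
    refine ⟨h, ?_⟩
    have e : m * x + r = (r + m) + m * (x - 1) := by ring
    rw [e, Int.add_mul_ediv_left _ _ hm0.ne', Int.ediv_eq_zero_of_lt (by omega) (by omega)]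
    ring
  · rcases lt_or_ge r m with h' | h'
    · right; left
      refine ⟨h, h', ?_⟩
      have e : m * x + r = r + m * x := by ring
      rw [e, Int.add_mul_ediv_left _ _ hm0.ne', Int.ediv_eq_zero_of_lt (by omega) (by omega)]
      ring
    · right; right
      refine ⟨h', ?_⟩
      have e : m * x + r = (r - m) + m * (x + 1) := by ring
      rw [e, Int.add_mul_ediv_left _ _ hm0.ne', Int.ediv_eq_zero_of_lt (by omega) (by omega)]
      ring

/-- the coarse cells which contain the fine cells around a point of the parallel curve -/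
theorem cell_cases {m : ℤ} (hm : 4 ≤ m) {P d : V} (hd : Un d) {t : ℤ} (ht : -1 ≤ t)
    (ht' : t ≤ m + 1) {f : V}
    (h1 : f.1 = (m * P.1 - d.2 + t * d.1) - 1 ∨ f.1 = m * P.1 - d.2 + t * d.1)
    (h2 : f.2 = (m * P.2 + d.1 + t * d.2) - 1 ∨ f.2 = m * P.2 + d.1 + t * d.2) :
    (f.1 / m, f.2 / m) = lc P (P + d) ∨
      (t ≤ 0 ∧ (f.1 / m, f.2 / m) = lc P (P + d) - d) ∨
      (m ≤ t ∧ (f.1 / m, f.2 / m) = lc P (P + d) + d) := by
  obtain ⟨p1, p2⟩ := P
  obtain ⟨f1, f2⟩ := f
  obtain ⟨r, hr⟩ : ∃ r, r = f1 - m * p1 := ⟨_, rfl⟩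
  obtain ⟨s, hs⟩ : ∃ s, s = f2 - m * p2 := ⟨_, rfl⟩
  obtain rfl : f1 = m * p1 + r := by omega
  obtain rfl : f2 = m * p2 + s := by omega
  clear hr hs
  simp only at h1 h2 ⊢
  rcases hd with rfl | rfl | rfl | rfl
  · have a1 : r = t - 1 ∨ r = t := by
      rcases h1 with h1 | h1
      · left; linear_combination h1
      · right; linear_combination h1
    have a2 : s = 0 ∨ s = 1 := by
      rcases h2 with h2 | h2
      · left; linear_combination h2
      · right; linear_combination h2
    obtain c1 := div_small (x := p1) (r := r) hm (by omega) (by omega)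
    obtain c2 := div_small (x := p2) (r := s) hm (by omega) (by omega)
    simp only [lc, Prod.mk_add_mk, Prod.mk_sub_mk, Prod.mk.injEq]
    rcases c1 with ⟨c, e⟩ | ⟨c, c', e⟩ | ⟨c, e⟩ <;> rcases c2 with ⟨b, e'⟩ | ⟨b, b', e'⟩ | ⟨b, e'⟩ <;>
      rw [e, e'] <;> omega
  · have a1 : r = -2 ∨ r = -1 := by
      rcases h1 with h1 | h1
      · left; linear_combination h1
      · right; linear_combination h1
    have a2 : s = t - 1 ∨ s = t := by
      rcases h2 with h2 | h2
      · left; linear_combination h2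
      · right; linear_combination h2
    obtain c1 := div_small (x := p1) (r := r) hm (by omega) (by omega)
    obtain c2 := div_small (x := p2) (r := s) hm (by omega) (by omega)
    simp only [lc, Prod.mk_add_mk, Prod.mk_sub_mk, Prod.mk.injEq]
    rcases c1 with ⟨c, e⟩ | ⟨c, c', e⟩ | ⟨c, e⟩ <;> rcases c2 with ⟨b, e'⟩ | ⟨b, b', e'⟩ | ⟨b, e'⟩ <;>
      rw [e, e'] <;> omega
  · have a1 : r = -t - 1 ∨ r = -t := by
      rcases h1 with h1 | h1
      · left; linear_combination h1
      · right; linear_combination h1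
    have a2 : s = -2 ∨ s = -1 := by
      rcases h2 with h2 | h2
      · left; linear_combination h2
      · right; linear_combination h2
    obtain c1 := div_small (x := p1) (r := r + m) hm (by omega) (by omega)
    obtain c2 := div_small (x := p2) (r := s) hm (by omega) (by omega)
    have e0 : (m * p1 + (r + m)) / m = (m * p1 + r) / m + 1 := by
      have : m * p1 + (r + m) = (m * p1 + r) + m * 1 := by ring
      rw [this, Int.add_mul_ediv_left _ _ (by omega)]
    rw [e0] at c1
    simp only [lc, Prod.mk_add_mk, Prod.mk_sub_mk, Prod.mk.injEq]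
    rcases c1 with ⟨c, e⟩ | ⟨c, c', e⟩ | ⟨c, e⟩ <;> rcases c2 with ⟨b, e'⟩ | ⟨b, b', e'⟩ | ⟨b, e'⟩ <;>
      rw [e'] <;> omega
  · have a1 : r = 0 ∨ r = 1 := by
      rcases h1 with h1 | h1
      · left; linear_combination h1
      · right; linear_combination h1
    have a2 : s = -t - 1 ∨ s = -t := by
      rcases h2 with h2 | h2
      · left; linear_combination h2
      · right; linear_combination h2
    obtain c1 := div_small (x := p1) (r := r) hm (by omega) (by omega)
    obtain c2 := div_small (x := p2) (r := s + m) hm (by omega) (by omega)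
    have e0 : (m * p2 + (s + m)) / m = (m * p2 + s) / m + 1 := by
      have : m * p2 + (s + m) = (m * p2 + s) + m * 1 := by ring
      rw [this, Int.add_mul_ediv_left _ _ (by omega)]
    rw [e0] at c2
    simp only [lc, Prod.mk_add_mk, Prod.mk_sub_mk, Prod.mk.injEq]
    rcases c1 with ⟨c, e⟩ | ⟨c, c', e⟩ | ⟨c, e⟩ <;> rcases c2 with ⟨b, e'⟩ | ⟨b, b', e'⟩ | ⟨b, e'⟩ <;>
      rw [e] <;> omega

theorem Cl.dper (h : Cl F n p) {j k : ℤ} (e : (n : ℤ) ∣ j - k) : D p j = D p k := by
  obtain ⟨q, hq⟩ := e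
  have e1 : j = k + n * q := by linarith
  unfold D
  rw [e1, show k + (n : ℤ) * q + 1 = (k + 1) + n * q by ring, p_mul h, p_mul h]

/-- the direction after a vertex -/
theorem Cl.out (h : Cl F n p) {j k : ℤ} (e : p j = p k) : D p j = D p k := h.dper (h.inj _ _ e)

/-- the cell behind the left cell -/
theorem back (h : Cl F n p) (k : ℤ) (hs : st p k ≤ 0) : lc (p k) (p (k + 1)) - D p k ∉ F := by
  intro hF
  have hl := h.left k
  have hl' := h.left (k - 1)
  rw [sub_add_cancel] at hl'
  have e1 : p k = p (k - 1) + D p (k - 1) := by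
    have := D_eq p (k - 1)
    rwa [sub_add_cancel] at this
  rw [D_eq p k] at hF hl
  -- the edge between the two cells
  have hk := h.un k
  have hk1 := h.un (k - 1)
  have hnb := h.nb' k
  set P := p k with hP
  have hp1 : p (k - 1) = P - D p (k - 1) := by rw [e1]; abel
  rw [hp1] at hl'
  have hst : st p k = tn (D p (k - 1)) (D p k) := rfl
  rw [hst] at hs
  have hall := h.all (P + ro (D p k)) P
  have fin : lc (P + ro (D p k)) P ∉ F → rc (P + ro (D p k)) P ∈ F → Adj (P + ro (D p k)) P →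
      D p (k - 1) ≠ -ro (D p k) → False := by
    intro g1 g2 g3 g4
    obtain ⟨j, hj1, hj2⟩ := hall g3 g2 g1
    have hj3 : D p (j + 1) = D p k := h.out hj2
    have hj4 : (n : ℤ) ∣ (j + 1) - k := h.inj _ _ hj2
    have hj5 : D p j = D p (k - 1) := h.dper (by
      have : j - (k - 1) = (j + 1) - k := by ring
      rwa [this])
    apply g4
    rw [← hj5]
    unfold D
    rw [hj2, hj1]
    abel
  generalize D p k = d at *
  generalize D p (k - 1) = e at *
  obtain ⟨x, y⟩ := P
  rcases hk with rfl | rfl | rfl | rfl <;> rcases hk1 with rfl | rfl | rfl | rfl <;>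
    simp [tn] at hs hnb
  all_goals
    first
    | (apply hl'
       convert hF using 1
       simp only [lc, Prod.mk_add_mk, Prod.mk_sub_mk, Prod.mk.injEq]
       omega)
    | (refine fin ?_ ?_ ?_ ?_
       · intro g
         apply hl
         convert g using 1
         simp only [lc, ro, Prod.mk_add_mk, Prod.mk_sub_mk, Prod.mk.injEq]
         omega
       · convert hF using 1
         simp only [lc, rc, ro, Prod.mk_add_mk, Prod.mk_sub_mk, Prod.mk.injEq]
         omega
       · unfold Adj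
         simp only [ro, Prod.mk_add_mk]
         omega
       · simp [ro])


/-- the cell in front of the left cell -/
theorem front (h : Cl F n p) (k : ℤ) (hs : st p (k + 1) ≤ 0) :
    lc (p k) (p (k + 1)) + D p k ∉ F := by
  intro hF
  have hl := h.left k
  have hl' := h.left (k + 1)
  have e1 : p (k + 1) = p k + D p k := D_eq p k
  rw [D_eq p (k + 1)] at hl'
  have hk := h.un k
  have hk1 := h.un (k + 1)
  have hnb := h.nb k
  set P := p (k + 1) with hP
  have hp1 : p k = P - D p k := by rw [e1]; abel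
  rw [hp1] at hl hF
  have hst : st p (k + 1) = tn (D p k) (D p (k + 1)) := by
    unfold st; rw [add_sub_cancel_right]
  rw [hst] at hs
  have hall := h.all P (P + ro (D p k))
  have fin : lc P (P + ro (D p k)) ∉ F → rc P (P + ro (D p k)) ∈ F → Adj P (P + ro (D p k)) →
      D p (k + 1) ≠ ro (D p k) → False := by
    intro g1 g2 g3 g4
    obtain ⟨j, hj1, hj2⟩ := hall g3 g2 g1
    have hj3 : D p j = D p (k + 1) := h.out hj1
    apply g4
    rw [← hj3]
    unfold D
    rw [hj2, hj1]
    abel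
  generalize D p k = d at *
  generalize D p (k + 1) = e at *
  obtain ⟨x, y⟩ := P
  rcases hk with rfl | rfl | rfl | rfl <;> rcases hk1 with rfl | rfl | rfl | rfl <;>
    simp [tn] at hs hnb
  all_goals
    first
    | (apply hl'
       convert hF using 1
       simp only [lc, Prod.mk_add_mk, Prod.mk_sub_mk, Prod.mk.injEq]
       omega)
    | (refine fin ?_ ?_ ?_ ?_
       · intro g
         apply hl
         convert g using 1
         simp only [lc, ro, Prod.mk_add_mk, Prod.mk_sub_mk, Prod.mk.injEq]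
         omega
       · convert hF using 1
         simp only [lc, rc, ro, Prod.mk_add_mk, Prod.mk_sub_mk, Prod.mk.injEq]
         omega
       · unfold Adj
         simp [ro, sub_eq_add_neg]
       · simp [ro])

/-- **outside of `m F`** -/
theorem W_off (h : Cl F n p) (hm : 4 ≤ m) (a : ℤ) : Off m F (W m p a) := by
  obtain ⟨k, h1, h2⟩ := loc_ex h hm a
  have hp := par h hm h1 h2.le
  have hA := A_succ m p k
  unfold len at hA
  rw [W_at h hm h1 h2.le]
  intro f f1 f2 hF
  unfold pt at f1 f2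
  have hc := cell_cases hm (h.un k) hp.1 hp.2 f1 f2
  rw [← D_eq p k] at hc
  rcases hc with e | ⟨h0, e⟩ | ⟨h0, e⟩
  · rw [e] at hF
    exact h.left k hF
  · rw [e] at hF
    exact back h k (by linarith) hF
  · rw [e] at hF
    exact front h k (by linarith) hF

/-- **at sup distance at most `1`** -/
theorem W_near (h : Cl F n p) (hm : 4 ≤ m) (a : ℤ) : Near m F (W m p a) := by
  obtain ⟨k, h1, h2⟩ := loc_ex h hm a
  have hp := par h hm h1 h2.le
  rw [W_at h hm h1 h2.le]
  refine ⟨_, h.right k, ?_⟩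
  rw [D_eq p k]
  unfold pt
  generalize st p k + (a - A m p k) = t at *
  have hd := h.un k
  generalize D p k = d at *
  generalize p k = P at *
  obtain ⟨x, y⟩ := P
  obtain ⟨g1, g2⟩ := hp
  rcases hd with rfl | rfl | rfl | rfl
  · have e : rc (x, y) ((x, y) + (1, 0)) = (x, y - 1) := by
      simp only [rc, Prod.mk_add_mk, Prod.mk.injEq]; omega
    rw [e]
    simp only
    refine ⟨⟨?_, ?_⟩, ?_, ?_⟩ <;> linarith
  · have e : rc (x, y) ((x, y) + (0, 1)) = (x, y) := by
      simp only [rc, Prod.mk_add_mk, Prod.mk.injEq]; omega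
    rw [e]
    simp only
    refine ⟨⟨?_, ?_⟩, ?_, ?_⟩ <;> linarith
  · have e : rc (x, y) ((x, y) + (-1, 0)) = (x - 1, y) := by
      simp only [rc, Prod.mk_add_mk, Prod.mk.injEq]; omega
    rw [e]
    simp only
    refine ⟨⟨?_, ?_⟩, ?_, ?_⟩ <;> linarith
  · have e : rc (x, y) ((x, y) + (0, -1)) = (x - 1, y - 1) := by
      simp only [rc, Prod.mk_add_mk, Prod.mk.injEq]; omega
    rw [e]
    simp only
    refine ⟨⟨?_, ?_⟩, ?_, ?_⟩ <;> linarith

/-- the corners of the parallel curve are near the vertices of `m F` -/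
theorem W_vertex (h : Cl F n p) (hm : 4 ≤ m) (k : ℤ) :
    |(W m p (A m p k)).1 - m * (p k).1| ≤ 1 ∧ |(W m p (A m p k)).2 - m * (p k).2| ≤ 1 := by
  rw [W_A h hm]
  have h1 := h.st_abs k
  unfold pt
  rcases h.un k with hd | hd | hd | hd <;> rw [hd] <;> simp only [abs_le] <;>
    refine ⟨⟨?_, ?_⟩, ?_, ?_⟩ <;> linarith [h1.1, h1.2]

theorem A_len (h : Cl F n p) (k : ℤ) :
    m - 2 ≤ A m p (k + 1) - A m p k ∧ A m p (k + 1) - A m p k ≤ m + 2 := by
  have h1 := h.st_abs k
  have h2 := h.st_abs (k + 1)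
  rw [A_succ]
  unfold len
  constructor <;> linarith [h1.1, h1.2, h2.1, h2.2]

theorem A_zero (m : ℤ) (p : ℤ → V) : A m p 0 = 0 := cum_zero _

theorem A_lt (h : Cl F n p) (hm : 4 ≤ m) {j k : ℤ} (hjk : j < k) : A m p j < A m p k :=
  cum_lt (h.len_pos hm) hjk

theorem A_n (h : Cl F n p) (hm : 4 ≤ m) : (n : ℤ) ≤ A m p n := by
  have := cum_le (h.len_pos hm) (show (0 : ℤ) ≤ n by omega)
  rw [cum_zero] at this
  unfold A
  linarith

/-- the curve does not turn back -/
theorem W_turn (h : Cl F n p) (hm : 4 ≤ m) (a : ℤ) : W m p (a + 2) ≠ W m p a := by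
  intro e
  have h1 := W_inj h hm e.symm
  have e2 : a + 2 - a = 2 := by ring
  rw [e2] at h1
  have h2 := Int.le_of_dvd (by norm_num) h1
  have h3 := A_n h hm
  have := h.n4
  omega

theorem W_un (h : Cl F n p) (hm : 4 ≤ m) (a : ℤ) : Un (W m p (a + 1) - W m p a) := by
  obtain ⟨k, h1, h2⟩ := loc_ex h hm a
  rw [W_step h hm h1 h2]
  exact h.un k

/-- straight inside of the pieces -/
theorem W_seg (h : Cl F n p) (hm : 4 ≤ m) {k a : ℤ} (h1 : A m p k ≤ a) (h2 : a ≤ A m p (k + 1)) :
    W m p a = W m p (A m p k) + (a - A m p k) • D p k := by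
  rw [W_at h hm h1 h2, W_A h hm]
  unfold pt
  ext
  · simp only [Prod.fst_add, Prod.smul_fst, smul_eq_mul]; ring
  · simp only [Prod.snd_add, Prod.smul_snd, smul_eq_mul]; ring

end walk

/-! ### summary -/

/-- **the parallel curve**, all facts -/
structure Fine (F : Set V) (n : ℕ) (m : ℤ) (p : ℤ → V) (M : ℕ) (W : ℤ → V) (A : ℤ → ℤ) : Prop where
  cl : Cl F n p
  /-- curve -/
  M4 : 4 ≤ M
  per : ∀ a, W (a + M) = W a
  un : ∀ a, Un (W (a + 1) - W a)
  turn : ∀ a, W (a + 2) ≠ W a
  inj : ∀ a b, W a = W b → (M : ℤ) ∣ b - a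
  /-- positions of the corners -/
  A0 : A 0 = 0
  Alt : ∀ j k, j < k → A j < A k
  Aper : ∀ k, A (k + n) = A k + M
  Alen : ∀ k, m - 2 ≤ A (k + 1) - A k ∧ A (k + 1) - A k ≤ m + 2
  loc : ∀ a, ∃ k, A k ≤ a ∧ a < A (k + 1)
  vert : ∀ k, |(W (A k)).1 - m * (p k).1| ≤ 1 ∧ |(W (A k)).2 - m * (p k).2| ≤ 1
  step : ∀ k a, A k ≤ a → a < A (k + 1) → W (a + 1) - W a = p (k + 1) - p k
  seg : ∀ k a, A k ≤ a → a ≤ A (k + 1) → W a = W (A k) + (a - A k) • (p (k + 1) - p k)
  /-- exact form: `W a = m p k + i D + t D` with `-1 ≤ t ≤ m + 1` -/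
  exact : ∀ k a, A k ≤ a → a ≤ A (k + 1) → ∃ t : ℤ, -1 ≤ t ∧ t ≤ m + 1 ∧
    W a = m • p k + ro (p (k + 1) - p k) + t • (p (k + 1) - p k)
  off : ∀ a, Off m F (W a)
  near : ∀ a, Near m F (W a)

/-- **existence** -/
theorem exists_fine {F : Set V} {n : ℕ} {p : ℤ → V} (h : Cl F n p) {m : ℤ} (hm : 4 ≤ m) :
    ∃ (M : ℕ) (W : ℤ → V) (A : ℤ → ℤ), Fine F n m p M W A := by
  have hA := A_n h hm
  have h4 := h.n4
  have hM : ((Finex422.A m p n).toNat : ℤ) = Finex422.A m p n := Int.toNat_of_nonneg (by omega)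
  refine ⟨(Finex422.A m p n).toNat, W m p, Finex422.A m p, ?_⟩
  exact
    { cl := h
      M4 := by omega
      per := fun a => by rw [hM]; exact W_per h hm a
      un := W_un h hm
      turn := W_turn h hm
      inj := fun a b e => by rw [hM]; exact W_inj h hm e
      A0 := A_zero m p
      Alt := fun j k hjk => A_lt h hm hjk
      Aper := fun k => by rw [hM]; exact A_per h k
      Alen := A_len h
      loc := loc_ex h hm
      vert := W_vertex h hm
      step := fun k a h1 h2 => W_step h hm h1 h2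
      seg := fun k a h1 h2 => W_seg h hm h1 h2
      exact := fun k a h1 h2 => ⟨_, (par h hm h1 h2).1, (par h hm h1 h2).2, by
        rw [W_at h hm h1 h2]
        show pt m p k _ = _
        unfold pt
        ext
        · simp only [Prod.fst_add, Prod.smul_fst, smul_eq_mul, ro, D]
          try ring
        · simp only [Prod.snd_add, Prod.smul_snd, smul_eq_mul, ro, D]
          try ring⟩
      off := W_off h hm
      near := W_near h hm }

/-- **existence** from R158's boundary walk -/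
theorem exists_fine_cyc {F : Set V} {n : ℕ} {v : ℕ → V} (h : Cyc F n v) {m : ℤ} (hm : 4 ≤ m) :
    ∃ (M : ℕ) (W : ℤ → V) (A : ℤ → ℤ), Fine F n m (rev n v) M W A :=
  exists_fine (cl_of_cyc h) hm

end Crest.Agent.R143.Finex422
private theorem rz_ae3c24170e : type_of% @_root_.Crest.Agent.R143.Finex422.cum.eq_1 := @_root_.Crest.Agent.R143.Finex422.cum.eq_1 -- L163
end

-- ▼ part R143/Fine2_422

/-!
# Row 143 (S0194), RIG, box R1b: the parallel curve is an `FPath` of 228 (helper422)
-/

set_option autoImplicit false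

namespace Crest.Agent.R143.Finex422

open Crest.Agent.R158.Sp896 Crest.Agent.R143.TileRx228

variable {F : Set V} {n : ℕ} {m : ℤ} {p : ℤ → V} {M : ℕ} {W : ℤ → V} {A : ℤ → ℤ}

theorem Fine.fpath (h : Fine F n m p M W A) : FPath M W where
  per := h.per
  step a := h.un a
  turn := h.turn
  simple a b e := h.inj a b e

end Crest.Agent.R143.Finex422
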