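import Crest.Agent.R143.Cfg_416

/-!
# Row 143 (S0194), BLOCK D: polygon and tentacles, interface (helper416)

* `Pol4 D AA e s F N v m` : outer grid polygon of the Jordan domain `D` with four marked boundary
  edges, side `i` (edges `m i ≤ k ≤ m (i+1)`) near the arc `AA i` (counterclockwise)
* `POLY` (439) : existence
* `Ten s F N v m C δ κ B` : output of TENT for the polygon
* `TENT` (359, 951, 806)
-/

set_option autoImplicit false

noncomputable section

namespace Crest.Agent.R143.Tenx416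

open Set Filter Topology
open Crest.Agent.R158.Sp896 Crest.Agent.R158.Jt785
open Crest.ProbabilityR.Percolation
open Crest.Agent.R143.Cfgx416

/-- periodic extension -/
def gp (g : ℝ → ℂ) (t : ℝ) : ℂ := g (Int.fract t)

/-- closed polygon -/
def Pg (s : ℝ) (F : Set V) : Set ℂ := ⋃ q ∈ F, sq s q

/-- last (marked) edge of the side `i` -/
def nx (N : ℕ) (m : ℕ → ℕ) (i : ZMod 4) : ℕ := if i = 3 then m 0 + N else m (i.val + 1)

/-- the boundary edge `k` belongs to the closed side `i` (marked edges included) -/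
def OnS (N : ℕ) (m : ℕ → ℕ) (i : ZMod 4) (k : ℕ) : Prop := m i.val ≤ k ∧ k ≤ nx N m i

/-- outer polygon -/
structure Pol4 (D : Set ℂ) (AA : ZMod 4 → Set ℂ) (e s : ℝ) (F : Set V) (N : ℕ) (v : ℕ → V)
    (m : ℕ → ℕ) : Prop where
  s_pos : 0 < s
  s_lt : s < e
  fin : F.Finite
  con : ∀ q ∈ F, ∀ q' ∈ F, Con F q q'
  con' : ∀ q ∉ F, ∀ q' ∉ F, Con Fᶜ q q'
  cyc : Cyc F N v
  m01 : m 0 < m 1
  m12 : m 1 < m 2
  m23 : m 2 < m 3
  m3N : m 3 < N
  side : ∀ i k, OnS N m i k → ∀ z ∈ ed s (v k) (v (k + 1)), Nr e (AA i) z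
  /-- all cells meeting `closure D` are in `F` -/
  cover : ∀ q, (sq s q ∩ closure D).Nonempty → q ∈ F
  /-- all points of the polygon are near `closure D` -/
  out : ∀ q ∈ F, ∀ z ∈ sq s q, Nr e (closure D) z
  /-- inner cells of boundary edges meet `closure D` -/
  lcD : ∀ k, (sq s (lc (v k) (v (k + 1))) ∩ closure D).Nonempty

/-- **POLY** (439). `a` : four parameters modulo 1, in increasing order -/
def POLY : Prop := ∀ (g : ℝ → ℂ) (f : ℂ → ℂ), Unif g f → ∀ a : ℤ → ℝ, StrictMono a →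
  (∀ k, a (k + 4) = a k + 1) → ∀ e : ℝ, 0 < e →
  ∃ (rv : Bool) (s : ℝ) (F : Set V) (N : ℕ) (v : ℕ → V) (m : ℕ → ℕ),
    Pol4 (jordanInterior g)
      (rvA rv fun i : ZMod 4 => gp g '' Icc (a (i.val : ℤ)) (a ((i.val : ℤ) + 1))) e s F N v m

/-- four tentacles attached to the polygon `Pg s F` at the middles of the marked edges `m k` -/
structure Ten (s : ℝ) (F : Set V) (N : ℕ) (v : ℕ → V) (m : ℕ → ℕ) (C : Cfg 4) (δ κ : ℝ)
    (B : ZMod 4 → Set ℂ) : Prop where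
  ok : C.OK δ
  kpos : 0 < κ
  ks : κ < s
  bd : Pg s F ⊆ Metric.closedBall C.c (C.L / 4)
  Bc : ∀ k, IsClosed (B k)
  body : C.outᶜ = Pg s F ∪ ⋃ k, B k
  /-- the tentacle `k` only comes near the polygon at the marked edge `m k` -/
  mth : ∀ k, ∀ w ∈ B k, ∀ x ∈ Pg s F, dist w x < κ →
    ∃ z ∈ ed s (v (m k.val)) (v (m k.val + 1)), dist z w < κ ∧ dist z x < κ
  /-- the region `i` only comes near the polygon at the side `i` -/
  nb : ∀ x ∈ Pg s F, ∀ i, ∀ w ∈ C.R i, dist w x < κ →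
    ∃ k, OnS N m i k ∧ ∃ z ∈ ed s (v k) (v (k + 1)), dist z x < κ
  /-- near the open side `i` there is nothing but the polygon and the region `i` -/
  side : ∀ i k, m i.val < k → k < nx N m i → ∀ z ∈ ed s (v k) (v (k + 1)),
    Metric.ball z κ ⊆ Pg s F ∪ C.R i
  /-- the region `i` is near every point of the closed side `i` -/
  near : ∀ i k, OnS N m i k → ∀ z ∈ ed s (v k) (v (k + 1)), ∃ w ∈ C.R i, dist w z < 3 * s
  tt : ∀ j k, j ≠ k → ∀ y ∈ B j, ∀ w ∈ B k, κ ≤ dist y w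
  tr : ∀ k, ∀ y ∈ B k, ∀ w, dist w y < κ → w ∈ B k ∨ w ∈ Pg s F ∨ w ∈ C.R (k - 1) ∨ w ∈ C.R k
  tc : ∀ k, C.cone δ k ⊆ B k
  /-- connection from the centre of the inner cell of the marked edge to the ray, with margin -/
  mouth : ∀ k : ZMod 4, ∃ P : Set ℂ, IsPreconnected P ∧ P ⊆ B k ∪ Pg s F ∧
    P ⊆ Metric.closedBall C.c (3 / 4 * C.L) ∧
    C.c + ((3 / 4 * C.L : ℝ) : ℂ) * C.q k ∈ P ∧
    P ∩ Pg s F ⊆ sq s (lc (v (m k.val)) (v (m k.val + 1))) ∧
    (∃ y ∈ P, y ∈ interior (sq s (lc (v (m k.val)) (v (m k.val + 1))))) ∧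
    ∀ y ∈ P, Disjoint (Metric.ball y κ) C.out



end Crest.Agent.R143.Tenx416
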