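import Crest.Agent.R143.TileR0_228
import Crest.Agent.R143.Ten_416

/-!
# Row 143 (S0194), CORE-C, box R1b, distance half (helper576)

`W` = fine parallel curve (422), `RR` = tile regions (228), `Pg (m h) F` = closed polygon (416).
* `Off m F w` : none of the four fine cells around `w` lies in `m F`; `Near m F w` : `w` is at sup
  distance at most one from a closed cell of `m F`
* `edge_far` : (D1) fine edges are at sup distance at least `h` from the polygon
* `RR_far`, `RR_far_dist`, `RR_off`, `RR_infDist`, `RR_infDist_fr` : (D2) tile regions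
* `RR_near` : (D3)
-/

set_option autoImplicit false

noncomputable section

open scoped Classical

namespace Crest.Agent.R143.FineDx576

open Set
open Crest.Agent.R158.Sp896
open Crest.Agent.R143.Tenx416 (Pg)
open Crest.Agent.R143.TileRx228 (U4 cz cen gz ge Arm RR FPath)
open Crest.Agent.R143.Gatex838 (X Y)

/-- none of the four fine cells around the lattice point `w` lies in `m F` -/
def Off (m : ℕ) (F : Set V) (w : V) : Prop := ∀ f : V, (f.1 = w.1 - 1 ∨ f.1 = w.1) →
  (f.2 = w.2 - 1 ∨ f.2 = w.2) → (f.1 / (m : ℤ), f.2 / (m : ℤ)) ∉ F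

/-- `w` is at sup distance at most one from a closed cell of `m F` -/
def Near (m : ℕ) (F : Set V) (w : V) : Prop := ∃ c ∈ F,
  ((m : ℤ) * c.1 - 1 ≤ w.1 ∧ w.1 ≤ m * (c.1 + 1) + 1) ∧
    ((m : ℤ) * c.2 - 1 ≤ w.2 ∧ w.2 ≤ m * (c.2 + 1) + 1)

/-- a real number between two integers lies in a unit interval between them -/
theorem unit_cell {x : ℝ} {a b : ℤ} (hab : a < b) (h1 : (a : ℝ) ≤ x) (h2 : x ≤ b) :
    ∃ f : ℤ, a ≤ f ∧ f < b ∧ (f : ℝ) ≤ x ∧ x ≤ f + 1 := by
  by_cases h : x < b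
  · exact ⟨⌊x⌋, Int.le_floor.2 h1, Int.floor_lt.2 h, Int.floor_le x, (Int.lt_floor_add_one x).le⟩
  · have hx : x = b := le_antisymm h2 (not_lt.1 h)
    refine ⟨b - 1, by omega, by omega, ?_, ?_⟩ <;> rw [hx] <;> push_cast <;> linarith

theorem ediv_cell {m : ℕ} {f c : ℤ} (h1 : (m : ℤ) * c ≤ f) (h2 : f < m * (c + 1)) :
    f / (m : ℤ) = c := by
  have hm : (0 : ℤ) < m := by
    by_contra h
    have : (m : ℤ) = 0 := by omega
    rw [this] at h1 h2
    omega
  apply le_antisymm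
  · have := Int.ediv_lt_of_lt_mul hm (a := f) (b := c + 1) (by linarith [mul_comm (m : ℤ) (c + 1)])
    omega
  · exact Int.le_ediv_of_mul_le hm (by linarith [mul_comm (m : ℤ) c])

/-- integer form: a real point at sup distance `< 1` of the fine edge is not in the polygon -/
theorem edge_aux {m : ℕ} (hm : 0 < m) {F : Set V} {w d c : V} (hd : U4 d) (h1 : Off m F w)
    (h2 : Off m F (w + d)) (hc : c ∈ F) {t x y : ℝ} (t0 : 0 ≤ t) (t1 : t ≤ 1)
    (x1 : (m : ℝ) * c.1 ≤ x) (x2 : x ≤ m * (c.1 + 1)) (y1 : (m : ℝ) * c.2 ≤ y)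
    (y2 : y ≤ m * (c.2 + 1)) :
    1 ≤ |((w.1 : ℝ) + t * d.1) - x| ∨ 1 ≤ |((w.2 : ℝ) + t * d.2) - y| := by
  by_contra hcon
  push Not at hcon
  obtain ⟨hx, hy⟩ := hcon
  rw [abs_lt] at hx hy
  have hm' : (0 : ℤ) < m := by exact_mod_cast hm
  obtain ⟨f, f1, f2, f3, f4⟩ := unit_cell (x := x) (a := (m : ℤ) * c.1) (b := m * (c.1 + 1))
    (by nlinarith) (by push_cast; exact x1) (by push_cast; exact x2)
  obtain ⟨g, g1, g2, g3, g4⟩ := unit_cell (x := y) (a := (m : ℤ) * c.2) (b := m * (c.2 + 1))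
    (by nlinarith) (by push_cast; exact y1) (by push_cast; exact y2)
  have hfg : (f / (m : ℤ), g / (m : ℤ)) ∈ F := by
    rw [ediv_cell f1 f2, ediv_cell g1 g2]
    exact hc
  obtain ⟨w1, w2⟩ := w
  simp only [Off, Prod.fst_add, Prod.snd_add] at h1 h2
  simp only at hx hy
  rcases hd with rfl | rfl | rfl | rfl
  · simp only [Int.cast_one, Int.cast_zero, mul_one, mul_zero, add_zero] at hx hy
    have a1 : f < w1 + 2 := by
      have : (f : ℝ) < ((w1 + 2 : ℤ) : ℝ) := by push_cast; linarith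
      exact_mod_cast this
    have a2 : w1 - 2 < f := by
      have : ((w1 - 2 : ℤ) : ℝ) < f := by push_cast; linarith
      exact_mod_cast this
    have a3 : g < w2 + 1 := by
      have : (g : ℝ) < ((w2 + 1 : ℤ) : ℝ) := by push_cast; linarith
      exact_mod_cast this
    have a4 : w2 - 2 < g := by
      have : ((w2 - 2 : ℤ) : ℝ) < g := by push_cast; linarith
      exact_mod_cast this
    by_cases hf : f ≤ w1
    · exact h1 (f, g) (by simp only; omega) (by simp only; omega) hfg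
    · exact h2 (f, g) (by simp only; omega) (by simp only; omega) hfg
  · simp only [Int.cast_one, Int.cast_zero, mul_one, mul_zero, add_zero] at hx hy
    have a1 : f < w1 + 1 := by
      have : (f : ℝ) < ((w1 + 1 : ℤ) : ℝ) := by push_cast; linarith
      exact_mod_cast this
    have a2 : w1 - 2 < f := by
      have : ((w1 - 2 : ℤ) : ℝ) < f := by push_cast; linarith
      exact_mod_cast this
    have a3 : g < w2 + 2 := by
      have : (g : ℝ) < ((w2 + 2 : ℤ) : ℝ) := by push_cast; linarith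
      exact_mod_cast this
    have a4 : w2 - 2 < g := by
      have : ((w2 - 2 : ℤ) : ℝ) < g := by push_cast; linarith
      exact_mod_cast this
    by_cases hf : g ≤ w2
    · exact h1 (f, g) (by simp only; omega) (by simp only; omega) hfg
    · exact h2 (f, g) (by simp only; omega) (by simp only; omega) hfg
  · simp only [Int.cast_neg, Int.cast_one, Int.cast_zero, mul_neg, mul_one, mul_zero,
      add_zero] at hx hy
    have a1 : f < w1 + 1 := by
      have : (f : ℝ) < ((w1 + 1 : ℤ) : ℝ) := by push_cast; linarith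
      exact_mod_cast this
    have a2 : w1 - 3 < f := by
      have : ((w1 - 3 : ℤ) : ℝ) < f := by push_cast; linarith
      exact_mod_cast this
    have a3 : g < w2 + 1 := by
      have : (g : ℝ) < ((w2 + 1 : ℤ) : ℝ) := by push_cast; linarith
      exact_mod_cast this
    have a4 : w2 - 2 < g := by
      have : ((w2 - 2 : ℤ) : ℝ) < g := by push_cast; linarith
      exact_mod_cast this
    by_cases hf : w1 - 1 ≤ f
    · exact h1 (f, g) (by simp only; omega) (by simp only; omega) hfg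
    · exact h2 (f, g) (by simp only; omega) (by simp only; omega) hfg
  · simp only [Int.cast_neg, Int.cast_one, Int.cast_zero, mul_neg, mul_one, mul_zero,
      add_zero] at hx hy
    have a1 : f < w1 + 1 := by
      have : (f : ℝ) < ((w1 + 1 : ℤ) : ℝ) := by push_cast; linarith
      exact_mod_cast this
    have a2 : w1 - 2 < f := by
      have : ((w1 - 2 : ℤ) : ℝ) < f := by push_cast; linarith
      exact_mod_cast this
    have a3 : g < w2 + 1 := by
      have : (g : ℝ) < ((w2 + 1 : ℤ) : ℝ) := by push_cast; linarith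
      exact_mod_cast this
    have a4 : w2 - 3 < g := by
      have : ((w2 - 3 : ℤ) : ℝ) < g := by push_cast; linarith
      exact_mod_cast this
    by_cases hf : w2 - 1 ≤ g
    · exact h1 (f, g) (by simp only; omega) (by simp only; omega) hfg
    · exact h2 (f, g) (by simp only; omega) (by simp only; omega) hfg


variable {m : ℕ} {F : Set V} {h : ℝ}

/-- **(D1)** fine edges are at sup distance at least `h` from the polygon -/
theorem edge_far (hh : 0 < h) (hm : 0 < m) {w d : V} (hd : U4 d) (h1 : Off m F w)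
    (h2 : Off m F (w + d)) {t : ℝ} (t0 : 0 ≤ t) (t1 : t ≤ h) {x : ℂ} (hx : x ∈ Pg (m * h) F) :
    h ≤ |(h * w.1 + t * d.1) - x.re| ∨ h ≤ |(h * w.2 + t * d.2) - x.im| := by
  rw [Pg, mem_iUnion₂] at hx
  obtain ⟨c, hc, x1, x2, x3, x4⟩ := hx
  have key := edge_aux hm hd h1 h2 hc (t := t / h) (x := x.re / h) (y := x.im / h)
    (by positivity) (by rw [div_le_one hh]; exact t1)
    (by rw [le_div_iff₀ hh]; linarith) (by rw [div_le_iff₀ hh]; linarith)
    (by rw [le_div_iff₀ hh]; linarith) (by rw [div_le_iff₀ hh]; linarith)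
  have e : ∀ a b u : ℝ, |(a + t / h * u) - b / h| = |(h * a + t * u) - b| / h := by
    intro a b u
    rw [← abs_of_pos hh, ← abs_div, abs_of_pos hh]
    congr 1
    field_simp
  rw [e, e, le_div_iff₀ hh, le_div_iff₀ hh, one_mul] at key
  exact key

theorem U4.neg {u : V} (hu : U4 u) : U4 (-u) := by
  rcases hu with rfl | rfl | rfl | rfl
  · exact Or.inr (Or.inr (Or.inl rfl))
  · exact Or.inr (Or.inr (Or.inr rfl))
  · exact Or.inl rfl
  · exact Or.inr (Or.inl rfl)

theorem X_eq {u : V} (hu : U4 u) (c s : ℂ) :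
    X c (cz u) s = (s.re - c.re) * u.1 + (s.im - c.im) * u.2 := by
  rcases hu with rfl | rfl | rfl | rfl <;> simp [X, cz, Complex.div_re, Complex.normSq]

theorem Y_eq {u : V} (hu : U4 u) (c s : ℂ) :
    Y c (cz u) s = (s.im - c.im) * u.1 - (s.re - c.re) * u.2 := by
  rcases hu with rfl | rfl | rfl | rfl <;> simp [Y, cz, Complex.div_im, Complex.normSq]

/-- foot point of a point of an arm -/
theorem arm_pt {A B : ℝ} (hB : 0 ≤ B) {c s : ℂ} {u : V} (hu : U4 u) (hs : s ∈ Arm A B c (cz u)) :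
    ∃ t : ℝ, 0 ≤ t ∧ t ≤ B ∧ |s.re - (c.re + t * u.1)| ≤ A ∧ |s.im - (c.im + t * u.2)| ≤ A := by
  obtain ⟨⟨h1, h2⟩, h3⟩ := hs
  rw [X_eq hu] at h1 h2
  rw [Y_eq hu] at h3
  have hA : 0 < A := lt_of_le_of_lt (abs_nonneg _) h3
  rw [abs_lt] at h3
  have key : ∀ p : ℝ, -A < p → p < B → 0 ≤ max 0 p ∧ max 0 p ≤ B ∧ -A ≤ p - max 0 p ∧
      p - max 0 p ≤ 0 := by
    intro p q1 q2
    rcases le_total 0 p with h0 | h0
    · rw [max_eq_right h0]
      exact ⟨h0, q2.le, by linarith, by linarith⟩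
    · rw [max_eq_left h0]
      exact ⟨le_rfl, hB, by linarith, by linarith⟩
  obtain ⟨k1, k2, k3, k4⟩ := key _ h1 h2
  refine ⟨_, k1, k2, ?_, ?_⟩ <;>
  (generalize hM : max 0 ((s.re - c.re) * (u.1 : ℝ) + (s.im - c.im) * (u.2 : ℝ)) = M at k3 k4 ⊢
   rw [abs_le]
   rcases hu with rfl | rfl | rfl | rfl <;>
    simp only [Int.cast_one, Int.cast_zero, Int.cast_neg, mul_one, mul_zero, mul_neg, add_zero,
      zero_add, sub_zero, zero_sub] at h3 k3 k4 ⊢ <;> constructor <;> linarith)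

theorem arm_box {A B : ℝ} {c s : ℂ} {u : V} (hAB : A ≤ B) (hu : U4 u)
    (hs : s ∈ Arm A B c (cz u)) : |s.re - c.re| ≤ B ∧ |s.im - c.im| ≤ B := by
  obtain ⟨⟨h1, h2⟩, h3⟩ := hs
  rw [X_eq hu] at h1 h2
  rw [Y_eq hu] at h3
  rw [abs_lt] at h3
  rw [abs_le, abs_le]
  rcases hu with rfl | rfl | rfl | rfl <;>
    simp only [Int.cast_one, Int.cast_zero, Int.cast_neg, mul_one, mul_zero, mul_neg, add_zero,
      zero_add, sub_zero, zero_sub] at h1 h2 h3 ⊢ <;> refine ⟨⟨?_, ?_⟩, ⟨?_, ?_⟩⟩ <;> linarith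

theorem cen_re (h : ℝ) (W : ℤ → ℤ × ℤ) (a : ℤ) : (cen h W a).re = h * (W a).1 := by
  simp [cen, cz]

theorem cen_im (h : ℝ) (W : ℤ → ℤ × ℤ) (a : ℤ) : (cen h W a).im = h * (W a).2 := by
  simp [cen, cz]

variable {M : ℕ} {W : ℤ → ℤ × ℤ} {A B : ℝ}

/-- **(D2)** tile regions are at sup distance at least `h - A` from the polygon -/
theorem RR_far (hW : FPath M W) (hoff : ∀ a, Off m F (W a)) (hm : 0 < m) (hh : 0 < h) (hB : 0 ≤ B)
    (hBh : B ≤ h) {a : ℤ} {s : ℂ} (hs : s ∈ RR A B h W a) {x : ℂ} (hx : x ∈ Pg (m * h) F) :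
    h - A ≤ |s.re - x.re| ∨ h - A ≤ |s.im - x.im| := by
  have key : ∀ u : V, U4 u → Off m F (W a + u) → s ∈ Arm A B (cen h W a) (cz u) →
      h - A ≤ |s.re - x.re| ∨ h - A ≤ |s.im - x.im| := by
    intro u hu hou hsu
    obtain ⟨t, t0, t1, t2, t3⟩ := arm_pt hB hu hsu
    rw [cen_re] at t2
    rw [cen_im] at t3
    rcases edge_far hh hm hu (hoff a) hou t0 (t1.trans hBh) hx with h1 | h1
    · left
      have := abs_sub_abs_le_abs_sub (h * (W a).1 + t * u.1 - x.re) (h * (W a).1 + t * u.1 - s.re)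
      have e : h * (W a).1 + t * u.1 - x.re - (h * (W a).1 + t * u.1 - s.re) = s.re - x.re := by
        ring
      rw [e, abs_sub_comm (h * (W a).1 + t * u.1) s.re] at this
      linarith
    · right
      have := abs_sub_abs_le_abs_sub (h * (W a).2 + t * u.2 - x.im) (h * (W a).2 + t * u.2 - s.im)
      have e : h * (W a).2 + t * u.2 - x.im - (h * (W a).2 + t * u.2 - s.im) = s.im - x.im := by
        ring
      rw [e, abs_sub_comm (h * (W a).2 + t * u.2) s.im] at this
      linarith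
  rcases hs with hs | hs
  · refine key _ ?_ ?_ hs
    · have := hW.step (a - 1)
      rw [sub_add_cancel] at this
      have h2 := U4.neg this
      rwa [neg_sub] at h2
    · rw [add_sub_cancel]; exact hoff _
  · refine key _ (hW.step a) ?_ hs
    rw [add_sub_cancel]; exact hoff _

theorem le_dist_of {r : ℝ} {s x : ℂ} (h : r ≤ |s.re - x.re| ∨ r ≤ |s.im - x.im|) :
    r ≤ dist s x := by
  rw [Complex.dist_eq]
  rcases h with h | h
  · exact h.trans (by simpa using Complex.abs_re_le_norm (s - x))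
  · exact h.trans (by simpa using Complex.abs_im_le_norm (s - x))

theorem RR_far_dist (hW : FPath M W) (hoff : ∀ a, Off m F (W a)) (hm : 0 < m) (hh : 0 < h)
    (hB : 0 ≤ B) (hBh : B ≤ h) {a : ℤ} {s : ℂ} (hs : s ∈ RR A B h W a) {x : ℂ}
    (hx : x ∈ Pg (m * h) F) : h - A ≤ dist s x :=
  le_dist_of (RR_far hW hoff hm hh hB hBh hs hx)

theorem RR_off (hW : FPath M W) (hoff : ∀ a, Off m F (W a)) (hm : 0 < m) (hh : 0 < h)
    (hB : 0 ≤ B) (hBh : B ≤ h) (hA : A < h) {a : ℤ} {s : ℂ} (hs : s ∈ RR A B h W a) :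
    s ∉ Pg (m * h) F := by
  intro hx
  have := RR_far_dist hW hoff hm hh hB hBh hs hx
  rw [dist_self] at this
  linarith

theorem dist_le_of {r : ℝ} {s x : ℂ} (h : |s.re - x.re| ≤ r) (h' : |s.im - x.im| ≤ r) :
    dist s x ≤ 3 / 2 * r := by
  have hr : 0 ≤ r := (abs_nonneg _).trans h
  rw [Complex.dist_eq]
  have h1 := Complex.sq_norm_sub_sq_re (s - x)
  rw [Complex.sub_re, Complex.sub_im] at h1
  have h2 : (s.re - x.re) ^ 2 ≤ r ^ 2 := sq_le_sq' (by linarith [(abs_le.1 h).1]) (abs_le.1 h).2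
  have h3 : (s.im - x.im) ^ 2 ≤ r ^ 2 := sq_le_sq' (by linarith [(abs_le.1 h').1]) (abs_le.1 h').2
  have h4 := norm_nonneg (s - x)
  nlinarith

/-- **(D3)** tile regions are near the polygon -/
theorem RR_near (hW : FPath M W) (hnear : ∀ a, Near m F (W a)) (hh : 0 < h) (hAB : A ≤ B)
    {a : ℤ} {s : ℂ} (hs : s ∈ RR A B h W a) : ∃ x ∈ Pg (m * h) F,
    |s.re - x.re| ≤ h + B ∧ |s.im - x.im| ≤ h + B := by
  have hb : |s.re - (cen h W a).re| ≤ B ∧ |s.im - (cen h W a).im| ≤ B := by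
    rcases hs with hs | hs
    · refine arm_box hAB ?_ hs
      have := hW.step (a - 1)
      rw [sub_add_cancel] at this
      have h2 := U4.neg this
      rwa [neg_sub] at h2
    · exact arm_box hAB (hW.step a) hs
  rw [cen_re, cen_im] at hb
  obtain ⟨c, hc, ⟨n1, n2⟩, n3, n4⟩ := hnear a
  have r1 : (m : ℝ) * c.1 - 1 ≤ (W a).1 := by exact_mod_cast n1
  have r2 : ((W a).1 : ℝ) ≤ m * (c.1 + 1) + 1 := by exact_mod_cast n2
  have r3 : (m : ℝ) * c.2 - 1 ≤ (W a).2 := by exact_mod_cast n3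
  have r4 : ((W a).2 : ℝ) ≤ m * (c.2 + 1) + 1 := by exact_mod_cast n4
  have hm : (0 : ℝ) ≤ m := Nat.cast_nonneg m
  have cl : ∀ p w : ℝ, (m : ℝ) * p - 1 ≤ w → w ≤ m * (p + 1) + 1 →
      ∃ y : ℝ, m * p ≤ y ∧ y ≤ m * (p + 1) ∧ |w - y| ≤ 1 := by
    intro p w q1 q2
    refine ⟨max (m * p) (min w (m * (p + 1))), le_max_left _ _, max_le (by nlinarith)
      (min_le_right _ _), ?_⟩
    rcases le_total w (m * (p + 1)) with g1 | g1
    · rw [min_eq_left g1]
      rcases le_total (m * p) w with g2 | g2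
      · rw [max_eq_right g2, sub_self, abs_zero]; norm_num
      · rw [max_eq_left g2, abs_le]; constructor <;> linarith
    · rw [min_eq_right g1, max_eq_right (by nlinarith), abs_le]; constructor <;> linarith
  obtain ⟨y1, u1, u2, u3⟩ := cl _ _ r1 r2
  obtain ⟨y2, v1, v2, v3⟩ := cl _ _ r3 r4
  refine ⟨⟨h * y1, h * y2⟩, ?_, ?_, ?_⟩
  · rw [Pg, mem_iUnion₂]
    refine ⟨c, hc, ?_, ?_, ?_, ?_⟩ <;> simp only <;> nlinarith
  · have e : s.re - h * y1 = (s.re - h * (W a).1) + h * ((W a).1 - y1) := by ring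
    simp only
    rw [e]
    refine (abs_add_le _ _).trans ?_
    rw [abs_mul, abs_of_pos hh]
    nlinarith [hb.1]
  · have e : s.im - h * y2 = (s.im - h * (W a).2) + h * ((W a).2 - y2) := by ring
    simp only
    rw [e]
    refine (abs_add_le _ _).trans ?_
    rw [abs_mul, abs_of_pos hh]
    nlinarith [hb.2]


theorem seg_fr {s x : ℂ} {P : Set ℂ} (hs : s ∉ P) (hx : x ∈ P) :
    ∃ y ∈ segment ℝ s x, y ∈ frontier P := by
  by_contra hcon
  push Not at hcon
  have hor : ∀ y ∈ segment ℝ s x, y ∈ interior P ∨ y ∈ interior Pᶜ := by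
    intro y hy
    have h1 : y ∈ (frontier P)ᶜ := hcon y hy
    rwa [compl_frontier_eq_union_interior] at h1
  obtain ⟨y, -, y1, y2⟩ := (convex_segment s x).isPreconnected (interior P) (interior Pᶜ)
    isOpen_interior isOpen_interior (fun y hy => hor y hy)
    ⟨x, right_mem_segment ℝ s x,
      (hor x (right_mem_segment ℝ s x)).resolve_right fun h => interior_subset h hx⟩
    ⟨s, left_mem_segment ℝ s x,
      (hor s (left_mem_segment ℝ s x)).resolve_left fun h => hs (interior_subset h)⟩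
  exact interior_subset y2 (interior_subset y1)

theorem RR_near_dist (hW : FPath M W) (hnear : ∀ a, Near m F (W a)) (hh : 0 < h) (hAB : A ≤ B)
    {a : ℤ} {s : ℂ} (hs : s ∈ RR A B h W a) : ∃ x ∈ Pg (m * h) F, dist s x ≤ 3 / 2 * (h + B) := by
  obtain ⟨x, hx, h1, h2⟩ := RR_near hW hnear hh hAB hs
  exact ⟨x, hx, dist_le_of h1 h2⟩

/-- **(D3)** a point of the frontier near a point of a tile region -/
theorem RR_fr (hW : FPath M W) (hoff : ∀ a, Off m F (W a)) (hnear : ∀ a, Near m F (W a))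
    (hm : 0 < m) (hh : 0 < h) (hA : A < h) (hAB : A ≤ B) (hB : 0 ≤ B) (hBh : B ≤ h)
    {a : ℤ} {s : ℂ} (hs : s ∈ RR A B h W a) :
    ∃ x ∈ frontier (Pg (m * h) F), dist s x ≤ 3 / 2 * (h + B) := by
  obtain ⟨x, hx, h1⟩ := RR_near_dist hW hnear hh hAB hs
  obtain ⟨y, hy, h2⟩ := seg_fr (RR_off hW hoff hm hh hB hBh hA hs) hx
  refine ⟨y, h2, le_trans ?_ h1⟩
  have h3 : segment ℝ s x ⊆ Metric.closedBall s (dist s x) :=
    (convex_closedBall s (dist s x)).segment_subset (Metric.mem_closedBall_self dist_nonneg)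
      (by rw [Metric.mem_closedBall, dist_comm])
  have h4 := h3 hy
  rw [Metric.mem_closedBall] at h4
  rw [dist_comm]
  exact h4

/-- **(D2)** closed form: tile regions are far from the closure and the frontier -/
theorem RR_far_closure (hW : FPath M W) (hoff : ∀ a, Off m F (W a)) (hm : 0 < m) (hh : 0 < h)
    (hB : 0 ≤ B) (hBh : B ≤ h) {a : ℤ} {s : ℂ} (hs : s ∈ RR A B h W a) {x : ℂ}
    (hx : x ∈ closure (Pg (m * h) F)) : h - A ≤ dist s x := by
  have h1 : IsClosed {x : ℂ | h - A ≤ dist s x} :=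
    isClosed_le continuous_const (continuous_const.dist continuous_id)
  exact closure_minimal (fun y hy => RR_far_dist hW hoff hm hh hB hBh hs hy) h1 hx

theorem RR_far_fr (hW : FPath M W) (hoff : ∀ a, Off m F (W a)) (hm : 0 < m) (hh : 0 < h)
    (hB : 0 ≤ B) (hBh : B ≤ h) {a : ℤ} {s : ℂ} (hs : s ∈ RR A B h W a) {x : ℂ}
    (hx : x ∈ frontier (Pg (m * h) F)) : h - A ≤ dist s x :=
  RR_far_closure hW hoff hm hh hB hBh hs (frontier_subset_closure hx)

/-- **tile regions lie in `{h - A ≤ dist (·, ∂U) ≤ 3/2 (h + B)}`**, outside `U` -/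
theorem RR_infDist_fr (hW : FPath M W) (hoff : ∀ a, Off m F (W a)) (hnear : ∀ a, Near m F (W a))
    (hm : 0 < m) (hh : 0 < h) (hA : A < h) (hAB : A ≤ B) (hB : 0 ≤ B) (hBh : B ≤ h)
    {a : ℤ} {s : ℂ} (hs : s ∈ RR A B h W a) :
    s ∉ Pg (m * h) F ∧ h - A ≤ Metric.infDist s (frontier (Pg (m * h) F)) ∧
      Metric.infDist s (frontier (Pg (m * h) F)) ≤ 3 / 2 * (h + B) ∧
      h - A ≤ Metric.infDist s (Pg (m * h) F) ∧
      Metric.infDist s (Pg (m * h) F) ≤ 3 / 2 * (h + B) := by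
  obtain ⟨x, hx, h1⟩ := RR_fr hW hoff hnear hm hh hA hAB hB hBh hs
  obtain ⟨y, hy, h2⟩ := RR_near_dist hW hnear hh hAB hs
  refine ⟨RR_off hW hoff hm hh hB hBh hA hs, ?_, (Metric.infDist_le_dist_of_mem hx).trans h1, ?_,
    (Metric.infDist_le_dist_of_mem hy).trans h2⟩
  · exact (Metric.le_infDist ⟨x, hx⟩).2 fun z hz => RR_far_fr hW hoff hm hh hB hBh hs hz
  · exact (Metric.le_infDist ⟨y, hy⟩).2 fun z hz => RR_far_dist hW hoff hm hh hB hBh hs hz


end Crest.Agent.R143.FineDx576
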