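import Crest.Agent.R143.Lay_416
import Crest.Agent.R143.Fine2_422
import Crest.Agent.R143.Fine3_422
import Crest.Agent.R143.FineD_576
import Crest.Agent.R143.PolyU_346

/-!
# Row 143 (S0194), box R1f: layout for the frozen polygons `u : Poly` (helper416)

* `LayU u m M p W A e` : 416's `Lay` and 422's `Fine` for `u`, period `u.L`, `p k = u.v i` if
  `u.L ∣ k + i`; marks `e 1 = -(k 0) - L - 1`, `e 2 = -(k 2) - 1`, `e 3 = -(k 1) - 1`
* **`exists_layU`** : existence for every `u` and every `m ≥ 10`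
* `LayU.arc_iff` : the arc `λ` of `u` in terms of the coarse walk
* `LayU.arc_tile`, `LayU.tile_arc` : points of the arc `λ` and fine vertices `g j ≤ a ≤ g (j + 1)` with
  `λ = -j` are within `9/2 h` of each other (sup distance)
* `LayU.RR_dist` : tile regions are at distance `≥ h - A` from `u.P`
-/

set_option autoImplicit false

noncomputable section

open scoped Classical

namespace Crest.Agent.R143.LayUx416

open Crest.Agent.R143.TileRx228 (FPath cen gz ge RR cz)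
open Crest.Agent.R143.LayQx811
open Crest.Agent.R143.Layx416
open Crest.Agent.R143.PolyUx346
open Crest.Agent.R143.Finex422 (Fine Cl rev rev_eq exists_fine_cyc)
open Crest.Agent.R143.Brkx478 (Bk cells Conn)
open Crest.Agent.R158.Sp896 (V pt ed Cyc)

/-! ### real form of the position along the coarse walk -/

/-- clamping -/
theorem clamp {x : ℝ} {lo hi : ℤ} (h : lo ≤ hi) (h1 : (lo : ℝ) ≤ x + 7 / 2)
    (h2 : x ≤ hi + 7 / 2) : ∃ a, lo ≤ a ∧ a ≤ hi ∧ |(a : ℝ) - x| ≤ 7 / 2 := by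
  by_cases c1 : (lo : ℝ) ≤ x
  · by_cases c2 : x ≤ hi
    · have f1 := Int.floor_le x
      have f2 := Int.lt_floor_add_one x
      exact ⟨⌊x⌋, Int.le_floor.2 c1, by exact_mod_cast f1.trans c2,
        abs_le.2 ⟨by linarith, by linarith⟩⟩
    · push Not at c2
      exact ⟨hi, h, le_rfl, abs_le.2 ⟨by linarith, by linarith⟩⟩
  · push Not at c1
    exact ⟨lo, le_rfl, h, abs_le.2 ⟨by linarith, by linarith⟩⟩


section lay

variable {n M : ℕ} {m : ℤ} {p W : ℤ → ℤ × ℤ} {A e : ℤ → ℤ}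

/-- the parameters `(k, t)` of the arc between the marks `j` and `j + 1` -/
def On (e : ℤ → ℤ) (j k : ℤ) (t : ℝ) : Prop :=
  0 ≤ t ∧ t ≤ 1 ∧ e j ≤ k ∧ k ≤ e (j + 1) ∧ (k = e j → 1 / 2 ≤ t) ∧ (k = e (j + 1) → t ≤ 1 / 2)

theorem pos_close (H : Lay n M m p W A e) {k a : ℤ} {t : ℝ} (h1 : A k ≤ a) (h2 : a ≤ A (k + 1))
    (h3 : |((a - A k : ℤ) : ℝ) - m * t| ≤ 7 / 2) :
    |((W a).1 : ℝ) - m * ((p k).1 + t * ((p (k + 1)).1 - (p k).1))| ≤ 9 / 2 ∧
    |((W a).2 : ℝ) - m * ((p k).2 + t * ((p (k + 1)).2 - (p k).2))| ≤ 9 / 2 := by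
  have e1 := H.W_seg h1 h2
  obtain ⟨n1, n2⟩ := H.near k
  obtain ⟨u1, u2⟩ := Seg.u4_abs (H.pstep k)
  have key : ∀ (w P' Q' : ℤ), |w - m * P'| ≤ 1 → |Q' - P'| ≤ 1 →
      |((w + (a - A k) * (Q' - P') : ℤ) : ℝ) - m * (P' + t * (Q' - P'))| ≤ 9 / 2 := by
    intro w P' Q' hw hd
    have hw' : |(w : ℝ) - m * P'| ≤ 1 := by exact_mod_cast hw
    have hd' : |(Q' : ℝ) - P'| ≤ 1 := by exact_mod_cast hd
    have e2 : ((w + (a - A k) * (Q' - P') : ℤ) : ℝ) - m * (P' + t * (Q' - P')) =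
        (w - m * P') + (((a - A k : ℤ) : ℝ) - m * t) * (Q' - P') := by
      push_cast
      ring
    rw [e2]
    refine (abs_add_le _ _).trans ?_
    rw [abs_mul]
    have := mul_le_mul h3 hd' (abs_nonneg _) (by norm_num)
    linarith
  simp only [Prod.fst_sub, Prod.snd_sub] at u1 u2
  have k1 := key _ _ _ n1 u1
  have k2 := key _ _ _ n2 u2
  rw [e1]
  simp only [Prod.fst_add, Prod.snd_add, Prod.fst_sub, Prod.snd_sub]
  exact ⟨k1, k2⟩

/-- **points of the arc have a near fine vertex of the arc** -/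
theorem on_tile (H : Lay n M m p W A e) {j k : ℤ} {t : ℝ} (h : On e j k t) :
    ∃ a, g A e j ≤ a ∧ a ≤ g A e (j + 1) ∧ A k ≤ a ∧ a ≤ A (k + 1) ∧
      |((W a).1 : ℝ) - m * ((p k).1 + t * ((p (k + 1)).1 - (p k).1))| ≤ 9 / 2 ∧
      |((W a).2 : ℝ) - m * ((p k).2 + t * ((p (k + 1)).2 - (p k).2))| ≤ 9 / 2 := by
  obtain ⟨t0, t1, k0, k1, h0, h1⟩ := h
  have hm := H.m10
  have hm' : (10 : ℝ) ≤ m := by exact_mod_cast hm
  have gj := H.g_mem j
  have gj' := H.g_mem (j + 1)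
  have hl := abs_le.1 (H.len k)
  have hl1 : (A k : ℝ) + m - 2 ≤ A (k + 1) := by exact_mod_cast (show A k + m - 2 ≤ A (k + 1) by omega)
  have hl2 : (A (k + 1) : ℝ) ≤ A k + m + 2 := by
    exact_mod_cast (show A (k + 1) ≤ A k + m + 2 by omega)
  -- lower and upper bound
  obtain ⟨lo, lo1, lo2, lo3⟩ : ∃ lo : ℤ, A k ≤ lo ∧ g A e j ≤ lo ∧
      (lo = A k ∨ (lo = g A e j ∧ k = e j)) := by
    by_cases hk : k = e j
    · subst hk
      exact ⟨g A e j, by omega, le_rfl, Or.inr ⟨rfl, rfl⟩⟩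
    · refine ⟨A k, le_rfl, ?_, Or.inl rfl⟩
      have := H.Amono.monotone (show e j + 1 ≤ k by omega)
      omega
  obtain ⟨hi, hi1, hi2, hi3⟩ : ∃ hi : ℤ, hi ≤ A (k + 1) ∧ hi ≤ g A e (j + 1) ∧
      (hi = A (k + 1) ∨ (hi = g A e (j + 1) ∧ k = e (j + 1))) := by
    by_cases hk : k = e (j + 1)
    · subst hk
      exact ⟨g A e (j + 1), by omega, le_rfl, Or.inr ⟨rfl, rfl⟩⟩
    · refine ⟨A (k + 1), le_rfl, ?_, Or.inl rfl⟩
      have := H.Amono.monotone (show k + 1 ≤ e (j + 1) by omega)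
      omega
  have hne := H.elt j
  have hlh : lo ≤ hi := by
    rcases lo3 with lo3 | ⟨lo3, lo4⟩ <;> rcases hi3 with hi3 | ⟨hi3, hi4⟩
    · rw [lo3, hi3]; have := H.Alt k; omega
    · rw [lo3, hi3, hi4]; omega
    · rw [lo3, hi3, lo4]; omega
    · omega
  have c1 : (lo : ℝ) ≤ (A k + m * t) + 7 / 2 := by
    rcases lo3 with lo3 | ⟨lo3, lo4⟩
    · rw [lo3]
      have : 0 ≤ (m : ℝ) * t := by positivity
      linarith
    · have ht := h0 lo4
      subst lo4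
      have : 2 * g A e j ≤ 2 * A (e j) + m + 7 := by omega
      have h2 : (2 * g A e j : ℝ) ≤ 2 * A (e j) + m + 7 := by exact_mod_cast this
      rw [lo3]
      nlinarith
  have c2 : (A k + m * t : ℝ) ≤ hi + 7 / 2 := by
    rcases hi3 with hi3 | ⟨hi3, hi4⟩
    · rw [hi3]
      nlinarith
    · have ht := h1 hi4
      subst hi4
      have : 2 * A (e (j + 1)) + m ≤ 2 * g A e (j + 1) + 3 := gj'.1
      have h2 : (2 * A (e (j + 1)) + m : ℝ) ≤ 2 * g A e (j + 1) + 3 := by exact_mod_cast this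
      rw [hi3]
      nlinarith
  obtain ⟨a, a1, a2, a3⟩ := clamp hlh c1 c2
  refine ⟨a, lo2.trans a1, a2.trans hi2, lo1.trans a1, a2.trans hi1, ?_⟩
  refine pos_close H (lo1.trans a1) (a2.trans hi1) ?_
  push_cast
  rw [show (a : ℝ) - A k - m * t = a - (A k + m * t) by ring]
  exact a3


end lay

/-! ### layout of a polygon -/

/-- **layout for the labelled polygon `u`** -/
structure LayU (u : Poly) (m M : ℕ) (p W : ℤ → ℤ × ℤ) (A e : ℤ → ℤ) : Prop where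
  lay : Lay u.L M m p W A e
  fine : Fine (cells (u.U : Set Bk)) u.L m p M W A
  pv : ∀ (k : ℤ) (i : ℕ), (u.L : ℤ) ∣ k + i → p k = u.v i
  e1 : e 1 = -(u.k 0 : ℤ) - u.L - 1
  e2 : e 2 = -(u.k 2 : ℤ) - 1
  e3 : e 3 = -(u.k 1 : ℤ) - 1

/-- coarse edges of the marks -/
def eU (u : Poly) (j : ℤ) : ℤ := (j - 1) / 3 * u.L +
  (if (j - 1) % 3 = 0 then -(u.k 0 : ℤ) - u.L - 1 else if (j - 1) % 3 = 1 then -(u.k 2 : ℤ) - 1
    else -(u.k 1 : ℤ) - 1)

theorem eU_per (u : Poly) (j : ℤ) : eU u (j + 3) = eU u j + u.L := by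
  unfold eU
  rw [show (j + 3 - 1) / 3 = (j - 1) / 3 + 1 by omega, show (j + 3 - 1) % 3 = (j - 1) % 3 by omega]
  ring

theorem eU_lt (u : Poly) (j : ℤ) : eU u j < eU u (j + 1) := by
  have h1 := u.k01
  have h2 := u.k12
  have h3 := u.k20
  unfold eU
  have h : (j - 1) % 3 = 0 ∨ (j - 1) % 3 = 1 ∨ (j - 1) % 3 = 2 := by omega
  rcases h with h | h | h
  · rw [show (j + 1 - 1) / 3 = (j - 1) / 3 by omega, show (j + 1 - 1) % 3 = 1 by omega, h]
    norm_num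
    omega
  · rw [show (j + 1 - 1) / 3 = (j - 1) / 3 by omega, show (j + 1 - 1) % 3 = 2 by omega, h]
    norm_num
    omega
  · rw [show (j + 1 - 1) / 3 = (j - 1) / 3 + 1 by omega, show (j + 1 - 1) % 3 = 0 by omega, h,
      add_mul, one_mul]
    norm_num
    omega

/-- **existence** -/
theorem exists_layU (u : Poly) {m : ℕ} (hm : 10 ≤ m) : ∃ (M : ℕ) (p W : ℤ → ℤ × ℤ) (A e : ℤ → ℤ),
    LayU u m M p W A e := by
  obtain ⟨M, W, A, F⟩ := exists_fine_cyc u.cyc (m := (m : ℤ)) (by omega)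
  exact ⟨M, rev u.L u.v, W, A, eU u,
    { lay := { toSeg := F.seg', fp := F.fpath, m10 := by exact_mod_cast hm, eper := eU_per u,
               elt := eU_lt u }
      fine := F
      pv := fun k i hi => rev_eq u.cyc hi
      e1 := by simp [eU]
      e2 := by simp [eU]
      e3 := by simp [eU] }⟩

namespace LayU

variable {u : Poly} {m M : ℕ} {p W : ℤ → ℤ × ℤ} {A e : ℤ → ℤ}

theorem m_pos (H : LayU u m M p W A e) : 10 ≤ m := by exact_mod_cast H.lay.m10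

theorem off (H : LayU u m M p W A e) (a : ℤ) : FineDx576.Off m (cells (u.U : Set Bk)) (W a) :=
  H.fine.off a

theorem near (H : LayU u m M p W A e) (a : ℤ) : FineDx576.Near m (cells (u.U : Set Bk)) (W a) :=
  H.fine.near a

theorem P_eq (u : Poly) {h : ℝ} (hh : (m : ℝ) * h = u.s) :
    u.P = Tenx416.Pg (m * h) (cells (u.U : Set Bk)) := by
  rw [hh]; rfl

theorem h_pos (H : LayU u m M p W A e) {h : ℝ} (hh : (m : ℝ) * h = u.s) : 0 < h := by
  have h1 := u.s_pos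
  have h2 := H.m_pos
  have h3 : (10 : ℝ) ≤ m := by exact_mod_cast h2
  rw [← hh] at h1
  exact pos_of_mul_pos_right h1 (by linarith)

/-- **tile regions are away from `u.P`** -/
theorem RR_dist (H : LayU u m M p W A e) {h a' b' : ℝ} (hh : (m : ℝ) * h = u.s) (ha : a' < h)
    (hab : a' ≤ b') (hb : 0 ≤ b') (hbh : b' ≤ h) {a : ℤ} {s : ℂ} (hs : s ∈ RR a' b' h W a) :
    s ∉ u.P ∧ h - a' ≤ Metric.infDist s (frontier u.P) ∧
      Metric.infDist s (frontier u.P) ≤ 3 / 2 * (h + b') ∧ h - a' ≤ Metric.infDist s u.P ∧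
      Metric.infDist s u.P ≤ 3 / 2 * (h + b') := by
  rw [P_eq u hh]
  exact FineDx576.RR_infDist_fr H.lay.fp H.off H.near (by have := H.m_pos; omega)
    (H.h_pos hh) ha hab hb hbh hs

/-! ### arcs -/

/-- the point with parameters `(k, t)` of the coarse walk -/
def ptt (s : ℝ) (p : ℤ → ℤ × ℤ) (k : ℤ) (t : ℝ) : ℂ :=
  ⟨s * ((p k).1 + t * ((p (k + 1)).1 - (p k).1)), s * ((p k).2 + t * ((p (k + 1)).2 - (p k).2))⟩

theorem ptt_eq (s : ℝ) (p : ℤ → ℤ × ℤ) (k : ℤ) (t : ℝ) :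
    ptt s p k t = (1 - t) • pt s (p k) + t • pt s (p (k + 1)) := by
  apply Complex.ext
  · simp [ptt, pt]; ring
  · simp [ptt, pt]; ring

theorem mem_seg (s : ℝ) (p : ℤ → ℤ × ℤ) (k : ℤ) (y : ℂ) :
    y ∈ segment ℝ (pt s (p k)) (pt s (p (k + 1))) ↔ ∃ t, 0 ≤ t ∧ t ≤ 1 ∧ y = ptt s p k t := by
  constructor
  · rintro ⟨a, b, ha, hb, hab, rfl⟩
    refine ⟨b, hb, by linarith, ?_⟩
    rw [ptt_eq, show 1 - b = a by linarith]
  · rintro ⟨t, t0, t1, rfl⟩
    exact ⟨1 - t, t, by linarith, t0, by ring, (ptt_eq _ _ _ _).symm⟩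

theorem mem_seg1 (s : ℝ) (p : ℤ → ℤ × ℤ) (k : ℤ) (y : ℂ) :
    y ∈ segment ℝ ((pt s (p k) + pt s (p (k + 1))) / 2) (pt s (p (k + 1))) ↔
      ∃ t, 1 / 2 ≤ t ∧ t ≤ 1 ∧ y = ptt s p k t := by
  constructor
  · rintro ⟨a, b, ha, hb, hab, rfl⟩
    refine ⟨a / 2 + b, by linarith, by linarith, ?_⟩
    rw [ptt_eq]
    simp only [Complex.real_smul]
    push_cast
    have : (a : ℂ) + b = 1 := by exact_mod_cast hab
    linear_combination (pt s (p k)) * this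
  · rintro ⟨t, t0, t1, rfl⟩
    refine ⟨2 - 2 * t, 2 * t - 1, by linarith, by linarith, by ring, ?_⟩
    rw [ptt_eq]
    simp only [Complex.real_smul]
    push_cast
    ring

theorem mem_seg2 (s : ℝ) (p : ℤ → ℤ × ℤ) (k : ℤ) (y : ℂ) :
    y ∈ segment ℝ (pt s (p k)) ((pt s (p k) + pt s (p (k + 1))) / 2) ↔
      ∃ t, 0 ≤ t ∧ t ≤ 1 / 2 ∧ y = ptt s p k t := by
  constructor
  · rintro ⟨a, b, ha, hb, hab, rfl⟩
    refine ⟨b / 2, by linarith, by linarith, ?_⟩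
    rw [ptt_eq]
    simp only [Complex.real_smul]
    push_cast
    have : (a : ℂ) + b = 1 := by exact_mod_cast hab
    linear_combination (pt s (p k)) * this
  · rintro ⟨t, t0, t1, rfl⟩
    refine ⟨1 - 2 * t, 2 * t, by linarith, by linarith, by ring, ?_⟩
    rw [ptt_eq]
    simp only [Complex.real_smul]
    push_cast
    ring

theorem pv' (H : LayU u m M p W A e) (i : ℕ) : p (-(i : ℤ) - 1) = u.v (i + 1) ∧
    p (-(i : ℤ) - 1 + 1) = u.v i :=
  ⟨H.pv _ _ (by rw [show -(i : ℤ) - 1 + ((i + 1 : ℕ) : ℤ) = 0 by push_cast; ring]; exact dvd_zero _),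
    H.pv _ _ (by rw [show -(i : ℤ) - 1 + 1 + (i : ℤ) = 0 by ring]; exact dvd_zero _)⟩

theorem e_base (H : LayU u m M p W A e) (l : Fin 3) :
    e (3 - (l : ℕ)) = -(u.k' l : ℤ) - 1 ∧ e (3 - (l : ℕ) + 1) = -(u.k l : ℤ) - 1 := by
  have e4 : e 4 = -(u.k 0 : ℤ) - 1 := by
    have := H.lay.eper 1
    rw [H.e1] at this
    rw [show (4 : ℤ) = 1 + 3 by norm_num, this]
    ring
  fin_cases l
  · refine ⟨?_, ?_⟩
    · simpa [Poly.k'] using H.e3
    · simpa using e4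
  · refine ⟨?_, ?_⟩
    · have := H.e2
      simpa [Poly.k'] using this
    · have := H.e3
      simpa using this
  · refine ⟨?_, ?_⟩
    · have := H.e1
      simp only [Poly.k']
      simp
      rw [this]
      ring
    · have := H.e2
      simpa using this

theorem arc_iff0 (H : LayU u m M p W A e) (l : Fin 3) (y : ℂ) :
    y ∈ u.Arc l ↔ ∃ k t, On e (3 - (l : ℕ)) k t ∧ y = ptt u.s p k t := by
  obtain ⟨b1, b2⟩ := H.e_base l
  have hlt := H.lay.elt (3 - (l : ℕ))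
  have q1 := H.pv' (u.k l)
  have q2 := H.pv' (u.k' l)
  have s1 : segment ℝ (u.mid (u.k l)) (pt u.s (u.v (u.k l + 1))) =
      segment ℝ (pt u.s (p (-(u.k l : ℤ) - 1)))
        ((pt u.s (p (-(u.k l : ℤ) - 1)) + pt u.s (p (-(u.k l : ℤ) - 1 + 1))) / 2) := by
    rw [q1.1, q1.2, segment_symm, Poly.mid, add_comm (pt u.s (u.v (u.k l)))]
  have s2 : segment ℝ (pt u.s (u.v (u.k' l))) (u.mid (u.k' l)) =
      segment ℝ ((pt u.s (p (-(u.k' l : ℤ) - 1)) + pt u.s (p (-(u.k' l : ℤ) - 1 + 1))) / 2)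
        (pt u.s (p (-(u.k' l : ℤ) - 1 + 1))) := by
    rw [q2.1, q2.2, segment_symm, Poly.mid, add_comm (pt u.s (u.v (u.k' l)))]
  unfold Poly.Arc
  constructor
  · rintro ((hy | hy) | hy)
    · rw [s1, mem_seg2] at hy
      obtain ⟨t, t0, t1, rfl⟩ := hy
      exact ⟨_, t, ⟨t0, by linarith, by omega, by omega, fun h => by omega, fun _ => t1⟩, rfl⟩
    · simp only [Set.mem_iUnion, Set.mem_Ioo] at hy
      obtain ⟨i, ⟨i1, i2⟩, hy⟩ := hy
      obtain ⟨r1, r2⟩ := H.pv' i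
      rw [ed, segment_symm, ← r1, ← r2, mem_seg] at hy
      obtain ⟨t, t0, t1, rfl⟩ := hy
      exact ⟨_, t, ⟨t0, t1, by omega, by omega, fun h => by omega, fun h => by omega⟩, rfl⟩
    · rw [s2, mem_seg1] at hy
      obtain ⟨t, t0, t1, rfl⟩ := hy
      exact ⟨_, t, ⟨by linarith, t1, by omega, by omega, fun _ => t0, fun h => by omega⟩, rfl⟩
  · rintro ⟨k, t, ⟨t0, t1, k0, k1, h0, h1⟩, rfl⟩
    by_cases c1 : k = e (3 - (l : ℕ))
    · refine Or.inr ?_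
      rw [s2, mem_seg1]
      exact ⟨t, h0 c1, t1, by rw [c1, b1]⟩
    by_cases c2 : k = e (3 - (l : ℕ) + 1)
    · refine Or.inl (Or.inl ?_)
      rw [s1, mem_seg2]
      exact ⟨t, t0, h1 c2, by rw [c2, b2]⟩
    refine Or.inl (Or.inr ?_)
    simp only [Set.mem_iUnion, Set.mem_Ioo]
    obtain ⟨i, hi⟩ : ∃ i : ℕ, k = -(i : ℤ) - 1 := ⟨(-k - 1).toNat, by omega⟩
    subst hi
    refine ⟨i, ⟨by omega, by omega⟩, ?_⟩
    obtain ⟨r1, r2⟩ := H.pv' i
    rw [ed, segment_symm, ← r1, ← r2, mem_seg]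
    exact ⟨t, t0, t1, rfl⟩

theorem eper' (H : LayU u m M p W A e) (j q : ℤ) : e (j + 3 * q) = e j + q * u.L := by
  induction q using Int.induction_on with
  | zero => simp
  | succ t ih => rw [show j + 3 * ((t : ℤ) + 1) = j + 3 * t + 3 by ring, H.lay.eper, ih]; ring
  | pred t ih =>
    have := H.lay.eper (j + 3 * (-(t : ℤ) - 1))
    rw [show j + 3 * (-(t : ℤ) - 1) + 3 = j + 3 * -(t : ℤ) by ring, ih] at this
    linarith

theorem ptt_per (H : LayU u m M p W A e) (s : ℝ) (k q : ℤ) (t : ℝ) :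
    ptt s p (k + q * u.L) t = ptt s p k t := by
  unfold ptt
  rw [H.lay.pper', show k + q * (u.L : ℤ) + 1 = k + 1 + q * u.L by ring, H.lay.pper']

/-- **the arc `l` in terms of the coarse walk**, `l = -j` -/
theorem arc_iff (H : LayU u m M p W A e) {j : ℤ} {l : Fin 3} (hl : ((l : ℕ) : ZMod 3) = -(j : ZMod 3))
    (y : ℂ) : y ∈ u.Arc l ↔ ∃ k t, On e j k t ∧ y = ptt u.s p k t := by
  obtain ⟨q, hq⟩ : ∃ q : ℤ, j = 3 - (l : ℕ) + 3 * q := by
    have h1 : ((j + (l : ℕ) : ℤ) : ZMod 3) = 0 := by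
      push_cast
      rw [hl]
      ring
    rw [ZMod.intCast_zmod_eq_zero_iff_dvd] at h1
    obtain ⟨c, hc⟩ := h1
    exact ⟨c - 1, by push_cast at hc; linarith⟩
  rw [H.arc_iff0]
  subst hq
  have e1 := H.eper' (3 - (l : ℕ)) q
  have e2 := H.eper' (3 - (l : ℕ) + 1) q
  rw [show 3 - ((l : ℕ) : ℤ) + 1 + 3 * q = 3 - (l : ℕ) + 3 * q + 1 by ring] at e2
  constructor
  · rintro ⟨k, t, ⟨t0, t1, k0, k1, h0, h1⟩, rfl⟩
    refine ⟨k + q * u.L, t, ⟨t0, t1, by omega, by omega, fun h => h0 (by omega),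
      fun h => h1 (by omega)⟩, ?_⟩
    rw [H.ptt_per]
  · rintro ⟨k, t, ⟨t0, t1, k0, k1, h0, h1⟩, rfl⟩
    refine ⟨k + (-q) * u.L, t, ⟨t0, t1, by linarith, by linarith, fun h => h0 (by linarith),
      fun h => h1 (by linarith)⟩, ?_⟩
    rw [H.ptt_per]

theorem cen_ptt (H : LayU u m M p W A e) {h : ℝ} (hh : (m : ℝ) * h = u.s) {a k : ℤ} {t c : ℝ}
    (h1 : |((W a).1 : ℝ) - (m : ℤ) * ((p k).1 + t * ((p (k + 1)).1 - (p k).1))| ≤ c ∧
      |((W a).2 : ℝ) - (m : ℤ) * ((p k).2 + t * ((p (k + 1)).2 - (p k).2))| ≤ c) :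
    |(cen h W a).re - (ptt u.s p k t).re| ≤ c * h ∧
      |(cen h W a).im - (ptt u.s p k t).im| ≤ c * h := by
  have h0 := H.h_pos hh
  rw [FineDx576.cen_re, FineDx576.cen_im]
  unfold ptt
  simp only [Int.cast_natCast] at h1 ⊢
  rw [← hh]
  constructor
  · rw [show ∀ x y : ℝ, h * x - m * h * y = (x - m * y) * h by intros; ring, abs_mul,
      abs_of_pos h0]
    exact mul_le_mul_of_nonneg_right h1.1 h0.le
  · rw [show ∀ x y : ℝ, h * x - m * h * y = (x - m * y) * h by intros; ring, abs_mul,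
      abs_of_pos h0]
    exact mul_le_mul_of_nonneg_right h1.2 h0.le

/-- **every point of the arc `l` is near a fine vertex `g j ≤ a ≤ g (j + 1)`** -/
theorem arc_tile (H : LayU u m M p W A e) {h : ℝ} (hh : (m : ℝ) * h = u.s) {j : ℤ} {l : Fin 3}
    (hl : ((l : ℕ) : ZMod 3) = -(j : ZMod 3)) {y : ℂ} (hy : y ∈ u.Arc l) :
    ∃ a, g A e j ≤ a ∧ a ≤ g A e (j + 1) ∧ |(cen h W a).re - y.re| ≤ 9 / 2 * h ∧
      |(cen h W a).im - y.im| ≤ 9 / 2 * h := by
  obtain ⟨k, t, h1, rfl⟩ := (H.arc_iff hl y).1 hy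
  obtain ⟨a, a1, a2, -, -, h2⟩ := on_tile H.lay h1
  exact ⟨a, a1, a2, H.cen_ptt hh h2⟩


end LayU

end Crest.Agent.R143.LayUx416
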