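import Crest.Agent.R143.MeasP_609
import Crest.Agent.R143.PoisM3c_501
import Crest.Agent.R143.DicC_831

/-!
# Row 143 (S0194), RIG: with probability `→ 1` the total of a polygon is a function of the points
inside (helper609)

* `rad_le_sqrt` : `rad C ε ≤ √ε` eventually
* `hol_event` : `P (no hole of radius √ε in a ball) → 1`
* `T_near` : `P (Poly.T u ε ≠ Tin u ε id) → 0`, the same for `T'`
-/

set_option autoImplicit false

noncomputable section

open scoped Classical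

namespace Crest.Agent.R143.MeasQx609

open MeasureTheory Set Filter Topology
open Crest.ProbabilityR.Voronoi
open Crest.Agent.R143.PP1x831 Crest.Agent.R143.Dbl2x609
open Crest.Agent.R143.NetVx346 Crest.Agent.R143.PolyUx346 Crest.Agent.R143.MeasPx609
open Crest.Agent.R143.Locx922 (Hol)
open Crest.Agent.R143.LocUx700 (deep)

theorem rad_le_sqrt (C : ℝ) : ∀ᶠ ε : ℝ in 𝓝[>] 0, rad C ε ≤ √ε := by
  have h1 := DicCx831.log_small 1
  have h2 : ∀ᶠ ε : ℝ in 𝓝[>] 0, ε * Real.log (1 / ε) ^ (1 : ℝ) < 1 / (|C| + 1) ^ 2 :=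
    h1.eventually_lt_const (by positivity)
  have h3 : ∀ᶠ ε : ℝ in 𝓝[>] 0, ε < 1 :=
    nhdsWithin_le_nhds (eventually_lt_nhds one_pos)
  filter_upwards [h2, h3, self_mem_nhdsWithin] with ε h2 h3 h0
  have h0 : 0 < ε := h0
  have hl : 0 ≤ Real.log (1 / ε) := Real.log_nonneg (by rw [le_div_iff₀ h0]; linarith)
  rw [Real.rpow_one] at h2
  have hs : √ε * √(Real.log (1 / ε)) < 1 / (|C| + 1) := by
    rw [← Real.sqrt_mul h0.le, Real.sqrt_lt' (by positivity)]
    rw [div_pow, one_pow]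
    exact h2
  have he : √ε * √ε = ε := Real.mul_self_sqrt h0.le
  unfold rad
  set l := √(Real.log (1 / ε)) with hl'
  calc C * ε * l = (C * (√ε * l)) * √ε := by
        rw [show (C * (√ε * l)) * √ε = C * (√ε * √ε) * l by ring, he]
    _ ≤ 1 * √ε := by
        refine mul_le_mul_of_nonneg_right ?_ (Real.sqrt_nonneg _)
        calc C * (√ε * l) ≤ |C| * (√ε * l) :=
              mul_le_mul_of_nonneg_right (le_abs_self C) (by positivity)
          _ ≤ |C| * (1 / (|C| + 1)) := mul_le_mul_of_nonneg_left hs.le (abs_nonneg C)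
          _ ≤ 1 := by
              rw [mul_one_div, div_le_one (by positivity)]
              linarith
    _ = √ε := one_mul _

/-- **no holes of radius `√ε`** -/
theorem hol_event (R : ℝ) : Tendsto (fun ε : ℝ => sampleLaw {ω | ¬ ∀ z ∈ Metric.closedBall (0 : ℂ) R,
    ∃ s ∈ points ε ω, ‖s - z‖ < √ε}) (𝓝[>] 0) (𝓝 0) := by
  obtain ⟨C, hC, h1⟩ := PoisM3cx501.m3c R 1
  have h2 : Tendsto (fun ε : ℝ => ENNReal.ofReal (ε ^ (1 : ℝ))) (𝓝[>] 0) (𝓝 0) := by
    have : Tendsto (fun ε : ℝ => ENNReal.ofReal (ε ^ (1 : ℝ))) (𝓝[>] 0) (𝓝 (ENNReal.ofReal 0)) := by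
      refine (ENNReal.continuous_ofReal.tendsto 0).comp ?_
      simp only [Real.rpow_one]
      exact nhdsWithin_le_nhds
    rwa [ENNReal.ofReal_zero] at this
  refine tendsto_of_tendsto_of_tendsto_of_le_of_le' tendsto_const_nhds h2
    (Eventually.of_forall fun _ => zero_le) ?_
  filter_upwards [h1, rad_le_sqrt C] with ε h1 h3
  refine (measure_mono ?_).trans h1
  intro ω hω
  simp only [mem_ofPred_eq, not_forall, not_exists, not_and] at hω ⊢
  obtain ⟨z, hz, h⟩ := hω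
  refine ⟨z, hz, ?_⟩
  rw [Set.eq_empty_iff_forall_notMem]
  rintro s ⟨hs, hsz⟩
  rw [Metric.mem_ball, dist_eq_norm] at hsz
  exact h s hs (hsz.trans_le h3)

/-- the hole condition of `T_eq_Tin` -/
theorem hol_of {u : Poly} {ε R : ℝ} {ω : Sample} (hε : 0 < ε)
    (hR : u.P ⊆ Metric.closedBall 0 R)
    (h : ∀ z ∈ Metric.closedBall (0 : ℂ) R, ∃ s ∈ points ε ω, ‖s - z‖ < √ε) :
    Hol (points ε ω ∩ Wn u ε) (deep u.P √ε) √ε := by
  intro w hw z hz
  have hw' : Metric.closedBall w (2 * √ε) ⊆ u.P := hw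
  have hzP : z ∈ u.P := hw' (by
    rw [Metric.mem_closedBall, dist_eq_norm]
    linarith [Real.sqrt_nonneg ε])
  obtain ⟨s, hs, hsz⟩ := h z (hR hzP)
  refine ⟨s, ⟨hs, P_sub_Wn u ε (hw' ?_)⟩, hsz⟩
  rw [Metric.mem_closedBall, dist_eq_norm]
  have : ‖s - w‖ ≤ ‖s - z‖ + ‖z - w‖ := by
    have := norm_add_le (s - z) (z - w)
    rwa [sub_add_sub_cancel] at this
  linarith


end Crest.Agent.R143.MeasQx609
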