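import Crest.Agent.R158.SpD_331

/-!
# Row 143, R1a: polygons of the brick wall (helper478)

Brick `(i, j)` is `[2i+j, 2i+j+2] × [j, j+1]` (row `j` is shifted by `j`), i.e. the two unit cells
`(2i+j, j)`, `(2i+j+1, j)`; its six neighbours are `b + nv k`, `k : ZMod 6` (E, NE, NW, W, SW, SE).
* `bk q` : the brick of the unit cell `q`; `cells U` : the unit cells of a set of bricks
* `con_cells`, `cn_of_con` : connected sets of bricks = edge-connected sets of cells
* `cyc_brick` : the boundary of a connected set of bricks with connected complement is ONE simple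
  closed lattice walk (`Sp896.Cyc`)
* `no_pinch` : no checkerboard pattern at a lattice point
* `near_seg`, `far_cyc`, `far_vertex` : the walk is simple at scale one
-/

set_option autoImplicit false

noncomputable section

open scoped Classical

namespace Crest.Agent.R143.Brkx478

open Crest.Agent.R158

/-- bricks -/
abbrev Bk := ℤ × ℤ

/-- the six directions -/
def nv : ZMod 6 → Bk := fun k => match k with
  | 0 => (1, 0)
  | 1 => (0, 1)
  | 2 => (-1, 1)
  | 3 => (-1, 0)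
  | 4 => (0, -1)
  | 5 => (1, -1)

theorem z6 {P : ZMod 6 → Prop} : (∀ k, P k) ↔ P 0 ∧ P 1 ∧ P 2 ∧ P 3 ∧ P 4 ∧ P 5 := by
  constructor
  · intro h
    exact ⟨h 0, h 1, h 2, h 3, h 4, h 5⟩
  · rintro ⟨h0, h1, h2, h3, h4, h5⟩ k
    have : ∀ j : ZMod 6, j = 0 ∨ j = 1 ∨ j = 2 ∨ j = 3 ∨ j = 4 ∨ j = 5 := by decide
    rcases this k with rfl | rfl | rfl | rfl | rfl | rfl <;> assumption

theorem nv_opp (k : ZMod 6) : nv (k + 3) = -nv k := by
  revert k; rw [z6]; decide




/-- neighbours -/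
def Nb (b c : Bk) : Prop := ∃ k, c = b + nv k

theorem Nb.symm {b c : Bk} (h : Nb b c) : Nb c b := by
  obtain ⟨k, rfl⟩ := h
  exact ⟨k + 3, by rw [nv_opp]; abel⟩

theorem nb_iff {b c : Bk} : Nb b c ↔ (c.1 = b.1 + 1 ∧ c.2 = b.2) ∨ (c.1 = b.1 ∧ c.2 = b.2 + 1) ∨
    (c.1 = b.1 - 1 ∧ c.2 = b.2 + 1) ∨ (c.1 = b.1 - 1 ∧ c.2 = b.2) ∨
    (c.1 = b.1 ∧ c.2 = b.2 - 1) ∨ (c.1 = b.1 + 1 ∧ c.2 = b.2 - 1) := by
  constructor
  · rintro ⟨k, rfl⟩
    revert k
    rw [z6]
    refine ⟨?_, ?_, ?_, ?_, ?_, ?_⟩ <;> simp [nv, sub_eq_add_neg]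
  · intro h
    rcases h with ⟨h1, h2⟩ | ⟨h1, h2⟩ | ⟨h1, h2⟩ | ⟨h1, h2⟩ | ⟨h1, h2⟩ | ⟨h1, h2⟩
    · exact ⟨0, Prod.ext (by simp only [nv, Prod.fst_add]; omega) (by simp only [nv, Prod.snd_add]; omega)⟩
    · exact ⟨1, Prod.ext (by simp only [nv, Prod.fst_add]; omega) (by simp only [nv, Prod.snd_add]; omega)⟩
    · exact ⟨2, Prod.ext (by simp only [nv, Prod.fst_add]; omega) (by simp only [nv, Prod.snd_add]; omega)⟩
    · exact ⟨3, Prod.ext (by simp only [nv, Prod.fst_add]; omega) (by simp only [nv, Prod.snd_add]; omega)⟩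
    · exact ⟨4, Prod.ext (by simp only [nv, Prod.fst_add]; omega) (by simp only [nv, Prod.snd_add]; omega)⟩
    · exact ⟨5, Prod.ext (by simp only [nv, Prod.fst_add]; omega) (by simp only [nv, Prod.snd_add]; omega)⟩

/-- connected by steps inside `U` -/
def Cn (U : Set Bk) (b c : Bk) : Prop :=
  Relation.ReflTransGen (fun x y => x ∈ U ∧ y ∈ U ∧ Nb x y) b c

/-- connected -/
def Conn (U : Set Bk) : Prop := ∀ b ∈ U, ∀ c ∈ U, Cn U b c

/-- the brick of a unit cell -/
def bk (q : Sp896.V) : Bk := ((q.1 - q.2) / 2, q.2)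

/-- the unit cells of a set of bricks -/
def cells (U : Set Bk) : Set Sp896.V := {q | bk q ∈ U}

theorem mem_cells {U : Set Bk} {q : Sp896.V} : q ∈ cells U ↔ bk q ∈ U := Iff.rfl

theorem cells_compl (U : Set Bk) : cells Uᶜ = (cells U)ᶜ := rfl

/-- left and right cell of a brick -/
def c0 (b : Bk) : Sp896.V := (2 * b.1 + b.2, b.2)
def c1 (b : Bk) : Sp896.V := (2 * b.1 + b.2 + 1, b.2)

theorem bk_c0 (b : Bk) : bk (c0 b) = b :=
  Prod.ext (by simp only [bk, c0]; omega) rfl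

theorem bk_c1 (b : Bk) : bk (c1 b) = b :=
  Prod.ext (by simp only [bk, c1]; omega) rfl

theorem cell_cases (q : Sp896.V) : q = c0 (bk q) ∨ q = c1 (bk q) := by
  obtain ⟨x, y⟩ := q
  have h : x = 2 * ((x - y) / 2) + y ∨ x = 2 * ((x - y) / 2) + y + 1 := by omega
  rcases h with h | h
  · exact Or.inl (Prod.ext h rfl)
  · exact Or.inr (Prod.ext h rfl)

theorem adj_c (b : Bk) : Sp896.Adj (c0 b) (c1 b) := by
  unfold Sp896.Adj c0 c1
  simp


theorem nb_adj {b c : Bk} (h : Nb b c) : ∃ q q', bk q = b ∧ bk q' = c ∧ Sp896.Adj q q' := by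
  rw [nb_iff] at h
  rcases h with h | h | h | h | h | h
  · exact ⟨c1 b, c0 c, bk_c1 b, bk_c0 c, by unfold Sp896.Adj c0 c1; simp only; omega⟩
  · exact ⟨c1 b, c0 c, bk_c1 b, bk_c0 c, by unfold Sp896.Adj c0 c1; simp only; omega⟩
  · exact ⟨c0 b, c1 c, bk_c0 b, bk_c1 c, by unfold Sp896.Adj c0 c1; simp only; omega⟩
  · exact ⟨c0 b, c1 c, bk_c0 b, bk_c1 c, by unfold Sp896.Adj c0 c1; simp only; omega⟩
  · exact ⟨c0 b, c1 c, bk_c0 b, bk_c1 c, by unfold Sp896.Adj c0 c1; simp only; omega⟩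
  · exact ⟨c1 b, c0 c, bk_c1 b, bk_c0 c, by unfold Sp896.Adj c0 c1; simp only; omega⟩

/-- two cells of one brick of `U` are connected in `cells U` -/
theorem con_same {U : Set Bk} {q q' : Sp896.V} (hq' : q' ∈ cells U) (h : bk q = bk q') :
    Sp896.Con (cells U) q q' := by
  rcases eq_or_ne q q' with rfl | hne
  · exact Relation.ReflTransGen.refl
  refine Relation.ReflTransGen.single ⟨?_, hq'⟩
  rcases cell_cases q with e | e <;> rcases cell_cases q' with e' | e'
  · exact absurd (by rw [e, e', h]) hne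
  · rw [e, e', h]; exact adj_c _
  · rw [e, e', h]; exact (adj_c _).symm
  · exact absurd (by rw [e, e', h]) hne

theorem con_of_cn {U : Set Bk} {b c : Bk} (h : Cn U b c) : ∀ q q', bk q = b → bk q' = c →
    q' ∈ cells U → Sp896.Con (cells U) q q' := by
  induction h with
  | refl => exact fun q q' e e' hq' => con_same hq' (e.trans e'.symm)
  | @tail x y _ h2 ih =>
    intro q q' e e' hq'
    obtain ⟨hx, hy, hn⟩ := h2
    obtain ⟨p, p', e1, e2, e3⟩ := nb_adj hn
    have hp : p ∈ cells U := by rw [mem_cells, e1]; exact hx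
    have hp' : p' ∈ cells U := by rw [mem_cells, e2]; exact hy
    have a1 := ih q p e e1 hp
    have a2 : Sp896.Con (cells U) p p' := Relation.ReflTransGen.single ⟨e3, hp'⟩
    exact (a1.trans a2).trans (con_same hq' (e2.trans e'.symm))

/-- **connected sets of bricks are edge-connected sets of cells** -/
theorem con_cells {U : Set Bk} (h : Conn U) : ∀ q ∈ cells U, ∀ q' ∈ cells U,
    Sp896.Con (cells U) q q' := fun q hq q' hq' => con_of_cn (h _ hq _ hq') q q' rfl rfl hq'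



theorem cells_finite {U : Set Bk} (h : U.Finite) : (cells U).Finite := by
  refine ((h.image c0).union (h.image c1)).subset fun q hq => ?_
  rcases cell_cases q with e | e
  · exact Or.inl ⟨bk q, hq, e.symm⟩
  · exact Or.inr ⟨bk q, hq, e.symm⟩

theorem cells_nonempty {U : Set Bk} (h : U.Nonempty) : (cells U).Nonempty := by
  obtain ⟨b, hb⟩ := h
  exact ⟨c0 b, by rw [mem_cells, bk_c0]; exact hb⟩

/-- **the boundary of a connected set of bricks with connected complement is one simple closed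
lattice walk** -/
theorem cyc_brick {U : Set Bk} (hf : U.Finite) (hne : U.Nonempty) (hc : Conn U) (hc' : Conn Uᶜ) :
    ∃ L v, Sp896.Cyc (cells U) L v := by
  refine SpD331.exists_cyc896 (cells_finite hf) (cells_nonempty hne) (con_cells hc) ?_
  intro q hq q' hq'
  rw [← cells_compl]
  exact con_cells hc' q hq q' hq'

/-- **no checkerboard pattern at a lattice point** -/
theorem no_pinch (U : Set Bk) (x y : ℤ) :
    ¬ ((x - 1, y - 1) ∈ cells U ∧ (x, y) ∈ cells U ∧ (x, y - 1) ∉ cells U ∧ (x - 1, y) ∉ cells U) ∧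
    ¬ ((x - 1, y - 1) ∉ cells U ∧ (x, y) ∉ cells U ∧ (x, y - 1) ∈ cells U ∧ (x - 1, y) ∈ cells U) := by
  simp only [mem_cells]
  have h : bk (x - 1, y - 1) = bk (x, y - 1) ∨ bk (x - 1, y) = bk (x, y) := by
    simp only [bk, Prod.mk.injEq, and_true]
    omega
  rcases h with h | h <;> rw [h] <;> tauto

/-! ### distances -/

/-- unit vectors and zero -/
def U4 (d : ℤ × ℤ) : Prop := d = (1, 0) ∨ d = (0, 1) ∨ d = (-1, 0) ∨ d = (0, -1) ∨ d = (0, 0)

theorem key1 {a b u v : ℤ} {t t' : ℝ} (h0 : 0 ≤ t) (h1 : t ≤ 1) (h0' : 0 ≤ t') (h1' : t' ≤ 1)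
    (h : |((a : ℝ) + t * u) - (b + t' * v)| < 1) :
    a + min 0 u ≤ b + max 0 v ∧ b + min 0 v ≤ a + max 0 u := by
  rw [abs_lt] at h
  have lo : ∀ (w : ℤ) (s : ℝ), 0 ≤ s → s ≤ 1 → ((min 0 w : ℤ) : ℝ) ≤ s * w ∧
      s * w ≤ ((max 0 w : ℤ) : ℝ) := by
    intro w s hs hs'
    rcases le_total 0 w with hw | hw
    · rw [min_eq_left hw, max_eq_right hw]
      have : (0 : ℝ) ≤ w := by exact_mod_cast hw
      push_cast
      constructor <;> nlinarith
    · rw [min_eq_right hw, max_eq_left hw]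
      have : (w : ℝ) ≤ 0 := by exact_mod_cast hw
      push_cast
      constructor <;> nlinarith
  obtain ⟨u1, u2⟩ := lo u t h0 h1
  obtain ⟨v1, v2⟩ := lo v t' h0' h1'
  constructor
  · have : ((a + min 0 u : ℤ) : ℝ) < ((b + max 0 v + 1 : ℤ) : ℝ) := by
      push_cast at u1 v2 ⊢
      linarith
    have := Int.cast_lt.1 this
    omega
  · have : ((b + min 0 v : ℤ) : ℝ) < ((a + max 0 u + 1 : ℤ) : ℝ) := by
      push_cast at v1 u2 ⊢
      linarith
    have := Int.cast_lt.1 this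
    omega

/-- **unit lattice segments at sup distance `< 1` have a common end point** -/
theorem near_seg {p p' d d' : ℤ × ℤ} (hd : U4 d) (hd' : U4 d') {t t' : ℝ} (h0 : 0 ≤ t) (h1 : t ≤ 1)
    (h0' : 0 ≤ t') (h1' : t' ≤ 1) (hx : |((p.1 : ℝ) + t * d.1) - (p'.1 + t' * d'.1)| < 1)
    (hy : |((p.2 : ℝ) + t * d.2) - (p'.2 + t' * d'.2)| < 1) :
    p = p' ∨ p = p' + d' ∨ p + d = p' ∨ p + d = p' + d' := by
  obtain ⟨x1, x2⟩ := key1 h0 h1 h0' h1' hx
  obtain ⟨y1, y2⟩ := key1 h0 h1 h0' h1' hy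
  obtain ⟨a, b⟩ := p
  obtain ⟨a', b'⟩ := p'
  simp only [Prod.ext_iff, Prod.fst_add, Prod.snd_add] at *
  rcases hd with rfl | rfl | rfl | rfl | rfl <;> rcases hd' with rfl | rfl | rfl | rfl | rfl <;>
    simp only at * <;> omega

theorem adj_U4 {a b : Sp896.V} (h : Sp896.Adj a b) : U4 (b.1 - a.1, b.2 - a.2) := by
  unfold Sp896.Adj at h
  unfold U4
  simp only [Prod.mk.injEq]
  omega

/-- injectivity modulo the period -/
theorem cyc_mod {F : Set Sp896.V} {L : ℕ} {v : ℕ → Sp896.V} (C : Sp896.Cyc F L v) {i j : ℕ}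
    (h : v i = v j) : i ≡ j [MOD L] := by
  have hL : 0 < L := lt_of_lt_of_le (by norm_num) C.four_le
  have hm : ∀ i, v (i % L) = v i := by
    intro i
    have : ∀ k r, v (r + L * k) = v r := by
      intro k
      induction k with
      | zero => intro r; simp
      | succ k ih =>
        intro r
        have : r + L * (k + 1) = r + L * k + L := by ring
        rw [this, C.per, ih]
    conv_rhs => rw [← Nat.mod_add_div i L]
    rw [this]
  exact C.inj _ (Nat.mod_lt _ hL) _ (Nat.mod_lt _ hL) (by rw [hm, hm, h])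

/-- **two unit steps of the boundary walk which are not adjacent are at sup distance at least one**
-/
theorem far_cyc {F : Set Sp896.V} {L : ℕ} {v : ℕ → Sp896.V} (C : Sp896.Cyc F L v) {i j : ℕ}
    (h : ¬ i ≡ j [MOD L]) (h1 : ¬ i + 1 ≡ j [MOD L]) (h2 : ¬ i ≡ j + 1 [MOD L]) {t t' : ℝ}
    (t0 : 0 ≤ t) (t1 : t ≤ 1) (t0' : 0 ≤ t') (t1' : t' ≤ 1) :
    1 ≤ |(((v i).1 : ℝ) + t * ((v (i + 1)).1 - (v i).1 : ℤ)) -
      ((v j).1 + t' * ((v (j + 1)).1 - (v j).1 : ℤ))| ∨
    1 ≤ |(((v i).2 : ℝ) + t * ((v (i + 1)).2 - (v i).2 : ℤ)) -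
      ((v j).2 + t' * ((v (j + 1)).2 - (v j).2 : ℤ))| := by
  by_contra hcon
  push Not at hcon
  have e : ∀ a b : Sp896.V, a + (b.1 - a.1, b.2 - a.2) = b := by
    intro a b
    exact Prod.ext (by simp) (by simp)
  rcases near_seg (adj_U4 (C.step i)) (adj_U4 (C.step j)) t0 t1 t0' t1' hcon.1 hcon.2 with
    h3 | h3 | h3 | h3
  · exact h (cyc_mod C h3)
  · rw [e] at h3
    exact h2 (cyc_mod C h3)
  · rw [e] at h3
    exact h1 (cyc_mod C h3)
  · rw [e, e] at h3
    exact h (Nat.ModEq.add_right_cancel' 1 (cyc_mod C h3))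


end Crest.Agent.R143.Brkx478
end
private theorem rz_10b4be9ed2 : type_of% @_root_.Crest.Agent.R143.Brkx478.nv.eq_1 := @_root_.Crest.Agent.R143.Brkx478.nv.eq_1 -- L30
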