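import Crest.Agent.R143.CorP_503
import Crest.Agent.R143.GLIa_126
import Crest.Agent.R143.EnvH_653
import Crest.Agent.R143.LayU_416
import Crest.Agent.R143.Xc_372
import Crest.Agent.R143.MeasQ_609

-- ▼ part R143/CorE_133

/-!
# Row 143 (S0194), RIG: the environment of one frozen polygon `u : Poly` (helper133)

* `Rp u` : `u.P ⊆ closedBall 0 (Rp u)`, `1 ≤ Rp u`; `RU u = 2 Rp u + 8` : radius of the disc of the
  sites; `UU u = closedBall 0 (Rp u + 4)` : the region `U` of the corridor; `SU u ε ω` : the sites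
* **`CorEnv u ε d K1 c2 ρ0 ω`** : good environment; `gpS`, `dns`, `hol`, `envr`, `card`, `inn`,
  `hull_far`, `nva`, `mono` (in `d`)
* `LayU` : tile regions in the disc `Rp u + 3 h`, `fat`
* `fas` : far points are far from the cells; `xcU` : sites outside are joined to the hull
* **`cor_env`**, **`cor_env_sqrt`** : the environment is good with probability `≥ 1 - ε ^ A`
-/

set_option autoImplicit false

noncomputable section

open scoped Classical ENNReal

namespace Crest.Agent.R143.CorEx133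

open MeasureTheory Set Filter Topology
open Crest.ProbabilityR.Voronoi
open Crest.Agent.R143.B0x346 Crest.Agent.R143.B0Dx346 Crest.Agent.R143.DelGx806
open Crest.Agent.R143.Locx922 Crest.Agent.R143.PP1x831 Crest.Agent.R143.B6Ix903
open Crest.Agent.R143.Circx63
open Crest.Agent.R143.RB0x838 (LDns Mesh)
open Crest.Agent.R143.RBmx838 (MeshA NvA)
open Crest.Agent.R143.EnvHx653
open Crest.Agent.R143.Dbl2x609 (Ap coe_Ap finite_points)
open Crest.Agent.R143.PolyUx346 Crest.Agent.R143.LayUx416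
open Crest.Agent.R143.DomAx722 (Dns gp_mono)
open Crest.Agent.R143.RingPx503 (Envr)
open Crest.Agent.R143.Frame10x395 (OnHull)
open Crest.Agent.R143.TileRx228 (FPath cen gz ge RR)
open Crest.Agent.R143.Brkx478 (Bk cells)
open Crest.Agent.R143.RE0x723 (Pth)

/-! ### the discs of a polygon -/

section rad

variable (u : Poly)

theorem exists_Rp : ∃ R : ℝ, 1 ≤ R ∧ u.P ⊆ Metric.closedBall 0 R := by
  obtain ⟨R, hR⟩ := (MeasPx609.isCompact_P u).isBounded.subset_closedBall 0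
  exact ⟨max R 1, le_max_right _ _,
    hR.trans (Metric.closedBall_subset_closedBall (le_max_left _ _))⟩

/-- radius of a disc which contains the polygon -/
def Rp : ℝ := (exists_Rp u).choose

theorem one_le_Rp : 1 ≤ Rp u := (exists_Rp u).choose_spec.1

theorem P_sub : u.P ⊆ Metric.closedBall 0 (Rp u) := (exists_Rp u).choose_spec.2

/-- radius of the disc of the sites -/
def RU : ℝ := 2 * Rp u + 8

/-- the region of the corridor -/
def UU : Set ℂ := Metric.closedBall 0 (Rp u + 4)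

/-- the sites -/
def SU (ε : ℝ) (ω : Sample) : Finset ℂ := Ap ε (Metric.closedBall 0 (RU u)) ω

theorem RU_ge : 10 ≤ RU u := by
  have := one_le_Rp u
  unfold RU
  linarith

theorem P_norm {z : ℂ} (hz : z ∈ u.P) : ‖z‖ ≤ Rp u := mem_closedBall_zero_iff.1 (P_sub u hz)

theorem P_sub_UU : u.P ⊆ UU u := (P_sub u).trans (Metric.closedBall_subset_closedBall (by linarith))

theorem s_le : u.s ≤ 1 := pow_le_one₀ (by norm_num) (by norm_num)

variable {u} {ε : ℝ} {ω : Sample}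

theorem mem_UU {z : ℂ} : z ∈ UU u ↔ ‖z‖ ≤ Rp u + 4 := mem_closedBall_zero_iff

theorem coe_SU (hε : 0 < ε) :
    (SU u ε ω : Set ℂ) = points ε ω ∩ Metric.closedBall 0 (RU u) :=
  coe_Ap hε Metric.isBounded_closedBall ω

theorem mem_SU (hε : 0 < ε) {s : ℂ} : s ∈ SU u ε ω ↔ s ∈ points ε ω ∧ ‖s‖ ≤ RU u := by
  rw [← Finset.mem_coe, coe_SU hε, mem_inter_iff, mem_closedBall_zero_iff]

end rad

/-! ### density in a disc -/

section dns

variable {S : Finset ℂ} {R d : ℝ}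

theorem hol_of_dns (hD : Dns S 0 R d) : Hol (S : Set ℂ) (Metric.closedBall 0 (R - 2 * d)) d := by
  intro w hw z hz
  rw [mem_closedBall_zero_iff] at hw
  obtain ⟨s, hs, h⟩ := hD.hole z (by
    rw [sub_zero]
    have := norm_add_le (z - w) w
    rw [sub_add_cancel] at this
    linarith)
  exact ⟨s, Finset.mem_coe.2 hs, h⟩


/-- hull sites are far -/
theorem hull_far (hD : Dns S 0 R d) {s : ℂ} (h : OnHull S s) : R - 2 * d ≤ ‖s‖ := by
  obtain ⟨a, ha⟩ := h
  have := Xcx372.hull_rad' hD ha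
  rwa [sub_zero] at this

theorem not_hull (hD : Dns S 0 R d) {s : ℂ} (h : ‖s‖ < R - 2 * d) : ¬ OnHull S s := fun h1 =>
  absurd (hull_far hD h1) (not_le.2 h)

end dns

/-! ### the environment -/

/-- **good environment of the polygon `u`** : density at the scale `d`, mesh bounds at all scales
`≥ ρ0` -/
structure CorEnv (u : Poly) (ε d K1 c2 ρ0 : ℝ) (ω : Sample) : Prop where
  e0 : 0 < ε
  d0 : 0 < d
  d1 : d ≤ 1 / 100
  gp : GP (points ε ω)
  hole : ∀ z : ℂ, ‖z‖ ≤ RU u + 2 → ∃ s ∈ points ε ω, ‖s - z‖ < d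
  env : EnvH (RU u + 3) ε d K1 c2 ρ0 ω

namespace CorEnv

variable {u : Poly} {ε d K1 c2 ρ0 : ℝ} {ω : Sample}

/-- general position for every finite set of points of the sample -/
theorem gp_of (C : CorEnv u ε d K1 c2 ρ0 ω) {S : Set ℂ} (hS : S ⊆ points ε ω) : GP S :=
  gp_mono hS C.gp

theorem gpS (C : CorEnv u ε d K1 c2 ρ0 ω) : GP (SU u ε ω : Set ℂ) :=
  C.gp_of (by rw [coe_SU C.e0]; exact inter_subset_left)

/-- density of the points of a disc -/
theorem dnsR (C : CorEnv u ε d K1 c2 ρ0 ω) {R : ℝ} (h1 : 8 * d ≤ R) (h2 : R ≤ RU u + 2) :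
    Dns (Ap ε (Metric.closedBall 0 R) ω) 0 R d where
  gp := C.gp_of (by rw [coe_Ap C.e0 Metric.isBounded_closedBall]; exact inter_subset_left)
  dpos := C.d0
  dL := h1
  sub s hs := by
    rw [← Finset.mem_coe, coe_Ap C.e0 Metric.isBounded_closedBall] at hs
    rw [sub_zero]
    exact mem_closedBall_zero_iff.1 hs.2
  hole z hz := by
    rw [sub_zero] at hz
    obtain ⟨s, hs, h⟩ := C.hole z (by linarith [C.d0])
    refine ⟨s, ?_, h⟩
    rw [← Finset.mem_coe, coe_Ap C.e0 Metric.isBounded_closedBall]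
    refine ⟨hs, mem_closedBall_zero_iff.2 ?_⟩
    have := norm_add_le (s - z) z
    rw [sub_add_cancel] at this
    linarith

theorem dns (C : CorEnv u ε d K1 c2 ρ0 ω) : Dns (SU u ε ω) 0 (RU u) d :=
  C.dnsR (by linarith [C.d1, RU_ge u]) (by linarith)

/-- holes of the full sample -/
theorem holP (C : CorEnv u ε d K1 c2 ρ0 ω) :
    Hol (points ε ω) (Metric.closedBall 0 (RU u + 1)) d := by
  intro w hw z hz
  rw [mem_closedBall_zero_iff] at hw
  refine C.hole z ?_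
  have := norm_add_le (z - w) w
  rw [sub_add_cancel] at this
  linarith [C.d1]


theorem holD (C : CorEnv u ε d K1 c2 ρ0 ω) :
    Hol (SU u ε ω : Set ℂ) (Metric.closedBall 0 (RU u - 2 * d)) d := hol_of_dns C.dns

/-- **density in the region `UU`** -/
theorem hol (C : CorEnv u ε d K1 c2 ρ0 ω) : Hol (SU u ε ω : Set ℂ) (UU u) d := by
  refine C.holD.mono (Metric.closedBall_subset_closedBall ?_)
  have := one_le_Rp u
  have := C.d1
  unfold RU
  linarith



theorem zero_mem (u : Poly) : (0 : ℂ) ∈ UU u := by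
  rw [mem_UU, norm_zero]
  linarith [one_le_Rp u]

theorem card (C : CorEnv u ε d K1 c2 ρ0 ω) : 3 ≤ (SU u ε ω).card :=
  three_le C.d0 C.hol (zero_mem u)

/-- hull sites have norm at least `RU u - 2 d` -/
theorem hull_far (C : CorEnv u ε d K1 c2 ρ0 ω) {s : ℂ} (h : OnHull (SU u ε ω) s) :
    RU u - 2 * d ≤ ‖s‖ := CorEx133.hull_far C.dns h

/-- no hull site in `UU` -/
theorem inn (C : CorEnv u ε d K1 c2 ρ0 ω) {s : ℂ} (h : s ∈ UU u) : ¬ OnHull (SU u ε ω) s := by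
  refine CorEx133.not_hull C.dns ?_
  rw [mem_UU] at h
  have := one_le_Rp u
  have := C.d1
  unfold RU
  linarith


/-- **conditional estimates at all places and scales** -/
theorem nva (C : CorEnv u ε d K1 c2 ρ0 ω) {z0 : ℂ} {ρ : ℝ} (h1 : ρ0 ≤ ρ) (h2 : 2 * ρ ≤ 1)
    (h3 : ‖z0‖ + (K1 + 1) * ρ + 2 * d ≤ RU u) :
    NvA (SU u ε ω) z0 (K1 * ρ) c2 ρ d Cab := by
  refine C.env _ z0 ρ C.gpS h1 h2 (by linarith) fun s hs => ?_
  rw [mem_SU C.e0]
  refine ⟨fun h => ⟨h, ?_⟩, fun h => h.1⟩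
  have := norm_add_le (s - z0) z0
  rw [sub_add_cancel] at this
  linarith


end CorEnv

/-! ### monotonicity in the density -/

theorem nvA_d {S : Finset ℂ} {z0 : ℂ} {R c ρ d d' C4 : ℝ} (h : NvA S z0 R c ρ d C4)
    (hd : d ≤ d') : NvA S z0 R c ρ d' C4 :=
  ⟨⟨h.dns.gp, h.dns.dpos.trans_le hd, fun z hz => by
    obtain ⟨s, hs, h1⟩ := h.dns.hole z hz
    exact ⟨s, hs, h1.trans_le hd⟩⟩, h.mesh⟩

theorem envH_d {R0 ε d d' K1 c2 ρ0 : ℝ} {ω : Sample} (h : EnvH R0 ε d K1 c2 ρ0 ω)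
    (hd : d ≤ d') : EnvH R0 ε d' K1 c2 ρ0 ω := fun S z0 ρ h1 h2 h3 h4 h5 =>
  nvA_d (h S z0 ρ h1 h2 h3 (by linarith) fun s hs => h5 s (by linarith)) hd


theorem CorEnv.mono {u : Poly} {ε d d' K1 c2 ρ0 : ℝ} {ω : Sample} (C : CorEnv u ε d K1 c2 ρ0 ω)
    (hd : d ≤ d') (h1 : d' ≤ 1 / 100) : CorEnv u ε d' K1 c2 ρ0 ω where
  e0 := C.e0
  d0 := C.d0.trans_le hd
  d1 := h1
  gp := C.gp
  hole z hz := by
    obtain ⟨s, hs, h⟩ := C.hole z hz
    exact ⟨s, hs, h.trans_le hd⟩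
  env := envH_d C.env hd

/-! ### probability -/

/-- a good sample gives a good environment -/
theorem cor_of_good {u : Poly} {ε C' K K1 c2 ρ0 : ℝ} {ω : Sample}
    (hG : GoodB (RU u + 3) ε C' K 8 Ca0 ω) (he : 0 < ε) (hd : 0 < rad C' ε)
    (hd1 : rad C' ε ≤ 1 / 100) (hK1 : 0 ≤ K1) (hc2 : 0 < c2) (hρ0 : 0 < ρ0)
    (h1 : ε * Real.log (1 / ε) ^ (8 : ℝ) ≤ 2 * (c2 * ρ0)) (h3 : 2 * rad C' ε ≤ c2 * ρ0) :
    CorEnv u ε (rad C' ε) K1 c2 ρ0 ω where
  e0 := he
  d0 := hd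
  d1 := hd1
  gp := hG.env.gp
  hole z hz := by
    obtain ⟨s, hs, h⟩ := hG.env.hole z (by
      rw [mem_closedBall_zero_iff]
      linarith)
    rw [Metric.mem_ball, dist_eq_norm] at h
    exact ⟨s, hs, h⟩
  env := by
    intro S z0 ρ g1 g2 g3 g4 g5
    have hρ : 0 < ρ := hρ0.trans_le g2
    have e1 : c2 * ρ0 ≤ c2 * ρ := mul_le_mul_of_nonneg_left g2 hc2.le
    exact nva_good hG hd g1 hK1 hc2 hρ (by linarith) g3 (by linarith) g4 g5

/-- **the environment of a polygon is good with probability `≥ 1 - ε ^ A`** -/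
theorem cor_env (u : Poly) (A : ℝ) : ∃ C : ℝ, 0 < C ∧ ∀ K1 c1 c2 ρ0 : ℝ, 0 ≤ K1 → 0 < c1 →
    0 < c2 → 0 < ρ0 → ∀ᶠ ε : ℝ in 𝓝[>] 0, (0 < rad C ε ∧ rad C ε ≤ c1 * ρ0) ∧
      sampleLaw {ω | ¬ CorEnv u ε (rad C ε) K1 c2 ρ0 ω} ≤ ENNReal.ofReal (ε ^ A) := by
  obtain ⟨C, K, hC, hK, hMP⟩ := mgA (RU u + 3) A
  refine ⟨C, hC, fun K1 c1 c2 ρ0 hK1 hc1 hc2 hρ0 => ?_⟩
  unfold MP at hMP
  have f1 : ∀ᶠ ε : ℝ in 𝓝[>] 0, rad C ε < min (min (c1 * ρ0) (c2 * ρ0 / 2)) (1 / 100) :=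
    (DicCx831.rad_small C).eventually_lt_const (by positivity)
  have f2 : ∀ᶠ ε : ℝ in 𝓝[>] 0, ε * Real.log (1 / ε) ^ (8 : ℝ) < 2 * (c2 * ρ0) :=
    log8_small.eventually_lt_const (by positivity)
  have f3 : ∀ᶠ ε : ℝ in 𝓝[>] 0, 0 < ε := eventually_mem_nhdsWithin
  have f4 := PoisM4x501.tendsto_logInv.eventually_ge_atTop 1
  filter_upwards [hMP, f1, f2, f3, f4] with ε h1 h2 h3 h4 h5
  have hrad : 0 < rad C ε := by
    have hlog : 0 < Real.log (1 / ε) := by linarith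
    unfold rad
    positivity
  have h2a := h2.trans_le ((min_le_left _ _).trans (min_le_left _ _))
  have h2b := h2.trans_le ((min_le_left _ _).trans (min_le_right _ _))
  have h2c := h2.trans_le (min_le_right _ _)
  refine ⟨⟨hrad, h2a.le⟩, (measure_mono ?_).trans h1⟩
  intro ω hω hG
  exact hω (cor_of_good hG h4 hrad h2c.le hK1 hc2 hρ0 h3.le (by linarith))

theorem sqrt_small {c : ℝ} (hc : 0 < c) : ∀ᶠ ε : ℝ in 𝓝[>] 0, √ε ≤ c := by
  have h1 : ∀ᶠ ε : ℝ in 𝓝[>] 0, ε < c ^ 2 :=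
    nhdsWithin_le_nhds (eventually_lt_nhds (by positivity))
  filter_upwards [h1] with ε h2
  rw [← Real.sqrt_sq hc.le]
  exact Real.sqrt_le_sqrt h2.le

/-- **the same with the universal scale `√ε`** -/
theorem cor_env_sqrt (u : Poly) (A K1 c1 c2 ρ0 : ℝ) (hK1 : 0 ≤ K1) (hc1 : 0 < c1) (hc2 : 0 < c2)
    (hρ0 : 0 < ρ0) : ∀ᶠ ε : ℝ in 𝓝[>] 0, (0 < √ε ∧ √ε ≤ c1) ∧
      sampleLaw {ω | ¬ CorEnv u ε √ε K1 c2 ρ0 ω} ≤ ENNReal.ofReal (ε ^ A) := by
  obtain ⟨C, hC, h⟩ := cor_env u A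
  have f3 : ∀ᶠ ε : ℝ in 𝓝[>] 0, 0 < ε := eventually_mem_nhdsWithin
  filter_upwards [h K1 1 c2 ρ0 hK1 one_pos hc2 hρ0, MeasQx609.rad_le_sqrt C, sqrt_small hc1,
    sqrt_small (c := 1 / 100) (by norm_num), f3] with ε h1 h2 h4 h5 h6
  refine ⟨⟨Real.sqrt_pos.2 h6, h4⟩, (measure_mono ?_).trans h1.2⟩
  intro ω hω hC'
  exact hω (hC'.mono h2 h5)

/-! ### layout -/

section lay

variable {u : Poly} {m M : ℕ} {p W : ℤ → ℤ × ℤ} {A e : ℤ → ℤ}

theorem h_le (H : LayU u m M p W A e) {h : ℝ} (hh : (m : ℝ) * h = u.s) : h ≤ 1 / 10 := by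
  have h1 := H.m_pos
  have h2 := H.h_pos hh
  have h3 := s_le u
  have h4 : (10 : ℝ) ≤ m := by exact_mod_cast h1
  nlinarith

/-- **tile regions are in the disc of radius `Rp + 3 h`** -/
theorem RR_norm (H : LayU u m M p W A e) {h a' b' : ℝ} (hh : (m : ℝ) * h = u.s) (ha : a' < h)
    (hab : a' ≤ b') (hb : 0 ≤ b') (hbh : b' ≤ h) {a : ℤ} {s : ℂ} (hs : s ∈ RR a' b' h W a) :
    ‖s‖ ≤ Rp u + 3 * h := by
  obtain ⟨-, -, -, -, h1⟩ := H.RR_dist hh ha hab hb hbh hs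
  obtain ⟨y, hy, he⟩ := (MeasPx609.isCompact_P u).exists_infDist_eq_dist (MeasPx609.P_nonempty u) s
  rw [he, dist_eq_norm] at h1
  have h2 := P_norm u hy
  have h3 := norm_add_le (s - y) y
  rw [sub_add_cancel] at h3
  linarith

/-- **the `h`-neighbourhood of the tile regions is in `UU`** -/
theorem fat (H : LayU u m M p W A e) {h a' b' : ℝ} (hh : (m : ℝ) * h = u.s) (ha : a' < h)
    (hab : a' ≤ b') (hb : 0 ≤ b') (hbh : b' ≤ h) (a : ℤ) {w : ℂ} (hw : w ∈ RR a' b' h W a) {s : ℂ}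
    (hs : ‖s - w‖ ≤ h) : s ∈ UU u := by
  have h1 := RR_norm H hh ha hab hb hbh hw
  have h2 := h_le H hh
  have h3 := norm_add_le (s - w) w
  rw [sub_add_cancel] at h3
  rw [mem_UU]
  linarith

/-- field `fat` of `CorH` -/
theorem fat_std (H : LayU u m M p W A e) {η : ℝ} (hh : (m : ℝ) * (100 * η) = u.s) (a : ℤ) (w : ℂ)
    (hw : w ∈ RR (9 * η) (51 * η) (100 * η) W a) (s : ℂ) (hs : ‖s - w‖ ≤ 100 * η) : s ∈ UU u := by
  have h0 := H.h_pos hh
  exact fat H hh (by linarith) (by linarith) (by linarith) (by linarith) a hw hs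

/-- tile regions are in `UU` -/
theorem RR_sub (H : LayU u m M p W A e) {h a' b' : ℝ} (hh : (m : ℝ) * h = u.s) (ha : a' < h)
    (hab : a' ≤ b') (hb : 0 ≤ b') (hbh : b' ≤ h) (a : ℤ) : RR a' b' h W a ⊆ UU u := fun s hs =>
  fat H hh ha hab hb hbh a hs (by rw [sub_self, norm_zero]; exact (H.h_pos hh).le)


/-- **far points are far from the cells** (`hin` of 372's `xc`, `L = RU`) -/
theorem fas {r : ℝ} (hr : r ≤ 1) {z : ℂ} (hz : Rp u + 4 ≤ ‖z‖) :
    z ∈ Xcx372.FaS 0 u.s (cells (u.U : Set Bk)) r := by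
  rintro q hq ⟨h1, h2, h3, h4⟩
  simp only [Complex.zero_re, Complex.zero_im, zero_add] at h1 h2 h3 h4
  have hs := u.s_pos
  set x : ℝ := max (u.s * q.1) (min z.re (u.s * (q.1 + 1))) with hx
  set y : ℝ := max (u.s * q.2) (min z.im (u.s * (q.2 + 1))) with hy
  have hP : (⟨x, y⟩ : ℂ) ∈ u.P := by
    refine mem_biUnion hq ?_
    refine ⟨le_max_left _ _, max_le (by nlinarith) (min_le_right _ _), le_max_left _ _,
      max_le (by nlinarith) (min_le_right _ _)⟩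
  have h5 := P_norm u hP
  have k1 : |z.re - x| ≤ 1 := by
    rw [abs_le, hx]
    constructor
    · rcases le_total (u.s * q.1) (min z.re (u.s * (q.1 + 1))) with h | h
      · rw [max_eq_right h]
        have := min_le_left z.re (u.s * (q.1 + 1))
        linarith
      · rw [max_eq_left h]
        linarith
    · rcases le_total z.re (u.s * (q.1 + 1)) with h | h
      · rw [min_eq_left h]
        have := le_max_right (u.s * (q.1 : ℝ)) z.re
        linarith
      · rw [min_eq_right h]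
        have := le_max_right (u.s * (q.1 : ℝ)) (u.s * (q.1 + 1))
        linarith
  have k2 : |z.im - y| ≤ 1 := by
    rw [abs_le, hy]
    constructor
    · rcases le_total (u.s * q.2) (min z.im (u.s * (q.2 + 1))) with h | h
      · rw [max_eq_right h]
        have := min_le_left z.im (u.s * (q.2 + 1))
        linarith
      · rw [max_eq_left h]
        linarith
    · rcases le_total z.im (u.s * (q.2 + 1)) with h | h
      · rw [min_eq_left h]
        have := le_max_right (u.s * (q.2 : ℝ)) z.im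
        linarith
      · rw [min_eq_right h]
        have := le_max_right (u.s * (q.2 : ℝ)) (u.s * (q.2 + 1))
        linarith
  have h6 : ‖z - ⟨x, y⟩‖ ≤ |z.re - x| + |z.im - y| := Complex.norm_le_abs_re_add_abs_im _
  have h7 := norm_add_le (z - ⟨x, y⟩) (⟨x, y⟩ : ℂ)
  rw [sub_add_cancel] at h7
  linarith



end lay

end Crest.Agent.R143.CorEx133
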