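import Crest.Agent.R143.NetU_346

/-!
# Row 143 (S0194): FROZEN, part 2 : `T` of a labelled polygon (helper346)

385's F1, 583's `TV` / 930's STAB: position labels, no connectivity asked, local, no choice.

* `HitV S V B i T t` : oriented triple `t = (u, b, v) ∈ delT S` with a vertex in `V` (`b` or `v`),
  `u ∈ B i`, `b` joined to `B (i + 1)` by black sites of `V`, `v` to `B (i + 2)` by white sites of
  `V`;
* **`TV S V B z`** `= 3 ∑ i, om ^ i * E_{T ⊆ V} [z u if there is exactly one triple, else 0]`;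
* `Vin S P d` : sites `x` of `S` with `closedBall x (2 d) ⊆ P`; `Bl S V L i` : sites off `V`, next to
  `V`, with position label `L x = i`;
* **`TU S P d L z = TV S (Vin S P d) (Bl S (Vin S P d) L) z`** : the `T` of CONT and POLY.
-/

set_option autoImplicit false

noncomputable section

open scoped Classical

namespace Crest.Agent.R143.NetVx346

open Crest.Agent.R143.B0x346 Crest.Agent.R143.DelGx806 Crest.Agent.R143.DelRx806
open Crest.Agent.R143.JColx54 (Adj)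
open Crest.Agent.R143.RE0x723 (Pth)
open Crest.Agent.R143.K33x877 (Clu Hit fr)
open Crest.Agent.R143.NetUx346

/-- oriented hit triple with a vertex in `V` -/
def HitV (S V : Finset ℂ) (B : ZMod 3 → Set ℂ) (i : ZMod 3) (T : Set ℂ) (t : ℂ × ℂ × ℂ) : Prop :=
  t ∈ delT S ∧ t.1 ∈ B i ∧ (t.2.1 ∈ V ∨ t.2.2 ∈ V) ∧
    t.2.1 ∈ Clu S ({x | x ∈ V} ∩ T) (B (i + 1)) ∧ t.2.2 ∈ Clu S ({x | x ∈ V} \ T) (B (i + 2))

/-- the hit triples -/
def hitsV (S V : Finset ℂ) (B : ZMod 3 → Set ℂ) (i : ZMod 3) (T : Set ℂ) :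
    Finset (ℂ × ℂ × ℂ) := (delT S).filter (HitV S V B i T)

/-- value at the hit if there is exactly one, else `0` -/
def zV (S V : Finset ℂ) (B : ZMod 3 → Set ℂ) (i : ZMod 3) (T : Set ℂ) (z : ℂ → ℂ) : ℂ :=
  if (hitsV S V B i T).card = 1 then ∑ t ∈ hitsV S V B i T, z t.1 else 0

/-- **`T` of a labelled free set** -/
def TV (S V : Finset ℂ) (B : ZMod 3 → Set ℂ) (z : ℂ → ℂ) : ℂ :=
  3 * ∑ i : ZMod 3, omz i * exC V fun T => zV S V B i (T : Set ℂ) z

/-- sites deep in `P` -/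
def Vin (S : Finset ℂ) (P : Set ℂ) (d : ℝ) : Finset ℂ :=
  S.filter fun x => Metric.closedBall x (2 * d) ⊆ P

/-- sites off `V`, next to `V`, with position label `i` -/
def Bl (S V : Finset ℂ) (L : ℂ → ZMod 3) (i : ZMod 3) : Set ℂ :=
  {x | x ∈ S ∧ x ∉ V ∧ (∃ v ∈ V, Adj S x v) ∧ L x = i}

/-- **`T` of the labelled region `(P, L)`**, hole radius `d` -/
def TU (S : Finset ℂ) (P : Set ℂ) (d : ℝ) (L : ℂ → ZMod 3) (z : ℂ → ℂ) : ℂ :=
  TV S (Vin S P d) (Bl S (Vin S P d) L) z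

variable {S V : Finset ℂ} {B : ZMod 3 → Set ℂ} {i : ZMod 3}

theorem mem_hitsV {T : Set ℂ} {t : ℂ × ℂ × ℂ} : t ∈ hitsV S V B i T ↔ HitV S V B i T t := by
  unfold hitsV
  rw [Finset.mem_filter]
  exact ⟨fun h => h.2, fun h => ⟨h.1, h⟩⟩

theorem zV_eq {T : Set ℂ} {t : ℂ × ℂ × ℂ} (h : HitV S V B i T t)
    (hu : ∀ t', HitV S V B i T t' → t' = t) (z : ℂ → ℂ) : zV S V B i T z = z t.1 := by
  have e : hitsV S V B i T = {t} := by
    ext t'
    rw [mem_hitsV, Finset.mem_singleton]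
    exact ⟨hu t', fun e => e ▸ h⟩
  unfold zV
  rw [e, Finset.card_singleton, if_pos rfl, Finset.sum_singleton]

theorem norm_zV {T : Set ℂ} {z : ℂ → ℂ} {b : ℝ} (hb : 0 ≤ b) (h : ∀ v ∈ B i, ‖z v‖ ≤ b) :
    ‖zV S V B i T z‖ ≤ b := by
  unfold zV
  split_ifs with h1
  · obtain ⟨t, ht⟩ := Finset.card_eq_one.1 h1
    rw [ht, Finset.sum_singleton]
    have : t ∈ hitsV S V B i T := by rw [ht]; exact Finset.mem_singleton_self t
    exact h _ (mem_hitsV.1 this).2.1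
  · rw [norm_zero]
    exact hb





end Crest.Agent.R143.NetVx346
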