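import Crest.Agent.R143.LocT_700
import Crest.Agent.R143.NetV_346

-- ▼ part R143/LocT3_700
section

/-!
# Row 143 (S0194), locality of `TS1` (385, 930): total of the unique hit with a vertex in `V`
(helper700)

* `sT1 S V lab z` : `3 ∑ i, om ^ i * E [z (hit vertex) if there is exactly one hit with a vertex in
  V, else 0]`; `sE1` : one mean
* `hitsN_eq` : 930's `hitsN S A i T` is `hitsV S V lab i T` for classes with free sites `V`
* `TS1_sT1` : `TS1 S A z = sT1 S V lab z` (930's definition written out), in particular for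
  `A = cls S V lab` (`cmp_cls`, `TS1_cls`)
* `sT1_congr`, `sT1_local` : it depends on the triangles with a vertex in `V` and on the labels next
  to `V` only; `norm_sT1 : ≤ 9 B`; `sT_sT1` : `sT = sT1` if the hit is always unique
-/

set_option autoImplicit false
set_option linter.all false

noncomputable section

open scoped Classical

namespace Crest.Agent.R143.LocTx700

open Crest.Agent.R143.B0x346 Crest.Agent.R143.DelGx806 Crest.Agent.R143.DelRx806
open Crest.Agent.R143.JColx54 Crest.Agent.R143.K33x877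
open Crest.Agent.R143.RE0x723 (Pth)
open Crest.Agent.R143.NetUx346
open Crest.Agent.R143.Locx922 (Hol Agr delT_vertex delT_vertex2 delT_vertex3)

variable {S S' V : Finset ℂ} {lab lab' : ℂ → ZMod 3} {A : ZMod 3 → Set ℂ} {i : ZMod 3} {T : Set ℂ}
  {b w u x y : ℂ} {t : ℂ × ℂ × ℂ}

/-- mean of the unique hit vertex with the label `i` -/
def sE1 (S V : Finset ℂ) (lab : ℂ → ZMod 3) (z : ℂ → ℂ) (i : ZMod 3) : ℂ :=
  exC V fun T => if (hitsV S V lab i (T : Set ℂ)).card = 1 then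
    ∑ t ∈ hitsV S V lab i (T : Set ℂ), z t.1 else 0

/-- **the total of the unique hits** -/
def sT1 (S V : Finset ℂ) (lab : ℂ → ZMod 3) (z : ℂ → ℂ) : ℂ :=
  3 * ∑ i : ZMod 3, omz i * sE1 S V lab z i

/-! ### the classes -/









/-! ### bound, comparison with `sT` -/







/-! ### locality -/

theorem SameT.hits_eq (h : SameT S S' V) (hl : ∀ x ∈ LocTx700.bd S V, lab x = lab' x)
    (i : ZMod 3) (T : Set ℂ) : hitsV S V lab i T = hitsV S' V lab' i T := by
  ext t
  rw [mem_hitsV, mem_hitsV]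
  refine ⟨h.hitV_imp hl, h.symm.hitV_imp fun x hx => ?_⟩
  rw [← h.bd] at hx
  exact (hl x hx).symm

theorem sE1_congr (h : SameT S S' V) (hl : ∀ x ∈ bd S V, lab x = lab' x) (z : ℂ → ℂ)
    (i : ZMod 3) : sE1 S V lab z i = sE1 S' V lab' z i := by
  unfold sE1
  congr 1
  funext T
  rw [h.hits_eq hl]

theorem sT1_congr (h : SameT S S' V) (hl : ∀ x ∈ bd S V, lab x = lab' x) (z : ℂ → ℂ) :
    sT1 S V lab z = sT1 S' V lab' z := by
  unfold sT1
  congr 1
  exact Finset.sum_congr rfl fun i _ => by rw [sE1_congr h hl]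

/-- **locality of the total of the unique hits** -/
theorem sT1_local {W : Set ℂ} {d : ℝ} (hd : 0 < d) (hH : Hol (S : Set ℂ) W d)
    (hA : Agr (S : Set ℂ) (S' : Set ℂ) W (2 * d)) (hV : (V : Set ℂ) ⊆ W)
    (hl : ∀ x ∈ bd S V, lab x = lab' x) (z : ℂ → ℂ) : sT1 S V lab z = sT1 S' V lab' z :=
  sT1_congr (sameT_local hd hH hA hV) hl z


end Crest.Agent.R143.LocTx700
end
namespace Crest.Agent.R143.LocTx700.Cmp
end Crest.Agent.R143.LocTx700.Cmp
end

-- ▼ part R143/LocU_700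

/-!
# Row 143 (S0194), LocT for the frozen `TU` of 346's `NetV_346` (helper700)

* `clu_iff`, `hitV_iff`, `TV_sT1` : `TV S V (Bl S V L) z = sT1 S V L z`
* `deep P d` : centres of closed balls of radius `2 d` in `P`; `mem_Vin`
* **`TU_local`** : `TU S P d L z` is a function of the points of `S` IN `P` (and of `L` on them) as
  soon as `S` is `d`-dense near `deep P d`: `S`, `S'` with the same points in `P` have the same `TU`
* `TU_congr_L` : only the labels of the sites next to `Vin` count (they are in `P`)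
* `TS_TU` : a proper triple with free sites `Vin` and labels `L` next to it has `TS = TU`
-/

set_option autoImplicit false
set_option linter.all false

noncomputable section

open scoped Classical

namespace Crest.Agent.R143.LocUx700

open Crest.Agent.R143.B0x346 Crest.Agent.R143.DelGx806 Crest.Agent.R143.DelRx806
open Crest.Agent.R143.JColx54 Crest.Agent.R143.K33x877
open Crest.Agent.R143.RE0x723 (Pth)
open Crest.Agent.R143.NetUx346
open Crest.Agent.R143.NetVx346 (TV TU Vin Bl zV)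
open Crest.Agent.R143.LocTx700
open Crest.Agent.R143.Locx922 (Hol Agr)

variable {S S' V : Finset ℂ} {L L' : ℂ → ZMod 3} {i : ZMod 3} {T P : Set ℂ} {b x : ℂ} {d : ℝ}
  {t : ℂ × ℂ × ℂ}

theorem bl_eq (i : ZMod 3) : Bl S V L i = Lay S V L i := by
  ext x
  constructor
  · rintro ⟨h1, h2, ⟨v, hv, h3⟩, h4⟩
    exact ⟨mem_bd_of h2 hv h3.symm, h4⟩
  · rintro ⟨h1, h4⟩
    obtain ⟨h1, h2, v, hv, h3⟩ := mem_bd.1 h1
    exact ⟨h1, h2, ⟨v, hv, h3.symm⟩, h4⟩

theorem clu_iff (T : Set ℂ) : b ∈ Clu S ((V : Set ℂ) ∩ T) (Lay S V L i) ↔ b ∈ CluV S V L i T := by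
  constructor
  · intro h
    exact clu_cases h
  · rintro (h | ⟨x, hx, y, hxy, hp⟩)
    · exact ⟨b, h, Pth.refl (Or.inr h)⟩
    · refine ⟨x, hx, ?_⟩
      exact (Pth.single (Or.inr hx) hxy (Or.inl hp.1)).trans (hp.mono Set.subset_union_left)

theorem hitV_iff : NetVx346.HitV S V (Bl S V L) i T t ↔ LocTx700.HitV S V L i T t := by
  have e1 : ({x | x ∈ V} : Set ℂ) ∩ T = (V : Set ℂ) ∩ T := rfl
  have e2 : ({x | x ∈ V} : Set ℂ) \ T = (V : Set ℂ) ∩ Tᶜ := by
    rw [Set.sdiff_eq]; rfl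
  unfold NetVx346.HitV
  rw [e1, e2, bl_eq, bl_eq, bl_eq, clu_iff, clu_iff]
  exact ⟨fun ⟨h1, h2, h3, h4, h5⟩ => ⟨h1, h2, h4, h5, h3⟩,
    fun ⟨h1, h2, h4, h5, h3⟩ => ⟨h1, h2, h3, h4, h5⟩⟩

theorem hitsV_eq (i : ZMod 3) (T : Set ℂ) :
    NetVx346.hitsV S V (Bl S V L) i T = LocTx700.hitsV S V L i T := by
  ext t
  rw [NetVx346.mem_hitsV, LocTx700.mem_hitsV, hitV_iff]

/-- `TV` of position labels is `sT1` -/
theorem TV_sT1 (z : ℂ → ℂ) : TV S V (Bl S V L) z = sT1 S V L z := by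
  unfold TV sT1 sE1
  congr 1
  refine Finset.sum_congr rfl fun i _ => ?_
  congr 2
  funext T
  unfold zV
  rw [hitsV_eq]

/-- centres of closed balls of radius `2 d` in `P` -/
def deep (P : Set ℂ) (d : ℝ) : Set ℂ := {x | Metric.closedBall x (2 * d) ⊆ P}

theorem mem_Vin : x ∈ Vin S P d ↔ x ∈ S ∧ x ∈ deep P d := by
  unfold Vin deep
  rw [Finset.mem_filter]
  exact Iff.rfl

theorem deep_sub (hd : 0 ≤ d) : deep P d ⊆ P := fun x hx =>
  hx (Metric.mem_closedBall_self (by linarith))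

theorem agr_deep (hd : 0 < d) (h : ∀ x ∈ P, x ∈ S ↔ x ∈ S') :
    Agr (S : Set ℂ) (S' : Set ℂ) (deep P d) (2 * d) := by
  intro w hw s hs
  have : s ∈ P := hw (by rw [Metric.mem_closedBall, dist_eq_norm]; exact hs.le)
  exact_mod_cast h s this

theorem Vin_eq (hd : 0 < d) (h : ∀ x ∈ P, x ∈ S ↔ x ∈ S') : Vin S P d = Vin S' P d := by
  ext x
  rw [mem_Vin, mem_Vin]
  constructor
  · rintro ⟨h1, h2⟩
    exact ⟨(h x (deep_sub hd.le h2)).1 h1, h2⟩
  · rintro ⟨h1, h2⟩
    exact ⟨(h x (deep_sub hd.le h2)).2 h1, h2⟩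

/-- the sites next to `Vin` are in `P` -/
theorem bd_Vin (hd : 0 < d) (hH : Hol (S : Set ℂ) (deep P d) d) (hx : x ∈ bd S (Vin S P d)) :
    x ∈ P := by
  obtain ⟨w, hw, -, h⟩ := bd_near hd hH
    (fun v hv => (mem_Vin.1 (Finset.mem_coe.1 hv)).2) hx
  refine (mem_Vin.1 hw).2 ?_
  rw [Metric.mem_closedBall, dist_eq_norm]
  exact h.le

/-- **LOCALITY of `TU`** : the points of `S` in `P` are enough -/
theorem TU_local (hd : 0 < d) (hH : Hol (S : Set ℂ) (deep P d) d)
    (h : ∀ x ∈ P, x ∈ S ↔ x ∈ S') (hL : ∀ x ∈ P, L x = L' x) (z : ℂ → ℂ) :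
    TU S P d L z = TU S' P d L' z := by
  unfold TU
  rw [← Vin_eq hd h, TV_sT1, TV_sT1]
  exact sT1_local hd hH (agr_deep hd h) (fun v hv => (mem_Vin.1 (Finset.mem_coe.1 hv)).2)
    (fun x hx => hL x (bd_Vin hd hH hx)) z





end Crest.Agent.R143.LocUx700
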