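import Crest.Agent.R143.OutC_571
import Crest.Agent.R143.PolyU_346

/-!
# Row 143, POLY: OUTSIDE CONNECTION for the frozen index `Poly` (helper571)

`OutCx571` at `F = cells U`, `δ = u.s`.
-/

set_option autoImplicit false

noncomputable section

namespace Crest.Agent.R143.OutPx571

open Set
open Crest.ProbabilityR.Voronoi
open Crest.Agent.R158.Sp896
open Crest.Agent.R143.Tenx416 (Pg)
open Crest.Agent.R143.Brkx478
open Crest.Agent.R143.PolyUx346
open Crest.Agent.R143.OutCx571
open Crest.Agent.R143.DomAx722 (Dns)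
open Crest.Agent.R143.RE0x723 (Pth)
open Crest.Agent.R143.ToolWx838 (Off asum prs)

theorem con_compl {U : Set Bk} (h : Conn Uᶜ) : ∀ q ∉ cells U, ∀ q' ∉ cells U,
    Con (cells U)ᶜ q q' := fun q hq q' hq' => con_cells h q hq q' hq'

variable (u : Poly)

/-- the cells of the polygon -/
abbrev F : Set V := cells (u.U : Set Bk)

theorem F_fin : (F u).Finite := cells_finite u.U.finite_toSet

theorem P_eq : u.P = Pg u.s (F u) := rfl

theorem F_con' : ∀ q ∉ F u, ∀ q' ∉ F u, Con (F u)ᶜ q q' := con_compl u.con'

theorem F_con : ∀ q ∈ F u, ∀ q' ∈ F u, Con (F u) q q' := con_cells u.con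

/-- the complement of the region is preconnected -/
theorem compl_P : IsPreconnected (u.P)ᶜ := compl_preconn (F_con' u) u.s_pos

variable {u} {ρ : ℝ}





end Crest.Agent.R143.OutPx571
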