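import Crest.Agent.R143.RE0_723

/-!
# Row 143 (S0194), CONT: definitions and literal statements (helper877, note 3434)

* `Tr S A` : three disjoint connected classes `A 0, A 1, A 2` which contain all the hull sites, with
  exactly one hull edge between any two of them (symmetric in the three classes)
* `CtrT`, `CtrX` : centre = triangle with one vertex in every class / connected set of free sites
  adjacent to every class
* `KTT`, `KTX`, `KXX` : **K33** : there are no two different centres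
* `Clu S T B` : sites joined to `B` by sites of `T`
* `Hit S A i j k T b v u` : triangle with the vertices `b` (joined to `A i` by free sites of `T`),
  `v` (joined to `A j` by free sites off `T`), `u ∈ A k`
* `TRICH`, `FRESH` : (T), (F) of the note
-/

set_option autoImplicit false

noncomputable section

open scoped Classical

namespace Crest.Agent.R143.K33x877

open Set
open Crest.Agent.R143.B0x346 Crest.Agent.R143.DelGx806 Crest.Agent.R143.DelRx806
  Crest.Agent.R143.JColx54 Crest.Agent.R143.RE0x723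
open Crest.Agent.R143.RB2x54 (Vt)

/-- three disjoint connected classes with hull arcs -/
structure Tr (S : Finset ℂ) (A : ZMod 3 → Set ℂ) : Prop where
  gp : GP (S : Set ℂ)
  sub : ∀ i, A i ⊆ (S : Set ℂ)
  disj : ∀ i j, i ≠ j → Disjoint (A i) (A j)
  con : ∀ i, ∀ x ∈ A i, ∀ y ∈ A i, Pth S (A i) x y
  hull : ∀ a b, hullE S a b → ∃ i, a ∈ A i
  /-- one hull edge between any two classes -/
  one : ∀ i j, i ≠ j → ∃ a b, (hullE S a b ∨ hullE S b a) ∧ a ∈ A i ∧ b ∈ A j ∧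
    ∀ a' b', (hullE S a' b' ∨ hullE S b' a') → a' ∈ A i → b' ∈ A j → a' = a ∧ b' = b

/-- free sites -/
def fr (S : Finset ℂ) (A : ZMod 3 → Set ℂ) : Set ℂ := {v | v ∈ S ∧ ∀ i, v ∉ A i}

/-- sites joined to `B` by sites of `T` (or of `B`) -/
def Clu (S : Finset ℂ) (T B : Set ℂ) : Set ℂ := {v | ∃ x ∈ B, Pth S (T ∪ B) x v}

/-- centre: triangle with a vertex in every class -/
def CtrT (S : Finset ℂ) (A : ZMod 3 → Set ℂ) (t : ℂ × ℂ × ℂ) : Prop :=
  t ∈ delT S ∧ ∀ i, ∃ v, Vt t v ∧ v ∈ A i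

/-- centre: connected set of free sites adjacent to every class -/
def CtrX (S : Finset ℂ) (A : ZMod 3 → Set ℂ) (X : Set ℂ) : Prop :=
  (∀ i, Disjoint X (A i)) ∧ (∀ x ∈ X, ∀ y ∈ X, Pth S X x y) ∧
    ∀ i, ∃ x ∈ X, ∃ y ∈ A i, Adj S x y

def KTT : Prop := ∀ (S : Finset ℂ) (A : ZMod 3 → Set ℂ), Tr S A → ∀ t t', CtrT S A t →
  CtrT S A t' → t' ∈ rots t

def KTX : Prop := ∀ (S : Finset ℂ) (A : ZMod 3 → Set ℂ), Tr S A → ∀ t X, CtrT S A t →
  ¬ CtrX S A X

def KXX : Prop := ∀ (S : Finset ℂ) (A : ZMod 3 → Set ℂ), Tr S A → ∀ X Y, CtrX S A X →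
  CtrX S A Y → ¬ Disjoint X Y

/-- the end of the interface between `A i` (and the sites of `T` joined to it) and `A j` (and the
sites off `T` joined to it) at the class `A k` -/
structure Hit (S : Finset ℂ) (A : ZMod 3 → Set ℂ) (i j k : ZMod 3) (T : Set ℂ) (b v u : ℂ) :
    Prop where
  tri : (b, v, u) ∈ delT S ∨ (v, b, u) ∈ delT S
  hb : b ∈ Clu S (fr S A ∩ T) (A i)
  hv : v ∈ Clu S (fr S A \ T) (A j)
  hu : u ∈ A k

/-- existence and uniqueness of the hit -/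
def HITE : Prop := ∀ (S : Finset ℂ) (A : ZMod 3 → Set ℂ), Tr S A → ∀ i j k : ZMod 3, i ≠ j →
  i ≠ k → j ≠ k → ∀ T : Set ℂ, ∃ b v u, Hit S A i j k T b v u

def HITU : Prop := ∀ (S : Finset ℂ) (A : ZMod 3 → Set ℂ), Tr S A → ∀ i j k : ZMod 3, i ≠ j →
  i ≠ k → j ≠ k → ∀ (T : Set ℂ) (b v u b' v' u' : ℂ), Hit S A i j k T b v u →
  Hit S A i j k T b' v' u' → b' = b ∧ v' = v ∧ u' = u


/-- **(F)** `Dw = Clu S (fr S A' \ T) (A' j)` the white cluster in the small domain; `C i`, `C k` the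
barriers (sites of `A' i`, `A' k` and sites of `T`) -/
def FRESH : Prop := ∀ (S : Finset ℂ) (A A' C : ZMod 3 → Set ℂ), Tr S A → Tr S A' →
  (∀ i, A i ⊆ A' i) → ∀ i j k : ZMod 3, i ≠ j → i ≠ k → j ≠ k → ∀ T : Set ℂ,
  C i ⊆ A' i ∪ (fr S A' ∩ T) → C k ⊆ A' k → ∀ v1 : ℂ,
  v1 ∈ Clu S (fr S A \ T) (A j) → v1 ∉ Clu S (fr S A \ (C i ∪ C k)) (A j) →
  ∃ z, z ∈ C i ∪ C k ∧ z ∈ A' i ∪ A' k ∧ z ∈ fr S A ∧ z ∉ T ∧
    Pth S ({v | v ∈ fr S A ∧ v ∉ T ∧ v ∉ Clu S (fr S A' \ T) (A' j)}) z v1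

end Crest.Agent.R143.K33x877
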