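import Crest.Agent.R143.XW1_315
import Crest.Agent.R143.K33D_877
import Crest.Agent.R143.ArmP_930
import Crest.Agent.R143.NetV_346

-- ▼ part R143/CondArm_930
section

/-!
# Row 143 (S0194), CONT, probability: what a cluster exploration leaves is fresh (helper930)

* `StpF V R` : `R` = the revealed sites of an exploration of the fair colouring of `V`
* `cond_le` : an event which has probability at most `p` whatever has been revealed
* `Rv S U B β` : the cluster `Clu S (U \ β) B` and its neighbours in `U`; `stp_rv`, `clu_eq`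
* `fresh_le` : `P (an arm of unrevealed sites at a place chosen by the exploration) ≤ p`
-/

set_option autoImplicit false

noncomputable section

open scoped Classical

namespace Crest.Agent.R143.CondArmx930

open Finset
open Crest.Agent.R143.Harx315 Crest.Agent.R143.XW1x315

section abstractpart

variable {α : Type*} {V : Finset α} {R : Finset α → Finset α}




end abstractpart

section cluster

open Crest.Agent.R143.B0x346 Crest.Agent.R143.DelGx806 Crest.Agent.R143.DelRx806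
  Crest.Agent.R143.JColx54 Crest.Agent.R143.RE0x723 Crest.Agent.R143.K33x877
open Crest.Agent.R143.D3Fx802 (CArm)
open Crest.Agent.R143.Lawx872 (ConnIn)

variable {S U V β β' : Finset ℂ} {B : Set ℂ} {v w : ℂ}








theorem conn_of_pth {T : Set ℂ} {W : Finset ℂ} (hT : ∀ x ∈ T, x ∈ W) {x y : ℂ}
    (h : Pth S T x y) : ConnIn S W x y := by
  obtain ⟨hx, h⟩ := h
  have : y ∈ T ∧ ConnIn S W x y := by
    induction h with
    | refl => exact ⟨hx, Relation.ReflTransGen.refl⟩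
    | tail _ h2 ih => exact ⟨h2.2, ih.2.tail ⟨h2.1, hT _ ih.1, hT _ h2.2⟩⟩
  exact this.2



end cluster

end Crest.Agent.R143.CondArmx930
end
end

-- ▼ part R143/Stab_930

/-!
# Row 143 (S0194), CONT / POLY: the labels near the marks do not matter (helper930)

In 346's frozen language (`NetV_346`). Two label systems `A`, `B` for the same free sites `V`; the
labels agree on the sites next to `V` outside of the three balls `B(m k, ρ)`; in `B(m k, D)` one label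
does not occur next to `V`. No connectivity, no order, no orientation.

* `hit_same`, `hitsV_same` : the hit triples of `A` and of `B` are the same unless there is a chain of
  one colour across `A(m k; ρ + 2 d, η - 2 d)` or `A(m k; η + 2 d, D - 2 d)` (`BdE`)
* `stab` : `‖TV S V A z - TV S V B z‖ ≤ 18 b P(BdE)`
* `zV_hv` : `A` proper (`Hex`, no rainbow triangle of class sites): the value of `B` is the value at
  the hit vertex of `A` outside of `BdE`
* `stab_TS`, `stab_TU` : `‖TS S A z - TU S P d L z‖ ≤ 18 b P(BdE)`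
* `pr_bdE` : `P(BdE)` from the one-arm bound
* `hitsV_congr` : the hit triples depend on the triangles at `V` and the labels next to `V` only
-/

set_option autoImplicit false

noncomputable section

open scoped Classical

namespace Crest.Agent.R143.Stabx930

open Crest.Agent.R143.B0x346 Crest.Agent.R143.DelGx806 Crest.Agent.R143.DelRx806
  Crest.Agent.R143.JColx54 Crest.Agent.R143.RE0x723 Crest.Agent.R143.K33x877
  Crest.Agent.R143.NetUx346 Crest.Agent.R143.NetVx346 Crest.Agent.R143.Harx315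
open Crest.Agent.R143.D3Fx802 (CArm)
open Crest.Agent.R143.Lawx872 (ConnIn)
open Crest.Agent.R143.CondArmx930 (conn_of_pth)
open Crest.Agent.R143.RB0x838 (LDns Mesh)

variable {S V T : Finset ℂ} {A B : ZMod 3 → Set ℂ} {i : ZMod 3} {m : ZMod 3 → ℂ}
  {d ρ η D : ℝ}

/-- a site next to the free sites -/
def Nxt (S V : Finset ℂ) (x : ℂ) : Prop := ∃ v ∈ V, Adj S v x

/-- a chain of one of the colours across one of the annuli -/
def Bd (S V : Finset ℂ) (m : ZMod 3 → ℂ) (a b : ℝ) (T : Finset ℂ) : Prop :=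
  ∃ k, CArm S T (m k) a b ∨ CArm S (V \ T) (m k) a b

/-- the last part of a chain from a class -/
theorem clu_last {W B : Set ℂ} {b : ℂ} (h : b ∈ Clu S W B) (hb : b ∉ B) :
    ∃ p q, Pth S W b p ∧ Adj S p q ∧ q ∈ B := by
  obtain ⟨x, hx, hp⟩ := h
  obtain ⟨u, v, h1, h2, h3, h4⟩ := Pth.exit (Q := fun w => w ∉ B) hp.symm hb (fun h => h hx)
  refine ⟨u, v, h1.mono ?_, h2, not_not.1 h4⟩
  rintro w ⟨h5 | h5, h6⟩
  · exact h5
  · exact absurd h5 h6

theorem clu_of {W B : Set ℂ} {b p q : ℂ} (h : Pth S W b p) (ha : Adj S p q) (hq : q ∈ B) :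
    b ∈ Clu S W B := by
  have h1 : Pth S (W ∪ B) b p := h.mono (fun _ h => Or.inl h)
  exact ⟨q, hq, (h1.tail ha (Or.inr hq)).symm⟩

theorem black (hT : T ⊆ V) : {x | x ∈ V} ∩ (T : Set ℂ) = (T : Set ℂ) :=
  Set.inter_eq_right.2 fun _ hx => hT (Finset.mem_coe.1 hx)

theorem white : {x | x ∈ V} \ (T : Set ℂ) = ((V \ T : Finset ℂ) : Set ℂ) := by
  rw [Finset.coe_sdiff]
  rfl

/-- the data near the marks: the labels of the sites next to `V` agree outside of the balls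
`B(m k, ρ)`; one label does not occur next to `V` in `B(m k, D)` -/
structure Mk (S V : Finset ℂ) (A B : ZMod 3 → Set ℂ) (m : ZMod 3 → ℂ) (d ρ η D : ℝ) :
    Prop where
  dA : ∀ j, ∀ x ∈ A j, x ∉ V
  dB : ∀ j, ∀ x ∈ B j, x ∉ V
  d0 : 0 ≤ d
  h1 : ρ + 4 * d < η
  h2 : η + 2 * d ≤ D
  sm : ∀ k u v, Adj S u v → ‖u - m k‖ ≤ D → ‖v - u‖ ≤ 2 * d
  lab : ∀ x, Nxt S V x → (∀ k, ρ < ‖x - m k‖) → ∀ j, (x ∈ A j ↔ x ∈ B j)
  opp : ∀ k, ∃ e, ∀ x, Nxt S V x → (x ∈ A e ∨ x ∈ B e) → D < ‖x - m k‖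

theorem Mk.symm (H : Mk S V A B m d ρ η D) : Mk S V B A m d ρ η D :=
  ⟨H.dB, H.dA, H.d0, H.h1, H.h2, H.sm, fun x hx h j => (H.lab x hx h j).symm,
    fun k => by
      obtain ⟨e, he⟩ := H.opp k
      exact ⟨e, fun x hx h => he x hx h.symm⟩⟩

theorem adjs {S : Finset ℂ} {u v : ℂ} (h : Adj S u v) : Adj S v u := h.symm

/-- one chain, far from the marks -/
theorem far_side (H : Mk S V A B m d ρ η D) {W : Finset ℂ} (hW : W ⊆ V) {j : ZMod 3} {y b : ℂ}
    (hy : ∀ k, η < ‖y - m k‖) (hyb : Adj S y b) (hn : b ∈ A j → Nxt S V b)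
    (hn' : ∀ k, ¬ CArm S W (m k) (ρ + 2 * d) (η - 2 * d))
    (hρ : b ∈ A j → ∀ k, ρ < ‖b - m k‖)
    (hb : b ∈ Clu S (W : Set ℂ) (A j)) : b ∈ Clu S (W : Set ℂ) (B j) := by
  by_cases hbj : b ∈ A j
  · have := (H.lab b (hn hbj) (hρ hbj) j).1 hbj
    exact ⟨b, this, Pth.refl (Or.inr this)⟩
  obtain ⟨p, q, h1, h2, h3⟩ := clu_last hb hbj
  have hpW : p ∈ W := Finset.mem_coe.1 h1.snd
  have hbW : b ∈ W := Finset.mem_coe.1 h1.1
  have hq : Nxt S V q := ⟨p, hW hpW, h2⟩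
  by_cases hqr : ∀ k, ρ < ‖q - m k‖
  · exact clu_of h1 h2 ((H.lab q hq hqr j).1 h3)
  exfalso
  push Not at hqr
  obtain ⟨k, hk⟩ := hqr
  have e1 : ‖p - q‖ ≤ 2 * d := H.sm k q p (adjs h2) (by linarith [H.h1, H.h2, H.d0])
  have e2 : ‖p - m k‖ ≤ ρ + 2 * d := by
    have := norm_sub_le_norm_sub_add_norm_sub p q (m k)
    linarith
  have e3 : η - 2 * d ≤ ‖b - m k‖ := by
    by_cases hbD : ‖b - m k‖ ≤ D
    · have h5 := H.sm k b y (adjs hyb) hbD
      have h6 := norm_sub_le_norm_sub_add_norm_sub y b (m k)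
      have := hy k
      linarith
    · push Not at hbD
      linarith [H.h2, H.d0]
  refine hn' k ⟨p, b, hpW, hbW, e2, e3, ?_⟩
  exact conn_of_pth (fun x hx => Finset.mem_coe.1 hx) h1.symm

/-- one chain, near a mark -/
theorem near_side (H : Mk S V A B m d ρ η D) {W : Finset ℂ} (hW : W ⊆ V) {j : ZMod 3} {y b : ℂ}
    {k : ZMod 3} (hy : ‖y - m k‖ ≤ η) (hyb : Adj S y b) (hn : b ∈ A j → Nxt S V b)
    (he : ∀ x, Nxt S V x → x ∈ A j → D < ‖x - m k‖)
    (hn' : ¬ CArm S W (m k) (η + 2 * d) (D - 2 * d)) : b ∉ Clu S (W : Set ℂ) (A j) := by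
  intro hb
  have e1 : ‖b - y‖ ≤ 2 * d := H.sm k y b hyb (by linarith [H.h2, H.d0])
  have e2 : ‖b - m k‖ ≤ η + 2 * d := by
    have := norm_sub_le_norm_sub_add_norm_sub b y (m k)
    linarith
  by_cases hbj : b ∈ A j
  · have := he b (hn hbj) hbj
    linarith [H.h2]
  obtain ⟨p, q, h1, h2, h3⟩ := clu_last hb hbj
  have hpW : p ∈ W := Finset.mem_coe.1 h1.snd
  have hbW : b ∈ W := Finset.mem_coe.1 h1.1
  have hq := he q ⟨p, hW hpW, h2⟩ h3
  have e3 : D - 2 * d ≤ ‖p - m k‖ := by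
    by_cases hpD : ‖p - m k‖ ≤ D
    · have h5 := H.sm k p q h2 hpD
      have h6 := norm_sub_le_norm_sub_add_norm_sub q p (m k)
      linarith
    · push Not at hpD
      linarith [H.d0]
  exact hn' ⟨b, p, hbW, hpW, e2, e3, conn_of_pth (fun x hx => Finset.mem_coe.1 hx) h1⟩

/-- the neighbours of the vertices of a triangle with a vertex in `V` -/
theorem tri_next (hS : GP (S : Set ℂ)) {y b w : ℂ} (h0 : (y, b, w) ∈ delT S)
    (hbw : b ∈ V ∨ w ∈ V) (dy : y ∉ V) :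
    Adj S y b ∧ Adj S b w ∧ Adj S w y ∧ Nxt S V y ∧ (b ∉ V → Nxt S V b) ∧ (w ∉ V → Nxt S V w) := by
  have ayb : Adj S y b := Or.inl ⟨w, h0⟩
  have h0' := delT_rot hS h0
  have h0'' := delT_rot hS h0'
  have abw : Adj S b w := Or.inl ⟨y, h0'⟩
  have awy : Adj S w y := Or.inl ⟨b, h0''⟩
  refine ⟨ayb, abw, awy, ?_, ?_, ?_⟩
  · rcases hbw with h | h
    · exact ⟨b, h, adjs ayb⟩
    · exact ⟨w, h, awy⟩
  · intro h
    rcases hbw with h1 | h1
    · exact absurd h1 h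
    · exact ⟨w, h1, adjs abw⟩
  · intro h
    rcases hbw with h1 | h1
    · exact ⟨b, h1, abw⟩
    · exact absurd h1 h

/-- **a hit of `A` is a hit of `B` if there is no arm at the marks** -/
theorem hit_same (hS : GP (S : Set ℂ)) (H : Mk S V A B m d ρ η D) (hT : T ⊆ V)
    (n1 : ¬ Bd S V m (ρ + 2 * d) (η - 2 * d) T) (n2 : ¬ Bd S V m (η + 2 * d) (D - 2 * d) T)
    {t : ℂ × ℂ × ℂ} (ht : HitV S V A i T t) : HitV S V B i T t := by
  obtain ⟨y, b, w⟩ := t
  obtain ⟨h0, hy, hbw, hb, hw⟩ := ht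
  change y ∈ A i at hy
  change b ∈ Clu S ({x | x ∈ V} ∩ T) (A (i + 1)) at hb
  change w ∈ Clu S ({x | x ∈ V} \ T) (A (i + 2)) at hw
  change b ∈ V ∨ w ∈ V at hbw
  rw [black hT] at hb
  rw [white] at hw
  obtain ⟨ayb, abw, awy, ny, nb', nw'⟩ := tri_next hS h0 hbw (H.dA i y hy)
  have nb : b ∈ A (i + 1) → Nxt S V b := fun h => nb' (H.dA _ b h)
  have nw : w ∈ A (i + 2) → Nxt S V w := fun h => nw' (H.dA _ w h)
  have n1' : ∀ k, ¬ CArm S T (m k) (ρ + 2 * d) (η - 2 * d) ∧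
      ¬ CArm S (V \ T) (m k) (ρ + 2 * d) (η - 2 * d) := by
    intro k
    exact ⟨fun h => n1 ⟨k, Or.inl h⟩, fun h => n1 ⟨k, Or.inr h⟩⟩
  have n2' : ∀ k, ¬ CArm S T (m k) (η + 2 * d) (D - 2 * d) ∧
      ¬ CArm S (V \ T) (m k) (η + 2 * d) (D - 2 * d) := by
    intro k
    exact ⟨fun h => n2 ⟨k, Or.inl h⟩, fun h => n2 ⟨k, Or.inr h⟩⟩
  have d0 := H.d0
  have k1 := H.h1
  have k2 := H.h2
  -- `y` is far from the marks
  have tri3 : ∀ i e : ZMod 3, e ≠ i → e = i + 1 ∨ e = i + 2 := by decide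
  have far : ∀ k, η < ‖y - m k‖ := by
    intro k
    by_contra hk
    push Not at hk
    obtain ⟨e, he⟩ := H.opp k
    have he' : ∀ x, Nxt S V x → x ∈ A e → D < ‖x - m k‖ := fun x hx h => he x hx (Or.inl h)
    have hie : e ≠ i := by
      intro h
      have := he' y ny (h ▸ hy)
      linarith
    rcases tri3 i e hie with h | h
    · rw [h] at he'
      exact near_side H hT hk ayb nb he' (n2' k).1 hb
    · rw [h] at he'
      exact near_side H Finset.sdiff_subset hk (adjs awy) nw he' (n2' k).2 hw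
  have near : ∀ x, Adj S x y → ∀ k, ρ < ‖x - m k‖ := by
    intro x hx k
    by_contra h
    push Not at h
    have h5 := H.sm k x y hx (by linarith)
    have h6 := norm_sub_le_norm_sub_add_norm_sub y x (m k)
    have := far k
    linarith
  refine ⟨h0, ?_, hbw, ?_, ?_⟩
  · exact (H.lab y ny (fun k => by have := far k; linarith) i).1 hy
  · change b ∈ Clu S ({x | x ∈ V} ∩ T) (B (i + 1))
    rw [black hT]
    exact far_side H hT far ayb nb (fun k => (n1' k).1) (fun _ => near b (adjs ayb)) hb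
  · change w ∈ Clu S ({x | x ∈ V} \ T) (B (i + 2))
    rw [white]
    exact far_side H Finset.sdiff_subset far (adjs awy) nw (fun k => (n1' k).2)
      (fun _ => near w awy) hw

/-- the arm event at the marks -/
def BdE (S V : Finset ℂ) (m : ZMod 3 → ℂ) (d ρ η D : ℝ) (T : Finset ℂ) : Prop :=
  Bd S V m (ρ + 2 * d) (η - 2 * d) T ∨ Bd S V m (η + 2 * d) (D - 2 * d) T

theorem hitsV_same (hS : GP (S : Set ℂ)) (H : Mk S V A B m d ρ η D) (hT : T ⊆ V)
    (n : ¬ BdE S V m d ρ η D T) : hitsV S V A i (T : Set ℂ) = hitsV S V B i (T : Set ℂ) := by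
  have n1 : ¬ Bd S V m (ρ + 2 * d) (η - 2 * d) T := fun h => n (Or.inl h)
  have n2 : ¬ Bd S V m (η + 2 * d) (D - 2 * d) T := fun h => n (Or.inr h)
  ext t
  rw [mem_hitsV, mem_hitsV]
  exact ⟨hit_same hS H hT n1 n2, hit_same hS H.symm hT n1 n2⟩

/-- outside of the arm event the end points are the same -/
theorem zV_same (hS : GP (S : Set ℂ)) (H : Mk S V A B m d ρ η D) (hT : T ⊆ V)
    (n : ¬ BdE S V m d ρ η D T) (z : ℂ → ℂ) (i : ZMod 3) :
    zV S V A i (T : Set ℂ) z = zV S V B i (T : Set ℂ) z := by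
  unfold zV
  rw [hitsV_same hS H hT n]

/-! ### means -/



/-! ### proper nets -/

/-- no positive rainbow triangle of class sites -/
def NR (S : Finset ℂ) (A : ZMod 3 → Set ℂ) : Prop :=
  ∀ i, ∀ t ∈ delT S, t.1 ∈ A i → t.2.1 ∈ A (i + 1) → t.2.2 ∉ A (i + 2)

/-- all the hits have a free vertex -/
theorem deg (nr : NR S A) (hT : T ⊆ ff S A) {t : ℂ × ℂ × ℂ} (ht : HitO S A i (T : Set ℂ) t) :
    t.2.1 ∈ ff S A ∨ t.2.2 ∈ ff S A := by
  obtain ⟨h0, hy, hb, hw⟩ := ht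
  by_cases h1 : t.2.1 ∈ A (i + 1)
  · by_cases h2 : t.2.2 ∈ A (i + 2)
    · exact absurd h2 (nr i t h0 hy h1)
    · obtain ⟨p, q, h3, -, -⟩ := clu_last hw h2
      right
      exact mem_ff.2 h3.1.1
  · obtain ⟨p, q, h3, -, -⟩ := clu_last hb h1
    left
    exact mem_ff.2 h3.1.1

theorem hitV_iff (nr : NR S A) (hT : T ⊆ ff S A) {t : ℂ × ℂ × ℂ} :
    HitV S (ff S A) A i (T : Set ℂ) t ↔ HitO S A i (T : Set ℂ) t := by
  have e0 : {x | x ∈ ff S A} = fr S A := by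
    ext v
    exact mem_ff
  constructor
  · rintro ⟨a1, a2, -, a4, a5⟩
    rw [e0] at a4 a5
    exact ⟨a1, a2, a4, a5⟩
  · intro h'
    refine ⟨h'.1, h'.2.1, deg nr hT h', ?_, ?_⟩
    · rw [e0]; exact h'.2.2.1
    · rw [e0]; exact h'.2.2.2

/-- **the value of `B` is the value at the hit vertex of the proper net `A`** -/
theorem zV_hv (hS : GP (S : Set ℂ)) (H : Mk S (ff S A) A B m d ρ η D) (hX : Hex S A)
    (nr : NR S A) (hT : T ⊆ ff S A) (n : ¬ BdE S (ff S A) m d ρ η D T) (z : ℂ → ℂ) (i : ZMod 3) :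
    zV S (ff S A) B i (T : Set ℂ) z = z (hv S A i T) := by
  rw [← zV_same hS H hT n z i]
  obtain ⟨t, h, hu⟩ := hX i T hT
  rw [zV_eq ((hitV_iff nr hT).2 h) (fun t' h' => hu t' ((hitV_iff nr hT).1 h')), hv_eq hX hT h]

/-- the hit triple of `A` is the only hit triple of `B` -/
theorem hit_hv (hS : GP (S : Set ℂ)) (H : Mk S (ff S A) A B m d ρ η D) (hX : Hex S A)
    (nr : NR S A) (hT : T ⊆ ff S A) (n : ¬ BdE S (ff S A) m d ρ η D T) (i : ZMod 3) :
    ∃ t, hitsV S (ff S A) B i (T : Set ℂ) = {t} ∧ HitO S A i (T : Set ℂ) t ∧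
      hv S A i T = t.1 := by
  obtain ⟨t, h, hu⟩ := hX i T hT
  refine ⟨t, ?_, h, hv_eq hX hT h⟩
  rw [← hitsV_same hS H hT n]
  ext t'
  rw [mem_hitsV, Finset.mem_singleton, hitV_iff nr hT]
  exact ⟨hu t', fun e => e ▸ h⟩



/-! ### probability -/

theorem pr_bd {a b p : ℝ} (h : ∀ k, pr V (fun T => CArm S T (m k) a b) ≤ p) :
    pr V (Bd S V m a b) ≤ 6 * p := by
  have h1 : ∀ k, pr V (fun T => CArm S T (m k) a b ∨ CArm S (V \ T) (m k) a b) ≤ 2 * p := by
    intro k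
    refine pr_or_le.trans ?_
    have h2 := h k
    have h3 := pr_flip V fun T => CArm S T (m k) a b
    rw [h3]
    linarith
  have e : pr V (Bd S V m a b) = pr V (fun T => ∃ k ∈ (Finset.univ : Finset (ZMod 3)),
      CArm S T (m k) a b ∨ CArm S (V \ T) (m k) a b) := by
    refine pr_congr fun T _ => ?_
    unfold Bd
    simp
  rw [e]
  refine (pr_exists_le _ _).trans ?_
  refine (Finset.sum_le_sum fun k _ => h1 k).trans ?_
  rw [Finset.sum_const, Finset.card_univ, ZMod.card, nsmul_eq_mul]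
  push_cast
  linarith

theorem pr_bdE {p q : ℝ} (h1 : ∀ k, pr V (fun T => CArm S T (m k) (ρ + 2 * d) (η - 2 * d)) ≤ p)
    (h2 : ∀ k, pr V (fun T => CArm S T (m k) (η + 2 * d) (D - 2 * d)) ≤ q) :
    pr V (BdE S V m d ρ η D) ≤ 6 * p + 6 * q :=
  pr_or_le.trans (add_le_add (pr_bd h1) (pr_bd h2))

/-! ### locality -/

/-- **the hit triples depend on the triangles at `V` and the labels next to `V` only** -/
theorem hitsV_congr {S' : Finset ℂ} (hS : GP (S : Set ℂ)) (dA : ∀ j, ∀ x ∈ A j, x ∉ V)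
    (dB : ∀ j, ∀ x ∈ B j, x ∉ V)
    (hd : ∀ t : ℂ × ℂ × ℂ, (t.1 ∈ V ∨ t.2.1 ∈ V ∨ t.2.2 ∈ V) → (t ∈ delT S ↔ t ∈ delT S'))
    (hl : ∀ x, Nxt S V x → ∀ j, (x ∈ A j ↔ x ∈ B j)) (hT : T ⊆ V) :
    hitsV S V A i (T : Set ℂ) = hitsV S' V B i (T : Set ℂ) := by
  have had : ∀ u v, u ∈ V → (Adj S u v ↔ Adj S' u v) := by
    intro u v hu
    constructor
    · rintro (⟨c, hc⟩ | ⟨c, hc⟩)
      · exact Or.inl ⟨c, (hd _ (Or.inl hu)).1 hc⟩
      · exact Or.inr ⟨c, (hd _ (Or.inr (Or.inl hu))).1 hc⟩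
    · rintro (⟨c, hc⟩ | ⟨c, hc⟩)
      · exact Or.inl ⟨c, (hd _ (Or.inl hu)).2 hc⟩
      · exact Or.inr ⟨c, (hd _ (Or.inr (Or.inl hu))).2 hc⟩
  have hcl : ∀ (W : Finset ℂ), W ⊆ V → ∀ j b, b ∉ A j → b ∉ B j →
      (b ∈ Clu S (W : Set ℂ) (A j) ↔ b ∈ Clu S' (W : Set ℂ) (B j)) := by
    intro W hW j b hb hb'
    constructor
    · intro h
      obtain ⟨p, q, h1, h2, h3⟩ := clu_last h hb
      have hp : p ∈ V := hW (Finset.mem_coe.1 h1.snd)
      refine clu_of (p := p) (q := q) ?_ ((had p q hp).1 h2) ((hl q ⟨p, hp, h2⟩ j).1 h3)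
      refine ⟨h1.1, ?_⟩
      have h4 := h1.2
      clear h h2 h3 hp hb hb'
      induction h4 with
      | refl => exact Relation.ReflTransGen.refl
      | @tail u v k1 k2 ih =>
        have hu : u ∈ (W : Set ℂ) := Pth.snd (S := S) (x := b) ⟨h1.1, k1⟩
        exact (ih ⟨h1.1, k1⟩).tail ⟨(had u v (hW (Finset.mem_coe.1 hu))).1 k2.1, k2.2⟩
    · intro h
      obtain ⟨p, q, h1, h2, h3⟩ := clu_last h hb'
      have hp : p ∈ V := hW (Finset.mem_coe.1 h1.snd)
      have h2' : Adj S p q := (had p q hp).2 h2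
      refine clu_of (p := p) (q := q) ?_ h2' ((hl q ⟨p, hp, h2'⟩ j).2 h3)
      refine ⟨h1.1, ?_⟩
      have h4 := h1.2
      clear h h2 h2' h3 hp hb hb'
      induction h4 with
      | refl => exact Relation.ReflTransGen.refl
      | @tail u v k1 k2 ih =>
        have hu : u ∈ (W : Set ℂ) := Pth.snd (S := S') (x := b) ⟨h1.1, k1⟩
        exact (ih ⟨h1.1, k1⟩).tail ⟨(had u v (hW (Finset.mem_coe.1 hu))).2 k2.1, k2.2⟩
  have hclu : ∀ (W : Finset ℂ), W ⊆ V → ∀ j b, (b ∈ V ∨ Nxt S V b) →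
      (b ∈ Clu S (W : Set ℂ) (A j) ↔ b ∈ Clu S' (W : Set ℂ) (B j)) := by
    intro W hW j b hb
    have hA' : b ∈ A j ↔ b ∈ B j := by
      rcases hb with h | h
      · exact ⟨fun h3 => absurd h (dA j b h3), fun h3 => absurd h (dB j b h3)⟩
      · exact hl b h j
    by_cases h : b ∈ A j
    · exact ⟨fun _ => ⟨b, hA'.1 h, Pth.refl (Or.inr (hA'.1 h))⟩, fun _ => ⟨b, h, Pth.refl (Or.inr h)⟩⟩
    · exact hcl W hW j b h (fun h' => h (hA'.2 h'))
  ext t
  obtain ⟨y, b, w⟩ := t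
  rw [mem_hitsV, mem_hitsV]
  unfold HitV
  by_cases hbw : b ∈ V ∨ w ∈ V
  swap
  · exact ⟨fun h => absurd h.2.2.1 hbw, fun h => absurd h.2.2.1 hbw⟩
  have ht : (y, b, w) ∈ delT S ↔ (y, b, w) ∈ delT S' := hd _ (Or.inr hbw)
  rw [← ht]
  refine and_congr_right fun h0 => ?_
  by_cases dy : y ∈ V
  · exact ⟨fun h => absurd dy (dA _ _ h.1), fun h => absurd dy (dB _ _ h.1)⟩
  obtain ⟨ayb, abw, awy, ny, nb', nw'⟩ := tri_next hS h0 hbw dy
  have nb : b ∈ V ∨ Nxt S V b := by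
    by_cases h : b ∈ V
    · exact Or.inl h
    · exact Or.inr (nb' h)
  have nw : w ∈ V ∨ Nxt S V w := by
    by_cases h : w ∈ V
    · exact Or.inl h
    · exact Or.inr (nw' h)
  show (y ∈ A i ∧ (b ∈ V ∨ w ∈ V) ∧ b ∈ Clu S ({x | x ∈ V} ∩ T) (A (i + 1)) ∧
      w ∈ Clu S ({x | x ∈ V} \ T) (A (i + 2))) ↔
    (y ∈ B i ∧ (b ∈ V ∨ w ∈ V) ∧ b ∈ Clu S' ({x | x ∈ V} ∩ T) (B (i + 1)) ∧
      w ∈ Clu S' ({x | x ∈ V} \ T) (B (i + 2)))
  rw [black hT, white, hl y ny i, hclu T hT (i + 1) b nb, hclu _ Finset.sdiff_subset (i + 2) w nw]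


end Crest.Agent.R143.Stabx930
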