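import Crest.Agent.R143.UK_969
import Crest.Agent.R143.Stab_930

/-!
# Row 143 (S0194), box R10g: geometric half of CONT for `U_K` over a labelled polygon (helper969)

Polygon by HALF EDGES (`HE`): the half edge `a` starts at the middle `M a` of its edge, direction
`w a`, length `s / 2`, outward normal `ν a`, label `l a`. Gate data `Stem`: a chain of sites from a
giant of label `i` down towards the foot `q` of the gate.
* `stem_con` : a stem and a point of the half edge give a connector of 969's `UK`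
* `ukP` : giants `A`, stems within `10 h` of every point of the polygon (away from the marks) ⟹
  classes `A' ⊇ A` covering `S \ V`, with the labels of the polygon off the marks, one label absent
  near each mark, and thin links of length `≤ 22 h`
-/

set_option autoImplicit false

noncomputable section

open scoped Classical

namespace Crest.Agent.R143.UKCx969

open Set Complex
open Crest.ProbabilityR.Voronoi
open Crest.Agent.R143.B0x346 Crest.Agent.R143.DelGx806 Crest.Agent.R143.DelRx806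
  Crest.Agent.R143.B0Dx346 Crest.Agent.R143.JColx54 Crest.Agent.R143.RE0x723
  Crest.Agent.R143.G6Wx723
open Crest.Agent.R143.K33x877 (Cls fr)
open Crest.Agent.R143.Locx922 (Hol)
open Crest.Agent.R143.UKx969

/-! ### frames -/

/-- height above the foot `q`, outward normal `ν` -/
def Hgt (q ν z : ℂ) : ℝ := ((z - q) / ν).re

/-- lateral coordinate -/
def Lat (q ν z : ℂ) : ℝ := ((z - q) / ν).im

/-- half edge -/
def he (s : ℝ) (M w : ℂ) : Set ℂ := {z | ∃ t : ℝ, 0 ≤ t ∧ t ≤ s / 2 ∧ z = M + t * w}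

/-- **labelled polygon by half edges** -/
structure HE (P : Set ℂ) (s : ℝ) {J : Type*} (M w ν : J → ℂ) (l : J → ZMod 3) : Prop where
  wn : ∀ a, ‖w a‖ = 1
  nu : ∀ a, ν a = I * w a ∨ ν a = -I * w a
  fr : frontier P = ⋃ a, he s (M a) (w a)
  col : ∀ a (t y : ℝ), 0 ≤ t → t < s / 2 → 0 < y → y < s / 2 → M a + t * w a + y * ν a ∉ P
  far : ∀ a b, l a ≠ l b →
    (∀ p ∈ he s (M a) (w a), ∀ q ∈ he s (M b) (w b), s / 2 ≤ ‖p - q‖) ∨
      (M b = M a ∧ w b = -w a ∧ ν b = ν a)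

/-- **stem** of a gate: foot `q`, outward normal `ν`, lowest site `b` -/
structure Stem (S : Finset ℂ) (A : ZMod 3 → Set ℂ) (h d : ℝ) (i : ZMod 3) (q ν b : ℂ)
    (E : Set ℂ) : Prop where
  bE : b ∈ E
  eS : ∀ z ∈ E, z ∈ S ∧ |Lat q ν z| ≤ h / 2 ∧ h / 4 ≤ Hgt q ν z ∧ Hgt q ν z ≤ 3 * h
  eC : ∀ x ∈ E, ∀ y ∈ E, Pth S E x y
  meet : ∃ a ∈ A i, a ∈ E
  oth : ∀ j, j ≠ i → ∀ z ∈ A j, z ∉ E
  low : ∀ j, j ≠ i → ∀ z ∈ A j, |Lat q ν z - Lat q ν b| < d → 0 < Hgt q ν z →
    Hgt q ν z ≤ Hgt q ν b → False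

section frame

variable {q ν z z' w M : ℂ} {t y : ℝ}

theorem frame_eq (hν : ‖ν‖ = 1) (q z : ℂ) : z = q + Hgt q ν z * ν + Lat q ν z * (I * ν) := by
  have h0 : ν ≠ 0 := fun e => by rw [e, norm_zero] at hν; exact zero_ne_one hν
  have h1 : ((z - q) / ν) * ν = z - q := div_mul_cancel₀ _ h0
  have h2 : (z - q) / ν = Hgt q ν z + Lat q ν z * I := (Complex.re_add_im _).symm
  rw [h2] at h1
  linear_combination -h1

theorem hgt_of (hν : ‖ν‖ = 1) (q : ℂ) (x y : ℝ) :
    Hgt q ν (q + x * ν + y * (I * ν)) = x ∧ Lat q ν (q + x * ν + y * (I * ν)) = y := by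
  have h0 : ν ≠ 0 := fun e => by rw [e, norm_zero] at hν; exact zero_ne_one hν
  have h1 : (q + x * ν + y * (I * ν) - q) / ν = x + y * I := by
    rw [div_eq_iff h0]
    ring
  unfold Hgt Lat
  rw [h1]
  simp

theorem hgt_sub (hν : ‖ν‖ = 1) : |Hgt q ν z - Hgt q ν z'| ≤ ‖z - z'‖ := by
  unfold Hgt
  rw [← Complex.sub_re, ← sub_div, sub_sub_sub_cancel_right]
  refine (Complex.abs_re_le_norm _).trans ?_
  rw [norm_div, hν, div_one]

theorem lat_sub (hν : ‖ν‖ = 1) : |Lat q ν z - Lat q ν z'| ≤ ‖z - z'‖ := by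
  unfold Lat
  rw [← Complex.sub_im, ← sub_div, sub_sub_sub_cancel_right]
  refine (Complex.abs_im_le_norm _).trans ?_
  rw [norm_div, hν, div_one]


theorem norm_nu (hw : ‖w‖ = 1) (h : ν = I * w ∨ ν = -I * w) : ‖ν‖ = 1 := by
  rcases h with h | h <;> rw [h, norm_mul, hw]
  · rw [Complex.norm_I, one_mul]
  · rw [norm_neg, Complex.norm_I, one_mul]

/-- lateral direction: `I ν = σ w`, `σ = ∓ 1` -/
theorem nu_w (h : ν = I * w ∨ ν = -I * w) : ∃ σ : ℝ, (σ = 1 ∨ σ = -1) ∧ I * ν = σ * w := by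
  rcases h with h | h
  · refine ⟨-1, Or.inr rfl, ?_⟩
    rw [h, ← mul_assoc, Complex.I_mul_I]
    push_cast
    ring
  · refine ⟨1, Or.inl rfl, ?_⟩
    rw [h, ← mul_assoc, mul_neg, Complex.I_mul_I]
    push_cast
    ring

end frame

/-! ### segments of a line -/

theorem seg_line {M w z : ℂ} {t1 t2 : ℝ}
    (h : z ∈ segment ℝ (M + t1 * w) (M + t2 * w)) :
    ∃ t : ℝ, min t1 t2 ≤ t ∧ t ≤ max t1 t2 ∧ z = M + t * w := by
  obtain ⟨a, b, ha, hb, hab, rfl⟩ := h
  refine ⟨a * t1 + b * t2, ?_, ?_, ?_⟩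
  · have e : min t1 t2 = a * min t1 t2 + b * min t1 t2 := by rw [← add_mul, hab, one_mul]
    rw [e]
    exact add_le_add (mul_le_mul_of_nonneg_left (min_le_left t1 t2) ha)
      (mul_le_mul_of_nonneg_left (min_le_right t1 t2) hb)
  · have e : max t1 t2 = a * max t1 t2 + b * max t1 t2 := by rw [← add_mul, hab, one_mul]
    rw [e]
    exact add_le_add (mul_le_mul_of_nonneg_left (le_max_left t1 t2) ha)
      (mul_le_mul_of_nonneg_left (le_max_right t1 t2) hb)
  · simp only [real_smul]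
    have e : b = 1 - a := by linarith
    rw [e]
    push_cast
    ring

theorem seg_up {N ν c : ℂ} {y0 : ℝ} (h0 : 0 ≤ y0) (h : c ∈ segment ℝ N (N + y0 * ν)) :
    ∃ y : ℝ, 0 ≤ y ∧ y ≤ y0 ∧ c = N + y * ν := by
  have e : N = N + ((0 : ℝ) : ℂ) * ν := by rw [ofReal_zero, zero_mul, add_zero]
  have h' : c ∈ segment ℝ (N + ((0 : ℝ) : ℂ) * ν) (N + y0 * ν) := by rwa [← e]
  obtain ⟨y, h1, h2, h3⟩ := seg_line h'
  rw [min_eq_left h0] at h1
  rw [max_eq_right h0] at h2
  exact ⟨y, h1, h2, h3⟩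

section poly

variable {S V : Finset ℂ} {A : ZMod 3 → Set ℂ} {P : Set ℂ} {s h d R : ℝ} {J : Type*}
  {M w ν : J → ℂ} {l : J → ZMod 3} {a b : J} {i : ZMod 3} {E : Set ℂ} {z z' : ℂ}

theorem HE.nn (H : HE P s M w ν l) (a : J) : ‖ν a‖ = 1 := norm_nu (H.wn a) (H.nu a)

theorem HE.mem_fr (H : HE P s M w ν l) {t : ℝ} (h0 : 0 ≤ t) (h1 : t ≤ s / 2) :
    M a + t * w a ∈ frontier P := by
  rw [H.fr]
  exact mem_iUnion.2 ⟨a, t, h0, h1, rfl⟩

/-- the point `(τ, y)` of the frame of the half edge `a` -/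
def At (M w ν : J → ℂ) (a : J) (lo hi Y : ℝ) (z : ℂ) : Prop :=
  ∃ τ y : ℝ, lo ≤ τ ∧ τ ≤ hi ∧ 0 ≤ y ∧ y ≤ Y ∧ z = M a + τ * w a + y * ν a

/-- coordinate along `w a` -/
theorem HE.re_at (H : HE P s M w ν l) (a : J) (x y : ℝ) :
    ‖(x : ℂ) * w a + y * ν a‖ ≤ |x| + |y| ∧ |x| ≤ ‖(x : ℂ) * w a + y * ν a‖ := by
  constructor
  · refine (norm_add_le _ _).trans (le_of_eq ?_)
    rw [norm_mul, norm_mul, H.wn, H.nn, Complex.norm_real, Complex.norm_real,
      Real.norm_eq_abs, Real.norm_eq_abs, mul_one, mul_one]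
  · have hw := H.wn a
    have h0 : w a ≠ 0 := fun e => by rw [e, norm_zero] at hw; exact zero_ne_one hw
    have h1 : ‖(x : ℂ) * w a + y * ν a‖ = ‖((x : ℂ) * w a + y * ν a) / w a‖ := by
      rw [norm_div, hw, div_one]
    rw [h1]
    have h2 : (((x : ℂ) * w a + y * ν a) / w a).re = x := by
      rcases H.nu a with e | e
      · rw [e, show ((x : ℂ) * w a + y * (I * w a)) / w a = x + y * I by field_simp]
        simp
      · rw [e, show ((x : ℂ) * w a + y * (-I * w a)) / w a = x - y * I by field_simp; ring]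
        simp
    calc |x| = |(((x : ℂ) * w a + y * ν a) / w a).re| := by rw [h2]
      _ ≤ _ := Complex.abs_re_le_norm _

/-- **distance of two points of frames with different labels** -/
theorem HE.far_at (H : HE P s M w ν l) (hl : l a ≠ l b) {lo lo' Y : ℝ} (h0 : 0 ≤ lo) (h0' : 0 ≤ lo')
    (hz : At M w ν a lo (s / 2) Y z) (hz' : At M w ν b lo' (s / 2) Y z') :
    s / 2 - 2 * Y ≤ ‖z - z'‖ ∨ (M b = M a ∧ lo + lo' ≤ ‖z - z'‖) := by
  obtain ⟨τ, y, h1, h2, h3, h4, rfl⟩ := hz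
  obtain ⟨τ', y', h1', h2', h3', h4', rfl⟩ := hz'
  rcases H.far a b hl with hf | ⟨e1, e2, e3⟩
  · left
    have h5 := hf _ ⟨τ, by linarith, h2, rfl⟩ _ ⟨τ', by linarith, h2', rfl⟩
    have h6 : ∀ (c : J) (u : ℝ), 0 ≤ u → ‖(u : ℂ) * ν c‖ = u := fun c u hu => by
      rw [norm_mul, H.nn, mul_one, Complex.norm_real, Real.norm_eq_abs, abs_of_nonneg hu]
    have h7 : ‖M a + τ * w a - (M b + τ' * w b)‖ ≤ ‖M a + τ * w a + y * ν a -
        (M b + τ' * w b + y' * ν b)‖ + (‖(y : ℂ) * ν a‖ + ‖(y' : ℂ) * ν b‖) := by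
      have e : M a + τ * w a - (M b + τ' * w b) = (M a + τ * w a + y * ν a -
        (M b + τ' * w b + y' * ν b)) + (-((y : ℂ) * ν a) + (y' : ℂ) * ν b) := by ring
      rw [e]
      refine (norm_add_le _ _).trans (add_le_add le_rfl ((norm_add_le _ _).trans ?_))
      rw [norm_neg]
    rw [h6 a y h3, h6 b y' h3'] at h7
    linarith
  · right
    refine ⟨e1, ?_⟩
    rw [e1, e2, e3]
    have e : M a + τ * w a + y * ν a - (M a + τ' * -w a + y' * ν a) =
        ((τ + τ' : ℝ) : ℂ) * w a + ((y - y' : ℝ) : ℂ) * ν a := by push_cast; ring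
    rw [e]
    have h8 := (H.re_at a (τ + τ') (y - y')).2
    rw [abs_of_nonneg (by linarith)] at h8
    linarith

theorem At.near (H : HE P s M w ν l) {lo hi Y : ℝ} (h0 : 0 ≤ lo) (h1 : hi ≤ s / 2)
    (hz : At M w ν a lo hi Y z) : ∃ p ∈ he s (M a) (w a), ‖z - p‖ ≤ Y := by
  obtain ⟨τ, y, h2, h3, h4, h5, rfl⟩ := hz
  refine ⟨M a + τ * w a, ⟨τ, by linarith, by linarith, rfl⟩, ?_⟩
  rw [add_sub_cancel_left, norm_mul, H.nn, mul_one, Complex.norm_real, Real.norm_eq_abs,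
    abs_of_nonneg h4]
  exact h5

theorem At.mono {lo hi Y lo' hi' Y' : ℝ} (h1 : lo' ≤ lo) (h2 : hi ≤ hi') (h3 : Y ≤ Y')
    (hz : At M w ν a lo hi Y z) : At M w ν a lo' hi' Y' z := by
  obtain ⟨τ, y, h4, h5, h6, h7, h8⟩ := hz
  exact ⟨τ, y, by linarith, by linarith, h6, by linarith, h8⟩

/-- off the interior of `P` -/
theorem At.out (H : HE P s M w ν l) {lo hi Y : ℝ} (h0 : 0 ≤ lo) (h1 : hi < s / 2) (h2 : Y < s / 2)
    (hz : At M w ν a lo hi Y z) : z ∉ interior P := by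
  obtain ⟨τ, y, h3, h4, h5, h6, rfl⟩ := hz
  rcases h5.lt_or_eq with h7 | h7
  · exact fun h8 => H.col a τ y (by linarith) (by linarith) h7 (by linarith) (interior_subset h8)
  · rw [← h7, ofReal_zero, zero_mul, add_zero]
    exact (H.mem_fr (by linarith) (by linarith)).2

/-- the curve of a stem -/
def cv (M w : J → ℂ) (a : J) (t tb : ℝ) (b : ℂ) : Set ℂ :=
  segment ℝ (M a + t * w a) (M a + tb * w a) ∪ segment ℝ (M a + tb * w a) b

/-- **A STEM GIVES A CONNECTOR** -/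
theorem stem_con (H : HE P s M w ν l) (hD : Deep S V P d) (hd : 0 < d) (hdh : 8 * d ≤ h)
    (hhs : 40 * h ≤ s) (hcov : ∀ p ∈ frontier P, ∀ z, ‖z - p‖ ≤ 20 * h → ∃ s' ∈ S, ‖s' - z‖ < d)
    (hgap : ∀ j, ∀ z ∈ A j, ∀ p ∈ frontier P, 4 * d < ‖z - p‖) {t t' : ℝ} {b : ℂ} (ht0 : 0 ≤ t)
    (ht : t ≤ s / 2) (htt : |t' - t| ≤ 10 * h) (h1 : h ≤ t') (h2 : t' ≤ s / 2 - h)
    (hs : Stem S A h d i (M a + t' * w a) (ν a) b E) :
    ∃ tb : ℝ, Con S V A P d (14 * h) i (cv M w a t tb b) E ∧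
      ∀ z ∈ cv M w a t tb b ∪ E, At M w ν a (min t (t' - h / 2)) (max t (t' + h / 2)) (3 * h) z := by
  have hh : 0 < h := by linarith
  set q : ℂ := M a + t' * w a with hq
  obtain ⟨σ, hσ, hIν⟩ := nu_w (H.nu a)
  have hσa : ∀ x : ℝ, |σ * x| = |x| := fun x => by
    rcases hσ with e | e <;> rw [e] <;> simp
  have hnn := H.nn a
  have fr : ∀ z, z = M a + ((t' + σ * Lat q (ν a) z : ℝ) : ℂ) * w a + Hgt q (ν a) z * ν a := by
    intro z
    have := frame_eq hnn q z
    rw [hIν, hq] at this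
    rw [hq]
    push_cast
    linear_combination this
  have tau : ∀ z, |Lat q (ν a) z| ≤ h / 2 → t' - h / 2 ≤ t' + σ * Lat q (ν a) z ∧
      t' + σ * Lat q (ν a) z ≤ t' + h / 2 := by
    intro z hz
    rw [← hσa] at hz
    have := abs_le.1 hz
    constructor <;> linarith
  obtain ⟨hb1, hb2, hb3, hb4⟩ := hs.eS b hs.bE
  set tb : ℝ := t' + σ * Lat q (ν a) b with htb
  have hbe : b = M a + tb * w a + Hgt q (ν a) b * ν a := fr b
  obtain ⟨tb1, tb2⟩ := tau b hb2
  -- points of the vertical segment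
  have hvert : ∀ c ∈ segment ℝ (M a + tb * w a) b, ∃ y : ℝ, 0 ≤ y ∧ y ≤ Hgt q (ν a) b ∧
      c = M a + tb * w a + y * ν a := by
    intro c hc
    rw [hbe] at hc
    exact seg_up (by linarith) hc
  have hab := abs_le.1 htt
  set lo := min t (t' - h / 2) with hlo
  set hi := max t (t' + h / 2) with hhi
  have hlo0 : 0 ≤ lo := le_min ht0 (by linarith)
  have hlo1 : lo ≤ t' - h / 2 := min_le_right _ _
  have hlot : lo ≤ t := min_le_left _ _
  have hhi1 : t' + h / 2 ≤ hi := le_max_right _ _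
  have hhit : t ≤ hi := le_max_left _ _
  have hhis : hi ≤ s / 2 := max_le ht (by linarith)
  have hlen : hi - lo ≤ 10 * h + h := by
    rw [hhi, hlo]
    rcases le_total t (t' - h / 2) with g1 | g1
    · rw [min_eq_left g1, max_eq_right (by linarith)]
      linarith
    · rw [min_eq_right g1]
      rcases le_total t (t' + h / 2) with g2 | g2
      · rw [max_eq_right g2]
        linarith
      · rw [max_eq_left g2]
        linarith
  have hP : ∀ c ∈ segment ℝ (M a + t * w a) (M a + tb * w a), ∃ τ : ℝ, lo ≤ τ ∧ τ ≤ hi ∧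
      c = M a + τ * w a := by
    intro c hc
    obtain ⟨τ, g1, g2, g3⟩ := seg_line hc
    refine ⟨τ, le_trans (le_min hlot (by linarith)) g1, g2.trans (max_le hhit (by linarith)), g3⟩
  have hat : ∀ z ∈ cv M w a t tb b ∪ E, At M w ν a lo hi (3 * h) z := by
    rintro z ((hz | hz) | hz)
    · obtain ⟨τ, g1, g2, g3⟩ := hP z hz
      refine ⟨τ, 0, g1, g2, le_rfl, by linarith, ?_⟩
      rw [g3, ofReal_zero, zero_mul, add_zero]
    · obtain ⟨y, g1, g2, g3⟩ := hvert z hz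
      exact ⟨tb, y, by linarith, by linarith, g1, by linarith, g3⟩
    · obtain ⟨g1, g2, g3, g4⟩ := hs.eS z hz
      obtain ⟨g5, g6⟩ := tau z g2
      exact ⟨_, _, by linarith, by linarith, by linarith, g4, fr z⟩
  have hcovC : ∀ c ∈ cv M w a t tb b, ∃ s' ∈ S, ‖s' - c‖ < d := by
    intro c hc
    obtain ⟨p, ⟨τ, g1, g2, g3⟩, g4⟩ := (hat c (Or.inl hc)).near H hlo0 hhis
    exact hcov p (by rw [g3]; exact H.mem_fr g1 g2) c (by linarith)
  have hcell : ∀ c ∈ cv M w a t tb b, ∀ z, c ∈ voronoiCell (S : Set ℂ) z → ‖c - z‖ < d := by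
    intro c hc z hz
    obtain ⟨s', hs', g⟩ := hcovC c hc
    refine lt_of_le_of_lt (hz s' (Finset.mem_coe.2 hs')) ?_
    rw [norm_sub_rev]
    exact g
  refine ⟨tb, ⟨?_, ?_, hcovC, ?_, hs.eC, ⟨b, hs.bE, ?_⟩, hs.meet, ?_, ?_⟩, hat⟩
  · exact (convex_segment _ _).isPreconnected.union (M a + tb * w a) (right_mem_segment ℝ _ _)
      (left_mem_segment ℝ _ _) (convex_segment _ _).isPreconnected
  · rintro c (hc | hc)
    · obtain ⟨τ, g1, g2, g3⟩ := hP c hc
      rw [g3]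
      exact (H.mem_fr (by linarith) (by linarith)).2
    · obtain ⟨y, g1, g2, g3⟩ := hvert c hc
      refine At.out H (lo := t' - h / 2) (hi := t' + h / 2) (Y := 3 * h) (by linarith)
        (by linarith) (by linarith) ⟨tb, y, tb1, tb2, g1, by linarith, g3⟩
  · intro z hz
    obtain ⟨g1, g2, g3, g4⟩ := hs.eS z hz
    refine ⟨g1, fun hV => ?_⟩
    obtain ⟨g5, g6⟩ := tau z g2
    have g7 : z ∈ P := ((hD z).1 hV).2 (Metric.mem_closedBall_self (by linarith))
    refine H.col a (t' + σ * Lat q (ν a) z) (Hgt q (ν a) z) (by linarith) (by linarith)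
      (by linarith) (by linarith) ?_
    rw [← fr z]
    exact g7
  · exact ⟨hb1, b, Or.inr (right_mem_segment ℝ _ _), self_cell b⟩
  · intro j hj z hz
    refine ⟨hs.oth j hj z hz, ?_⟩
    rintro ⟨-, c, hc, hcz⟩
    have g0 := hcell c hc z hcz
    rcases hc with hc | hc
    · obtain ⟨τ, g1, g2, g3⟩ := hP c hc
      have g4 := hgap j z hz c (by rw [g3]; exact H.mem_fr (by linarith) (by linarith))
      rw [norm_sub_rev] at g4
      linarith
    · obtain ⟨y, g1, g2, g3⟩ := hvert c hc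
      have g4 : ‖c - z‖ ≤ ‖c - b‖ := hcz b (Finset.mem_coe.2 hb1)
      have g5 : ‖c - b‖ = Hgt q (ν a) b - y := by
        have e : c - b = ((y - Hgt q (ν a) b : ℝ) : ℂ) * ν a := by
          conv_lhs => rw [g3, hbe]
          push_cast
          ring
        rw [e, norm_mul, hnn, mul_one, Complex.norm_real, Real.norm_eq_abs, abs_of_nonpos
          (by linarith)]
        ring
      have g6 : c = q + y * ν a + Lat q (ν a) b * (I * ν a) := by
        rw [g3, hIν, htb, hq]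
        push_cast
        ring
      obtain ⟨g7, g8⟩ := hgt_of hnn q y (Lat q (ν a) b)
      rw [← g6] at g7 g8
      have g9 := hgt_sub (q := q) (z := z) (z' := c) hnn
      have g10 := lat_sub (q := q) (z := z) (z' := c) hnn
      rw [norm_sub_rev z c] at g9 g10
      rw [g7] at g9
      rw [g8] at g10
      have g11 := (abs_le.1 g9)
      by_cases hz0 : 0 < Hgt q (ν a) z
      · exact hs.low j hj z hz (lt_of_le_of_lt g10 g0) hz0 (by linarith)
      · push Not at hz0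
        have g12 := hgap j z hz (M a + tb * w a) (H.mem_fr (by linarith) (by linarith))
        have g13 : ‖z - (M a + tb * w a)‖ ≤ ‖z - c‖ + ‖c - (M a + tb * w a)‖ := by
          have := norm_add_le (z - c) (c - (M a + tb * w a))
          rwa [sub_add_sub_cancel] at this
        have g14 : ‖c - (M a + tb * w a)‖ = y := by
          rw [g3, add_sub_cancel_left, norm_mul, hnn, mul_one, Complex.norm_real,
            Real.norm_eq_abs, abs_of_nonneg g1]
        rw [norm_sub_rev z c, g14] at g13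
        linarith
  · intro x hx y hy
    obtain ⟨τ, u, g1, g2, g3, g4, rfl⟩ := hat x hx
    obtain ⟨τ', u', g1', g2', g3', g4', rfl⟩ := hat y hy
    have e : M a + τ * w a + u * ν a - (M a + τ' * w a + u' * ν a) =
        ((τ - τ' : ℝ) : ℂ) * w a + ((u - u' : ℝ) : ℂ) * ν a := by push_cast; ring
    rw [e]
    have g5 := (H.re_at a (τ - τ') (u - u')).1
    have g6 : |τ - τ'| ≤ 11 * h := abs_le.2 ⟨by linarith, by linarith⟩
    have g7 : |u - u'| ≤ 3 * h := abs_le.2 ⟨by linarith, by linarith⟩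
    linarith

/-- the middle of the edge of `a` is a mark -/
def Mk (M : J → ℂ) (l : J → ZMod 3) (a : J) : Prop := ∃ b, l b ≠ l a ∧ M b = M a

/-- the arc of label `i` -/
def Arc (s : ℝ) (M w : J → ℂ) (l : J → ZMod 3) (i : ZMod 3) : Set ℂ :=
  ⋃ a ∈ {a | l a = i}, he s (M a) (w a)

theorem mem_arc {p : ℂ} : p ∈ Arc s M w l i ↔ ∃ a, l a = i ∧ p ∈ he s (M a) (w a) := by
  simp only [Arc, mem_iUnion, mem_ofPred_eq, exists_prop]

/-- the connectors of label `i` -/
def Kc (S V : Finset ℂ) (A : ZMod 3 → Set ℂ) (P : Set ℂ) (s h d : ℝ) (M w ν : J → ℂ)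
    (l : J → ZMod 3) (i : ZMod 3) : Set (Set ℂ × Set ℂ) :=
  {c | ∃ a lo, l a = i ∧ 0 ≤ lo ∧ (Mk M l a → 5 * d ≤ lo) ∧ Con S V A P d (14 * h) i c.1 c.2 ∧
    ∀ z ∈ c.1 ∪ c.2, At M w ν a lo (s / 2) (3 * h) z}

theorem third (x y : ZMod 3) : ∃ e : ZMod 3, x ≠ e ∧ y ≠ e := by
  revert x y
  decide

/-- the third label is far from the mark -/
theorem HE.third (H : HE P s M w ν l) (hs : 0 < s) (ha : Mk M l a) : ∃ e : ZMod 3,
    ∀ c, l c = e → ∀ q ∈ he s (M c) (w c), s / 2 ≤ ‖M a - q‖ := by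
  obtain ⟨b, hb, hM⟩ := ha
  obtain ⟨e, h1, h2⟩ := UKCx969.third (l a) (l b)
  have m0 : ∀ c, M c ∈ he s (M c) (w c) := fun c => ⟨0, le_rfl, by linarith, by
    rw [ofReal_zero, zero_mul, add_zero]⟩
  have key : ∀ c c', l c ≠ l c' → M c' = M c → w c' = -w c := by
    intro c c' hc hcM
    rcases H.far c c' hc with h | h
    · have := h _ (m0 c) _ (m0 c')
      rw [hcM, sub_self, norm_zero] at this
      linarith
    · exact h.2.1
  refine ⟨e, fun c hc q hq => ?_⟩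
  rcases H.far a c (by rw [hc]; exact h1) with h | ⟨h, h', -⟩
  · exact h _ (m0 a) q hq
  · exfalso
    have k1 := key b c (by rw [hc]; exact h2) (by rw [h, hM])
    have k2 := key a b (Ne.symm hb) hM
    have k3 : w a = 0 := by
      have : -w a = w a := by rw [← h', k1, k2, neg_neg]
      have := congrArg (fun z => z + w a) this
      simp only [neg_add_cancel] at this
      have h0 : (2 : ℂ) * w a = 0 := by linear_combination -this
      simpa using h0
    have := H.wn a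
    rw [k3, norm_zero] at this
    exact zero_ne_one this

/-- **GEOMETRIC HALF OF CONT FOR `U_K`** over a labelled polygon -/
theorem ukP (H : HE P s M w ν l) (hS : GP (S : Set ℂ)) (h3 : 3 ≤ S.card) (hA : Cls S A)
    (hAV : ∀ i, ∀ x ∈ A i, x ∉ V) (hne : ∃ i, (A i).Nonempty) (hD : Deep S V P d) (hd : 0 < d)
    (hdh : 5000 * d ≤ h) (hhs : 40 * h ≤ s) (hH : Hol (S : Set ℂ) P d)
    (hcov : ∀ p ∈ frontier P, ∀ z, ‖z - p‖ ≤ 20 * h → ∃ s' ∈ S, ‖s' - z‖ < d)
    (hP : IsPreconnected Pᶜ) (hgap : ∀ j, ∀ z ∈ A j, ∀ p ∈ frontier P, h / 2 ≤ ‖z - p‖)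
    (hst : ∀ a (t : ℝ), 0 ≤ t → t ≤ s / 2 → (Mk M l a → 5 * d ≤ t) → ∃ (t' : ℝ) (b : ℂ) (E : Set ℂ),
      |t' - t| ≤ 10 * h ∧ h ≤ t' ∧ t' ≤ s / 2 - h ∧ (Mk M l a → 3 * h ≤ t') ∧
      Stem S A h d (l a) (M a + t' * w a) (ν a) b E)
    (hl : ∀ i, ∃ a, l a = i) {L : ℂ → ZMod 3}
    (hL : ∀ x i, Metric.infDist x (Arc s M w l (L x)) ≤ Metric.infDist x (Arc s M w l i)) :
    ∃ A' : ZMod 3 → Set ℂ, Cls S A' ∧ (∀ i, A i ⊆ A' i) ∧ NetUx346.ff S A' = V ∧
      (∀ x, Stabx930.Nxt S V x → (∀ a, Mk M l a → 8 * d < ‖x - M a‖) →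
        ∀ i, (x ∈ A' i ↔ x ∈ NetVx346.Bl S V L i)) ∧
      (∀ a, Mk M l a → ∃ e, ∀ x, Stabx930.Nxt S V x → (x ∈ A' e ∨ x ∈ NetVx346.Bl S V L e) →
        s / 4 < ‖x - M a‖) ∧
      ∀ i, ∀ x ∈ A' i, Nxt S V x → ∃ b ∈ A i,
        Pth S {z | z ∈ A' i ∧ ‖z - x‖ ≤ 15 * h} x b := by
  have hh : 0 < h := by linarith
  have hs0 : 0 < s := by linarith
  set K := Kc S V A P s h d M w ν l with hK
  have hgap4 : ∀ j, ∀ z ∈ A j, ∀ p ∈ frontier P, 4 * d < ‖z - p‖ := fun j z hz p hp => by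
    have := hgap j z hz p hp
    linarith
  have hK1 : ∀ a (t : ℝ), 0 ≤ t → t ≤ s / 2 → (Mk M l a → 5 * d ≤ t) →
      ∃ c ∈ K (l a), M a + t * w a ∈ c.1 := by
    intro a t h0 h1 hm
    obtain ⟨t', b, E, g1, g2, g3, g4, g5⟩ := hst a t h0 h1 hm
    obtain ⟨tb, g6, g7⟩ := stem_con H hD hd (by linarith) hhs hcov hgap4 h0 h1 g1 g2 g3 g5
    refine ⟨(cv M w a t tb b, E), ⟨a, min t (t' - h / 2), rfl, le_min h0 (by linarith),
      fun hk => le_min (hm hk) ?_, g6, fun z hz => (g7 z hz).mono le_rfl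
        (max_le h1 (by linarith)) le_rfl⟩, Or.inl (left_mem_segment ℝ _ _)⟩
    have := g4 hk
    linarith
  obtain ⟨i₀, a0, ha0⟩ := hne
  have ha0S : a0 ∈ S := Finset.mem_coe.1 (hA.sub i₀ ha0)
  have ha0P : a0 ∉ P := by
    intro hP0
    obtain ⟨w0, -, h1, p, hp, hps⟩ := hD.foot ha0S (hAV i₀ a0 ha0) hP0
    have h2 := hgap i₀ a0 ha0 p hp
    have h4 := seg_add hps
    have h5 := norm_nonneg (p - w0)
    rw [norm_sub_rev w0 a0] at h1
    linarith
  obtain ⟨A', c1, c2, c3, c4, c5, c6⟩ := uk hS h3 hA hAV hD hd hH hP (a := a0)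
    ⟨ha0S, a0, ha0P, self_cell a0⟩ ha0 hgap4 (R := 14 * h) (by linarith) K
    (fun i c hc => by
      obtain ⟨a, lo, -, -, -, h1, -⟩ := hc
      exact h1)
    (by
      rintro i j hij c ⟨a, lo, h1, h2, h4, -, h5⟩ c' ⟨b, lo', h1', h2', h4', -, h5'⟩ q hq q' hq'
      have hne : l a ≠ l b := by rw [h1, h1']; exact hij
      rcases H.far_at hne h2 h2' (h5 q hq) (h5' q' hq') with g | ⟨g, g'⟩
      · linarith
      · have k1 := h4 ⟨b, Ne.symm hne, g⟩
        have k2 := h4' ⟨a, hne, g.symm⟩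
        linarith)
    (r := 5 * d) (by linarith)
    (by
      intro x hx
      obtain ⟨p, hp⟩ := exists_ft hS h3 hD hd hH hx
      refine ⟨p, hp, ?_⟩
      have hpf : p ∈ frontier P := by obtain ⟨_, _, _, h5, _⟩ := hp; exact h5
      rw [H.fr] at hpf
      obtain ⟨a, t, h0, h1, rfl⟩ := mem_iUnion.1 hpf
      by_cases hm : Mk M l a → 5 * d ≤ t
      · obtain ⟨c, hc, hpc⟩ := hK1 a t h0 h1 hm
        exact Or.inl ⟨l a, c, hc, hpc⟩
      · right
        push Not at hm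
        obtain ⟨hm, ht⟩ := hm
        obtain ⟨c, hc, hpc⟩ := hK1 a (5 * d) (by linarith) (by linarith) (fun _ => le_rfl)
        have hseg : ∀ z ∈ segment ℝ (M a + t * w a) (M a + ((5 * d : ℝ) : ℂ) * w a),
            ∃ τ : ℝ, t ≤ τ ∧ τ ≤ 5 * d ∧ z = M a + τ * w a := by
          intro z hz
          obtain ⟨τ, g1, g2, g3⟩ := seg_line hz
          rw [min_eq_left ht.le] at g1
          rw [max_eq_right ht.le] at g2
          exact ⟨τ, g1, g2, g3⟩
        refine ⟨segment ℝ (M a + t * w a) (M a + ((5 * d : ℝ) : ℂ) * w a),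
          (convex_segment _ _).isPreconnected, ?_, left_mem_segment ℝ _ _, ?_, l a, c, hc,
          _, right_mem_segment ℝ _ _, hpc⟩
        · intro z hz
          obtain ⟨τ, g1, g2, rfl⟩ := hseg z hz
          have g3 := H.mem_fr (a := a) (t := τ) (by linarith) (by linarith)
          refine ⟨g3.2, hcov _ g3 _ ?_⟩
          rw [sub_self, norm_zero]
          linarith
        · intro z hz
          obtain ⟨τ, g1, g2, rfl⟩ := hseg z hz
          have e : M a + (τ : ℂ) * w a - (M a + t * w a) = ((τ - t : ℝ) : ℂ) * w a := by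
            push_cast; ring
          rw [e, norm_mul, H.wn, mul_one, Complex.norm_real, Real.norm_eq_abs,
            abs_of_nonneg (by linarith)]
          linarith)
  have offV : ∀ i, ∀ x ∈ A' i, x ∉ V := by
    intro i x hx hxV
    rw [← c3, NetUx346.mem_ff] at hxV
    exact hxV.2 i hx
  have toN : ∀ x, Stabx930.Nxt S V x → x ∉ V → Nxt S V x := by
    rintro x ⟨v, hv, ha⟩ hxV
    exact ⟨ha.mem.2, hxV, v, hv, ha.symm⟩
  have footM : ∀ x, Nxt S V x → ∃ a t, 0 ≤ t ∧ t ≤ s / 2 ∧ Ft P d x (M a + (t : ℝ) * w a) ∧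
      ‖x - (M a + (t : ℝ) * w a)‖ ≤ 2 * d := by
    intro x hx
    obtain ⟨p, hp⟩ := exists_ft hS h3 hD hd hH hx
    have hpf : p ∈ frontier P := by obtain ⟨_, _, _, h5, _⟩ := hp; exact h5
    rw [H.fr] at hpf
    obtain ⟨a, t, h0, h1, rfl⟩ := mem_iUnion.1 hpf
    exact ⟨a, t, h0, h1, hp, hp.le⟩
  have infA : ∀ x a (t : ℝ), 0 ≤ t → t ≤ s / 2 → Metric.infDist x (Arc s M w l (l a)) ≤
      ‖x - (M a + (t : ℝ) * w a)‖ := by
    intro x a t h0 h1
    rw [← dist_eq_norm]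
    exact Metric.infDist_le_dist_of_mem (mem_arc.2 ⟨a, rfl, t, h0, h1, rfl⟩)
  have core : ∀ x, Nxt S V x → (∀ a, Mk M l a → 8 * d < ‖x - M a‖) →
      ∃ a, x ∈ A' (l a) ∧ L x = l a := by
    intro x hx hm
    obtain ⟨a, t, h0, h1, hp, hxp⟩ := footM x hx
    have ht : Mk M l a → 5 * d ≤ t := by
      intro hk
      by_contra hc
      push Not at hc
      have h4 := hm a hk
      have h5 := norm_add_le (x - (M a + (t : ℝ) * w a)) (M a + (t : ℝ) * w a - M a)
      rw [sub_add_sub_cancel, add_sub_cancel_left, norm_mul, H.wn, mul_one, Complex.norm_real,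
        Real.norm_eq_abs, abs_of_nonneg h0] at h5
      linarith
    obtain ⟨c, hc, hpc⟩ := hK1 a t h0 h1 ht
    refine ⟨a, c4 (l a) c hc x _ hx hp hpc, ?_⟩
    by_contra hcon
    have h4 := hL x (l a)
    have h5 := infA x a t h0 h1
    have h6 : 3 * d ≤ Metric.infDist x (Arc s M w l (L x)) := by
      refine (Metric.le_infDist ?_).2 ?_
      · obtain ⟨b, hb⟩ := hl (L x)
        exact ⟨M b, mem_arc.2 ⟨b, hb, 0, le_rfl, by linarith, by
          rw [ofReal_zero, zero_mul, add_zero]⟩⟩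
      · intro q hq
        obtain ⟨b, hb, τ, g1, g2, rfl⟩ := mem_arc.1 hq
        have g3 : At M w ν a t (s / 2) 0 (M a + (t : ℝ) * w a) := ⟨t, 0, le_rfl, h1, le_rfl,
          le_rfl, by rw [ofReal_zero, zero_mul, add_zero]⟩
        have g4 : At M w ν b 0 (s / 2) 0 (M b + (τ : ℝ) * w b) := ⟨τ, 0, g1, g2, le_rfl,
          le_rfl, by rw [ofReal_zero, zero_mul, add_zero]⟩
        have hab : l a ≠ l b := by rw [hb]; exact Ne.symm hcon
        have g5 : 5 * d ≤ ‖M a + (t : ℝ) * w a - (M b + (τ : ℝ) * w b)‖ := by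
          rcases H.far_at hab h0 le_rfl g3 g4 with g | ⟨g, g'⟩
          · linarith
          · have := ht ⟨b, Ne.symm hab, g⟩
            linarith
        rw [dist_eq_norm]
        have g6 := norm_add_le (M a + (t : ℝ) * w a - x) (x - (M b + (τ : ℝ) * w b))
        rw [sub_add_sub_cancel, norm_sub_rev _ x] at g6
        linarith
    linarith
  refine ⟨A', c1, c2, c3, ?_, ?_, ?_⟩
  · intro x hx hm i
    constructor
    · intro hxi
      have hxV := offV i x hxi
      obtain ⟨a, g1, g2⟩ := core x (toN x hx hxV) hm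
      obtain ⟨v, hv, hva⟩ := hx
      refine ⟨hva.mem.2, hxV, ⟨v, hv, hva.symm⟩, ?_⟩
      rw [g2]
      by_contra hcon
      exact Set.disjoint_left.1 (c1.disj _ _ hcon) g1 hxi
    · rintro ⟨g1, g2, g3, g4⟩
      obtain ⟨a, g5, g6⟩ := core x ⟨g1, g2, g3⟩ hm
      rw [← g4, g6]
      exact g5
  · intro a ha
    obtain ⟨e, he'⟩ := H.third hs0 ha
    refine ⟨e, fun x hx hxe => ?_⟩
    rcases hxe with hxe | ⟨g1, g2, g3, g4⟩
    · have hxN := toN x hx (offV e x hxe)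
      obtain ⟨c, t, h0, h1, hp, hxp⟩ := footM x hxN
      obtain ⟨y, hy, hy'⟩ := c5 e x hxe hxN
      rcases hy' with hy' | ⟨c', ⟨a', lo, k1, k2, -, -, k3⟩, q, hq, hyq⟩
      · have g5 := hgap e y hy' _ (H.mem_fr (a := c) h0 h1)
        have g6 := norm_add_le (y - x) (x - (M c + (t : ℝ) * w c))
        rw [sub_add_sub_cancel] at g6
        linarith
      · obtain ⟨q', hq', k4⟩ := (k3 q hq).near H k2 le_rfl
        have k5 := he' a' k1 q' hq'
        have k6 := norm_add_le (M a - x) (x - q')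
        have k7 := norm_add_le (x - y) (y - q')
        have k8 := norm_add_le (y - q) (q - q')
        rw [sub_add_sub_cancel] at k6 k7 k8
        rw [norm_sub_rev x y] at k7
        rw [norm_sub_rev (M a) x] at k6
        linarith
    · obtain ⟨c, t, h0, h1, hp, hxp⟩ := footM x ⟨g1, g2, g3⟩
      have k1 := hL x (l c)
      have k2 := infA x c t h0 h1
      rw [g4] at k1
      have k3 : Metric.infDist x (Arc s M w l e) < 3 * d := by linarith
      obtain ⟨b, hb⟩ := hl e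
      rw [Metric.infDist_lt_iff ⟨M b, mem_arc.2 ⟨b, hb, 0, le_rfl, by linarith, by
          rw [ofReal_zero, zero_mul, add_zero]⟩⟩] at k3
      obtain ⟨q, hq, k4⟩ := k3
      obtain ⟨b', hb', hq'⟩ := mem_arc.1 hq
      have k5 := he' b' hb' q hq'
      rw [dist_eq_norm] at k4
      have k6 := norm_add_le (M a - x) (x - q)
      rw [sub_add_sub_cancel, norm_sub_rev (M a) x] at k6
      linarith
  · intro i x hx hxN
    obtain ⟨b, hb, hp⟩ := c6 i x hx hxN
    refine ⟨b, hb, hp.mono fun z hz => ⟨hz.1, ?_⟩⟩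
    have := hz.2
    linarith

end poly

end Crest.Agent.R143.UKCx969
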