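import Crest.Agent.R143.R10E_930
import Crest.Agent.R143.UKG5_571
import Crest.Agent.R143.UK_969
import Crest.Agent.R143.LocU_700
import Crest.Agent.R143.Edd_798
import Crest.Agent.R143.R10P_923
import Crest.Agent.R143.UKC_969
import Crest.Agent.R143.DelR_806
import Crest.Agent.R143.OutP_571
import Crest.Agent.R143.GateK_421
import Crest.Agent.R143.Cd5_806
import Crest.Agent.R143.LayU_416
import Crest.Agent.R143.CorE_133

-- ▼ part R143/R10G_930
section

/-!
# Row 143 (S0194), box R10: the structure `UO` (output of the geometric half) and its consequences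
(helper930)

* `UO` : giants `A` with a root face, classes `A'` which cover the complement of `V = Vin S P √ε`,
  thin, labels right off the marks
* **`uo`** : `cpl` coupling of the hits of `A` with the values of the position labels of `V`;
  `card` : exactly one hit triple of the position labels of each type, with high probability
-/

set_option autoImplicit false

noncomputable section

open scoped Classical ENNReal

namespace Crest.Agent.R143.R10Gx930

open Set
open Crest.ProbabilityR.Voronoi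
open Crest.Agent.R143.Harx315
open Crest.Agent.R143.B0x346 Crest.Agent.R143.DelGx806
open Crest.Agent.R143.K33x877
open Crest.Agent.R143.NetUx346 Crest.Agent.R143.NetVx346 Crest.Agent.R143.Stabx930
open Crest.Agent.R143.Stab2x930 Crest.Agent.R143.R10x930 Crest.Agent.R143.R10Ex930
open Crest.Agent.R143.Hexx877 (NegO hex_root)
open Crest.Agent.R143.ArmPx930 (ldns_mono mesh_mono)
open Crest.Agent.R143.GateKx421 (Thin)
open Crest.Agent.R143.EnvHx653 (Cab Cab_pos)

/-- **output of the geometric half** -/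
structure UO (S : Finset ℂ) (A A' : ZMod 3 → Set ℂ) (o : ℂ × ℂ × ℂ) (l : ZMod 3) (P : Set ℂ)
    (L : ℂ → ZMod 3) (mk : ZMod 3 → ℂ) (R1 h D ε d0 d ρ : ℝ) : Prop where
  root : TrR S o l A
  neg : NegO A o
  cls : Cls S A'
  sub : ∀ i, A i ⊆ A' i
  ffV : ff S A' = Vin S P √ε
  vis : ∃ X, CtrX S A' X
  reg : ∀ w ∈ fr S A, ‖w‖ + 2 * √ε ≤ R1
  d0n : 0 ≤ d0
  thin : ∀ l, Thin S A A' l d0
  dd : d0 + 4 * √ε ≤ d
  hd : h ≤ d
  hρ : h ≤ ρ
  ρD : 100 * ρ ≤ D
  mkR : ∀ k, ‖mk k‖ ≤ R1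
  lab : ∀ x, Nxt S (Vin S P √ε) x → (∀ k, ρ < ‖x - mk k‖) → ∀ j, x ∈ A' j → L x = j
  opp : ∀ k, ∃ f, ∀ x, Nxt S (Vin S P √ε) x → x ∉ Vin S P √ε → (x ∈ A' f ∨ L x = f) →
    D < ‖x - mk k‖

variable {S : Finset ℂ} {A A' : ZMod 3 → Set ℂ} {o : ℂ × ℂ × ℂ} {l : ZMod 3} {P : Set ℂ}
  {L : ℂ → ZMod 3} {mk : ZMod 3 → ℂ} {R1 h D ε d0 d ρ : ℝ}

theorem UO.root' (U : UO S A A' o l P L mk R1 h D ε d0 d ρ) : TrR S o l A' := U.root.up U.sub U.cls

theorem UO.neg' (U : UO S A A' o l P L mk R1 h D ε d0 d ρ) : NegO A' o :=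
  ⟨U.sub 0 U.neg.1, U.sub 2 U.neg.2.1, U.sub 1 U.neg.2.2⟩


theorem UO.hex' (U : UO S A A' o l P L mk R1 h D ε d0 d ρ) : Hex S A' := hex_root U.root' U.neg'

theorem UO.nr (U : UO S A A' o l P L mk R1 h D ε d0 d ρ) : NR S A' :=
  nr_root U.root' U.neg' U.vis

/-- the marks -/
theorem UO.mkS (U : UO S A A' o l P L mk R1 h D ε d0 d ρ) {c1 c2 K : ℝ}
    (EM : EnvM S mk Cab c1 c2 K √ε ρ D) (hK : 2 ≤ K) (hc1 : c1 ≤ 1) :
    Mk S (ff S A') A' (Bl S (ff S A') L) mk √ε ρ (Real.sqrt (ρ * D)) D := by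
  have hV := U.ffV
  have adjS : ∀ {x : ℂ}, Nxt S (Vin S P √ε) x → x ∈ S := by
    rintro x ⟨v, -, ha⟩
    exact ha.mem.2
  have dA : ∀ j, ∀ x ∈ A' j, x ∉ ff S A' := by
    intro j x hx h
    exact (mem_ff.1 h).2 j hx
  refine mk_of hK hc1 EM dA (fun j x hx => hx.2.1) ?_ ?_
  · intro x hx hk j
    rw [hV] at hx
    constructor
    · intro h
      refine ⟨adjS hx, dA j x h, ?_, U.lab x hx hk j h⟩
      obtain ⟨v, hv, ha⟩ := hx
      exact ⟨v, by rw [hV]; exact hv, ha.symm⟩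
    · intro h
      have : ∃ j', x ∈ A' j' := by
        by_contra hcon
        push Not at hcon
        exact h.2.1 (mem_ff.2 ⟨h.1, hcon⟩)
      obtain ⟨j', hj'⟩ := this
      have e1 := U.lab x hx hk j' hj'
      rw [h.2.2.2] at e1
      rw [e1]
      exact hj'
  · intro k
    obtain ⟨f, hf⟩ := U.opp k
    refine ⟨f, fun x hx h => ?_⟩
    rw [hV] at hx
    rcases h with h | h
    · exact hf x hx (by rw [← hV]; exact dA f x h) (Or.inl h)
    · exact hf x hx (by rw [← hV]; exact h.2.1) (Or.inr h.2.2.2)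

/-- **R10 in a fixed environment** -/
theorem uo : ∃ C c c1 c2 K : ℝ, 1 ≤ C ∧ 0 < c ∧ 0 < c1 ∧ 0 < c2 ∧ 2 ≤ K ∧
    ∀ (S : Finset ℂ) (R1 h D ε : ℝ), 0 < h → GE S c1 c2 K R1 h D ε →
    ∀ (A A' : ZMod 3 → Set ℂ) (o : ℂ × ℂ × ℂ) (l : ZMod 3) (P : Set ℂ) (L : ℂ → ZMod 3)
      (mk : ZMod 3 → ℂ) (d0 d ρ : ℝ), UO S A A' o l P L mk R1 h D ε d0 d ρ →
    (∀ η, d ≤ η → η ≤ D → ∀ i, pr (ff S A) (fun β => η < ‖hv S A i (β : Set ℂ) -
      zV S (Vin S P √ε) (Bl S (Vin S P √ε) L) i ((β ∩ Vin S P √ε : Finset ℂ) : Set ℂ)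
        (fun x => x)‖) ≤ C * ((d / η) ^ c + (ρ / D) ^ c)) ∧
    pr (Vin S P √ε) (fun T => ∃ i,
      (hitsV S (Vin S P √ε) (Bl S (Vin S P √ε) L) i (T : Set ℂ)).card ≠ 1) ≤
        C * (ρ / D) ^ c := by
  obtain ⟨Ca, ca, c1a, c2a, Ka, hCa, hca, hc1a, hc2a, hKa, Ha⟩ := r10_fix
  obtain ⟨Cs, cs, c1s, c2s, Ks, hCs, hcs, hc1s, hc1s', hc2s, -, hKs, Hs⟩ := bde_pow Cab Cab_pos.le
  refine ⟨Ca + Cs, min ca cs, min c1a c1s, min c2a c2s, max Ka Ks, by linarith,
    lt_min hca hcs, lt_min hc1a hc1s, lt_min hc2a hc2s, hKs.trans (le_max_right _ _), ?_⟩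
  intro S R1 h D ε hh E A A' o l P L mk d0 d ρ U
  have hρ0 : 0 < ρ := hh.trans_le U.hρ
  have hD0 : 0 < D := by linarith [U.ρD]
  have hd : 0 < d := hh.trans_le U.hd
  have E' : GE S c1a c2a Ka R1 h D ε := by
    refine ⟨fun z hz => ldns_mono (E.ld z hz)
      (mul_le_mul_of_nonneg_right (le_max_left _ _) hD0.le), fun z hz b hb1 hb2 =>
      mesh_mono (E.mesh z hz b ?_ hb2)
      (mul_le_mul_of_nonneg_right (le_max_left _ _) hD0.le), E.dr.trans
      (mul_le_mul_of_nonneg_right (min_le_left _ _) hh.le)⟩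
    exact (mul_le_mul_of_nonneg_right (min_le_left _ _) hh.le).trans hb1
  have y2 : (ρ / D) ^ ca ≤ (ρ / D) ^ (min ca cs) :=
    Real.rpow_le_rpow_of_exponent_ge (by positivity)
      ((div_le_one hD0).2 (by linarith [U.ρD])) (min_le_left _ _)
  have y3 : (ρ / D) ^ cs ≤ (ρ / D) ^ (min ca cs) :=
    Real.rpow_le_rpow_of_exponent_ge (by positivity)
      ((div_le_one hD0).2 (by linarith [U.ρD])) (min_le_right _ _)
  have z2 : 0 ≤ (ρ / D) ^ (min ca cs) := Real.rpow_nonneg (by positivity) _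
  constructor
  · intro η hη hηD i
    have hη0 : 0 < η := by linarith
    refine (Ha S R1 h D ε hh E' A A' o l U.root U.neg U.cls U.sub P L mk d0 d ρ U.ffV U.vis U.reg
      U.d0n U.thin U.dd U.hd U.hρ U.ρD U.mkR U.lab U.opp η hη hηD i).trans ?_
    have y1 : (d / η) ^ ca ≤ (d / η) ^ (min ca cs) :=
      Real.rpow_le_rpow_of_exponent_ge (by positivity) ((div_le_one hη0).2 hη) (min_le_left _ _)
    have z1 : 0 ≤ (d / η) ^ (min ca cs) := Real.rpow_nonneg (by positivity) _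
    have w1 : Ca * ((d / η) ^ ca + (ρ / D) ^ ca) ≤
        Ca * ((d / η) ^ (min ca cs) + (ρ / D) ^ (min ca cs)) :=
      mul_le_mul_of_nonneg_left (by linarith) (by linarith)
    refine w1.trans (mul_le_mul_of_nonneg_right (by linarith) (by linarith))
  · have EM : EnvM S mk Cab c1s c2s Ks √ε ρ D :=
      envM_ge (le_max_right _ _) (min_le_right _ _) (min_le_right _ _) hc1s hc2s hh U.hρ U.ρD
        U.mkR E
    have hVS : ff S A' ⊆ S := Finset.filter_subset _ _
    have H := U.mkS EM hKs hc1s'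
    have hB := Hs S mk √ε ρ D EM (ff S A') hVS
    rw [← U.ffV]
    refine (pr_mono fun T hT hn => ?_).trans (hB.trans ?_)
    · by_contra hb
      obtain ⟨i, hi⟩ := hn
      obtain ⟨t, h1, -, -⟩ := hit_hv U.root.gp H U.hex' U.nr hT hb i
      apply hi
      rw [h1, Finset.card_singleton]
    · refine (mul_le_mul_of_nonneg_left y3 hCs.le).trans
        (mul_le_mul_of_nonneg_right (by linarith) z2)

end Crest.Agent.R143.R10Gx930
end
end

-- ▼ part R143/VisP_930
section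

/-!
# Row 143 (S0194), box R10: the free set of the polygon sees the three classes (helper930)

* `inner_far` : points of the segment from a boundary point of a cell of `F` to the centre of the cell
* `quarter` : quarter point of the first edge of the arc `j`
* **`vis_poly`** : `A'` classes with `ff S A' = Vin S u.P e`, labels right off the marks ⟹ the
  component of the centres of the cells is a centre `CtrX S A' X`
-/

set_option autoImplicit false

noncomputable section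

open scoped Classical

namespace Crest.Agent.R143.VisPx930

open Set
open Crest.ProbabilityR.Voronoi
open Crest.Agent.R158.Sp896 (V Cyc sq lc rc pt ed isClosed_sq)
open Crest.Agent.R143.Brkx478 (Bk cells Conn cells_finite)
open Crest.Agent.R143.Tenx416 (Pg)
open Crest.Agent.R143.PolyUx346
open Crest.Agent.R143.ArcPx571
open Crest.Agent.R143.OutCx571 (mem_pg ctr Far far_preconn ctr_far ctr_mem dist_of_far)
open Crest.Agent.R143.OutPx571 (F F_con F_fin P_eq)
open Crest.Agent.R143.UKG5x571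
open Crest.Agent.R143.B0x346 (GP)
open Crest.Agent.R143.JColx54 (Adj)
open Crest.Agent.R143.RE0x723 (Pth)
open Crest.Agent.R143.K33x877 (Cls CtrX)
open Crest.Agent.R143.NetUx346 (ff mem_ff)
open Crest.Agent.R143.NetVx346 (Vin)
open Crest.Agent.R143.UKx969 (cl cl_con)
open Crest.Agent.R143.UKx969 (self_cell)

variable {s ρ : ℝ} {G : Set V} {q : V}

/-- points between a point of a cell of `G` and its centre are at sup distance `> ρ` from the other
cells -/
theorem inner_far (hs : 0 < s) (hq : q ∈ G) {M : ℂ} (hM : M ∈ sq s q) {τ : ℝ} (_ : 0 ≤ τ)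
    (h1 : τ ≤ 1) (hτ : ρ < τ * s / 2) : M + (τ : ℂ) * (ctr s q - M) ∈ Far s ρ Gᶜ := by
  intro w hw
  obtain ⟨q', hq', hw'⟩ := mem_pg.1 hw
  have hne : q' ≠ q := fun e => hq' (e ▸ hq)
  obtain ⟨m1, m2, m3, m4⟩ := hM
  obtain ⟨w1, w2, w3, w4⟩ := hw'
  have hcr : (ctr s q).re = s * (q.1 + 1 / 2) := rfl
  have hci : (ctr s q).im = s * (q.2 + 1 / 2) := rfl
  have hr : (M + (τ : ℂ) * (ctr s q - M)).re = M.re + τ * ((ctr s q).re - M.re) := by
    simp [Complex.add_re, Complex.mul_re]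
  have hi : (M + (τ : ℂ) * (ctr s q - M)).im = M.im + τ * ((ctr s q).im - M.im) := by
    simp [Complex.add_im, Complex.mul_im]
  rw [hr, hi, hcr, hci]
  have lo : ∀ a b x : ℝ, s * a ≤ x → s * a + τ * s / 2 ≤ x + τ * (s * (a + 1 / 2) - x) := by
    intro a b x hx
    nlinarith
  have up : ∀ a b x : ℝ, x ≤ s * (a + 1) → x + τ * (s * (a + 1 / 2) - x) ≤
      s * (a + 1) - τ * s / 2 := by
    intro a b x hx
    nlinarith
  have key : ∀ a b : ℤ, a < b → s * ((a : ℝ) + 1) ≤ s * b := by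
    intro a b hab
    have : (a : ℝ) + 1 ≤ b := by exact_mod_cast hab
    exact mul_le_mul_of_nonneg_left this hs.le
  by_cases hx : q'.1 = q.1
  · have hy : q'.2 ≠ q.2 := fun e => hne (Prod.ext hx e)
    refine lt_of_lt_of_le ?_ (le_max_right _ _)
    have e1 := lo q.2 0 M.im m3
    have e2 := up q.2 0 M.im m4
    rcases lt_or_gt_of_ne hy with h | h
    · have := key _ _ h
      rw [lt_abs]
      left
      linarith
    · have := key _ _ h
      rw [lt_abs]
      right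
      linarith
  · refine lt_of_lt_of_le ?_ (le_max_left _ _)
    have e1 := lo q.1 0 M.re m1
    have e2 := up q.1 0 M.re m2
    rcases lt_or_gt_of_ne hx with h | h
    · have := key _ _ h
      rw [lt_abs]
      left
      linarith
    · have := key _ _ h
      rw [lt_abs]
      right
      linarith

/-- distance to the centre -/
theorem ctr_dist (_ : 0 < s) {M : ℂ} (hM : M ∈ sq s q) : ‖ctr s q - M‖ ≤ s := by
  obtain ⟨m1, m2, m3, m4⟩ := hM
  have hcr : (ctr s q).re = s * (q.1 + 1 / 2) := rfl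
  have hci : (ctr s q).im = s * (q.2 + 1 / 2) := rfl
  have h := Complex.norm_le_abs_re_add_abs_im (ctr s q - M)
  rw [Complex.sub_re, Complex.sub_im, hcr, hci] at h
  have h1 : |s * (q.1 + 1 / 2) - M.re| ≤ s / 2 := by rw [abs_le]; constructor <;> linarith
  have h2 : |s * (q.2 + 1 / 2) - M.im| ≤ s / 2 := by rw [abs_le]; constructor <;> linarith
  linarith

variable {u : Poly}

/-- quarter point of the first edge of the arc `j` -/
def qp (u : Poly) (j : Fin 3) : ℂ := bp u (u.k j) (3 / 4)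

theorem qp_arc (j : Fin 3) : qp u j ∈ u.Arc j := by
  refine arc_iff.2 ⟨u.k j, 3 / 4, by norm_num, by norm_num, by linarith, ?_, rfl⟩
  have : (u.k j : ℝ) + 1 ≤ u.k' j := by exact_mod_cast k_lt (u := u) j
  linarith

theorem qp_ed (j : Fin 3) : qp u j ∈ ed u.s (u.v (u.k j)) (u.v (u.k j + 1)) :=
  mem_ed.2 ⟨3 / 4, by norm_num, by norm_num, rfl⟩

/-- the marks are far from the quarter points -/
theorem qp_far (j l : Fin 3) : u.s / 4 ≤ dist (qp u j) (u.mid (u.k l)) := by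
  have hs := u.s_pos
  by_contra hcon
  push Not at hcon
  have e0 : qp u j = ep u.s u.v (u.k j) (3 / 4) := rfl
  have e1 : u.mid (u.k l) = ep u.s u.v (u.k l) (1 / 2) := mid_eq _
  rw [dist_eq_norm, e0, e1] at hcon
  have h3 := Complex.abs_re_le_norm (ep u.s u.v (u.k j) (3 / 4) - ep u.s u.v (u.k l) (1 / 2))
  have h4 := Complex.abs_im_le_norm (ep u.s u.v (u.k j) (3 / 4) - ep u.s u.v (u.k l) (1 / 2))
  rw [Complex.sub_re] at h3
  rw [Complex.sub_im] at h4
  have hm := mid_sep u.cyc hs (a := u.k l) (b := u.k j) (t := 3 / 4) (by norm_num) (by norm_num)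
    (by linarith) (by linarith)
  rw [ep_mod u.cyc hm (1 / 2)] at hcon h3 h4
  have f1 : ∀ x y : ℝ, u.s * (x + 3 / 4 * (y - x)) - u.s * (x + 1 / 2 * (y - x)) =
      u.s * (y - x) / 4 := fun x y => by ring
  simp only [ep_re, ep_im] at h3 h4
  rw [f1] at h3 h4
  have g1 := neg_abs_le (u.s * (((u.v (u.k j + 1)).1 : ℝ) - (u.v (u.k j)).1) / 4)
  have g2 := le_abs_self (u.s * (((u.v (u.k j + 1)).1 : ℝ) - (u.v (u.k j)).1) / 4)
  have g3 := neg_abs_le (u.s * (((u.v (u.k j + 1)).2 : ℝ) - (u.v (u.k j)).2) / 4)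
  have g4 := le_abs_self (u.s * (((u.v (u.k j + 1)).2 : ℝ) - (u.v (u.k j)).2) / 4)
  rcases step_real u.cyc (u.k j) with (⟨e1, e2⟩ | ⟨e1, e2⟩) | (⟨e1, e2⟩ | ⟨e1, e2⟩)
  · rw [e1] at g1 g2 h3
    ring_nf at g1 g2 h3 hcon
    linarith
  · rw [e1] at g1 g2 h3
    ring_nf at g1 g2 h3 hcon
    linarith
  · rw [e2] at g3 g4 h4
    ring_nf at g3 g4 h4 hcon
    linarith
  · rw [e2] at g3 g4 h4
    ring_nf at g3 g4 h4 hcon
    linarith

/-- balls round the points of `Far` of the complement are in the polygon -/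
theorem ball_far {ρ : ℝ} {z : ℂ} (hz : z ∈ Far u.s ρ (F u)ᶜ) : Metric.closedBall z ρ ⊆ u.P := by
  intro w hw
  rw [Metric.mem_closedBall, dist_eq_norm, norm_sub_rev] at hw
  have hs := u.s_pos
  -- the cell of `w`
  have hw' : w ∈ sq u.s ((⌊w.re / u.s⌋, ⌊w.im / u.s⌋) : V) := by
    refine ⟨?_, ?_, ?_, ?_⟩
    · have := Int.floor_le (w.re / u.s)
      rw [le_div_iff₀ hs] at this
      simp only
      linarith
    · have := (Int.lt_floor_add_one (w.re / u.s)).le
      rw [div_le_iff₀ hs] at this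
      simp only
      linarith
    · have := Int.floor_le (w.im / u.s)
      rw [le_div_iff₀ hs] at this
      simp only
      linarith
    · have := (Int.lt_floor_add_one (w.im / u.s)).le
      rw [div_le_iff₀ hs] at this
      simp only
      linarith
  by_cases hq : ((⌊w.re / u.s⌋, ⌊w.im / u.s⌋) : V) ∈ F u
  · exact mem_pg.2 ⟨_, hq, hw'⟩
  · exfalso
    have := dist_of_far hz (mem_pg.2 ⟨_, hq, hw'⟩)
    linarith

variable {S : Finset ℂ} {A : ZMod 3 → Set ℂ} {e : ℝ}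

theorem sq_conv (s : ℝ) (q : V) : Convex ℝ (sq s q) := by
  have h1 : Convex ℝ {z : ℂ | s * q.1 ≤ z.re} := convex_halfSpace_re_ge _
  have h2 : Convex ℝ {z : ℂ | z.re ≤ s * (q.1 + 1)} := convex_halfSpace_re_le _
  have h3 : Convex ℝ {z : ℂ | s * q.2 ≤ z.im} := convex_halfSpace_im_ge _
  have h4 : Convex ℝ {z : ℂ | z.im ≤ s * (q.2 + 1)} := convex_halfSpace_im_le _
  exact h1.inter (h2.inter (h3.inter h4))

theorem qp_sq (j : Fin 3) : qp u j ∈ sq u.s (lc (u.v (u.k j)) (u.v (u.k j + 1))) := by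
  obtain ⟨h1, h2, -, -⟩ := Crest.Agent.R158.Sp896.pt_mem u.s_pos (u.cyc.step (u.k j))
  exact (sq_conv _ _).segment_subset h1 h2 (qp_ed j)

/-- **the free set of the polygon sees the three classes** -/
theorem vis_poly (u : Poly) (hS : GP (S : Set ℂ)) (h3 : 3 ≤ S.card) (he : 0 < e)
    (hH : ∀ z ∈ u.P, ∃ s ∈ S, ‖s - z‖ < e) (hes : 100 * e ≤ u.s) (hρs : 8 * ρ ≤ u.s)
    (hV : ff S A = Vin S u.P e)
    (lab : ∀ x, Stabx930.Nxt S (Vin S u.P e) x → (∀ l : Fin 3, ρ < ‖x - u.mid (u.k l)‖) →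
      ∀ j, x ∈ A j → u.Lab x = j) : ∃ X, CtrX S A X := by
  have hs := u.s_pos
  have hSn : S.Nonempty := Finset.card_pos.1 (by omega)
  set I0 : Set ℂ := Far u.s (3 * e) (F u)ᶜ with hI0
  have hI : IsPreconnected I0 := by
    refine far_preconn (fun q hq q' hq' => ?_) (by linarith) (by linarith)
    rw [Set.mem_compl_iff, not_not] at hq hq'
    rw [compl_compl]
    exact F_con u q hq q' hq'
  -- sites of the cells which meet `I0`
  have near : ∀ {x z : ℂ}, z ∈ u.P → z ∈ voronoiCell (S : Set ℂ) x → ‖z - x‖ < e := by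
    intro x z hz hx
    obtain ⟨s, h1, h2⟩ := hH z hz
    refine lt_of_le_of_lt (hx s (Finset.mem_coe.2 h1)) ?_
    rw [norm_sub_rev]
    exact h2
  have inV : ∀ {x z : ℂ}, x ∈ S → z ∈ I0 → z ∈ voronoiCell (S : Set ℂ) x → x ∈ Vin S u.P e := by
    intro x z hx hz hxz
    have hb := ball_far hz
    have h1 := near (hb (Metric.mem_closedBall_self (by linarith))) hxz
    refine Finset.mem_filter.2 ⟨hx, fun w hw => hb ?_⟩
    rw [Metric.mem_closedBall, dist_eq_norm] at hw ⊢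
    have := norm_add_le (w - x) (x - z)
    rw [sub_add_sub_cancel, norm_sub_rev x z] at this
    linarith
  set q : Fin 3 → V := fun j => lc (u.v (u.k j)) (u.v (u.k j + 1)) with hq
  have hqF : ∀ j, q j ∈ F u := fun j => u.cyc.left (u.k j)
  have hc0 : ∀ j, ctr u.s (q j) ∈ I0 := fun j =>
    ctr_far (by linarith) hs (by rw [Set.mem_compl_iff, not_not]; exact hqF j)
  obtain ⟨s0, hs0, hz0⟩ := G6Wx723.exists_cell hSn (ctr u.s (q 0))
  have hs0V : s0 ∈ Vin S u.P e := inV hs0 (hc0 0) hz0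
  set W : Set ℂ := {x | x ∈ Vin S u.P e} with hW
  set X : Set ℂ := {x | x ∈ W ∧ Pth S W x s0} with hX
  refine ⟨X, fun i => ?_, fun x hx y hy => ?_, ?_⟩
  · rw [Set.disjoint_left]
    intro x hx hxA
    have h1 : x ∈ ff S A := by rw [hV]; exact hx.1
    exact (mem_ff.1 h1).2 i hxA
  · exact hx.2.self.trans hy.2.self.symm
  · have key : ∀ j : Fin 3, ∃ x ∈ X, ∃ y ∈ A ((j : ℕ) : ZMod 3), Adj S x y := by
      intro j
      set M : ℂ := qp u j with hM
      have hMP := arc_P (qp_arc (u := u) j)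
      have hsq : M ∈ sq u.s (q j) := qp_sq j
      set C : Set ℂ := segment ℝ M (ctr u.s (q j)) with hC
      have hK : IsPreconnected (I0 ∪ C) := hI.union (ctr u.s (q j)) (hc0 j)
        (right_mem_segment ℝ _ _) (convex_segment _ _).isPreconnected
      obtain ⟨sj, hsj, hzj⟩ := G6Wx723.exists_cell hSn M
      have hsjV : sj ∉ Vin S u.P e := by
        intro h
        apply hMP.2
        rw [mem_interior]
        refine ⟨Metric.ball sj (2 * e), Metric.ball_subset_closedBall.trans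
          (Finset.mem_filter.1 h).2, Metric.isOpen_ball, ?_⟩
        rw [Metric.mem_ball, dist_eq_norm]
        have := near hMP.1 hzj
        linarith
      have hp := cl_con hS h3 hK (a := s0) (b := sj) ⟨hs0, _, Or.inl (hc0 0), hz0⟩
        ⟨hsj, M, Or.inr (left_mem_segment ℝ _ _), hzj⟩
      obtain ⟨a, x, h4, h5, h6, h7⟩ := hp.exit (Q := fun w => w ∈ Vin S u.P e) hs0V hsjV
      have haW : Pth S W s0 a := h4.mono fun w hw => hw.2
      obtain ⟨hxS, z, hz, hxz⟩ := h6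
      -- the cell of `x` meets the segment near `M`
      have hzC : z ∈ C := by
        rcases hz with hz | hz
        · exact absurd (inV hxS hz hxz) h7
        · exact hz
      have hzsq : z ∈ sq u.s (q j) :=
        (sq_conv _ _).segment_subset hsq (ctr_mem hs.le _) hzC
      have hzP : z ∈ u.P := mem_pg.2 ⟨q j, hqF j, hzsq⟩
      have hzM : ‖z - M‖ ≤ 6 * e := by
        rw [hC, segment_eq_image'] at hzC
        obtain ⟨τ, hτ, hz'⟩ := hzC
        simp only at hz'
        rw [Complex.real_smul] at hz'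
        by_cases h8 : 3 * e < τ * u.s / 2
        · exfalso
          have := inner_far hs (hqF j) hsq hτ.1 hτ.2 h8
          rw [hz'] at this
          exact h7 (inV hxS this hxz)
        · push Not at h8
          have h9 := ctr_dist hs hsq
          rw [← hz', add_sub_cancel_left, norm_mul, Complex.norm_real, Real.norm_eq_abs,
            abs_of_nonneg hτ.1]
          have h10 := mul_le_mul_of_nonneg_left h9 hτ.1
          linarith
      have hxM : dist M x ≤ 7 * e := by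
        rw [dist_eq_norm]
        have h8 := near hzP hxz
        have h9 := norm_add_le (M - z) (z - x)
        rw [sub_add_sub_cancel, norm_sub_rev M z] at h9
        linarith
      have hL := (lab_of_foot (qp_arc j) hxM (ρ := u.s / 4) (fun l => qp_far j l) (by linarith)
        (by linarith)).1
      have hxi : ∃ i, x ∈ A i := by
        by_contra hcon
        push Not at hcon
        apply h7
        rw [← hV]
        exact mem_ff.2 ⟨hxS, hcon⟩
      obtain ⟨i, hi⟩ := hxi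
      have hLi := lab x ⟨a, haW.snd, h5⟩ (fun l => by
        have h8 := qp_far (u := u) j l
        have h9 := dist_triangle (qp u j) x (u.mid (u.k l))
        rw [dist_eq_norm x] at h9
        linarith) i hi
      refine ⟨a, ⟨haW.snd, haW.symm⟩, x, ?_, h5⟩
      rw [← hL, hLi]
      exact hi
    intro i
    have hi : ∃ j : Fin 3, ((j : ℕ) : ZMod 3) = i := by
      clear * -
      revert i
      decide
    obtain ⟨j, rfl⟩ := hi
    exact key j

end Crest.Agent.R143.VisPx930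
end
end

-- ▼ part R143/R10W_930
section

/-!
# Row 143 (S0194), box R10: windows (helper930)

* `hitsV_loc`, `zV_loc` : the hit triples of the labelled region `(P, L)` depend on the sites in `P`
* `Vw_eq`, `hits_win`, `zV_win` : the windows `Sw`, `Vw`, `Bw` of 58 / 798
* **`r10w`** : `UO` ⟹ 923's `Cpl` for the window objects and 798's `fU ≤ θ`
-/

set_option autoImplicit false

noncomputable section

open scoped Classical ENNReal

namespace Crest.Agent.R143.R10Wx930

open Set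
open Crest.ProbabilityR.Voronoi
open Crest.Agent.R143.Harx315
open Crest.Agent.R143.B0x346 Crest.Agent.R143.DelGx806
open Crest.Agent.R143.JColx54 (Adj)
open Crest.Agent.R143.K33x877
open Crest.Agent.R143.NetUx346 Crest.Agent.R143.NetVx346 Crest.Agent.R143.Stabx930
open Crest.Agent.R143.Stab2x930 Crest.Agent.R143.R10x930 Crest.Agent.R143.R10Ex930
open Crest.Agent.R143.R10Gx930
open Crest.Agent.R143.PolyUx346
open Crest.Agent.R143.LocUx700 (deep deep_sub Vin_eq mem_Vin agr_deep bd_Vin)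
open Crest.Agent.R143.LocTx700 (sameT_local mem_bd_of)
open Crest.Agent.R143.Locx922 (Hol)
open Crest.Agent.R143.TlAx58 (Sw Vw Bw)
open Crest.Agent.R143.Eddx798 (fU)
open Crest.Agent.R143.R10Px923 (Cpl yV)

variable {S S' T : Finset ℂ} {P : Set ℂ} {d : ℝ} {L : ℂ → ZMod 3}

/-- **the hit triples of a labelled region depend on the sites of the region** -/
theorem hitsV_loc (hd : 0 < d) (hS : GP (S : Set ℂ)) (hH : Hol (S : Set ℂ) (deep P d) d)
    (h : ∀ x ∈ P, x ∈ S ↔ x ∈ S') (hT : T ⊆ Vin S P d) (i : ZMod 3) :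
    hitsV S (Vin S P d) (Bl S (Vin S P d) L) i (T : Set ℂ) =
      hitsV S' (Vin S' P d) (Bl S' (Vin S' P d) L) i (T : Set ℂ) := by
  have hsame := sameT_local hd hH (agr_deep hd h)
    (V := Vin S P d) (fun v hv => (mem_Vin.1 (Finset.mem_coe.1 hv)).2)
  have had : ∀ u v, u ∈ Vin S P d → (Adj S u v ↔ Adj S' u v) := by
    intro u v hu
    constructor
    · rintro (⟨c, hc⟩ | ⟨c, hc⟩)
      · exact Or.inl ⟨c, (hsame _ (Or.inl hu)).1 hc⟩
      · exact Or.inr ⟨c, (hsame _ (Or.inr (Or.inl hu))).1 hc⟩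
    · rintro (⟨c, hc⟩ | ⟨c, hc⟩)
      · exact Or.inl ⟨c, (hsame _ (Or.inl hu)).2 hc⟩
      · exact Or.inr ⟨c, (hsame _ (Or.inr (Or.inl hu))).2 hc⟩
  rw [← Vin_eq hd h]
  refine hitsV_congr hS (fun j x hx => hx.2.1) (fun j x hx => hx.2.1) hsame ?_ hT
  intro x hx j
  constructor
  · rintro ⟨h1, h2, ⟨v, hv, ha⟩, h4⟩
    have hxP := bd_Vin hd hH (mem_bd_of h2 hv ha.symm)
    exact ⟨(h x hxP).1 h1, h2, ⟨v, hv, ((had v x hv).1 ha.symm).symm⟩, h4⟩
  · rintro ⟨h1, h2, ⟨v, hv, ha⟩, h4⟩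
    have ha' := (had v x hv).2 ha.symm
    exact ⟨ha'.mem.2, h2, ⟨v, hv, ha'.symm⟩, h4⟩

theorem zV_loc (hd : 0 < d) (hS : GP (S : Set ℂ)) (hH : Hol (S : Set ℂ) (deep P d) d)
    (h : ∀ x ∈ P, x ∈ S ↔ x ∈ S') (hT : T ⊆ Vin S P d) (i : ZMod 3) (z : ℂ → ℂ) :
    zV S (Vin S P d) (Bl S (Vin S P d) L) i (T : Set ℂ) z =
      zV S' (Vin S' P d) (Bl S' (Vin S' P d) L) i (T : Set ℂ) z := by
  unfold zV
  rw [hitsV_loc hd hS hH h hT i]

variable {u : Poly} {W : Set ℂ}

theorem win_mem (hW : P ⊆ W) : ∀ x ∈ P, x ∈ S ↔ x ∈ Sw W S := fun x hx => by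
  unfold Sw
  rw [Finset.mem_filter]
  exact ⟨fun h => ⟨h, hW hx⟩, fun h => h.1⟩

theorem Vw_eq (hd : 0 < d) (hW : u.P ⊆ W) : Vw u d W S = Vin S u.P d :=
  (Vin_eq hd (win_mem hW)).symm

theorem hits_win (hd : 0 < d) (hS : GP (S : Set ℂ)) (hH : Hol (S : Set ℂ) (deep u.P d) d)
    (hW : u.P ⊆ W) (hT : T ⊆ Vin S u.P d) (i : ZMod 3) :
    hitsV (Sw W S) (Vw u d W S) (Bw u d W S) i (T : Set ℂ) =
      hitsV S (Vin S u.P d) (Bl S (Vin S u.P d) u.Lab) i (T : Set ℂ) :=
  (hitsV_loc hd hS hH (win_mem hW) hT i).symm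

theorem zV_win (hd : 0 < d) (hS : GP (S : Set ℂ)) (hH : Hol (S : Set ℂ) (deep u.P d) d)
    (hW : u.P ⊆ W) (hT : T ⊆ Vin S u.P d) (i : ZMod 3) (z : ℂ → ℂ) :
    zV (Sw W S) (Vw u d W S) (Bw u d W S) i (T : Set ℂ) z =
      zV S (Vin S u.P d) (Bl S (Vin S u.P d) u.Lab) i (T : Set ℂ) z :=
  (zV_loc hd hS hH (win_mem hW) hT i z).symm

/-- **R10 in a fixed environment, for the window objects** -/
theorem r10w : ∃ C c c1 c2 K : ℝ, 1 ≤ C ∧ 0 < c ∧ 0 < c1 ∧ c1 ≤ 1 ∧ 0 < c2 ∧ 2 ≤ K ∧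
    ∀ (S : Finset ℂ) (R1 h D ε : ℝ), 0 < h → 0 < ε → GE S c1 c2 K R1 h D ε →
    ∀ (u : Poly) (A A' : ZMod 3 → Set ℂ) (o : ℂ × ℂ × ℂ) (l : ZMod 3)
      (mk : ZMod 3 → ℂ) (d0 d ρ : ℝ), UO S A A' o l u.P u.Lab mk R1 h D ε d0 d ρ →
    (∀ z ∈ u.P, ‖z‖ ≤ R1) → ∀ W : Set ℂ, u.P ⊆ W →
    (∀ η, d ≤ η → η ≤ D → Cpl S A (Vin S u.P √ε) (Bl S (Vin S u.P √ε) u.Lab) η
      (C * ((d / η) ^ c + (ρ / D) ^ c)) ∧
      ∀ i, pr (ff S A) (fun β => η < ‖hv S A i (β : Set ℂ) -
        zV (Sw W S) (Vw u √ε W S) (Bw u √ε W S) i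
          ((β ∩ Vin S u.P √ε : Finset ℂ) : Set ℂ) id‖) ≤ C * ((d / η) ^ c + (ρ / D) ^ c)) ∧
    ∀ i, fU u √ε W i S ≤ C * (ρ / D) ^ c := by
  obtain ⟨C, c, c1, c2, K, hC, hc, hc1, hc2, hK, H⟩ := uo
  refine ⟨C, c, min c1 1, c2, K, hC, hc, lt_min hc1 one_pos, min_le_right _ _, hc2, hK, ?_⟩
  intro S R1 h D ε hh hε E u A A' o l mk d0 d ρ U hP W hW
  have hε' : 0 < √ε := Real.sqrt_pos.2 hε
  have E' : GE S c1 c2 K R1 h D ε :=
    ⟨E.ld, E.mesh, E.dr.trans (mul_le_mul_of_nonneg_right (min_le_left _ _) hh.le)⟩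
  obtain ⟨h1, h2⟩ := H S R1 h D ε hh E' A A' o l u.P u.Lab mk d0 d ρ U
  have hS := U.root.gp
  have hD0 : 0 < D := by linarith [U.ρD, U.hρ]
  have hdD : √ε ≤ D := by
    have := E.dr.trans (mul_le_mul_of_nonneg_right (min_le_right _ _) hh.le)
    linarith [U.ρD, U.hρ]
  have hH : Hol (S : Set ℂ) (deep u.P √ε) √ε := by
    intro w hw z hz
    obtain ⟨s, h3, h4⟩ := (E.ld w (hP w (deep_sub hε'.le hw))).hole z (by nlinarith)
    exact ⟨s, Finset.mem_coe.2 h3, h4⟩
  refine ⟨fun η hη hηD => ⟨fun i => h1 η hη hηD i, fun i => ?_⟩, fun i => ?_⟩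
  · refine le_trans (pr_mono fun β hβ hlt => ?_) (h1 η hη hηD i)
    rw [zV_win hε' hS hH hW Finset.inter_subset_right] at hlt
    exact hlt
  · unfold fU
    rw [Vw_eq hε' hW]
    refine le_trans (pr_mono fun T hT hn => ?_) h2
    refine ⟨i, ?_⟩
    have e := hits_win (u := u) (W := W) hε' hS hH hW hT i
    rw [Vw_eq hε' hW] at e
    rw [← e]
    exact hn

end Crest.Agent.R143.R10Wx930
end
end

-- ▼ part R143/HE_571
section

/-!
# Row 143, R10, polygon side: the half edges of `Poly` (helper571; structure of helper969)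

* `J u`, `hM`, `dr`, `hw`, `hnu`, `hl`, `he` : half edges; `a` even: from the middle of the edge
  `a / 2` to its first end, `a` odd: to its second end; `hnu` is the outward normal
* `wn`, `nu_iff`, `arc_he`, `fr_he`, `far_he`, `col_he`
-/

set_option autoImplicit false

noncomputable section

open scoped Classical

namespace Crest.Agent.R143.HEx571

open Set
open Crest.Agent.R158.Sp896
open Crest.Agent.R143.Brkx478 (Bk cells Conn cells_finite cyc_mod)
open Crest.Agent.R143.Tenx416 (Pg)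
open Crest.Agent.R143.PolyUx346
open Crest.Agent.R143.ArcPx571
open Crest.Agent.R143.UKG5x571
open Crest.Agent.R143.OutCx571 (mem_pg)

/-! ### walks: the open outer cell and the closed inner cell of a step -/

section walk

variable {F : Set V} {L : ℕ} {v : ℕ → V} {s : ℝ}

/-- the step `v i → v (i + 1)` as a complex number -/
def drv (v : ℕ → V) (i : ℕ) : ℂ := ⟨(v (i + 1)).1 - (v i).1, (v (i + 1)).2 - (v i).2⟩

theorem drv_cases (C : Cyc F L v) (i : ℕ) :
    drv v i = 1 ∨ drv v i = -1 ∨ drv v i = Complex.I ∨ drv v i = -Complex.I := by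
  rcases step_real C i with (⟨h1, h2⟩ | ⟨h1, h2⟩) | (⟨h1, h2⟩ | ⟨h1, h2⟩)
  · left
    apply Complex.ext <;> simp [drv, h1, h2]
  · right; left
    apply Complex.ext <;> simp [drv, h1, h2]
  · right; right; left
    apply Complex.ext <;> simp [drv, h1, h2]
  · right; right; right
    apply Complex.ext <;> simp [drv, h1, h2]

theorem norm_drv (C : Cyc F L v) (i : ℕ) : ‖drv v i‖ = 1 := by
  rcases drv_cases C i with h | h | h | h <;> rw [h] <;> simp

/-- points of an edge by the distance to its middle -/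
theorem ep_mid (i : ℕ) (x : ℝ) :
    ep s v i (1 / 2 + x) = ep s v i (1 / 2) + ((s * x : ℝ) : ℂ) * drv v i := by
  apply Complex.ext
  · simp only [ep_re, Complex.add_re, Complex.re_ofReal_mul, drv]
    ring
  · simp only [ep_im, Complex.add_im, Complex.im_ofReal_mul, drv]
    ring

theorem drv_mod (C : Cyc F L v) {a b : ℕ} (h : a ≡ b [MOD L]) : drv v a = drv v b := by
  unfold drv
  rw [vmod C h, vmod C (h.add_right 1)]

/-- **the open cell on the right of a step is off the polygon** -/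
theorem outer_open (C : Cyc F L v) (hs : 0 < s) (i : ℕ) {x y : ℝ} (x0 : 0 < x) (x1 : x < s)
    (y0 : 0 < y) (y1 : y < s) :
    pt s (v i) + (x : ℂ) * drv v i + (y : ℂ) * (-(Complex.I * drv v i)) ∉ Pg s F := by
  intro hw
  obtain ⟨q', hq', hw'⟩ := mem_pg.1 hw
  set w : ℂ := pt s (v i) + (x : ℂ) * drv v i + (y : ℂ) * (-(Complex.I * drv v i)) with hwd
  have hr : w.re = s * (v i).1 + x * ((v (i + 1)).1 - (v i).1) + y * ((v (i + 1)).2 - (v i).2) := by
    rw [hwd]
    simp only [Complex.add_re, Complex.mul_re, Complex.mul_im, Complex.neg_re, Complex.neg_im,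
      Complex.I_re, Complex.I_im, Complex.ofReal_re, Complex.ofReal_im, drv, pt]
    ring
  have hi : w.im = s * (v i).2 + x * ((v (i + 1)).2 - (v i).2) - y * ((v (i + 1)).1 - (v i).1) := by
    rw [hwd]
    simp only [Complex.add_im, Complex.mul_re, Complex.mul_im, Complex.neg_re, Complex.neg_im,
      Complex.I_re, Complex.I_im, Complex.ofReal_re, Complex.ofReal_im, drv, pt]
    ring
  apply C.right i
  suffices h : q' = rc (v i) (v (i + 1)) from h ▸ hq'
  have e1 := C.step i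
  clear_value w
  generalize v i = a at *
  generalize v (i + 1) = b at *
  rcases e1 with ⟨e1, e2⟩ | ⟨e1, e2⟩ | ⟨e1, e2⟩ | ⟨e1, e2⟩
  · have f2 : rc a b = (a.1, a.2 - 1) := by unfold rc; ext <;> simp only <;> omega
    rw [f2]
    rw [e1, e2] at hr hi
    push_cast at hr hi
    refine open_cell ?_ ?_ ?_ ?_ hs hw' <;> simp only <;> push_cast <;> nlinarith
  · have f2 : rc a b = (a.1 - 1, a.2) := by unfold rc; ext <;> simp only <;> omega
    rw [f2]
    rw [e1, e2] at hr hi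
    push_cast at hr hi
    refine open_cell ?_ ?_ ?_ ?_ hs hw' <;> simp only <;> push_cast <;> nlinarith
  · have f2 : rc a b = (a.1, a.2) := by unfold rc; ext <;> simp only <;> omega
    rw [f2]
    rw [e1, e2] at hr hi
    push_cast at hr hi
    refine open_cell ?_ ?_ ?_ ?_ hs hw' <;> simp only <;> push_cast <;> nlinarith
  · have f2 : rc a b = (a.1 - 1, a.2 - 1) := by unfold rc; ext <;> simp only <;> omega
    rw [f2]
    rw [e1, e2] at hr hi
    push_cast at hr hi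
    refine open_cell ?_ ?_ ?_ ?_ hs hw' <;> simp only <;> push_cast <;> nlinarith


end walk

/-! ### half edges -/

/-- index set of the half edges -/
abbrev J (u : Poly) : Type := {a : ℕ // 2 * u.k 0 + 1 ≤ a ∧ a < 2 * u.k 0 + 1 + 2 * u.L}

/-- the step `u.v i → u.v (i + 1)` -/
def dr (u : Poly) (i : ℕ) : ℂ := drv u.v i

/-- the middle of the edge -/
def hM (u : Poly) (a : J u) : ℂ := u.mid (a.1 / 2)

/-- direction of the half edge, from the middle -/
def hw (u : Poly) (a : J u) : ℂ := if a.1 % 2 = 0 then -dr u (a.1 / 2) else dr u (a.1 / 2)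

/-- outward normal -/
def hnu (u : Poly) (a : J u) : ℂ := -(Complex.I * dr u (a.1 / 2))

/-- label -/
def hl (u : Poly) (a : J u) : Fin 3 :=
  if a.1 < 2 * u.k 1 + 1 then 0 else if a.1 < 2 * u.k 2 + 1 then 1 else 2

/-- the half edge -/
def he (s : ℝ) (M w : ℂ) : Set ℂ := {z | ∃ t : ℝ, 0 ≤ t ∧ t ≤ s / 2 ∧ z = M + (t : ℂ) * w}

variable {u : Poly}

theorem wn (a : J u) : ‖hw u a‖ = 1 := by
  unfold hw dr
  split_ifs
  · rw [norm_neg, norm_drv u.cyc]
  · rw [norm_drv u.cyc]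

theorem nu_iff (a : J u) : hnu u a = Complex.I * hw u a ∨ hnu u a = -Complex.I * hw u a := by
  unfold hnu hw
  split_ifs
  · left; ring
  · right; ring

/-- the points of the half edge, `a` even -/
theorem pt_even {a : J u} (h : a.1 % 2 = 0) (t : ℝ) :
    hM u a + (t : ℂ) * hw u a = bp u (a.1 / 2) (1 / 2 - t / u.s) := by
  have hs := u.s_pos.ne'
  unfold hM hw
  rw [if_pos h, mid_eq, bp, bp, show (1 / 2 - t / u.s : ℝ) = 1 / 2 + (-(t / u.s)) by ring, ep_mid]
  have : ((u.s * -(t / u.s) : ℝ) : ℂ) = -(t : ℂ) := by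
    rw [mul_neg, mul_div_cancel₀ _ hs]
    push_cast
    rfl
  rw [this]
  unfold dr
  ring

/-- the points of the half edge, `a` odd -/
theorem pt_odd {a : J u} (h : a.1 % 2 = 1) (t : ℝ) :
    hM u a + (t : ℂ) * hw u a = bp u (a.1 / 2) (1 / 2 + t / u.s) := by
  have hs := u.s_pos.ne'
  unfold hM hw
  rw [if_neg (by omega), mid_eq, bp, bp, ep_mid, mul_div_cancel₀ _ hs]
  rfl

theorem he_even {a : J u} (h : a.1 % 2 = 0) {z : ℂ} : z ∈ he u.s (hM u a) (hw u a) ↔
    ∃ t, 0 ≤ t ∧ t ≤ 1 / 2 ∧ z = bp u (a.1 / 2) t := by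
  have hs := u.s_pos
  constructor
  · rintro ⟨t, h0, h1, rfl⟩
    refine ⟨1 / 2 - t / u.s, ?_, ?_, pt_even h t⟩
    · rw [sub_nonneg, div_le_iff₀ hs]; linarith
    · have : 0 ≤ t / u.s := by positivity
      linarith
  · rintro ⟨t, h0, h1, rfl⟩
    refine ⟨u.s * (1 / 2 - t), by nlinarith, by nlinarith, ?_⟩
    rw [pt_even h, mul_div_cancel_left₀ _ hs.ne']
    congr 1
    ring

theorem he_odd {a : J u} (h : a.1 % 2 = 1) {z : ℂ} : z ∈ he u.s (hM u a) (hw u a) ↔
    ∃ t, 1 / 2 ≤ t ∧ t ≤ 1 ∧ z = bp u (a.1 / 2) t := by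
  have hs := u.s_pos
  constructor
  · rintro ⟨t, h0, h1, rfl⟩
    refine ⟨1 / 2 + t / u.s, ?_, ?_, pt_odd h t⟩
    · have : 0 ≤ t / u.s := by positivity
      linarith
    · have : t / u.s ≤ 1 / 2 := by
        rw [div_le_iff₀ hs]; linarith
      linarith
  · rintro ⟨t, h0, h1, rfl⟩
    refine ⟨u.s * (t - 1 / 2), by nlinarith, by nlinarith, ?_⟩
    rw [pt_odd h, mul_div_cancel_left₀ _ hs.ne']
    congr 1
    ring

/-- every point of a half edge in parameters -/
theorem he_param {a : J u} {z : ℂ} (hz : z ∈ he u.s (hM u a) (hw u a)) :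
    ∃ t, 0 ≤ t ∧ t ≤ 1 ∧ (a.1 % 2 = 0 → t ≤ 1 / 2) ∧ (a.1 % 2 = 1 → 1 / 2 ≤ t) ∧
      z = bp u (a.1 / 2) t := by
  rcases Nat.mod_two_eq_zero_or_one a.1 with h | h
  · obtain ⟨t, h0, h1, h2⟩ := (he_even h).1 hz
    exact ⟨t, h0, by linarith, fun _ => h1, fun h' => by omega, h2⟩
  · obtain ⟨t, h0, h1, h2⟩ := (he_odd h).1 hz
    exact ⟨t, by linarith, h1, fun h' => by omega, fun _ => h0, h2⟩

theorem fin3 (j : Fin 3) : j = 0 ∨ j = 1 ∨ j = 2 := by
  revert j
  decide

theorem k'_0 : u.k' 0 = u.k 1 := by simp [Poly.k']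

theorem k'_1 : u.k' 1 = u.k 2 := by simp [Poly.k']

theorem k'_2 : u.k' 2 = u.k 0 + u.L := by simp [Poly.k']

theorem hl_iff {a : J u} {j : Fin 3} : hl u a = j ↔ 2 * u.k j + 1 ≤ a.1 ∧ a.1 < 2 * u.k' j + 1 := by
  obtain ⟨a, ha1, ha2⟩ := a
  have h1 := u.k01
  have h2 := u.k12
  have h3 := u.k20
  have e01 : (0 : Fin 3) ≠ 1 := by decide
  have e02 : (0 : Fin 3) ≠ 2 := by decide
  have e12 : (1 : Fin 3) ≠ 2 := by decide
  unfold hl
  simp only
  rcases fin3 j with rfl | rfl | rfl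
  · rw [k'_0]
    split_ifs with c1 c2
    · exact ⟨fun _ => ⟨ha1, c1⟩, fun _ => rfl⟩
    · exact ⟨fun h => absurd h e01.symm, fun h => absurd h.2 c1⟩
    · exact ⟨fun h => absurd h e02.symm, fun h => absurd h.2 c1⟩
  · rw [k'_1]
    split_ifs with c1 c2
    · exact ⟨fun h => absurd h e01, fun h => by omega⟩
    · exact ⟨fun _ => by omega, fun _ => rfl⟩
    · exact ⟨fun h => absurd h e12.symm, fun h => by omega⟩
  · rw [k'_2]
    split_ifs with c1 c2
    · exact ⟨fun h => absurd h e02, fun h => by omega⟩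
    · exact ⟨fun h => absurd h e12, fun h => by omega⟩
    · exact ⟨fun _ => by omega, fun _ => rfl⟩

/-- range of the indices of the arcs -/
theorem k_range (j : Fin 3) : u.k 0 ≤ u.k j ∧ u.k' j ≤ u.k 0 + u.L := by
  have h1 := u.k01
  have h2 := u.k12
  have h3 := u.k20
  unfold Poly.k'
  fin_cases j <;> simp <;> omega

/-- **the arc is the union of its half edges** -/
theorem arc_he (j : Fin 3) : u.Arc j = ⋃ a ∈ {a : J u | hl u a = j}, he u.s (hM u a) (hw u a) := by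
  ext z
  simp only [Set.mem_iUnion, exists_prop, Set.mem_ofPred_eq]
  have hr := k_range (u := u) j
  have hk := k_lt (u := u) j
  constructor
  · intro hz
    obtain ⟨i, t, h0, h1, h2, h3, rfl⟩ := arc_iff.1 hz
    -- choice of the half
    have key0 : t ≤ 1 / 2 → u.k j + 1 ≤ i → i ≤ u.k' j → ∃ a : J u, hl u a = j ∧
        bp u i t ∈ he u.s (hM u a) (hw u a) := by
      intro ht c1 c2
      refine ⟨⟨2 * i, by omega, by omega⟩, hl_iff.2 ⟨by simp only; omega, by simp only; omega⟩, ?_⟩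
      rw [he_even (by simp)]
      have e : 2 * i / 2 = i := by omega
      simp only [e]
      exact ⟨t, h0, ht, rfl⟩
    have key1 : 1 / 2 ≤ t → u.k j ≤ i → i + 1 ≤ u.k' j → ∃ a : J u, hl u a = j ∧
        bp u i t ∈ he u.s (hM u a) (hw u a) := by
      intro ht c1 c2
      refine ⟨⟨2 * i + 1, by omega, by omega⟩,
        hl_iff.2 ⟨by simp only; omega, by simp only; omega⟩, ?_⟩
      have e0 : (2 * i + 1) % 2 = 1 := by omega
      rw [he_odd (by simpa using e0)]
      have e : (2 * i + 1) / 2 = i := by omega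
      simp only [e]
      exact ⟨t, ht, h1, rfl⟩
    rcases lt_trichotomy t (1 / 2) with ht | ht | ht
    · apply key0 ht.le
      · have : (u.k j : ℝ) < i := by linarith
        exact_mod_cast this
      · have : (i : ℝ) < u.k' j + 1 := by linarith
        have : i < u.k' j + 1 := by exact_mod_cast this
        omega
    · have c1 : u.k j ≤ i := by
        have : (u.k j : ℝ) ≤ i := by linarith
        exact_mod_cast this
      have c2 : i ≤ u.k' j := by
        have : (i : ℝ) ≤ u.k' j := by linarith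
        exact_mod_cast this
      by_cases c3 : i = u.k' j
      · exact key0 ht.le (by omega) c2
      · exact key1 ht.ge c1 (by omega)
    · apply key1 ht.le
      · have : (u.k j : ℝ) < i + 1 := by linarith
        have : u.k j < i + 1 := by exact_mod_cast this
        omega
      · have : (i : ℝ) < u.k' j := by linarith
        exact_mod_cast this
  · rintro ⟨a, ha, hz⟩
    obtain ⟨g1, g2⟩ := hl_iff.1 ha
    obtain ⟨t, h0, h1, h2, h3, rfl⟩ := he_param hz
    refine arc_iff.2 ⟨a.1 / 2, t, h0, h1, ?_, ?_, rfl⟩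
    · rcases Nat.mod_two_eq_zero_or_one a.1 with h | h
      · have : u.k j + 1 ≤ a.1 / 2 := by omega
        have : (u.k j : ℝ) + 1 ≤ ((a.1 / 2 : ℕ) : ℝ) := by exact_mod_cast this
        linarith
      · have : u.k j ≤ a.1 / 2 := by omega
        have : (u.k j : ℝ) ≤ ((a.1 / 2 : ℕ) : ℝ) := by exact_mod_cast this
        linarith [h3 h]
    · rcases Nat.mod_two_eq_zero_or_one a.1 with h | h
      · have : a.1 / 2 ≤ u.k' j := by omega
        have : ((a.1 / 2 : ℕ) : ℝ) ≤ (u.k' j : ℝ) := by exact_mod_cast this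
        linarith [h2 h]
      · have : a.1 / 2 + 1 ≤ u.k' j := by omega
        have : ((a.1 / 2 : ℕ) : ℝ) + 1 ≤ (u.k' j : ℝ) := by exact_mod_cast this
        linarith

/-- **fr** -/
theorem fr_he : frontier u.P = ⋃ a : J u, he u.s (hM u a) (hw u a) := by
  rw [frontier_arc]
  ext z
  simp only [Set.mem_iUnion, arc_he, exists_prop, Set.mem_ofPred_eq]
  exact ⟨fun ⟨_, a, _, h⟩ => ⟨a, h⟩, fun ⟨a, h⟩ => ⟨hl u a, a, rfl, h⟩⟩

theorem sub_le_norm {p q : ℂ} {r : ℝ} (h : r ≤ |p.re - q.re| ∨ r ≤ |p.im - q.im|) : r ≤ ‖p - q‖ := by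
  rcases h with h | h
  · have := Complex.abs_re_le_norm (p - q)
    rw [Complex.sub_re] at this
    linarith
  · have := Complex.abs_im_le_norm (p - q)
    rw [Complex.sub_im] at this
    linarith

/-- consecutive edges -/
theorem far_nb {a b : J u} (hl' : hl u a ≠ hl u b) (h : a.1 / 2 + 1 ≡ b.1 / 2 [MOD u.L]) {p q : ℂ}
    (hp : p ∈ he u.s (hM u a) (hw u a)) (hq : q ∈ he u.s (hM u b) (hw u b)) :
    u.s / 2 ≤ ‖p - q‖ := by
  obtain ⟨t, h0, h1, h2, h3, rfl⟩ := he_param hp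
  obtain ⟨t', h0', h1', h2', h3', rfl⟩ := he_param hq
  have C := u.cyc
  have hk : t ≤ 1 / 2 ∨ 1 / 2 ≤ t' := by
    rcases Nat.mod_two_eq_zero_or_one a.1 with ha | ha
    · exact Or.inl (h2 ha)
    rcases Nat.mod_two_eq_zero_or_one b.1 with hb | hb
    · exfalso
      obtain ⟨a, a1, a2⟩ := a
      obtain ⟨b, b1, b2⟩ := b
      simp only at ha hb h
      -- `b = a + 1`
      have e : b = a + 1 := by
        have h' : 2 * (a / 2 + 1) ≡ 2 * (b / 2) [MOD 2 * u.L] := h.mul_left' 2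
        have e1 : 2 * (a / 2 + 1) = a + 1 := by omega
        have e2 : 2 * (b / 2) = b := by omega
        rw [e1, e2] at h'
        have h5 := (Nat.modEq_iff_dvd.1 h')
        obtain ⟨c, hc⟩ := h5
        push_cast at hc
        have hL : (0 : ℤ) < u.L := by
          have := C.four_le
          exact_mod_cast (by omega : 0 < u.L)
        have hc0 : c = 0 := by
          by_contra hne
          rcases lt_or_gt_of_ne hne with g | g
          · have : 2 * (u.L : ℤ) * c ≤ 2 * (u.L : ℤ) * (-1) :=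
              mul_le_mul_of_nonneg_left (by omega) (by omega)
            omega
          · have : 2 * (u.L : ℤ) * 1 ≤ 2 * (u.L : ℤ) * c :=
              mul_le_mul_of_nonneg_left (by omega) (by omega)
            omega
        rw [hc0] at hc
        omega
      subst e
      apply hl'
      unfold hl
      simp only
      have g1 : a < 2 * u.k 1 + 1 ↔ a + 1 < 2 * u.k 1 + 1 := by omega
      have g2 : a < 2 * u.k 2 + 1 ↔ a + 1 < 2 * u.k 2 + 1 := by omega
      simp only [g1, g2]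
    · exact Or.inr (h3' hb)
  have h4 := nb_sep C u.s_pos (a.1 / 2) h1 h0' hk
  rw [ep_mod C h t'] at h4
  exact sub_le_norm h4

/-- **far** -/
theorem far_he {a b : J u} (hl' : hl u a ≠ hl u b) :
    (∀ p ∈ he u.s (hM u a) (hw u a), ∀ q ∈ he u.s (hM u b) (hw u b), u.s / 2 ≤ ‖p - q‖) ∨
    (hM u b = hM u a ∧ hw u b = -hw u a ∧ hnu u b = hnu u a) := by
  have C := u.cyc
  have hs := u.s_pos
  by_cases c0 : a.1 / 2 ≡ b.1 / 2 [MOD u.L]
  · right
    have e1 : hM u b = hM u a := by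
      unfold hM
      rw [mid_eq, mid_eq]
      exact (ep_mod C c0 _).symm
    have e2 : dr u (b.1 / 2) = dr u (a.1 / 2) := (drv_mod C c0).symm
    refine ⟨e1, ?_, by unfold hnu; rw [e2]⟩
    have hpar : a.1 % 2 ≠ b.1 % 2 := by
      intro hp
      apply hl'
      have : a = b := by
        obtain ⟨a, a1, a2⟩ := a
        obtain ⟨b, b1, b2⟩ := b
        simp only at c0 hp
        have h' : 2 * (a / 2) ≡ 2 * (b / 2) [MOD 2 * u.L] := c0.mul_left' 2
        have h5 := (Nat.modEq_iff_dvd.1 h')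
        obtain ⟨c, hc⟩ := h5
        have hL : (0 : ℤ) < u.L := by
          have := C.four_le
          exact_mod_cast (by omega : 0 < u.L)
        have e3 : ((2 * (b / 2) : ℕ) : ℤ) - ((2 * (a / 2) : ℕ) : ℤ) = (b : ℤ) - a := by omega
        rw [e3] at hc
        push_cast at hc
        have hc0 : c = 0 := by
          by_contra hne
          rcases lt_or_gt_of_ne hne with g | g
          · have : 2 * (u.L : ℤ) * c ≤ 2 * (u.L : ℤ) * (-1) :=
              mul_le_mul_of_nonneg_left (by omega) (by omega)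
            omega
          · have : 2 * (u.L : ℤ) * 1 ≤ 2 * (u.L : ℤ) * c :=
              mul_le_mul_of_nonneg_left (by omega) (by omega)
            omega
        rw [hc0] at hc
        have : a = b := by omega
        subst this
        rfl
      rw [this]
    unfold hw
    rw [e2]
    rcases Nat.mod_two_eq_zero_or_one a.1 with ha | ha
    · rw [if_neg (show ¬ b.1 % 2 = 0 by omega), if_pos ha, neg_neg]
    · rw [if_pos (show b.1 % 2 = 0 by omega), if_neg (show ¬ a.1 % 2 = 0 by omega)]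
  · left
    intro p hp q hq
    by_cases c1 : a.1 / 2 + 1 ≡ b.1 / 2 [MOD u.L]
    · exact far_nb hl' c1 hp hq
    by_cases c2 : b.1 / 2 + 1 ≡ a.1 / 2 [MOD u.L]
    · rw [norm_sub_rev]
      exact far_nb (Ne.symm hl') c2 hq hp
    by_contra hcon
    push Not at hcon
    obtain ⟨t, h0, h1, -, -, rfl⟩ := he_param hp
    obtain ⟨t', h0', h1', -, -, rfl⟩ := he_param hq
    have g1 := Complex.abs_re_le_norm (bp u (a.1 / 2) t - bp u (b.1 / 2) t')
    have g2 := Complex.abs_im_le_norm (bp u (a.1 / 2) t - bp u (b.1 / 2) t')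
    rw [Complex.sub_re] at g1
    rw [Complex.sub_im] at g2
    rcases ep_sep C hs h0 h1 h0' h1' (by linarith) (by linarith) with h | h | h
    · exact c0 h
    · exact c1 h
    · exact c2 h.symm


theorem notMem_congr {x y : ℂ} (h : x ∉ Pg u.s (cells (u.U : Set Bk))) (e : y = x) : y ∉ u.P :=
  e ▸ h

/-- **col** : the open outer unit cell -/
theorem col_he (a : J u) {t y : ℝ} (h0 : 0 ≤ t) (h1 : t < u.s / 2) (y0 : 0 < y) (y1 : y < u.s) :
    hM u a + (t : ℂ) * hw u a + (y : ℂ) * hnu u a ∉ u.P := by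
  have hs := u.s_pos
  have hmid : hM u a = pt u.s (u.v (a.1 / 2)) + ((u.s / 2 : ℝ) : ℂ) * dr u (a.1 / 2) := by
    unfold hM dr
    rw [mid_eq, bp, ← ep_zero]
    have := ep_mid (s := u.s) (v := u.v) (a.1 / 2) (-(1 / 2))
    rw [show (1 / 2 + -(1 / 2) : ℝ) = 0 by norm_num] at this
    rw [this]
    push_cast
    ring
  rcases Nat.mod_two_eq_zero_or_one a.1 with ha | ha
  · have := outer_open u.cyc hs (a.1 / 2) (x := u.s / 2 - t) (y := y) (by linarith) (by linarith)
      y0 y1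
    rw [hmid]
    unfold hw hnu dr
    rw [if_pos ha]
    refine notMem_congr this ?_
    push_cast
    ring
  · have := outer_open u.cyc hs (a.1 / 2) (x := u.s / 2 + t) (y := y) (by linarith) (by linarith)
      y0 y1
    rw [hmid]
    unfold hw hnu dr
    rw [if_neg (by omega)]
    refine notMem_congr this ?_
    push_cast
    ring


end Crest.Agent.R143.HEx571
end
end

-- ▼ part R143/HEP_571
section

/-!
# Row 143, R10: `he_poly`, the structure `HE` of helper969 for the frozen index `Poly` (helper571)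

* `lz u a` : label of the half edge `a` in `ZMod 3`
* **`he_poly`** : `HE u.P u.s (hM u) (hw u) (hnu u) (lz u)`
* `arc_eq`, `near_arc`, `lab_occ` : the arcs, the nearest arc, every label occurs
* `mk_mark`, `exists_mk` : the marked half edges are the ones of the edges `k j`
-/

set_option autoImplicit false

noncomputable section

open scoped Classical

namespace Crest.Agent.R143.HEPx571

open Set
open Crest.Agent.R158.Sp896
open Crest.Agent.R143.PolyUx346
open Crest.Agent.R143.ArcPx571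
open Crest.Agent.R143.UKG5x571
open Crest.Agent.R143.HEx571
open Crest.Agent.R143.UKCx969 (HE Mk Arc)

variable {u : Poly}

/-- label of the half edge -/
def lz (u : Poly) (a : J u) : ZMod 3 := ((hl u a : ℕ) : ZMod 3)

theorem cast_inj {i j : Fin 3} (h : ((i : ℕ) : ZMod 3) = ((j : ℕ) : ZMod 3)) : i = j := by
  revert i j
  decide

theorem cast_surj (i : ZMod 3) : ∃ j : Fin 3, ((j : ℕ) : ZMod 3) = i := by
  revert i
  decide

/-- **the polygon of `u` by half edges** -/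
theorem he_poly (u : Poly) : HE u.P u.s (hM u) (hw u) (hnu u) (lz u) where
  wn := wn
  nu := nu_iff
  fr := fr_he
  col := fun a t y h0 h1 y0 y1 => col_he a h0 h1 y0 (by linarith [u.s_pos])
  far := fun a b h => far_he fun e => h (by unfold lz; rw [e])

theorem mk_iff {a : J u} : Mk (hM u) (lz u) a ↔ ∃ b, hl u b ≠ hl u a ∧ hM u b = hM u a := by
  constructor
  · rintro ⟨b, h1, h2⟩
    exact ⟨b, fun e => h1 (by unfold lz; rw [e]), h2⟩
  · rintro ⟨b, h1, h2⟩
    exact ⟨b, fun e => h1 (cast_inj e), h2⟩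

/-- the middle of a half edge is on its arc -/
theorem mid_mem (a : J u) : hM u a ∈ he u.s (hM u a) (hw u a) :=
  ⟨0, le_rfl, by have := u.s_pos; positivity, by simp⟩

theorem he_arc {a : J u} {z : ℂ} (hz : z ∈ he u.s (hM u a) (hw u a)) : z ∈ u.Arc (hl u a) := by
  rw [arc_he]
  simp only [Set.mem_iUnion, exists_prop]
  exact ⟨a, rfl, hz⟩

/-- **a marked half edge starts at a mark** -/
theorem mk_mark {a : J u} (h : Mk (hM u) (lz u) a) : ∃ j : Fin 3, hM u a = u.mid (u.k j) := by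
  obtain ⟨b, h1, h2⟩ := mk_iff.1 h
  have h3 : hM u a ∈ u.Arc (hl u a) := he_arc (mid_mem a)
  have h4 : hM u a ∈ u.Arc (hl u b) := by
    rw [← h2]
    exact he_arc (mid_mem b)
  have hs := u.s_pos
  obtain ⟨l, hl'⟩ := arc_sep (Ne.symm h1) h3 h4 (by simpa using hs) (by simpa using hs)
  refine ⟨l, ?_⟩
  rw [segment_same] at hl'
  exact hl'.symm

/-- every mark is the start of two marked half edges -/
theorem exists_mk (j : Fin 3) : ∃ a : J u, Mk (hM u) (lz u) a ∧ hl u a = j ∧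
    hM u a = u.mid (u.k j) := by
  have h1 := u.k01
  have h2 := u.k12
  have h3 := u.k20
  have hr := k_range (u := u) j
  have hk := k_lt (u := u) j
  have ea : (2 * u.k j + 1) / 2 = u.k j := by omega
  set a : J u := ⟨2 * u.k j + 1, by omega, by omega⟩ with hadef
  have hla : hl u a = j := hl_iff.2 ⟨by simp only [hadef]; omega, by simp only [hadef]; omega⟩
  have hMa : hM u a = u.mid (u.k j) := by
    unfold hM
    rw [hadef]
    simp only [ea]
  refine ⟨a, mk_iff.2 ?_, hla, hMa⟩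
  rcases fin3 j with rfl | rfl | rfl
  · have eb : (2 * (u.k 0 + u.L)) / 2 = u.k 0 + u.L := by omega
    have hL := u.cyc.four_le
    refine ⟨⟨2 * (u.k 0 + u.L), by omega, by omega⟩, ?_, ?_⟩
    · rw [hla]
      have : hl u ⟨2 * (u.k 0 + u.L), by omega, by omega⟩ = 2 :=
        hl_iff.2 ⟨by simp only; omega, by rw [k'_2]; simp only; omega⟩
      rw [this]
      decide
    · rw [hMa]
      unfold hM
      simp only [eb]
      rw [mid_eq, mid_eq]
      exact ep_mod u.cyc (by unfold Nat.ModEq; simp) _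
  · have eb : (2 * u.k 1) / 2 = u.k 1 := by omega
    refine ⟨⟨2 * u.k 1, by omega, by omega⟩, ?_, ?_⟩
    · rw [hla]
      have : hl u ⟨2 * u.k 1, by omega, by omega⟩ = 0 :=
        hl_iff.2 ⟨by simp only; omega, by rw [k'_0]; simp only; omega⟩
      rw [this]
      decide
    · rw [hMa]
      unfold hM
      simp only [eb]
  · have eb : (2 * u.k 2) / 2 = u.k 2 := by omega
    refine ⟨⟨2 * u.k 2, by omega, by omega⟩, ?_, ?_⟩
    · rw [hla]
      have : hl u ⟨2 * u.k 2, by omega, by omega⟩ = 1 :=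
        hl_iff.2 ⟨by simp only; omega, by rw [k'_1]; simp only; omega⟩
      rw [this]
      decide
    · rw [hMa]
      unfold hM
      simp only [eb]


/-- the arc of helper969 is the arc of `u` -/
theorem arc_eq (j : Fin 3) : Arc u.s (hM u) (hw u) (lz u) ((j : ℕ) : ZMod 3) = u.Arc j := by
  ext z
  rw [UKCx969.mem_arc, arc_he]
  simp only [Set.mem_iUnion, exists_prop]
  constructor
  · rintro ⟨a, h1, h2⟩
    exact ⟨a, cast_inj h1, h2⟩
  · rintro ⟨a, h1, h2⟩
    have h1' : hl u a = j := h1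
    exact ⟨a, by unfold lz; rw [h1'], h2⟩

/-- the label is a nearest arc -/
theorem near_arc (x : ℂ) (i : ZMod 3) :
    Metric.infDist x (Arc u.s (hM u) (hw u) (lz u) (u.Lab x)) ≤
      Metric.infDist x (Arc u.s (hM u) (hw u) (lz u) i) := by
  obtain ⟨j, h1, h2, -⟩ := Poly.near_lab (u := u) x
  obtain ⟨i, rfl⟩ := cast_surj i
  rw [h2, arc_eq, arc_eq]
  exact h1 i

/-- every label occurs -/
theorem lab_occ (i : ZMod 3) : ∃ a, lz u a = i := by
  obtain ⟨j, rfl⟩ := cast_surj i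
  obtain ⟨a, -, h, -⟩ := exists_mk (u := u) j
  exact ⟨a, by unfold lz; rw [h]⟩

end Crest.Agent.R143.HEPx571
end
end

-- ▼ part R143/DelS_806
section

/-!
# Row 143, block G, leaf G4: SHELLING of the Delaunay triangulation from a point `x` (helper806)

The triangles sorted by the power of `x`: every new triangle is glued along one side (SPLIT) or along
two consecutive sides (MERGE).  The boundary of the union is a cyclic list of sites with lifted
directions seen from `x`, increasing, total turning `2π` (star-shaped).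

* `cyc`, `edg`, `Star x L` : cyclic lists with lifted directions
* `ShStep S x (D, L) (D', L')` : rotation of the list, SPLIT, MERGE (always at the head of the list)
* `Stage S x D L` : `D` = set of triangles closed downwards in the power order, `L` = its boundary
* `stage_step`  : a stage which is not complete has a next stage
* `shelling`    : every stage leads to the complete triangulation by steps
* `stage_tri`   : first stage, `x` in an open triangle
* `stage_star`  : first stage, `x = v` a site which is not on the hull (ring of `v`)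
-/

set_option autoImplicit false

noncomputable section

open scoped Classical

namespace Crest.Agent.R143.DelSx806

open Crest.Agent.R143.B0x346 Crest.Agent.R143.DelGx806 Crest.Agent.R143.DelRx806

/-! ### cyclic lists with lifted directions -/

/-- one turn further -/
def shift (p : ℂ × ℝ) : ℂ × ℝ := (p.1, p.2 + 2 * Real.pi)

/-- the list closed up -/
def cyc : List (ℂ × ℝ) → List (ℂ × ℝ)
  | [] => []
  | p :: M => p :: (M ++ [shift p])

/-- consecutive pairs -/
def edg : List (ℂ × ℝ) → List (ℂ × ℂ)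
  | [] => []
  | [_] => []
  | p :: q :: M => (p.1, q.1) :: edg (q :: M)

@[simp] theorem edg_cons_cons (p q : ℂ × ℝ) (M : List (ℂ × ℝ)) :
    edg (p :: q :: M) = (p.1, q.1) :: edg (q :: M) := rfl

@[simp] theorem edg_single (p : ℂ × ℝ) : edg [p] = [] := rfl




/-- the next point in the ring: less than half a turn -/
def Nx (p q : ℂ × ℝ) : Prop := p.2 < q.2 ∧ q.2 < p.2 + Real.pi

/-- `c` is in the direction `θ`, seen from `x` -/
def Dir (x c : ℂ) (θ : ℝ) : Prop := ∃ r : ℝ, 0 < r ∧ c - x = (r : ℂ) * Complex.exp (θ * Complex.I)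

theorem Dir.shift {x c : ℂ} {θ : ℝ} (h : Dir x c θ) : Dir x c (θ + 2 * Real.pi) := by
  obtain ⟨r, hr, h⟩ := h
  refine ⟨r, hr, ?_⟩
  rw [h]
  congr 1
  push_cast
  rw [add_mul, Complex.exp_add]
  simp [Complex.exp_two_pi_mul_I]

theorem Dir.cr {x c c' : ℂ} {θ θ' : ℝ} (h : Dir x c θ) (h' : Dir x c' θ') :
    ∃ k : ℝ, 0 < k ∧ cr (c - x) (c' - x) = k * Real.sin (θ' - θ) := by
  obtain ⟨r, hr, h⟩ := h
  obtain ⟨r', hr', h'⟩ := h'
  refine ⟨r * r', by positivity, ?_⟩
  rw [h, h', Real.sin_sub]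
  unfold B0x346.cr
  simp only [Complex.mul_re, Complex.mul_im, Complex.ofReal_re, Complex.ofReal_im,
    Complex.exp_ofReal_mul_I_re, Complex.exp_ofReal_mul_I_im]
  ring



/-- a star-shaped ring around `x` -/
structure Star (x : ℂ) (L : List (ℂ × ℝ)) : Prop where
  ne : L ≠ []
  dir : ∀ p ∈ L, Dir x p.1 p.2
  chain : List.IsChain Nx (cyc L)




/-! ### steps -/

/-- the rotations of an oriented triangle -/
def rotF (t : ℂ × ℂ × ℂ) : Finset (ℂ × ℂ × ℂ) := {t, (t.2.1, t.2.2, t.1), (t.2.2, t.1, t.2.1)}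

/-- **steps of the shelling**: rotation of the list, SPLIT, MERGE -/
inductive ShStep (S : Finset ℂ) (x : ℂ) : Finset (ℂ × ℂ × ℂ) × List (ℂ × ℝ) →
    Finset (ℂ × ℂ × ℂ) × List (ℂ × ℝ) → Prop
  | rot (D : Finset (ℂ × ℂ × ℂ)) (p : ℂ × ℝ) (M : List (ℂ × ℝ)) :
      ShStep S x (D, p :: M) (D, M ++ [shift p])
  | split (D : Finset (ℂ × ℂ × ℂ)) (B : List (ℂ × ℝ)) (a b c : ℂ) (θa θb θc : ℝ)
      (ht : (a, b, c) ∈ delT S) (hD : (a, b, c) ∉ D) (hs : splitAt x a b c) (h1 : θb < θc)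
      (h2 : θc < θa) (hc : Dir x c θc) :
      ShStep S x (D, (b, θb) :: (a, θa) :: B)
        (D ∪ rotF (a, b, c), (b, θb) :: (c, θc) :: (a, θa) :: B)
  | merge (D : Finset (ℂ × ℂ × ℂ)) (B : List (ℂ × ℝ)) (a b c : ℂ) (θa θb θc : ℝ)
      (ht : (a, b, c) ∈ delT S) (hD : (a, b, c) ∉ D) (hm : mergeAt x a b c) :
      ShStep S x (D, (c, θc) :: (b, θb) :: (a, θa) :: B)
        (D ∪ rotF (a, b, c), (c, θc) :: (a, θa) :: B)

/-- **stage**: `D` is closed downwards in the power order, `L` is its boundary -/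
structure Stage (S : Finset ℂ) (x : ℂ) (D : Finset (ℂ × ℂ × ℂ)) (L : List (ℂ × ℝ)) : Prop where
  sub : D ⊆ delT S
  rot : ∀ a b c, (a, b, c) ∈ D → (b, c, a) ∈ D
  down : ∀ a b c o a' b' c' o', Tri S a b c o → (a', b', c') ∈ D → Tri S a' b' c' o' →
    pw o a x < pw o' a' x → (a, b, c) ∈ D
  vert : ∀ b c, (x, b, c) ∈ delT S → (x, b, c) ∈ D
  inn : ∃ a b c, (a, b, c) ∈ D ∧ InT x a b c
  star : Star x L
  edge : ∀ a b, ((∃ c, (a, b, c) ∈ D) ∧ ∀ c, (b, a, c) ∉ D) ↔ (a, b) ∈ edg (cyc L)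

section steps

variable {S : Finset ℂ} {x : ℂ} {D : Finset (ℂ × ℂ × ℂ)} {L : List (ℂ × ℝ)}

theorem Nx.shift {p q : ℂ × ℝ} (h : Nx p q) : Nx (shift p) (shift q) := by
  unfold Nx DelSx806.shift at *
  constructor
  · dsimp only; linarith [h.1]
  · dsimp only; linarith [h.2]





/-! ### visible and invisible sides -/

/-- `x` is on no line through two other sites -/
def Gen (S : Finset ℂ) (x : ℂ) : Prop :=
  ∀ a ∈ S, ∀ b ∈ S, a ≠ b → a ≠ x → b ≠ x → cr (b - a) (x - a) ≠ 0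












/-- the boundary of the last stage is the hull -/
theorem Stage.hull (h : Stage S x (delT S) L) (a b : ℂ) : hullE S a b ↔ (a, b) ∈ edg (cyc L) :=
  h.edge a b

end steps

end Crest.Agent.R143.DelSx806
end
namespace Crest.Agent.R143.DelSx806.Star
end Crest.Agent.R143.DelSx806.Star
end

-- ▼ part R143/DelS2_806
section

/-!
# Row 143, block G, leaf G4: the first stages of the shelling (helper806)

* `stage_tri`  : `x` in an open Delaunay triangle `(a, b, c)`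
* `stage_star` : `x = v` a site which is not on the hull, `D` = all the triangles at `v`, the ring
  with lifted directions `th`
* `shell_tri`, `shell_star` : the whole shelling from there
-/

set_option autoImplicit false

noncomputable section

open scoped Classical

namespace Crest.Agent.R143.DelSx806

open Crest.Agent.R143.B0x346 Crest.Agent.R143.DelGx806 Crest.Agent.R143.DelRx806

variable {S : Finset ℂ}


theorem three_le {a b c o : ℂ} (h : Tri S a b c o) : 3 ≤ S.card := by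
  obtain ⟨d1, d2, d3⟩ := h.ne
  have h1 : ({a, b, c} : Finset ℂ).card = 3 := Finset.card_eq_three.2 ⟨a, b, c, d1, d3, d2, rfl⟩
  rw [← h1]
  refine Finset.card_le_card ?_
  intro s hs
  simp only [Finset.mem_insert, Finset.mem_singleton] at hs
  rcases hs with rfl | rfl | rfl
  · exact h.ma
  · exact h.mb
  · exact h.mc





/-! ### the star of a site -/








end Crest.Agent.R143.DelSx806
end
end

-- ▼ part R143/UKU_969
section

/-!
# Row 143 (S0194), box R10g for 346's `Poly`: classes `A'` of the polygon from the giants of `U_K`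
(helper969)

* **`uku`** : giants `A` (root version), at distance `≥ h / 2` from `u.P`, stems near every point of
  the boundary ⟹ classes `A'` with `ff S A' = Vin S u.P √ε`, labels `u.Lab` off the marks, thin `15 h`
  (all fields of 930's `UO` / 923's `Out` except the visibility of `A'`)
* **`uo_poly`** : the same with 930's structure `UO`
-/

set_option autoImplicit false

noncomputable section

open scoped Classical

namespace Crest.Agent.R143.UKUx969

open Set
open Crest.ProbabilityR.Voronoi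
open Crest.Agent.R143.B0x346 Crest.Agent.R143.DelGx806 Crest.Agent.R143.DelRx806
  Crest.Agent.R143.JColx54 Crest.Agent.R143.RE0x723
open Crest.Agent.R143.K33x877
open Crest.Agent.R143.Locx922 (Hol)
open Crest.Agent.R143.UKx969 (Deep Con)
open Crest.Agent.R143.UKCx969
open Crest.Agent.R143.PolyUx346 Crest.Agent.R143.NetUx346 Crest.Agent.R143.NetVx346
open Crest.Agent.R143.HEx571 (J hM hw hnu hl)
open Crest.Agent.R143.HEPx571 (lz he_poly near_arc lab_occ mk_mark exists_mk)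
open Crest.Agent.R143.GateKx421 (Thin)

variable {u : Poly}

theorem P_closed (u : Poly) : IsClosed u.P := Cdx806.Pg_closed u.s_pos _

variable {S : Finset ℂ} {A : ZMod 3 → Set ℂ} {o : ℂ × ℂ × ℂ} {l0 : ZMod 3} {h ε : ℝ}

/-- three sites -/
theorem card3 (hR : TrR S o l0 A) : 3 ≤ S.card := by
  obtain ⟨⟨a, b, c⟩, hc⟩ : ∃ x, x = o := ⟨o, rfl⟩
  have h := hR.root.1
  rw [← hc, mem_delT_iff] at h
  obtain ⟨c', h'⟩ := h
  exact DelSx806.three_le h'

/-- **GEOMETRIC HALF OF CONT FOR `U_K`, `u : Poly`** -/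
theorem uku (u : Poly) (hR : TrR S o l0 A)
    (hgap : ∀ l, ∀ s ∈ A l, ∀ z ∈ u.P, h / 2 ≤ ‖s - z‖) (hε : 0 < √ε) (hεh : 5000 * √ε ≤ h)
    (hhs : 40 * h ≤ u.s) (hH : Hol (S : Set ℂ) u.P √ε)
    (hcov : ∀ p ∈ frontier u.P, ∀ z, ‖z - p‖ ≤ 20 * h → ∃ s' ∈ S, ‖s' - z‖ < √ε)
    (hst : ∀ (a : J u) (t : ℝ), 0 ≤ t → t ≤ u.s / 2 → ∃ (t' : ℝ) (b : ℂ) (E : Set ℂ),
      |t' - t| ≤ 10 * h ∧ h ≤ t' ∧ t' ≤ u.s / 2 - h ∧ (Mk (hM u) (lz u) a → 3 * h ≤ t') ∧
      Stem S A h √ε (lz u a) (hM u a + t' * hw u a) (hnu u a) b E) :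
    ∃ A' : ZMod 3 → Set ℂ, Cls S A' ∧ (∀ i, A i ⊆ A' i) ∧ ff S A' = Vin S u.P √ε ∧
      (∀ l, Thin S A A' l (15 * h)) ∧
      (∀ x, Stabx930.Nxt S (Vin S u.P √ε) x → (∀ k : Fin 3, 8 * √ε < ‖x - u.mid (u.k k)‖) →
        ∀ j, (x ∈ A' j ↔ x ∈ Bl S (Vin S u.P √ε) u.Lab j)) ∧
      (∀ k : Fin 3, ∃ f, ∀ x, Stabx930.Nxt S (Vin S u.P √ε) x → x ∉ Vin S u.P √ε →
        (x ∈ A' f ∨ u.Lab x = f) → u.s / 4 < ‖x - u.mid (u.k k)‖) := by
  have hh : 0 < h := by linarith
  have hcl := P_closed u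
  have hfr : frontier u.P ⊆ u.P := hcl.frontier_subset
  have hD : Deep S (Vin S u.P √ε) u.P √ε := fun s => by
    unfold Vin
    rw [Finset.mem_filter]
  have hAV : ∀ i, ∀ x ∈ A i, x ∉ Vin S u.P √ε := by
    intro i x hx hV
    have h1 : x ∈ u.P := ((hD x).1 hV).2 (Metric.mem_closedBall_self (by linarith))
    have h2 := hgap i x hx x h1
    rw [sub_self, norm_zero] at h2
    linarith
  obtain ⟨A', c1, c2, c3, c4, c5, c6⟩ := ukP (he_poly u) hR.gp (card3 hR) hR.toCls hAV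
    (by obtain ⟨v, -, hv⟩ := hR.root.2 0; exact ⟨0, v, hv⟩) hD hε hεh hhs hH hcov
    (OutPx571.compl_P u) (fun j z hz p hp => hgap j z hz p (hfr hp))
    (fun a t h0 h1 _ => hst a t h0 h1) (lab_occ (u := u)) (near_arc (u := u))
  refine ⟨A', c1, c2, c3, ?_, ?_, ?_⟩
  · intro l x hx hn
    have hxV : x ∉ Vin S u.P √ε := fun hV => by
      rw [← c3, mem_ff] at hV
      exact hV.2 l hx
    obtain ⟨v, hv, ha⟩ := hn
    have hv' : v ∈ Vin S u.P √ε := by
      rw [← c3, mem_ff]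
      exact hv
    exact c6 l x hx ⟨Finset.mem_coe.1 (c1.sub l hx), hxV, v, hv', ha⟩
  · intro x hx hk
    refine c4 x hx fun a ha => ?_
    obtain ⟨k, e⟩ := mk_mark ha
    rw [e]
    exact hk k
  · intro k
    obtain ⟨a, ha, -, e⟩ := exists_mk (u := u) k
    obtain ⟨f, hf⟩ := c5 a ha
    refine ⟨f, fun x hx hxV hxf => ?_⟩
    rw [← e]
    refine hf x hx (hxf.imp id fun h => ?_)
    obtain ⟨v, hv, hva⟩ := hx
    exact ⟨hva.mem.2, hxV, ⟨v, hv, hva.symm⟩, h⟩

/-- the three marks -/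
def mkz (u : Poly) (k : ZMod 3) : ℂ := u.mid (u.k k)

/-- **930's structure `UO`** -/
theorem uo_poly (u : Poly) (hR : TrR S o l0 A) (hneg : Hexx877.NegO A o)
    (hgap : ∀ l, ∀ s ∈ A l, ∀ z ∈ u.P, h / 2 ≤ ‖s - z‖) (hε : 0 < √ε) (hεh : 5000 * √ε ≤ h)
    (hhs : 40 * h ≤ u.s) (hH : Hol (S : Set ℂ) u.P √ε)
    (hcov : ∀ p ∈ frontier u.P, ∀ z, ‖z - p‖ ≤ 20 * h → ∃ s' ∈ S, ‖s' - z‖ < √ε)
    (hst : ∀ (a : J u) (t : ℝ), 0 ≤ t → t ≤ u.s / 2 → ∃ (t' : ℝ) (b : ℂ) (E : Set ℂ),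
      |t' - t| ≤ 10 * h ∧ h ≤ t' ∧ t' ≤ u.s / 2 - h ∧ (Mk (hM u) (lz u) a → 3 * h ≤ t') ∧
      Stem S A h √ε (lz u a) (hM u a + t' * hw u a) (hnu u a) b E)
    {R1 d ρ D : ℝ} (hreg : ∀ w ∈ fr S A, ‖w‖ + 2 * √ε ≤ R1) (hd : 16 * h ≤ d) (hρ : h ≤ ρ)
    (hρD : 100 * ρ ≤ D) (hD : D ≤ u.s / 4) (hmk : ∀ k, ‖mkz u k‖ ≤ R1) :
    ∃ A' : ZMod 3 → Set ℂ,
      R10Gx930.UO S A A' o l0 u.P u.Lab (mkz u) R1 h D ε (15 * h) d ρ := by
  have hh : 0 < h := by linarith
  obtain ⟨A', c1, c2, c3, c4, c5, c6⟩ := uku u hR hgap hε hεh hhs hH hcov hst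
  have hlab : ∀ x, Stabx930.Nxt S (Vin S u.P √ε) x → (∀ l : Fin 3, 8 * √ε < ‖x - u.mid (u.k l)‖) →
      ∀ j, x ∈ A' j → u.Lab x = j := fun x hx hk j hj => ((c5 x hx hk j).1 hj).2.2.2
  refine ⟨A', ⟨hR, hneg, c1, c2, c3, ?_, hreg, by linarith, c4, by linarith, by linarith, hρ, hρD,
    hmk, ?_, ?_⟩⟩
  · exact VisPx930.vis_poly u hR.gp (card3 hR) hε (fun z hz => by
      obtain ⟨s, hs, h1⟩ := hH z hz z (by rw [sub_self, norm_zero]; linarith)
      exact ⟨s, hs, h1⟩) (by linarith) (by linarith) c3 hlab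
  · intro x hx hk j hj
    exact hlab x hx (fun l => by have := hk l; show 8 * √ε < ‖x - mkz u l‖; linarith) j hj
  · intro k
    obtain ⟨f, hf⟩ := c6 k
    exact ⟨f, fun x hx hxV hxf => lt_of_le_of_lt hD (hf x hx hxV hxf)⟩

end Crest.Agent.R143.UKUx969
end
end

-- ▼ part R143/GateL_845
section

/-!
# Row 143 (S0194), box R10g, polygon side: GATE LINK (helper845)

For `LayU u m M p W A e` (416), `m h = u.s`, `30 ≤ m`: every half edge `a` of 571's `HE_571`
(`hM u a + t (hw u a)`, `0 ≤ t ≤ u.s / 2`, label `hl u a`) has for every `t` a straight gate `g` of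
the same label at distance `≤ 9 h`:
* `Use` of 923: `A k + 6 ≤ g ≤ A (k+1) - 6`, three tiles from the mark gates
* foot `gz h W g - h * I * ge W g = hM u a + t' * hw u a`, normal `I * ge W g = hnu u a`
* `6 h ≤ t' ≤ u.s / 2 - 7 h`
-/

set_option autoImplicit false

noncomputable section

open scoped Classical

namespace Crest.Agent.R143.GateLx845

open Crest.Agent.R143.TileRx228 (U4 FPath cen gz ge RR cz norm_cz cz_ne)
open Crest.Agent.R143.LayQx811
open Crest.Agent.R143.Layx416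
open Crest.Agent.R143.LayUx416
open Crest.Agent.R143.PolyUx346
open Crest.Agent.R143.HEx571
open Crest.Agent.R143.Finex422 (Fine Cl Un ro)
open Crest.Agent.R143.Brkx478 (Bk cells Conn)
open Crest.Agent.R158.Sp896 (V pt ed Cyc)

/-! ### exact positions -/

section fine

variable {F : Set V} {n : ℕ} {m : ℤ} {p : ℤ → V} {M : ℕ} {W : ℤ → V} {A : ℤ → ℤ}

/-- **exact position along the coarse edge `k`** -/
theorem exact' (H : Fine F n m p M W A) (k : ℤ) : ∃ t0 : ℤ, (-1 ≤ t0 ∧ t0 ≤ 1) ∧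
    (m - 1 ≤ t0 + (A (k + 1) - A k) ∧ t0 + (A (k + 1) - A k) ≤ m + 1) ∧
    ∀ a, A k ≤ a → a ≤ A (k + 1) →
      W a = m • p k + ro (p (k + 1) - p k) + (t0 + (a - A k)) • (p (k + 1) - p k) := by
  have hlt := H.Alt k (k + 1) (by omega)
  obtain ⟨t0, -, -, h0⟩ := H.exact k (A k) le_rfl hlt.le
  have key : ∀ a, A k ≤ a → a ≤ A (k + 1) →
      W a = m • p k + ro (p (k + 1) - p k) + (t0 + (a - A k)) • (p (k + 1) - p k) := by
    intro a h1 h2
    rw [H.seg k a h1 h2, h0, add_smul t0]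
    abel
  have e1 := key (A (k + 1)) hlt.le le_rfl
  obtain ⟨v1, v2⟩ := H.vert k
  obtain ⟨v3, v4⟩ := H.vert (k + 1)
  have hd : Un (p (k + 1) - p k) := Finex422.adj_un (H.cl.step k)
  obtain ⟨D, hD⟩ : ∃ D, D = p (k + 1) - p k := ⟨_, rfl⟩
  have hp : p (k + 1) = p k + D := by rw [hD]; abel
  rw [h0] at v1 v2
  rw [e1] at v3 v4
  rw [hp] at v3 v4
  rw [← hD] at hd v1 v2
  have hD' : p k + D - p k = D := by abel
  rw [hD'] at v3 v4
  refine ⟨t0, ?_, ?_, key⟩
  · simp only [Prod.fst_add, Prod.snd_add, Prod.smul_fst, Prod.smul_snd, smul_eq_mul, abs_le] at v1 v2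
    clear v3 v4 e1 key h0
    rcases hd with h | h | h | h <;> rw [h] at v1 v2 <;> simp only [ro] at v1 v2 <;>
      constructor <;> linarith [v1.1, v1.2, v2.1, v2.2]
  · simp only [Prod.fst_add, Prod.snd_add, Prod.smul_fst, Prod.smul_snd, smul_eq_mul, abs_le,
      mul_add] at v3 v4
    clear v1 v2 e1 key h0
    rcases hd with h | h | h | h <;> rw [h] at v3 v4 <;> simp only [ro] at v3 v4 <;>
      constructor <;> linarith [v3.1, v3.2, v4.1, v4.2]

end fine

theorem cz_smul (c : ℤ) (v : ℤ × ℤ) : cz (c • v) = (c : ℂ) * cz v := by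
  apply Complex.ext <;> simp [cz]

theorem cz_ro (v : ℤ × ℤ) : cz (ro v) = Complex.I * cz v := by
  apply Complex.ext <;> simp [cz, ro]

section

variable {u : Poly} {m M : ℕ} {p W : ℤ → ℤ × ℤ} {A e : ℤ → ℤ}

/-- the middle of the edge `i` of the walk in the frame of the coarse edge `k = -i-1` -/
theorem mid_cz (H : LayU u m M p W A e) (i : ℕ) : u.mid i = pt u.s (p (-(i : ℤ) - 1)) +
    ((u.s / 2 : ℝ) : ℂ) * cz (p (-(i : ℤ) - 1 + 1) - p (-(i : ℤ) - 1)) := by
  obtain ⟨q1, q2⟩ := H.pv' i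
  rw [q1, q2]
  unfold Poly.mid
  apply Complex.ext
  · simp [pt, cz]
    ring
  · simp [pt, cz]
    ring

theorem dr_cz (H : LayU u m M p W A e) (i : ℕ) :
    dr u i = -cz (p (-(i : ℤ) - 1 + 1) - p (-(i : ℤ) - 1)) := by
  obtain ⟨q1, q2⟩ := H.pv' i
  rw [q1, q2]
  unfold dr drv
  apply Complex.ext
  · simp [cz]
  · simp [cz]

/-- gate with lower vertex at the position `T` -/
theorem gate_at (H : LayU u m M p W A e) {h : ℝ} (hh : (m : ℝ) * h = u.s) {k a T : ℤ}
    (h1 : W (a - 1) = (m : ℤ) • p k + ro (p (k + 1) - p k) + T • (p (k + 1) - p k))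
    (h2 : W a = (m : ℤ) • p k + ro (p (k + 1) - p k) + (T + 1) • (p (k + 1) - p k)) :
    ge W a = cz (p (k + 1) - p k) ∧
    gz h W a - h * Complex.I * ge W a = pt u.s (p k) +
      ((h * (T + 1 / 2) : ℝ) : ℂ) * cz (p (k + 1) - p k) := by
  have e1 : ge W a = cz (p (k + 1) - p k) := by
    unfold ge
    rw [h1, h2, add_smul, one_smul]
    congr 1
    abel
  refine ⟨e1, ?_⟩
  rw [e1]
  unfold gz
  rw [h1, h2, TileRx228.cz_add, TileRx228.cz_add, TileRx228.cz_add, TileRx228.cz_add, cz_smul, cz_smul, cz_smul, cz_ro]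
  have e2 : pt u.s (p k) = ((m : ℝ) * h : ℝ) * cz (p k) := by
    rw [hh]
    apply Complex.ext <;> simp [pt, cz]
  rw [e2]
  push_cast
  ring

/-- **GATE LINK** -/
theorem gate_link (H : LayU u m M p W A e) {h : ℝ} (hh : (m : ℝ) * h = u.s) (hm : 30 ≤ m)
    (a : J u) {t : ℝ} (t0 : 0 ≤ t) (t1 : t ≤ u.s / 2) :
    ∃ (b k j : ℤ) (t' : ℝ), ((A k + 6 ≤ b ∧ b + 6 ≤ A (k + 1)) ∧ g A e j + 3 ≤ b ∧
        b + 3 ≤ g A e (j + 1)) ∧
      (-(j : ZMod 3)) = (((hl u a : Fin 3) : ℕ) : ZMod 3) ∧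
      gz h W b - h * Complex.I * ge W b = hM u a + (t' : ℂ) * hw u a ∧
      Complex.I * ge W b = hnu u a ∧ |t' - t| ≤ 9 * h ∧ 6 * h ≤ t' ∧ t' ≤ u.s / 2 - 7 * h := by
  have h0 := H.h_pos hh
  have hmR : (30 : ℝ) ≤ m := by exact_mod_cast hm
  obtain ⟨i, hi⟩ : ∃ i, i = a.1 / 2 := ⟨_, rfl⟩
  obtain ⟨k, hk⟩ : ∃ k : ℤ, k = -(i : ℤ) - 1 := ⟨_, rfl⟩
  obtain ⟨l, hl'⟩ : ∃ l, l = hl u a := ⟨_, rfl⟩
  obtain ⟨l1, l2⟩ := hl_iff.1 hl'.symm
  obtain ⟨b1, b2⟩ := H.e_base l
  obtain ⟨s0, ⟨s1, s2⟩, ⟨s3, s4⟩, hW⟩ := exact' H.fine k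
  -- clamped position
  obtain ⟨y, y1, y2, y3⟩ : ∃ y : ℝ, 7 ≤ y ∧ y ≤ m / 2 - 8 ∧ |y - t / h| ≤ 8 := by
    have x0 : 0 ≤ t / h := by positivity
    have x1 : t / h ≤ m / 2 := by
      rw [div_le_iff₀ h0]
      rw [← hh] at t1
      linarith
    by_cases c1 : t / h < 7
    · exact ⟨7, le_rfl, by linarith, by rw [abs_le]; constructor <;> linarith⟩
    by_cases c2 : m / 2 - 8 < t / h
    · exact ⟨m / 2 - 8, by linarith, le_rfl, by rw [abs_le]; constructor <;> linarith⟩
    push Not at c1 c2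
    exact ⟨t / h, c1, c2, by simp⟩
  have hmid := mid_cz H i
  have hdr := dr_cz H i
  rw [← hk] at hmid hdr
  -- common end
  have fin : ∀ (T : ℤ) (x : ℝ), (T : ℝ) + 1 / 2 = m / 2 + x → |x| ≤ m / 2 - 7 → 6 ≤ |x| →
      (0 ≤ x → a.1 % 2 = 0) → (x ≤ 0 → a.1 % 2 = 1) →
      ∃ (b j : ℤ), ((A k + 6 ≤ b ∧ b + 6 ≤ A (k + 1)) ∧ g A e j + 3 ≤ b ∧
        b + 3 ≤ g A e (j + 1)) ∧
      (-(j : ZMod 3)) = ((l : ℕ) : ZMod 3) ∧ ge W b = cz (p (k + 1) - p k) ∧
      gz h W b - h * Complex.I * ge W b = u.mid i +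
        ((h * x : ℝ) : ℂ) * cz (p (k + 1) - p k) := by
    intro T x hT hx hx6 hev hod
    have hx' := abs_le.1 hx
    -- bounds for `T`
    have T1 : 7 ≤ T := by
      have : (6 : ℝ) < T := by linarith [hx'.1]
      have : (6 : ℤ) < T := by exact_mod_cast this
      omega
    have T2 : T + 8 ≤ m := by
      have : (T : ℝ) < ((m - 7 : ℤ) : ℝ) := by push_cast; linarith [hx'.2]
      have := Int.cast_lt.1 this
      omega
    obtain ⟨b, hb⟩ : ∃ b : ℤ, b = A k + (T - s0) + 1 := ⟨_, rfl⟩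
    have w1 := hW (b - 1) (by omega) (by omega)
    have w2 := hW b (by omega) (by omega)
    rw [show s0 + (b - 1 - A k) = T by omega] at w1
    rw [show s0 + (b - A k) = T + 1 by omega] at w2
    obtain ⟨g1, g2⟩ := gate_at H hh w1 w2
    refine ⟨b, 3 - (l : ℕ), ⟨⟨by omega, by omega⟩, ?_, ?_⟩, ?_, g1, ?_⟩
    · -- lower mark
      have gm := H.lay.g_mem (3 - (l : ℕ))
      by_cases hk' : k = e (3 - (l : ℕ))
      · have ev : a.1 % 2 = 0 := by omega
        have xp : 0 ≤ x := by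
          by_contra hc
          have := hod (by linarith)
          omega
        rw [abs_of_nonneg xp] at hx6
        have T3 : m + 11 ≤ 2 * T := by
          have : ((m + 11 : ℤ) : ℝ) ≤ ((2 * T : ℤ) : ℝ) := by push_cast; linarith
          exact_mod_cast this
        have hg : g A e (3 - (l : ℕ)) = A k + (A (k + 1) - A k) / 2 := by
          unfold g
          rw [← hk']
        rw [hg]
        omega
      · have hmono := H.lay.Amono.monotone (show e (3 - (l : ℕ)) + 1 ≤ k by omega)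
        omega
    · have gm := H.lay.g_mem (3 - (l : ℕ) + 1)
      by_cases hk' : k = e (3 - (l : ℕ) + 1)
      · have od : a.1 % 2 = 1 := by omega
        have xp : x ≤ 0 := by
          by_contra hc
          have := hev (by linarith)
          omega
        rw [abs_of_nonpos xp] at hx6
        have T3 : 2 * T + 13 ≤ m := by
          have : ((2 * T + 13 : ℤ) : ℝ) ≤ ((m : ℤ) : ℝ) := by push_cast; linarith
          exact_mod_cast this
        have hg : g A e (3 - (l : ℕ) + 1) = A k + (A (k + 1) - A k) / 2 := by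
          unfold g
          rw [← hk']
        rw [hg]
        omega
      · have hmono := H.lay.Amono.monotone (show k + 1 ≤ e (3 - (l : ℕ) + 1) by omega)
        omega
    · push_cast
      have : (3 : ZMod 3) = 0 := rfl
      rw [this]
      ring
    · rw [g2, hmid]
      have : (h * (T + 1 / 2) : ℝ) = u.s / 2 + h * x := by
        rw [← hh, hT]
        ring
      rw [this]
      push_cast
      ring
  have hnu' : Complex.I * cz (p (k + 1) - p k) = hnu u a := by
    unfold hnu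
    rw [← hi, hdr]
    ring
  rcases Nat.mod_two_eq_zero_or_one a.1 with ha | ha
  · -- even: forward
    obtain ⟨T, hT⟩ : ∃ T : ℤ, T = ⌊(m : ℝ) / 2 - 1 / 2 + y⌋ := ⟨_, rfl⟩
    have f1 := Int.floor_le ((m : ℝ) / 2 - 1 / 2 + y)
    have f2 := Int.lt_floor_add_one ((m : ℝ) / 2 - 1 / 2 + y)
    rw [← hT] at f1 f2
    have xp : 0 < (T : ℝ) + 1 / 2 - m / 2 := by linarith
    obtain ⟨b, j, hU, hj, hge, hgz⟩ := fin T (T + 1 / 2 - m / 2) (by ring)
      (by rw [abs_of_pos xp]; linarith) (by rw [abs_of_pos xp]; linarith) (fun _ => ha)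
      (fun h => by linarith)
    refine ⟨b, k, j, h * (T + 1 / 2 - m / 2), hU, by rw [← hl']; exact hj, ?_, ?_, ?_, ?_, ?_⟩
    · rw [hgz]
      unfold hM hw
      rw [if_pos ha, ← hi, hdr, neg_neg]
    · rw [hge, hnu']
    · have e1 : h * ((T : ℝ) + 1 / 2 - m / 2) - t = h * (((T : ℝ) + 1 / 2 - m / 2) - t / h) := by
        field_simp
      rw [e1, abs_mul, abs_of_pos h0, mul_comm]
      refine mul_le_mul_of_nonneg_right ?_ h0.le
      rw [abs_le] at y3 ⊢
      constructor <;> linarith [y3.1, y3.2]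
    · rw [mul_comm]
      exact mul_le_mul_of_nonneg_left (by linarith) h0.le
    · rw [← hh]
      nlinarith
  · -- odd: backward
    obtain ⟨T, hT⟩ : ∃ T : ℤ, T = ⌊(m : ℝ) / 2 - 1 / 2 - y⌋ := ⟨_, rfl⟩
    have f1 := Int.floor_le ((m : ℝ) / 2 - 1 / 2 - y)
    have f2 := Int.lt_floor_add_one ((m : ℝ) / 2 - 1 / 2 - y)
    rw [← hT] at f1 f2
    have xp : (T : ℝ) + 1 / 2 - m / 2 < 0 := by linarith
    obtain ⟨b, j, hU, hj, hge, hgz⟩ := fin T (T + 1 / 2 - m / 2) (by ring)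
      (by rw [abs_of_neg xp]; linarith) (by rw [abs_of_neg xp]; linarith)
      (fun h => by linarith) (fun _ => ha)
    refine ⟨b, k, j, h * (m / 2 - 1 / 2 - T), hU, by rw [← hl']; exact hj, ?_, ?_, ?_, ?_, ?_⟩
    · rw [hgz]
      unfold hM hw
      rw [if_neg (by omega), ← hi, hdr]
      push_cast
      ring
    · rw [hge, hnu']
    · have e1 : h * ((m : ℝ) / 2 - 1 / 2 - T) - t = h * (((m : ℝ) / 2 - 1 / 2 - T) - t / h) := by
        field_simp
      rw [e1, abs_mul, abs_of_pos h0, mul_comm]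
      refine mul_le_mul_of_nonneg_right ?_ h0.le
      rw [abs_le] at y3 ⊢
      constructor <;> linarith [y3.1, y3.2]
    · rw [mul_comm]
      exact mul_le_mul_of_nonneg_left (by linarith) h0.le
    · rw [← hh]
      nlinarith

end

end Crest.Agent.R143.GateLx845
end
end

-- ▼ part R143/UKV_969
section

/-!
# Row 143 (S0194), box R10g: `UO` from a stem at every usable gate (helper969)

* `stems` : a stem at every gate `b` with 923's `Use A e b k j` (label `- j`) gives the stems of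
  `uo_poly` (845's gate link)
* **`uo_gates`** : `uo_poly` with this hypothesis
-/

set_option autoImplicit false

noncomputable section

open scoped Classical

namespace Crest.Agent.R143.UKVx969

open Set
open Crest.ProbabilityR.Voronoi
open Crest.Agent.R143.K33x877
open Crest.Agent.R143.Locx922 (Hol)
open Crest.Agent.R143.UKCx969
open Crest.Agent.R143.UKUx969
open Crest.Agent.R143.PolyUx346
open Crest.Agent.R143.HEx571 (J hM hw hnu hl)
open Crest.Agent.R143.HEPx571 (lz)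
open Crest.Agent.R143.TileRx228 (gz ge)
open Crest.Agent.R143.R10Px923 (Use)

variable {u : Poly} {S : Finset ℂ} {A : ZMod 3 → Set ℂ} {o : ℂ × ℂ × ℂ} {l0 : ZMod 3} {h ε d : ℝ}
  {m M : ℕ} {p W : ℤ → ℤ × ℤ} {Ai e : ℤ → ℤ}

/-- **stems of the half edges** from the stems of the gates -/
theorem stems (H : LayUx416.LayU u m M p W Ai e) (hh : (m : ℝ) * h = u.s) (hm : 30 ≤ m)
    (h0 : 0 < h)
    (hG : ∀ b k j : ℤ, Use Ai e b k j → ∃ (bb : ℂ) (E : Set ℂ), Stem S A h d (-(j : ZMod 3))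
      (gz h W b - h * Complex.I * ge W b) (Complex.I * ge W b) bb E)
    (a : J u) (t : ℝ) (t0 : 0 ≤ t) (t1 : t ≤ u.s / 2) : ∃ (t' : ℝ) (b : ℂ) (E : Set ℂ),
      |t' - t| ≤ 10 * h ∧ h ≤ t' ∧ t' ≤ u.s / 2 - h ∧ (Mk (hM u) (lz u) a → 3 * h ≤ t') ∧
      Stem S A h d (lz u a) (hM u a + t' * hw u a) (hnu u a) b E := by
  obtain ⟨b, k, j, t', h1, h2, h3, h4, h5, h6, h7⟩ := GateLx845.gate_link H hh hm a t0 t1
  obtain ⟨bb, E, hE⟩ := hG b k j h1
  refine ⟨t', bb, E, by linarith, by linarith, by linarith, fun _ => by linarith, ?_⟩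
  rw [← h3, ← h4]
  have : lz u a = -(j : ZMod 3) := h2.symm
  rw [this]
  exact hE

/-- **`UO` from the stems of the gates** -/
theorem uo_gates (H : LayUx416.LayU u m M p W Ai e) (hh : (m : ℝ) * h = u.s) (hm : 40 ≤ m)
    (hR : TrR S o l0 A) (hneg : Hexx877.NegO A o)
    (hgap : ∀ l, ∀ s ∈ A l, ∀ z ∈ u.P, h / 2 ≤ ‖s - z‖) (hε : 0 < √ε) (hεh : 5000 * √ε ≤ h)
    (hH : Hol (S : Set ℂ) u.P √ε)
    (hcov : ∀ p ∈ frontier u.P, ∀ z, ‖z - p‖ ≤ 20 * h → ∃ s' ∈ S, ‖s' - z‖ < √ε)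
    (hG : ∀ b k j : ℤ, Use Ai e b k j → ∃ (bb : ℂ) (E : Set ℂ), Stem S A h √ε (-(j : ZMod 3))
      (gz h W b - h * Complex.I * ge W b) (Complex.I * ge W b) bb E)
    {R1 dd ρ D : ℝ} (hreg : ∀ w ∈ fr S A, ‖w‖ + 2 * √ε ≤ R1) (hd : 16 * h ≤ dd) (hρ : h ≤ ρ)
    (hρD : 100 * ρ ≤ D) (hD : D ≤ u.s / 4) (hmk : ∀ k, ‖mkz u k‖ ≤ R1) :
    ∃ A' : ZMod 3 → Set ℂ,
      R10Gx930.UO S A A' o l0 u.P u.Lab (mkz u) R1 h D ε (15 * h) dd ρ := by
  have h0 : 0 < h := by linarith
  have hhs : 40 * h ≤ u.s := by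
    rw [← hh]
    have : (40 : ℝ) ≤ m := by exact_mod_cast hm
    nlinarith
  exact uo_poly u hR hneg hgap hε hεh hhs hH hcov (stems H hh (by omega) h0 hG) hreg hd hρ hρD hD
    hmk

end Crest.Agent.R143.UKVx969
end
end

-- ▼ part R143/R10N_930

/-!
# Row 143 (S0194), box R10: numbers and the environment of the polygon (helper930)

* `ge_cor` : 133's `CorEnv` ⟹ `GE` for `S = SU u ε ω`
* `Con` : conclusion of R10 (923's `Cpl`, the window form, 798's `fU ≤ θ`)
* **`r10n`** : `CorEnv`, giants with a root face, no giant near the polygon, a stem at every usable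
  gate ⟹ `Con`, with explicit numbers
* `r10_lim` : the bounds tend to `0` with `h`
-/

set_option autoImplicit false

noncomputable section

open scoped Classical ENNReal

namespace Crest.Agent.R143.R10Nx930

open Set Filter Topology MeasureTheory
open Crest.ProbabilityR.Voronoi
open Crest.Agent.R143.Harx315
open Crest.Agent.R143.B0x346 Crest.Agent.R143.DelGx806
open Crest.Agent.R143.JColx54 (Adj)
open Crest.Agent.R143.RE0x723 (Pth)
open Crest.Agent.R143.K33x877
open Crest.Agent.R143.NetUx346 Crest.Agent.R143.NetVx346 Crest.Agent.R143.Stabx930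
open Crest.Agent.R143.Stab2x930 Crest.Agent.R143.R10x930 Crest.Agent.R143.R10Ex930
open Crest.Agent.R143.R10Gx930 Crest.Agent.R143.R10Wx930 Crest.Agent.R143.VisPx930
open Crest.Agent.R143.PolyUx346
open Crest.Agent.R143.Hexx877 (NegO)
open Crest.Agent.R143.GateKx421 (Thin)
open Crest.Agent.R143.TlAx58 (Sw Vw Bw)
open Crest.Agent.R143.Eddx798 (fU)
open Crest.Agent.R143.R10Px923 (Cpl yV Use)
open Crest.Agent.R143.ArmPx930 (ldns_mono mesh_mono)
open Crest.Agent.R143.CorEx133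
open Crest.Agent.R143.EnvHx653 (Cab)
open Crest.Agent.R143.UKCx969 (Stem)
open Crest.Agent.R143.UKUx969 (mkz)
open Crest.Agent.R143.UKVx969 (uo_gates)
open Crest.Agent.R143.TileRx228 (gz ge)

/-- **environment of the arms from the environment of the polygon** -/
theorem ge_cor {u : Poly} {ε K1 c2c ρ0 c1 c2 K R1 h D : ℝ} {ω : Sample}
    (C : CorEnv u ε √ε K1 c2c ρ0 ω) (hK : K ≤ K1) (hD : 0 < D) (hρ0 : ρ0 ≤ D) (hD2 : 2 * D ≤ 1)
    (hR : R1 + (K1 + 1) * D + 2 * √ε ≤ RU u) (hc : c2c * D ≤ c2 * h) (hdr : √ε ≤ c1 * h) :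
    GE (SU u ε ω) c1 c2 K R1 h D ε := by
  have hKK : K * D ≤ K1 * D := mul_le_mul_of_nonneg_right hK hD.le
  refine ⟨fun z hz => ?_, fun z hz b hb1 hb2 => ?_, hdr⟩
  · exact ldns_mono (C.nva hρ0 hD2 (by linarith)).dns hKK
  · exact mesh_mono ((C.nva hρ0 hD2 (by linarith)).mesh b (hc.trans hb1) hb2) hKK

/-- scale of the marks -/
def Du (u : Poly) (K : ℝ) : ℝ := min (u.s / 4) (1 / (2 * (K + 1)))

theorem Du_pos (u : Poly) {K : ℝ} (hK : 0 ≤ K) : 0 < Du u K :=
  lt_min (by have := u.s_pos; linarith) (by positivity)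

/-- the conclusion of R10 for the giants `A` of the sites `SU u ε ω` -/
def Con (C c K : ℝ) (u : Poly) (ε h : ℝ) (ω : Sample) (A : ZMod 3 → Set ℂ) (W : Set ℂ) : Prop :=
  (∀ η, 16 * h ≤ η → η ≤ Du u K →
    Cpl (SU u ε ω) A (Vin (SU u ε ω) u.P √ε) (Bl (SU u ε ω) (Vin (SU u ε ω) u.P √ε) u.Lab) η
      (C * ((16 * h / η) ^ c + (h / Du u K) ^ c)) ∧
    ∀ i, pr (ff (SU u ε ω) A) (fun β => η < ‖hv (SU u ε ω) A i (β : Set ℂ) -
      zV (Sw W (SU u ε ω)) (Vw u √ε W (SU u ε ω)) (Bw u √ε W (SU u ε ω)) i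
        ((β ∩ Vin (SU u ε ω) u.P √ε : Finset ℂ) : Set ℂ) id‖) ≤
      C * ((16 * h / η) ^ c + (h / Du u K) ^ c)) ∧
  ∀ i, fU u √ε W i (SU u ε ω) ≤ C * (h / Du u K) ^ c

/-- **R10 with numbers** -/
theorem r10n : ∃ C c c1 c2 K : ℝ, 1 ≤ C ∧ 0 < c ∧ 0 < c1 ∧ c1 ≤ 1 ∧ 0 < c2 ∧ 2 ≤ K ∧
    ∀ (u : Poly) (ε h c2c ρ0 : ℝ) (ω : Sample), 0 < h → 100 * h ≤ Du u K → ρ0 ≤ Du u K →
    c2c * Du u K ≤ c2 * h → √ε ≤ c1 * h → 5000 * √ε ≤ h → CorEnv u ε √ε K c2c ρ0 ω →
    ∀ (m M : ℕ) (p W : ℤ → ℤ × ℤ) (Ai e : ℤ → ℤ), LayUx416.LayU u m M p W Ai e →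
    (m : ℝ) * h = u.s → ∀ (A : ZMod 3 → Set ℂ) (o : ℂ × ℂ × ℂ) (l0 : ZMod 3),
    TrR (SU u ε ω) o l0 A → NegO A o →
    (∀ l, ∀ s ∈ A l, ∀ z ∈ u.P, h / 2 ≤ ‖s - z‖) →
    (∀ b k j : ℤ, Use Ai e b k j → ∃ (bb : ℂ) (E : Set ℂ), Stem (SU u ε ω) A h √ε (-(j : ZMod 3))
      (gz h W b - h * Complex.I * ge W b) (Complex.I * ge W b) bb E) →
    (∀ w ∈ fr (SU u ε ω) A, ‖w‖ ≤ Rp u + 3) → ∀ Wd : Set ℂ, u.P ⊆ Wd →
    Con C c K u ε h ω A Wd := by
  obtain ⟨C, c, c1, c2, K, hC, hc, hc1, hc1', hc2, hK, H⟩ := r10w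
  refine ⟨C, c, c1, c2, K, hC, hc, hc1, hc1', hc2, hK, ?_⟩
  intro u ε h c2c ρ0 ω hh hhD hρ0 hcc hdr hdr' CE m M p W Ai e HL hm A o l0 hT hn hgap hG hreg Wd
    hWd
  have hD0 := Du_pos u (K := K) (by linarith)
  have hε := CE.e0
  have hε' : 0 < √ε := CE.d0
  have hs1 := s_le u
  have hs0 := u.s_pos
  have hDs : Du u K ≤ u.s / 4 := min_le_left _ _
  have hDK : Du u K ≤ 1 / (2 * (K + 1)) := min_le_right _ _
  have hDK' : (K + 1) * Du u K ≤ 1 / 2 := by
    rw [le_div_iff₀ (by positivity)] at hDK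
    linarith
  have hR := one_le_Rp u
  have hε1 := CE.d1
  have E : GE (SU u ε ω) c1 c2 K (Rp u + 4) h (Du u K) ε :=
    ge_cor CE le_rfl hD0 hρ0 (by nlinarith) (by unfold RU; linarith) hcc hdr
  have hP : ∀ z ∈ u.P, ‖z‖ ≤ Rp u + 4 := fun z hz => by
    have := P_norm u hz
    linarith
  have hm40 : 40 ≤ m := by
    by_contra hcon
    push Not at hcon
    have : (m : ℝ) ≤ 40 := by exact_mod_cast hcon.le
    nlinarith
  obtain ⟨A', hU⟩ := uo_gates HL hm hm40 hT hn hgap hε' hdr' (CE.hol.mono (P_sub_UU u)) (by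
      intro q hq z hz
      have h1 : q ∈ u.P := (UKG5x571.isClosed_P u).frontier_subset hq
      have h2 := P_norm u h1
      have h3 := norm_add_le (z - q) q
      rw [sub_add_cancel] at h3
      obtain ⟨s, h4, h5⟩ := CE.hol z (mem_UU.2 (by linarith)) z
        (by rw [sub_self, norm_zero]; exact hε'.le)
      exact ⟨s, Finset.mem_coe.1 h4, h5⟩) hG (R1 := Rp u + 4) (dd := 16 * h) (ρ := h)
    (D := Du u K) (fun w hw => by
      have := hreg w hw
      linarith) le_rfl le_rfl hhD hDs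
    (fun k => hP _ (UKG5x571.arc_P (UKG5x571.mid_mem_arc _)).1)
  exact H (SU u ε ω) (Rp u + 4) h (Du u K) ε hh hε E u A A' o l0 (mkz u) (15 * h) (16 * h) h hU hP
    Wd hWd

/-- **the bounds tend to `0`** (`η = √h`) -/
theorem r10_lim (C c K : ℝ) (hc : 0 < c) (hK : 0 ≤ K) (u : Poly) :
    Tendsto (fun h : ℝ => C * ((16 * h / √h) ^ c + (h / Du u K) ^ c)) (𝓝[>] 0) (𝓝 0) := by
  have hD := Du_pos u hK
  have hs : Tendsto (fun h : ℝ => √h) (𝓝[>] 0) (𝓝 0) := by
    have := (Real.continuous_sqrt.tendsto 0).mono_left (nhdsWithin_le_nhds (s := Set.Ioi 0))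
    rwa [Real.sqrt_zero] at this
  have hi : Tendsto (fun h : ℝ => h) (𝓝[>] 0) (𝓝 0) := nhdsWithin_le_nhds
  have h1 : Tendsto (fun h : ℝ => 16 * h / √h) (𝓝[>] 0) (𝓝 0) := by
    have h2 := hs.const_mul 16
    rw [mul_zero] at h2
    refine h2.congr fun h => ?_
    rw [mul_div_assoc, Real.div_sqrt]
  have h2 : Tendsto (fun h : ℝ => h / Du u K) (𝓝[>] 0) (𝓝 0) := by
    have := hi.div_const (Du u K)
    rwa [zero_div] at this
  have h3 := (Real.continuousAt_rpow_const 0 c (Or.inr hc.le)).tendsto.comp h1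
  have h4 := (Real.continuousAt_rpow_const 0 c (Or.inr hc.le)).tendsto.comp h2
  rw [Real.zero_rpow hc.ne'] at h3 h4
  have := (h3.add h4).const_mul C
  rw [add_zero, mul_zero] at this
  exact this

end Crest.Agent.R143.R10Nx930
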