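import Crest.Agent.R143.RcT_422
import Crest.Agent.R143.Uniq_323

/-!
# Row 143 (S0194), RIG, CorrI (d): transport sites <-> cells, part 2 (helper422)

* `ed_rc`, **`lk_rc`** (a link of sites is a `K33x137.Lk` of cells), `cn_rc` (a set of sites connected
  by links gives a connected zone), `rc_image`
* **`lnk_rc`** : the field `lnk` of `Sys` / `Good` from a path of sites from a right site of the strand
  to the hull which avoids the left sites and the white sites of `R`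
* `wr_white`, `wl_black`, colours of the cells of the strand
* **`col_rc`** : the field `col` of 323's `Strd` from a white path of sites in the window
* `ent_rc`, `ext_rc` : third cells of the faces behind the first state and of the exit face
-/

set_option autoImplicit false
set_option linter.unusedSectionVars false

noncomputable section

open scoped Classical

namespace Crest.Agent.R143.RcTx422

open Crest.Agent.R143.B0x346 Crest.Agent.R143.DelGx806 Crest.Agent.R143.DelRx806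
open Crest.Agent.R143.Frame1x395 Crest.Agent.R143.Frame2x395 Crest.Agent.R143.Frame3x395
  Crest.Agent.R143.Frame4x395 Crest.Agent.R143.Frame8x395 Crest.Agent.R143.Frame9x395
  Crest.Agent.R143.Frame10x395 Crest.Agent.R143.Frame11x395
open Crest.Agent.R143.Frame5x395 (sd mem_sd th th_spec)
open Crest.Agent.R143.NonXx592 (P Rc)
open Crest.Agent.R143.Gntx535 (wl wr mem_wl mem_wr)
open Crest.Agent.R143.Extx358 (Ad Ext Sep Zc)
open Crest.Agent.R143.FinCx811 (Cs rc0 cs rcol cell_mem cs_inj cs_surj)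
open Crest.Agent.R143.WLocx713 (HullC nx lift xc it_eq)
open Crest.Agent.R143.Blkx838 (DE)
open Crest.Agent.R143.Sepx686 (LS RS dart_mem)
open Crest.Agent.R143.K33x137 (Ed Cn)

variable {S : Finset ℂ} {hS : GP (S : Set ℂ)} {χ : ℂ → ZMod 2} {hχ : HullC S χ}

/-! ### links -/


/-- a Delaunay side is an edge of cells -/
theorem ed_rc (h3 : 3 ≤ S.card) {u w : {v // v ∈ S}} (h : DE S u.1 w.1) :
    Ed (rc0 hS) (cs hS h3 u) (cs hS h3 w) := by
  rcases h with ⟨c, hc⟩ | ⟨c, hc⟩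
  · exact ⟨⟨(u.1, w.1), mem_sd.2 ⟨c, hc⟩⟩, rfl, rfl⟩
  · exact Ed.symm ⟨⟨(w.1, u.1), mem_sd.2 ⟨c, hc⟩⟩, rfl, rfl⟩

/-- **a link of sites is a link of cells** -/
theorem lk_rc (h3 : 3 ≤ S.card) {A : Set ℂ} {A' : Set (Cs hS)}
    (hA : ∀ v : {v // v ∈ S}, v.1 ∈ A → cs hS h3 v ∈ A') {u w : {v // v ∈ S}}
    (h : Neckx921.Lk S A u.1 w.1) : K33x137.Lk (rc0 hS) A' (cs hS h3 u) (cs hS h3 w) := by
  obtain ⟨w, hw⟩ := w
  obtain ⟨-, h⟩ := h
  simp only at h
  induction h with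
  | refl => exact Relation.EqvGen.refl _
  | @tail a b _ h1 ih =>
    have ha := (de_mem h1.1).1
    exact (ih ha).trans' (K33x137.Lk.edge (hA ⟨a, ha⟩ h1.2.1) (hA ⟨b, hw⟩ h1.2.2)
      (ed_rc (u := ⟨a, ha⟩) (w := ⟨b, hw⟩) h3 h1.1))

/-- a set of sites connected by links gives a connected set of cells -/
theorem cn_rc (h3 : 3 ≤ S.card) {A : Set ℂ} {A' : Set (Cs hS)}
    (hA : ∀ v : {v // v ∈ S}, v.1 ∈ A → cs hS h3 v ∈ A')
    (hA' : ∀ c ∈ A', ∃ v : {v // v ∈ S}, v.1 ∈ A ∧ c = cs hS h3 v)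
    (hc : ∀ u ∈ S, u ∈ A → ∀ w ∈ S, w ∈ A → Neckx921.Lk S A u w) : Cn (rc0 hS) A' := by
  intro c hcA c' hcA'
  obtain ⟨u, hu, rfl⟩ := hA' c hcA
  obtain ⟨w, hw, rfl⟩ := hA' c' hcA'
  exact lk_rc h3 hA (hc u.1 u.2 hu w.1 w.2 hw)

/-- the cells of the sites of `A` -/
def CS (hS : GP (S : Set ℂ)) (A : Set ℂ) : Set (Cs hS) := {c | ∃ v ∈ S, v ∈ A ∧ c.1 = Quot.mk _ v}

variable {A B : Set ℂ}

theorem mem_CS (h3 : 3 ≤ S.card) {v : {v // v ∈ S}} (h : v.1 ∈ A) : cs hS h3 v ∈ CS hS A :=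
  ⟨v.1, v.2, h, rfl⟩

theorem CS_inner {c : Cs hS} {v : ℂ} (hv : ¬ OnHull S v) (e : c.1 = Quot.mk _ v) :
    c ∈ CS hS A ↔ v ∈ S ∧ v ∈ A := by
  constructor
  · rintro ⟨w, h1, h2, e'⟩
    rw [e] at e'
    have : w = v := quot_inner hS hv e'
    exact this ▸ ⟨h1, h2⟩
  · rintro ⟨h1, h2⟩
    exact ⟨v, h1, h2, e⟩


theorem RC_sub_CS : RC hS A ⊆ CS hS A := fun _ ⟨v, h1, h2, _, h4⟩ => ⟨v, h1, h2, h4⟩

/-- zones of disjoint sets of sites are disjoint if one of them has no hull sites -/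
theorem CS_disj (hAB : ∀ v ∈ S, v ∈ A → v ∉ B) (hA : ∀ v ∈ S, v ∈ A → ¬ OnHull S v) :
    Disjoint (CS hS A) (CS hS B) := by
  rw [Set.disjoint_left]
  rintro c ⟨v, h1, h2, e⟩ hB
  exact hAB v h1 h2 ((CS_inner (hA v h1 h2) e).1 hB).2

theorem RC_disj (hAB : ∀ v ∈ S, v ∈ A → v ∉ B) : Disjoint (RC hS A) (CS hS B) := by
  rw [Set.disjoint_left]
  rintro c ⟨v, h1, h2, h4, e⟩ hB
  exact hAB v h1 h2 ((CS_inner h4 e).1 hB).2

theorem cn_CS (h3 : 3 ≤ S.card)
    (hc : ∀ u ∈ S, u ∈ A → ∀ w ∈ S, w ∈ A → Neckx921.Lk S A u w) : Cn (rc0 hS) (CS hS A) :=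
  cn_rc h3 (fun _ h => mem_CS h3 h) (fun _ ⟨v, h1, h2, e⟩ => ⟨⟨v, h1⟩, h2, Subtype.ext e⟩) hc


/-! ### colours of the strand -/

variable {q : D0 S} {m : ℕ} {R : Set (Cs hS)}



/-! ### the link -/


/-! ### 323's `Strd` -/





end Crest.Agent.R143.RcTx422
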