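import Crest.Agent.R143.R10P_923
import Crest.Agent.R143.LayU_416
import Crest.Agent.R143.UKG5_571
import Crest.Agent.R143.UKC_969
import Crest.Agent.R143.RegB_523
import Crest.Agent.R143.R10N_930

-- ▼ part R143/StemU_923
section

/-!
# Row 143 (S0194), box R10: from `UKin` to the stems of 969's `ukP` (helper923)

* `gate_pos` : position of a gate over the coarse edge `k`
* `off` : the box `|X| ≤ 4 h`, `-h < Y < 5 h` over the gate does not meet `u.P`; `foot_P`
* `tile_near` : a tile region which meets the column over the gate `a` is the tile `a - 1` or `a`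
* **`stem`** : `UKin`, `Nw`, `Use A e a k j` ⟹ a connected set of sites `E` in the column of the gate
  with a site of the class `- j`, no site of the other classes, and nothing of the other classes
  below it
-/

set_option autoImplicit false

noncomputable section

open scoped Classical

namespace Crest.Agent.R143.StemUx923

open Set
open Crest.Agent.R143.B0x346 Crest.Agent.R143.DelGx806 Crest.Agent.R143.DelRx806
  Crest.Agent.R143.JColx54
open Crest.Agent.R143.RE0x723 (Pth)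
open Crest.Agent.R143.ToolWx838 Crest.Agent.R143.Blkx838
open Crest.Agent.R143.Gatex838 (X Y)
open Crest.Agent.R143.TileRx228
open Crest.Agent.R143.Layx416 (g)
open Crest.Agent.R143.LayUx416
open Crest.Agent.R143.LayQx811
open Crest.Agent.R143.PolyUx346
open Crest.Agent.R143.Brkx478 (Bk cells)
open Crest.Agent.R143.Finex422 (ro)
open Crest.Agent.R143.R10Px923
open Crest.Agent.R158.Sp896 (V sq lc rc)

variable {u : Poly} {m M : ℕ} {p W : ℤ → ℤ × ℤ} {A e : ℤ → ℤ} {h : ℝ}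

/-! ### geometry of a gate -/

/-- **position of a gate over the coarse edge `k`** -/
theorem gate_pos (H : LayU u m M p W A e) {a k : ℤ} (h1 : A k + 6 ≤ a) (h2 : a + 6 ≤ A (k + 1)) :
    ∃ t : ℤ, 5 ≤ t ∧ t + 5 ≤ m ∧ ∀ c : ℤ, -6 ≤ c → c ≤ 6 →
      W (a + c) = (m : ℤ) • p k + ro (p (k + 1) - p k) + (t + c) • (p (k + 1) - p k) := by
  have hk : A k ≤ A (k + 1) := by omega
  obtain ⟨t0, l0, -, e0⟩ := H.fine.exact k (A k) le_rfl hk
  obtain ⟨t1, -, u1, e1⟩ := H.fine.exact k (A (k + 1)) hk le_rfl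
  have s1 := H.fine.seg k (A (k + 1)) hk le_rfl
  set D := p (k + 1) - p k with hD
  have hU : U4 D := H.lay.pstep k
  have hDD : ∀ x y : ℤ, x • D = y • D → x = y := by
    intro x y hxy
    rcases hU with h | h | h | h <;> rw [h] at hxy <;>
      simp only [Prod.smul_mk, smul_eq_mul, Prod.mk.injEq] at hxy <;> omega
  have r1 : t1 = t0 + (A (k + 1) - A k) := by
    refine hDD _ _ ?_
    rw [e0, e1] at s1
    rw [add_smul]
    rw [add_assoc ((m : ℤ) • p k + ro D)] at s1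
    exact add_left_cancel s1
  refine ⟨t0 + (a - A k), by omega, by omega, fun c c1 c2 => ?_⟩
  rw [H.fine.seg k (a + c) (by omega) (by omega), e0, show t0 + (a - A k) + c = t0 + (a + c - A k) by
    ring, add_smul t0, add_assoc]

/-- **the gate in coordinates** -/
theorem gate_co (H : LayU u m M p W A e) {a k : ℤ} (h1 : A k + 6 ≤ a) (h2 : a + 6 ≤ A (k + 1)) :
    ∃ (t : ℤ) (D : V), 5 ≤ t ∧ t + 5 ≤ m ∧ U4 D ∧ p (k + 1) = p k + D ∧ ge W a = cz D ∧
      (gz h W a).re = h * (m * (p k).1 - D.2 + (t - 1 / 2) * D.1) ∧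
      (gz h W a).im = h * (m * (p k).2 + D.1 + (t - 1 / 2) * D.2) ∧
      ∀ c : ℤ, -6 ≤ c → c ≤ 6 → W (a + c) = (m * (p k).1 - D.2 + (t + c) * D.1,
        m * (p k).2 + D.1 + (t + c) * D.2) := by
  obtain ⟨t, t1, t2, hW⟩ := gate_pos H h1 h2
  set D := p (k + 1) - p k with hD
  have hc : ∀ c : ℤ, -6 ≤ c → c ≤ 6 → W (a + c) = (m * (p k).1 - D.2 + (t + c) * D.1,
        m * (p k).2 + D.1 + (t + c) * D.2) := by
    intro c c1 c2
    rw [hW c c1 c2]
    ext
    · simp only [Prod.fst_add, Prod.smul_fst, smul_eq_mul, ro]; ring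
    · simp only [Prod.snd_add, Prod.smul_snd, smul_eq_mul, ro]
  have w0 := hc 0 (by norm_num) (by norm_num)
  have w1 := hc (-1) (by norm_num) (by norm_num)
  rw [add_zero] at w0
  rw [← sub_eq_add_neg] at w1
  refine ⟨t, D, t1, t2, H.lay.pstep k, by rw [hD]; abel, ?_, ?_, ?_, hc⟩
  · unfold ge
    rw [w0, w1]
    congr 1
    ext
    · simp only [Prod.fst_sub]; ring
    · simp only [Prod.snd_sub]; ring
  · unfold gz
    rw [w0, w1]
    simp only [cz, Complex.mul_re, Complex.ofReal_re, Complex.ofReal_im, zero_mul, sub_zero]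
    rw [show ∀ z w : ℂ, ((z + w) / 2).re = (z.re + w.re) / 2 by intro z w; simp]
    push_cast
    ring
  · unfold gz
    rw [w0, w1]
    simp only [cz, Complex.mul_im, Complex.ofReal_re, Complex.ofReal_im, zero_mul, add_zero]
    rw [show ∀ z w : ℂ, ((z + w) / 2).im = (z.im + w.im) / 2 by intro z w; simp]
    push_cast
    ring

theorem P_iff (hh : (m : ℝ) * h = u.s) {z : ℂ} :
    z ∈ u.P ↔ ∃ q ∈ cells (u.U : Set Bk), z ∈ sq (m * h) q := by
  rw [LayU.P_eq u hh]
  exact OutCx571.mem_pg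

/-- the box over the gate does not meet the polygon -/
theorem off (H : LayU u m M p W A e) (hh : (m : ℝ) * h = u.s) {a k : ℤ} (h1 : A k + 6 ≤ a)
    (h2 : a + 6 ≤ A (k + 1)) {z : ℂ} (hX : |X (gz h W a) (ge W a) z| ≤ 4 * h)
    (hY : -h < Y (gz h W a) (ge W a) z) (hY' : Y (gz h W a) (ge W a) z ≤ 4 * h) : z ∉ u.P := by
  obtain ⟨t, D, t1, t2, hD, hp, hg, x0, y0, -⟩ := gate_co (h := h) H h1 h2
  have h0 := H.h_pos hh
  have hm : (10 : ℝ) ≤ m := by exact_mod_cast H.m_pos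
  have t1' : (5 : ℝ) ≤ t := by exact_mod_cast t1
  have t2' : (t : ℝ) + 5 ≤ m := by exact_mod_cast t2
  have hs : 0 < (m : ℝ) * h := by positivity
  have hleft := H.fine.cl.left k
  rw [hp] at hleft
  rw [P_iff hh]
  rintro ⟨q, hq, hz⟩
  rw [hg, FineDx576.X_eq hD, abs_le] at hX
  rw [hg, FineDx576.Y_eq hD] at hY hY'
  rw [x0, y0] at hX hY hY'
  have b1 : h * 5 ≤ h * t := mul_le_mul_of_nonneg_left t1' h0.le
  have b2 : h * t + h * 5 ≤ m * h := by nlinarith
  obtain ⟨⟨P1, P2⟩, hP⟩ : ∃ P, p k = P := ⟨_, rfl⟩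
  rcases hD with rfl | rfl | rfl | rfl
  all_goals
    simp only [hP, Int.cast_one, Int.cast_zero, Int.cast_neg, mul_one, mul_zero, mul_neg, add_zero,
      zero_add, sub_zero, zero_sub, sub_neg_eq_add] at hX hY hY' hleft
  · have e1 : lc (P1, P2) ((P1, P2) + (1, 0)) = (P1, P2) := by
      simp only [lc, Prod.mk_add_mk, Prod.mk.injEq]; omega
    rw [e1] at hleft
    refine hleft ?_
    rw [← UKG5x571.open_cell (q := (P1, P2)) ?_ ?_ ?_ ?_ hs hz]
    · exact hq
    all_goals (simp only []; linarith)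
  · have e1 : lc (P1, P2) ((P1, P2) + (0, 1)) = (P1 - 1, P2) := by
      simp only [lc, Prod.mk_add_mk, Prod.mk.injEq]; omega
    rw [e1] at hleft
    refine hleft ?_
    rw [← UKG5x571.open_cell (q := (P1 - 1, P2)) ?_ ?_ ?_ ?_ hs hz]
    · exact hq
    all_goals (simp only []; push_cast; linarith)
  · have e1 : lc (P1, P2) ((P1, P2) + (-1, 0)) = (P1 - 1, P2 - 1) := by
      simp only [lc, Prod.mk_add_mk, Prod.mk.injEq]; omega
    rw [e1] at hleft
    refine hleft ?_
    rw [← UKG5x571.open_cell (q := (P1 - 1, P2 - 1)) ?_ ?_ ?_ ?_ hs hz]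
    · exact hq
    all_goals (simp only []; push_cast; linarith)
  · have e1 : lc (P1, P2) ((P1, P2) + (0, -1)) = (P1, P2 - 1) := by
      simp only [lc, Prod.mk_add_mk, Prod.mk.injEq]; omega
    rw [e1] at hleft
    refine hleft ?_
    rw [← UKG5x571.open_cell (q := (P1, P2 - 1)) ?_ ?_ ?_ ?_ hs hz]
    · exact hq
    all_goals (simp only []; push_cast; linarith)

/-- points of the foot line are in the polygon -/
theorem foot_P (H : LayU u m M p W A e) (hh : (m : ℝ) * h = u.s) {a k : ℤ} (h1 : A k + 6 ≤ a)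
    (h2 : a + 6 ≤ A (k + 1)) {z : ℂ} (hX : |X (gz h W a) (ge W a) z| ≤ 4 * h)
    (hY : Y (gz h W a) (ge W a) z = -h) : z ∈ u.P := by
  obtain ⟨t, D, t1, t2, hD, hp, hg, x0, y0, -⟩ := gate_co (h := h) H h1 h2
  have h0 := H.h_pos hh
  have hm : (10 : ℝ) ≤ m := by exact_mod_cast H.m_pos
  have t1' : (5 : ℝ) ≤ t := by exact_mod_cast t1
  have t2' : (t : ℝ) + 5 ≤ m := by exact_mod_cast t2
  have hs : 0 < (m : ℝ) * h := by positivity
  have hs10 : 10 * h ≤ (m : ℝ) * h := by nlinarith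
  have hright := H.fine.cl.right k
  rw [hp] at hright
  rw [P_iff hh]
  rw [hg, FineDx576.X_eq hD, abs_le] at hX
  rw [hg, FineDx576.Y_eq hD] at hY
  rw [x0, y0] at hX hY
  have b1 : h * 5 ≤ h * t := mul_le_mul_of_nonneg_left t1' h0.le
  have b2 : h * t + h * 5 ≤ m * h := by nlinarith
  obtain ⟨⟨P1, P2⟩, hP⟩ : ∃ P, p k = P := ⟨_, rfl⟩
  rcases hD with rfl | rfl | rfl | rfl
  all_goals
    simp only [hP, Int.cast_one, Int.cast_zero, Int.cast_neg, mul_one, mul_zero, mul_neg, add_zero,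
      zero_add, sub_zero, zero_sub, sub_neg_eq_add] at hX hY hright
  · have e1 : rc (P1, P2) ((P1, P2) + (1, 0)) = (P1, P2 - 1) := by
      simp only [rc, Prod.mk_add_mk, Prod.mk.injEq]; omega
    rw [e1] at hright
    refine ⟨_, hright, ?_, ?_, ?_, ?_⟩ <;> (simp only []; push_cast; linarith)
  · have e1 : rc (P1, P2) ((P1, P2) + (0, 1)) = (P1, P2) := by
      simp only [rc, Prod.mk_add_mk, Prod.mk.injEq]; omega
    rw [e1] at hright
    refine ⟨_, hright, ?_, ?_, ?_, ?_⟩ <;> (simp only []; linarith)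
  · have e1 : rc (P1, P2) ((P1, P2) + (-1, 0)) = (P1 - 1, P2) := by
      simp only [rc, Prod.mk_add_mk, Prod.mk.injEq]; omega
    rw [e1] at hright
    refine ⟨_, hright, ?_, ?_, ?_, ?_⟩ <;> (simp only []; push_cast; linarith)
  · have e1 : rc (P1, P2) ((P1, P2) + (0, -1)) = (P1 - 1, P2 - 1) := by
      simp only [rc, Prod.mk_add_mk, Prod.mk.injEq]; omega
    rw [e1] at hright
    refine ⟨_, hright, ?_, ?_, ?_, ?_⟩ <;> (simp only []; push_cast; linarith)

/-- **tiles which meet the column over the gate `a`** -/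
theorem tile_near (H : LayU u m M p W A e) (hh : (m : ℝ) * h = u.s) {a k : ℤ} (h1 : A k + 6 ≤ a)
    (h2 : a + 6 ≤ A (k + 1)) {A1 B1 : ℝ} (hAB : A1 ≤ B1) (hB : B1 < h) {a' : ℤ} {z : ℂ}
    (hz : z ∈ RR A1 B1 h W a') (hX : |X (gz h W a) (ge W a) z| ≤ h / 2)
    (hY : -h ≤ Y (gz h W a) (ge W a) z) (hY' : Y (gz h W a) (ge W a) z ≤ 2 * h) :
    ∃ j : ℤ, a' = a + j * M ∨ a' = a - 1 + j * M := by
  obtain ⟨t, D, t1, t2, hD, hp, hg, x0, y0, hW⟩ := gate_co (h := h) H h1 h2
  have h0 := H.h_pos hh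
  -- the vertex `W a'`
  have hbox : |z.re - h * (W a').1| ≤ B1 ∧ |z.im - h * (W a').2| ≤ B1 := by
    have hU1 : U4 (W (a' - 1) - W a') := by
      have h4 := H.lay.fp.step (a' - 1)
      rw [sub_add_cancel] at h4
      have := FineDx576.U4.neg h4
      rwa [neg_sub] at this
    rw [← FineDx576.cen_re, ← FineDx576.cen_im]
    rcases hz with hz | hz
    · exact FineDx576.arm_box hAB hU1 hz
    · exact FineDx576.arm_box hAB (H.lay.fp.step a') hz
  have w0 := hW 0 (by norm_num) (by norm_num)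
  simp only [add_zero] at w0
  rw [hg, FineDx576.X_eq hD, abs_le] at hX
  rw [hg, FineDx576.Y_eq hD] at hY hY'
  rw [x0, y0] at hX hY hY'
  obtain ⟨⟨w1, w2⟩, hw⟩ : ∃ w, W a' = w := ⟨_, rfl⟩
  rw [hw] at hbox
  simp only [abs_le] at hbox
  obtain ⟨⟨g1, g2⟩, g3, g4⟩ := hbox
  obtain ⟨⟨P1, P2⟩, hP⟩ : ∃ P, p k = P := ⟨_, rfl⟩
  have lt_of : ∀ x y : ℤ, h * (x : ℝ) < h * (y : ℝ) → x < y := fun x y hxy => by
    exact_mod_cast lt_of_mul_lt_mul_left hxy h0.le
  -- the relative position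
  have rel : ∃ x y : ℤ, (x = 0 ∨ x = -1) ∧ -1 ≤ y ∧ y ≤ 2 ∧
      w1 = m * P1 - D.2 + (t + x) * D.1 - y * D.2 ∧
      w2 = m * P2 + D.1 + (t + x) * D.2 + y * D.1 := by
    rcases hD with rfl | rfl | rfl | rfl
    all_goals
      simp only [hP, Int.cast_one, Int.cast_zero, Int.cast_neg, mul_one, mul_zero, mul_neg, add_zero,
        zero_add, sub_zero, zero_sub, sub_neg_eq_add] at hX hY hY'
    · refine ⟨w1 - (m * P1 + t), w2 - (m * P2 + 1), ?_, ?_, ?_, by ring, by ring⟩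
      · have := lt_of w1 (m * P1 + t + 1) (by push_cast; linarith)
        have := lt_of (m * P1 + t - 2) w1 (by push_cast; linarith)
        omega
      · have := lt_of (m * P2 + 1 - 2) w2 (by push_cast; linarith)
        omega
      · have := lt_of w2 (m * P2 + 1 + 3) (by push_cast; linarith)
        omega
    · refine ⟨w2 - (m * P2 + t), -(w1 - (m * P1 - 1)), ?_, ?_, ?_, by ring, by ring⟩
      · have := lt_of w2 (m * P2 + t + 1) (by push_cast; linarith)
        have := lt_of (m * P2 + t - 2) w2 (by push_cast; linarith)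
        omega
      · have := lt_of w1 (m * P1 - 1 + 2) (by push_cast; linarith)
        omega
      · have := lt_of (m * P1 - 1 - 3) w1 (by push_cast; linarith)
        omega
    · refine ⟨-(w1 - (m * P1 - t)), -(w2 - (m * P2 - 1)), ?_, ?_, ?_, by ring, by ring⟩
      · have := lt_of w1 (m * P1 - t + 2) (by push_cast; linarith)
        have := lt_of (m * P1 - t - 1) w1 (by push_cast; linarith)
        omega
      · have := lt_of w2 (m * P2 - 1 + 2) (by push_cast; linarith)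
        omega
      · have := lt_of (m * P2 - 1 - 3) w2 (by push_cast; linarith)
        omega
    · refine ⟨-(w2 - (m * P2 - t)), w1 - (m * P1 + 1), ?_, ?_, ?_, by ring, by ring⟩
      · have := lt_of w2 (m * P2 - t + 2) (by push_cast; linarith)
        have := lt_of (m * P2 - t - 1) w2 (by push_cast; linarith)
        omega
      · have := lt_of (m * P1 + 1 - 2) w1 (by push_cast; linarith)
        omega
      · have := lt_of w1 (m * P1 + 1 + 3) (by push_cast; linarith)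
        omega
  obtain ⟨x, y, hx, y1, y2, r1, r2⟩ := rel
  have hsd : sd2 (W a') (W a) ≤ 2 := by
    rw [sd2_le, hw, w0, hP]
    simp only [r1, r2]
    rcases hD with rfl | rfl | rfl | rfl <;> rcases hx with rfl | rfl <;>
      simp only [mul_one, mul_zero, mul_neg, abs_le] <;> omega
  obtain ⟨j, hj⟩ := H.lay.quasi (r := 2) (by have := H.lay.m10; omega) (by norm_num) hsd
  rw [abs_le] at hj
  set c := a' - a - j * M with hc
  have ha' : a' = a + c + j * M := by omega
  have e1 : W a' = W (a + c) := by rw [ha', H.lay.Wper']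
  rw [hW c (by omega) (by omega), hw, hP] at e1
  have e2 := congrArg Prod.fst e1
  have e3 := congrArg Prod.snd e1
  simp only [r1, r2] at e2 e3
  refine ⟨j, ?_⟩
  have : c = x := by
    rcases hD with rfl | rfl | rfl | rfl <;>
      simp only [mul_one, mul_zero, mul_neg] at e2 e3 <;> omega
  rcases hx with hx | hx
  · left; omega
  · right; omega

/-! ### the frame of a gate -/

theorem frame_eq {z0 v : ℂ} (hv : v ≠ 0) (z : ℂ) :
    UKCx969.Hgt (z0 - h * Complex.I * v) (Complex.I * v) z = Y z0 v z + h ∧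
      UKCx969.Lat (z0 - h * Complex.I * v) (Complex.I * v) z = -X z0 v z := by
  have e : (z - (z0 - h * Complex.I * v)) / (Complex.I * v) = (z - z0) / v * (-Complex.I) + h := by
    rw [div_eq_iff (mul_ne_zero Complex.I_ne_zero hv)]
    have h1 : (z - z0) / v * v = z - z0 := div_mul_cancel₀ _ hv
    generalize (z - z0) / v = q at h1 ⊢
    linear_combination (-1) * h1 + (q * v) * Complex.I_mul_I
  unfold UKCx969.Hgt UKCx969.Lat
  rw [e]
  simp [X, Y]

theorem XY_sub {z0 v : ℂ} (hv : ‖v‖ = 1) (z z' : ℂ) : |X z0 v z - X z0 v z'| ≤ ‖z - z'‖ ∧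
    |Y z0 v z - Y z0 v z'| ≤ ‖z - z'‖ := by
  have e : (z - z0) / v - (z' - z0) / v = (z - z') / v := by rw [← sub_div]; ring_nf
  unfold X Y
  rw [← Complex.sub_re, ← Complex.sub_im, e]
  have h1 : ‖(z - z') / v‖ = ‖z - z'‖ := by rw [norm_div, hv, div_one]
  exact ⟨h1 ▸ Complex.abs_re_le_norm _, h1 ▸ Complex.abs_im_le_norm _⟩

/-- sup distance in the frame of a lattice direction -/
theorem XY_box {z0 : ℂ} {D : V} (hD : U4 D) {z z' : ℂ} {r : ℝ} (h1 : |(z - z').re| ≤ r)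
    (h2 : |(z - z').im| ≤ r) : |X z0 (cz D) z - X z0 (cz D) z'| ≤ r ∧
      |Y z0 (cz D) z - Y z0 (cz D) z'| ≤ r := by
  rw [FineDx576.X_eq hD, FineDx576.X_eq hD, FineDx576.Y_eq hD, FineDx576.Y_eq hD]
  rw [Complex.sub_re, abs_le] at h1
  rw [Complex.sub_im, abs_le] at h2
  rw [abs_le, abs_le]
  rcases hD with rfl | rfl | rfl | rfl <;>
    simp only [Int.cast_one, Int.cast_zero, Int.cast_neg, mul_one, mul_zero, mul_neg, add_zero,
      zero_add, sub_zero, zero_sub] <;> refine ⟨⟨?_, ?_⟩, ⟨?_, ?_⟩⟩ <;> linarith [h1.1, h1.2, h2.1, h2.2]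

theorem adj_of_de {S : Finset ℂ} {x y : ℂ} (h : DE S x y) : Adj S x y := by
  rcases h with ⟨c, h⟩ | ⟨c, h⟩
  · exact Or.inl ⟨c, h⟩
  · exact Or.inr ⟨c, h⟩

/-- a chain is connected -/
theorem chain_pth {S : Finset ℂ} : ∀ (l : List ℂ) (x : ℂ), (∀ q ∈ prs (x :: l), DE S q.1 q.2) →
    ∀ y ∈ x :: l, Pth S {z | z ∈ x :: l} x y := by
  intro l
  induction l with
  | nil =>
    intro x _ y hy
    rw [List.mem_singleton] at hy
    rw [hy]
    exact Pth.refl (by simp)
  | cons b l ih =>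
    intro x hx y hy
    have h1 : ∀ q ∈ prs (b :: l), DE S q.1 q.2 := fun q hq => hx q (by
      unfold prs
      exact List.mem_cons_of_mem _ hq)
    have h2 : DE S x b := hx (x, b) (by unfold prs; exact List.mem_cons_self)
    rcases List.mem_cons.1 hy with rfl | hy
    · exact Pth.refl (by simp)
    · have h3 : Pth S {z | z ∈ x :: b :: l} b y := (ih b h1 y hy).mono fun z hz =>
        List.mem_cons_of_mem _ hz
      exact (Pth.single (by simp) (adj_of_de h2) (by simp)).trans h3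

/-! ### stems -/

variable {S : Finset ℂ} {Ac : ZMod 3 → Set ℂ} {o : ℂ × ℂ × ℂ} {i : ZMod 3} {P : Set ℂ}
  {A1 B1 d w a0 a1 b0 b1 m' : ℝ} {a k j : ℤ}

/-- **stem of an out tile** -/
theorem stem_black (hN : Nw h d w a0 a1 b0 b1 m')
    (K : UKin S Ac o i P h A1 B1 w a0 a1 b0 b1 m' W A e) (_h0 : 0 < h) (hge : ge W a ≠ 0)
    (hU : Use A e a k j) (hj : (-(j : ZMod 3)) ≠ i) :
    ∃ b E, UKCx969.Stem S Ac h d (-(j : ZMod 3)) (gz h W a - h * Complex.I * ge W a)
      (Complex.I * ge W a) b E := by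
  obtain ⟨y, dn, hC, hy, hdn⟩ := K.nk a k j hU hj
  have d0 := hN.d0
  have q1 := hN.w0
  have q2 := hN.w1
  have q3 := hN.wh
  have q4 := hN.bl
  have q5 := hN.bu
  have q6 := hN.m0
  have fr : ∀ z, UKCx969.Hgt (gz h W a - h * Complex.I * ge W a) (Complex.I * ge W a) z =
      Y (gz h W a) (ge W a) z + h ∧ UKCx969.Lat (gz h W a - h * Complex.I * ge W a)
        (Complex.I * ge W a) z = -X (gz h W a) (ge W a) z := fun z => frame_eq hge z
  have hch := chain_pth (S := S) dn y hC.adj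
  have hb : dn.getLast hC.nd ∈ y :: dn := List.mem_cons_of_mem _ (List.getLast_mem hC.nd)
  refine ⟨dn.getLast hC.nd, {z | z ∈ y :: dn}, hb, ?_, ?_, ⟨y, hy, by simp⟩, ?_, ?_⟩
  · intro z hz
    obtain ⟨⟨x1, x2⟩, y1, y2⟩ := hC.win z hz
    rw [(fr z).1, (fr z).2, abs_neg]
    refine ⟨?_, ?_, ?_, ?_⟩
    · -- a site
      have hz' := hch z hz
      obtain ⟨c, l, hcl⟩ := List.exists_cons_of_ne_nil hC.nd
      have h2 : DE S y c := hC.adj (y, c) (by
        rw [hcl]
        unfold prs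
        exact List.mem_cons_self)
      refine Pth.ind hz' (P := fun v => v ∈ S) (adj_of_de h2).mem.1 fun a b _ _ hab _ => hab.mem.2
    · rw [abs_le]; constructor <;> linarith
    · linarith
    · linarith
  · intro x hx z hz
    exact (hch x hx).symm.trans (hch z hz)
  · intro l hl z hz hzE
    rcases List.mem_cons.1 hzE with rfl | hzE
    · exact Set.disjoint_left.1 (K.rt.disj l _ hl) hz hy
    · exact hdn z hzE l hz
  · intro l hl z hz h1 h2 h3
    rw [(fr z).2, (fr _).2] at h1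
    rw [(fr z).1] at h2 h3
    rw [(fr _).1] at h3
    obtain ⟨⟨x1, x2⟩, -, -⟩ := hC.win _ hb
    have hb0 := hC.bot
    rw [abs_lt] at h1
    have := K.low a k j hU hj l z hz (by rw [abs_lt]; constructor <;> linarith) (by linarith)
    linarith

/-- a white tile region does not meet the column of a gate of another label -/
theorem lab_col (H : LayU u m M p W A e) (hh : (m : ℝ) * h = u.s) (hAB : A1 ≤ B1) (hB : B1 < h)
    (K : UKin S Ac o i P h A1 B1 w a0 a1 b0 b1 m' W A e) (hU : Use A e a k j)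
    (hj : (-(j : ZMod 3)) = i) {l : ZMod 3} (hl : l ≠ i) {z : ℂ} (hz : z ∈ Ac l)
    (hX : |X (gz h W a) (ge W a) z| ≤ h / 2) (hY : -h ≤ Y (gz h W a) (ge W a) z)
    (hY' : Y (gz h W a) (ge W a) z ≤ 2 * h) : False := by
  obtain ⟨a', j', h1, h2, h3, h4⟩ := K.reg l hl z hz
  obtain ⟨c, hc⟩ := tile_near H hh hU.1.1 hU.1.2 hAB hB h1 hX hY hY'
  obtain ⟨-, u1, u2⟩ := hU
  have e1 := H.lay.g_per' (j' - 3 * c) c
  have e2 := H.lay.g_per' (j' - 3 * c + 1) c
  rw [sub_add_cancel] at e1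
  rw [show j' - 3 * c + 1 + 3 * c = j' + 1 by ring] at e2
  rw [e1] at h2
  rw [e2] at h3
  have k1 : j' - 3 * c = j := by
    rcases lt_trichotomy (j' - 3 * c) j with hlt | heq | hgt
    · exfalso
      have := H.lay.g_mono.monotone (show j' - 3 * c + 1 ≤ j by omega)
      omega
    · exact heq
    · exfalso
      have := H.lay.g_mono.monotone (show j + 1 ≤ j' - 3 * c by omega)
      omega
  apply hl
  rw [← h4, ← hj, ← k1]
  push_cast
  have : (3 : ZMod 3) = 0 := by decide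
  rw [this, zero_mul, sub_zero]

/-- **stem of a white tile** -/
theorem stem_white (H : LayU u m M p W A e) (hh : (m : ℝ) * h = u.s) (hAB : A1 ≤ B1) (hB : B1 < h)
    (hd0 : 0 < d) (hd : 8 * d ≤ h)
    (hcov : ∀ q ∈ frontier u.P, ∀ z, ‖z - q‖ ≤ 20 * h → ∃ s' ∈ S, ‖s' - z‖ < d)
    (K : UKin S Ac o i u.P h A1 B1 w a0 a1 b0 b1 m' W A e) (hU : Use A e a k j)
    (hj : (-(j : ZMod 3)) = i) :
    ∃ b E, UKCx969.Stem S Ac h d (-(j : ZMod 3)) (gz h W a - h * Complex.I * ge W a)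
      (Complex.I * ge W a) b E := by
  have h0 := H.h_pos hh
  obtain ⟨t, D, t1, t2, hD, hp, hg, x0, y0, hW⟩ := gate_co (h := h) H hU.1.1 hU.1.2
  have hge1 : ‖ge W a‖ = 1 := by rw [hg]; exact RegBx523.norm_U4 hD
  have hge : ge W a ≠ 0 := fun h => by rw [h, norm_zero] at hge1; exact zero_ne_one hge1
  have fr : ∀ z, UKCx969.Hgt (gz h W a - h * Complex.I * ge W a) (Complex.I * ge W a) z =
      Y (gz h W a) (ge W a) z + h ∧ UKCx969.Lat (gz h W a - h * Complex.I * ge W a)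
        (Complex.I * ge W a) z = -X (gz h W a) (ge W a) z := fun z => frame_eq hge z
  -- points of the axis of the gate
  have ax : ∀ y : ℝ, X (gz h W a) (ge W a) (gz h W a + y * Complex.I * ge W a) = 0 ∧
      Y (gz h W a) (ge W a) (gz h W a + y * Complex.I * ge W a) = y := by
    intro y
    have e : (gz h W a + y * Complex.I * ge W a - gz h W a) / ge W a = y * Complex.I := by
      rw [add_sub_cancel_left, mul_div_assoc, div_self hge, mul_one]
    unfold X Y
    rw [e]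
    simp
  set c := gz h W a + ((3 / 2 * h : ℝ) : ℂ) * Complex.I * ge W a with hc
  set q := gz h W a + ((-h : ℝ) : ℂ) * Complex.I * ge W a with hq
  have cx := ax (3 / 2 * h)
  have qx := ax (-h)
  have hqP : q ∈ u.P := foot_P H hh hU.1.1 hU.1.2 (by rw [qx.1, abs_zero]; linarith) qx.2
  have hcP : c ∉ u.P := off H hh hU.1.1 hU.1.2 (by rw [cx.1, abs_zero]; linarith)
    (by rw [cx.2]; linarith) (by rw [cx.2]; linarith)
  have hcq : ‖c - q‖ = 5 / 2 * h := by
    have e : c - q = ((5 / 2 * h : ℝ) : ℂ) * Complex.I * ge W a := by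
      rw [hc, hq]; push_cast; ring
    rw [e, norm_mul, norm_mul, hge1, Complex.norm_I, Complex.norm_real, Real.norm_eq_abs,
      abs_of_pos (by linarith)]
    ring
  obtain ⟨f, hf1, hf2⟩ := UKx969.meet_frontier (t := segment ℝ q c)
    (convex_segment q c).isPreconnected ⟨q, left_mem_segment ℝ q c, hqP⟩
    ⟨c, right_mem_segment ℝ q c, hcP⟩
  have hfc : ‖c - f‖ ≤ 5 / 2 * h := by
    have h1 := UKx969.seg_add hf1
    rw [norm_sub_rev q c, hcq] at h1
    rw [norm_sub_rev c f]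
    linarith [norm_nonneg (q - f)]
  obtain ⟨b, hbS, hbc⟩ := hcov f hf2 c (by linarith)
  have hXY := XY_sub (z0 := gz h W a) hge1 b c
  rw [cx.1, cx.2] at hXY
  have hXb := abs_le.1 (hXY.1.trans hbc.le)
  have hYb := abs_le.1 (hXY.2.trans hbc.le)
  have hbi : b ∈ Ac i := by
    refine K.outs b hbS fun z hz => ?_
    by_contra hcon
    push Not at hcon
    obtain ⟨c1, c2⟩ := hcon
    have h5 := XY_box (z0 := gz h W a) hD c1 c2
    rw [← hg] at h5
    obtain ⟨h6, h7⟩ := h5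
    rw [abs_le] at h6 h7
    refine off H hh hU.1.1 hU.1.2 ?_ ?_ ?_ hz
    · rw [abs_le]; constructor <;> linarith
    · linarith
    · linarith
  refine ⟨b, {b}, rfl, ?_, ?_, ⟨b, by rw [hj]; exact hbi, rfl⟩, ?_, ?_⟩
  · rintro z rfl
    rw [(fr z).1, (fr z).2, abs_neg]
    refine ⟨hbS, ?_, ?_, ?_⟩
    · rw [abs_le]; constructor <;> linarith
    · linarith
    · linarith
  · rintro x rfl y rfl
    exact Pth.refl rfl
  · rintro l hl z hz rfl
    rw [hj] at hl
    exact Set.disjoint_left.1 (K.rt.disj l _ hl) hz hbi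
  · intro l hl z hz g1 g2 g3
    rw [(fr z).2, (fr _).2] at g1
    rw [(fr z).1] at g2 g3
    rw [(fr _).1] at g3
    rw [abs_lt] at g1
    rw [hj] at hl
    refine lab_col H hh hAB hB K hU hj hl hz ?_ ?_ ?_
    · rw [abs_le]; constructor <;> linarith
    · linarith
    · linarith

/-- **all stems** -/
theorem stem (H : LayU u m M p W A e) (hh : (m : ℝ) * h = u.s) (hAB : A1 ≤ B1) (hB : B1 < h)
    (hd : 8 * d ≤ h) (hN : Nw h d w a0 a1 b0 b1 m')
    (hcov : ∀ q ∈ frontier u.P, ∀ z, ‖z - q‖ ≤ 20 * h → ∃ s' ∈ S, ‖s' - z‖ < d)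
    (K : UKin S Ac o i u.P h A1 B1 w a0 a1 b0 b1 m' W A e) (hU : Use A e a k j) :
    ∃ b E, UKCx969.Stem S Ac h d (-(j : ZMod 3)) (gz h W a - h * Complex.I * ge W a)
      (Complex.I * ge W a) b E := by
  by_cases hj : (-(j : ZMod 3)) = i
  · exact stem_white H hh hAB hB hN.d0 hd hcov K hU hj
  · refine stem_black hN K (H.h_pos hh) ?_ hU hj
    obtain ⟨t, D, t1, t2, hD, hp, hg, x0, y0, hW⟩ := gate_co (h := h) H hU.1.1 hU.1.2
    have hge1 : ‖ge W a‖ = 1 := by rw [hg]; exact RegBx523.norm_U4 hD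
    exact fun h => by rw [h, norm_zero] at hge1; exact zero_ne_one hge1

end Crest.Agent.R143.StemUx923
end
end

-- ▼ part R143/R10U_930

/-!
# Row 143 (S0194), box R10: the final form for the giants of `U_K` (helper930)

* **`r10u`** : 133's `CorEnv`, 416's layout, 923's `UKin` ⟹ `Con` (923's `Cpl`, window form, 798's
  `fU ≤ θ`) and `Vin ⊆ ff S A`
-/

set_option autoImplicit false

noncomputable section

open scoped Classical ENNReal

namespace Crest.Agent.R143.R10Ux930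

open Set
open Crest.ProbabilityR.Voronoi
open Crest.Agent.R143.K33x877
open Crest.Agent.R143.NetUx346 Crest.Agent.R143.NetVx346
open Crest.Agent.R143.PolyUx346
open Crest.Agent.R143.CorEx133
open Crest.Agent.R143.R10Nx930
open Crest.Agent.R143.R10Px923 (UKin Nw)

/-- no giant near the polygon: the free sites of the polygon are free -/
theorem vin_ff {S : Finset ℂ} {A : ZMod 3 → Set ℂ} {P : Set ℂ} {d h : ℝ} (hh : 0 < h) (hd : 0 ≤ d)
    (hgap : ∀ l, ∀ s ∈ A l, ∀ z ∈ P, h / 2 ≤ ‖s - z‖) : Vin S P d ⊆ ff S A := by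
  intro v hv
  obtain ⟨h1, h2⟩ := Finset.mem_filter.1 hv
  refine mem_ff.2 ⟨h1, fun l hl => ?_⟩
  have := hgap l v hl v (h2 (Metric.mem_closedBall_self (by linarith)))
  rw [sub_self, norm_zero] at this
  linarith

/-- **R10 for the giants of `U_K`** -/
theorem r10u : ∃ C c c1 c2 K : ℝ, 1 ≤ C ∧ 0 < c ∧ 0 < c1 ∧ c1 ≤ 1 ∧ 0 < c2 ∧ 2 ≤ K ∧
    ∀ (u : Poly) (ε h c2c ρ0 : ℝ) (ω : Sample), 0 < h → 100 * h ≤ Du u K → ρ0 ≤ Du u K →
    c2c * Du u K ≤ c2 * h → √ε ≤ c1 * h → 5000 * √ε ≤ h → CorEnv u ε √ε K c2c ρ0 ω →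
    ∀ (m M : ℕ) (p W : ℤ → ℤ × ℤ) (Ai e : ℤ → ℤ), LayUx416.LayU u m M p W Ai e →
    (m : ℝ) * h = u.s → ∀ (A : ZMod 3 → Set ℂ) (o : ℂ × ℂ × ℂ) (i : ZMod 3)
      (A1 B1 w a0 a1 b0 b1 m' : ℝ), A1 ≤ B1 → B1 < h → Nw h √ε w a0 a1 b0 b1 m' →
    UKin (SU u ε ω) A o i u.P h A1 B1 w a0 a1 b0 b1 m' W Ai e →
    Vin (SU u ε ω) u.P √ε ⊆ ff (SU u ε ω) A ∧ ∀ Wd : Set ℂ, u.P ⊆ Wd → Con C c K u ε h ω A Wd := by
  obtain ⟨C, c, c1, c2, K, hC, hc, hc1, hc1', hc2, hK, H⟩ := r10n
  refine ⟨C, c, c1, c2, K, hC, hc, hc1, hc1', hc2, hK, ?_⟩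
  intro u ε h c2c ρ0 ω hh hhD hρ0 hcc hdr hdr' CE m M p W Ai e HL hm A o i A1 B1 w a0 a1 b0 b1 m'
    hAB hB hN hU
  have hε' : 0 < √ε := CE.d0
  have hs1 := s_le u
  have hDs : Du u K ≤ u.s / 4 := min_le_left _ _
  refine ⟨vin_ff hh hε'.le hU.far, fun Wd hWd => ?_⟩
  refine H u ε h c2c ρ0 ω hh hhD hρ0 hcc hdr hdr' CE m M p W Ai e HL hm A o i hU.rt hU.ng hU.far
    (fun b k j hb => ?_) (fun w hw => ?_) Wd hWd
  · refine StemUx923.stem HL hm hAB hB (by linarith) hN (fun q hq z hz => ?_) hU hb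
    have h1 : q ∈ u.P := (UKG5x571.isClosed_P u).frontier_subset hq
    have h2 := P_norm u h1
    have h3 := norm_add_le (z - q) q
    rw [sub_add_cancel] at h3
    obtain ⟨s, h4, h5⟩ := CE.hol z (mem_UU.2 (by linarith)) z
      (by rw [sub_self, norm_zero]; exact hε'.le)
    exact ⟨s, Finset.mem_coe.1 h4, h5⟩
  · by_contra hcon
    push Not at hcon
    refine hw.2 i (hU.outs w (Finset.mem_coe.1 hw.1) fun z hz => ?_)
    by_contra hn
    push Not at hn
    have h1 := P_norm u hz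
    have h2 := Complex.norm_le_abs_re_add_abs_im (w - z)
    have h3 := norm_add_le (w - z) z
    rw [sub_add_cancel] at h3
    linarith [hn.1, hn.2]

end Crest.Agent.R143.R10Ux930
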