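import Crest.Agent.R143.PthG_765
import Crest.Agent.R143.Lay_416

/-!
# R143 (helper765): the corridor net of a label on 416's layout

Types `Tn × Bool` (`true` = full tile, `false` = white link only).
* `ob M α N k` : the tile `k : ZMod M` is one of `α, .., α + N - 1`; `cty` : types of the corridor,
  `cty_add`, `cty_typ`
* `cpth H Hs i` : the corridor of the label `i` as `Pth` (all `M` gates, all `M` tiles)
* `SJ H i` : out tiles `l` with `l - 1, l, l + 1` straight out tiles; `SJ_card`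
* `w3` : the window of the tiles `l - 1, l, l + 1`; `w3_ty` : types `(S, true)` for `l ∈ SJ`
* `rf` : the reference window (straight path); `mean_SJ` : `E[g V_l] = E[g] (u_l / u m)`,
  one number `m` for all polygons, all labels and all `l ∈ SJ`
* `mass`, `mass_ne` : `E g = c^M (E A)^M`
-/

set_option autoImplicit false

noncomputable section

namespace Crest.Agent.R143.CorNx765

open MeasureTheory Set
open Crest.ProbabilityR.Voronoi
open Crest.Agent.R143.PP0x831 Crest.Agent.R143.PWx978 Crest.Agent.R143.Tplx978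
open Crest.Agent.R143.TileRx228 Crest.Agent.R143.PthFx765
open Crest.Agent.R143.LayQx811 Crest.Agent.R143.Layx416
open scoped ENNReal

variable {n M : ℕ} {m : ℤ} {p W : ℤ → ℤ × ℤ} {Ac e : ℤ → ℤ} {A B h ε : ℝ}
  {T : Tpl ε (Tn × Bool)}

/-! ### types -/

/-- the tile `k` is one of `α, .., α + N - 1` -/
def ob (M : ℕ) (α : ℤ) (N : ℕ) (k : ZMod M) : Bool := decide (zc (k - (α : ZMod M)) < N)

theorem ob_add {α : ℤ} {N l : ℕ} (hl : l < M) :
    ob M α N ((α + (l : ℤ) : ℤ) : ZMod M) = decide (l < N) := by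
  unfold ob
  have e : ((α + (l : ℤ) : ℤ) : ZMod M) - (α : ZMod M) = ((l : ℤ) : ZMod M) := by
    push_cast
    ring
  rw [e, zc_lt (n := M - 1) (Or.inr (by omega)) (by omega)]
  simp

/-- types of the corridor of the label `i` -/
def cty (M : ℕ) (W : ℤ → ℤ × ℤ) (Ac e : ℤ → ℤ) (i : ZMod 3) (k : ZMod M) : Tn × Bool :=
  (tn W (zc k), ob M (al Ac e i) (nn Ac e i) k)

theorem cty_typ (i : ZMod 3) : Typ W Prod.fst (cty M W Ac e i) := fun _ => rfl

theorem cty_add (P : FPath M W) (i : ZMod 3) {l : ℕ} (hl : l < M) :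
    cty M W Ac e i ((al Ac e i + (l : ℤ) : ℤ) : ZMod M) =
      (tn W (al Ac e i + l), decide (l < nn Ac e i)) := by
  unfold cty
  rw [ob_add hl, tn_dvd P (zc_dvd _)]

/-- **the corridor of the label `i`** -/
def cpth (P : FPath M W) (Hs : Std T A B h Prod.fst) (Ac e : ℤ → ℤ) (i : ZMod 3) :
    Pth T (ZMod M) (ZMod M) := pth P Hs (cty M W Ac e i) (cty_typ i)



/-! ### straight out tiles -/

/-- out tiles `l` such that `l - 1`, `l`, `l + 1` are straight out tiles -/
def SJ (W : ℤ → ℤ × ℤ) (Ac e : ℤ → ℤ) (i : ZMod 3) : Finset ℕ :=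
  (Finset.range (nn Ac e i)).filter fun l => 1 ≤ l ∧ l + 1 < nn Ac e i ∧
    tn W (al Ac e i + l - 1) = Tn.S ∧ tn W (al Ac e i + l) = Tn.S ∧
      tn W (al Ac e i + l + 1) = Tn.S

theorem mem_SJ {i : ZMod 3} {l : ℕ} : l ∈ SJ W Ac e i ↔ 1 ≤ l ∧ l + 1 < nn Ac e i ∧
    tn W (al Ac e i + l - 1) = Tn.S ∧ tn W (al Ac e i + l) = Tn.S ∧
      tn W (al Ac e i + l + 1) = Tn.S := by
  unfold SJ
  rw [Finset.mem_filter, Finset.mem_range]
  constructor
  · exact fun h => h.2
  · exact fun h => ⟨by omega, h⟩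

theorem SJ_sub (i : ZMod 3) : SJ W Ac e i ⊆ Finset.range (nn Ac e i) := Finset.filter_subset _ _

/-- **few exceptional tiles** -/
theorem SJ_card (H : Lay n M m p W Ac e) (i : ZMod 3) :
    nn Ac e i ≤ (SJ W Ac e i).card + (3 * n + 2) := by
  classical
  set α := al Ac e i with hα
  set N := nn Ac e i with hN
  have hNM : N + 8 ≤ M := H.nn_lt i
  set Bd := (Finset.Ico α (α + M)).filter fun a =>
      ¬ (W a - W (a - 1) = W (a - 1) - W (a - 2) ∧ W (a + 1) - W a = W a - W (a - 1) ∧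
        W (a + 2) - W (a + 1) = W (a + 1) - W a) with hB
  have h1 : Bd.card ≤ 3 * n := H.bad_card α
  have h2 : Finset.range N ⊆ SJ W Ac e i ∪ ((Bd.image fun a => (a - α).toNat) ∪ {0, N - 1}) := by
    intro l hl
    rw [Finset.mem_range] at hl
    by_cases h3 : l ∈ SJ W Ac e i
    · exact Finset.mem_union_left _ h3
    refine Finset.mem_union_right _ ?_
    rw [mem_SJ] at h3
    by_cases h4 : l = 0
    · refine Finset.mem_union_right _ ?_
      rw [h4]
      simp
    by_cases h5 : l = N - 1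
    · refine Finset.mem_union_right _ ?_
      rw [h5]
      simp
    refine Finset.mem_union_left _ (Finset.mem_image.2 ⟨α + l, ?_, by omega⟩)
    rw [hB, Finset.mem_filter, Finset.mem_Ico]
    refine ⟨⟨by omega, by omega⟩, fun h6 => h3 ⟨by omega, by omega, ?_, ?_, ?_⟩⟩
    · rw [tn_eq_S H.fp, show α + (l : ℤ) - 1 + 1 = α + l by ring,
        show α + (l : ℤ) - 1 - 1 = α + l - 2 by ring]
      exact h6.1
    · rw [tn_eq_S H.fp]
      exact h6.2.1
    · rw [tn_eq_S H.fp, show α + (l : ℤ) + 1 + 1 = α + l + 2 by ring,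
        show α + (l : ℤ) + 1 - 1 = α + l by ring]
      exact h6.2.2
  have h3 := Finset.card_le_card h2
  rw [Finset.card_range] at h3
  have h4 := Finset.card_union_le (SJ W Ac e i) ((Bd.image fun a => (a - α).toNat) ∪ {0, N - 1})
  have h5 := Finset.card_union_le (Bd.image fun a => (a - α).toNat) {0, N - 1}
  have h6 : (Bd.image fun a => (a - α).toNat).card ≤ Bd.card := Finset.card_image_le
  have h7 : ({0, N - 1} : Finset ℕ).card ≤ 2 := Finset.card_le_two
  omega

/-! ### windows of three tiles -/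


theorem SJ_ty (P : FPath M W) {i : ZMod 3} (hM : nn Ac e i < M) {l : ℕ} (hl : l ∈ SJ W Ac e i)
    (j : ℕ) (hj : j < 3) :
    cty M W Ac e i ((al Ac e i + l - 1 + (j : ℤ) : ℤ) : ZMod M) = (Tn.S, true) := by
  obtain ⟨h1, h2, h3, h4, h5⟩ := mem_SJ.1 hl
  have e1 : (al Ac e i + l - 1 + (j : ℤ) : ℤ) = al Ac e i + ((l - 1 + j : ℕ) : ℤ) := by omega
  rw [e1, cty_add P i (by omega)]
  have e2 : al Ac e i + ((l - 1 + j : ℕ) : ℤ) = al Ac e i + l - 1 + (j : ℤ) := e1.symm
  rw [e2]
  refine Prod.ext ?_ ?_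
  · show tn W (al Ac e i + l - 1 + (j : ℤ)) = Tn.S
    interval_cases j
    · simpa using h3
    · rw [show al Ac e i + (l : ℤ) - 1 + ((1 : ℕ) : ℤ) = al Ac e i + l by push_cast; ring]
      exact h4
    · rw [show al Ac e i + (l : ℤ) - 1 + ((2 : ℕ) : ℤ) = al Ac e i + l + 1 by push_cast; ring]
      exact h5
  · show decide (l - 1 + j < nn Ac e i) = true
    rw [decide_eq_true_eq]
    omega

/-- **the window of the tiles `l - 1, l, l + 1`**, `l ∈ SJ` -/
def w3 (P : FPath M W) (Hs : Std T A B h Prod.fst) {i : ZMod 3} (hM : nn Ac e i < M)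
    (hM3 : Pr M 3) {l : ℕ} (hl : l ∈ SJ W Ac e i) :
    Win (cpth P Hs Ac e i) 3 fun _ => (Tn.S, true) :=
  win P Hs (cty_typ i) hM3 (al Ac e i + l - 1) (SJ_ty P hM hl)

/-- the straight path -/
def lpth (Hs : Std T A B h Prod.fst) : Pth T (ZMod 0) (ZMod 0) :=
  pth line Hs (fun _ => (Tn.S, true)) (line_typ rfl)

/-- **the reference window**: tiles `0, 1, 2` of the straight path -/
def rf (Hs : Std T A B h Prod.fst) : Win (lpth Hs) 3 fun _ => (Tn.S, true) :=
  win line Hs (line_typ rfl) (Or.inl rfl) 0 fun _ _ => rfl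




theorem mass [DecidableEq (ZMod M)] [Fintype (ZMod M)] (P : FPath M W)
    (Hs : Std T A B h Prod.fst) (i : ZMod 3) :
    ∫⁻ ω, (cpth P Hs Ac e i).net.gw Finset.univ Finset.univ (cfg ε ω) ∂sampleLaw =
      T.c ^ M * (∫⁻ ω, T.A (cfg ε ω) ∂sampleLaw) ^ M := by
  rw [Win.piece_mass fun _ _ => ⟨Finset.mem_univ _, Finset.mem_univ _⟩]
  have : (Finset.univ : Finset (ZMod M)).card = M := by
    rw [Finset.card_univ, ZMod.card]
  rw [this]


end Crest.Agent.R143.CorNx765
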