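import Crest.Agent.R143.TplI_204
import Crest.Agent.R143.CorN_765

/-!
# R143 (helper765): the weight of the corridor of a label

* `std_raw`, `std_tpl` : 204's template (`DT.raw.tpl`, `DT.tpl`) has 765's standard boxes
* `gC` : the weight of the corridor of the label `i` (all gates, all tiles)
* `Rall A B h W` : the union of the tiles; `reg_eq` : it is the region of the net; `Rall_meas`,
  `Rall_bdd`
* `gC_local`, `gC_fm`, `gC_le` (finite configurations), `gC_le_one`, `gC_meas`, `lint_gC`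
* `gR` : the real weight `(gC (cfg ε ω)).toReal` : `gR_nonneg`, `gR_le`, `gR_meas`, `gR_int`,
  `int_gR`, `int_gR_pos`
-/

set_option autoImplicit false

noncomputable section

namespace Crest.Agent.R143.CorNx765

open MeasureTheory Set
open Crest.ProbabilityR.Voronoi
open Crest.Agent.R143.PP0x831 Crest.Agent.R143.Poisx304 Crest.Agent.R143.Janx304
open Crest.Agent.R143.IndLocx279 Crest.Agent.R143.PWx978 Crest.Agent.R143.Tplx978
open Crest.Agent.R143.TileRx228 Crest.Agent.R143.PthFx765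
open Crest.Agent.R143.LayQx811 Crest.Agent.R143.Layx416 Crest.Agent.R143.TplIx204
open scoped ENNReal

variable {M : ℕ} {W : ℤ → ℤ × ℤ} {Ac e : ℤ → ℤ} {A B h ε : ℝ} {T : Tpl ε (Tn × Bool)}

/-- **204's template (forced events) has the standard boxes** -/
theorem std_raw (D : DT) (hε : 0 < ε) {c : ℝ≥0∞} (c0 : c ≠ 0) (c1 : c ≤ 1) (hA : 0 < D.A')
    (hAB : D.A' ≤ D.B') (hh : D.A' + D.B' < D.h) :
    Std (D.raw ε hε c c0 c1).tpl D.A' D.B' D.h Prod.fst :=
  ⟨rfl, fun _ => rfl, fun _ => rfl, hA, hAB, hh⟩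


/-! ### the region -/

/-- the union of the tiles -/
def Rall (A B h : ℝ) (W : ℤ → ℤ × ℤ) : Set ℂ := ⋃ a : ℤ, RR A B h W a

variable (P : FPath M W) (Hs : Std T A B h Prod.fst) (i : ZMod 3)

section
variable [DecidableEq (ZMod M)] [Fintype (ZMod M)]

/-- **the region of the net** -/
theorem reg_eq : (cpth P Hs Ac e i).net.reg Finset.univ Finset.univ = Rall A B h W := by
  ext s
  unfold Net.reg Rall
  simp only [Finset.mem_univ, iUnion_true, mem_union, mem_iUnion]
  constructor
  · rintro (⟨k, hk⟩ | ⟨k, hk⟩)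
    · have h1 := net_B P Hs (cty_typ (Ac := Ac) (e := e) i) (zc k)
      rw [zc_cast] at h1
      have h2 : s ∈ GB A B h W (zc k) := by
        rw [← h1]
        exact hk
      exact ⟨zc k, GB_sub P Hs.hA Hs.hB _ h2⟩
    · have h1 := net_C P Hs (cty_typ (Ac := Ac) (e := e) i) (zc k)
      rw [zc_cast] at h1
      have h2 : s ∈ TB A B h W (zc k) := by
        rw [← h1]
        exact hk
      exact ⟨zc k, h2.1⟩
  · rintro ⟨a, ha⟩
    by_cases h1 : s ∈ GB A B h W a
    · left
      refine ⟨(a : ZMod M), ?_⟩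
      have := net_B P Hs (cty_typ (Ac := Ac) (e := e) i) a
      rw [← this] at h1
      exact h1
    by_cases h2 : s ∈ GB A B h W (a + 1)
    · left
      refine ⟨((a + 1 : ℤ) : ZMod M), ?_⟩
      have := net_B P Hs (cty_typ (Ac := Ac) (e := e) i) (a + 1)
      rw [← this] at h2
      exact h2
    · right
      refine ⟨(a : ZMod M), ?_⟩
      have h3 : s ∈ TB A B h W a := ⟨ha, fun h3 => h3.elim h1 h2⟩
      have := net_C P Hs (cty_typ (Ac := Ac) (e := e) i) a
      rw [← this] at h3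
      exact h3

end



/-! ### the weight -/

variable [Fintype (ZMod M)]

/-- **the weight of the corridor of the label `i`** -/
def gC (P : FPath M W) (Hs : Std T A B h Prod.fst) (Ac e : ℤ → ℤ) (i : ZMod 3) : Cf → ℝ≥0∞ :=
  (cpth P Hs Ac e i).net.gw Finset.univ Finset.univ

theorem hNu (k : ZMod M) (_ : k ∈ (Finset.univ : Finset (ZMod M))) :
    (cpth P Hs Ac e i).net.N k ⊆ Finset.univ := Finset.subset_univ _





theorem gC_le_one (ω : Sample) : gC P Hs Ac e i (cfg ε ω) ≤ 1 := Net.gw_le_one _ (hNu P Hs i) ω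

theorem gC_meas : Measurable fun ω => gC P Hs Ac e i (cfg ε ω) :=
  meas_fun T.eps (Net.reg_meas (cpth P Hs Ac e i).net Finset.univ Finset.univ) (Net.reg_bdd _ _ _)
    (Net.gw_local _ (hNu P Hs i)) (Net.gw_meas _ _ _)


/-- the real weight -/
def gR (P : FPath M W) (Hs : Std T A B h Prod.fst) (Ac e : ℤ → ℤ) (i : ZMod 3) (ω : Sample) : ℝ :=
  (gC P Hs Ac e i (cfg ε ω)).toReal

theorem gR_nonneg (ω : Sample) : 0 ≤ gR P Hs Ac e i ω := ENNReal.toReal_nonneg




theorem int_gR : ∫ ω, gR P Hs Ac e i ω ∂sampleLaw =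
    (∫⁻ ω, gC P Hs Ac e i (cfg ε ω) ∂sampleLaw).toReal :=
  integral_toReal (gC_meas P Hs i).aemeasurable
    (Filter.Eventually.of_forall fun ω => (gC_le_one P Hs i ω).trans_lt ENNReal.one_lt_top)



end Crest.Agent.R143.CorNx765
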