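import Mathlib
import Crest.Agent.R143.ES_831
import Crest.Agent.R143.PP0_831
import Crest.Agent.R143.Law_831

-- ▼ part R143/Pois_304
section

/-!
# R143 (helper304, block M, leaf M2): the exponential formula for finite random sets

* `FM G` : `G` of `n` points is measurable
* `J μ G = e^(-|μ|) ∑ 1/n! ∫ G(range z) dμ^n`
* `J_add` : superposition `J (μ + ν) G = J μ (S ↦ J ν (T ↦ G (S ∪ T)))`
* `FRS` : finite random sets, closed under union, `FM` functionals of them are measurable
* `blocks` : independent blocks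
-/

set_option autoImplicit false
set_option linter.unusedSectionVars false

noncomputable section

namespace Crest.Agent.R143.Poisx304

open MeasureTheory Set
open scoped ENNReal Nat

variable {E : Type*} [MeasurableSpace E]

/-- `G` of `n` points is a measurable function of the points -/
def FM (G : Set E → ℝ≥0∞) : Prop := ∀ n : ℕ, Measurable fun z : Fin n → E => G (range z)

/-- integral over `n` points -/
def P (μ : Measure E) (n : ℕ) (G : Set E → ℝ≥0∞) : ℝ≥0∞ :=
  ∫⁻ z, G (range z) ∂(Measure.pi fun _ : Fin n => μ)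

def Q (μ : Measure E) (n : ℕ) (G : Set E → ℝ≥0∞) : ℝ≥0∞ := (n ! : ℝ≥0∞)⁻¹ * P μ n G

def J (μ : Measure E) (G : Set E → ℝ≥0∞) : ℝ≥0∞ :=
  ENNReal.ofReal (Real.exp (-(μ univ).toReal)) * ∑' n : ℕ, Q μ n G

lemma range_app {k m : ℕ} (x : Fin k → E) (y : Fin m → E) :
    range (Fin.append x y) = range x ∪ range y := by
  ext e
  simp only [mem_range, mem_union]
  constructor
  · rintro ⟨i, hi⟩
    induction i using Fin.addCases with
    | left i => left; exact ⟨i, by simpa using hi⟩
    | right i => right; exact ⟨i, by simpa using hi⟩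
  · rintro (⟨i, hi⟩ | ⟨i, hi⟩)
    · exact ⟨Fin.castAdd m i, by simpa using hi⟩
    · exact ⟨Fin.natAdd k i, by simpa using hi⟩

lemma measurable_app {k m : ℕ} :
    Measurable fun p : (Fin k → E) × (Fin m → E) => (Fin.append p.1 p.2 : Fin (k + m) → E) := by
  rw [measurable_pi_iff]
  intro i
  induction i using Fin.addCases with
  | left i => simp only [Fin.append_left]; fun_prop
  | right i => simp only [Fin.append_right]; fun_prop

lemma measurable_cons {m : ℕ} :
    Measurable fun p : E × (Fin m → E) => (Fin.cons p.1 p.2 : Fin (m + 1) → E) := by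
  rw [measurable_pi_iff]
  intro i
  induction i using Fin.cases with
  | zero => simp only [Fin.cons_zero]; fun_prop
  | succ i => simp only [Fin.cons_succ]; fun_prop

variable {G : Set E → ℝ≥0∞}

lemma FM.insert_meas (hG : FM G) (m : ℕ) :
    Measurable fun p : E × (Fin m → E) => G (insert p.1 (range p.2)) := by
  have := (hG (m + 1)).comp (measurable_cons (E := E) (m := m))
  simpa only [Function.comp_def, Fin.range_cons] using this

lemma FM.union_meas (hG : FM G) (k m : ℕ) :
    Measurable fun p : (Fin k → E) × (Fin m → E) => G (range p.1 ∪ range p.2) := by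
  have := (hG (k + m)).comp (measurable_app (E := E) (k := k) (m := m))
  simpa only [Function.comp_def, range_app] using this

lemma FM.triple_meas (hG : FM G) (k m : ℕ) :
    Measurable fun p : (E × (Fin k → E)) × (Fin m → E) =>
      G (insert p.1.1 (range p.1.2 ∪ range p.2)) := by
  have h := (hG.insert_meas (k + m)).comp
    ((measurable_fst.comp (measurable_fst (α := E × (Fin k → E)) (β := Fin m → E))).prodMk
      ((measurable_app (E := E) (k := k) (m := m)).comp
        ((measurable_snd.comp measurable_fst).prodMk measurable_snd)))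
  simpa only [Function.comp_def, range_app] using h

lemma FM.insert (hG : FM G) (a : E) : FM fun S => G (insert a S) := fun n =>
  (hG.insert_meas n).comp (measurable_const.prodMk measurable_id)

lemma FM.union_range (hG : FM G) {k : ℕ} (x : Fin k → E) : FM fun S => G (range x ∪ S) := fun n =>
  (hG.union_meas k n).comp (measurable_const.prodMk measurable_id)

lemma FM.const_mul (hG : FM G) (c : ℝ≥0∞) : FM fun S => c * G S := fun n =>
  (hG n).const_mul c

lemma P_meas {X : Type*} [MeasurableSpace X] {μ : Measure E} [SigmaFinite μ] {n : ℕ}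
    {H : X → Set E → ℝ≥0∞} (h : Measurable fun p : X × (Fin n → E) => H p.1 (range p.2)) :
    Measurable fun x => P μ n (H x) := by
  unfold P
  exact h.lintegral_prod_right'

lemma Q_meas {X : Type*} [MeasurableSpace X] {μ : Measure E} [SigmaFinite μ] {n : ℕ}
    {H : X → Set E → ℝ≥0∞} (h : Measurable fun p : X × (Fin n → E) => H p.1 (range p.2)) :
    Measurable fun x => Q μ n (H x) := by
  unfold Q
  exact (P_meas h).const_mul _

lemma J_meas {X : Type*} [MeasurableSpace X] {μ : Measure E} [SigmaFinite μ]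
    {H : X → Set E → ℝ≥0∞}
    (h : ∀ n : ℕ, Measurable fun p : X × (Fin n → E) => H p.1 (range p.2)) :
    Measurable fun x => J μ (H x) := by
  unfold J
  exact (Measurable.tsum fun n => Q_meas (h n)).const_mul _

lemma FM.J {ν : Measure E} [SigmaFinite ν] (hG : FM G) : FM fun S => J ν fun T => G (S ∪ T) :=
  fun k => J_meas fun m => hG.union_meas k m

lemma P_zero (μ : Measure E) [SigmaFinite μ] (G : Set E → ℝ≥0∞) : P μ 0 G = G ∅ := by
  unfold P
  have : ∀ z : Fin 0 → E, G (range z) = G ∅ := fun z => by rw [range_eq_empty]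
  simp only [this, lintegral_const, Measure.pi_univ, Finset.univ_eq_empty, Finset.prod_empty,
    mul_one]

lemma symm_app {n : ℕ} (q : E × (Fin n → E)) :
    (MeasurableEquiv.piFinSuccAbove (fun _ : Fin (n + 1) => E) 0).symm q = Fin.cons q.1 q.2 := by
  simp [MeasurableEquiv.piFinSuccAbove, Fin.insertNthEquiv, Fin.insertNth_zero']

lemma P_succ (μ : Measure E) [SigmaFinite μ] (n : ℕ) (hG : FM G) :
    P μ (n + 1) G = ∫⁻ a, P μ n (fun S => G (insert a S)) ∂μ := by
  have h := (measurePreserving_piFinSuccAbove (fun _ : Fin (n + 1) => μ) 0).symm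
  unfold P
  rw [← h.lintegral_comp (hG (n + 1)), lintegral_prod]
  · refine lintegral_congr fun a => lintegral_congr fun z => ?_
    rw [symm_app]
    simp only [Fin.range_cons]
  · have := hG.insert_meas n
    refine Measurable.aemeasurable ?_
    convert this using 2 with p
    rw [← Fin.range_cons, symm_app]

lemma fact_aux (n : ℕ) : ((n + 1 : ℕ) : ℝ≥0∞) * (((n + 1) ! : ℕ) : ℝ≥0∞)⁻¹ = ((n ! : ℕ) : ℝ≥0∞)⁻¹ := by
  rw [Nat.factorial_succ, Nat.cast_mul, ENNReal.mul_inv (by left; simp) (by left; simp),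
    ← mul_assoc, ENNReal.mul_inv_cancel (by simp) (by simp), one_mul]

lemma Q_zero (μ : Measure E) [SigmaFinite μ] (G : Set E → ℝ≥0∞) : Q μ 0 G = G ∅ := by
  simp [Q, P_zero]

lemma Q_succ (μ : Measure E) [SigmaFinite μ] (n : ℕ) (hG : FM G) :
    ((n + 1 : ℕ) : ℝ≥0∞) * Q μ (n + 1) G = ∫⁻ a, Q μ n (fun S => G (insert a S)) ∂μ := by
  unfold Q
  rw [← mul_assoc, fact_aux, P_succ μ n hG, lintegral_const_mul]
  exact P_meas (hG.insert_meas n)

lemma Q_swap (μ ν : Measure E) [SigmaFinite μ] [SigmaFinite ν] (k m : ℕ) (hG : FM G) :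
    ∫⁻ a, Q μ k (fun S => Q ν m fun T => G (insert a (S ∪ T))) ∂ν =
      ((m + 1 : ℕ) : ℝ≥0∞) * Q μ k (fun S => Q ν (m + 1) fun T => G (S ∪ T)) := by
  have h3 : Measurable fun p : E × (Fin k → E) =>
      Q ν m fun T => G (insert p.1 (range p.2 ∪ T)) :=
    Q_meas (X := E × (Fin k → E)) (H := fun p T => G (insert p.1 (range p.2 ∪ T)))
      (hG.triple_meas k m)
  have h1 : ∀ a, Q μ k (fun S => Q ν m fun T => G (insert a (S ∪ T))) =
      (k ! : ℝ≥0∞)⁻¹ * ∫⁻ x, Q ν m (fun T => G (insert a (range x ∪ T)))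
        ∂(Measure.pi fun _ : Fin k => μ) := fun a => rfl
  simp only [h1]
  rw [lintegral_const_mul _ h3.lintegral_prod_right', lintegral_lintegral_swap h3.aemeasurable]
  have h2 : ∀ x : Fin k → E, ∫⁻ a, Q ν m (fun T => G (insert a (range x ∪ T))) ∂ν =
      ((m + 1 : ℕ) : ℝ≥0∞) * Q ν (m + 1) (fun T => G (range x ∪ T)) := by
    intro x
    rw [Q_succ ν m (hG.union_range x)]
    simp only [union_insert]
  simp only [h2]
  rw [lintegral_const_mul]
  · rw [mul_left_comm]
    rfl
  · exact Q_meas (X := Fin k → E) (H := fun x T => G (range x ∪ T)) (hG.union_meas k (m + 1))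

lemma FM.Q {ν : Measure E} [SigmaFinite ν] (hG : FM G) (m : ℕ) :
    FM fun S => Q ν m fun T => G (S ∪ T) :=
  fun k => Q_meas (X := Fin k → E) (H := fun x T => G (range x ∪ T)) (hG.union_meas k m)

lemma Q_add (μ ν : Measure E) [SigmaFinite μ] [SigmaFinite ν] (n : ℕ) :
    ∀ G : Set E → ℝ≥0∞, FM G → Q (μ + ν) n G =
      ∑ p ∈ Finset.HasAntidiagonal.antidiagonal n, Q μ p.1 (fun S => Q ν p.2 fun T => G (S ∪ T)) := by
  induction n with
  | zero => intro G _; simp [Q_zero]
  | succ n ih =>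
    intro G hG
    have hne : ((n + 1 : ℕ) : ℝ≥0∞) ≠ 0 := by simp
    have hnt : ((n + 1 : ℕ) : ℝ≥0∞) ≠ ∞ := by simp
    rw [← ENNReal.mul_right_inj hne hnt, Q_succ _ _ hG, lintegral_add_measure]
    have hIH : ∀ a, Q (μ + ν) n (fun S => G (insert a S)) =
        ∑ p ∈ Finset.HasAntidiagonal.antidiagonal n, Q μ p.1 (fun S => Q ν p.2 fun T => G (insert a (S ∪ T))) :=
      fun a => ih _ (hG.insert a)
    simp only [hIH]
    have hm : ∀ p : ℕ × ℕ, Measurable fun a : E =>
        Q μ p.1 (fun S => Q ν p.2 fun T => G (insert a (S ∪ T))) := fun p =>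
      Q_meas (X := E) (H := fun a S => Q ν p.2 fun T => G (insert a (S ∪ T)))
        (Q_meas (X := E × (Fin p.1 → E)) (H := fun q T => G (insert q.1 (range q.2 ∪ T)))
          (hG.triple_meas p.1 p.2))
    rw [lintegral_finsetSum _ fun p _ => hm p, lintegral_finsetSum _ fun p _ => hm p]
    have h1 : ∀ p : ℕ × ℕ, ∫⁻ a, Q μ p.1 (fun S => Q ν p.2 fun T => G (insert a (S ∪ T))) ∂μ =
        ((p.1 + 1 : ℕ) : ℝ≥0∞) * Q μ (p.1 + 1) (fun S => Q ν p.2 fun T => G (S ∪ T)) := by
      intro p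
      rw [Q_succ μ p.1 (hG.Q p.2)]
      simp only [insert_union]
    have h2 : ∀ p : ℕ × ℕ, ∫⁻ a, Q μ p.1 (fun S => Q ν p.2 fun T => G (insert a (S ∪ T))) ∂ν =
        ((p.2 + 1 : ℕ) : ℝ≥0∞) * Q μ p.1 (fun S => Q ν (p.2 + 1) fun T => G (S ∪ T)) := fun p =>
      Q_swap μ ν p.1 p.2 hG
    simp only [h1, h2]
    set c : ℕ → ℕ → ℝ≥0∞ := fun k m => Q μ k (fun S => Q ν m fun T => G (S ∪ T)) with hc
    have e1 : ∑ p ∈ Finset.HasAntidiagonal.antidiagonal (n + 1), ((p.1 : ℕ) : ℝ≥0∞) * c p.1 p.2 =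
        ∑ p ∈ Finset.HasAntidiagonal.antidiagonal n, ((p.1 + 1 : ℕ) : ℝ≥0∞) * c (p.1 + 1) p.2 := by
      rw [Finset.Nat.sum_antidiagonal_succ]
      simp
    have e2 : ∑ p ∈ Finset.HasAntidiagonal.antidiagonal (n + 1), ((p.2 : ℕ) : ℝ≥0∞) * c p.1 p.2 =
        ∑ p ∈ Finset.HasAntidiagonal.antidiagonal n, ((p.2 + 1 : ℕ) : ℝ≥0∞) * c p.1 (p.2 + 1) := by
      rw [Finset.Nat.sum_antidiagonal_succ']
      simp
    have e3 : ((n + 1 : ℕ) : ℝ≥0∞) * ∑ p ∈ Finset.HasAntidiagonal.antidiagonal (n + 1), c p.1 p.2 =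
        ∑ p ∈ Finset.HasAntidiagonal.antidiagonal (n + 1), ((p.1 : ℕ) : ℝ≥0∞) * c p.1 p.2 +
          ∑ p ∈ Finset.HasAntidiagonal.antidiagonal (n + 1), ((p.2 : ℕ) : ℝ≥0∞) * c p.1 p.2 := by
      rw [Finset.mul_sum, ← Finset.sum_add_distrib]
      refine Finset.sum_congr rfl fun p hp => ?_
      rw [← add_mul, ← Nat.cast_add, Finset.HasAntidiagonal.mem_antidiagonal.1 hp]
    rw [e3, e1, e2]

lemma tsum_anti (f : ℕ → ℕ → ℝ≥0∞) :
    ∑' n, ∑ p ∈ Finset.HasAntidiagonal.antidiagonal n, f p.1 p.2 = ∑' k, ∑' m, f k m := by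
  rw [← ENNReal.tsum_prod (f := f),
    ← Finset.HasAntidiagonal.sigmaAntidiagonalEquivProd.tsum_eq (fun p : ℕ × ℕ => f p.1 p.2), ENNReal.tsum_sigma']
  refine tsum_congr fun n => ?_
  rw [tsum_fintype]
  simp only [Finset.HasAntidiagonal.sigmaAntidiagonalEquivProd_apply]
  rw [Finset.sum_coe_sort (Finset.HasAntidiagonal.antidiagonal n) (fun p : ℕ × ℕ => f p.1 p.2)]

theorem J_add (μ ν : Measure E) [IsFiniteMeasure μ] [IsFiniteMeasure ν] (hG : FM G) :
    J (μ + ν) G = J μ (fun S => J ν fun T => G (S ∪ T)) := by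
  unfold J
  simp only [Q_add μ ν _ G hG]
  rw [tsum_anti (fun k m => Q μ k fun S => Q ν m fun T => G (S ∪ T))]
  have h1 : ∀ k, Q μ k (fun S => ENNReal.ofReal (Real.exp (-(ν univ).toReal)) *
      ∑' m, Q ν m fun T => G (S ∪ T)) = ENNReal.ofReal (Real.exp (-(ν univ).toReal)) *
        ∑' m, Q μ k fun S => Q ν m fun T => G (S ∪ T) := by
    intro k
    unfold Q P
    rw [lintegral_const_mul, lintegral_tsum]
    · rw [mul_left_comm, ENNReal.tsum_mul_left]
    · intro m
      exact ((hG.Q (ν := ν) m) k).aemeasurable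
    · exact Measurable.tsum fun m => (hG.Q (ν := ν) m) k
  simp only [h1]
  rw [ENNReal.tsum_mul_left, ← mul_assoc, ← ENNReal.ofReal_mul (Real.exp_pos _).le, ← Real.exp_add]
  congr 3
  rw [Measure.add_apply, ENNReal.toReal_add (measure_ne_top μ _) (measure_ne_top ν _)]
  ring

/-! ## finite random sets -/

section frs

variable {X Y : Type*} [MeasurableSpace X] [MeasurableSpace Y]

/-- a finite random set -/
def FRS (S : X → Set E) : Prop :=
  ∃ (n : X → ℕ) (y : ℕ → X → E), Measurable n ∧ (∀ j, Measurable (y j)) ∧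
    ∀ x, S x = (fun j => y j x) '' {j | j < n x}

lemma image_lt (n : ℕ) (y : ℕ → E) : y '' {j | j < n} = range fun i : Fin n => y i := by
  ext e
  simp only [mem_image, mem_ofPred_eq, mem_range]
  constructor
  · rintro ⟨j, hj, rfl⟩; exact ⟨⟨j, hj⟩, rfl⟩
  · rintro ⟨i, rfl⟩; exact ⟨i, i.2, rfl⟩

lemma FRS.range {S : X → Set E} (hS : FRS S) (x : X) :
    ∃ (k : ℕ) (w : Fin k → E), S x = range w := by
  obtain ⟨n, y, -, -, h⟩ := hS
  exact ⟨n x, fun i => y i x, by rw [h, image_lt]⟩

theorem FRS.meas {S : X → Set E} (hS : FRS S) (hG : FM G) : Measurable fun x => G (S x) := by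
  obtain ⟨n, y, hn, hy, h⟩ := hS
  have H : Measurable fun q : ℕ × X => G ((fun j => y j q.2) '' {j | j < q.1}) := by
    refine measurable_from_prod_countable_right fun m => ?_
    simp only [image_lt]
    exact (hG m).comp (measurable_pi_iff.2 fun i => hy i)
  simp only [h]
  exact H.comp (hn.prodMk measurable_id)

lemma FRS.comp {S : X → Set E} (hS : FRS S) {f : Y → X} (hf : Measurable f) :
    FRS fun z => S (f z) := by
  obtain ⟨n, y, hn, hy, h⟩ := hS
  exact ⟨fun z => n (f z), fun j z => y j (f z), hn.comp hf, fun j => (hy j).comp hf,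
    fun z => h (f z)⟩

lemma FRS.empty [Nonempty E] : FRS fun _ : X => (∅ : Set E) :=
  ⟨fun _ => 0, fun _ _ => Classical.arbitrary E, measurable_const, fun _ => measurable_const,
    fun x => by simp⟩

lemma FRS.union {S T : X → Set E} (hS : FRS S) (hT : FRS T) : FRS fun x => S x ∪ T x := by
  classical
  obtain ⟨n, y, hn, hy, h⟩ := hS
  obtain ⟨n', y', hn', hy', h'⟩ := hT
  have H : Measurable fun q : ℕ × X => y' q.1 q.2 :=
    measurable_from_prod_countable_right fun m => hy' m
  refine ⟨fun x => n x + n' x, fun j x => if j < n x then y j x else y' (j - n x) x,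
    hn.add hn', fun j => ?_, fun x => ?_⟩
  · refine Measurable.ite ?_ (hy j) ?_
    · exact measurableSet_lt measurable_const hn
    · exact H.comp (((measurable_of_countable fun m : ℕ => j - m).comp hn).prodMk measurable_id)
  · show S x ∪ T x = (fun j => if j < n x then y j x else y' (j - n x) x) '' {j | j < n x + n' x}
    rw [h, h']
    ext e
    simp only [mem_union, mem_image, mem_ofPred_eq]
    constructor
    · rintro (⟨j, hj, rfl⟩ | ⟨j, hj, rfl⟩)
      · exact ⟨j, by omega, by rw [if_pos hj]⟩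
      · refine ⟨n x + j, by omega, ?_⟩
        rw [if_neg (by omega), Nat.add_sub_cancel_left]
    · rintro ⟨j, hj, rfl⟩
      by_cases hjn : j < n x
      · left; exact ⟨j, hjn, by rw [if_pos hjn]⟩
      · right; exact ⟨j - n x, by omega, by rw [if_neg hjn]⟩

lemma FRS.biUnion [Nonempty E] {ι : Type*} (s : Finset ι) (S : ι → X → Set E)
    (h : ∀ k, FRS (S k)) : FRS fun x => ⋃ k ∈ s, S k x := by
  classical
  induction s using Finset.induction_on with
  | empty => simpa using FRS.empty (E := E) (X := X)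
  | insert k s hk ih => simpa only [Finset.set_biUnion_insert] using (h k).union ih

end frs

/-! ## independent blocks -/

lemma J_zero (G : Set E → ℝ≥0∞) : J 0 G = G ∅ := by
  unfold J
  rw [tsum_eq_single 0]
  · simp [Q_zero]
  · intro n hn
    unfold Q P
    obtain ⟨m, rfl⟩ := Nat.exists_eq_succ_of_ne_zero hn
    have : (Measure.pi fun _ : Fin (m + 1) => (0 : Measure E)) = 0 := by
      rw [← Measure.measure_univ_eq_zero, Measure.pi_univ]
      simp
    rw [this]
    simp

theorem blocks [Nonempty E] {ι : Type*} {X : Type*} [MeasurableSpace X] (π : Measure X)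
    [IsProbabilityMeasure π] (blk : ι → X → Set E) (hb : ∀ k, FRS (blk k))
    (μ : ι → Measure E) [∀ k, IsFiniteMeasure (μ k)]
    (h : ∀ k, ∀ G : Set E → ℝ≥0∞, FM G → ∫⁻ x, G (blk k x) ∂π = J (μ k) G) (s : Finset ι) :
    ∀ G : Set E → ℝ≥0∞, FM G →
      ∫⁻ x, G (⋃ k ∈ s, blk k (x k)) ∂(Measure.infinitePi fun _ : ι => π) =
        J (∑ k ∈ s, μ k) G := by
  classical
  induction s using Finset.induction_on with
  | empty => intro G _; simp [J_zero]
  | insert k s hk ih =>
    intro G hG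
    have hfrs : FRS fun x : ι → X => ⋃ j ∈ insert k s, blk j (x j) :=
      FRS.biUnion _ (fun j (x : ι → X) => blk j (x j))
        fun j => (hb j).comp (measurable_pi_apply j)
    have hmp := ESx831.mp_update (fun _ : ι => π) k
    rw [← hmp.lintegral_comp (hfrs.meas hG)]
    refine (lintegral_prod_symm' _ ((hfrs.meas hG).comp hmp.measurable)).trans ?_
    have h1 : ∀ (a : X) (x : ι → X), (⋃ j ∈ insert k s, blk j (Function.update x k a j)) =
        blk k a ∪ ⋃ j ∈ s, blk j (x j) := by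
      intro a x
      rw [Finset.set_biUnion_insert, Function.update_self]
      congr 1
      refine iUnion₂_congr fun j hj => ?_
      rw [Function.update_of_ne (by rintro rfl; exact hk hj)]
    simp only [Function.comp_apply, h1]
    have h2 : ∀ a : X, ∫⁻ x, G (blk k a ∪ ⋃ j ∈ s, blk j (x j)) ∂(Measure.infinitePi fun _ : ι => π) =
        J (∑ k ∈ s, μ k) fun T => G (blk k a ∪ T) := by
      intro a
      obtain ⟨m, w, hw⟩ := (hb k).range a
      rw [hw]
      exact ih (fun T => G (range w ∪ T)) (hG.union_range w)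
    simp only [h2]
    rw [h k (fun S => J (∑ k ∈ s, μ k) fun T => G (S ∪ T)) hG.J, Finset.sum_insert hk,
      J_add _ _ hG]

lemma fin_mp (ν : Measure E) [IsProbabilityMeasure ν] (n : ℕ) :
    MeasurePreserving (fun (x : ℕ → E) (i : Fin n) => x i) (Measure.infinitePi fun _ : ℕ => ν)
      (Measure.pi fun _ : Fin n => ν) := by
  refine ⟨measurable_pi_iff.2 fun i => measurable_pi_apply _, ?_⟩
  symm
  apply Measure.pi_eq
  intro s hs
  rw [Measure.map_apply (f := fun (x : ℕ → E) (i : Fin n) => x i)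
    (measurable_pi_iff.2 fun i => measurable_pi_apply _) (MeasurableSet.univ_pi hs)]
  classical
  have : (fun (x : ℕ → E) (i : Fin n) => x i) ⁻¹' (Set.pi univ s) =
      Set.pi ((Finset.range n : Finset ℕ) : Set ℕ)
        (fun j => if h : j < n then s ⟨j, h⟩ else univ) := by
    ext x
    simp only [mem_preimage, Set.mem_pi, mem_univ, true_implies, Finset.coe_range, mem_Iio]
    constructor
    · intro h j hj
      rw [dif_pos hj]
      exact h ⟨j, hj⟩
    · intro h i
      have := h i i.2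
      rwa [dif_pos i.2] at this
  rw [this, Measure.infinitePi_pi, Finset.prod_range]
  · refine Finset.prod_congr rfl fun i _ => ?_
    rw [dif_pos i.2]
  · intro j _
    split_ifs
    · exact hs _
    · exact MeasurableSet.univ

/-- a block with a Poisson(1) number of independent points -/
theorem poisson_block {Y : Type*} [MeasurableSpace Y] (ρ : Measure Y) [IsProbabilityMeasure ρ]
    (f : Y → E) (hf : Measurable f) (hG : FM G) :
    ∫⁻ x : ℕ × (ℕ → Y), G ((fun j => f (x.2 j)) '' {j | j < x.1})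
        ∂((ProbabilityTheory.poissonMeasure 1).prod (Measure.infinitePi fun _ : ℕ => ρ)) =
      J (ρ.map f) G := by
  have : IsProbabilityMeasure (ρ.map f) := Measure.isProbabilityMeasure_map hf.aemeasurable
  have hfrs : FRS fun x : ℕ × (ℕ → Y) => (fun j => f (x.2 j)) '' {j | j < x.1} :=
    ⟨fun x => x.1, fun j x => f (x.2 j), measurable_fst,
      fun j => hf.comp ((measurable_pi_apply j).comp measurable_snd), fun x => rfl⟩
  rw [lintegral_prod _ (hfrs.meas hG).aemeasurable]
  have h1 : ∀ n : ℕ, ∫⁻ u : ℕ → Y, G ((fun j => f (u j)) '' {j | j < n})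
      ∂(Measure.infinitePi fun _ : ℕ => ρ) = P (ρ.map f) n G := by
    intro n
    simp only [image_lt]
    have hmp : MeasurePreserving (fun (u : ℕ → Y) (j : ℕ) => f (u j))
        (Measure.infinitePi fun _ : ℕ => ρ) (Measure.infinitePi fun _ : ℕ => ρ.map f) :=
      ⟨measurable_pi_iff.2 fun j => hf.comp (measurable_pi_apply j),
        Measure.infinitePi_map_pi (fun _ : ℕ => ρ) fun _ => hf⟩
    exact ((fin_mp (ρ.map f) n).comp hmp).lintegral_comp (hG n)
  simp only [h1]
  rw [lintegral_countable']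
  unfold J Q
  rw [← ENNReal.tsum_mul_left]
  refine tsum_congr fun n => ?_
  rw [ProbabilityTheory.poissonMeasure_singleton, measure_univ]
  simp only [NNReal.coe_one, one_pow, mul_one, ENNReal.toReal_one]
  rw [ENNReal.ofReal_div_of_pos (by positivity), ENNReal.ofReal_natCast, div_eq_mul_inv, mul_comm,
    mul_assoc]

end Crest.Agent.R143.Poisx304
end
end

-- ▼ part R143/Jan_304

/-!
# R143 (helper304, block M, leaf M2): the Janossy formula and the invariance of the coloured
Poisson configuration: `jan : JAN`, `iso : ISO`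
-/

set_option autoImplicit false
set_option linter.unusedSectionVars false

noncomputable section

namespace Crest.Agent.R143.Janx304

open MeasureTheory Set Complex
open Crest.ProbabilityR.Voronoi
open Crest.Agent.R143.PP0x831 Crest.Agent.R143.Poisx304
open scoped ENNReal

instance : IsProbabilityMeasure coin := ⟨by
  unfold coin
  rw [Measure.smul_apply, Measure.count_apply_finite _ (Set.toFinite _)]
  simp [ENNReal.inv_mul_cancel]⟩

/-! ## the colour -/

def dec (u : unitInterval) : Bool := decide ((u : ℝ) < 1 / 2)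

lemma measurable_dec : Measurable dec := by
  unfold dec
  apply measurable_to_bool
  have : (fun u : unitInterval => decide ((u : ℝ) < 1 / 2)) ⁻¹' {true} =
      {u : unitInterval | (u : ℝ) < 1 / 2} := by
    ext u; simp
  rw [this]
  exact measurableSet_lt measurable_subtype_coe measurable_const

lemma vol_half : (volume : Measure unitInterval) {u | (u : ℝ) < 1 / 2} = 2⁻¹ := by
  rw [unitInterval.volume_apply]
  have : Subtype.val '' {u : unitInterval | (u : ℝ) < 1 / 2} = Ico (0 : ℝ) (1 / 2) := by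
    ext t
    simp only [mem_image, mem_ofPred_eq, Subtype.exists, mem_Ico]
    constructor
    · rintro ⟨a, ha, h, rfl⟩; exact ⟨ha.1, h⟩
    · rintro ⟨h0, h1⟩; exact ⟨t, ⟨h0, by linarith⟩, h1, rfl⟩
  rw [this, Real.volume_Ico, sub_zero, one_div, ENNReal.ofReal_inv_of_pos (by norm_num)]
  simp

lemma map_dec : (volume : Measure unitInterval).map dec = coin := by
  have h1 : dec ⁻¹' {true} = {u : unitInterval | (u : ℝ) < 1 / 2} := by
    ext u; simp [dec]
  have h2 : dec ⁻¹' {false} = {u : unitInterval | (u : ℝ) < 1 / 2}ᶜ := by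
    ext u; simp [dec]
  have hc : ∀ b : Bool, coin {b} = 2⁻¹ := by
    intro b
    unfold coin
    rw [Measure.smul_apply, Measure.count_singleton, smul_eq_mul, mul_one]
  apply Measure.ext_of_singleton
  intro b
  rw [Measure.map_apply measurable_dec (measurableSet_singleton b), hc]
  cases b with
  | true => rw [h1, vol_half]
  | false =>
    rw [h2, prob_compl_eq_one_sub
      (measurableSet_lt measurable_subtype_coe measurable_const), vol_half,
      ENNReal.one_sub_inv_two]

/-! ## the position -/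

def pos (ε : ℝ) (k : ℤ × ℤ) (p : unitInterval × unitInterval) : ℂ :=
  (ε : ℂ) * ((((k.1 : ℝ) + (p.1 : ℝ) : ℝ) : ℂ) + (((k.2 : ℝ) + (p.2 : ℝ) : ℝ) : ℂ) * I)

/-- the affine map -/
def aff (ε : ℝ) (k : ℤ × ℤ) (p : ℝ × ℝ) : ℂ :=
  (ε : ℂ) * ((((k.1 : ℝ) + p.1 : ℝ) : ℂ) + (((k.2 : ℝ) + p.2 : ℝ) : ℂ) * I)

/-- the cell of a point -/
def fl (ε : ℝ) (z : ℂ) : ℤ × ℤ := (⌊z.re / ε⌋, ⌊z.im / ε⌋)

lemma measurable_fl (ε : ℝ) : Measurable (fl ε) :=
  (Int.measurable_floor.comp (measurable_re.div_const ε)).prodMk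
    (Int.measurable_floor.comp (measurable_im.div_const ε))

lemma aff_re (ε : ℝ) (k : ℤ × ℤ) (p : ℝ × ℝ) : (aff ε k p).re = ε * (k.1 + p.1) := by
  simp [aff]

lemma aff_im (ε : ℝ) (k : ℤ × ℤ) (p : ℝ × ℝ) : (aff ε k p).im = ε * (k.2 + p.2) := by
  simp [aff]

lemma aff_preimage {ε : ℝ} (hε : 0 < ε) (k : ℤ × ℤ) :
    aff ε k ⁻¹' (fl ε ⁻¹' {k}) = Ico (0 : ℝ) 1 ×ˢ Ico (0 : ℝ) 1 := by
  ext p
  simp only [mem_preimage, mem_singleton_iff, fl, aff_re, aff_im, Prod.ext_iff, mem_prod, mem_Ico]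
  rw [mul_div_cancel_left₀ _ hε.ne', mul_div_cancel_left₀ _ hε.ne', Int.floor_eq_iff,
    Int.floor_eq_iff]
  constructor
  · rintro ⟨⟨h1, h2⟩, h3, h4⟩
    exact ⟨⟨by linarith, by linarith⟩, by linarith, by linarith⟩
  · rintro ⟨⟨h1, h2⟩, h3, h4⟩
    exact ⟨⟨by linarith, by linarith⟩, by linarith, by linarith⟩

lemma measurable_aff (ε : ℝ) (k : ℤ × ℤ) : Measurable (aff ε k) := by
  unfold aff
  fun_prop

lemma map_aff {ε : ℝ} (hε : 0 < ε) (k : ℤ × ℤ) :
    (volume : Measure (ℝ × ℝ)).map (aff ε k) = (ENNReal.ofReal (ε ^ 2))⁻¹ • volume := by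
  have h1 : aff ε k = (fun z : ℂ => ε • z) ∘
      (fun z : ℂ => ((k.1 : ℂ) + (k.2 : ℂ) * I) + z) ∘ measurableEquivRealProd.symm := by
    funext p
    apply Complex.ext
    · simp [aff]
    · simp [aff]
  have hm1 : Measurable fun z : ℂ => ε • z := measurable_const_smul ε
  have hm2 : Measurable fun z : ℂ => ((k.1 : ℂ) + (k.2 : ℂ) * I) + z := measurable_const_add _
  rw [h1, ← Measure.map_map hm1 (hm2.comp measurableEquivRealProd.symm.measurable),
    ← Measure.map_map hm2 measurableEquivRealProd.symm.measurable,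
    (Complex.volume_preserving_equiv_real_prod.symm).map_eq, map_add_left_eq_self,
    Measure.map_addHaar_smul _ hε.ne', Complex.finrank_real_complex, abs_of_pos (by positivity),
    ENNReal.ofReal_inv_of_pos (by positivity)]

lemma measurable_pos (ε : ℝ) (k : ℤ × ℤ) : Measurable (pos ε k) := by
  unfold pos
  fun_prop

theorem map_pos {ε : ℝ} (hε : 0 < ε) (k : ℤ × ℤ) :
    ((volume : Measure unitInterval).prod volume).map (pos ε k) =
      (ENNReal.ofReal (ε ^ 2))⁻¹ • volume.restrict (fl ε ⁻¹' {k}) := by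
  have h1 : pos ε k = aff ε k ∘ Prod.map (Subtype.val : unitInterval → ℝ)
    (Subtype.val : unitInterval → ℝ) := rfl
  have hI : (volume : Measure unitInterval).map (Subtype.val : unitInterval → ℝ) =
      volume.restrict (Ico (0 : ℝ) 1) := by
    rw [unitInterval.measurePreserving_coe.map_eq]
    exact Measure.restrict_congr_set Ico_ae_eq_Icc.symm
  rw [h1, ← Measure.map_map (measurable_aff ε k)
    (measurable_subtype_coe.prodMap measurable_subtype_coe),
    ← Measure.map_prod_map _ _ measurable_subtype_coe measurable_subtype_coe, hI,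
    Measure.prod_restrict, ← Measure.volume_eq_prod, ← aff_preimage hε k,
    ← Measure.restrict_map (measurable_aff ε k)
      (measurable_fl ε (measurableSet_singleton k)), map_aff hε k, Measure.restrict_smul]

/-! ## marked points -/

abbrev Mk : Type := Fin 3 → unitInterval

def mk3 : Measure Mk := Measure.pi fun _ : Fin 3 => (volume : Measure unitInterval)

instance : IsProbabilityMeasure mk3 := by unfold mk3; infer_instance

/-- position and colour of a mark -/
def pt (ε : ℝ) (k : ℤ × ℤ) (m : Mk) : ℂ × Bool := (pos ε k (m 0, m 1), dec (m 2))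

lemma measurable_pt (ε : ℝ) (k : ℤ × ℤ) : Measurable (pt ε k) :=
  ((measurable_pos ε k).comp ((measurable_pi_apply 0).prodMk (measurable_pi_apply 1))).prodMk
    (measurable_dec.comp (measurable_pi_apply 2))

theorem map_pt {ε : ℝ} (hε : 0 < ε) (k : ℤ × ℤ) :
    mk3.map (pt ε k) =
      ((ENNReal.ofReal (ε ^ 2))⁻¹ • volume.restrict (fl ε ⁻¹' {k})).prod coin := by
  have h1 : pt ε k ∘ Lawx831.v3 = Prod.map (pos ε k) dec := rfl
  unfold mk3
  rw [← Lawx831.v3_mp.map_eq, Measure.map_map (measurable_pt ε k) Lawx831.v3_mp.measurable, h1,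
    ← Measure.map_prod_map _ _ (measurable_pos ε k) measurable_dec, map_pos hε k, map_dec]

/-! ## the sample as blocks -/

abbrev Bl : Type := ℕ × (ℕ → Mk)

def blLaw : Measure Bl :=
  (ProbabilityTheory.poissonMeasure 1).prod (Measure.infinitePi fun _ : ℕ => mk3)

instance : IsProbabilityMeasure blLaw := by unfold blLaw; infer_instance

def blk (ε : ℝ) (k : ℤ × ℤ) (x : Bl) : Set (ℂ × Bool) := (fun j => pt ε k (x.2 j)) '' {j | j < x.1}

def zipS (ω : Sample) : ℤ × ℤ → Bl := fun k => (ω.1 k, ω.2 k)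

lemma zipS_mp : MeasurePreserving zipS sampleLaw (Measure.infinitePi fun _ : ℤ × ℤ => blLaw) :=
  Lawx831.zip_mp (I := ℤ × ℤ) (ProbabilityTheory.poissonMeasure 1)
    (Measure.infinitePi fun _ : ℕ => mk3)

lemma blk_frs (ε : ℝ) (k : ℤ × ℤ) : FRS (blk ε k) :=
  ⟨fun x => x.1, fun j x => pt ε k (x.2 j), measurable_fst,
    fun j => (measurable_pt ε k).comp ((measurable_pi_apply j).comp measurable_snd), fun _ => rfl⟩

lemma cfg_eq (ε : ℝ) (ω : Sample) : cfg ε ω = ⋃ k : ℤ × ℤ, blk ε k (zipS ω k) := by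
  ext e
  simp only [cfg, present, blk, zipS, mem_image, mem_ofPred_eq, mem_iUnion]
  constructor
  · rintro ⟨⟨k1, k2, j⟩, hj, rfl⟩
    exact ⟨(k1, k2), j, hj, rfl⟩
  · rintro ⟨⟨k1, k2⟩, j, hj, rfl⟩
    exact ⟨(k1, k2, j), hj, rfl⟩

/-- the cells near a bounded set -/
lemma exists_cells {ε : ℝ} (hε : 0 < ε) {B : Set ℂ} (hB : Bornology.IsBounded B) :
    ∃ K : Finset (ℤ × ℤ), (∀ k : ℤ × ℤ, ∀ p, pos ε k p ∈ B → k ∈ K) ∧
      (∀ z ∈ B, fl ε z ∈ K) := by
  obtain ⟨R, hR⟩ := hB.subset_closedBall 0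
  set N : ℤ := ⌈|R| / ε⌉ + 1 with hN
  have hN1 : |R| / ε + 1 ≤ N := by
    rw [hN]; push_cast; linarith [Int.le_ceil (|R| / ε)]
  have key : ∀ (k : ℤ) (x t : ℝ), |x| ≤ |R| → x / ε = k + t → 0 ≤ t → t ≤ 1 →
      k ∈ Finset.Icc (-N) N := by
    intro k x t hx h h0 h1
    have h2 : |x / ε| ≤ |R| / ε := by
      rw [abs_div, abs_of_pos hε]; exact div_le_div_of_nonneg_right hx hε.le
    have h3 := abs_le.1 h2
    rw [h] at h3
    rw [Finset.mem_Icc]
    constructor
    · have : (-N : ℝ) ≤ k := by linarith [h3.1]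
      exact_mod_cast this
    · have : (k : ℝ) ≤ N := by linarith [h3.2]
      exact_mod_cast this
  have hn : ∀ z ∈ B, ‖z‖ ≤ |R| := fun z hz => by
    have := hR hz
    rw [mem_closedBall_zero_iff] at this
    exact this.trans (le_abs_self R)
  refine ⟨Finset.Icc (-N) N ×ˢ Finset.Icc (-N) N, fun k p hp => ?_, fun z hz => ?_⟩
  · have h := hn _ hp
    have hre : (pos ε k p).re = ε * (k.1 + p.1) := aff_re ε k ((p.1 : ℝ), (p.2 : ℝ))
    have him : (pos ε k p).im = ε * (k.2 + p.2) := aff_im ε k ((p.1 : ℝ), (p.2 : ℝ))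
    rw [Finset.mem_product]
    refine ⟨key k.1 (pos ε k p).re p.1 ((Complex.abs_re_le_norm _).trans h) ?_ p.1.2.1 p.1.2.2,
      key k.2 (pos ε k p).im p.2 ((Complex.abs_im_le_norm _).trans h) ?_ p.2.2.1 p.2.2.2⟩
    · rw [hre, mul_div_cancel_left₀ _ hε.ne']
    · rw [him, mul_div_cancel_left₀ _ hε.ne']
  · have h := hn _ hz
    rw [Finset.mem_product]
    refine ⟨key _ z.re (Int.fract (z.re / ε)) ((Complex.abs_re_le_norm _).trans h) ?_
      (Int.fract_nonneg _) (Int.fract_lt_one _).le,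
      key _ z.im (Int.fract (z.im / ε)) ((Complex.abs_im_le_norm _).trans h) ?_
      (Int.fract_nonneg _) (Int.fract_lt_one _).le⟩
    · exact (Int.floor_add_fract _).symm
    · exact (Int.floor_add_fract _).symm

lemma local_eq {ε : ℝ} {B : Set ℂ} {K : Finset (ℤ × ℤ)}
    (hK : ∀ k : ℤ × ℤ, ∀ p, pos ε k p ∈ B → k ∈ K) {E : Type*} {F : Set (ℂ × Bool) → E}
    (hF : LocalOn B F) (ω : Sample) :
    F (cfg ε ω) = F (⋃ k ∈ K, blk ε k (zipS ω k)) := by
  rw [hF (cfg ε ω), hF (⋃ k ∈ K, blk ε k (zipS ω k)), cfg_eq]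
  congr 1
  ext e
  simp only [mem_inter_iff, mem_iUnion, mem_ofPred_eq, exists_prop]
  constructor
  · rintro ⟨⟨k, hk⟩, he⟩
    refine ⟨⟨k, ?_, hk⟩, he⟩
    obtain ⟨j, hj, rfl⟩ := hk
    exact hK k _ he
  · rintro ⟨⟨k, -, hk⟩, he⟩
    exact ⟨⟨k, hk⟩, he⟩

lemma meas_and {ε : ℝ} {B : Set ℂ} {K : Finset (ℤ × ℤ)}
    (hK : ∀ k : ℤ × ℤ, ∀ p, pos ε k p ∈ B → k ∈ K) {F : Set (ℂ × Bool) → ℝ≥0∞}
    (hF : LocalOn B F) (hm : FM F) :
    Measurable (fun ω => F (cfg ε ω)) ∧
      ∫⁻ ω, F (cfg ε ω) ∂sampleLaw = J (∑ k ∈ K, mk3.map (pt ε k)) F := by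
  have hfrs : FRS fun x : ℤ × ℤ → Bl => ⋃ k ∈ K, blk ε k (x k) :=
    FRS.biUnion K (fun k (x : ℤ × ℤ → Bl) => blk ε k (x k))
      fun k => (blk_frs ε k).comp (measurable_pi_apply k)
  have hmeas := hfrs.meas hm
  simp only [local_eq hK hF]
  refine ⟨hmeas.comp zipS_mp.measurable, ?_⟩
  have h1 := zipS_mp.lintegral_comp hmeas
  rw [h1]
  have : ∀ k, IsFiniteMeasure (mk3.map (pt ε k)) := fun k => by infer_instance
  exact blocks blLaw (blk ε) (blk_frs ε) (fun k => mk3.map (pt ε k))
    (fun k G hG => poisson_block mk3 (pt ε k) (measurable_pt ε k) hG) K F hm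

/-! ## restriction to `B` -/

/-- the part of the configuration space over `B` -/
def ovr (B : Set ℂ) : Set (ℂ × Bool) := {p | p.1 ∈ B}

lemma ovr_eq (B : Set ℂ) : ovr B = B ×ˢ (univ : Set Bool) := by
  ext p; simp [ovr]

lemma finite_mu {ε : ℝ} (hε : 0 < ε) {B : Set ℂ} (hb : Bornology.IsBounded B) :
    IsFiniteMeasure ((ENNReal.ofReal (ε ^ 2))⁻¹ • (volume : Measure ℂ).restrict B) := by
  have hc : (ENNReal.ofReal (ε ^ 2))⁻¹ ≠ ∞ := by simp [hε.ne']
  have : IsFiniteMeasure ((volume : Measure ℂ).restrict B) :=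
    ⟨by rw [Measure.restrict_apply_univ]; exact hb.measure_lt_top⟩
  exact Measure.smul_finite _ hc

lemma restrict_eq {ε : ℝ} (hε : 0 < ε) {B : Set ℂ} (hB : MeasurableSet B)
    (hb : Bornology.IsBounded B) {K : Finset (ℤ × ℤ)}
    (hK : ∀ z ∈ B, fl ε z ∈ K) :
    (∑ k ∈ K, mk3.map (pt ε k)).restrict (ovr B) =
      ((ENNReal.ofReal (ε ^ 2))⁻¹ • volume.restrict B).prod coin := by
  have := finite_mu hε hb
  symm
  apply Measure.prod_eq
  intro s t hs ht
  rw [ovr_eq, Measure.restrict_apply (hs.prod ht), Set.prod_inter_prod, Set.inter_univ,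
    Measure.finsetSum_apply]
  have h1 : ∀ k ∈ K, mk3.map (pt ε k) ((s ∩ B) ×ˢ t) =
      (ENNReal.ofReal (ε ^ 2))⁻¹ * volume ((s ∩ B) ∩ fl ε ⁻¹' {k}) * coin t := by
    intro k _
    rw [map_pt hε k, Measure.prod_prod, Measure.smul_apply, smul_eq_mul,
      Measure.restrict_apply (hs.inter hB)]
  rw [Finset.sum_congr rfl h1, ← Finset.sum_mul, ← Finset.mul_sum, Measure.smul_apply, smul_eq_mul,
    Measure.restrict_apply hs]
  congr 2
  rw [← measure_biUnion_finset]
  · congr 1
    ext z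
    simp only [mem_iUnion, mem_inter_iff, mem_preimage, mem_singleton_iff, exists_prop]
    constructor
    · rintro ⟨k, -, h, -⟩; exact h
    · rintro h; exact ⟨fl ε z, hK z h.2, h, rfl⟩
  · intro k _ l _ hkl
    rw [Function.onFun, Set.disjoint_left]
    rintro z ⟨-, h1⟩ ⟨-, h2⟩
    exact hkl (h1.symm.trans h2)
  · intro k _
    exact (hs.inter hB).inter (measurable_fl ε (measurableSet_singleton k))

section general

variable {E : Type*} [MeasurableSpace E]

lemma J_const (μ : Measure E) [IsFiniteMeasure μ] (c : ℝ≥0∞) : J μ (fun _ => c) = c := by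
  set m : NNReal := (μ univ).toNNReal with hm
  have hmu : μ univ = (m : ℝ≥0∞) := (ENNReal.coe_toNNReal (measure_ne_top μ _)).symm
  have h1 : ∀ n : ℕ, ENNReal.ofReal (Real.exp (-(μ univ).toReal)) * Q μ n (fun _ => c) =
      c * ENNReal.ofReal (Real.exp (-(m : ℝ)) * (m : ℝ) ^ n / (n.factorial : ℝ)) := by
    intro n
    unfold Q P
    rw [lintegral_const, Measure.pi_univ, Finset.prod_const, Finset.card_univ, Fintype.card_fin,
      hmu, ENNReal.ofReal_div_of_pos (by positivity), ENNReal.ofReal_mul (Real.exp_pos _).le,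
      ENNReal.ofReal_pow (NNReal.coe_nonneg m), ENNReal.ofReal_coe_nnreal, ENNReal.ofReal_natCast, div_eq_mul_inv,
      ENNReal.coe_toReal]
    ring
  unfold J
  rw [← ENNReal.tsum_mul_left]
  simp only [h1]
  rw [ENNReal.tsum_mul_left, ← ENNReal.ofReal_tsum_of_nonneg]
  · rw [(ProbabilityTheory.hasSum_one_poissonMeasure m).tsum_eq, ENNReal.ofReal_one, mul_one]
  · intro n; positivity
  · exact (ProbabilityTheory.hasSum_one_poissonMeasure m).summable

lemma J_local (M : Measure E) [IsFiniteMeasure M] {A : Set E} (hA : MeasurableSet A)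
    {F : Set E → ℝ≥0∞} (hF : FM F) (hl : ∀ S, F S = F (S ∩ A)) :
    J M F = J (M.restrict A) F := by
  conv_lhs => rw [← Measure.restrict_add_restrict_compl (μ := M) hA, J_add _ _ hF]
  congr 1
  funext S
  have h2 : J (M.restrict Aᶜ) (fun T => F (S ∪ T)) = J (M.restrict Aᶜ) (fun _ => F S) := by
    unfold J Q P
    congr 1
    refine tsum_congr fun n => ?_
    congr 1
    have hae : ∀ᵐ z ∂(Measure.pi fun _ : Fin n => M.restrict Aᶜ), ∀ i, z i ∈ Aᶜ := by
      rw [ae_all_iff]
      intro i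
      exact (Measure.quasiMeasurePreserving_eval (fun _ : Fin n => M.restrict Aᶜ) i).ae
        (ae_restrict_mem hA.compl)
    refine lintegral_congr_ae ?_
    filter_upwards [hae] with z hz
    have h3 : (S ∪ range z) ∩ A = S ∩ A := by
      ext e
      simp only [mem_inter_iff, mem_union, mem_range]
      constructor
      · rintro ⟨h | ⟨i, rfl⟩, ha⟩
        · exact ⟨h, ha⟩
        · exact absurd ha (hz i)
      · rintro ⟨h, ha⟩; exact ⟨Or.inl h, ha⟩
    rw [hl (S ∪ range z), h3, ← hl S]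
  rw [h2, J_const]

lemma P_smul (μ : Measure E) [IsFiniteMeasure μ] {c : ℝ≥0∞} (hc : c ≠ ∞) (n : ℕ) :
    ∀ G : Set E → ℝ≥0∞, FM G → P (c • μ) n G = c ^ n * P μ n G := by
  have : IsFiniteMeasure (c • μ) := Measure.smul_finite _ hc
  induction n with
  | zero => intro G _; simp [P_zero]
  | succ n ih =>
    intro G hG
    rw [P_succ _ _ hG, P_succ _ _ hG, lintegral_smul_measure]
    have h1 : ∀ a, P (c • μ) n (fun S => G (insert a S)) = c ^ n * P μ n fun S => G (insert a S) :=
      fun a => ih _ (hG.insert a)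
    simp only [h1]
    rw [lintegral_const_mul _ (P_meas (X := E) (H := fun a S => G (insert a S)) (hG.insert_meas n)),
      smul_eq_mul, pow_succ]
    ring

end general

lemma J_eq_janossy {ε : ℝ} (hε : 0 < ε) {B : Set ℂ} (hb : Bornology.IsBounded B)
    {F : Set (ℂ × Bool) → ℝ≥0∞} (hm : FM F) :
    J (((ENNReal.ofReal (ε ^ 2))⁻¹ • volume.restrict B).prod coin) F =
      janossy (ENNReal.ofReal (ε ^ 2))⁻¹ B F := by
  have hc : (ENNReal.ofReal (ε ^ 2))⁻¹ ≠ ∞ := by simp [hε.ne']
  have : IsFiniteMeasure ((volume : Measure ℂ).restrict B) :=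
    ⟨by rw [Measure.restrict_apply_univ]; exact hb.measure_lt_top⟩
  rw [Measure.prod_smul_left]
  unfold J janossy Q
  congr 1
  · rw [Measure.smul_apply, smul_eq_mul, ← univ_prod_univ, Measure.prod_prod,
      measure_univ (μ := coin), mul_one, Measure.restrict_apply_univ]
  · refine tsum_congr fun n => ?_
    rw [P_smul _ hc n F hm, div_eq_mul_inv]
    unfold P
    ring

/-- **(JAN)** -/
theorem jan : JAN := by
  intro ε hε B hB hb F hF hm
  obtain ⟨K, h1, h2⟩ := exists_cells hε hb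
  have hm' : FM F := hm
  obtain ⟨h3, h4⟩ := meas_and h1 hF hm'
  refine ⟨h3, ?_⟩
  have hA : MeasurableSet (ovr B) := by
    rw [ovr_eq]; exact hB.prod MeasurableSet.univ
  have : ∀ k, IsFiniteMeasure (mk3.map (pt ε k)) := fun k => by infer_instance
  rw [h4, J_local _ hA hm' hF, restrict_eq hε hB hb h2, J_eq_janossy hε hb hm']

/-- **(ISO)** -/
theorem iso : ISO := by
  intro ε hε B hB hb g hg hb' F hF hm
  set F' : Set (ℂ × Bool) → ℝ≥0∞ := fun S => F ((fun p : ℂ × Bool => (g p.1, p.2)) '' S) with hF'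
  have hgm : Measurable fun p : ℂ × Bool => (g p.1, p.2) :=
    (g.measurable.comp measurable_fst).prodMk measurable_snd
  have hl : LocalOn (g ⁻¹' B) F' := by
    intro S
    simp only [hF']
    rw [hF ((fun p : ℂ × Bool => (g p.1, p.2)) '' S),
      hF ((fun p : ℂ × Bool => (g p.1, p.2)) '' (S ∩ {p | p.1 ∈ g ⁻¹' B}))]
    congr 1
    ext e
    simp only [mem_inter_iff, mem_image, mem_ofPred_eq, mem_preimage]
    constructor
    · rintro ⟨⟨p, hp, rfl⟩, he⟩
      exact ⟨⟨p, ⟨hp, he⟩, rfl⟩, he⟩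
    · rintro ⟨⟨p, ⟨hp, -⟩, rfl⟩, he⟩
      exact ⟨⟨p, hp, rfl⟩, he⟩
  have hr : ∀ (n : ℕ) (z : Fin n → ℂ × Bool), (fun p : ℂ × Bool => (g p.1, p.2)) '' range z =
      range fun i => (g (z i).1, (z i).2) := by
    intro n z
    rw [← range_comp]
    rfl
  have hm2 : FinMeas F' := by
    intro n
    simp only [hF', hr]
    exact (hm n).comp (measurable_pi_iff.2 fun i => hgm.comp (measurable_pi_apply i))
  have e1 := (jan ε hε (g ⁻¹' B) (g.measurable hB) hb' F' hl hm2).2
  have e2 := (jan ε hε B hB hb F hF hm).2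
  have hfin : IsFiniteMeasure ((volume : Measure ℂ).restrict B) :=
    ⟨by rw [Measure.restrict_apply_univ]; exact hb.measure_lt_top⟩
  have hfin' : IsFiniteMeasure ((volume : Measure ℂ).restrict (g ⁻¹' B)) :=
    ⟨by rw [Measure.restrict_apply_univ]; exact hb'.measure_lt_top⟩
  have hmp : MeasurePreserving (fun p : ℂ × Bool => (g p.1, p.2))
      ((volume.restrict (g ⁻¹' B)).prod coin) ((volume.restrict B).prod coin) :=
    (hg.restrict_preimage hB).prod (MeasurePreserving.id coin)
  rw [e2]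
  refine e1.trans ?_
  unfold janossy
  rw [hg.measure_preimage hB.nullMeasurableSet]
  congr 1
  refine tsum_congr fun n => ?_
  congr 1
  have hpi : MeasurePreserving (fun (z : Fin n → ℂ × Bool) (i : Fin n) => (g (z i).1, (z i).2))
      (Measure.pi fun _ : Fin n => (volume.restrict (g ⁻¹' B)).prod coin)
      (Measure.pi fun _ : Fin n => (volume.restrict B).prod coin) :=
    measurePreserving_pi _ _ fun _ => hmp
  rw [← hpi.lintegral_comp (hm n)]
  simp only [hF', hr]

end Crest.Agent.R143.Janx304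

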