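import Crest.Agent.R143.Law_831
import Crest.Agent.R143.Jan_304
import Crest.Agent.R143.PoisM3_930

/-!
# Row 143 (S0194): weighted objects with the actual colours (helper304)

`Ok P` : a countable family of objects attached to the set `P` of positions; an object `o` has two
disjoint finite sets of sites `A o`, `B o`; it is realised by the coloured configuration `X` if all
the sites of `A o` have one colour and all the sites of `B o` have the other colour (`Rz`).
Given the positions this has probability `2 / 2 ^ #(A o ∪ B o)` (`col_le`: no measurability).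
-/

set_option autoImplicit false

noncomputable section

open scoped Classical

namespace Crest.Agent.R143.ColSumx304

open MeasureTheory Set Filter Topology
open Crest.ProbabilityR.Voronoi
open Crest.Agent.R143.PP0x831 Crest.Agent.R143.Lawx831 Crest.Agent.R143.Janx304
open scoped ENNReal

/-- the sites of `A` have one colour, the sites of `B` have the other colour -/
def Rz (X : Set (ℂ × Bool)) (A B : Finset ℂ) : Prop :=
  ∃ b : Bool, (∀ z ∈ A, (z, b) ∈ X) ∧ ∀ z ∈ B, (z, !b) ∈ X

/-! ### the sample with positions `p` and colours `c` -/

theorem point_mk (ε : ℝ) (p : Pos) (c c' : Col) (k : ℤ × ℤ) (j : ℕ) :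
    point ε (mk p c) k j = point ε (mk p c') k j := by
  unfold point Crest.Agent.R143.Lawx831.mk
  simp


theorem present_mk (p : Pos) (c c' : Col) : present (mk p c) = present (mk p c') := rfl


/-- positions of a sample -/
def toPos (ω : Sample) : Pos := fun k => (ω.1 k, fun j => (ω.2 k j 0, ω.2 k j 1))

theorem measurable_toPos : Measurable toPos := by
  unfold toPos
  refine measurable_pi_lambda _ fun k => ?_
  refine Measurable.prodMk ((measurable_pi_apply k).comp measurable_fst) ?_
  refine measurable_pi_lambda _ fun j => ?_
  have h : Measurable fun ω : Sample => ω.2 k j :=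
    (measurable_pi_apply j).comp ((measurable_pi_apply k).comp measurable_snd)
  exact ((measurable_pi_apply 0).comp h).prodMk ((measurable_pi_apply 1).comp h)

theorem toPos_mk (p : Pos) (c : Col) : toPos (mk p c) = p := by
  funext k
  unfold toPos Crest.Agent.R143.Lawx831.mk
  simp

theorem point_toPos (ε : ℝ) (ω : Sample) (c : Col) (k : ℤ × ℤ) (j : ℕ) :
    point ε (mk (toPos ω) c) k j = point ε ω k j := by
  unfold point Crest.Agent.R143.Lawx831.mk toPos
  simp

theorem points_toPos (ε : ℝ) (ω : Sample) (c : Col) : points ε (mk (toPos ω) c) = points ε ω := by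
  unfold points
  have h : present (mk (toPos ω) c) = present ω := rfl
  rw [h]
  refine image_congr fun q _ => ?_
  exact point_toPos ε ω c _ _

theorem map_toPos : sampleLaw.map toPos = posLaw := by
  rw [← mp_mk.map_eq, Measure.map_map measurable_toPos mp_mk.measurable]
  have h : (toPos ∘ fun q : Pos × Col => mk q.1 q.2) = Prod.fst := by
    funext q
    exact toPos_mk q.1 q.2
  rw [h, Measure.map_fst_prod, measure_univ, one_smul]

/-! ### one object -/



/-- injectivity of the positions -/
def Inj (ε : ℝ) (p : Pos) (c : Col) : Prop :=
  ∀ i ∈ present (mk p c), ∀ j ∈ present (mk p c),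
    point ε (mk p c) (i.1, i.2.1) i.2.2 = point ε (mk p c) (j.1, j.2.1) j.2.2 → i = j

theorem Inj_iff (ε : ℝ) (p : Pos) (c c' : Col) : Inj ε p c ↔ Inj ε p c' := by
  unfold Inj
  rw [present_mk p c c']
  simp only [point_mk ε p c c']




/-! ### families of objects -/

variable {O : Type}


end Crest.Agent.R143.ColSumx304
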