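import Crest.Agent.R143.Prod_609
import Crest.Agent.R143.ColSum_304

-- ▼ part R143/Dbl_609
section

/-!
# Row 143 (S0194), box R8: a second colouring on the same sample (helper609)

* `mcf d ε ω` : the marked configuration `{(position, d (seed))}` for a map `d` of the colour seed;
  `mcf dec = cfg`; `law`, `two`, `indep` : Poisson law, independence of disjoint regions
* `dec2` : the second binary digit of the seed; `dd = (dec, dec2)`, `map_dd` : two fair independent bits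
* `dcf ε ω = mcf dd ε ω : Set (ℂ × (Bool × Bool))`, `cfg2 ε ω = mcf dec2 ε ω` : the second colouring
  (same points); `p1_dcf : p1 (dcf) = cfg`, `p2_dcf : p2 (dcf) = cfg2`
-/

set_option autoImplicit false
set_option linter.unusedSectionVars false

noncomputable section

namespace Crest.Agent.R143.Dblx609

open MeasureTheory Set Filter Topology
open Crest.ProbabilityR.Voronoi
open Crest.Agent.R143.PP0x831 Crest.Agent.R143.Poisx304 Crest.Agent.R143.Janx304
open Crest.Agent.R143.Prodx609 Crest.Agent.R143.ColSumx304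
open scoped ENNReal Nat

section mark

variable {M : Type*} [MeasurableSpace M]

/-- the part over `B` -/
def ovM (M : Type*) (B : Set ℂ) : Set (ℂ × M) := {p | p.1 ∈ B}

theorem ovM_eq (B : Set ℂ) : ovM M B = B ×ˢ (univ : Set M) := by
  ext p; simp [ovM]


theorem meas_ovM {B : Set ℂ} (hB : MeasurableSet B) : MeasurableSet (ovM M B) := by
  rw [ovM_eq]; exact hB.prod MeasurableSet.univ

/-- the marked configuration -/
def mcf (d : unitInterval → M) (ε : ℝ) (ω : Sample) : Set (ℂ × M) :=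
  (fun p : ℤ × ℤ × ℕ => (point ε ω (p.1, p.2.1) p.2.2, d (ω.2 (p.1, p.2.1) p.2.2 2))) '' present ω


variable {d : unitInterval → M}

/-- position and mark -/
def pd (d : unitInterval → M) (ε : ℝ) (k : ℤ × ℤ) (m : Mk) : ℂ × M := (pos ε k (m 0, m 1), d (m 2))

theorem meas_pd (hd : Measurable d) (ε : ℝ) (k : ℤ × ℤ) : Measurable (pd d ε k) :=
  ((measurable_pos ε k).comp ((measurable_pi_apply 0).prodMk (measurable_pi_apply 1))).prodMk
    (hd.comp (measurable_pi_apply 2))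

theorem map_pd (hd : Measurable d) {ε : ℝ} (hε : 0 < ε) (k : ℤ × ℤ) :
    mk3.map (pd d ε k) =
      ((ENNReal.ofReal (ε ^ 2))⁻¹ • volume.restrict (fl ε ⁻¹' {k})).prod
        ((volume : Measure unitInterval).map d) := by
  have h1 : pd d ε k ∘ Lawx831.v3 = Prod.map (pos ε k) d := rfl
  have hp : IsProbabilityMeasure ((volume : Measure unitInterval).map d) :=
    Measure.isProbabilityMeasure_map hd.aemeasurable
  unfold mk3
  rw [← Lawx831.v3_mp.map_eq, Measure.map_map (meas_pd hd ε k) Lawx831.v3_mp.measurable, h1,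
    ← Measure.map_prod_map _ _ (measurable_pos ε k) hd, map_pos hε k]

def bd (d : unitInterval → M) (ε : ℝ) (k : ℤ × ℤ) (x : Bl) : Set (ℂ × M) :=
  (fun j => pd d ε k (x.2 j)) '' {j | j < x.1}

theorem bd_frs (hd : Measurable d) (ε : ℝ) (k : ℤ × ℤ) : FRS (bd d ε k) :=
  ⟨fun x => x.1, fun j x => pd d ε k (x.2 j), measurable_fst,
    fun j => (meas_pd hd ε k).comp ((measurable_pi_apply j).comp measurable_snd), fun _ => rfl⟩

theorem mcf_eq (ε : ℝ) (ω : Sample) : mcf d ε ω = ⋃ k : ℤ × ℤ, bd d ε k (zipS ω k) := by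
  ext e
  simp only [mcf, present, bd, zipS, mem_image, mem_ofPred_eq, mem_iUnion]
  constructor
  · rintro ⟨⟨k1, k2, j⟩, hj, rfl⟩
    exact ⟨(k1, k2), j, hj, rfl⟩
  · rintro ⟨⟨k1, k2⟩, j, hj, rfl⟩
    exact ⟨(k1, k2, j), hj, rfl⟩

theorem mcf_inter {ε : ℝ} {B : Set ℂ} {K : Finset (ℤ × ℤ)}
    (hK : ∀ k : ℤ × ℤ, ∀ p, pos ε k p ∈ B → k ∈ K) (ω : Sample) :
    mcf d ε ω ∩ ovM M B = (⋃ k ∈ K, bd d ε k (zipS ω k)) ∩ ovM M B := by
  rw [mcf_eq]
  ext e
  simp only [mem_inter_iff, mem_iUnion, exists_prop]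
  constructor
  · rintro ⟨⟨k, hk⟩, he⟩
    refine ⟨⟨k, ?_, hk⟩, he⟩
    obtain ⟨j, hj, rfl⟩ := hk
    exact hK k _ he
  · rintro ⟨⟨k, -, hk⟩, he⟩
    exact ⟨⟨k, hk⟩, he⟩

/-- intensity measure -/
def muM (d : unitInterval → M) (ε : ℝ) (B : Set ℂ) : Measure (ℂ × M) :=
  ((ENNReal.ofReal (ε ^ 2))⁻¹ • (volume : Measure ℂ).restrict B).prod
    ((volume : Measure unitInterval).map d)


theorem muM_finite (hd : Measurable d) {ε : ℝ} (hε : 0 < ε) {B : Set ℂ}
    (hb : Bornology.IsBounded B) : IsFiniteMeasure (muM d ε B) := by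
  have := finite_mu hε hb
  have hp : IsProbabilityMeasure ((volume : Measure unitInterval).map d) :=
    Measure.isProbabilityMeasure_map hd.aemeasurable
  unfold muM
  infer_instance

theorem frs_mcf (hd : Measurable d) {ε : ℝ} (hε : 0 < ε) {B : Set ℂ} (hB : MeasurableSet B)
    (hb : Bornology.IsBounded B) [Nonempty M] : FRS fun ω : Sample => mcf d ε ω ∩ ovM M B := by
  obtain ⟨K, h1, -⟩ := exists_cells hε hb
  have h2 : (fun ω : Sample => mcf d ε ω ∩ ovM M B) =
      fun ω => (⋃ k ∈ K, bd d ε k (zipS ω k)) ∩ ovM M B := by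
    funext ω
    exact mcf_inter h1 ω
  rw [h2]
  have hfrs : FRS fun x : ℤ × ℤ → Bl => ⋃ k ∈ K, bd d ε k (x k) :=
    FRS.biUnion K (fun k (x : ℤ × ℤ → Bl) => bd d ε k (x k))
      fun k => (bd_frs hd ε k).comp (measurable_pi_apply k)
  exact frs_inter (hfrs.comp zipS_mp.measurable) (meas_ovM hB)

theorem J_interM {μ : Measure (ℂ × M)} [IsFiniteMeasure μ] {A : Set (ℂ × M)}
    (h : μ Aᶜ = 0) (G : Set (ℂ × M) → ℝ≥0∞) :
    J μ (fun S => G (S ∩ A)) = J μ G := by
  unfold J Q P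
  congr 1
  refine tsum_congr fun n => ?_
  congr 1
  have hae : ∀ᵐ z ∂(Measure.pi fun _ : Fin n => μ), ∀ i, z i ∈ A := by
    rw [ae_all_iff]
    intro i
    exact (Measure.quasiMeasurePreserving_eval (fun _ : Fin n => μ) i).ae h
  refine lintegral_congr_ae ?_
  filter_upwards [hae] with z hz
  have : range z ∩ A = range z := inter_eq_left.2 (by rintro _ ⟨i, rfl⟩; exact hz i)
  simp only [this]

theorem muM_compl {ε : ℝ} {B : Set ℂ} (hB : MeasurableSet B) (hd : Measurable d) :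
    muM d ε B (ovM M B)ᶜ = 0 := by
  have hp : IsProbabilityMeasure ((volume : Measure unitInterval).map d) :=
    Measure.isProbabilityMeasure_map hd.aemeasurable
  have h : (ovM M B)ᶜ = Bᶜ ×ˢ (univ : Set M) := by
    ext p; simp [ovM]
  rw [h]
  unfold muM
  rw [Measure.prod_prod, Measure.smul_apply, Measure.restrict_apply hB.compl, compl_inter_self,
    measure_empty, smul_zero, zero_mul]

theorem restrictM (hd : Measurable d) {ε : ℝ} (hε : 0 < ε) {B : Set ℂ} (hB : MeasurableSet B)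
    (hb : Bornology.IsBounded B) {K : Finset (ℤ × ℤ)} (hK : ∀ z ∈ B, fl ε z ∈ K) :
    (∑ k ∈ K, mk3.map (pd d ε k)).restrict (ovM M B) = muM d ε B := by
  have := finite_mu hε hb
  have hp : IsProbabilityMeasure ((volume : Measure unitInterval).map d) :=
    Measure.isProbabilityMeasure_map hd.aemeasurable
  symm
  unfold muM
  apply Measure.prod_eq
  intro s t hs ht
  rw [ovM_eq, Measure.restrict_apply (hs.prod ht), Set.prod_inter_prod, Set.inter_univ,
    Measure.finsetSum_apply]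
  have h1 : ∀ k ∈ K, mk3.map (pd d ε k) ((s ∩ B) ×ˢ t) =
      (ENNReal.ofReal (ε ^ 2))⁻¹ * volume ((s ∩ B) ∩ fl ε ⁻¹' {k}) *
        (volume : Measure unitInterval).map d t := by
    intro k _
    rw [map_pd hd hε k, Measure.prod_prod, Measure.smul_apply, smul_eq_mul,
      Measure.restrict_apply (hs.inter hB)]
  rw [Finset.sum_congr rfl h1, ← Finset.sum_mul, ← Finset.mul_sum, Measure.smul_apply, smul_eq_mul,
    Measure.restrict_apply hs]
  congr 2
  rw [← measure_biUnion_finset]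
  · congr 1
    ext z
    simp only [mem_iUnion, mem_inter_iff, mem_preimage, mem_singleton_iff, exists_prop]
    constructor
    · rintro ⟨k, -, h, -⟩; exact h
    · rintro h; exact ⟨fl ε z, hK z h.2, h, rfl⟩
  · intro k _ l _ hkl
    rw [Function.onFun, Set.disjoint_left]
    rintro z ⟨-, h1⟩ ⟨-, h2⟩
    exact hkl (h1.symm.trans h2)
  · intro k _
    exact (hs.inter hB).inter (measurable_fl ε (measurableSet_singleton k))

/-- **the law of the marked configuration in `B`** -/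
theorem law (hd : Measurable d) [Nonempty M] {ε : ℝ} (hε : 0 < ε) {B : Set ℂ}
    (hB : MeasurableSet B) (hb : Bornology.IsBounded B) {G : Set (ℂ × M) → ℝ≥0∞} (hG : FM G) :
    ∫⁻ ω, G (mcf d ε ω ∩ ovM M B) ∂sampleLaw = J (muM d ε B) G := by
  have := muM_finite hd hε hb
  obtain ⟨K, h1, h2⟩ := exists_cells hε hb
  have hF : FM fun S => G (S ∩ ovM M B) := FMe.inter (F := G) hG (meas_ovM hB)
  have hfrs : FRS fun x : ℤ × ℤ → Bl => ⋃ k ∈ K, bd d ε k (x k) :=
    FRS.biUnion K (fun k (x : ℤ × ℤ → Bl) => bd d ε k (x k))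
      fun k => (bd_frs hd ε k).comp (measurable_pi_apply k)
  simp only [mcf_inter h1]
  have h3 := zipS_mp.lintegral_comp (hfrs.meas hF)
  rw [h3]
  have hfin : ∀ k, IsFiniteMeasure (mk3.map (pd d ε k)) := fun k => by infer_instance
  have h4 := blocks blLaw (bd d ε) (bd_frs hd ε) (fun k => mk3.map (pd d ε k))
    (fun k G hG => poisson_block mk3 (pd d ε k) (meas_pd hd ε k) hG) K _ hF
  rw [h4, J_local _ (meas_ovM hB) hF, restrictM hd hε hB hb h2]
  · exact J_interM (muM_compl hB hd) G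
  · intro S
    show G (S ∩ ovM M B) = G (S ∩ ovM M B ∩ ovM M B)
    rw [inter_assoc, inter_self]

theorem muM_union (hd : Measurable d) {ε : ℝ} (hε : 0 < ε) {B B' : Set ℂ}
    (hB' : MeasurableSet B') (hb : Bornology.IsBounded B) (hb' : Bornology.IsBounded B')
    (hdis : Disjoint B B') : muM d ε (B ∪ B') = muM d ε B + muM d ε B' := by
  have hp : IsProbabilityMeasure ((volume : Measure unitInterval).map d) :=
    Measure.isProbabilityMeasure_map hd.aemeasurable
  have := finite_mu hε hb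
  have := finite_mu hε hb'
  unfold muM
  rw [Measure.restrict_union hdis hB', smul_add, Measure.add_prod]

theorem J_cmul {E : Type*} [MeasurableSpace E] (μ : Measure E) (c : ℝ≥0∞) {K : Set E → ℝ≥0∞}
    (hK : FM K) : J μ (fun T => c * K T) = c * J μ K := by
  unfold J Q P
  have h : ∀ n : ℕ, ∫⁻ z, c * K (range z) ∂(Measure.pi fun _ : Fin n => μ) =
      c * ∫⁻ z, K (range z) ∂(Measure.pi fun _ : Fin n => μ) := fun n =>
    lintegral_const_mul _ (hK n)
  simp only [h]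
  have h2 : ∀ n : ℕ, ((n ! : ℕ) : ℝ≥0∞)⁻¹ *
      (c * ∫⁻ z, K (range z) ∂(Measure.pi fun _ : Fin n => μ)) =
      c * (((n ! : ℕ) : ℝ≥0∞)⁻¹ * ∫⁻ z, K (range z) ∂(Measure.pi fun _ : Fin n => μ)) := fun n => by
    ring
  simp only [h2]
  rw [ENNReal.tsum_mul_left]
  ring

theorem ovM_inter_union {C U : Set ℂ} (X : Set (ℂ × M)) :
    X ∩ ovM M (C ∪ U) ∩ ovM M C = X ∩ ovM M C := by
  ext p
  simp only [mem_inter_iff, ovM, mem_ofPred_eq, mem_union]
  tauto

theorem ovM_inter_union' {C U : Set ℂ} (X : Set (ℂ × M)) :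
    X ∩ ovM M (C ∪ U) ∩ ovM M U = X ∩ ovM M U := by
  ext p
  simp only [mem_inter_iff, ovM, mem_ofPred_eq, mem_union]
  tauto

theorem glue_left {C U : Set ℂ} (h : Disjoint C U) (X Y : Set (ℂ × M)) :
    ((X ∩ ovM M C) ∪ (Y ∩ ovM M U)) ∩ ovM M C = X ∩ ovM M C := by
  ext p
  simp only [mem_inter_iff, ovM, mem_ofPred_eq, mem_union]
  constructor
  · rintro ⟨h1 | h1, h2⟩
    · exact h1
    · exact absurd h1.2 (Set.disjoint_left.1 h h2)
  · rintro ⟨h1, h2⟩; exact ⟨Or.inl ⟨h1, h2⟩, h2⟩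

theorem glue_right {C U : Set ℂ} (h : Disjoint C U) (X Y : Set (ℂ × M)) :
    ((X ∩ ovM M C) ∪ (Y ∩ ovM M U)) ∩ ovM M U = Y ∩ ovM M U := by
  rw [union_comm]
  exact glue_left h.symm Y X

/-- **disjoint regions, product form** -/
theorem two (hd : Measurable d) [Nonempty M] {ε : ℝ} (hε : 0 < ε) {C U : Set ℂ}
    (hC : MeasurableSet C) (hbC : Bornology.IsBounded C) (hU : MeasurableSet U)
    (hbU : Bornology.IsBounded U) (hdis : Disjoint C U) {F G : Set (ℂ × M) → ℝ≥0∞}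
    (hF : FM F) (hG : FM G) :
    ∫⁻ ω, F (mcf d ε ω ∩ ovM M C) * G (mcf d ε ω ∩ ovM M U) ∂sampleLaw =
      (∫⁻ ω, F (mcf d ε ω ∩ ovM M C) ∂sampleLaw) *
        ∫⁻ ω, G (mcf d ε ω ∩ ovM M U) ∂sampleLaw := by
  have f1 := muM_finite hd hε hbC
  have f2 := muM_finite hd hε hbU
  set H : Set (ℂ × M) → ℝ≥0∞ := fun S => F (S ∩ ovM M C) * G (S ∩ ovM M U) with hH
  have hF' : FM fun S => F (S ∩ ovM M C) := FMe.inter (F := F) hF (meas_ovM hC)
  have hG' : FM fun S => G (S ∩ ovM M U) := FMe.inter (F := G) hG (meas_ovM hU)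
  have hHm : FM H := fun n => (hF' n).mul (hG' n)
  have e1 := law hd hε (hC.union hU) (hbC.union hbU) hHm
  simp only [hH, ovM_inter_union, ovM_inter_union'] at e1
  rw [e1, muM_union hd hε hU hbC hbU hdis, J_add _ _ hHm, law hd hε hC hbC hF,
    law hd hε hU hbU hG]
  rw [← J_interM (muM_compl hC hd) fun S => J (muM d ε U) fun T => H (S ∪ T)]
  have e2 : ∀ S : Set (ℂ × M), J (muM d ε U) (fun T => H (S ∩ ovM M C ∪ T)) =
      F (S ∩ ovM M C) * J (muM d ε U) G := by
    intro S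
    rw [← J_interM (muM_compl hU hd) fun T => H (S ∩ ovM M C ∪ T)]
    simp only [hH, glue_left hdis, glue_right hdis]
    rw [J_cmul _ _ hG', J_interM (muM_compl hU hd) G]
  simp only [e2]
  have e3 : ∀ S : Set (ℂ × M), F (S ∩ ovM M C) * J (muM d ε U) G =
      J (muM d ε U) G * F (S ∩ ovM M C) := fun S => mul_comm _ _
  simp only [e3]
  rw [J_cmul _ _ hF', J_interM (muM_compl hC hd) F, mul_comm]

theorem meas_mcf (hd : Measurable d) [Nonempty M] {ε : ℝ} (hε : 0 < ε) {B : Set ℂ}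
    (hB : MeasurableSet B) (hb : Bornology.IsBounded B) {C : Type*} [MeasurableSpace C]
    {F : Set (ℂ × M) → C} (hF : FMe F) :
    Measurable fun ω : Sample => F (mcf d ε ω ∩ ovM M B) :=
  FRS.measE (frs_mcf hd hε hB hb) hF

/-- **disjoint regions, independence** -/
theorem indepM (hd : Measurable d) [Nonempty M] {ε : ℝ} (hε : 0 < ε) {C U : Set ℂ}
    (hC : MeasurableSet C) (hbC : Bornology.IsBounded C) (hU : MeasurableSet U)
    (hbU : Bornology.IsBounded U) (hdis : Disjoint C U) {X Y : Type*} [MeasurableSpace X]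
    [MeasurableSpace Y] {F : Set (ℂ × M) → X} {G : Set (ℂ × M) → Y} (hF : FMe F) (hG : FMe G) :
    ProbabilityTheory.IndepFun (fun ω => F (mcf d ε ω ∩ ovM M C))
      (fun ω => G (mcf d ε ω ∩ ovM M U)) sampleLaw := by
  rw [ProbabilityTheory.indepFun_iff_measure_inter_preimage_eq_mul]
  intro s t hs ht
  have h := two hd hε hC hbC hU hbU hdis
    (F := fun S => s.indicator (fun _ => (1 : ℝ≥0∞)) (F S))
    (G := fun S => t.indicator (fun _ => (1 : ℝ≥0∞)) (G S))
    (fun n => (measurable_const.indicator hs).comp (hF n))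
    (fun n => (measurable_const.indicator ht).comp (hG n))
  have mf := meas_mcf hd hε hC hbC hF
  have mg := meas_mcf hd hε hU hbU hG
  have e1 : ∫⁻ ω, s.indicator (fun _ => (1 : ℝ≥0∞)) (F (mcf d ε ω ∩ ovM M C)) ∂sampleLaw =
      sampleLaw ((fun ω => F (mcf d ε ω ∩ ovM M C)) ⁻¹' s) := by
    rw [← lintegral_indicator_one (mf hs)]; rfl
  have e2 : ∫⁻ ω, t.indicator (fun _ => (1 : ℝ≥0∞)) (G (mcf d ε ω ∩ ovM M U)) ∂sampleLaw =
      sampleLaw ((fun ω => G (mcf d ε ω ∩ ovM M U)) ⁻¹' t) := by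
    rw [← lintegral_indicator_one (mg ht)]; rfl
  have e3 : ∫⁻ ω, s.indicator (fun _ => (1 : ℝ≥0∞)) (F (mcf d ε ω ∩ ovM M C)) *
      t.indicator (fun _ => (1 : ℝ≥0∞)) (G (mcf d ε ω ∩ ovM M U)) ∂sampleLaw =
      sampleLaw ((fun ω => F (mcf d ε ω ∩ ovM M C)) ⁻¹' s ∩
        (fun ω => G (mcf d ε ω ∩ ovM M U)) ⁻¹' t) := by
    rw [← lintegral_indicator_one ((mf hs).inter (mg ht))]
    refine lintegral_congr fun ω => ?_
    classical
    by_cases h1 : F (mcf d ε ω ∩ ovM M C) ∈ s <;> by_cases h2 : G (mcf d ε ω ∩ ovM M U) ∈ t <;>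
      simp [h1, h2, Set.indicator]
  rw [← e1, ← e2, ← e3]
  exact h

/-- Bochner form -/
theorem int_two (hd : Measurable d) [Nonempty M] {ε : ℝ} (hε : 0 < ε) {C U : Set ℂ}
    (hC : MeasurableSet C) (hbC : Bornology.IsBounded C) (hU : MeasurableSet U)
    (hbU : Bornology.IsBounded U) (hdis : Disjoint C U) {𝕜 : Type*} [RCLike 𝕜]
    {F G : Set (ℂ × M) → 𝕜} (hF : FMe F) (hG : FMe G) :
    ∫ ω, F (mcf d ε ω ∩ ovM M C) * G (mcf d ε ω ∩ ovM M U) ∂sampleLaw =
      (∫ ω, F (mcf d ε ω ∩ ovM M C) ∂sampleLaw) *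
        ∫ ω, G (mcf d ε ω ∩ ovM M U) ∂sampleLaw :=
  (indepM hd hε hC hbC hU hbU hdis hF hG).integral_fun_mul_eq_mul_integral
    (meas_mcf hd hε hC hbC hF).aestronglyMeasurable
    (meas_mcf hd hε hU hbU hG).aestronglyMeasurable

end mark

/-! ### the second colouring -/

/-- second binary digit of the seed -/
def dec2 (u : unitInterval) : Bool :=
  decide ((u : ℝ) < 1 / 4 ∨ (1 / 2 ≤ (u : ℝ) ∧ (u : ℝ) < 3 / 4))

/-- two colours -/
def dd (u : unitInterval) : Bool × Bool := (dec u, dec2 u)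

theorem measurable_dec2 : Measurable dec2 := by
  unfold dec2
  apply measurable_to_bool
  have : (fun u : unitInterval => decide ((u : ℝ) < 1 / 4 ∨ (1 / 2 ≤ (u : ℝ) ∧ (u : ℝ) < 3 / 4)))
      ⁻¹' {true} = {u : unitInterval | (u : ℝ) < 1 / 4} ∪
        ({u : unitInterval | 1 / 2 ≤ (u : ℝ)} ∩ {u : unitInterval | (u : ℝ) < 3 / 4}) := by
    ext u; simp
  rw [this]
  exact (measurableSet_lt measurable_subtype_coe measurable_const).union
    ((measurableSet_le measurable_const measurable_subtype_coe).inter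
      (measurableSet_lt measurable_subtype_coe measurable_const))

theorem measurable_dd : Measurable dd := measurable_dec.prodMk measurable_dec2

theorem vol_Ico {a b : ℝ} (ha : 0 ≤ a) (hb : b ≤ 1) :
    (volume : Measure unitInterval) {u | a ≤ (u : ℝ) ∧ (u : ℝ) < b} = ENNReal.ofReal (b - a) := by
  rw [unitInterval.volume_apply]
  have : Subtype.val '' {u : unitInterval | a ≤ (u : ℝ) ∧ (u : ℝ) < b} = Ico a b := by
    ext t
    simp only [mem_image, mem_ofPred_eq, Subtype.exists, mem_Ico]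
    constructor
    · rintro ⟨x, hx, h, rfl⟩; exact h
    · rintro ⟨h0, h1⟩; exact ⟨t, ⟨ha.trans h0, (h1.le.trans hb)⟩, ⟨h0, h1⟩, rfl⟩
  rw [this, Real.volume_Ico]

theorem vol_Icc {a : ℝ} (ha : 0 ≤ a) :
    (volume : Measure unitInterval) {u | a ≤ (u : ℝ)} = ENNReal.ofReal (1 - a) := by
  rw [unitInterval.volume_apply]
  have : Subtype.val '' {u : unitInterval | a ≤ (u : ℝ)} = Icc a 1 := by
    ext t
    simp only [mem_image, mem_ofPred_eq, Subtype.exists, mem_Icc]
    constructor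
    · rintro ⟨x, hx, h, rfl⟩; exact ⟨h, hx.2⟩
    · rintro ⟨h0, h1⟩; exact ⟨t, ⟨ha.trans h0, h1⟩, h0, rfl⟩
  rw [this, Real.volume_Icc]

theorem quarter : ENNReal.ofReal (1 / 4) = (2⁻¹ : ℝ≥0∞) * 2⁻¹ := by
  rw [show (1 / 4 : ℝ) = (2⁻¹ : ℝ) * 2⁻¹ by norm_num, ENNReal.ofReal_mul (by norm_num),
    ENNReal.ofReal_inv_of_pos (by norm_num)]
  simp

theorem coin_sing (b : Bool) : coin {b} = 2⁻¹ := by
  unfold coin
  rw [Measure.smul_apply, Measure.count_singleton, smul_eq_mul, mul_one]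

theorem map_dd : (volume : Measure unitInterval).map dd = coin.prod coin := by
  apply Measure.ext_of_singleton
  rintro ⟨b, b'⟩
  rw [Measure.map_apply measurable_dd (measurableSet_singleton _), ← singleton_prod_singleton,
    Measure.prod_prod, coin_sing, coin_sing, ← quarter]
  cases b <;> cases b'
  · have : dd ⁻¹' ({false} ×ˢ {false}) = {u : unitInterval | 3 / 4 ≤ (u : ℝ)} := by
      ext u
      simp only [dd, dec, dec2, mem_preimage, mem_prod, mem_singleton_iff, decide_eq_false_iff_not,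
        mem_ofPred_eq]
      constructor
      · rintro ⟨h1, h2⟩
        by_contra h
        exact h2 (Or.inr ⟨not_lt.1 h1, not_le.1 h⟩)
      · intro h
        refine ⟨by linarith, ?_⟩
        rintro (h' | h')
        · linarith
        · linarith [h'.2]
    rw [this, vol_Icc (by norm_num)]
    norm_num
  · have : dd ⁻¹' ({false} ×ˢ {true}) = {u : unitInterval | 1 / 2 ≤ (u : ℝ) ∧ (u : ℝ) < 3 / 4} := by
      ext u
      simp only [dd, dec, dec2, mem_preimage, mem_prod, mem_singleton_iff, decide_eq_false_iff_not,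
        decide_eq_true_eq, mem_ofPred_eq]
      constructor
      · rintro ⟨h1, h2 | h2⟩
        · exact absurd (by linarith) h1
        · exact h2
      · intro h
        exact ⟨by linarith [h.1], Or.inr h⟩
    rw [this, vol_Ico (by norm_num) (by norm_num)]
    norm_num
  · have : dd ⁻¹' ({true} ×ˢ {false}) = {u : unitInterval | 1 / 4 ≤ (u : ℝ) ∧ (u : ℝ) < 1 / 2} := by
      ext u
      simp only [dd, dec, dec2, mem_preimage, mem_prod, mem_singleton_iff, decide_eq_false_iff_not,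
        decide_eq_true_eq, mem_ofPred_eq]
      constructor
      · rintro ⟨h1, h2⟩
        exact ⟨not_lt.1 fun h => h2 (Or.inl h), h1⟩
      · rintro ⟨h1, h2⟩
        refine ⟨h2, ?_⟩
        rintro (h' | h')
        · linarith
        · linarith [h'.1]
    rw [this, vol_Ico (by norm_num) (by norm_num)]
    norm_num
  · have : dd ⁻¹' ({true} ×ˢ {true}) = {u : unitInterval | 0 ≤ (u : ℝ) ∧ (u : ℝ) < 1 / 4} := by
      ext u
      simp only [dd, dec, dec2, mem_preimage, mem_prod, mem_singleton_iff, decide_eq_true_eq,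
        mem_ofPred_eq]
      constructor
      · rintro ⟨h1, h2 | h2⟩
        · exact ⟨u.2.1, h2⟩
        · exact absurd h2.1 (by linarith)
      · rintro ⟨-, h2⟩
        exact ⟨by linarith, Or.inl h2⟩
    rw [this, vol_Ico (by norm_num) (by norm_num)]
    norm_num


/-- the doubly coloured configuration -/
def dcf (ε : ℝ) (ω : Sample) : Set (ℂ × (Bool × Bool)) := mcf dd ε ω

/-- **the second colouring of the same points** -/
def cfg2 (ε : ℝ) (ω : Sample) : Set (ℂ × Bool) := mcf dec2 ε ω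

def p1 (X : Set (ℂ × (Bool × Bool))) : Set (ℂ × Bool) := (fun q => (q.1, q.2.1)) '' X

def p2 (X : Set (ℂ × (Bool × Bool))) : Set (ℂ × Bool) := (fun q => (q.1, q.2.2)) '' X

theorem p1_dcf (ε : ℝ) (ω : Sample) : p1 (dcf ε ω) = cfg ε ω := by
  unfold p1 dcf mcf
  rw [image_image]
  rfl

theorem p2_dcf (ε : ℝ) (ω : Sample) : p2 (dcf ε ω) = cfg2 ε ω := by
  unfold p2 dcf cfg2 mcf
  rw [image_image]
  rfl

theorem p1_inter (X : Set (ℂ × (Bool × Bool))) (B : Set ℂ) :
    p1 (X ∩ ovM (Bool × Bool) B) = p1 X ∩ ovr B := by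
  ext q
  simp only [p1, mem_image, mem_inter_iff, ovM, ovr, mem_ofPred_eq]
  constructor
  · rintro ⟨x, ⟨h1, h2⟩, rfl⟩; exact ⟨⟨x, h1, rfl⟩, h2⟩
  · rintro ⟨⟨x, h1, rfl⟩, h2⟩; exact ⟨x, ⟨h1, h2⟩, rfl⟩

theorem p2_inter (X : Set (ℂ × (Bool × Bool))) (B : Set ℂ) :
    p2 (X ∩ ovM (Bool × Bool) B) = p2 X ∩ ovr B := by
  ext q
  simp only [p2, mem_image, mem_inter_iff, ovM, ovr, mem_ofPred_eq]
  constructor
  · rintro ⟨x, ⟨h1, h2⟩, rfl⟩; exact ⟨⟨x, h1, rfl⟩, h2⟩
  · rintro ⟨⟨x, h1, rfl⟩, h2⟩; exact ⟨x, ⟨h1, h2⟩, rfl⟩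

theorem p1_range {n : ℕ} (z : Fin n → ℂ × (Bool × Bool)) :
    p1 (range z) = range fun i => ((z i).1, (z i).2.1) := by
  unfold p1
  rw [← range_comp]
  rfl

theorem p2_range {n : ℕ} (z : Fin n → ℂ × (Bool × Bool)) :
    p2 (range z) = range fun i => ((z i).1, (z i).2.2) := by
  unfold p2
  rw [← range_comp]
  rfl

section fme

variable {C : Type*} [MeasurableSpace C]

theorem fme_p1 {F : Set (ℂ × Bool) → C} (hF : FMe F) : FMe fun X => F (p1 X) := fun n => by
  simp only [p1_range]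
  refine (hF n).comp (measurable_pi_iff.2 fun i => ?_)
  have h : Measurable fun z : Fin n → ℂ × (Bool × Bool) => z i := measurable_pi_apply i
  exact (measurable_fst.comp h).prodMk (measurable_fst.comp (measurable_snd.comp h))

theorem fme_p2 {F : Set (ℂ × Bool) → C} (hF : FMe F) : FMe fun X => F (p2 X) := fun n => by
  simp only [p2_range]
  refine (hF n).comp (measurable_pi_iff.2 fun i => ?_)
  have h : Measurable fun z : Fin n → ℂ × (Bool × Bool) => z i := measurable_pi_apply i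
  exact (measurable_fst.comp h).prodMk (measurable_snd.comp (measurable_snd.comp h))

end fme


theorem fst_cfg (ε : ℝ) (ω : Sample) : Prod.fst '' cfg ε ω = points ε ω := by
  unfold cfg points
  rw [image_image]


/-! ### (R8) corridor and inside -/

section R8

variable {ε : ℝ} {C U : Set ℂ}


/-- (R8) Bochner -/
theorem R8_int {𝕜 : Type*} [RCLike 𝕜] (hε : 0 < ε) (hC : MeasurableSet C)
    (hbC : Bornology.IsBounded C)
    (hU : MeasurableSet U) (hbU : Bornology.IsBounded U) (hdis : Disjoint C U)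
    {F G : Set (ℂ × (Bool × Bool)) → 𝕜} (hF : FMe F) (hG : FMe G) :
    ∫ ω, F (dcf ε ω ∩ ovM _ C) * G (dcf ε ω ∩ ovM _ U) ∂sampleLaw =
      (∫ ω, F (dcf ε ω ∩ ovM _ C) ∂sampleLaw) * ∫ ω, G (dcf ε ω ∩ ovM _ U) ∂sampleLaw :=
  int_two measurable_dd hε hC hbC hU hbU hdis hF hG


/-- (R8): first colouring in the corridor, second colouring in the inside; the first factor has its
usual mean, the second factor too -/
theorem R8 {𝕜 : Type*} [RCLike 𝕜] (hε : 0 < ε) (hC : MeasurableSet C)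
    (hbC : Bornology.IsBounded C) (hU : MeasurableSet U) (hbU : Bornology.IsBounded U)
    (hdis : Disjoint C U) {F G : Set (ℂ × Bool) → 𝕜} (hF : FMe F) (hG : FMe G) :
    ∫ ω, F (cfg ε ω ∩ ovr C) * G (cfg2 ε ω ∩ ovr U) ∂sampleLaw =
      (∫ ω, F (cfg ε ω ∩ ovr C) ∂sampleLaw) * ∫ ω, G (cfg2 ε ω ∩ ovr U) ∂sampleLaw := by
  have h := R8_int hε hC hbC hU hbU hdis (fme_p1 hF) (fme_p2 hG)
  simp only [p1_inter, p2_inter, p1_dcf, p2_dcf] at h
  exact h



end R8



end Crest.Agent.R143.Dblx609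
end
end

-- ▼ part R143/Dbl2_609

/-!
# Row 143 (S0194), box R8, part 2: the quenched bridge (helper609)

* `gr χ` for `χ : A → M` : the marked configuration `{(z, χ z)}`; `paint A β`, `paint2 A β β'`
* `pat` : given positions `p` with distinct points, the marks of the points `A` in `B` are
  independent with law `volume.map d`
* `qav d ε B Φ ω` : quenched average over the marks, ANY `Φ`; `qav_fin`, `qav_bool`, `qav_dd`
* `lint_le_qav`, `lint_eq_qav` : annealed `≤` quenched average (`=` for measurable `Φ`)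
* `qavE`, `int_eq_qavE` : Bochner form
-/

set_option autoImplicit false
set_option linter.unusedSectionVars false

noncomputable section

open scoped Classical

namespace Crest.Agent.R143.Dbl2x609

open MeasureTheory Set Filter Topology
open Crest.ProbabilityR.Voronoi
open Crest.Agent.R143.PP0x831 Crest.Agent.R143.Poisx304 Crest.Agent.R143.Janx304
open Crest.Agent.R143.Prodx609 Crest.Agent.R143.ColSumx304 Crest.Agent.R143.Lawx831
open Crest.Agent.R143.Dblx609
open scoped ENNReal Nat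

section mark

variable {M : Type*} [MeasurableSpace M] {d : unitInterval → M}

/-- the graph of a function on a finite set of sites -/
def gr {A : Finset ℂ} (χ : A → M) : Set (ℂ × M) := range fun z : A => ((z : ℂ), χ z)

/-- the law of finitely many marks -/
theorem map_pat {A : Type*} [Fintype A] {f : A → (ℤ × ℤ) × ℕ} (hf : Function.Injective f)
    (hd : Measurable d) :
    MeasurePreserving (fun (c : Col) (z : A) => d (c (f z))) colLaw
      (Measure.pi fun _ : A => (volume : Measure unitInterval).map d) := by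
  have hp : IsProbabilityMeasure ((volume : Measure unitInterval).map d) :=
    Measure.isProbabilityMeasure_map hd.aemeasurable
  have hm : Measurable fun (c : Col) (z : A) => d (c (f z)) :=
    measurable_pi_iff.2 fun z => hd.comp (measurable_pi_apply (f z))
  refine ⟨hm, ?_⟩
  symm
  apply Measure.pi_eq
  intro s hs
  rw [Measure.map_apply hm (MeasurableSet.univ_pi hs)]
  have h : (fun (c : Col) (z : A) => d (c (f z))) ⁻¹' Set.pi univ s =
      Set.pi ((Finset.univ.image f : Finset ((ℤ × ℤ) × ℕ)) : Set ((ℤ × ℤ) × ℕ))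
        fun i => d ⁻¹' (Function.extend f s (fun _ => univ) i) := by
    ext c
    simp only [mem_preimage, Set.mem_pi, mem_univ, true_implies, Finset.coe_image,
      Finset.coe_univ, image_univ, mem_range, forall_exists_index, forall_apply_eq_imp_iff,
      hf.extend_apply]
  rw [h]
  unfold colLaw
  rw [Measure.infinitePi_pi, Finset.prod_image fun a _ b _ hab => hf hab]
  · refine Finset.prod_congr rfl fun a _ => ?_
    rw [hf.extend_apply, Measure.map_apply hd (hs a)]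
  · intro i hi
    obtain ⟨a, -, rfl⟩ := Finset.mem_image.1 hi
    rw [hf.extend_apply]
    exact hd (hs a)


theorem mcf_mk (ε : ℝ) (p : Pos) (c c0 : Col) : mcf d ε (mk p c) =
    (fun i : ℤ × ℤ × ℕ => (point ε (mk p c0) (i.1, i.2.1) i.2.2, d (c ((i.1, i.2.1), i.2.2)))) ''
      present (mk p c0) := by
  unfold mcf
  rw [present_mk p c c0]
  refine image_congr fun i _ => ?_
  rw [point_mk ε p c c0]
  simp [Lawx831.mk]

/-- **(D3)** the marks of the points in `B` given the positions -/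
theorem pat_exists {ε : ℝ} {p : Pos} (hi : ∀ c, Inj ε p c) {c0 : Col} {B : Set ℂ} {A : Finset ℂ}
    (hA : (A : Set ℂ) = points ε (mk p c0) ∩ B) (hd : Measurable d) :
    ∃ pat : Col → A → M, MeasurePreserving pat colLaw
      (Measure.pi fun _ : A => (volume : Measure unitInterval).map d) ∧
      ∀ c, mcf d ε (mk p c) ∩ ovM M B = gr (pat c) := by
  have hch : ∀ z : A, ∃ i : ℤ × ℤ × ℕ, i ∈ present (mk p c0) ∧
      point ε (mk p c0) (i.1, i.2.1) i.2.2 = z := by
    intro z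
    have hz : (z : ℂ) ∈ points ε (mk p c0) ∩ B := by rw [← hA]; exact z.2
    obtain ⟨i, h1, h2⟩ := hz.1
    exact ⟨i, h1, h2⟩
  choose g hg1 hg2 using hch
  set f : A → (ℤ × ℤ) × ℕ := fun z => (((g z).1, (g z).2.1), (g z).2.2) with hf
  have hinj : Function.Injective f := by
    intro z w h
    have h1 : g z = g w := by
      simp only [hf, Prod.mk.injEq] at h
      ext
      · exact h.1.1
      · exact h.1.2
      · exact h.2
    apply Subtype.ext
    rw [← hg2 z, ← hg2 w, h1]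
  refine ⟨fun c z => d (c (f z)), map_pat hinj hd, fun c => ?_⟩
  rw [mcf_mk ε p c c0]
  ext e
  simp only [gr, mem_inter_iff, mem_image, mem_range, ovM, mem_ofPred_eq]
  constructor
  · rintro ⟨⟨i, hi1, rfl⟩, he⟩
    have hz : point ε (mk p c0) (i.1, i.2.1) i.2.2 ∈ (A : Set ℂ) := by
      rw [hA]; exact ⟨⟨i, hi1, rfl⟩, he⟩
    refine ⟨⟨_, hz⟩, ?_⟩
    have e1 : g ⟨_, hz⟩ = i := hi c0 _ (hg1 _) _ hi1 (hg2 _)
    simp only [hf, e1]
  · rintro ⟨z, rfl⟩
    have hz : (z : ℂ) ∈ points ε (mk p c0) ∩ B := by rw [← hA]; exact z.2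
    refine ⟨⟨g z, hg1 z, ?_⟩, hz.2⟩
    rw [hg2 z]

/-- almost surely the positions are distinct -/
theorem ae_inj {ε : ℝ} (hε : 0 < ε) : ∀ᵐ p ∂posLaw, ∀ c, Inj ε p c := by
  have h1 : ∀ᵐ ω ∂sampleLaw, ∀ p ∈ present ω, ∀ q ∈ present ω,
      point ε ω (p.1, p.2.1) p.2.2 = point ε ω (q.1, q.2.1) q.2.2 → p = q := by
    filter_upwards [Crest.Agent.R143.PoisM3x930.m3a ε hε] with ω h using h.2.1
  have h2 : ∀ᵐ q ∂(posLaw.prod colLaw), Inj ε q.1 q.2 :=
    mp_mk.quasiMeasurePreserving.ae h1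
  have h3 := Measure.ae_ae_of_ae_prod h2
  filter_upwards [h3] with p hp c
  obtain ⟨c', hc'⟩ := hp.exists
  exact (Inj_iff ε p c' c).1 hc'

theorem ae_injω {ε : ℝ} (hε : 0 < ε) : ∀ᵐ ω ∂sampleLaw, ∀ c, Inj ε (toPos ω) c := by
  have h := ae_inj hε
  rw [← map_toPos] at h
  exact ae_of_ae_map measurable_toPos.aemeasurable h

/-- the quenched average over the marks -/
def qav (d : unitInterval → M) (ε : ℝ) (B : Set ℂ) (Φ : Set (ℂ × M) → ℝ≥0∞) (ω : Sample) : ℝ≥0∞ :=
  ∫⁻ c, Φ (mcf d ε (mk (toPos ω) c) ∩ ovM M B) ∂colLaw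

/-- `qav` is an average over the marks of the points in `B` -/
theorem qav_pi {ε : ℝ} {ω : Sample} (hi : ∀ c, Inj ε (toPos ω) c) {B : Set ℂ} {A : Finset ℂ}
    (hA : (A : Set ℂ) = points ε ω ∩ B) (hd : Measurable d) {Φ : Set (ℂ × M) → ℝ≥0∞}
    (hΦ : Measurable fun χ : A → M => Φ (gr χ)) :
    qav d ε B Φ ω = ∫⁻ χ : A → M, Φ (gr χ)
      ∂(Measure.pi fun _ : A => (volume : Measure unitInterval).map d) := by
  rw [← points_toPos ε ω (fun _ => 0)] at hA
  obtain ⟨pat, h1, h2⟩ := pat_exists hi hA hd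
  unfold qav
  simp only [h2]
  exact h1.lintegral_comp hΦ

/-- **(D4)** upper bound, any `Φ` -/
theorem lint_le_qav (ε : ℝ) (B : Set ℂ) (Φ : Set (ℂ × M) → ℝ≥0∞) :
    ∫⁻ ω, Φ (mcf d ε ω ∩ ovM M B) ∂sampleLaw ≤ ∫⁻ ω, qav d ε B Φ ω ∂sampleLaw := by
  set F : Sample → ℝ≥0∞ := fun ω => Φ (mcf d ε ω ∩ ovM M B) with hF
  calc ∫⁻ ω, F ω ∂sampleLaw
      ≤ ∫⁻ q : Pos × Col, F (mk q.1 q.2) ∂(posLaw.prod colLaw) := by
        rw [← mp_mk.map_eq]
        exact lintegral_map_le F _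
    _ ≤ ∫⁻ p, ∫⁻ c, F (mk p c) ∂colLaw ∂posLaw := lintegral_prod_le _
    _ ≤ ∫⁻ ω, qav d ε B Φ ω ∂sampleLaw := by
        rw [← map_toPos]
        exact lintegral_map_le _ _

theorem qav_meas (hd : Measurable d) [Nonempty M] {ε : ℝ} (hε : 0 < ε) {B : Set ℂ}
    (hB : MeasurableSet B) (hb : Bornology.IsBounded B) {Φ : Set (ℂ × M) → ℝ≥0∞} (hΦ : FM Φ) :
    Measurable fun p : Pos => ∫⁻ c, Φ (mcf d ε (mk p c) ∩ ovM M B) ∂colLaw :=
  Measurable.lintegral_prod_right ((meas_mcf hd hε hB hb (F := Φ) hΦ).comp mp_mk.measurable)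

theorem qav_measω (hd : Measurable d) [Nonempty M] {ε : ℝ} (hε : 0 < ε) {B : Set ℂ}
    (hB : MeasurableSet B) (hb : Bornology.IsBounded B) {Φ : Set (ℂ × M) → ℝ≥0∞} (hΦ : FM Φ) :
    Measurable (qav d ε B Φ) :=
  (qav_meas hd hε hB hb hΦ).comp measurable_toPos

/-- **(D4)** equality for measurable `Φ` -/
theorem lint_eq_qav (hd : Measurable d) [Nonempty M] {ε : ℝ} (hε : 0 < ε) {B : Set ℂ}
    (hB : MeasurableSet B) (hb : Bornology.IsBounded B) {Φ : Set (ℂ × M) → ℝ≥0∞} (hΦ : FM Φ) :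
    ∫⁻ ω, qav d ε B Φ ω ∂sampleLaw = ∫⁻ ω, Φ (mcf d ε ω ∩ ovM M B) ∂sampleLaw := by
  have hm := meas_mcf hd hε hB hb (F := Φ) hΦ
  have e1 : ∫⁻ ω, qav d ε B Φ ω ∂sampleLaw =
      ∫⁻ p, ∫⁻ c, Φ (mcf d ε (mk p c) ∩ ovM M B) ∂colLaw ∂posLaw := by
    rw [← map_toPos]
    exact (lintegral_map (qav_meas hd hε hB hb hΦ) measurable_toPos).symm
  have e2 := lintegral_prod (μ := posLaw) (ν := colLaw)
    (fun q : Pos × Col => Φ (mcf d ε (mk q.1 q.2) ∩ ovM M B)) (hm.comp mp_mk.measurable).aemeasurable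
  rw [e1, ← mp_mk.lintegral_comp hm, e2]



end mark

/-! ### finite mark spaces -/

section fin

variable {M : Type*} [MeasurableSpace M] [Fintype M] [MeasurableSingletonClass M]
  {d : unitInterval → M}

theorem meas_gr {A : Finset ℂ} {Y : Type*} [MeasurableSpace Y] (Φ : (A → M) → Y) :
    Measurable Φ := by
  have : Countable M := inferInstance
  exact measurable_of_countable _

/-- **(D3)** any `Φ`: uniform average over the functions `A → M` -/
theorem qav_fin {ε : ℝ} {ω : Sample} (hi : ∀ c, Inj ε (toPos ω) c) {B : Set ℂ} {A : Finset ℂ}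
    (hA : (A : Set ℂ) = points ε ω ∩ B) (hd : Measurable d)
    (hu : ∀ b : M, (volume : Measure unitInterval).map d {b} = (Fintype.card M : ℝ≥0∞)⁻¹)
    (Φ : Set (ℂ × M) → ℝ≥0∞) :
    qav d ε B Φ ω = ((Fintype.card M : ℝ≥0∞) ^ A.card)⁻¹ * ∑ χ : A → M, Φ (gr χ) := by
  have hp : IsProbabilityMeasure ((volume : Measure unitInterval).map d) :=
    Measure.isProbabilityMeasure_map hd.aemeasurable
  rw [qav_pi hi hA hd (meas_gr _), lintegral_fintype, Finset.mul_sum]
  refine Finset.sum_congr rfl fun χ _ => ?_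
  rw [Measure.pi_singleton]
  simp only [hu]
  rw [Finset.prod_const, Finset.card_univ, Fintype.card_coe, mul_comm, ENNReal.inv_pow]

end fin

/-! ### one colouring and two colourings, with sets of black sites -/

/-- the sites `A` with the black set `β` -/
def paint (A β : Finset ℂ) : Set (ℂ × Bool) := {q | q.1 ∈ A ∧ (q.2 = true ↔ q.1 ∈ β)}

def paint2 (A β β' : Finset ℂ) : Set (ℂ × (Bool × Bool)) :=
  {q | q.1 ∈ A ∧ (q.2.1 = true ↔ q.1 ∈ β) ∧ (q.2.2 = true ↔ q.1 ∈ β')}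



/-- functions to `Bool` are subsets -/
def fs (A : Finset ℂ) (χ : A → Bool) : Finset ℂ :=
  (Finset.univ.filter fun z : A => χ z = true).map ⟨Subtype.val, Subtype.val_injective⟩

theorem mem_fs {A : Finset ℂ} {χ : A → Bool} {z : ℂ} :
    z ∈ fs A χ ↔ ∃ h : z ∈ A, χ ⟨z, h⟩ = true := by
  unfold fs
  simp only [Finset.mem_map, Finset.mem_filter, Finset.mem_univ, true_and,
    Function.Embedding.coeFn_mk]
  constructor
  · rintro ⟨a, ha, rfl⟩; exact ⟨a.2, ha⟩
  · rintro ⟨h, h'⟩; exact ⟨⟨z, h⟩, h', rfl⟩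

theorem fs_mem (A : Finset ℂ) (χ : A → Bool) : fs A χ ∈ A.powerset := by
  rw [Finset.mem_powerset]
  intro z hz
  exact (mem_fs.1 hz).1

theorem fs_decide {A β : Finset ℂ} (h : β ∈ A.powerset) :
    fs A (fun z => decide ((z : ℂ) ∈ β)) = β := by
  ext z
  rw [mem_fs]
  simp only [decide_eq_true_eq]
  exact ⟨fun ⟨_, h⟩ => h, fun hz => ⟨Finset.mem_powerset.1 h hz, hz⟩⟩

theorem decide_fs {A : Finset ℂ} (χ : A → Bool) (z : A) : decide ((z : ℂ) ∈ fs A χ) = χ z := by
  by_cases h : χ z = true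
  · rw [h, decide_eq_true_eq, mem_fs]; exact ⟨z.2, h⟩
  · have h' : χ z = false := by simpa using h
    rw [h', decide_eq_false_iff_not, mem_fs]
    rintro ⟨_, h2⟩
    exact h h2

theorem sum_fs {R : Type*} [AddCommMonoid R] (A : Finset ℂ) (g : Finset ℂ → R) :
    ∑ χ : A → Bool, g (fs A χ) = ∑ β ∈ A.powerset, g β := by
  refine Finset.sum_bij' (fun χ _ => fs A χ) (fun β _ => fun z : A => decide ((z : ℂ) ∈ β)) ?_ ?_ ?_ ?_ ?_
  · intro χ _; exact fs_mem A χ
  · intro β _; exact Finset.mem_univ _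
  · intro χ _; funext z; exact decide_fs χ z
  · intro β hβ; exact fs_decide hβ
  · intro χ _; rfl

theorem gr_paint {A : Finset ℂ} (χ : A → Bool) : gr χ = paint A (fs A χ) := by
  ext ⟨z, b⟩
  simp only [gr, paint, mem_range, mem_ofPred_eq, Prod.mk.injEq]
  constructor
  · rintro ⟨w, rfl, rfl⟩; exact ⟨w.2, by rw [mem_fs]; exact ⟨fun h => ⟨w.2, h⟩, fun ⟨_, h⟩ => h⟩⟩
  · rintro ⟨h1, h2⟩
    refine ⟨⟨z, h1⟩, rfl, ?_⟩
    rw [Bool.eq_iff_iff, h2, mem_fs]
    exact ⟨fun h => ⟨h1, h⟩, fun ⟨_, h⟩ => h⟩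

theorem gr_paint2 {A : Finset ℂ} (χ : A → Bool × Bool) :
    gr χ = paint2 A (fs A fun z => (χ z).1) (fs A fun z => (χ z).2) := by
  ext ⟨z, b⟩
  simp only [gr, paint2, mem_range, mem_ofPred_eq, Prod.mk.injEq]
  constructor
  · rintro ⟨w, rfl, rfl⟩
    refine ⟨w.2, ?_, ?_⟩
    · rw [mem_fs]; exact ⟨fun h => ⟨w.2, h⟩, fun ⟨_, h⟩ => h⟩
    · rw [mem_fs]; exact ⟨fun h => ⟨w.2, h⟩, fun ⟨_, h⟩ => h⟩
  · rintro ⟨h1, h2, h3⟩
    refine ⟨⟨z, h1⟩, rfl, Prod.ext ?_ ?_⟩
    · rw [Bool.eq_iff_iff, h2, mem_fs]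
      exact ⟨fun h => ⟨h1, h⟩, fun ⟨_, h⟩ => h⟩
    · rw [Bool.eq_iff_iff, h3, mem_fs]
      exact ⟨fun h => ⟨h1, h⟩, fun ⟨_, h⟩ => h⟩

theorem sum_gr {R : Type*} [AddCommMonoid R] (A : Finset ℂ) (g : Set (ℂ × Bool) → R) :
    ∑ χ : A → Bool, g (gr χ) = ∑ β ∈ A.powerset, g (paint A β) := by
  rw [← sum_fs A fun β => g (paint A β)]
  exact Finset.sum_congr rfl fun χ _ => by rw [gr_paint]

theorem sum_gr2 {R : Type*} [AddCommMonoid R] (A : Finset ℂ) (g : Set (ℂ × (Bool × Bool)) → R) :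
    ∑ χ : A → Bool × Bool, g (gr χ) =
      ∑ β ∈ A.powerset, ∑ β' ∈ A.powerset, g (paint2 A β β') := by
  rw [← sum_fs A fun β => ∑ β' ∈ A.powerset, g (paint2 A β β')]
  have h : ∀ χ : A → Bool, ∑ β' ∈ A.powerset, g (paint2 A (fs A χ) β') =
      ∑ χ' : A → Bool, g (paint2 A (fs A χ) (fs A χ')) := fun χ => (sum_fs A _).symm
  simp only [h]
  rw [← Finset.sum_product']
  refine Finset.sum_bij' (fun χ _ => ((fun z => (χ z).1), fun z => (χ z).2))
    (fun q _ => fun z => (q.1 z, q.2 z)) ?_ ?_ ?_ ?_ ?_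
  · intro χ _; simp
  · intro q _; exact Finset.mem_univ _
  · intro χ _; rfl
  · intro q _; rfl
  · intro χ _; rw [gr_paint2]

theorem unif_dec (b : Bool) :
    (volume : Measure unitInterval).map dec {b} = (Fintype.card Bool : ℝ≥0∞)⁻¹ := by
  rw [map_dec, coin_sing, Fintype.card_bool]
  rfl


theorem unif_dd (b : Bool × Bool) :
    (volume : Measure unitInterval).map dd {b} = (Fintype.card (Bool × Bool) : ℝ≥0∞)⁻¹ := by
  obtain ⟨x, y⟩ := b
  rw [map_dd, ← singleton_prod_singleton, Measure.prod_prod, coin_sing, coin_sing,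
    Fintype.card_prod, Fintype.card_bool, Nat.cast_mul, ENNReal.mul_inv (by simp) (by simp)]
  rfl

/-- **(D3)** one colouring -/
theorem qav_bool {ε : ℝ} {ω : Sample} (hi : ∀ c, Inj ε (toPos ω) c) {B : Set ℂ} {A : Finset ℂ}
    (hA : (A : Set ℂ) = points ε ω ∩ B) (Φ : Set (ℂ × Bool) → ℝ≥0∞) :
    qav dec ε B Φ ω = ((2 : ℝ≥0∞) ^ A.card)⁻¹ * ∑ β ∈ A.powerset, Φ (paint A β) := by
  rw [qav_fin hi hA measurable_dec unif_dec Φ, sum_gr, Fintype.card_bool]
  rfl

/-- **(D3)** two colourings -/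
theorem qav_dd {ε : ℝ} {ω : Sample} (hi : ∀ c, Inj ε (toPos ω) c) {B : Set ℂ} {A : Finset ℂ}
    (hA : (A : Set ℂ) = points ε ω ∩ B) (Φ : Set (ℂ × (Bool × Bool)) → ℝ≥0∞) :
    qav dd ε B Φ ω = ((4 : ℝ≥0∞) ^ A.card)⁻¹ *
      ∑ β ∈ A.powerset, ∑ β' ∈ A.powerset, Φ (paint2 A β β') := by
  rw [qav_fin hi hA measurable_dd unif_dd Φ, sum_gr2, Fintype.card_prod, Fintype.card_bool]
  norm_num

/-! ### Bochner averages -/

section bochner

variable {M : Type*} [MeasurableSpace M] {d : unitInterval → M}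
  {E : Type*} [NormedAddCommGroup E] [NormedSpace ℝ E] [CompleteSpace E]






end bochner

/-- finitely many points in a bounded set -/
theorem finite_points {ε : ℝ} (hε : 0 < ε) {B : Set ℂ} (hb : Bornology.IsBounded B) (ω : Sample) :
    (points ε ω ∩ B).Finite := by
  obtain ⟨R, hR⟩ := hb.subset_closedBall 0
  obtain ⟨n, y, -, -, h⟩ := frs_cfg hε (B := Metric.closedBall (0 : ℂ) R)
    Metric.isClosed_closedBall.measurableSet Metric.isBounded_closedBall
  have h1 : (cfg ε ω ∩ ovr (Metric.closedBall (0 : ℂ) R)).Finite := by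
    have h2 : cfg ε ω ∩ ovr (Metric.closedBall (0 : ℂ) R) = _ := h ω
    rw [h2]
    exact (Set.finite_lt_nat _).image _
  refine (h1.image Prod.fst).subset ?_
  rintro z ⟨hz, hzB⟩
  rw [← fst_cfg] at hz
  obtain ⟨q, hq, rfl⟩ := hz
  exact ⟨q, ⟨hq, hR hzB⟩, rfl⟩

/-- the points in `B` -/
def Ap (ε : ℝ) (B : Set ℂ) (ω : Sample) : Finset ℂ :=
  if h : (points ε ω ∩ B).Finite then h.toFinset else ∅

theorem coe_Ap {ε : ℝ} (hε : 0 < ε) {B : Set ℂ} (hb : Bornology.IsBounded B) (ω : Sample) :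
    (Ap ε B ω : Set ℂ) = points ε ω ∩ B := by
  unfold Ap
  rw [dif_pos (finite_points hε hb ω)]
  exact Set.Finite.coe_toFinset _


end Crest.Agent.R143.Dbl2x609
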