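import Crest.Agent.R143.Tpl3_978
import Crest.Agent.R143.WLoc11_713
import Crest.Agent.R143.IndLoc3_279
import Crest.Agent.R143.TplI_204
import Crest.Agent.R143.PthG_765
import Crest.Agent.R143.CorL_765
import Crest.Agent.R143.CorH_713

-- ▼ part R143/GPos_348
section

/-!
# Row 143 (S0194), CORE-C, glue CorrI: from the weight to the events (helper348)

`P : Pth T ι κ` a path of gates and tiles in the frames `P.fr i` (978), `u i` the rotation part of the
frame `i`, `r t` the rotation part of the next gate of the type `t`.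

* `gw_ne` : `gw I J X ≠ 0` gives `a i X ≠ 0`, `e k X ≠ 0`
* `mo_aff`, `mo_trans`, `mo_uniq`
* `gP g i` : the gate `g` in the frame `i`; `gP_tgt`, `pre_tgt` : the target gate in the frame of the source
* `ng_iff`, `lg_iff`, `tc_iff`, `zc_eq` : gate darts, tile events and charges in a frame
* `colour_all` : an almost sure local property of the configuration holds for almost every environment
  and ALL colourings of its sites
* `raw_all` : 978's `Raw` (forced events): for almost every environment and all colourings, positive weight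
  gives `R.A ≠ 0`, `R.E t ≠ 0` in the frames
* `gpos`, `gpos_all` : **LAW → EVENT**: gate darts `LG` and tile events `TC` (or any event `TT t` which is
  covariant) of the path
-/

set_option autoImplicit false

noncomputable section

namespace Crest.Agent.R143.GPosx348

open MeasureTheory Set ProbabilityTheory
open Crest.ProbabilityR.Voronoi
open Crest.Agent.R143.PP0x831 Crest.Agent.R143.Poisx304 Crest.Agent.R143.Janx304
open Crest.Agent.R143.IndLocx279 Crest.Agent.R143.PWx978 Crest.Agent.R143.Tplx978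
open Crest.Agent.R143.WLocx713 Crest.Agent.R143.IndLoc3x279
open Crest.Agent.R143.CovBx126 (Mo)
open scoped ENNReal

/-! ### the weight -/

section weight

variable {ε : ℝ} {ι κ : Type*} (M : PWx978.Net ε ι κ)

theorem fac_ne {k : κ} {X : Cf} (h : M.fac k X ≠ 0) : M.e k X ≠ 0 := by
  intro h0
  apply h
  unfold PWx978.Net.fac
  rw [h0, zero_mul]

/-- **positive weight gives positive factors** -/
theorem gw_ne {I : Finset ι} {J : Finset κ} {X : Cf} (h : M.gw I J X ≠ 0) :
    (∀ i ∈ I, M.a i X ≠ 0) ∧ ∀ k ∈ J, M.e k X ≠ 0 := by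
  unfold PWx978.Net.gw at h
  have h1 := left_ne_zero_of_mul h
  have h2 := right_ne_zero_of_mul h
  exact ⟨fun i hi => Finset.prod_ne_zero_iff.1 h1 i hi,
    fun k hk => fac_ne M (Finset.prod_ne_zero_iff.1 h2 k hk)⟩



end weight

/-! ### frames as rigid motions -/









section one

variable {f : ℂ ≃ᵐ ℂ} {c : ℂ} {X : Cf}






end one

/-! ### paths -/

section path

variable {ε : ℝ} {Ty ι κ : Type*} {T : Tpl ε Ty}


variable {P : Pth T ι κ} {u : ι → ℂ} {r : Ty → ℂ}



theorem pre_tgt (k : κ) (Q : Set ℂ) : (P.fr (P.tgt k)).e.symm ⁻¹' Q =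
    (P.fr (P.src k)).e.symm ⁻¹' ((T.nx (P.ty k)).e.symm ⁻¹' Q) := by
  ext z
  simp only [mem_preimage]
  rw [P.step_symm k z]







end path

/-! ### all colourings of almost every environment -/

open Classical in
/-- **almost every environment, all colourings** -/
theorem colour_all {ε : ℝ} (hε : 0 < ε) {B : Set ℂ} (hB : MeasurableSet B)
    (hb : Bornology.IsBounded B) {p : Cf → Prop} (hp : LocalOn B p) (hpm : FinMeas p)
    (h : ∀ᵐ ω ∂sampleLaw, p (cfg ε ω)) {S : Sample → Finset ℂ}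
    (hS : ∀ᵐ ω ∂sampleLaw, (S ω : Set ℂ) ⊆ points ε ω ∧ points ε ω ∩ B ⊆ S ω) :
    ∀ᵐ ω ∂sampleLaw, ∀ β ⊆ S ω, p (clr (S ω) β) := by
  set F : Cf → ℝ≥0∞ := fun S => if p S then 0 else 1 with hF
  have hFl : LocalOn B F := by
    intro S
    have := hp S
    simp only [hF]
    rw [← this]
  have hFm : FinMeas F := by
    intro n
    exact Measurable.ite (measurableSet_setOfPred.2 (hpm n)) measurable_const measurable_const
  have h1 := lint_cav hε hB hb hFl hFm hS
  have h2 : ∫⁻ ω, F (cfg ε ω) ∂sampleLaw = 0 := by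
    rw [lintegral_eq_zero_iff (meas_fun hε hB hb hFl hFm)]
    filter_upwards [h] with ω hω
    simp [hF, hω]
  rw [h2] at h1
  have h3 : AEMeasurable (fun ω => cavE F (S ω)) sampleLaw := by
    have h4 := meas_fun hε hB hb (ps_local (fun P => cavE F (fs P)) B)
      (ps_meas (f := fun P => cavE F (fs P)) (fun n => cavE_meas (show FM F from hFm) n) hB)
    simp only [psn_cfg] at h4
    refine ⟨_, h4, ?_⟩
    filter_upwards [hS] with ω hω
    have hfin : (points ε ω ∩ B).Finite := (Finset.finite_toSet (S ω)).subset hω.2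
    have e : fs (points ε ω ∩ B) = hfin.toFinset := by unfold fs; rw [dif_pos hfin]
    rw [e]
    refine cavE_local hFl (fun x hx => ?_) fun x hx hxB => ?_
    · exact hω.2 (hfin.mem_toFinset.1 hx)
    · exact hfin.mem_toFinset.2 ⟨hω.1 hx, hxB⟩
  rw [lintegral_eq_zero_iff' h3] at h1
  filter_upwards [h1] with ω hω β hβ
  have h5 : cavE F (S ω) = 0 := hω
  unfold cavE at h5
  rcases mul_eq_zero.1 h5 with h6 | h6
  · exact absurd h6 (pow_ne_zero _ (by simp))
  · have h7 := (Finset.sum_eq_zero_iff.1 h6) β (Finset.mem_powerset.2 hβ)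
    by_contra h8
    simp only [hF, if_neg h8] at h7
    exact one_ne_zero h7

section raw

variable {ε : ℝ} {Ty ι κ : Type*} {R : Raw ε Ty}

/-- the property of 978's `ae_ne` -/
def Good (P : Pth R.tpl ι κ) [DecidableEq ι] (I : Finset ι) (J : Finset κ) (X : Cf) : Prop :=
  P.net.gw I J X ≠ 0 → (∀ i ∈ I, tr (P.fr i).e R.A X ≠ 0) ∧
    ∀ k ∈ J, tr (P.fr (P.src k)).e (R.E (P.ty k)) X ≠ 0

variable [DecidableEq ι]

theorem hN' (P : Pth R.tpl ι κ) {I : Finset ι} {J : Finset κ}
    (hN : ∀ k ∈ J, P.src k ∈ I ∧ P.tgt k ∈ I) : ∀ k ∈ J, P.net.N k ⊆ I := by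
  intro k hk i hi
  have h1 : i ∈ ({P.src k, P.tgt k} : Finset ι) := hi
  rw [Finset.mem_insert, Finset.mem_singleton] at h1
  rcases h1 with rfl | rfl
  · exact (hN k hk).1
  · exact (hN k hk).2

/-- the raw tile event is local on the region of the tile and its gates -/
theorem raw_local (P : Pth R.tpl ι κ) {I : Finset ι} {J : Finset κ} {k : κ} (hk : k ∈ J)
    (h1 : P.src k ∈ I) (h2 : P.tgt k ∈ I) :
    LocalOn (P.net.reg I J) (tr (P.fr (P.src k)).e (R.E (P.ty k))) := by
  have h := tr_local (P.fr (P.src k)).e (R.El (P.ty k))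
  refine LocalOn.mono ?_ h
  have h3 : (P.fr (P.src k)).e.symm ⁻¹' ((R.Q ∪ (R.nx (P.ty k)).e.symm ⁻¹' R.Q) ∪ R.D (P.ty k)) =
      (P.net.B (P.src k) ∪ P.net.B (P.tgt k)) ∪ P.net.C k := by
    rw [preimage_union, preimage_union]
    have h4 := pre_tgt (P := P) k R.Q
    change (P.fr (P.tgt k)).e.symm ⁻¹' R.Q =
      (P.fr (P.src k)).e.symm ⁻¹' ((R.nx (P.ty k)).e.symm ⁻¹' R.Q) at h4
    rw [← h4]
    rfl
  rw [h3]
  refine union_subset (union_subset ?_ ?_) ?_
  · exact (subset_biUnion_of_mem (u := P.net.B) h1).trans subset_union_left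
  · exact (subset_biUnion_of_mem (u := P.net.B) h2).trans subset_union_left
  · exact (subset_biUnion_of_mem (u := P.net.C) hk).trans subset_union_right

theorem good_local (P : Pth R.tpl ι κ) {I : Finset ι} {J : Finset κ}
    (hN : ∀ k ∈ J, P.src k ∈ I ∧ P.tgt k ∈ I) : LocalOn (P.net.reg I J) (Good P I J) := by
  intro S
  have e1 : P.net.gw I J S = P.net.gw I J (S ∩ ovr (P.net.reg I J)) :=
    P.net.gw_local (hN' P hN) S
  have e2 : ∀ i ∈ I, tr (P.fr i).e R.A S = tr (P.fr i).e R.A (S ∩ ovr (P.net.reg I J)) := by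
    intro i hi
    exact LocalOn.mono ((subset_biUnion_of_mem (u := P.net.B) hi).trans subset_union_left)
      (tr_local (P.fr i).e R.Al) S
  have e3 : ∀ k ∈ J, tr (P.fr (P.src k)).e (R.E (P.ty k)) S =
      tr (P.fr (P.src k)).e (R.E (P.ty k)) (S ∩ ovr (P.net.reg I J)) := fun k hk =>
    raw_local P hk (hN k hk).1 (hN k hk).2 S
  change Good P I J S = Good P I J (S ∩ ovr (P.net.reg I J))
  unfold Good
  rw [← e1]
  apply propext
  refine imp_congr_right fun _ => and_congr ?_ ?_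
  · exact forall₂_congr fun i hi => by rw [e2 i hi]
  · exact forall₂_congr fun k hk => by rw [e3 k hk]

theorem good_fm (P : Pth R.tpl ι κ) (I : Finset ι) (J : Finset κ) : FinMeas (Good P I J) := by
  intro n
  refine measurableSet_setOfPred.1 ?_
  have m1 : MeasurableSet {z : Fin n → ℂ × Bool | P.net.gw I J (range z) ≠ 0} :=
    (P.net.gw_meas I J n) (measurableSet_singleton 0).compl
  have m2 : MeasurableSet {z : Fin n → ℂ × Bool | ∀ i ∈ I, tr (P.fr i).e R.A (range z) ≠ 0} := by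
    have : {z : Fin n → ℂ × Bool | ∀ i ∈ I, tr (P.fr i).e R.A (range z) ≠ 0} =
        ⋂ i ∈ I, {z | tr (P.fr i).e R.A (range z) ≠ 0} := by
      ext z; simp
    rw [this]
    exact Finset.measurableSet_biInter I fun i _ =>
      (tr_fm (P.fr i).e R.Am n) (measurableSet_singleton 0).compl
  have m3 : MeasurableSet {z : Fin n → ℂ × Bool |
      ∀ k ∈ J, tr (P.fr (P.src k)).e (R.E (P.ty k)) (range z) ≠ 0} := by
    have : {z : Fin n → ℂ × Bool | ∀ k ∈ J, tr (P.fr (P.src k)).e (R.E (P.ty k)) (range z) ≠ 0} =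
        ⋂ k ∈ J, {z | tr (P.fr (P.src k)).e (R.E (P.ty k)) (range z) ≠ 0} := by
      ext z; simp
    rw [this]
    exact Finset.measurableSet_biInter J fun k _ =>
      (tr_fm (P.fr (P.src k)).e (R.Em (P.ty k)) n) (measurableSet_singleton 0).compl
  have e : {z : Fin n → ℂ × Bool | Good P I J (range z)} =
      {z | P.net.gw I J (range z) ≠ 0}ᶜ ∪ ({z | ∀ i ∈ I, tr (P.fr i).e R.A (range z) ≠ 0} ∩
        {z | ∀ k ∈ J, tr (P.fr (P.src k)).e (R.E (P.ty k)) (range z) ≠ 0}) := by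
    ext z
    simp only [Good, mem_ofPred_eq, mem_union, mem_compl_iff, mem_inter_iff]
    tauto
  rw [e]
  exact m1.compl.union (m2.inter m3)

/-- **forced events, all colourings**: for almost every environment and ALL colourings `β` of its sites,
positive weight gives the raw gate and tile events in the frames of the path -/
theorem raw_all (h : R.AePos) (P : Pth R.tpl ι κ) {I : Finset ι} {J : Finset κ}
    (hN : ∀ k ∈ J, P.src k ∈ I ∧ P.tgt k ∈ I) {S : Sample → Finset ℂ}
    (hS : ∀ᵐ ω ∂sampleLaw, (S ω : Set ℂ) ⊆ points ε ω ∧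
      points ε ω ∩ P.net.reg I J ⊆ S ω) :
    ∀ᵐ ω ∂sampleLaw, ∀ β ⊆ S ω, P.net.gw I J (clr (S ω) β) ≠ 0 →
      (∀ i ∈ I, R.A (mv (P.fr i).e.symm (clr (S ω) β)) ≠ 0) ∧
        ∀ k ∈ J, R.E (P.ty k) (mv (P.fr (P.src k)).e.symm (clr (S ω) β)) ≠ 0 :=
  colour_all (p := Good P I J) R.eps (P.net.reg_meas I J) (P.net.reg_bdd I J)
    (good_local P hN) (good_fm P I J) (Raw.ae_ne h P hN) hS

theorem clr_finite (S β : Finset ℂ) : (clr S β).Finite := by
  refine Set.Finite.subset ((S.finite_toSet).prod (Set.finite_univ (α := Bool))) ?_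
  rintro ⟨z, b⟩ hz
  exact ⟨hz.1, mem_univ _⟩


end raw

end Crest.Agent.R143.GPosx348
end
end

-- ▼ part R143/GPosF_348
section

/-!
# Row 143 (S0194), CORE-C, glue CorrI: from the weight of the fine path to necks and links (helper348)

204's template (`DT`, `DT.raw`) on 765's path (`pth`, 228's `FPath`).

* `gt P D a` : the gate `a`; `gt_succ`; `bx P D a` its box
* `ev_gate`, `ev_tile`, `ev_tile'` : factors `≠ 0` in the frame `a` = gate dart, tile event `TB` in the plane
* `sX_clr`, `bX_clr`, `ps_clr'`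
* `Ev S β p` : the darts `p a` are the selected necks of the gates, with the links of the tiles
* `ev_all` : **for almost every environment, all colourings**: positive weight of the whole path gives
  the gate darts and all tile events (cut configurations)
* `ev_full` : the same for the full configurations in a dense environment
* `evp_all` : the same as necks (921's `NeckD`) and links (`Lk`) of the finite sets `S`, `β`
-/

set_option autoImplicit false
set_option linter.all false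

noncomputable section

open scoped Classical

namespace Crest.Agent.R143.GPosFx348

open MeasureTheory Set ProbabilityTheory
open Crest.ProbabilityR.Voronoi
open Crest.Agent.R143.B0x346 Crest.Agent.R143.DelGx806 Crest.Agent.R143.Locx922
open Crest.Agent.R143.Neckx921 (Neck NeckD Tile Lk)
open Crest.Agent.R143.PP0x831 Crest.Agent.R143.Poisx304 Crest.Agent.R143.Janx304
open Crest.Agent.R143.Prodx609 Crest.Agent.R143.FinMx609 Crest.Agent.R143.FinM2x609
open Crest.Agent.R143.IndLocx279 Crest.Agent.R143.PWx978 Crest.Agent.R143.Tplx978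
open Crest.Agent.R143.WLocx713 Crest.Agent.R143.IndLoc3x279
open Crest.Agent.R143.CovBx126 (Mo)
open Crest.Agent.R143.TileRx228 Crest.Agent.R143.PthFx765 Crest.Agent.R143.TplIx204
open Crest.Agent.R143.GPosx348 (colour_all raw_all clr_finite gw_ne)
open scoped ENNReal

variable {M : ℕ} {W : ℤ → ℤ × ℤ}

/-! ### gates and tiles in the plane -/

/-- the gate `a` -/
def gt (P : FPath M W) (D : DT) (a : ℤ) : GPar := D.g.mv (frm P D.h a).e (ge W a)

/-- the box of the gate `a` -/
def bx (D : DT) (W : ℤ → ℤ × ℤ) (a : ℤ) : Set ℂ := GB D.A' D.B' D.h W a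

theorem gt_succ (P : FPath M W) (D : DT) (a : ℤ) :
    gt P D (a + 1) = (D.gn (tn W a)).mv (frm P D.h a).e (ge W a) := by
  unfold gt DT.gn GPar.mv
  have h1 : (frm P D.h (a + 1)).e D.g.z0 = (frm P D.h a).e ((nxt D.h (tn W a)).e D.g.z0) :=
    frm_succ P D.h a D.g.z0
  simp only [h1, PthFx765.ge_succ P a, mul_assoc]


theorem pre_Q (P : FPath M W) (D : DT) (a : ℤ) : (frm P D.h a).e.symm ⁻¹' D.Q = bx D W a := by
  ext s
  rw [mem_preimage]
  exact mem_WQ P a s

theorem pre_Qn (P : FPath M W) (D : DT) (a : ℤ) :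
    (frm P D.h a).e.symm ⁻¹' D.Qn (tn W a) = bx D W (a + 1) := by
  ext s
  rw [mem_preimage]
  exact mem_WQ' P a s

theorem pre_WR (P : FPath M W) (D : DT) (a : ℤ) (A B : ℝ) :
    (frm P D.h a).e.symm ⁻¹' WR A B D.h (tn W a) = RR A B D.h W a := by
  ext s
  rw [mem_preimage]
  exact mem_WR P a s

theorem pre_Z (P : FPath M W) (D : DT) (a : ℤ) (hA : 0 < D.A') (hB : D.B' ≤ D.h) :
    (frm P D.h a).e.symm ⁻¹' D.Z (tn W a) = RR D.A' D.B' D.h W a := by
  have h : D.Z (tn W a) = WR D.A' D.B' D.h (tn W a) := WR_eq hA hB (tn W a)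
  rw [h, pre_WR]

/-- **gate** -/
theorem ev_gate (P : FPath M W) (D : DT) (a : ℤ) {X : Cf} (hX : X.Finite)
    (h : tr (frm P D.h a).e D.wA X ≠ 0) : ∃ p, LG (gt P D a) (bx D W a) X p := by
  have h1 := ((D.trA_ne (mo_frm P D.h a) hX).1 h).1
  rw [pre_Q] at h1
  exact h1

/-- **tile**, cut configuration -/
theorem ev_tile (P : FPath M W) (D : DT) (a : ℤ) {t : Tn × Bool} (ht : t.1 = tn W a)
    (hA : 0 < D.A') (hB : D.B' ≤ D.h) {X : Cf} :
    tr (frm P D.h a).e (D.wE t) X ≠ 0 ↔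
      TplIx204.TB t.2 (RR D.A D.B D.h W a) (LG (gt P D a) (bx D W a))
        (LG (gt P D (a + 1)) (bx D W (a + 1))) (X ∩ ovr (RR D.A' D.B' D.h W a)) := by
  rw [D.trE_ne (mo_frm P D.h a), ht, pre_Q, pre_Qn, pre_WR, pre_Z P D a hA hB, ← gt_succ]
  rfl


/-! ### the coloured set of a finite environment -/

theorem ps_clr' (S β : Finset ℂ) : ps (clr S β) = S := by
  ext z
  simp only [ps, clr, mem_image, mem_ofPred_eq, Finset.mem_coe]
  constructor
  · rintro ⟨p, ⟨h1, -⟩, rfl⟩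
    exact h1
  · intro h
    by_cases hz : z ∈ β
    · exact ⟨(z, true), ⟨h, by simp [hz]⟩, rfl⟩
    · exact ⟨(z, false), ⟨h, by simp [hz]⟩, rfl⟩

theorem sX_clr (S β : Finset ℂ) : sX (clr S β) = S := by
  apply Finset.coe_injective
  rw [coe_sX (clr_finite S β), ps_clr']


/-! ### the whole path -/

section path

variable {ε : ℝ} {hε : 0 < ε} {c : ℝ≥0∞} {c0 : c ≠ 0} {c1 : c ≤ 1} {D : DT}
  {ty : ZMod M → Tn × Bool}

/-- the template has the standard boxes -/
theorem std (hA : 0 < D.A') (hAB : D.A' ≤ D.B') (hh : D.A' + D.B' < D.h) :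
    Std (D.raw ε hε c c0 c1).tpl D.A' D.B' D.h Prod.fst where
  Q := rfl
  D _ := rfl
  nx _ := rfl
  hA := hA
  hAB := hAB
  hh := hh

/-- **almost every environment, all colourings**: the events of the path -/
theorem ev_all (P : FPath M W) (H : Std (D.raw ε hε c c0 c1).tpl D.A' D.B' D.h Prod.fst)
    (hty : Typ W Prod.fst ty) (hP : (D.raw ε hε c c0 c1).AePos)
    {I J : Finset (ZMod M)} (hN : ∀ k ∈ J, k ∈ I ∧ k + 1 ∈ I) {S : Sample → Finset ℂ}
    (hS : ∀ᵐ ω ∂sampleLaw, (S ω : Set ℂ) ⊆ points ε ω ∧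
      points ε ω ∩ (pth P H ty hty).net.reg I J ⊆ S ω) :
    ∀ᵐ ω ∂sampleLaw, ∀ β ⊆ S ω, (pth P H ty hty).net.gw I J (clr (S ω) β) ≠ 0 →
      (∀ a : ℤ, (a : ZMod M) ∈ I → ∃ p, LG (gt P D a) (bx D W a) (clr (S ω) β) p) ∧
        ∀ a : ℤ, (a : ZMod M) ∈ J → TplIx204.TB (ty a).2 (RR D.A D.B D.h W a)
          (LG (gt P D a) (bx D W a)) (LG (gt P D (a + 1)) (bx D W (a + 1)))
          (clr (S ω) β ∩ ovr (RR D.A' D.B' D.h W a)) := by
  filter_upwards [raw_all hP (pth P H ty hty) hN hS] with ω hω β hβ h0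
  obtain ⟨h1, h2⟩ := hω β hβ h0
  refine ⟨fun a ha => ?_, fun a ha => ?_⟩
  · have h3 := h1 a ha
    rw [pth_fr] at h3
    exact ev_gate P D a (clr_finite _ _) h3
  · have h3 := h2 a ha
    have h4 : (pth P H ty hty).fr ((pth P H ty hty).src (a : ZMod M)) = frm P D.h a :=
      pth_fr P H hty a
    rw [h4] at h3
    exact (ev_tile P D a (hty.eq P a) H.hA H.hB).1 h3

/-- **positive weight = necks and links**: `p` = darts of the gates, `S` sites, `β` black sites -/
structure Ev (P : FPath M W) (D : DT) (ty : ZMod M → Tn × Bool) (I J : Finset (ZMod M))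
    (S β : Finset ℂ) (p : ℤ → ℂ × ℂ) : Prop where
  lg : ∀ a : ℤ, (a : ZMod M) ∈ I → LG (gt P D a) (bx D W a) (clr S β) (p a)
  per : ∀ a b : ℤ, (M : ℤ) ∣ b - a → p b = p a
  neck : ∀ a : ℤ, (a : ZMod M) ∈ I → NeckD S (gt P D a).z0 (gt P D a).e D.g.a0 D.g.a1 D.g.b0
    D.g.b1 D.g.m S β (p a).1 (p a).2
  black : ∀ a : ℤ, (a : ZMod M) ∈ J → (ty a).2 = true →
    Lk S {s | s ∈ β ∧ s ∈ RR D.A D.B D.h W a} (p a).1 (p (a + 1)).1
  white : ∀ a : ℤ, (a : ZMod M) ∈ J →
    Lk S {s | (s ∈ S ∧ s ∉ β) ∧ s ∈ RR D.A D.B D.h W a} (p a).2 (p (a + 1)).2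


/-- the tile event of the full configuration (dense environment) -/
theorem tb_full (P : FPath M W) {S β : Finset ℂ} {b : Bool} {d : ℝ} (hd : 0 < d)
    (hA2 : D.A + 2 * d ≤ D.A') (hB2 : D.B + 2 * d ≤ D.B') (hA : 0 < D.A') (hB : D.B' ≤ D.h)
    {a : ℤ} (hH : Hol (S : Set ℂ) (RR D.A D.B D.h W a) d) :
    TplIx204.TB b (RR D.A D.B D.h W a) (LG (gt P D a) (bx D W a))
        (LG (gt P D (a + 1)) (bx D W (a + 1))) (clr S β ∩ ovr (RR D.A' D.B' D.h W a)) ↔
      TplIx204.TB b (RR D.A D.B D.h W a) (LG (gt P D a) (bx D W a))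
        (LG (gt P D (a + 1)) (bx D W (a + 1))) (clr S β) := by
  refine TplIx204.TB_cut (clr_finite S β) hd ?_ (fun w hw s hs => ?_) (fun q => ?_) (fun q => ?_)
  · rw [ps_clr']
    exact hH
  · rw [← pre_WR P D a] at hw ⊢
    refine WR_near (r := 2 * d) (tn W a) hA2 hB2 hw ?_
    rw [mo_symm_norm (mo_frm P D.h a)]
    exact hs.le
  · exact LG_cut (fun z hz => GB_sub P hA hB a hz) q
  · exact LG_cut (fun z hz => GB_sub' P hA hB a hz) q

/-- **LAW → EVENT** for the full configurations `clr (S ω) β` -/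
theorem ev_full (P : FPath M W) (H : Std (D.raw ε hε c c0 c1).tpl D.A' D.B' D.h Prod.fst)
    (hty : Typ W Prod.fst ty) (hP : (D.raw ε hε c c0 c1).AePos)
    {I J : Finset (ZMod M)} (hN : ∀ k ∈ J, k ∈ I ∧ k + 1 ∈ I) {S : Sample → Finset ℂ}
    (hS : ∀ᵐ ω ∂sampleLaw, (S ω : Set ℂ) ⊆ points ε ω ∧
      points ε ω ∩ (pth P H ty hty).net.reg I J ⊆ S ω) {d : ℝ} (hd : 0 < d)
    (hA2 : D.A + 2 * d ≤ D.A') (hB2 : D.B + 2 * d ≤ D.B') :
    ∀ᵐ ω ∂sampleLaw,
      (∀ a : ℤ, (a : ZMod M) ∈ J → Hol (S ω : Set ℂ) (RR D.A D.B D.h W a) d) →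
      ∀ β ⊆ S ω, (pth P H ty hty).net.gw I J (clr (S ω) β) ≠ 0 →
        (∀ a : ℤ, (a : ZMod M) ∈ I → ∃ p, LG (gt P D a) (bx D W a) (clr (S ω) β) p) ∧
        ∀ a : ℤ, (a : ZMod M) ∈ J → TplIx204.TB (ty a).2 (RR D.A D.B D.h W a)
          (LG (gt P D a) (bx D W a)) (LG (gt P D (a + 1)) (bx D W (a + 1)))
          (clr (S ω) β) := by
  filter_upwards [ev_all P H hty hP hN hS] with ω hω h1 β hβ h0
  obtain ⟨h3, h4⟩ := hω β hβ h0
  exact ⟨h3, fun a ha => (tb_full P hd hA2 hB2 H.hA H.hB (h1 a ha)).1 (h4 a ha)⟩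


end path

end Crest.Agent.R143.GPosFx348
end
end

-- ▼ part R143/GPosC_348

/-!
# Row 143 (S0194), CORE-C, glue CorrI: the weight of a corridor gives the tile events (helper348)

The numbers of 713's `CorH` (`gO η`, `gA η W a`, `QA η W a`; side `100 η`, links in `9 η, 51 η`, points in
`12 η, 52 η`) for 204's template on 765's corridor net `cpth`.

* `NumC D η` : the numbers of the template; `gt_eq`, `bx_eq`, `std_c`
* `cor_ev'` : **for almost every environment `S ω`, for ALL sets of black sites `β ⊆ S ω`**: if the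
  environment is dense in the strips and `gC P H Ac e i (clr (S ω) β) ≠ 0`, then all gates have a dart and
  all tiles have their event (full or white)
* `cor_ev` : the fields `out`, `cls` of `CorH` (literally)
* `corH_all` : the record `CorH (clr (S ω) β) U M W η d (al Ac e i) (nn Ac e i)`
-/

set_option autoImplicit false
set_option linter.all false

noncomputable section

open scoped Classical

namespace Crest.Agent.R143.GPosCx348

open MeasureTheory Set ProbabilityTheory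
open Crest.ProbabilityR.Voronoi
open Crest.Agent.R143.B0x346 Crest.Agent.R143.Locx922
open Crest.Agent.R143.PP0x831 Crest.Agent.R143.Poisx304 Crest.Agent.R143.Janx304
open Crest.Agent.R143.IndLocx279 Crest.Agent.R143.PWx978 Crest.Agent.R143.Tplx978
open Crest.Agent.R143.WLocx713 Crest.Agent.R143.IndLoc3x279
open Crest.Agent.R143.TileRx228 Crest.Agent.R143.PthFx765 Crest.Agent.R143.TplIx204
open Crest.Agent.R143.Layx416 Crest.Agent.R143.CorNx765 Crest.Agent.R143.GPosFx348
open Crest.Agent.R143.CorHx713 (gO gA QA)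
open scoped ENNReal

variable {M : ℕ} {W : ℤ → ℤ × ℤ} {Ac e : ℤ → ℤ} {η : ℝ}

/-- the numbers of the template -/
structure NumC (D : DT) (η : ℝ) : Prop where
  pos : 0 < η
  g : D.g = gO η
  A : D.A = 9 * η
  B : D.B = 51 * η
  A' : D.A' = 12 * η
  B' : D.B' = 52 * η
  h : D.h = 100 * η

theorem gO_mv (P : FPath M W) (a : ℤ) :
    (gO η).mv (frm P (100 * η) a).e (ge W a) = gA η W a := by
  refine CorHx713.gA_mv ?_
  show gz (100 * η) W a + ge W a * 0 = _
  rw [mul_zero, add_zero]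

variable {D : DT}

theorem gt_eq (N : NumC D η) (P : FPath M W) (a : ℤ) : gt P D a = gA η W a := by
  unfold gt
  rw [N.g, N.h]
  exact gO_mv P a

theorem bx_eq (N : NumC D η) (a : ℤ) : bx D W a = QA η W a := by
  unfold bx QA
  rw [N.A', N.B', N.h]


section main

variable {ε : ℝ} {hε : 0 < ε} {c : ℝ≥0∞} {c0 : c ≠ 0} {c1 : c ≤ 1} [Fintype (ZMod M)]

/-- **LAW → EVENT for the corridor of the label `i`**, gates and tiles, all colourings -/
theorem cor_ev' (N : NumC D η) (P : FPath M W)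
    (H : Std (D.raw ε hε c c0 c1).tpl D.A' D.B' D.h Prod.fst) (hP : (D.raw ε hε c c0 c1).AePos)
    (i : ZMod 3) {S : Sample → Finset ℂ}
    (hS : ∀ᵐ ω ∂sampleLaw, (S ω : Set ℂ) ⊆ points ε ω ∧
      points ε ω ∩ Rall D.A' D.B' D.h W ⊆ S ω) {d : ℝ} (hd : 0 < d) (hd' : 2 * d ≤ η) :
    ∀ᵐ ω ∂sampleLaw,
      (∀ a : ℤ, Hol (S ω : Set ℂ) (RR (9 * η) (51 * η) (100 * η) W a) d) →
      ∀ β ⊆ S ω, gC P H Ac e i (clr (S ω) β) ≠ 0 →
        (∀ a : ℤ, ∃ p, LG (gA η W a) (QA η W a) (clr (S ω) β) p) ∧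
        ∀ a : ℤ, TplIx204.TB (cty M W Ac e i a).2 (RR (9 * η) (51 * η) (100 * η) W a)
          (LG (gA η W a) (QA η W a)) (LG (gA η W (a + 1)) (QA η W (a + 1))) (clr (S ω) β) := by
  have h0 := N.pos
  have hS' : ∀ᵐ ω ∂sampleLaw, (S ω : Set ℂ) ⊆ points ε ω ∧
      points ε ω ∩ (pth P H (cty M W Ac e i) (cty_typ i)).net.reg Finset.univ Finset.univ ⊆
        S ω := by
    have h1 := reg_eq P H (Ac := Ac) (e := e) i
    unfold cpth at h1
    rw [h1]
    exact hS
  filter_upwards [ev_full P H (cty_typ i) hP (I := Finset.univ) (J := Finset.univ)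
    (fun k _ => ⟨Finset.mem_univ _, Finset.mem_univ _⟩) hS' hd
    (by rw [N.A, N.A']; linarith) (by rw [N.B, N.B']; linarith)] with ω hω hH β hβ h1
  have h2 : ∀ a : ℤ, ((a : ℤ) : ZMod M) ∈ (Finset.univ : Finset (ZMod M)) →
      Hol (S ω : Set ℂ) (RR D.A D.B D.h W a) d := by
    intro a _
    rw [N.A, N.B, N.h]
    exact hH a
  obtain ⟨h3, h4⟩ := hω h2 β hβ h1
  refine ⟨fun a => ?_, fun a => ?_⟩
  · have h5 := h3 a (Finset.mem_univ _)
    rw [gt_eq N, bx_eq N] at h5
    exact h5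
  · have h5 := h4 a (Finset.mem_univ _)
    rw [gt_eq N, bx_eq N, gt_eq N, bx_eq N, N.A, N.B, N.h] at h5
    exact h5

/-- **LAW → EVENT**: the fields `out` and `cls` of 713's `CorH` for the corridor of the label `i` -/
theorem cor_ev (N : NumC D η) (P : FPath M W)
    (H : Std (D.raw ε hε c c0 c1).tpl D.A' D.B' D.h Prod.fst) (hP : (D.raw ε hε c c0 c1).AePos)
    (i : ZMod 3) {S : Sample → Finset ℂ}
    (hS : ∀ᵐ ω ∂sampleLaw, (S ω : Set ℂ) ⊆ points ε ω ∧
      points ε ω ∩ Rall D.A' D.B' D.h W ⊆ S ω) {d : ℝ} (hd : 0 < d) (hd' : 2 * d ≤ η)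
    (hM : nn Ac e i ≤ M) :
    ∀ᵐ ω ∂sampleLaw,
      (∀ a : ℤ, Hol (S ω : Set ℂ) (RR (9 * η) (51 * η) (100 * η) W a) d) →
      ∀ β ⊆ S ω, gC P H Ac e i (clr (S ω) β) ≠ 0 →
        (∀ a : ℤ, al Ac e i ≤ a → a < al Ac e i + nn Ac e i →
          TplIx204.TB true (RR (9 * η) (51 * η) (100 * η) W a)
            (LG (gA η W a) (QA η W a)) (LG (gA η W (a + 1)) (QA η W (a + 1))) (clr (S ω) β)) ∧
        ∀ a : ℤ, al Ac e i + nn Ac e i ≤ a → a < al Ac e i + M →
          TplIx204.TB false (RR (9 * η) (51 * η) (100 * η) W a)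
            (LG (gA η W a) (QA η W a)) (LG (gA η W (a + 1)) (QA η W (a + 1))) (clr (S ω) β) := by
  filter_upwards [cor_ev' N P H hP i hS hd hd'] with ω hω hH β hβ h1
  obtain ⟨-, h3⟩ := hω hH β hβ h1
  have key : ∀ a : ℤ, al Ac e i ≤ a → a < al Ac e i + M →
      (cty M W Ac e i (a : ZMod M)).2 = decide (a < al Ac e i + nn Ac e i) := by
    intro a h4 h5
    have h6 : a = al Ac e i + ((a - al Ac e i).toNat : ℤ) := by omega
    have h7 := cty_add (Ac := Ac) (e := e) P i (l := (a - al Ac e i).toNat) (by omega)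
    rw [← h6] at h7
    rw [h7]
    show decide ((a - al Ac e i).toNat < nn Ac e i) = _
    rw [decide_eq_decide]
    omega
  refine ⟨fun a h4 h5 => ?_, fun a h4 h5 => ?_⟩
  · have h6 := h3 a
    rw [key a h4 (by omega)] at h6
    rw [decide_eq_true h5] at h6
    exact h6
  · have h6 := h3 a
    rw [key a (by omega) h5] at h6
    rw [decide_eq_false (by omega)] at h6
    exact h6

/-- **LAW → `CorH`**: the record, from the geometric facts of the environment -/
theorem corH_all (N : NumC D η) (P : FPath M W)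
    (H : Std (D.raw ε hε c c0 c1).tpl D.A' D.B' D.h Prod.fst) (hP : (D.raw ε hε c c0 c1).AePos)
    (i : ZMod 3) {S : Sample → Finset ℂ}
    (hS : ∀ᵐ ω ∂sampleLaw, (S ω : Set ℂ) ⊆ points ε ω ∧
      points ε ω ∩ Rall D.A' D.B' D.h W ⊆ S ω) {d : ℝ} (hd : 0 < d) (hd' : 100 * d ≤ η)
    (hn : 1 ≤ nn Ac e i) (hM : nn Ac e i + 4 ≤ M) {U : Set ℂ}
    (hU : ∀ a : ℤ, ∀ w ∈ RR (9 * η) (51 * η) (100 * η) W a, ∀ s : ℂ,
      ‖s - w‖ ≤ 100 * η → s ∈ U) :
    ∀ᵐ ω ∂sampleLaw, GP (S ω : Set ℂ) → Hol (S ω : Set ℂ) U d →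
      ∀ β ⊆ S ω, HullC (S ω) (cX (clr (S ω) β)) → gC P H Ac e i (clr (S ω) β) ≠ 0 →
        CorHx713.CorH (clr (S ω) β) U M W η d (al Ac e i) (nn Ac e i) := by
  have h0 := N.pos
  filter_upwards [cor_ev N P H hP (Ac := Ac) (e := e) i hS hd (by linarith) (by omega)]
    with ω hω hG hH β hβ hh h1
  have hR : ∀ a : ℤ, Hol (S ω : Set ℂ) (RR (9 * η) (51 * η) (100 * η) W a) d := fun a w hw =>
    hH w (hU a w hw w (by simp; linarith))
  obtain ⟨h2, h3⟩ := hω hR β hβ h1
  exact
    { path := P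
      n1 := hn
      nM := hM
      e0 := h0
      d0 := hd
      de := hd'
      fin := GPosx348.clr_finite _ _
      gp := by rw [sX_clr]; exact hG
      hull := by rw [sX_clr]; exact hh
      fat := hU
      hol := by rw [ps_clr']; exact hH
      out := h2
      cls := h3 }

end main

end Crest.Agent.R143.GPosCx348
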