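import Crest.Agent.R143.PW_978

-- ▼ part R143/PW2_978
section

/-!
# R143 (helper978): product weights, transfer along isometries (note 3261 (c): ONE number m)

`mv g S` moves the coloured configuration `S` by `g`.

* `Rs_mv` : `Rs ε C F (mv g S) = Rs ε (g ⁻¹' C) (F ∘ mv g) S`
* `lint_iso` : `F' ∘ mv g = F` (finite configurations) gives equal integrals
* `Cong M M' g I₀ J₀ fI fJ` : the gates `I₀` and tubes `J₀` of `M` are moved by `g` to the gates
  `fI '' I₀` and tubes `fJ '' J₀` of `M'`; `Cong.gw`, `Cong.lint`, `Cong.mean`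
* `same_mean` : `E[g] E[g' V'] = u E[g'] E[g V]` when `V' ∘ mv g = u V`

-/

set_option autoImplicit false

noncomputable section

namespace Crest.Agent.R143.PWx978

open MeasureTheory Set ProbabilityTheory
open Crest.ProbabilityR.Voronoi
open Crest.Agent.R143.PP0x831 Crest.Agent.R143.Poisx304 Crest.Agent.R143.Janx304
open Crest.Agent.R143.IndLocx279
open scoped ENNReal Nat

variable {ε : ℝ} {B B' C C' : Set ℂ} {F G H : Cf → ℝ≥0∞}

/-- the configuration moved by `g` -/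
def mv (g : ℂ ≃ᵐ ℂ) (S : Cf) : Cf := (fun p : ℂ × Bool => (g p.1, p.2)) '' S

lemma mv_union (g : ℂ ≃ᵐ ℂ) (S T : Cf) : mv g (S ∪ T) = mv g S ∪ mv g T := image_union _ _ _

lemma mv_finite (g : ℂ ≃ᵐ ℂ) {S : Cf} (h : S.Finite) : (mv g S).Finite := h.image _

lemma mv_inter (g : ℂ ≃ᵐ ℂ) (S : Cf) (D : Set ℂ) : mv g S ∩ ovr D = mv g (S ∩ ovr (g ⁻¹' D)) := by
  ext e
  simp only [mv, ovr, mem_inter_iff, mem_image, mem_ofPred_eq, mem_preimage]
  constructor
  · rintro ⟨⟨p, hp, rfl⟩, he⟩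
    exact ⟨p, ⟨hp, he⟩, rfl⟩
  · rintro ⟨p, ⟨hp, he⟩, rfl⟩
    exact ⟨⟨p, hp, rfl⟩, he⟩

lemma mv_range (g : ℂ ≃ᵐ ℂ) (n : ℕ) (z : Fin n → ℂ × Bool) :
    mv g (range z) = range fun i => (g (z i).1, (z i).2) := by
  unfold mv
  rw [← range_comp]
  rfl

lemma meas_mv (g : ℂ ≃ᵐ ℂ) : Measurable fun p : ℂ × Bool => (g p.1, p.2) :=
  (g.measurable.comp measurable_fst).prodMk measurable_snd

lemma fm_mv {X : Type*} [MeasurableSpace X] {F : Cf → X} (g : ℂ ≃ᵐ ℂ) (hF : FinMeas F) :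
    FinMeas fun S => F (mv g S) := by
  intro n
  simp only [mv_range]
  exact (hF n).comp (measurable_pi_iff.2 fun i => (meas_mv g).comp (measurable_pi_apply i))

lemma local_mv {X : Type*} {F : Cf → X} (g : ℂ ≃ᵐ ℂ) (hF : LocalOn B F) :
    LocalOn (g ⁻¹' B) fun S => F (mv g S) := by
  intro S
  have h := hF (mv g S)
  have h' := hF (mv g (S ∩ ovr (g ⁻¹' B)))
  change F (mv g S) = F (mv g (S ∩ ovr (g ⁻¹' B)))
  rw [h, h']
  congr 1
  change mv g S ∩ ovr B = mv g (S ∩ ovr (g ⁻¹' B)) ∩ ovr B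
  rw [mv_inter, mv_inter, inter_assoc, inter_self]

lemma mu_mp (g : ℂ ≃ᵐ ℂ) (hg : MeasurePreserving g volume volume) (hC : MeasurableSet C)
    (hCb : Bornology.IsBounded C) (hCb' : Bornology.IsBounded (g ⁻¹' C)) :
    MeasurePreserving (fun p : ℂ × Bool => (g p.1, p.2)) (mu ε (g ⁻¹' C)) (mu ε C) := by
  have hfin : IsFiniteMeasure ((volume : Measure ℂ).restrict C) :=
    ⟨by rw [Measure.restrict_apply_univ]; exact hCb.measure_lt_top⟩
  have hfin' : IsFiniteMeasure ((volume : Measure ℂ).restrict (g ⁻¹' C)) :=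
    ⟨by rw [Measure.restrict_apply_univ]; exact hCb'.measure_lt_top⟩
  have h := hg.restrict_preimage hC
  have h2 : MeasurePreserving g ((ENNReal.ofReal (ε ^ 2))⁻¹ • (volume : Measure ℂ).restrict (g ⁻¹' C))
      ((ENNReal.ofReal (ε ^ 2))⁻¹ • (volume : Measure ℂ).restrict C) :=
    ⟨g.measurable, by rw [Measure.map_smul, h.map_eq]⟩
  exact h2.prod (MeasurePreserving.id coin)

lemma J_mv (hε : 0 < ε) (g : ℂ ≃ᵐ ℂ) (hg : MeasurePreserving g volume volume)
    (hC : MeasurableSet C) (hCb : Bornology.IsBounded C) (hCb' : Bornology.IsBounded (g ⁻¹' C))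
    (hG : FM G) : J (mu ε (g ⁻¹' C)) (fun T => G (mv g T)) = J (mu ε C) G := by
  have := finite_mu' hε hCb
  have := finite_mu' hε hCb'
  have h1 : (mu ε (g ⁻¹' C)) univ = (mu ε C) univ := by
    rw [← (mu_mp g hg hC hCb hCb').measure_preimage MeasurableSet.univ.nullMeasurableSet,
      preimage_univ]
  unfold J Q P
  rw [h1]
  congr 1
  refine tsum_congr fun n => ?_
  congr 1
  have hpi : MeasurePreserving (fun (z : Fin n → ℂ × Bool) (i : Fin n) => (g (z i).1, (z i).2))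
      (Measure.pi fun _ : Fin n => mu ε (g ⁻¹' C)) (Measure.pi fun _ : Fin n => mu ε C) :=
    measurePreserving_pi _ _ fun _ => mu_mp g hg hC hCb hCb'
  rw [← hpi.lintegral_comp (hG n)]
  simp only [mv_range]

lemma Rs_mv (hε : 0 < ε) (g : ℂ ≃ᵐ ℂ) (hg : MeasurePreserving g volume volume)
    (hC : MeasurableSet C) (hCb : Bornology.IsBounded C) (hCb' : Bornology.IsBounded (g ⁻¹' C))
    (hF : FinMeas F) {S : Cf} (hS : S.Finite) :
    Rs ε C F (mv g S) = Rs ε (g ⁻¹' C) (fun S => F (mv g S)) S := by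
  unfold Rs
  have h1 : FM fun T => F (mv g S ∩ ovr Cᶜ ∪ T) :=
    fm_union_fin hF ((mv_finite g hS).subset inter_subset_left)
  rw [← J_mv hε g hg hC hCb hCb' h1]
  congr 1
  funext T
  change F (mv g S ∩ ovr Cᶜ ∪ mv g T) = F (mv g (S ∩ ovr (⇑g ⁻¹' C)ᶜ ∪ T))
  rw [mv_union, mv_inter, preimage_compl]

/-- equal integrals of functions which correspond under `g` at finite configurations -/
theorem lint_iso (hε : 0 < ε) (g : ℂ ≃ᵐ ℂ) (hg : MeasurePreserving g volume volume)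
    (hB : MeasurableSet B) (hb : Bornology.IsBounded B) (hb' : Bornology.IsBounded (g ⁻¹' B))
    (hF : LocalOn B F) (hFm : FinMeas F) (hG : LocalOn (g ⁻¹' B) G) (hGm : FinMeas G)
    (h : ∀ S : Cf, S.Finite → F (mv g S) = G S) :
    ∫⁻ ω, F (cfg ε ω) ∂sampleLaw = ∫⁻ ω, G (cfg ε ω) ∂sampleLaw := by
  rw [← iso ε hε B hB hb g hg hb' F hF hFm]
  exact lint_congr (F := fun S => F (mv g S)) hε (g.measurable hB) hb' (local_mv g hF) hG
    (fm_mv g hFm) hGm fun S hS _ => h S hS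

/-! ## congruent pieces of two nets -/

/-- the gates `I₀` and the tubes `J₀` of `M` are moved by `g` to gates and tubes of `M'` -/
structure Cong {ι κ ι' κ' : Type*} (M : Net ε ι κ) (M' : Net ε ι' κ') (g : ℂ ≃ᵐ ℂ)
    (I₀ : Finset ι) (J₀ : Finset κ) (fI : ι → ι') (fJ : κ → κ') : Prop where
  mp : MeasurePreserving g volume volume
  bdd : ∀ D : Set ℂ, Bornology.IsBounded D → Bornology.IsBounded (g ⁻¹' D)
  injI : Set.InjOn fI I₀
  injJ : Set.InjOn fJ J₀
  N : ∀ k ∈ J₀, M.N k ⊆ I₀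
  N' : ∀ k ∈ J₀, ∀ i' ∈ M'.N (fJ k), ∃ i ∈ I₀, fI i = i'
  Bg : ∀ i ∈ I₀, g ⁻¹' M'.B (fI i) = M.B i
  Cg : ∀ k ∈ J₀, g ⁻¹' M'.C (fJ k) = M.C k
  a : ∀ i ∈ I₀, ∀ S : Cf, S.Finite → M'.a (fI i) (mv g S) = M.a i S
  e : ∀ k ∈ J₀, ∀ S : Cf, S.Finite → M'.e (fJ k) (mv g S) = M.e k S
  c : M'.c = M.c

namespace Cong

variable {ι κ ι' κ' : Type*} {M : Net ε ι κ} {M' : Net ε ι' κ'} {g : ℂ ≃ᵐ ℂ}
  {I₀ : Finset ι} {J₀ : Finset κ} {fI : ι → ι'} {fJ : κ → κ'}

lemma reg [DecidableEq ι'] [DecidableEq κ'] (h : Cong M M' g I₀ J₀ fI fJ) :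
    g ⁻¹' M'.reg (I₀.image fI) (J₀.image fJ) = M.reg I₀ J₀ := by
  unfold Net.reg
  rw [preimage_union, Finset.set_biUnion_finset_image, Finset.set_biUnion_finset_image,
    preimage_iUnion₂, preimage_iUnion₂]
  congr 1
  · exact iUnion₂_congr fun i hi => h.Bg i hi
  · exact iUnion₂_congr fun k hk => h.Cg k hk

lemma hN' [DecidableEq ι'] [DecidableEq κ'] (h : Cong M M' g I₀ J₀ fI fJ) :
    ∀ k' ∈ J₀.image fJ, M'.N k' ⊆ I₀.image fI := by
  intro k' hk' i' hi'
  obtain ⟨k, hk, rfl⟩ := Finset.mem_image.1 hk'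
  obtain ⟨i, hi, rfl⟩ := h.N' k hk i' hi'
  exact Finset.mem_image_of_mem fI hi

/-- `Rs` of functions equal at finite configurations -/
lemma Rs_congr {C : Set ℂ} {F G : Cf → ℝ≥0∞} (hF : FinMeas F) (hG : FinMeas G)
    (h : ∀ S : Cf, S.Finite → F S = G S) {S : Cf} (hS : S.Finite) : Rs ε C F S = Rs ε C G S := by
  rw [Rs_eq hF hS, Rs_eq hG hS]
  exact lintegral_congr fun y => h _ ((hS.subset inter_subset_left).union (finite_st y))

lemma fac (h : Cong M M' g I₀ J₀ fI fJ) {k : κ} (hk : k ∈ J₀) {S : Cf} (hS : S.Finite) :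
    M'.fac (fJ k) (mv g S) = M.fac k S := by
  unfold Net.fac
  rw [h.e k hk S hS, h.c, Rs_mv M.eps g h.mp (M'.Cm _) (M'.Cb _) (h.bdd _ (M'.Cb _)) (M'.em _) hS,
    h.Cg k hk, Rs_congr (fm_mv g (M'.em _)) (M.em k) (fun S hS => h.e k hk S hS) hS]

/-- the weights correspond -/
lemma gw [DecidableEq ι'] [DecidableEq κ'] (h : Cong M M' g I₀ J₀ fI fJ) {S : Cf}
    (hS : S.Finite) : M'.gw (I₀.image fI) (J₀.image fJ) (mv g S) = M.gw I₀ J₀ S := by
  unfold Net.gw
  rw [Finset.prod_image (by exact h.injI), Finset.prod_image (by exact h.injJ)]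
  congr 1
  · exact Finset.prod_congr rfl fun i hi => h.a i hi S hS
  · exact Finset.prod_congr rfl fun k hk => h.fac hk hS

/-- `E[g₀' F'] = E[g₀ F]` -/
theorem lint [DecidableEq ι'] [DecidableEq κ'] (h : Cong M M' g I₀ J₀ fI fJ)
    {F' : Cf → ℝ≥0∞} (hF' : LocalOn (M'.reg (I₀.image fI) (J₀.image fJ)) F') (hFm' : FinMeas F')
    (hF : LocalOn (M.reg I₀ J₀) F) (hFm : FinMeas F)
    (hFF : ∀ S : Cf, S.Finite → F' (mv g S) = F S) :
    ∫⁻ ω, M'.gw (I₀.image fI) (J₀.image fJ) (cfg ε ω) * F' (cfg ε ω) ∂sampleLaw =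
      ∫⁻ ω, M.gw I₀ J₀ (cfg ε ω) * F (cfg ε ω) ∂sampleLaw := by
  have hr := h.reg
  refine lint_iso (B := M'.reg (I₀.image fI) (J₀.image fJ))
    (F := fun S => M'.gw (I₀.image fI) (J₀.image fJ) S * F' S)
    (G := fun S => M.gw I₀ J₀ S * F S) M.eps g h.mp (M'.reg_meas _ _) (M'.reg_bdd _ _)
    (h.bdd _ (M'.reg_bdd _ _)) (LocalOn.mul (M'.gw_local h.hN') hF')
    (fm_mul (M'.gw_meas _ _) hFm') ?_ (fm_mul (M.gw_meas _ _) hFm) ?_
  · rw [hr]
    exact LocalOn.mul (M.gw_local h.N) hF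
  · intro S hS
    rw [h.gw hS, hFF S hS]

theorem mass [DecidableEq ι'] [DecidableEq κ'] (h : Cong M M' g I₀ J₀ fI fJ) :
    ∫⁻ ω, M'.gw (I₀.image fI) (J₀.image fJ) (cfg ε ω) ∂sampleLaw =
      ∫⁻ ω, M.gw I₀ J₀ (cfg ε ω) ∂sampleLaw := by
  have h1 := h.lint (F := fun _ => 1) (F' := fun _ => 1) (fun _ => rfl) (fun n => measurable_const)
    (fun _ => rfl) (fun n => measurable_const) (fun _ _ => rfl)
  simpa using h1

end Cong

/-- the law of a local function under the weight -/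
lemma map_wd {ι κ : Type*} (M : Net ε ι κ) {I : Finset ι} {J : Finset κ}
    {X : Type*} [MeasurableSpace X] {f : Cf → X} (hf : Measurable fun ω => f (cfg ε ω))
    {s : Set X} (hs : MeasurableSet s) :
    (sampleLaw.withDensity fun ω => M.gw I J (cfg ε ω)).map (fun ω => f (cfg ε ω)) s =
      ∫⁻ ω, M.gw I J (cfg ε ω) * s.indicator (fun _ => (1 : ℝ≥0∞)) (f (cfg ε ω)) ∂sampleLaw := by
  rw [Measure.map_apply hf hs, withDensity_apply _ (hf hs), ← lintegral_indicator (hf hs)]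
  refine lintegral_congr fun ω => ?_
  classical
  by_cases h : f (cfg ε ω) ∈ s
  · simp [h]
  · simp [h]

/-- the weighted mean as the mean of the law -/
lemma integral_wd {ι κ : Type*} (M : Net ε ι κ) {I : Finset ι} {J : Finset κ}
    (hN : ∀ k ∈ J, M.N k ⊆ I) {X Y : Type*} [MeasurableSpace Y] [NormedAddCommGroup X]
    [NormedSpace ℝ X] [MeasurableSpace X] [BorelSpace X] [SecondCountableTopology X] {f : Cf → Y}
    (hf : Measurable fun ω => f (cfg ε ω)) {ph : Y → X} (hph : Measurable ph) :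
    ∫ ω, (M.gw I J (cfg ε ω)).toReal • ph (f (cfg ε ω)) ∂sampleLaw =
      ∫ x, ph x ∂((sampleLaw.withDensity fun ω => M.gw I J (cfg ε ω)).map
        (fun ω => f (cfg ε ω))) := by
  have hg : Measurable fun ω => M.gw I J (cfg ε ω) :=
    meas_fun M.eps (M.reg_meas I J) (M.reg_bdd I J) (M.gw_local hN) (M.gw_meas I J)
  rw [integral_map hf.aemeasurable hph.aestronglyMeasurable,
    integral_withDensity_eq_integral_toReal_smul hg]
  refine Filter.Eventually.of_forall fun ω => ?_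
  exact lt_of_le_of_lt (M.gw_le_one hN ω) ENNReal.one_lt_top

namespace Cong

variable {ι κ ι' κ' : Type*} {M : Net ε ι κ} {M' : Net ε ι' κ'} {g : ℂ ≃ᵐ ℂ}
  {I₀ : Finset ι} {J₀ : Finset κ} {fI : ι → ι'} {fJ : κ → κ'}

/-- the weighted mean of a function transported by `g`: `V' (mv g S) = ph (V S)` -/
theorem mean [DecidableEq ι'] [DecidableEq κ'] (h : Cong M M' g I₀ J₀ fI fJ) {X Y : Type*}
    [MeasurableSpace Y] [NormedAddCommGroup X] [NormedSpace ℝ X] [MeasurableSpace X] [BorelSpace X]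
    [SecondCountableTopology X] {V' : Cf → X} {V : Cf → Y} {ph : Y → X} (hph : Measurable ph)
    (hV' : LocalOn (M'.reg (I₀.image fI) (J₀.image fJ)) V') (hVm' : FinMeas V')
    (hV : LocalOn (M.reg I₀ J₀) V) (hVm : FinMeas V)
    (hVV : ∀ S : Cf, S.Finite → V' (mv g S) = ph (V S)) :
    ∫ ω, (M'.gw (I₀.image fI) (J₀.image fJ) (cfg ε ω)).toReal • V' (cfg ε ω) ∂sampleLaw =
      ∫ ω, (M.gw I₀ J₀ (cfg ε ω)).toReal • ph (V (cfg ε ω)) ∂sampleLaw := by
  have h1 : Measurable fun ω => V' (cfg ε ω) :=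
    meas_fun M'.eps (M'.reg_meas _ _) (M'.reg_bdd _ _) hV' hVm'
  have h2 : Measurable fun ω => ph (V (cfg ε ω)) :=
    hph.comp (meas_fun M.eps (M.reg_meas _ _) (M.reg_bdd _ _) hV hVm)
  have e1 := integral_wd M' (I := I₀.image fI) (J := J₀.image fJ) h.hN' (ph := fun x : X => x) h1
    measurable_id
  have e2 := integral_wd M (I := I₀) (J := J₀) h.N (f := fun S => ph (V S)) (ph := fun x : X => x) h2
    measurable_id
  rw [e1, e2]
  congr 1
  ext s hs
  rw [map_wd M' h1 hs, map_wd M (f := fun S => ph (V S)) h2 hs]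
  exact h.lint (F' := fun S => s.indicator (fun _ => (1 : ℝ≥0∞)) (V' S))
    (F := fun S => s.indicator (fun _ => (1 : ℝ≥0∞)) (ph (V S))) (LocalOn.comp hV' _)
    (fun n => (measurable_const.indicator hs).comp (hVm' n))
    (LocalOn.comp hV fun y => s.indicator (fun _ => (1 : ℝ≥0∞)) (ph y))
    (fun n => (measurable_const.indicator hs).comp (hph.comp (hVm n)))
    (fun S hS => by rw [hVV S hS])

end Cong


end Crest.Agent.R143.PWx978
end
end

-- ▼ part R143/Tpl_978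

/-!
# R143 (helper978): template -> product weight, one number for all windows (box R6 (2) of note 3519)

* `Fr` : frames (measure preserving, bounded sets both ways); `Fr.aff v u` : `z ↦ v + u z`, `‖u‖ = 1`
* `Tpl ε Ty` : the template: gate box `Q` with weight `A`, tile types `t : Ty` with region `D t`,
  event `E t` (local on `Q`, the next gate `(nx t) Q` and `D t`), `c ≤ Rs ε (D t) (E t)` for good gates
* `Pth T ι κ` : gates `i : ι` in the frames `fr i`, tiles `k : κ` from the gate `src k` to the gate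
  `tgt k` of type `ty k`, disjoint regions; `Pth.net : PWx978.Net ε ι κ`
* `Win P n τ` : a window of `n` consecutive tiles of the types `τ 0, .., τ (n-1)`;
  `Win.cong` : two windows of the same types (of two paths) are congruent
* `Win.m V` : the mean of `V` under the weight of the window; `Win.mean` : `E[g V] = E[g] m V` for every
  weight `g` of a larger piece; `Win.same`, `Win.same'` : `m' V' = u m V` (one number)
* `Win.upper` : `E[g F] ≤ E[g] (c^n (E A)^(n+1))⁻¹ E[∏ a ∏ e F]`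

-/

set_option autoImplicit false

noncomputable section

namespace Crest.Agent.R143.Tplx978

open MeasureTheory Set ProbabilityTheory
open Crest.ProbabilityR.Voronoi
open Crest.Agent.R143.PP0x831 Crest.Agent.R143.Poisx304 Crest.Agent.R143.Janx304
open Crest.Agent.R143.IndLocx279 Crest.Agent.R143.PWx978
open scoped ENNReal

/-! ## frames -/

/-- a frame -/
structure Fr where
  e : ℂ ≃ᵐ ℂ
  mp : MeasurePreserving e volume volume
  bdd : ∀ D : Set ℂ, Bornology.IsBounded D → Bornology.IsBounded (e ⁻¹' D)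
  bdd' : ∀ D : Set ℂ, Bornology.IsBounded D → Bornology.IsBounded (e.symm ⁻¹' D)

namespace Fr

/-- the inverse frame -/
def symm (f : Fr) : Fr where
  e := f.e.symm
  mp := f.mp.symm f.e
  bdd := f.bdd'
  bdd' := f.bdd

/-- first `f`, then `g` -/
def trans (f g : Fr) : Fr where
  e := f.e.trans g.e
  mp := g.mp.comp f.mp
  bdd D h := f.bdd _ (g.bdd D h)
  bdd' D h := g.bdd' _ (f.bdd' D h)

/-- a unit complex number as an element of the circle -/
def circ (u : ℂ) (hu : ‖u‖ = 1) : Circle := ⟨u, by simp [Submonoid.unitSphere, hu]⟩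


/-- the affine frame `z ↦ v + u z` -/
def aff (v u : ℂ) (hu : ‖u‖ = 1) : Fr where
  e := ((rotation (circ u hu)).toHomeomorph.toMeasurableEquiv).trans (MeasurableEquiv.addLeft v)
  mp := (measurePreserving_add_left volume v).comp (rotation (circ u hu)).measurePreserving
  bdd D h := by
    obtain ⟨R, hR⟩ := h.subset_closedBall 0
    refine (Metric.isBounded_closedBall (x := (0 : ℂ)) (r := ‖v‖ + R)).subset fun z hz => ?_
    have h1 : v + u * z ∈ D := hz
    have h2 := hR h1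
    rw [mem_closedBall_zero_iff] at h2 ⊢
    calc ‖z‖ = ‖u * z‖ := by rw [norm_mul, hu, one_mul]
      _ = ‖(v + u * z) - v‖ := by ring_nf
      _ ≤ ‖v + u * z‖ + ‖v‖ := norm_sub_le _ _
      _ ≤ ‖v‖ + R := by linarith
  bdd' D h := by
    obtain ⟨R, hR⟩ := h.subset_closedBall 0
    refine (Metric.isBounded_closedBall (x := (0 : ℂ)) (r := ‖v‖ + R)).subset fun z hz => ?_
    set e := ((rotation (circ u hu)).toHomeomorph.toMeasurableEquiv).trans
      (MeasurableEquiv.addLeft v) with he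
    have h1 : e.symm z ∈ D := hz
    have h2 := hR h1
    have h3 : v + u * e.symm z = z := by
      have h4 : e (e.symm z) = z := e.apply_symm_apply z
      exact h4
    rw [mem_closedBall_zero_iff] at h2 ⊢
    calc ‖z‖ = ‖v + u * e.symm z‖ := by rw [h3]
      _ ≤ ‖v‖ + ‖u * e.symm z‖ := norm_add_le _ _
      _ = ‖v‖ + ‖e.symm z‖ := by rw [norm_mul, hu, one_mul]
      _ ≤ ‖v‖ + R := by linarith

@[simp] lemma aff_apply (v u : ℂ) (hu : ‖u‖ = 1) (z : ℂ) : (aff v u hu).e z = v + u * z := rfl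

lemma aff_symm (v u : ℂ) (hu : ‖u‖ = 1) (z : ℂ) : (aff v u hu).e.symm z = u⁻¹ * (z - v) := by
  have hu0 : u ≠ 0 := fun h => by simp [h] at hu
  have h : (aff v u hu).e (u⁻¹ * (z - v)) = z := by
    rw [aff_apply, ← mul_assoc, mul_inv_cancel₀ hu0, one_mul, add_sub_cancel]
  conv_lhs => rw [← h]
  exact (aff v u hu).e.symm_apply_apply _

end Fr

/-! ## moved configurations and functions -/

lemma mv_mv (f g : ℂ ≃ᵐ ℂ) (S : Cf) : mv g (mv f S) = mv (f.trans g) S := by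
  unfold mv
  rw [image_image]
  rfl

lemma mv_symm_mv (f : ℂ ≃ᵐ ℂ) (S : Cf) : mv f.symm (mv f S) = S := by
  rw [mv_mv]
  unfold mv
  simp

lemma mv_mv_symm (f : ℂ ≃ᵐ ℂ) (S : Cf) : mv f (mv f.symm S) = S := by
  rw [mv_mv]
  unfold mv
  simp

lemma mv_congr {f g : ℂ ≃ᵐ ℂ} (h : ∀ z, f z = g z) (S : Cf) : mv f S = mv g S := by
  unfold mv
  simp only [h]

/-- the function `F` in the frame `f` -/
def tr {X : Type*} (f : ℂ ≃ᵐ ℂ) (F : Cf → X) (S : Cf) : X := F (mv f.symm S)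


lemma tr_local {X : Type*} (f : ℂ ≃ᵐ ℂ) {F : Cf → X} {B : Set ℂ} (hF : LocalOn B F) :
    LocalOn (f.symm ⁻¹' B) (tr f F) := local_mv f.symm hF

lemma tr_fm {X : Type*} [MeasurableSpace X] (f : ℂ ≃ᵐ ℂ) {F : Cf → X} (hF : FinMeas F) :
    FinMeas (tr f F) := fm_mv f.symm hF

lemma Rs_tr {ε : ℝ} (hε : 0 < ε) (f : Fr) {C : Set ℂ} (hC : MeasurableSet C)
    (hCb : Bornology.IsBounded C) {F : Cf → ℝ≥0∞} (hF : FinMeas F) {S : Cf} (hS : S.Finite) :
    Rs ε (f.e.symm ⁻¹' C) (tr f.e F) S = Rs ε C F (mv f.e.symm S) :=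
  (Rs_mv hε f.e.symm (f.mp.symm f.e) hC hCb (f.bdd' C hCb) hF hS).symm

/-! ## template and path -/

/-- the template -/
structure Tpl (ε : ℝ) (Ty : Type*) where
  Q : Set ℂ
  A : Cf → ℝ≥0∞
  D : Ty → Set ℂ
  E : Ty → Cf → ℝ≥0∞
  nx : Ty → Fr
  c : ℝ≥0∞
  eps : 0 < ε
  c0 : c ≠ 0
  c1 : c ≠ ∞
  Qm : MeasurableSet Q
  Qb : Bornology.IsBounded Q
  Dm : ∀ t, MeasurableSet (D t)
  Db : ∀ t, Bornology.IsBounded (D t)
  Al : LocalOn Q A
  Am : FinMeas A
  A1 : ∀ S, A S ≤ 1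
  El : ∀ t, LocalOn ((Q ∪ (nx t).e.symm ⁻¹' Q) ∪ D t) (E t)
  Em : ∀ t, FinMeas (E t)
  E1 : ∀ t S, E t S ≤ 1
  pos : ∀ t, ∀ S : Cf, S.Finite → A S ≠ 0 → tr (nx t).e A S ≠ 0 → c ≤ Rs ε (D t) (E t) S

/-- a family of gates and tiles in the plane -/
structure Pth {ε : ℝ} {Ty : Type*} (T : Tpl ε Ty) (ι κ : Type*) where
  src : κ → ι
  tgt : κ → ι
  ty : κ → Ty
  fr : ι → Fr
  step : ∀ k z, (fr (tgt k)).e z = (fr (src k)).e ((T.nx (ty k)).e z)
  BB : ∀ i i', i ≠ i' → Disjoint ((fr i).e.symm ⁻¹' T.Q) ((fr i').e.symm ⁻¹' T.Q)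
  CC : ∀ k k', k ≠ k' → Disjoint ((fr (src k)).e.symm ⁻¹' T.D (ty k))
    ((fr (src k')).e.symm ⁻¹' T.D (ty k'))
  BC : ∀ i k, Disjoint ((fr i).e.symm ⁻¹' T.Q) ((fr (src k)).e.symm ⁻¹' T.D (ty k))

variable {ε : ℝ} {Ty : Type*} {T : Tpl ε Ty} {ι κ ι' κ' : Type*}

namespace Pth

/-- the inverse form of `step` -/
lemma step_symm (P : Pth T ι κ) (k : κ) (z : ℂ) :
    (P.fr (P.tgt k)).e.symm z = (T.nx (P.ty k)).e.symm ((P.fr (P.src k)).e.symm z) := by
  have h := P.step k ((T.nx (P.ty k)).e.symm ((P.fr (P.src k)).e.symm z))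
  rw [MeasurableEquiv.apply_symm_apply, MeasurableEquiv.apply_symm_apply] at h
  rw [← h, MeasurableEquiv.symm_apply_apply, h]

lemma tr_tgt {X : Type*} (P : Pth T ι κ) (k : κ) (F : Cf → X) (S : Cf) :
    tr (P.fr (P.tgt k)).e F S = tr (T.nx (P.ty k)).e F (mv (P.fr (P.src k)).e.symm S) := by
  unfold tr
  rw [mv_mv]
  exact congrArg F (mv_congr (fun z => P.step_symm k z) S)

/-- the product weight of a path -/
def net [DecidableEq ι] (P : Pth T ι κ) : Net ε ι κ where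
  B i := (P.fr i).e.symm ⁻¹' T.Q
  C k := (P.fr (P.src k)).e.symm ⁻¹' T.D (P.ty k)
  a i := tr (P.fr i).e T.A
  e k := tr (P.fr (P.src k)).e (T.E (P.ty k))
  N k := {P.src k, P.tgt k}
  c := T.c
  eps := T.eps
  c0 := T.c0
  c1 := T.c1
  Bm i := (P.fr i).e.symm.measurable T.Qm
  Bb i := (P.fr i).bdd' _ T.Qb
  Cm k := (P.fr (P.src k)).e.symm.measurable (T.Dm _)
  Cb k := (P.fr (P.src k)).bdd' _ (T.Db _)
  BB := P.BB
  CC := P.CC
  BC := P.BC
  al i := tr_local _ T.Al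
  am i := tr_fm _ T.Am
  a1 i S := T.A1 _
  el k := by
    have h := tr_local (P.fr (P.src k)).e (T.El (P.ty k))
    refine LocalOn.mono ?_ h
    rw [preimage_union, preimage_union]
    refine union_subset_union_left _ (union_subset ?_ ?_)
    · exact subset_biUnion_of_mem (u := fun i => (P.fr i).e.symm ⁻¹' T.Q)
        (Finset.mem_insert_self (P.src k) {P.tgt k})
    · have h1 : (P.fr (P.src k)).e.symm ⁻¹' ((T.nx (P.ty k)).e.symm ⁻¹' T.Q) =
          (P.fr (P.tgt k)).e.symm ⁻¹' T.Q := by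
        ext z
        simp only [mem_preimage]
        rw [P.step_symm k z]
      rw [h1]
      exact subset_biUnion_of_mem (u := fun i => (P.fr i).e.symm ⁻¹' T.Q)
        (Finset.mem_insert_of_mem (Finset.mem_singleton_self (P.tgt k)) :
          P.tgt k ∈ ({P.src k, P.tgt k} : Finset ι))
  em k := tr_fm _ (T.Em _)
  e1 k S := T.E1 _ _
  pos k S hS h := by
    rw [Rs_tr T.eps (P.fr (P.src k)) (T.Dm _) (T.Db _) (T.Em _) hS]
    refine T.pos _ _ (mv_finite _ hS) ?_ ?_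
    · exact h (P.src k) (Finset.mem_insert_self _ _)
    · have h1 := h (P.tgt k) (Finset.mem_insert_of_mem (Finset.mem_singleton_self _))
      rwa [P.tr_tgt] at h1

end Pth

/-! ## windows -/

/-- a window of `n` consecutive tiles, of the types `τ 0, .., τ (n-1)` -/
structure Win (P : Pth T ι κ) (n : ℕ) (τ : ℕ → Ty) where
  i : ℕ → ι
  k : ℕ → κ
  src : ∀ j, j < n → P.src (k j) = i j
  tgt : ∀ j, j < n → P.tgt (k j) = i (j + 1)
  ty : ∀ j, j < n → P.ty (k j) = τ j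
  injI : ∀ a ≤ n, ∀ b ≤ n, i a = i b → a = b
  injK : ∀ a < n, ∀ b < n, k a = k b → a = b

namespace Win

variable {n : ℕ} {τ : ℕ → Ty} {P : Pth T ι κ} {P' : Pth T ι' κ'}

/-- the gates of the window -/
def I [DecidableEq ι] (W : Win P n τ) : Finset ι := (Finset.range (n + 1)).image W.i

/-- the tiles of the window -/
def J [DecidableEq κ] (W : Win P n τ) : Finset κ := (Finset.range n).image W.k

/-- the frame of the window -/
def fr (W : Win P n τ) : Fr := P.fr (W.i 0)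

lemma hN [DecidableEq ι] [DecidableEq κ] (W : Win P n τ) : ∀ k ∈ W.J, P.net.N k ⊆ W.I := by
  intro k hk i hi
  obtain ⟨j, hj, rfl⟩ := Finset.mem_image.1 hk
  have hj' := Finset.mem_range.1 hj
  have h1 : i ∈ ({P.src (W.k j), P.tgt (W.k j)} : Finset ι) := hi
  rw [W.src j hj', W.tgt j hj', Finset.mem_insert, Finset.mem_singleton] at h1
  rcases h1 with rfl | rfl
  · exact Finset.mem_image_of_mem _ (Finset.mem_range.2 (by omega))
  · exact Finset.mem_image_of_mem _ (Finset.mem_range.2 (by omega))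

/-- the map between two windows -/
def g (W : Win P n τ) (W' : Win P' n τ) : Fr := W.fr.symm.trans W'.fr

lemma g_fr (W : Win P n τ) (W' : Win P' n τ) (j : ℕ) (hj : j ≤ n) (z : ℂ) :
    (P'.fr (W'.i j)).e z = (W.g W').e ((P.fr (W.i j)).e z) := by
  induction j generalizing z with
  | zero =>
    change _ = W'.fr.e (W.fr.e.symm ((P.fr (W.i 0)).e z))
    unfold fr
    rw [MeasurableEquiv.symm_apply_apply]
  | succ j ih =>
    have hj' : j < n := by omega
    have h1 := P.step (W.k j) z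
    have h2 := P'.step (W'.k j) z
    rw [W.tgt j hj', W.src j hj', W.ty j hj'] at h1
    rw [W'.tgt j hj', W'.src j hj', W'.ty j hj'] at h2
    rw [h1, h2]
    exact ih hj'.le _

lemma g_symm (W : Win P n τ) (W' : Win P' n τ) (j : ℕ) (hj : j ≤ n) (z : ℂ) :
    (P'.fr (W'.i j)).e.symm ((W.g W').e z) = (P.fr (W.i j)).e.symm z := by
  have h := W.g_fr W' j hj ((P.fr (W.i j)).e.symm z)
  rw [MeasurableEquiv.apply_symm_apply] at h
  rw [← h, MeasurableEquiv.symm_apply_apply]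

lemma tr_g {X : Type*} (W : Win P n τ) (W' : Win P' n τ) (j : ℕ) (hj : j ≤ n) (F : Cf → X)
    (S : Cf) : tr (P'.fr (W'.i j)).e F (mv (W.g W').e S) = tr (P.fr (W.i j)).e F S := by
  unfold tr
  rw [mv_mv]
  exact congrArg F (mv_congr (fun z => W.g_symm W' j hj z) S)

open Classical in
/-- the map of the gates -/
def fI (W : Win P n τ) (W' : Win P' n τ) (x : ι) : ι' :=
  if h : ∃ j, j ≤ n ∧ W.i j = x then W'.i h.choose else W'.i 0

open Classical in
/-- the map of the tiles -/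
def fJ (W : Win P n τ) (W' : Win P' n τ) (x : κ) : κ' :=
  if h : ∃ j, j < n ∧ W.k j = x then W'.k h.choose else W'.k 0

lemma fI_i (W : Win P n τ) (W' : Win P' n τ) (j : ℕ) (hj : j ≤ n) :
    W.fI W' (W.i j) = W'.i j := by
  have h : ∃ j', j' ≤ n ∧ W.i j' = W.i j := ⟨j, hj, rfl⟩
  unfold fI
  rw [dif_pos h]
  have h1 := h.choose_spec
  rw [W.injI _ h1.1 _ hj h1.2]

lemma fJ_k (W : Win P n τ) (W' : Win P' n τ) (j : ℕ) (hj : j < n) :
    W.fJ W' (W.k j) = W'.k j := by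
  have h : ∃ j', j' < n ∧ W.k j' = W.k j := ⟨j, hj, rfl⟩
  unfold fJ
  rw [dif_pos h]
  have h1 := h.choose_spec
  rw [W.injK _ h1.1 _ hj h1.2]

lemma image_I [DecidableEq ι] [DecidableEq ι'] (W : Win P n τ) (W' : Win P' n τ) :
    W.I.image (W.fI W') = W'.I := by
  unfold I
  rw [Finset.image_image]
  refine Finset.image_congr fun j hj => ?_
  have : j < n + 1 := by simpa using hj
  exact W.fI_i W' j (by omega)

lemma image_J [DecidableEq κ] [DecidableEq κ'] (W : Win P n τ) (W' : Win P' n τ) :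
    W.J.image (W.fJ W') = W'.J := by
  unfold J
  rw [Finset.image_image]
  refine Finset.image_congr fun j hj => ?_
  have : j < n := by simpa using hj
  exact W.fJ_k W' j this

/-- **windows of the same types are congruent** -/
theorem cong [DecidableEq ι] [DecidableEq κ] [DecidableEq ι'] (W : Win P n τ)
    (W' : Win P' n τ) :
    Cong P.net P'.net (W.g W').e W.I W.J (W.fI W') (W.fJ W') where
  mp := (W.g W').mp
  bdd := (W.g W').bdd
  injI := by
    intro x hx y hy h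
    obtain ⟨a, ha, rfl⟩ := Finset.mem_image.1 (Finset.mem_coe.1 hx)
    obtain ⟨b, hb, rfl⟩ := Finset.mem_image.1 (Finset.mem_coe.1 hy)
    have ha' : a ≤ n := Nat.lt_succ_iff.1 (Finset.mem_range.1 ha)
    have hb' : b ≤ n := Nat.lt_succ_iff.1 (Finset.mem_range.1 hb)
    rw [W.fI_i W' a ha', W.fI_i W' b hb'] at h
    rw [W'.injI a ha' b hb' h]
  injJ := by
    intro x hx y hy h
    obtain ⟨a, ha, rfl⟩ := Finset.mem_image.1 (Finset.mem_coe.1 hx)
    obtain ⟨b, hb, rfl⟩ := Finset.mem_image.1 (Finset.mem_coe.1 hy)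
    have ha' := Finset.mem_range.1 ha
    have hb' := Finset.mem_range.1 hb
    rw [W.fJ_k W' a ha', W.fJ_k W' b hb'] at h
    rw [W'.injK a ha' b hb' h]
  N := W.hN
  N' := by
    intro k hk i' hi'
    obtain ⟨j, hj, rfl⟩ := Finset.mem_image.1 hk
    have hj' := Finset.mem_range.1 hj
    rw [W.fJ_k W' j hj'] at hi'
    have h1 : i' ∈ ({P'.src (W'.k j), P'.tgt (W'.k j)} : Finset ι') := hi'
    rw [W'.src j hj', W'.tgt j hj', Finset.mem_insert, Finset.mem_singleton] at h1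
    rcases h1 with rfl | rfl
    · exact ⟨W.i j, Finset.mem_image_of_mem _ (Finset.mem_range.2 (by omega)),
        W.fI_i W' j (by omega)⟩
    · exact ⟨W.i (j + 1), Finset.mem_image_of_mem _ (Finset.mem_range.2 (by omega)),
        W.fI_i W' (j + 1) (by omega)⟩
  Bg := by
    intro i hi
    obtain ⟨j, hj, rfl⟩ := Finset.mem_image.1 hi
    have hj' : j ≤ n := Nat.lt_succ_iff.1 (Finset.mem_range.1 hj)
    rw [W.fI_i W' j hj']
    ext z
    change (P'.fr (W'.i j)).e.symm ((W.g W').e z) ∈ T.Q ↔ (P.fr (W.i j)).e.symm z ∈ T.Q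
    rw [W.g_symm W' j hj']
  Cg := by
    intro k hk
    obtain ⟨j, hj, rfl⟩ := Finset.mem_image.1 hk
    have hj' := Finset.mem_range.1 hj
    rw [W.fJ_k W' j hj']
    ext z
    change (P'.fr (P'.src (W'.k j))).e.symm ((W.g W').e z) ∈ T.D (P'.ty (W'.k j)) ↔
      (P.fr (P.src (W.k j))).e.symm z ∈ T.D (P.ty (W.k j))
    rw [W.src j hj', W'.src j hj', W.ty j hj', W'.ty j hj', W.g_symm W' j hj'.le]
  a := by
    intro i hi S _
    obtain ⟨j, hj, rfl⟩ := Finset.mem_image.1 hi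
    have hj' : j ≤ n := Nat.lt_succ_iff.1 (Finset.mem_range.1 hj)
    rw [W.fI_i W' j hj']
    exact W.tr_g W' j hj' T.A S
  e := by
    intro k hk S _
    obtain ⟨j, hj, rfl⟩ := Finset.mem_image.1 hk
    have hj' := Finset.mem_range.1 hj
    rw [W.fJ_k W' j hj']
    change tr (P'.fr (P'.src (W'.k j))).e (T.E (P'.ty (W'.k j))) (mv (W.g W').e S) =
      tr (P.fr (P.src (W.k j))).e (T.E (P.ty (W.k j))) S
    rw [W.src j hj', W'.src j hj', W.ty j hj', W'.ty j hj']
    exact W.tr_g W' j hj'.le _ S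
  c := rfl

/-- the region of the window -/
def reg [DecidableEq ι] [DecidableEq κ] (W : Win P n τ) : Set ℂ := P.net.reg W.I W.J

/-- the weight of the window -/
def w [DecidableEq ι] [DecidableEq κ] (W : Win P n τ) (S : Cf) : ℝ≥0∞ := P.net.gw W.I W.J S

/-- the mass of the window weight -/
def mass [DecidableEq ι] [DecidableEq κ] (W : Win P n τ) : ℝ≥0∞ :=
  ∫⁻ ω, W.w (cfg ε ω) ∂sampleLaw

lemma mass_eq [DecidableEq ι] [DecidableEq κ] (W : Win P n τ) :
    W.mass = T.c ^ n * (∫⁻ ω, T.A (cfg ε ω) ∂sampleLaw) ^ (n + 1) := by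
  have h := P.net.mass W.hN
  have h1 : W.J.card = n := by
    unfold J
    rw [Finset.card_image_of_injOn, Finset.card_range]
    intro a ha b hb h
    exact W.injK a (by simpa using ha) b (by simpa using hb) h
  have h2 : W.I.card = n + 1 := by
    unfold I
    rw [Finset.card_image_of_injOn, Finset.card_range]
    intro a ha b hb h
    have ha' : a < n + 1 := by simpa using ha
    have hb' : b < n + 1 := by simpa using hb
    exact W.injI a (by omega) b (by omega) h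
  have h3 : ∀ i, ∫⁻ ω, P.net.a i (cfg ε ω) ∂sampleLaw = ∫⁻ ω, T.A (cfg ε ω) ∂sampleLaw := by
    intro i
    have h4 := iso ε T.eps T.Q T.Qm T.Qb (P.fr i).e.symm ((P.fr i).mp.symm (P.fr i).e)
      ((P.fr i).bdd' _ T.Qb) T.A T.Al T.Am
    exact h4
  unfold mass w
  rw [h, h1]
  congr 1
  rw [Finset.prod_congr rfl fun i _ => h3 i, Finset.prod_const, h2]

/-- the mean of `V` under the weight of the window -/
def m [DecidableEq ι] [DecidableEq κ] (W : Win P n τ) (V : Cf → ℂ) : ℂ :=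
  (W.mass.toReal : ℂ)⁻¹ * ∫ ω, ((W.w (cfg ε ω)).toReal : ℂ) * V (cfg ε ω) ∂sampleLaw

lemma mass_le [DecidableEq ι] [DecidableEq κ] (W : Win P n τ) : W.mass ≤ 1 := by
  have : IsProbabilityMeasure sampleLaw := by unfold sampleLaw; infer_instance
  calc W.mass ≤ ∫⁻ _, 1 ∂sampleLaw := lintegral_mono fun ω => P.net.gw_le_one W.hN ω
    _ = 1 := by simp

lemma mass_pos [DecidableEq ι] [DecidableEq κ] (W : Win P n τ)
    (h : ∫⁻ ω, T.A (cfg ε ω) ∂sampleLaw ≠ 0) : 0 < W.mass.toReal := by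
  refine ENNReal.toReal_pos ?_ (ne_top_of_le_ne_top ENNReal.one_ne_top W.mass_le)
  rw [W.mass_eq]
  exact mul_ne_zero (pow_ne_zero _ T.c0) (pow_ne_zero _ h)

/-- **LOCAL MEAN**: `E[g V] = E[g] m V` for every weight `g` of a larger piece of the path -/
theorem mean [DecidableEq ι] [DecidableEq κ] (W : Win P n τ)
    (hA : ∫⁻ ω, T.A (cfg ε ω) ∂sampleLaw ≠ 0) {I : Finset ι} {J : Finset κ}
    (hI : W.I ⊆ I) (hJ : W.J ⊆ J) (hN : ∀ k ∈ J, P.src k ∈ I ∧ P.tgt k ∈ I) {V : Cf → ℂ}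
    (hV : LocalOn W.reg V) (hVm : FinMeas V) :
    ∫ ω, ((P.net.gw I J (cfg ε ω)).toReal : ℂ) * V (cfg ε ω) ∂sampleLaw =
      ((∫⁻ ω, P.net.gw I J (cfg ε ω) ∂sampleLaw).toReal : ℂ) * W.m V := by
  have hN' : ∀ k ∈ J, P.net.N k ⊆ I := by
    intro k hk i hi
    have h1 : i ∈ ({P.src k, P.tgt k} : Finset ι) := hi
    rw [Finset.mem_insert, Finset.mem_singleton] at h1
    rcases h1 with rfl | rfl
    · exact (hN k hk).1
    · exact (hN k hk).2
  have h := P.net.mean hI hJ hN' W.hN hV hVm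
  simp only [Complex.real_smul] at h
  have hp : (W.mass.toReal : ℂ) ≠ 0 := by exact_mod_cast (W.mass_pos hA).ne'
  unfold m
  rw [← mul_assoc, mul_comm ((∫⁻ ω, P.net.gw I J (cfg ε ω) ∂sampleLaw).toReal : ℂ), mul_assoc,
    eq_inv_mul_iff_mul_eq₀ hp]
  exact h

/-- **ONE NUMBER** (map form): `V' ∘ mv g = u V` gives `m' V' = u m V` -/
theorem same [DecidableEq ι] [DecidableEq κ] [DecidableEq ι'] [DecidableEq κ'] (W : Win P n τ)
    (W' : Win P' n τ) {V V' : Cf → ℂ} {u : ℂ} (hV : LocalOn W.reg V) (hVm : FinMeas V)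
    (hV' : LocalOn W'.reg V') (hVm' : FinMeas V')
    (h : ∀ S : Cf, S.Finite → V' (mv (W.g W').e S) = u * V S) : W'.m V' = u * W.m V := by
  have hc := W.cong W'
  have e1 := hc.mean (V' := V') (V := V) (ph := fun z : ℂ => u * z) (measurable_const_mul u)
    (by rw [W.image_I W', W.image_J W']; exact hV') hVm' hV hVm h
  have e2 := hc.mass
  rw [W.image_I W', W.image_J W'] at e1 e2
  have e3 : W'.mass = W.mass := e2
  unfold m
  rw [e3]
  simp only [Complex.real_smul] at e1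
  unfold w
  rw [e1]
  have e5 : ∫ ω, ((P.net.gw W.I W.J (cfg ε ω)).toReal : ℂ) * (u * V (cfg ε ω)) ∂sampleLaw =
      u * ∫ ω, ((P.net.gw W.I W.J (cfg ε ω)).toReal : ℂ) * V (cfg ε ω) ∂sampleLaw := by
    rw [← integral_const_mul]
    congr 1
    funext ω
    ring
  rw [e5]
  ring

/-- **ONE NUMBER** (template form): both functions are the template function `V0` in the frame of
the window, up to the factors `u`, `u'` -/
theorem same' [DecidableEq ι] [DecidableEq κ] [DecidableEq ι'] [DecidableEq κ'] (W : Win P n τ)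
    (W' : Win P' n τ) {V V' V0 : Cf → ℂ} {u u' : ℂ} (hu : u ≠ 0) (hV : LocalOn W.reg V)
    (hVm : FinMeas V) (hV' : LocalOn W'.reg V') (hVm' : FinMeas V')
    (h : ∀ S : Cf, S.Finite → V (mv W.fr.e S) = u * V0 S)
    (h' : ∀ S : Cf, S.Finite → V' (mv W'.fr.e S) = u' * V0 S) : W'.m V' = u' / u * W.m V := by
  refine W.same W' hV hVm hV' hVm' fun S hS => ?_
  have e1 : mv (W.g W').e S = mv W'.fr.e (mv W.fr.e.symm S) := (mv_mv _ _ _).symm
  have hS' : (mv W.fr.e.symm S).Finite := mv_finite _ hS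
  have e2 : V S = u * V0 (mv W.fr.e.symm S) := by
    rw [← h _ hS', mv_mv_symm]
  rw [e1, h' _ hS', e2]
  field_simp

/-- **RELATIVE UPPER BOUND**: `mass · E[g F] ≤ E[g] · E[∏ a ∏ e F]` -/
theorem upper [DecidableEq ι] [DecidableEq κ] (W : Win P n τ) {I : Finset ι} {J : Finset κ}
    (hI : W.I ⊆ I) (hJ : W.J ⊆ J) (hN : ∀ k ∈ J, P.src k ∈ I ∧ P.tgt k ∈ I) {F : Cf → ℝ≥0∞}
    (hF : LocalOn W.reg F) (hFm : FinMeas F) :
    (T.c ^ n * (∫⁻ ω, T.A (cfg ε ω) ∂sampleLaw) ^ (n + 1)) *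
        (∫⁻ ω, P.net.gw I J (cfg ε ω) * F (cfg ε ω) ∂sampleLaw) ≤
      (∫⁻ ω, P.net.gw I J (cfg ε ω) ∂sampleLaw) *
        ∫⁻ ω, ((∏ i ∈ W.I, P.net.a i (cfg ε ω)) * ∏ k ∈ W.J, P.net.e k (cfg ε ω)) * F (cfg ε ω)
          ∂sampleLaw := by
  have hN' : ∀ k ∈ J, P.net.N k ⊆ I := by
    intro k hk i hi
    have h1 : i ∈ ({P.src k, P.tgt k} : Finset ι) := hi
    rw [Finset.mem_insert, Finset.mem_singleton] at h1
    rcases h1 with rfl | rfl
    · exact (hN k hk).1
    · exact (hN k hk).2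
  have h := P.net.upper hI hJ hN' W.hN hF hFm
  rw [← W.mass_eq]
  have h2 : W.mass = T.c ^ W.J.card * ∏ i ∈ W.I, ∫⁻ ω, P.net.a i (cfg ε ω) ∂sampleLaw :=
    P.net.mass W.hN
  rw [h2]
  exact h

end Win

end Crest.Agent.R143.Tplx978
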