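import Crest.Agent.R143.RigC_654
import Crest.Agent.R143.Tpl_978

/-!
# Row 143 (S0194), CORE-C, box R9 (e): limits in the mesh at fixed width (helper133)

For `Env` of `CorM_970` (one polygon, one type, one width `N`, one mesh `ε`).

* `mass_real`, `mass_ge`, `int_gw`, `gw_int` : mass of 978's product weight (real form):
  `E g = c^{#J} ∏ E a_i ≥ cc^{#J} c0^{#I}`; `pth_mass`, `pth_mass_ge` : the same for a path of a template
* `gR` : the weight as a real function `≤ 1` at every configuration (for `EnvIx279.Inp`); `g0_ge`,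
  `pth_g0_ge`
* `LowN g` : `g ε ≥ c > 0` for small `ε` (fixed width)
* `dl_div`, `dl_div_sum`, `dl_bad` : `x N ε / g N ε` is `DL` if `x N ε → 0` for fixed `N`;
  `e1_eq`, `bad_eq` : fields `e1`, `hbad` of `Env` with `a1 = ∫ E1 / g0`, `ρ = P bad / g0`
* `msb bad` : measurable superset of the same probability
* `E2f` : the error function `E2` (good: `a2 G`, bad: `C`), integrability and bound
* `kappa_le`, `env_kappa` : `‖κ‖ ‖z l‖ ≤ K`
-/

set_option autoImplicit false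

noncomputable section

open scoped Classical

namespace Crest.Agent.R143.LimSx133

open MeasureTheory Set Filter Topology
open scoped ENNReal
open Crest.ProbabilityR.Voronoi
open Crest.Agent.R143.PP0x831 Crest.Agent.R143.Poisx304 Crest.Agent.R143.Janx304
open Crest.Agent.R143.IndLocx279 Crest.Agent.R143.PWx978 Crest.Agent.R143.Tplx978
open Crest.Agent.R143.PolySx854 (DL DP dl_mesh)
open Crest.Agent.R143.CorMx970 (Env)

theorem prob_sample : IsProbabilityMeasure sampleLaw := by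
  rw [sampleLaw]; infer_instance

/-! ### the mass of the weight -/

section mass

variable {ε : ℝ} {ι κ : Type*}

/-- the mean of the weight is finite -/
theorem mass_le_one (M : Net ε ι κ) {I : Finset ι} {J : Finset κ} (hN : ∀ k ∈ J, M.N k ⊆ I) :
    ∫⁻ ω, M.gw I J (cfg ε ω) ∂sampleLaw ≤ 1 := by
  have := prob_sample
  calc ∫⁻ ω, M.gw I J (cfg ε ω) ∂sampleLaw ≤ ∫⁻ _, 1 ∂sampleLaw :=
        lintegral_mono fun ω => M.gw_le_one hN ω
    _ = 1 := by simp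

theorem mass_ne_top (M : Net ε ι κ) {I : Finset ι} {J : Finset κ} (hN : ∀ k ∈ J, M.N k ⊆ I) :
    ∫⁻ ω, M.gw I J (cfg ε ω) ∂sampleLaw ≠ ∞ :=
  ne_top_of_le_ne_top ENNReal.one_ne_top (mass_le_one M hN)



/-- **lower bound of the mass** -/
theorem mass_ge (M : Net ε ι κ) {I : Finset ι} {J : Finset κ} (hN : ∀ k ∈ J, M.N k ⊆ I)
    {cc c0 : ℝ} (h0 : 0 ≤ cc) (h0' : 0 ≤ c0) (hc : ENNReal.ofReal cc ≤ M.c)
    (ha : ∀ i ∈ I, ENNReal.ofReal c0 ≤ ∫⁻ ω, M.a i (cfg ε ω) ∂sampleLaw) :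
    cc ^ J.card * c0 ^ I.card ≤ (∫⁻ ω, M.gw I J (cfg ε ω) ∂sampleLaw).toReal := by
  have h1 : ENNReal.ofReal (cc ^ J.card * c0 ^ I.card) ≤
      ∫⁻ ω, M.gw I J (cfg ε ω) ∂sampleLaw := by
    have h2 : ENNReal.ofReal c0 ^ I.card ≤ ∏ i ∈ I, ∫⁻ ω, M.a i (cfg ε ω) ∂sampleLaw := by
      rw [← Finset.prod_const]
      exact Finset.prod_le_prod' ha
    rw [M.mass hN, ENNReal.ofReal_mul (pow_nonneg h0 _), ENNReal.ofReal_pow h0,
      ENNReal.ofReal_pow h0']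
    exact mul_le_mul' (pow_le_pow_left' hc _) h2
  exact (ENNReal.ofReal_le_iff_le_toReal (mass_ne_top M hN)).1 h1

theorem gw_meas (M : Net ε ι κ) {I : Finset ι} {J : Finset κ} (hN : ∀ k ∈ J, M.N k ⊆ I) :
    Measurable fun ω => M.gw I J (cfg ε ω) :=
  meas_fun M.eps (M.reg_meas I J) (M.reg_bdd I J) (M.gw_local hN) (M.gw_meas I J)

theorem gw_lt_top (M : Net ε ι κ) {I : Finset ι} {J : Finset κ} (hN : ∀ k ∈ J, M.N k ⊆ I)
    (ω : Sample) : M.gw I J (cfg ε ω) < ∞ :=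
  lt_of_le_of_lt (M.gw_le_one hN ω) ENNReal.one_lt_top


/-- Bochner form of the mass -/
theorem int_gw (M : Net ε ι κ) {I : Finset ι} {J : Finset κ} (hN : ∀ k ∈ J, M.N k ⊆ I) :
    ∫ ω, (M.gw I J (cfg ε ω)).toReal ∂sampleLaw =
      (∫⁻ ω, M.gw I J (cfg ε ω) ∂sampleLaw).toReal :=
  integral_toReal (gw_meas M hN).aemeasurable (ae_of_all _ fun ω => gw_lt_top M hN ω)

/-- the weight as a real function, `≤ 1` at EVERY configuration (input `g` of `EnvIx279.Inp`) -/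
def gR (M : Net ε ι κ) (I : Finset ι) (J : Finset κ) (X : Cf) : ℝ := min (M.gw I J X).toReal 1

theorem gR_nonneg (M : Net ε ι κ) (I : Finset ι) (J : Finset κ) (X : Cf) : 0 ≤ gR M I J X :=
  le_min ENNReal.toReal_nonneg zero_le_one

theorem gR_le_one (M : Net ε ι κ) (I : Finset ι) (J : Finset κ) (X : Cf) : gR M I J X ≤ 1 :=
  min_le_right _ _

theorem gR_local (M : Net ε ι κ) {I : Finset ι} {J : Finset κ} (hN : ∀ k ∈ J, M.N k ⊆ I) :
    LocalOn (M.reg I J) (gR M I J) :=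
  LocalOn.comp (M.gw_local hN) fun x : ℝ≥0∞ => min x.toReal 1

theorem gR_fm (M : Net ε ι κ) (I : Finset ι) (J : Finset κ) : FinMeas (gR M I J) := fun n =>
  ((M.gw_meas I J n).ennreal_toReal).min measurable_const

/-- at a finite configuration -/
theorem gR_fin (M : Net ε ι κ) {I : Finset ι} {J : Finset κ} (hN : ∀ k ∈ J, M.N k ⊆ I) {X : Cf}
    (hX : X.Finite) : gR M I J X = (M.gw I J X).toReal := by
  have h1 : M.gw I J X ≤ 1 :=
    (M.gw_le_fin hN hX).trans (Finset.prod_le_one' fun i _ => M.a1 i _)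
  have h2 : (M.gw I J X).toReal ≤ 1 := by
    have h := ENNReal.toReal_mono ENNReal.one_ne_top h1
    simpa using h
  exact min_eq_left h2

theorem gR_pos (M : Net ε ι κ) {I : Finset ι} {J : Finset κ} (hN : ∀ k ∈ J, M.N k ⊆ I) {X : Cf}
    (hX : X.Finite) : 0 < gR M I J X ↔ M.gw I J X ≠ 0 := by
  have h1 : M.gw I J X ≤ 1 :=
    (M.gw_le_fin hN hX).trans (Finset.prod_le_one' fun i _ => M.a1 i _)
  rw [gR_fin M hN hX]
  constructor
  · intro h h0
    rw [h0, ENNReal.toReal_zero] at h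
    exact lt_irrefl _ h
  · exact fun h => ENNReal.toReal_pos h (ne_top_of_le_ne_top ENNReal.one_ne_top h1)

theorem gR_cfg (M : Net ε ι κ) {I : Finset ι} {J : Finset κ} (hN : ∀ k ∈ J, M.N k ⊆ I)
    (ω : Sample) : gR M I J (cfg ε ω) = (M.gw I J (cfg ε ω)).toReal := by
  have h2 : (M.gw I J (cfg ε ω)).toReal ≤ 1 := by
    have h := ENNReal.toReal_mono ENNReal.one_ne_top (M.gw_le_one hN ω)
    simpa using h
  exact min_eq_left h2

/-- `E g`, Bochner form -/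
theorem int_gR (M : Net ε ι κ) {I : Finset ι} {J : Finset κ} (hN : ∀ k ∈ J, M.N k ⊆ I) :
    ∫ ω, gR M I J (cfg ε ω) ∂sampleLaw = (∫⁻ ω, M.gw I J (cfg ε ω) ∂sampleLaw).toReal := by
  rw [← int_gw M hN]
  exact integral_congr_ae (ae_of_all _ fun ω => gR_cfg M hN ω)


variable {Ty : Type*} {T : Tpl ε Ty} [DecidableEq ι]

theorem pth_hN (P : Pth T ι κ) {I : Finset ι} {J : Finset κ}
    (hN : ∀ k ∈ J, P.src k ∈ I ∧ P.tgt k ∈ I) : ∀ k ∈ J, P.net.N k ⊆ I := by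
  intro k hk i hi
  have h1 : i ∈ ({P.src k, P.tgt k} : Finset ι) := hi
  rw [Finset.mem_insert, Finset.mem_singleton] at h1
  rcases h1 with rfl | rfl
  · exact (hN k hk).1
  · exact (hN k hk).2

/-- all gates have the mean of the template -/
theorem pth_a (P : Pth T ι κ) (i : ι) :
    ∫⁻ ω, P.net.a i (cfg ε ω) ∂sampleLaw = ∫⁻ ω, T.A (cfg ε ω) ∂sampleLaw := by
  have h4 := iso ε T.eps T.Q T.Qm T.Qb (P.fr i).e.symm ((P.fr i).mp.symm (P.fr i).e)
    ((P.fr i).bdd' _ T.Qb) T.A T.Al T.Am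
  exact h4


/-- **lower bound of the mass of the weight of a path** -/
theorem pth_mass_ge (P : Pth T ι κ) {I : Finset ι} {J : Finset κ}
    (hN : ∀ k ∈ J, P.src k ∈ I ∧ P.tgt k ∈ I) {cc c0 : ℝ} (h0 : 0 ≤ cc) (h0' : 0 ≤ c0)
    (hc : ENNReal.ofReal cc ≤ T.c)
    (ha : ENNReal.ofReal c0 ≤ ∫⁻ ω, T.A (cfg ε ω) ∂sampleLaw) :
    cc ^ J.card * c0 ^ I.card ≤ (∫⁻ ω, P.net.gw I J (cfg ε ω) ∂sampleLaw).toReal :=
  mass_ge P.net (pth_hN P hN) h0 h0' hc fun i _ => by rw [pth_a P i]; exact ha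

/-- **`g0 = E g ≥ cc^{#J} c0^{#I}`** for a path of a template -/
theorem pth_g0_ge (P : Pth T ι κ) {I : Finset ι} {J : Finset κ}
    (hN : ∀ k ∈ J, P.src k ∈ I ∧ P.tgt k ∈ I) {cc c0 : ℝ} (h0 : 0 ≤ cc) (h0' : 0 ≤ c0)
    (hc : ENNReal.ofReal cc ≤ T.c)
    (ha : ENNReal.ofReal c0 ≤ ∫⁻ ω, T.A (cfg ε ω) ∂sampleLaw) :
    cc ^ J.card * c0 ^ I.card ≤ ∫ ω, gR P.net I J (cfg ε ω) ∂sampleLaw := by
  rw [int_gR P.net (pth_hN P hN)]
  exact pth_mass_ge P hN h0 h0' hc ha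

end mass

/-! ### limits at fixed width -/

section lim

/-- for a fixed width, bounded below for small meshes -/
def LowN (g : ℝ → ℝ) : Prop := ∃ c > 0, ∀ᶠ ε : ℝ in 𝓝[>] 0, c ≤ g ε

/-- the mass is bounded below at a fixed width -/
theorem lowN_of {g : ℝ → ℝ} {cc c0 : ℝ} (h1 : 0 < cc) (h2 : 0 < c0) (a b : ℕ)
    (h : ∀ᶠ ε : ℝ in 𝓝[>] 0, cc ^ a * c0 ^ b ≤ g ε) : LowN g :=
  ⟨_, mul_pos (pow_pos h1 a) (pow_pos h2 b), h⟩

theorem LowN.pos {g : ℝ → ℝ} (h : LowN g) : ∀ᶠ ε : ℝ in 𝓝[>] 0, 0 < g ε := by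
  obtain ⟨c, hc, h1⟩ := h
  filter_upwards [h1] with ε h2
  exact hc.trans_le h2

theorem LowN.mono {g g' : ℝ → ℝ} (h : LowN g) (hg : ∀ᶠ ε : ℝ in 𝓝[>] 0, g ε ≤ g' ε) :
    LowN g' := by
  obtain ⟨c, hc, h1⟩ := h
  refine ⟨c, hc, ?_⟩
  filter_upwards [h1, hg] with ε h2 h3
  exact h2.trans h3

/-- the minimum of finitely many masses -/
theorem LowN.all {ι : Type*} (s : Finset ι) {g : ι → ℝ → ℝ} (h : ∀ i ∈ s, LowN (g i)) :
    ∃ c > 0, ∀ᶠ ε : ℝ in 𝓝[>] 0, ∀ i ∈ s, c ≤ g i ε := by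
  induction s using Finset.induction_on with
  | empty => exact ⟨1, one_pos, Eventually.of_forall fun _ i hi => absurd hi (Finset.notMem_empty i)⟩
  | insert a s ha ih =>
    obtain ⟨c, hc, h1⟩ := ih fun i hi => h i (Finset.mem_insert_of_mem hi)
    obtain ⟨c', hc', h2⟩ := h a (Finset.mem_insert_self a s)
    refine ⟨min c c', lt_min hc hc', ?_⟩
    filter_upwards [h1, h2] with ε h3 h4 i hi
    rcases Finset.mem_insert.1 hi with rfl | hi
    · exact (min_le_right _ _).trans h4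
    · exact (min_le_left _ _).trans (h3 i hi)

/-- a null sequence divided by the mass -/
theorem div_tendsto {x g : ℝ → ℝ} (hg : LowN g) (hx : Tendsto x (𝓝[>] 0) (𝓝 0)) :
    Tendsto (fun ε => x ε / g ε) (𝓝[>] 0) (𝓝 0) := by
  obtain ⟨c, hc, h1⟩ := hg
  have h2 : Tendsto (fun ε => |x ε| / c) (𝓝[>] 0) (𝓝 0) := by
    have h3 := hx.abs.div_const c
    rwa [abs_zero, zero_div] at h3
  refine squeeze_zero_norm' ?_ h2
  filter_upwards [h1] with ε h3
  have h4 : 0 < g ε := hc.trans_le h3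
  rw [Real.norm_eq_abs, abs_div, abs_of_pos h4]
  exact div_le_div_of_nonneg_left (abs_nonneg _) hc h3

variable {I : Type} {𝓁 : Filter I}

/-- **error of the mesh divided by the mass** -/
theorem dl_div {x g : I → ℝ → ℝ} (hg : ∀ᶠ N in 𝓁, LowN (g N))
    (hx : ∀ᶠ N in 𝓁, Tendsto (x N) (𝓝[>] 0) (𝓝 0)) : DL 𝓁 fun N ε => x N ε / g N ε := by
  refine dl_mesh ?_
  filter_upwards [hg, hx] with N h1 h2
  exact div_tendsto h1 h2


/-- small probabilities tend to zero -/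
theorem tendsto_real {bad : ℝ → Set Sample}
    (h : ∀ η > 0, ∀ᶠ ε : ℝ in 𝓝[>] 0, sampleLaw (bad ε) ≤ ENNReal.ofReal η) :
    Tendsto (fun ε => sampleLaw.real (bad ε)) (𝓝[>] 0) (𝓝 0) := by
  rw [Metric.tendsto_nhds]
  intro η hη
  filter_upwards [h (η / 2) (by positivity)] with ε h1
  have h2 : sampleLaw.real (bad ε) ≤ η / 2 :=
    ENNReal.toReal_le_of_le_ofReal (by positivity) h1
  rw [Real.dist_eq, sub_zero, abs_of_nonneg measureReal_nonneg]
  linarith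

/-- **probability of the bad environments divided by the mass** -/
theorem dl_bad {g : I → ℝ → ℝ} {bad : I → ℝ → Set Sample} (hg : ∀ᶠ N in 𝓁, LowN (g N))
    (hb : ∀ᶠ N in 𝓁, ∀ η > 0, ∀ᶠ ε : ℝ in 𝓝[>] 0,
      sampleLaw (bad N ε) ≤ ENNReal.ofReal η) :
    DL 𝓁 fun N ε => sampleLaw.real (bad N ε) / g N ε := by
  refine dl_div hg ?_
  filter_upwards [hb] with N h1
  exact tendsto_real h1

end lim

/-! ### the bad set -/

section bad

/-- measurable superset of the same probability -/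
def msb (bad : Set Sample) : Set Sample := toMeasurable sampleLaw bad

theorem msb_meas (bad : Set Sample) : MeasurableSet (msb bad) := measurableSet_toMeasurable _ _

theorem sub_msb (bad : Set Sample) : bad ⊆ msb bad := subset_toMeasurable _ _

theorem msb_eq (bad : Set Sample) : sampleLaw (msb bad) = sampleLaw bad := measure_toMeasurable _

theorem msb_real (bad : Set Sample) : sampleLaw.real (msb bad) = sampleLaw.real bad := by
  unfold Measure.real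
  rw [msb_eq]

/-- bad sets with a rate (653's environments) -/
theorem bad_rate {A : ℝ} (hA : 0 < A) {bad : ℝ → Set Sample}
    (h : ∀ᶠ ε : ℝ in 𝓝[>] 0, sampleLaw (bad ε) ≤ ENNReal.ofReal (ε ^ A)) :
    ∀ η > 0, ∀ᶠ ε : ℝ in 𝓝[>] 0, sampleLaw (bad ε) ≤ ENNReal.ofReal η := by
  intro η hη
  have h1 : Tendsto (fun ε : ℝ => ε ^ A) (𝓝[>] 0) (𝓝 0) := by
    have h2 : Tendsto (fun ε : ℝ => ε ^ A) (𝓝 0) (𝓝 ((0 : ℝ) ^ A)) :=
      (Real.continuousAt_rpow_const 0 A (Or.inr hA.le)).tendsto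
    rw [Real.zero_rpow hA.ne'] at h2
    exact h2.mono_left nhdsWithin_le_nhds
  filter_upwards [h, h1.eventually (ge_mem_nhds hη)] with ε h3 h4
  exact h3.trans (ENNReal.ofReal_le_ofReal h4)

theorem bad_union {B B' : ℝ → Set Sample}
    (h : ∀ η > 0, ∀ᶠ ε : ℝ in 𝓝[>] 0, sampleLaw (B ε) ≤ ENNReal.ofReal η)
    (h' : ∀ η > 0, ∀ᶠ ε : ℝ in 𝓝[>] 0, sampleLaw (B' ε) ≤ ENNReal.ofReal η) :
    ∀ η > 0, ∀ᶠ ε : ℝ in 𝓝[>] 0, sampleLaw (B ε ∪ B' ε) ≤ ENNReal.ofReal η := by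
  intro η hη
  filter_upwards [h (η / 2) (by positivity), h' (η / 2) (by positivity)] with ε h3 h4
  calc sampleLaw (B ε ∪ B' ε) ≤ _ := measure_union_le _ _
    _ ≤ ENNReal.ofReal (η / 2) + ENNReal.ofReal (η / 2) := add_le_add h3 h4
    _ = ENNReal.ofReal η := by
        rw [← ENNReal.ofReal_add (by positivity) (by positivity), add_halves]


end bad

/-! ### the fields of `Env` -/

section env

variable {Ω : Type*} {m0 : MeasurableSpace Ω} {P : Measure Ω}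





variable {bad : Set Ω} {C a2 g0 ρ : ℝ} {G : Ω → ℝ}





/-- **bound of the constant of the straight tile** -/
theorem kappa_le {gv κ z : ℂ} {K : ℝ} (hg : 0 < g0) (mean : gv = (g0 : ℂ) * (κ * z))
    (hn : ‖gv‖ ≤ K * g0) : ‖κ‖ * ‖z‖ ≤ K := by
  rw [mean, norm_mul, norm_mul, Complex.norm_real, Real.norm_of_nonneg hg.le, mul_comm K] at hn
  exact le_of_mul_le_mul_left hn hg


variable {n r : ℕ} {J : Finset ℕ} {t κ : ℂ} {z : ℕ → ℂ}
  {a1 K q q' c θ : ℝ} {gv : ℕ → ℂ}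
  {v : ℕ → Ω → ℂ} {w w2 o na nb : ℕ → Ω → ℝ} {Q Q' E1 E2 dd : Ω → ℝ} {T D : Ω → ℂ}

/-- the same from `Env` -/
theorem env_kappa [IsProbabilityMeasure P]
    (h : Env P n r J t κ z g0 a1 a2 K q q' c θ ρ gv bad G v w w2 o na nb Q Q' E1 E2 dd T D)
    {l : ℕ} (hl : l ∈ J) : ‖κ‖ * ‖z l‖ ≤ K := by
  have hl' := h.J_le hl
  exact kappa_le h.g0_pos (h.mean l hl) ((h.gvn l hl').trans (h.w_int hl').2.1)

end env

end Crest.Agent.R143.LimSx133
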