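import Crest.Agent.R143.MeasD_609
import Crest.Agent.R143.LimS_133
import Crest.Agent.R143.RigD_654
import Crest.Agent.R143.PolyE_854

/-!
# Row 143 (S0194), RIG: instance of `EnvIx279.Inp` and of `RigCx654.EnvX` for the frozen polygons
(helper609)

* `sig_m`, `sig_tI`, `sig_dI` : the mean end points of `PolyM_346` are measurable with respect to
  the points in any `U ⊇ Wn u ε`; `Mb u`, `norm_m`, `norm_tI`, `norm_dI` (`0 < ε ≤ 1`)
* `inp` : `Inp` for 978's weight (133's `gR`) on the region `C`, the window `Wn u ε`, sites in a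
  bounded Borel set
* **`envX_of`** : `Inp` + one inequality per environment (654's `Good`) + errors, moments, mean,
  displacement ⟹ `EnvX om κ (tI (m u)) (dI (m u)) e`
* `l1d_of_lx`, **`rig_t3`** : 654's data in 854's triple limit ⟹ `POLY Poly.T Poly.T'`
-/

set_option autoImplicit false
set_option linter.unusedSectionVars false

noncomputable section

open scoped Classical

namespace Crest.Agent.R143.InpIx609

open MeasureTheory Set Filter Topology
open scoped ENNReal
open Crest.ProbabilityR.Voronoi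
open Crest.Agent.R143.PP0x831 Crest.Agent.R143.Dbl2x609 Crest.Agent.R143.B0x346
open Crest.Agent.R143.MeasPx609 Crest.Agent.R143.MeasDx609
open Crest.Agent.R143.PolyUx346 (Poly)
open Crest.Agent.R143.IndLoc2x279 (sig sig_le sig_mono)
open Crest.Agent.R143.IndLoc3x279 (clr cav)
open Crest.Agent.R143.EnvIx279
open Crest.Agent.R143.CorMx970 (tot)
open Crest.Agent.R143.RigCx654 Crest.Agent.R143.RigDx654
open Crest.Agent.R143.PolySx854 (DL)
open Crest.Agent.R143.PolyEx854 (L1D T3 polyP_of_t3)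
open Crest.Agent.R143.AsmNx758 (POLY)
open Crest.Agent.R143.PWx978 Crest.Agent.R143.LimSx133

/-! ### the mean end points of 346 -/

variable {u : Poly} {ε : ℝ} {U C : Set ℂ}






theorem exists_bd (u : Poly) : ∃ R : ℝ, 0 < R ∧ ∀ ε : ℝ, ε ≤ 1 → ∀ x ∈ Wn u ε, ‖x‖ ≤ R := by
  obtain ⟨R, hR⟩ := (isCompact_P u).isBounded.subset_closedBall 0
  refine ⟨|R| + 101, by positivity, fun ε hε x hx => ?_⟩
  obtain ⟨y, hy, he⟩ := (isCompact_P u).exists_infDist_eq_dist (P_nonempty u) x
  have h1 : dist x y ≤ 100 * √ε := by rw [← he]; exact hx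
  have h2 := hR hy
  rw [Metric.mem_closedBall, dist_zero_right] at h2
  have h3 : √ε ≤ 1 := Real.sqrt_le_one.2 hε
  have h4 : ‖x‖ ≤ ‖y‖ + dist x y := by
    rw [dist_eq_norm]
    have := norm_add_le y (x - y)
    rwa [add_sub_cancel] at this
  have := le_abs_self R
  linarith

/-- a bound of the window -/
def Mb (u : Poly) : ℝ := (exists_bd u).choose

theorem Mb_pos (u : Poly) : 0 < Mb u := (exists_bd u).choose_spec.1

theorem norm_Wn (u : Poly) (hε : ε ≤ 1) {x : ℂ} (hx : x ∈ Wn u ε) : ‖x‖ ≤ Mb u :=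
  (exists_bd u).choose_spec.2 ε hε x hx


theorem norm_om1 : ‖om‖ = 1 := Alg4x133.norm_om




theorem int_of_sig (hε : 0 < ε) (hU : MeasurableSet U) (hUb : Bornology.IsBounded U)
    {X : Sample → ℂ} (hX : Measurable[sig ε U] X) {B : ℝ} (hB : ∀ ω, ‖X ω‖ ≤ B) :
    Integrable X sampleLaw := by
  have : IsProbabilityMeasure sampleLaw := probS
  exact Integrable.of_bound ((hX.mono (sig_le hε hU hUb) le_rfl).aestronglyMeasurable) B
    (ae_of_all _ hB)

/-! ### the instance of `Inp` -/

section inp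

variable {ι κ : Type*}

/-- **`Inp`** for the weight of a net, the window of the polygon, the sites in a bounded set `W` -/
theorem inp (M : Net ε ι κ) {I : Finset ι} {J : Finset κ} (hN : ∀ k ∈ J, M.N k ⊆ I)
    (hU : MeasurableSet U) (hUb : Bornology.IsBounded U) (hd : Disjoint (M.reg I J) U)
    {W : Set ℂ} (hWb : Bornology.IsBounded W) (hCW : M.reg I J ⊆ W) (hUW : U ⊆ W) {n : ℕ}
    {V : ℕ → Set (ℂ × Bool) → ℂ} {a b : Set (ℂ × Bool) → ℕ}
    (Vl : ∀ l ∈ Finset.range n, LocalOn (M.reg I J) (V l))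
    (Vm : ∀ l ∈ Finset.range n, FinMeas (V l))
    (V2 : ∀ l ∈ Finset.range n,
      Integrable (fun ω => gR M I J (cfg ε ω) * ‖V l (cfg ε ω)‖ ^ 2) sampleLaw)
    (al : LocalOn U a) (am : FinMeas a) (bl : LocalOn U b) (bm : FinMeas b) :
    Inp ε (M.reg I J) U n (Ap ε W) (gR M I J) V a b where
  hε := M.eps
  hC := M.reg_meas I J
  hCb := M.reg_bdd I J
  hU := hU
  hUb := hUb
  hd := hd
  hS := ae_of_all _ fun ω => by
    rw [coe_Ap M.eps hWb]
    exact ⟨inter_subset_left, inter_subset_inter_right _ (union_subset hCW hUW)⟩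
  gl := gR_local M hN
  gm := gR_fm M I J
  g0 := gR_nonneg M I J
  g1 := gR_le_one M I J
  Vl := Vl
  Vm := Vm
  V2 := V2
  al := al
  am := am
  bl := bl
  bm := bm

end inp

/-! ### the instance of `EnvX` -/

section env

variable {n r : ℕ} {S : Sample → Finset ℂ} {g : Set (ℂ × Bool) → ℝ}
  {V : ℕ → Set (ℂ × Bool) → ℂ} {a b : Set (ℂ × Bool) → ℕ}


end env

/-! ### phases -/





end Crest.Agent.R143.InpIx609
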