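import Mathlib

/-!
# Row 143 (S0194), CORE-C: abstract assembly of W-MIX (helper970)

* `l1_dual` : `|∫ f X| ≤ e` for all `m`-measurable `f`, `‖f‖ ≤ 1` ⟹ `∫ ‖X‖ ≤ e` (308's weight `f`)
* `Rel3`, `dich_l1` : `L¹` form of the dichotomy (222, 712, 106)
* `poly_min` : one `κ` for two nets, errors `≤ δ` ⟹ `min (E ‖T U‖) (E ‖T' U'‖) ≤ 2 δ`
* `poly_lim` : limit form
* `Cor`, `Cor.concl` : the corridor identity for one net, one type, one weight `f` (W-MIX, decoupling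
  by the same-colour coupling of `U_K` and `U`, 311's message 38310)
-/

set_option autoImplicit false

noncomputable section

open scoped Classical

namespace Crest.Agent.R143.PolyAx970

open MeasureTheory Filter Topology

/-! ### duality -/

section dual

variable {Ω : Type*}

theorem l1_dual {m m0 : MeasurableSpace Ω} {P : Measure[m0] Ω} {X : Ω → ℂ}
    (hX : Measurable[m] X) {e : ℝ}
    (h : ∀ f : Ω → ℂ, Measurable[m] f → (∀ ω, ‖f ω‖ ≤ 1) → ‖∫ ω, f ω * X ω ∂P‖ ≤ e) :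
    ∫ ω, ‖X ω‖ ∂P ≤ e := by
  have h1 := h (fun ω => (starRingEnd ℂ) (X ω) / (‖X ω‖ : ℂ)) ?_ ?_
  · have h2 : (fun ω => (starRingEnd ℂ) (X ω) / (‖X ω‖ : ℂ) * X ω) =
        fun ω => ((‖X ω‖ : ℝ) : ℂ) := by
      funext ω
      by_cases hx : X ω = 0
      · simp [hx]
      · have hn : ((‖X ω‖ : ℝ) : ℂ) ≠ 0 := by
          exact_mod_cast norm_ne_zero_iff.2 hx
        rw [div_mul_eq_mul_div, div_eq_iff hn, mul_comm, Complex.mul_conj, Complex.normSq_eq_norm_sq]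
        push_cast
        ring
    rw [h2, integral_complex_ofReal, Complex.norm_real] at h1
    exact (le_abs_self _).trans h1
  · have hc : Measurable[m] fun ω => (starRingEnd ℂ) (X ω) :=
      (Complex.continuous_conj.measurable).comp hX
    have hn : Measurable[m] fun ω => ((‖X ω‖ : ℝ) : ℂ) :=
      Complex.measurable_ofReal.comp (measurable_norm.comp hX)
    exact hc.div hn
  · intro ω
    rw [norm_div, RCLike.norm_conj, Complex.norm_real, norm_norm]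
    exact div_self_le_one _

end dual

/-! ### the dichotomy in `L¹` -/

section dich

variable {Ω : Type*} [MeasurableSpace Ω] {P : Measure Ω}

/-- data of one net (functions of the environment): totals and mean displacements with the exact
relations (848, 660, 712) -/
structure Rel3 (P : Measure Ω) (w c : ℂ) (T T' : Ω → ℂ) (D : Fin 3 → Ω → ℂ) : Prop where
  r0 : ∀ ω, c * D 0 ω = T' ω - T ω
  r1 : ∀ ω, c * D 1 ω = w * T' ω - w ^ 2 * T ω
  r2 : ∀ ω, c * D 2 ω = w ^ 2 * T' ω - w * T ω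
  intT : Integrable T P
  intT' : Integrable T' P

variable {w c κ : ℂ} {T T' : Ω → ℂ} {D : Fin 3 → Ω → ℂ}







end dich

/-! ### one polygon, one type: the corridor identity -/

section cor

variable {Ω : Type*} {m0 : MeasurableSpace Ω} {P ν : Measure Ω}

theorem int_fm {ν : Measure Ω} {f X : Ω → ℂ} (hf : Measurable f) (hf1 : ∀ ω, ‖f ω‖ ≤ 1)
    (hX : Integrable X ν) : Integrable (fun ω => f ω * X ω) ν :=
  hX.bdd_mul hf.aestronglyMeasurable (ae_of_all _ hf1)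

theorem norm_int_fm {ν : Measure Ω} {f X : Ω → ℂ} (hf1 : ∀ ω, ‖f ω‖ ≤ 1)
    (hX : Integrable X ν) : ‖∫ ω, f ω * X ω ∂ν‖ ≤ ∫ ω, ‖X ω‖ ∂ν := by
  refine (norm_integral_le_integral_norm _).trans ?_
  refine integral_mono_of_nonneg (ae_of_all _ fun _ => norm_nonneg _) hX.norm
    (ae_of_all _ fun ω => ?_)
  simp only
  rw [norm_mul]
  exact mul_le_of_le_one_left (norm_nonneg _) (hf1 ω)

/-- **data of the corridor of one net and one type** for one weight `f` of the points inside.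
`ν` = the law with the corridor weight (`g P`, not normalised), `G` its mass.
`Vβ` closed block, `Vγ` crossing block of `U_K`, `VK` = `V (K[y → x])`, `TK` total of `U_K`,
`T`, `D` total and mean displacement of the polygon `U` (functions of the points),
`V k` = `V (K ∩ tile k)`, `one k` = indicator of `tile k` between the touches `y_U`, `x_U` of the
polygon (function of the inside), `R` = error (partial tiles, tiles between `y` and `y_U`),
`z k` = displacement along the tile `k`, `J` = straight tiles. -/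
structure Cor (P ν : Measure Ω) {ι : Type*} (I J : Finset ι) (t κ : ℂ) (G : ℝ) (f : Ω → ℂ)
    (Vβ Vγ VK TK T D R : Ω → ℂ) (V : ι → Ω → ℂ) (one : ι → Ω → ℝ) (z : ι → ℂ)
    (a1 a2 a3 a4 a5 a6 : ℝ) : Prop where
  JI : J ⊆ I
  Gpos : 0 < G
  tn : ‖t‖ = 1
  fm : Measurable f
  f1 : ∀ ω, ‖f ω‖ ≤ 1
  iβ : Integrable Vβ ν
  iγ : Integrable Vγ ν
  iTK : Integrable TK ν
  iT : Integrable T ν
  iR : Integrable R ν
  i1 : ∀ k ∈ I, Integrable (fun ω => V k ω * one k ω) ν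
  /-- exact closing -/
  close : ∀ᵐ ω ∂ν, Vβ ω = Vγ ω + VK ω
  /-- macroscopic closed blocks are small -/
  small : ∫ ω, ‖Vβ ω‖ ∂ν ≤ a1 * G
  /-- inside is fresh; colour switching -/
  fresh : ∫ ω, f ω * Vγ ω ∂ν = t * ∫ ω, f ω * TK ω ∂ν
  /-- continuity of the total -/
  cont : ∫ ω, ‖TK ω - T ω‖ ∂ν ≤ a2 * G
  /-- the points inside are independent of the corridor -/
  indT : ‖∫ ω, f ω * T ω ∂ν - G * ∫ ω, f ω * T ω ∂P‖ ≤ a3 * G
  /-- splitting of `K` -/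
  split : ∀ᵐ ω ∂ν, VK ω = ∑ k ∈ I, V k ω * one k ω + R ω
  part : ∫ ω, ‖R ω‖ ∂ν ≤ a4 * G
  /-- product law: exact mean for straight tiles, independence of the inside -/
  mean : ∀ k ∈ J, ∫ ω, f ω * (V k ω * one k ω) ∂ν = G * (κ * z k) * ∫ ω, f ω * one k ω ∂P
  /-- corner tiles are small -/
  corner : ∑ k ∈ I \ J, ∫ ω, ‖V k ω * one k ω‖ ∂ν ≤ a5 * G
  /-- displacement -/
  disp : ‖κ‖ * ‖∫ ω, f ω * D ω ∂P - ∑ k ∈ J, z k * ∫ ω, f ω * one k ω ∂P‖ ≤ a6

theorem Cor.concl {ι : Type*} {I J : Finset ι} {t κ : ℂ} {G : ℝ} {f : Ω → ℂ}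
    {Vβ Vγ VK TK T D R : Ω → ℂ} {V : ι → Ω → ℂ} {one : ι → Ω → ℝ} {z : ι → ℂ}
    {a1 a2 a3 a4 a5 a6 : ℝ}
    (h : Cor P ν I J t κ G f Vβ Vγ VK TK T D R V one z a1 a2 a3 a4 a5 a6) :
    ‖t * ∫ ω, f ω * T ω ∂P + κ * ∫ ω, f ω * D ω ∂P‖ ≤ a1 + a2 + a3 + a4 + a5 + a6 := by
  have hG := h.Gpos
  -- splitting
  have hVK : VK =ᵐ[ν] fun ω => Vβ ω - Vγ ω := by
    filter_upwards [h.close] with ω hω
    rw [hω]; ring
  have iVK : Integrable VK ν := (h.iβ.sub h.iγ).congr hVK.symm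
  have e1 : ∫ ω, f ω * Vβ ω ∂ν = ∫ ω, f ω * Vγ ω ∂ν + ∫ ω, f ω * VK ω ∂ν := by
    rw [← integral_add (int_fm h.fm h.f1 h.iγ) (int_fm h.fm h.f1 iVK)]
    refine integral_congr_ae ?_
    filter_upwards [h.close] with ω hω
    rw [hω]; ring
  have e2 : ∫ ω, f ω * VK ω ∂ν =
      ∑ k ∈ I, ∫ ω, f ω * (V k ω * one k ω) ∂ν + ∫ ω, f ω * R ω ∂ν := by
    rw [← integral_finsetSum _ fun k hk => int_fm h.fm h.f1 (h.i1 k hk),
      ← integral_add (integrable_finsetSum _ fun k hk => int_fm h.fm h.f1 (h.i1 k hk))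
        (int_fm h.fm h.f1 h.iR)]
    refine integral_congr_ae ?_
    filter_upwards [h.split] with ω hω
    rw [hω, mul_add, Finset.mul_sum]
  -- bounds
  have b1 : ‖∫ ω, f ω * Vβ ω ∂ν‖ ≤ a1 * G := (norm_int_fm h.f1 h.iβ).trans h.small
  have b2 : ‖∫ ω, f ω * TK ω ∂ν - ∫ ω, f ω * T ω ∂ν‖ ≤ a2 * G := by
    rw [← integral_sub (int_fm h.fm h.f1 h.iTK) (int_fm h.fm h.f1 h.iT)]
    have : (fun ω => f ω * TK ω - f ω * T ω) = fun ω => f ω * (TK ω - T ω) := by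
      funext ω; ring
    rw [this]
    exact (norm_int_fm h.f1 (h.iTK.sub h.iT)).trans h.cont
  have b4 : ‖∫ ω, f ω * R ω ∂ν‖ ≤ a4 * G := (norm_int_fm h.f1 h.iR).trans h.part
  have e6 : ∑ k ∈ I, ∫ ω, f ω * (V k ω * one k ω) ∂ν =
      ∑ k ∈ I \ J, ∫ ω, f ω * (V k ω * one k ω) ∂ν +
        ∑ k ∈ J, ∫ ω, f ω * (V k ω * one k ω) ∂ν :=
    (Finset.sum_sdiff h.JI).symm
  have b6 : ‖∑ k ∈ I \ J, ∫ ω, f ω * (V k ω * one k ω) ∂ν‖ ≤ a5 * G := by
    refine (norm_sum_le _ _).trans (le_trans (Finset.sum_le_sum (g := fun k =>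
      ∫ ω, ‖V k ω * one k ω‖ ∂ν) fun k hk => ?_) h.corner)
    exact norm_int_fm h.f1 (h.i1 k (Finset.mem_sdiff.1 hk).1)
  have e7 : ∑ k ∈ J, ∫ ω, f ω * (V k ω * one k ω) ∂ν =
      G * (κ * ∑ k ∈ J, z k * ∫ ω, f ω * one k ω ∂P) := by
    rw [Finset.mul_sum, Finset.mul_sum]
    refine Finset.sum_congr rfl fun k hk => ?_
    rw [h.mean k hk]; ring
  set A := ∫ ω, f ω * T ω ∂P with hA
  set B := ∫ ω, f ω * D ω ∂P with hB
  set S := ∑ k ∈ J, z k * ∫ ω, f ω * one k ω ∂P with hS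
  set TKi := ∫ ω, f ω * TK ω ∂ν with hTKi
  set Ti := ∫ ω, f ω * T ω ∂ν with hTi
  set Bi := ∫ ω, f ω * Vβ ω ∂ν with hBi
  set Ri := ∫ ω, f ω * R ω ∂ν with hRi
  set O1 := ∑ k ∈ I, ∫ ω, f ω * (V k ω * one k ω) ∂ν with hO1
  set C6 := ∑ k ∈ I \ J, ∫ ω, f ω * (V k ω * one k ω) ∂ν with hC6
  have e3 : Bi = t * TKi + (O1 + Ri) := by rw [e1, h.fresh, e2]
  have h7 : O1 = C6 + G * (κ * S) := by rw [e6, e7]
  have key : (G : ℂ) * (t * A + κ * B) =
      Bi - t * (TKi - Ti) - t * (Ti - G * A) - Ri - C6 + G * (κ * (B - S)) := by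
    rw [e3]
    linear_combination -h7
  have b7 : ‖(G : ℂ) * (κ * (B - S))‖ ≤ a6 * G := by
    rw [norm_mul, norm_mul, Complex.norm_real, Real.norm_of_nonneg hG.le, mul_comm]
    exact mul_le_mul_of_nonneg_right h.disp hG.le
  have c2 : ‖t * (TKi - Ti)‖ ≤ a2 * G := by rw [norm_mul, h.tn, one_mul]; exact b2
  have c3 : ‖t * (Ti - G * A)‖ ≤ a3 * G := by rw [norm_mul, h.tn, one_mul]; exact h.indT
  have tot : ‖(G : ℂ) * (t * A + κ * B)‖ ≤ (a1 + a2 + a3 + a4 + a5 + a6) * G := by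
    rw [key]
    have n1 := norm_add_le (Bi - t * (TKi - Ti) - t * (Ti - G * A) - Ri - C6)
      (G * (κ * (B - S)))
    have n2 := norm_sub_le (Bi - t * (TKi - Ti) - t * (Ti - G * A) - Ri) C6
    have n4 := norm_sub_le (Bi - t * (TKi - Ti) - t * (Ti - G * A)) Ri
    have n5 := norm_sub_le (Bi - t * (TKi - Ti)) (t * (Ti - G * A))
    have n6 := norm_sub_le Bi (t * (TKi - Ti))
    linarith
  rw [norm_mul, Complex.norm_real, Real.norm_of_nonneg hG.le, mul_comm] at tot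
  exact le_of_mul_le_mul_right tot hG

end cor

end Crest.Agent.R143.PolyAx970
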