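import Crest.Agent.R143.Alg4_133
import Crest.Agent.R143.AsmO_758
import Crest.Agent.R143.PolyA_970

-- ▼ part R143/PolyQ_854
section

/-!
# Row 143 (S0194), CORE-C, box R9, last layer (helper854): quantifiers and dichotomy, output `POLY`

`T, T' : U → ℝ → Sample → ℂ` totals of the polygons (small and big field), `D` mean displacements of
the root blocks of the three types, `κ` the constant of the corridor (may depend on the mesh `ε`, on
the width of the corridor, on the finite set of polygons and on the precision).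

* `RIGP T D` : in probability; `poly_of_p : RIGP T D → (Rl a.s.) → POLY T T'`
* `RIGL T D` : in `L¹` on a good event; `rigp_of_l`
* `RIGS T D` : `L¹` on a good event, with the width `s` of the corridor; `rigl_of_s`
* `l1_of_weights` : `|∫ f X| ≤ e` for all weights `|f| ≤ 1` (308) gives `∫ |X| ≤ e`
* `RIGF T D` : with weights; `rigs_of_f`
* `poly_smul`, `poly_near`, `poly_map` : change of normalisation, of the sequence, of the index set
-/

set_option autoImplicit false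

noncomputable section

open scoped Classical

namespace Crest.Agent.R143.PolyQx854

open Complex Set Filter Topology MeasureTheory
open scoped ENNReal
open Crest.ProbabilityR.Voronoi
open Crest.Agent.R143.B0x346 Crest.Agent.R143.PP1x831
open Crest.Agent.R143.DefsNx346 (hi)
open Crest.Agent.R143.Alg4x133 (Rl alt norm_hi)
open Crest.Agent.R143.AsmNx758 (POLY)

variable {U U' V V' : Type}

/-! ### the algebra for one environment -/

/-- one of the two alternatives, with the same `κ` for all nets -/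
theorem alt_cases (κ : ℂ) : Real.sqrt 3 / 2 ≤ ‖2 * hi - κ‖ ∨ Real.sqrt 3 / 2 ≤ ‖κ‖ := by
  by_contra h
  push Not at h
  have h1 := norm_add_le (2 * hi - κ) κ
  rw [sub_add_cancel, norm_hi] at h1
  linarith [h.1, h.2]

theorem sqrt3_pos : (0 : ℝ) < Real.sqrt 3 := Real.sqrt_pos.2 (by norm_num)

theorem alt_a {a b κ : ℂ} {D : ZMod 3 → ℂ} {η : ℝ} (hD : Rl a b D)
    (h : ∀ k : ZMod 3, ‖omz k ^ 2 * a - κ * D k‖ ≤ η) (hκ : Real.sqrt 3 / 2 ≤ ‖2 * hi - κ‖) :
    ‖a‖ ≤ 2 * η := by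
  have h1 := (alt hD h).1
  rw [norm_mul] at h1
  have hs := sqrt3_pos
  have h2 : Real.sqrt 3 / 2 * ‖a‖ ≤ Real.sqrt 3 * η :=
    (mul_le_mul_of_nonneg_right hκ (norm_nonneg _)).trans h1
  by_contra hcon
  push Not at hcon
  nlinarith

theorem alt_b {a b κ : ℂ} {D : ZMod 3 → ℂ} {η : ℝ} (hD : Rl a b D)
    (h : ∀ k : ZMod 3, ‖omz k ^ 2 * a - κ * D k‖ ≤ η) (hκ : Real.sqrt 3 / 2 ≤ ‖κ‖) :
    ‖b‖ ≤ 2 * η := by
  have h1 := (alt hD h).2
  rw [norm_mul] at h1
  have hs := sqrt3_pos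
  have h2 : Real.sqrt 3 / 2 * ‖b‖ ≤ Real.sqrt 3 * η :=
    (mul_le_mul_of_nonneg_right hκ (norm_nonneg _)).trans h1
  by_contra hcon
  push Not at hcon
  nlinarith

/-! ### in probability -/

/-- **RIG in probability**: same `κ` for the polygons of a finite set -/
def RIGP (T : U → ℝ → Sample → ℂ) (D : U → ℝ → Sample → ZMod 3 → ℂ) : Prop :=
  ∀ F : Finset U, ∀ η > 0, ∀ᶠ ε : ℝ in 𝓝[>] 0, ∃ κ : ℂ, ∀ u ∈ F, ∀ k : ZMod 3,
    sampleLaw {ω | η < ‖omz k ^ 2 * T u ε ω - κ * D u ε ω k‖} ≤ ENNReal.ofReal η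

/-- the exact relation holds with probability tending to one -/
def RLP (T T' : U → ℝ → Sample → ℂ) (D : U → ℝ → Sample → ZMod 3 → ℂ) : Prop :=
  ∀ u : U, ∀ η > 0, ∀ᶠ ε : ℝ in 𝓝[>] 0,
    sampleLaw {ω | ¬ Rl (T u ε ω) (T' u ε ω) (D u ε ω)} ≤ ENNReal.ofReal η

theorem z3 (k : ZMod 3) : k = 0 ∨ k = 1 ∨ k = 2 := by
  revert k; decide

theorem bad_le {P : Measure Sample} {A B0 B1 B2 R : Set Sample} {η : ℝ} (hη : 0 ≤ η)
    (hA : A ⊆ (B0 ∪ B1) ∪ (B2 ∪ R)) (h0 : P B0 ≤ ENNReal.ofReal (η / 4))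
    (h1 : P B1 ≤ ENNReal.ofReal (η / 4)) (h2 : P B2 ≤ ENNReal.ofReal (η / 4))
    (hR : P R ≤ ENNReal.ofReal (η / 4)) : P A ≤ ENNReal.ofReal η := by
  have e : η = (η / 4 + η / 4) + (η / 4 + η / 4) := by ring
  calc P A ≤ P ((B0 ∪ B1) ∪ (B2 ∪ R)) := measure_mono hA
    _ ≤ (P B0 + P B1) + (P B2 + P R) :=
        (measure_union_le _ _).trans (add_le_add (measure_union_le _ _) (measure_union_le _ _))
    _ ≤ (ENNReal.ofReal (η / 4) + ENNReal.ofReal (η / 4)) +
          (ENNReal.ofReal (η / 4) + ENNReal.ofReal (η / 4)) :=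
        add_le_add (add_le_add h0 h1) (add_le_add h2 hR)
    _ = ENNReal.ofReal η := by
        rw [← ENNReal.ofReal_add (by positivity) (by positivity),
          ← ENNReal.ofReal_add (by positivity) (by positivity), ← e]

/-- **POLY from RIG in probability** -/
theorem poly_of_p {T T' : U → ℝ → Sample → ℂ} {D : U → ℝ → Sample → ZMod 3 → ℂ}
    (h : RIGP T D) (hR : RLP T T' D) : POLY T T' := by
  intro u u' η hη
  have hη4 : 0 < η / 4 := by linarith
  filter_upwards [h {u, u'} (η / 4) hη4, hR u (η / 4) hη4, hR u' (η / 4) hη4] with ε h1 h2 h3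
  obtain ⟨κ, hκ⟩ := h1
  have key : ∀ v ∈ ({u, u'} : Finset U), ∀ X : Sample → ℂ, (∀ ω, Rl (T v ε ω) (T' v ε ω) (D v ε ω) →
      (∀ k : ZMod 3, ‖omz k ^ 2 * T v ε ω - κ * D v ε ω k‖ ≤ η / 4) → ‖X ω‖ ≤ 2 * (η / 4)) →
      sampleLaw {ω | ¬ Rl (T v ε ω) (T' v ε ω) (D v ε ω)} ≤ ENNReal.ofReal (η / 4) →
      sampleLaw {ω | η < ‖X ω‖} ≤ ENNReal.ofReal η := by
    intro v hv X hX hRv
    refine bad_le hη.le ?_ (hκ v hv 0) (hκ v hv 1) (hκ v hv 2) hRv
    intro ω hω
    by_contra hcon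
    simp only [mem_union, not_or, mem_ofPred_eq, not_lt, not_not] at hcon hω
    obtain ⟨⟨c0, c1⟩, c2, c3⟩ := hcon
    have h4 := hX ω c3 fun k => by
      rcases z3 k with rfl | rfl | rfl
      · exact c0
      · exact c1
      · exact c2
    linarith
  rcases alt_cases κ with hc | hc
  · left
    exact key u (by simp) (fun ω => T u ε ω) (fun ω h5 h6 => alt_a h5 h6 hc) h2
  · right
    exact key u' (by simp) (fun ω => T' u' ε ω) (fun ω h5 h6 => alt_b h5 h6 hc) h3

/-! ### changes of the sequence -/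

theorem poly_near {T T1 : U → ℝ → Sample → ℂ} {T' T1' : U' → ℝ → Sample → ℂ}
    (h : POLY T T') (h1 : ∀ u, ∀ η > 0, ∀ᶠ ε : ℝ in 𝓝[>] 0,
      sampleLaw {ω | η < ‖T1 u ε ω - T u ε ω‖} ≤ ENNReal.ofReal η)
    (h2 : ∀ u, ∀ η > 0, ∀ᶠ ε : ℝ in 𝓝[>] 0,
      sampleLaw {ω | η < ‖T1' u ε ω - T' u ε ω‖} ≤ ENNReal.ofReal η) : POLY T1 T1' := by
  intro u u' η hη
  have hη2 : 0 < η / 2 := by linarith
  filter_upwards [h u u' (η / 2) hη2, h1 u (η / 2) hη2, h2 u' (η / 2) hη2] with ε a1 a2 a3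
  have key : ∀ X Y : Sample → ℂ, sampleLaw {ω | η / 2 < ‖X ω‖} ≤ ENNReal.ofReal (η / 2) →
      sampleLaw {ω | η / 2 < ‖Y ω - X ω‖} ≤ ENNReal.ofReal (η / 2) →
      sampleLaw {ω | η < ‖Y ω‖} ≤ ENNReal.ofReal η := by
    intro X Y hX hY
    have hsub : {ω | η < ‖Y ω‖} ⊆ {ω | η / 2 < ‖X ω‖} ∪ {ω | η / 2 < ‖Y ω - X ω‖} := by
      intro ω hω
      by_contra hcon
      simp only [mem_union, not_or, mem_ofPred_eq, not_lt] at hcon hω
      have := norm_add_le (Y ω - X ω) (X ω)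
      rw [sub_add_cancel] at this
      linarith [hcon.1, hcon.2]
    calc sampleLaw {ω | η < ‖Y ω‖} ≤ _ := measure_mono hsub
      _ ≤ _ := measure_union_le _ _
      _ ≤ ENNReal.ofReal (η / 2) + ENNReal.ofReal (η / 2) := add_le_add hX hY
      _ = ENNReal.ofReal η := by
          rw [← ENNReal.ofReal_add (by positivity) (by positivity), add_halves]
  rcases a1 with a1 | a1
  · exact Or.inl (key _ _ a1 a2)
  · exact Or.inr (key _ _ a1 a3)

/-- change of normalisation -/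
theorem poly_smul {T : U → ℝ → Sample → ℂ} {T' : U' → ℝ → Sample → ℂ} (h : POLY T T')
    (c c' : ℂ) : POLY (fun u ε ω => c * T u ε ω) (fun u ε ω => c' * T' u ε ω) := by
  intro u u' η hη
  set A : ℝ := 1 + ‖c‖ + ‖c'‖ with hA
  have hA1 : 1 ≤ A := by have := norm_nonneg c; have := norm_nonneg c'; linarith
  have hA0 : 0 < A := by linarith
  have hle : η / A ≤ η := div_le_self hη.le hA1
  have key : ∀ (q : ℂ) (X : Sample → ℂ), ‖q‖ ≤ A →
      sampleLaw {ω | η / A < ‖X ω‖} ≤ ENNReal.ofReal (η / A) →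
      sampleLaw {ω | η < ‖q * X ω‖} ≤ ENNReal.ofReal η := by
    intro q X hq hX
    refine (measure_mono fun ω hω => ?_).trans (hX.trans (ENNReal.ofReal_le_ofReal hle))
    simp only [mem_ofPred_eq] at hω ⊢
    rw [norm_mul] at hω
    rw [div_lt_iff₀ hA0]
    have := mul_le_mul_of_nonneg_right hq (norm_nonneg (X ω))
    linarith
  filter_upwards [h u u' (η / A) (by positivity)] with ε h1
  rcases h1 with h1 | h1
  · exact Or.inl (key c _ (by have := norm_nonneg c'; linarith) h1)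
  · exact Or.inr (key c' _ (by have := norm_nonneg c; linarith) h1)


/-! ### in `L¹` -/


theorem markov {G : Set Sample} (hG : MeasurableSet G) {X : Sample → ℂ}
    (hX : AEMeasurable X (sampleLaw.restrict G)) {η θ : ℝ} (hη : 0 < η) (hθ0 : 0 ≤ θ)
    (h1 : sampleLaw Gᶜ ≤ ENNReal.ofReal θ)
    (h2 : ∫⁻ ω in G, ‖X ω‖ₑ ∂sampleLaw ≤ ENNReal.ofReal θ) (hθ : θ + θ / η ≤ η) :
    sampleLaw {ω | η < ‖X ω‖} ≤ ENNReal.ofReal η := by
  have h3 := mul_meas_ge_le_lintegral₀ hX.enorm (ENNReal.ofReal η)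
  have h4 : sampleLaw.restrict G {ω | ENNReal.ofReal η ≤ ‖X ω‖ₑ} ≤ ENNReal.ofReal (θ / η) := by
    rw [ENNReal.ofReal_div_of_pos hη, ENNReal.le_div_iff_mul_le
      (Or.inl (ENNReal.ofReal_pos.2 hη).ne') (Or.inl ENNReal.ofReal_ne_top), mul_comm]
    exact h3.trans h2
  have h5 : {ω | η < ‖X ω‖} ⊆ Gᶜ ∪ ({ω | ENNReal.ofReal η ≤ ‖X ω‖ₑ} ∩ G) := by
    intro ω hω
    by_cases hg : ω ∈ G
    · refine Or.inr ⟨?_, hg⟩
      simp only [mem_ofPred_eq] at hω ⊢
      rw [← ofReal_norm]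
      exact ENNReal.ofReal_le_ofReal hω.le
    · exact Or.inl hg
  calc sampleLaw {ω | η < ‖X ω‖} ≤ _ := measure_mono h5
    _ ≤ sampleLaw Gᶜ + sampleLaw ({ω | ENNReal.ofReal η ≤ ‖X ω‖ₑ} ∩ G) := measure_union_le _ _
    _ ≤ ENNReal.ofReal θ + ENNReal.ofReal (θ / η) := by
        refine add_le_add h1 ?_
        rw [← Measure.restrict_apply' hG]
        exact h4
    _ = ENNReal.ofReal (θ + θ / η) := (ENNReal.ofReal_add hθ0 (by positivity)).symm
    _ ≤ ENNReal.ofReal η := ENNReal.ofReal_le_ofReal hθ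




/-! ### weights -/










end Crest.Agent.R143.PolyQx854
end
end

-- ▼ part R143/PolyR_854
section

/-!
# Row 143 (S0194), CORE-C, box R9 (helper854): from 970's corridor data `Cor` to `POLY`

* `Cdat P t κ f T D e` : some corridor data `Cor` (970) for the net with total `T`, mean displacement
  `D`, phase `t`, weight `f`, with the sum of the six errors `≤ e`
* `Crr Ps κ m T D e` : on a bigger probability space (two colourings, coins ..) with projection `π` to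
  `Sample`: `Cdat` for every `m`-measurable weight `f`, `‖f‖ ≤ 1`; `Crr.l1` : `∫ ‖t T + κ D‖ ≤ e`
* `CORH T D` : for every finite set of polygons and every precision `η`, eventually in the mesh there is
  ONE `κ` which serves all polygons of the set and the three types
* `poly_of_cor` : `CORH T D → RLP T T' D → POLY T T'`
* `poly_of_corI` : the same with totals cut off outside of good sets of environments
-/

set_option autoImplicit false

noncomputable section

open scoped Classical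

namespace Crest.Agent.R143.PolyRx854

open Complex Set Filter Topology MeasureTheory
open scoped ENNReal
open Crest.ProbabilityR.Voronoi
open Crest.Agent.R143.B0x346 Crest.Agent.R143.PP1x831
open Crest.Agent.R143.DefsNx346 (hi)
open Crest.Agent.R143.Alg4x133 (Rl norm_omz)
open Crest.Agent.R143.AsmNx758 (POLY)
open Crest.Agent.R143.PolyAx970 (Cor l1_dual)
open Crest.Agent.R143.PolyQx854

/-! ### one net, one type, one mesh -/

section one

variable {Ω : Type} [MeasurableSpace Ω]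

/-- corridor data with total error `≤ e` -/
def Cdat (P : Measure Ω) (t κ : ℂ) (f T D : Ω → ℂ) (e : ℝ) : Prop :=
  ∃ (ν : Measure Ω) (ι : Type) (I J : Finset ι) (G : ℝ) (Vβ Vγ VK TK R : Ω → ℂ) (V : ι → Ω → ℂ)
    (one : ι → Ω → ℝ) (z : ι → ℂ) (a1 a2 a3 a4 a5 a6 : ℝ),
    Cor P ν I J t κ G f Vβ Vγ VK TK T D R V one z a1 a2 a3 a4 a5 a6 ∧
      a1 + a2 + a3 + a4 + a5 + a6 ≤ e

theorem Cdat.le {P : Measure Ω} {t κ : ℂ} {f T D : Ω → ℂ} {e : ℝ} (h : Cdat P t κ f T D e) :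
    ‖t * ∫ ω, f ω * T ω ∂P + κ * ∫ ω, f ω * D ω ∂P‖ ≤ e := by
  obtain ⟨ν, ι, I, J, G, Vβ, Vγ, VK, TK, R, V, one, z, a1, a2, a3, a4, a5, a6, h1, h2⟩ := h
  exact h1.concl.trans h2

end one

/-- the σ-algebra of `Sample` -/
@[reducible] def amb : MeasurableSpace Sample := inferInstance

/-- integrable for `sampleLaw` -/
def IntS (T : Sample → ℂ) : Prop := Integrable T sampleLaw

/-- projection to `Sample` -/
def Prj {Ω : Type} [MeasurableSpace Ω] (P : Measure Ω) (π : Ω → Sample) : Prop :=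
  MeasurePreserving π P sampleLaw

theorem Prj.int {Ω : Type} [MeasurableSpace Ω] {P : Measure Ω} {π : Ω → Sample} (h : Prj P π)
    {F : Sample → ℂ} (hF : IntS F) : ∫ w, F (π w) ∂P = ∫ ω, F ω ∂sampleLaw := by
  have h' : MeasurePreserving π P sampleLaw := h
  have hF' : Integrable F sampleLaw := hF
  rw [← h'.map_eq, integral_map h'.measurable.aemeasurable]
  rw [h'.map_eq]
  exact hF'.aestronglyMeasurable

/-- corridor data on a bigger space `Ω` with projection to `Sample`, for all weights which are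
functions of the points inside (`m` = σ-algebra of the points inside, on `Sample`) -/
structure Crr (t κ : ℂ) (m : MeasurableSpace Sample) (T D : Sample → ℂ) (e : ℝ) : Prop where
  mT : Measurable[m] T
  mD : Measurable[m] D
  le : m ≤ amb
  iT : IntS T
  iD : IntS D
  ex : ∀ f : Sample → ℂ, Measurable[m] f → (∀ ω, ‖f ω‖ ≤ 1) →
    ∃ (Ω : Type) (_ : MeasurableSpace Ω) (P : Measure Ω) (π : Ω → Sample),
      Prj P π ∧ Cdat P t κ (fun w => f (π w)) (fun w => T (π w)) (fun w => D (π w)) e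

theorem Crr.l1 {t κ : ℂ} {m : MeasurableSpace Sample} {T D : Sample → ℂ} {e : ℝ}
    (h : Crr t κ m T D e) : ∫ ω, ‖t * T ω + κ * D ω‖ ∂sampleLaw ≤ e := by
  refine l1_dual (m := m) ((h.mT.const_mul t).add (h.mD.const_mul κ)) fun f hf hf1 => ?_
  have hf' : @Measurable _ _ amb _ f := hf.mono h.le le_rfl
  obtain ⟨Ω, mΩ, P, π, hπ, hC⟩ := h.ex f hf hf1
  have h1 := hC.le
  have iT : Integrable (fun ω => f ω * T ω) sampleLaw := PolyAx970.int_fm hf' hf1 h.iT
  have iD : Integrable (fun ω => f ω * D ω) sampleLaw := PolyAx970.int_fm hf' hf1 h.iD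
  have e1 : ∫ w, f (π w) * T (π w) ∂P = ∫ ω, f ω * T ω ∂sampleLaw :=
    Prj.int (F := fun ω => f ω * T ω) hπ iT
  have e2 : ∫ w, f (π w) * D (π w) ∂P = ∫ ω, f ω * D ω ∂sampleLaw :=
    Prj.int (F := fun ω => f ω * D ω) hπ iD
  rw [e1, e2] at h1
  change ‖∫ ω, f ω * (t * T ω + κ * D ω) ∂sampleLaw‖ ≤ e
  have e3 : ∫ ω, f ω * (t * T ω + κ * D ω) ∂sampleLaw =
      t * ∫ ω, f ω * T ω ∂sampleLaw + κ * ∫ ω, f ω * D ω ∂sampleLaw := by
    rw [← integral_const_mul, ← integral_const_mul,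
      ← integral_add (iT.const_mul t) (iD.const_mul κ)]
    refine integral_congr_ae (ae_of_all _ fun ω => ?_)
    simp only
    ring
  rw [e3]
  exact h1

/-! ### quantifiers -/

variable {U U' : Type}




/-! ### cut off at good environments -/




end Crest.Agent.R143.PolyRx854
end
end

-- ▼ part R143/PolyS_854

/-!
# Row 143 (S0194), CORE-C, box R9 (helper854): one polygon at a time, double limit

* `CrG t κ m G T D e` : corridor data on a bigger space, for the weights `f` (functions of the points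
  inside) which vanish off the good set `G`; `CrG.l1 : ∫ ω in G, ‖t T + κ D‖ ≤ e`
* `DL 𝓁 a` : `a N ε` is small for the width `N` and then the mesh `ε → 0` (calculus of errors)
* `CORN 𝓁 κ m T D` : for ONE polygon: for every precision, eventually in the width `N` (filter `𝓁`),
  eventually in the mesh, a good set and `CrG` with the constant `κ N ε` (independent of the polygon)
* `poly_of_n : CORN → RLP → POLY`
-/

set_option autoImplicit false

noncomputable section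

open scoped Classical

namespace Crest.Agent.R143.PolySx854

open Complex Set Filter Topology MeasureTheory
open scoped ENNReal
open Crest.ProbabilityR.Voronoi
open Crest.Agent.R143.B0x346 Crest.Agent.R143.PP1x831
open Crest.Agent.R143.DefsNx346 (hi)
open Crest.Agent.R143.Alg4x133 (Rl norm_omz)
open Crest.Agent.R143.AsmNx758 (POLY)
open Crest.Agent.R143.PolyAx970 (Cor l1_dual)
open Crest.Agent.R143.PolyQx854 Crest.Agent.R143.PolyRx854

/-! ### weights which vanish off a good set -/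

/-- corridor data for the weights (functions of the points inside) which vanish off the good set -/
structure CrG (t κ : ℂ) (m : MeasurableSpace Sample) (G : Set Sample) (T D : Sample → ℂ) (e : ℝ) :
    Prop where
  mT : Measurable[m] T
  mD : Measurable[m] D
  mG : MeasurableSet[m] G
  le : m ≤ amb
  iT : IntS T
  iD : IntS D
  ex : ∀ f : Sample → ℂ, Measurable[m] f → (∀ ω, ‖f ω‖ ≤ 1) → (∀ ω, ω ∉ G → f ω = 0) →
    ∃ (Ω : Type) (_ : MeasurableSpace Ω) (P : Measure Ω) (π : Ω → Sample),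
      Prj P π ∧ Cdat P t κ (fun w => f (π w)) (fun w => T (π w)) (fun w => D (π w)) e

theorem ind_mul (G : Set Sample) (f X : Sample → ℂ) :
    (fun ω => f ω * G.indicator X ω) = fun ω => G.indicator f ω * X ω := by
  funext ω
  by_cases h : ω ∈ G
  · simp [h]
  · simp [h]

theorem CrG.l1 {t κ : ℂ} {m : MeasurableSpace Sample} {G : Set Sample} {T D : Sample → ℂ} {e : ℝ}
    (h : CrG t κ m G T D e) :
    ∫ ω, ‖G.indicator (fun ω => t * T ω + κ * D ω) ω‖ ∂sampleLaw ≤ e := by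
  refine l1_dual (m := m) (((h.mT.const_mul t).add (h.mD.const_mul κ)).indicator h.mG)
    fun f hf hf1 => ?_
  have hg : Measurable[m] (G.indicator f) := hf.indicator h.mG
  have hg1 : ∀ ω, ‖G.indicator f ω‖ ≤ 1 := fun ω => by
    by_cases hω : ω ∈ G
    · rw [indicator_of_mem hω]; exact hf1 ω
    · rw [indicator_of_notMem hω, norm_zero]; exact zero_le_one
  have hg' : @Measurable _ _ amb _ (G.indicator f) := hg.mono h.le le_rfl
  obtain ⟨Ω, mΩ, P, π, hπ, hC⟩ := h.ex (G.indicator f) hg hg1 fun ω hω => indicator_of_notMem hω f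
  have h1 := hC.le
  have iT : Integrable (fun ω => G.indicator f ω * T ω) sampleLaw :=
    PolyAx970.int_fm hg' hg1 h.iT
  have iD : Integrable (fun ω => G.indicator f ω * D ω) sampleLaw :=
    PolyAx970.int_fm hg' hg1 h.iD
  have e1 : ∫ w, G.indicator f (π w) * T (π w) ∂P = ∫ ω, G.indicator f ω * T ω ∂sampleLaw :=
    Prj.int (F := fun ω => G.indicator f ω * T ω) hπ iT
  have e2 : ∫ w, G.indicator f (π w) * D (π w) ∂P = ∫ ω, G.indicator f ω * D ω ∂sampleLaw :=
    Prj.int (F := fun ω => G.indicator f ω * D ω) hπ iD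
  rw [e1, e2] at h1
  change ‖∫ ω, f ω * G.indicator (fun ω => t * T ω + κ * D ω) ω ∂sampleLaw‖ ≤ e
  rw [ind_mul]
  have e3 : ∫ ω, G.indicator f ω * (t * T ω + κ * D ω) ∂sampleLaw =
      t * ∫ ω, G.indicator f ω * T ω ∂sampleLaw + κ * ∫ ω, G.indicator f ω * D ω ∂sampleLaw := by
    rw [← integral_const_mul, ← integral_const_mul,
      ← integral_add (iT.const_mul t) (iD.const_mul κ)]
    refine integral_congr_ae (ae_of_all _ fun ω => ?_)
    simp only
    ring
  rw [e3]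
  exact h1

/-- in the form of `RIGP` -/
theorem prob_of {t κ : ℂ} {m : MeasurableSpace Sample} {G : Set Sample} {T D : Sample → ℂ}
    {η θ : ℝ} (h : CrG t κ m G T D θ) (hη : 0 < η) (hθ0 : 0 ≤ θ)
    (h1 : sampleLaw Gᶜ ≤ ENNReal.ofReal θ) (hθ : θ + θ / η ≤ η) :
    sampleLaw {ω | η < ‖t * T ω - -κ * D ω‖} ≤ ENNReal.ofReal η := by
  have hG : @MeasurableSet _ amb G := h.le _ h.mG
  have iX : IntS (fun ω => t * T ω - -κ * D ω) := by
    have iT : Integrable T sampleLaw := h.iT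
    have iD : Integrable D sampleLaw := h.iD
    exact (iT.const_mul _).sub (iD.const_mul _)
  have h3 := h.l1
  have key : ∫⁻ ω in G, ‖t * T ω - -κ * D ω‖ₑ ∂sampleLaw ≤ ENNReal.ofReal θ := by
    have iX' : Integrable (fun ω => t * T ω - -κ * D ω) sampleLaw := iX
    have h5 := ofReal_integral_norm_eq_lintegral_enorm (iX'.restrict (s := G))
    rw [← h5]
    refine ENNReal.ofReal_le_ofReal (le_trans (le_of_eq ?_) h3)
    rw [← integral_indicator hG]
    refine integral_congr_ae (ae_of_all _ fun ω => ?_)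
    by_cases hω : ω ∈ G
    · simp only [indicator_of_mem hω]
      congr 1
      ring
    · simp [indicator_of_notMem hω]
  have iX' : Integrable (fun ω => t * T ω - -κ * D ω) sampleLaw := iX
  exact markov hG iX'.aestronglyMeasurable.aemeasurable.restrict hη hθ0 h1 key hθ

/-! ### double limit -/

section dl

variable {I : Type}

/-- `a N ε` is small: first the width (filter `𝓁`), then the mesh `ε → 0` -/
def DL (𝓁 : Filter I) (a : I → ℝ → ℝ) : Prop :=
  ∀ η > 0, ∀ᶠ N in 𝓁, ∀ᶠ ε : ℝ in 𝓝[>] 0, a N ε ≤ η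

theorem DL.mono {𝓁 : Filter I} {a b : I → ℝ → ℝ} (h : DL 𝓁 b)
    (hab : ∀ᶠ N in 𝓁, ∀ᶠ ε : ℝ in 𝓝[>] 0, a N ε ≤ b N ε) : DL 𝓁 a := by
  intro η hη
  filter_upwards [h η hη, hab] with N h1 h2
  filter_upwards [h1, h2] with ε h3 h4
  exact h4.trans h3

theorem DL.add {𝓁 : Filter I} {a b : I → ℝ → ℝ} (ha : DL 𝓁 a) (hb : DL 𝓁 b) :
    DL 𝓁 fun N ε => a N ε + b N ε := by
  intro η hη
  filter_upwards [ha (η / 2) (by linarith), hb (η / 2) (by linarith)] with N h1 h2
  filter_upwards [h1, h2] with ε h3 h4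
  linarith

theorem DL.const_mul {𝓁 : Filter I} {a : I → ℝ → ℝ} (ha : DL 𝓁 a) {c : ℝ} (hc : 0 ≤ c) :
    DL 𝓁 fun N ε => c * a N ε := by
  intro η hη
  filter_upwards [ha (η / (c + 1)) (by positivity)] with N h1
  filter_upwards [h1] with ε h3
  have h4 : c * a N ε ≤ c * (η / (c + 1)) := mul_le_mul_of_nonneg_left h3 hc
  refine h4.trans ?_
  rw [mul_div_assoc', div_le_iff₀ (by positivity)]
  nlinarith

/-- error of the width -/
theorem dl_width {𝓁 : Filter I} {b : I → ℝ} (hb : Tendsto b 𝓁 (𝓝 0)) :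
    DL 𝓁 fun N _ => b N := by
  intro η hη
  filter_upwards [hb.eventually (ge_mem_nhds hη)] with N h1
  exact Eventually.of_forall fun _ => h1

/-- error of the mesh, for every fixed width -/
theorem dl_mesh {𝓁 : Filter I} {a : I → ℝ → ℝ}
    (ha : ∀ᶠ N in 𝓁, Tendsto (a N) (𝓝[>] 0) (𝓝 0)) : DL 𝓁 a := by
  intro η hη
  filter_upwards [ha] with N h1
  exact h1.eventually (ge_mem_nhds hη)

theorem dl_zero {𝓁 : Filter I} : DL 𝓁 fun _ _ => (0 : ℝ) := fun _ hη =>
  Eventually.of_forall fun _ => Eventually.of_forall fun _ => hη.le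

theorem DL.sqrt {𝓁 : Filter I} {a : I → ℝ → ℝ} (ha : DL 𝓁 a) :
    DL 𝓁 fun N ε => Real.sqrt (a N ε) := by
  intro η hη
  filter_upwards [ha (η ^ 2) (by positivity)] with N h1
  filter_upwards [h1] with ε h3
  exact Real.sqrt_le_iff.2 ⟨hη.le, h3⟩

theorem DL.sum {ι : Type} {𝓁 : Filter I} {a : ι → I → ℝ → ℝ} (s : Finset ι)
    (ha : ∀ i ∈ s, DL 𝓁 (a i)) : DL 𝓁 fun N ε => ∑ i ∈ s, a i N ε := by
  induction s using Finset.induction_on with
  | empty => simpa using dl_zero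
  | insert i s hi ih =>
    simp_rw [Finset.sum_insert hi]
    exact (ha i (Finset.mem_insert_self _ _)).add
      (ih fun j hj => ha j (Finset.mem_insert_of_mem hj))

/-- bad events: small probability, first the width, then the mesh -/
def DP (𝓁 : Filter I) (B : I → ℝ → Set Sample) : Prop :=
  ∀ η > 0, ∀ᶠ N in 𝓁, ∀ᶠ ε : ℝ in 𝓝[>] 0, sampleLaw (B N ε) ≤ ENNReal.ofReal η

theorem DP.mono {𝓁 : Filter I} {A B : I → ℝ → Set Sample} (h : DP 𝓁 B)
    (hab : ∀ᶠ N in 𝓁, ∀ᶠ ε : ℝ in 𝓝[>] 0, A N ε ⊆ B N ε) : DP 𝓁 A := by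
  intro η hη
  filter_upwards [h η hη, hab] with N h1 h2
  filter_upwards [h1, h2] with ε h3 h4
  exact (measure_mono h4).trans h3



end dl

/-! ### one polygon at a time -/

section main

variable {U I : Type}

/-- **corridor hypothesis, one polygon at a time**: `κ N ε` is the constant of the corridor of width
`N` (the same for all polygons and the three types), the good set may depend on the polygon and on the
width -/
def CORN (𝓁 : Filter I) (κ : I → ℝ → ℂ) (m : U → I → ℝ → MeasurableSpace Sample)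
    (T : U → ℝ → Sample → ℂ) (D : U → ℝ → Sample → ZMod 3 → ℂ) : Prop :=
  ∀ u : U, ∀ η > 0, ∀ᶠ N in 𝓁, ∀ᶠ ε : ℝ in 𝓝[>] 0, ∃ G : Set Sample,
    sampleLaw Gᶜ ≤ ENNReal.ofReal η ∧
      ∀ k : ZMod 3, CrG (omz k ^ 2) (κ N ε) (m u N ε) G (T u ε) (fun ω => D u ε ω k) η

theorem rigp_of_n {𝓁 : Filter I} [𝓁.NeBot] {κ : I → ℝ → ℂ}
    {m : U → I → ℝ → MeasurableSpace Sample} {T : U → ℝ → Sample → ℂ}
    {D : U → ℝ → Sample → ZMod 3 → ℂ} (h : CORN 𝓁 κ m T D) : RIGP T D := by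
  intro F η hη
  set θ : ℝ := min (η / 2) (η ^ 2 / 2) with hθ
  have hθ0 : 0 < θ := lt_min (by positivity) (by positivity)
  have hθ1 : θ + θ / η ≤ η := by
    have h1 : θ ≤ η / 2 := min_le_left _ _
    have h2 : θ / η ≤ η / 2 := by
      rw [div_le_iff₀ hη]
      have : θ ≤ η ^ 2 / 2 := min_le_right _ _
      nlinarith
    linarith
  obtain ⟨N, hN⟩ := ((Filter.eventually_all_finset F).2 fun u _ => h u θ hθ0).exists
  filter_upwards [(Filter.eventually_all_finset F).2 hN] with ε hε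
  refine ⟨-κ N ε, fun u hu k => ?_⟩
  obtain ⟨G, hG, hC⟩ := hε u hu
  exact prob_of (hC k) hη hθ0.le hG hθ1

/-- **POLY from the corridor data, one polygon at a time** -/
theorem poly_of_n {𝓁 : Filter I} [𝓁.NeBot] {κ : I → ℝ → ℂ}
    {m : U → I → ℝ → MeasurableSpace Sample} {T T' : U → ℝ → Sample → ℂ}
    {D : U → ℝ → Sample → ZMod 3 → ℂ} (h : CORN 𝓁 κ m T D) (hR : RLP T T' D) : POLY T T' :=
  poly_of_p (rigp_of_n h) hR

/-- errors as functions of polygon, width and mesh -/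
theorem corn_of {𝓁 : Filter I} {κ : I → ℝ → ℂ} {m : U → I → ℝ → MeasurableSpace Sample}
    {T : U → ℝ → Sample → ℂ} {D : U → ℝ → Sample → ZMod 3 → ℂ}
    {G : U → I → ℝ → Set Sample} {e : U → I → ℝ → ℝ}
    (hG : ∀ u, DP 𝓁 fun N ε => (G u N ε)ᶜ) (he : ∀ u, DL 𝓁 (e u))
    (h : ∀ u, ∀ᶠ N in 𝓁, ∀ᶠ ε : ℝ in 𝓝[>] 0, ∀ k : ZMod 3,
      CrG (omz k ^ 2) (κ N ε) (m u N ε) (G u N ε) (T u ε) (fun ω => D u ε ω k) (e u N ε)) :
    CORN 𝓁 κ m T D := by
  intro u η hη
  filter_upwards [hG u η hη, he u η hη, h u] with N h1 h2 h3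
  filter_upwards [h1, h2, h3] with ε h4 h5 h6
  refine ⟨G u N ε, h4, fun k => ?_⟩
  obtain ⟨a1, a2, a3, a4, a5, a6, a7⟩ := h6 k
  refine ⟨a1, a2, a3, a4, a5, a6, fun f hf hf1 hf0 => ?_⟩
  obtain ⟨Ω, mΩ, P, π, hπ, ν, ι, I, J, g, Vβ, Vγ, VK, TK, R, V, one, z, b1, b2, b3, b4, b5, b6,
    hc, hle⟩ := a7 f hf hf1 hf0
  exact ⟨Ω, mΩ, P, π, hπ, ν, ι, I, J, g, Vβ, Vγ, VK, TK, R, V, one, z, b1, b2, b3, b4, b5, b6,
    hc, hle.trans h5⟩

/-- the exact relation on good sets -/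
theorem rlp_of {𝓁 : Filter I} [𝓁.NeBot] {T T' : U → ℝ → Sample → ℂ}
    {D : U → ℝ → Sample → ZMod 3 → ℂ} {G : U → I → ℝ → Set Sample}
    (hG : ∀ u, DP 𝓁 fun N ε => (G u N ε)ᶜ)
    (h : ∀ u, ∀ᶠ N in 𝓁, ∀ᶠ ε : ℝ in 𝓝[>] 0, ∀ ω ∈ G u N ε,
      Rl (T u ε ω) (T' u ε ω) (D u ε ω)) : RLP T T' D := by
  intro u η hη
  obtain ⟨N, h1, h2⟩ := ((hG u η hη).and (h u)).exists
  filter_upwards [h1, h2] with ε h3 h4
  refine (measure_mono fun ω hω => ?_).trans h3
  intro hG
  exact hω (h4 ω hG)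

/-- **POLY**: good sets, errors and corridor data as functions of polygon, width and mesh -/
theorem poly_of_g {𝓁 : Filter I} [𝓁.NeBot] {κ : I → ℝ → ℂ}
    {m : U → I → ℝ → MeasurableSpace Sample} {T T' : U → ℝ → Sample → ℂ}
    {D : U → ℝ → Sample → ZMod 3 → ℂ} {G : U → I → ℝ → Set Sample} {e : U → I → ℝ → ℝ}
    (hG : ∀ u, DP 𝓁 fun N ε => (G u N ε)ᶜ) (he : ∀ u, DL 𝓁 (e u))
    (h : ∀ u, ∀ᶠ N in 𝓁, ∀ᶠ ε : ℝ in 𝓝[>] 0, ∀ k : ZMod 3,
      CrG (omz k ^ 2) (κ N ε) (m u N ε) (G u N ε) (T u ε) (fun ω => D u ε ω k) (e u N ε))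
    (hR : ∀ u, ∀ᶠ N in 𝓁, ∀ᶠ ε : ℝ in 𝓝[>] 0, ∀ ω ∈ G u N ε,
      Rl (T u ε ω) (T' u ε ω) (D u ε ω)) : POLY T T' :=
  poly_of_n (corn_of hG he h) (rlp_of hG hR)

end main

end Crest.Agent.R143.PolySx854
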