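import Crest.Agent.R143.NetU_346
import Crest.Agent.R143.PolyA_970
import Crest.Agent.R143.Frame7_395
import Crest.Agent.R143.PolyU_346
import Crest.Agent.R143.PolyS_854

-- ▼ part R143/Rel_62
section

/-!
# Row 143 (S0194): exact relations between `T`, `T'` and the mean displacements (helper62)

In 346's frozen object `TS S A z` (`NetU_346`), for arbitrary giants `A` on an arbitrary finite set
of sites (no `Hex` needed for the algebra):

* `TB S A` `= 3 ∑ om^(2 i) E y_i` `= conj (TS S A conj)`, `‖TB S A‖ = ‖TS S A conj‖`;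
* `Dis S A i = E y_(i+1) - E y_(i+2)`;
* `r0 r1 r2` : 970's three relations with `c = 3 (om ^ 2 - om)`;
* `rel3` : 970's `Rel3` for any random sites and giants with integrable `TS`.
-/

set_option autoImplicit false

noncomputable section

open scoped Classical

namespace Crest.Agent.R143.Relx62

open MeasureTheory
open Crest.Agent.R143.B0x346 Crest.Agent.R143.NetUx346 Crest.Agent.R143.PolyAx970

variable {S : Finset ℂ} {A : ZMod 3 → Set ℂ}

/-- conjugation as a function (the `z` of `T'`) -/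
def cj (z : ℂ) : ℂ := (starRingEnd ℂ) z

theorem om_cj : (starRingEnd ℂ) om = om ^ 2 := Frame7x395.om_conj

theorem om_one : 1 + om + om ^ 2 = 0 := Frame7x395.om_sum

theorem om_cube : om ^ 3 = 1 := by
  linear_combination (om - 1) * om_one

theorem sum3 (f : ZMod 3 → ℂ) : ∑ i : ZMod 3, f i = f 0 + f 1 + f 2 := Fin.sum_univ_three f

theorem omz0 : omz 0 = 1 := by
  unfold omz
  rw [ZMod.val_zero, pow_zero]

theorem omz1 : omz 1 = om := by
  unfold omz
  rw [ZMod.val_one, pow_one]

theorem omz2 : omz 2 = om ^ 2 := rfl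

/-- the three means -/
theorem TS_three (z : ℂ → ℂ) : TS S A z = 3 * (Ey S A z 0 + om * Ey S A z 1 + om ^ 2 * Ey S A z 2) := by
  unfold TS
  rw [sum3, omz0, omz1, omz2, one_mul]

theorem exC_cj (V : Finset ℂ) (f : Finset ℂ → ℂ) :
    (starRingEnd ℂ) (exC V f) = exC V fun T => (starRingEnd ℂ) (f T) := by
  unfold exC
  rw [map_div₀, map_sum, map_pow, Complex.conj_ofNat]


/-- the second total, `3 (E y_0 + om² E y_1 + om E y_2)` -/
def TB (S : Finset ℂ) (A : ZMod 3 → Set ℂ) : ℂ :=
  3 * (Ey S A id 0 + om ^ 2 * Ey S A id 1 + om * Ey S A id 2)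



/-- mean displacements `E y_(i+1) - E y_(i+2)` -/
def Dis (S : Finset ℂ) (A : ZMod 3 → Set ℂ) (i : Fin 3) : ℂ :=
  match i with
  | 0 => Ey S A id 1 - Ey S A id 2
  | 1 => Ey S A id 2 - Ey S A id 0
  | 2 => Ey S A id 0 - Ey S A id 1


/-- the constant of 970's relations -/
def c3 : ℂ := 3 * (om ^ 2 - om)



theorem r1 : c3 * Dis S A 1 = om * TB S A - om ^ 2 * TS S A id := by
  rw [TS_three]
  unfold TB c3 Dis
  linear_combination (3 * Ey S A id 2 * om) * om_cube

theorem r2 : c3 * Dis S A 2 = om ^ 2 * TB S A - om * TS S A id := by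
  rw [TS_three]
  unfold TB c3 Dis
  linear_combination (-3 * Ey S A id 1 * om) * om_cube

variable {Ω : Type*} [MeasurableSpace Ω] {P : Measure Ω}


end Crest.Agent.R143.Relx62
end
end

-- ▼ part R143/RelP_62

/-!
# Row 143 (S0194): `POLY` for the frozen polygons, last step (helper62)

346's frozen totals `Poly.T`, `Poly.T'` (`PolyU_346`):

* `EyV S V B z i` : mean of the hit value on the side `i`, `TV = 3 ∑ om^i EyV i` (`TV_three`);
* `TVB S V B = 3 ∑ om^(2 i) EyV id i` `= conj (TV conj)` (`TV_cj`);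
* `Poly.TB`, `norm_TB : ‖u.TB ε ω‖ = ‖u.T' ε ω‖`;
* `Poly.Dk u ε ω k = 3 (E y_(k+1) - E y_(k+2))`, the displacement of the type `k`;
* `rl : Rl (u.T ε ω) (u.TB ε ω) (u.Dk ε ω)` for every `ε`, `ω`; `rlp : RLP ..`;
* `poly_end : RIGP Poly.T Poly.Dk → POLY Poly.T Poly.T'`, `poly_end_l`, `poly_end_n`, `poly_end_cor`.
-/

set_option autoImplicit false

noncomputable section

open scoped Classical

namespace Crest.Agent.R143.RelPx62

open MeasureTheory Filter Topology
open Crest.ProbabilityR.Voronoi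
open Crest.Agent.R143.B0x346 Crest.Agent.R143.NetUx346 Crest.Agent.R143.NetVx346
  Crest.Agent.R143.PolyUx346
open Crest.Agent.R143.DefsNx346 (hi)
open Crest.Agent.R143.Alg4x133 (Rl)
open Crest.Agent.R143.AsmNx758 (POLY)
open Crest.Agent.R143.PolyQx854 Crest.Agent.R143.PolyRx854 Crest.Agent.R143.PolySx854
open Crest.Agent.R143.Relx62 (om_cj om_one om_cube sum3 omz0 omz1 omz2 exC_cj)

variable {S V : Finset ℂ} {B : ZMod 3 → Set ℂ}

/-! ### one labelled free set -/

/-- mean hit value on the side `i` -/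
def EyV (S V : Finset ℂ) (B : ZMod 3 → Set ℂ) (z : ℂ → ℂ) (i : ZMod 3) : ℂ :=
  exC V fun T => zV S V B i (T : Set ℂ) z





/-- the second total -/
def TVB (S V : Finset ℂ) (B : ZMod 3 → Set ℂ) : ℂ :=
  3 * (EyV S V B id 0 + om ^ 2 * EyV S V B id 1 + om * EyV S V B id 2)





/-! ### the frozen polygons -/

/-- the conjugate of `T'` -/
def TB (u : Poly) (ε : ℝ) (ω : Sample) : ℂ :=
  TVB (u.S ε ω) (Vin (u.S ε ω) u.P √ε) (Bl (u.S ε ω) (Vin (u.S ε ω) u.P √ε) u.Lab)











end Crest.Agent.R143.RelPx62
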