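import Crest.Agent.R143.CorM_970
import Crest.Agent.R143.PolyS_854

/-!
# Row 143 (S0194), CORE-C, RIG: composition (helper654)

`m u ε ω i` = mean end point on the class `i` of the polygon `u` (quenched; `NetU_346`'s `Ey`).
* `tI m i = m (i+1) + om m (i+2) + om² m i` (778's `QF`, type `i`: black giants `i`, `i + 1`, white
  giant `i + 2`), `dI m i = m i - m (i + 1)` (clockwise displacement between the touches)
* `key` : `‖om * tI + κ * dI‖ = ‖omz j ^ 2 * T - κ' * D_j‖`, `j = i + 2`, `T = - Σ omz j * m j`,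
  `D_j = m (j + 2) - m (j + 1)`, `κ' = - om κ`
* `Lx t κ T D e` : `T`, `D` integrable and `∫ ‖t T + κ D‖ ≤ e`; `EnvX` : 970's corridor data `Env`
  with total error `≤ e`; `EnvX.lx`
* `poly_ends` : `Lx` for every polygon and type, common `κ N ε`, errors small for the width and then
  the mesh ⟹ `POLY` for `T = 3 Σ omz i m i`, `T' = 3 Σ omz i conj (m i)` (the two totals of `NetU_346`)
* `poly_env` : the same from `EnvX`
-/

set_option autoImplicit false

noncomputable section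

open scoped Classical

namespace Crest.Agent.R143.RigCx654

open Complex Set Filter Topology MeasureTheory
open scoped ENNReal
open Crest.ProbabilityR.Voronoi
open Crest.Agent.R143.B0x346
open Crest.Agent.R143.DefsNx346 (hi om_val om2_val)
open Crest.Agent.R143.Alg4x133 (Rl omz0 omz1 omz2 norm_om norm_omz)
open Crest.Agent.R143.AsmNx758 (POLY)
open Crest.Agent.R143.PolyQx854 Crest.Agent.R143.PolySx854
open Crest.Agent.R143.CorMx970

/-! ### algebra -/

/-- total of the type `i` -/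
def tI (m : ZMod 3 → ℂ) (i : ZMod 3) : ℂ := m (i + 1) + om * m (i + 2) + om ^ 2 * m i

/-- clockwise displacement of the type `i` -/
def dI (m : ZMod 3 → ℂ) (i : ZMod 3) : ℂ := m i - m (i + 1)

/-- small total -/
def sg (m : ZMod 3 → ℂ) : ℂ := ∑ j, omz j * m j

/-- big total -/
def sg' (m : ZMod 3 → ℂ) : ℂ := ∑ j, omz j ^ 2 * m j

/-- displacement, 133's order -/
def dd (m : ZMod 3 → ℂ) (k : ZMod 3) : ℂ := m (k + 2) - m (k + 1)

theorem sum3 (f : ZMod 3 → ℂ) : ∑ j, f j = f 0 + f 1 + f 2 := by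
  have e : (Finset.univ : Finset (ZMod 3)) = {0, 1, 2} := by decide
  rw [e, Finset.sum_insert (by decide), Finset.sum_insert (by decide), Finset.sum_singleton,
    add_assoc]

theorem hi2 : hi ^ 2 = -(3 / 4) := Alg4x133.hi2

theorem rl (m : ZMod 3 → ℂ) : Rl (-sg m) (-sg' m) (dd m) := by
  have h2 := hi2
  have e4 : (om ^ 2) ^ 2 = om := by
    rw [om2_val, om_val]; linear_combination h2
  intro k
  unfold sg sg' dd
  rw [sum3, sum3, omz0, omz1, omz2, e4]
  have c : k = 0 ∨ k = 1 ∨ k = 2 := by revert k; decide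
  rcases c with rfl | rfl | rfl
  · rw [omz0, show (0 : ZMod 3) + 2 = 2 by decide, show (0 : ZMod 3) + 1 = 1 by decide, om2_val,
      om_val]
    ring
  · rw [omz1, show (1 : ZMod 3) + 2 = 0 by decide, show (1 : ZMod 3) + 1 = 2 by decide, om2_val,
      om_val]
    ring
  · rw [omz2, show (2 : ZMod 3) + 2 = 1 by decide, show (2 : ZMod 3) + 1 = 0 by decide, e4,
      om2_val, om_val]
    ring

theorem om_cube : om ^ 3 = 1 := by
  have h2 := hi2
  have e : om ^ 3 = om ^ 2 * om := by ring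
  rw [e, om2_val, om_val]; linear_combination -h2

/-- **phases**: the corridor identity of the type `i` is the identity of 133 / 222 for the white
class `i + 2` -/
theorem key (m : ZMod 3 → ℂ) (κ : ℂ) (i : ZMod 3) :
    om * (om * tI m i + κ * dI m i) =
      -(omz (i + 2) ^ 2 * (-sg m) - (-(om * κ)) * dd m (i + 2)) := by
  have h3 := om_cube
  unfold tI dI sg dd
  rw [sum3, omz0, omz1, omz2]
  have c : i = 0 ∨ i = 1 ∨ i = 2 := by revert i; decide
  rcases c with rfl | rfl | rfl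
  · rw [show (0 : ZMod 3) + 1 = 1 by decide, show (0 : ZMod 3) + 2 = 2 by decide,
      show (2 : ZMod 3) + 2 = 1 by decide, show (2 : ZMod 3) + 1 = 0 by decide, omz2]
    linear_combination (-(om * m 0) - om ^ 2 * m 1 + m 2 - (om ^ 3 + 1) * m 2 + om * m 0 ) * h3
  · rw [show (1 : ZMod 3) + 1 = 2 by decide, show (1 : ZMod 3) + 2 = 0 by decide,
      show (0 : ZMod 3) + 2 = 2 by decide, show (0 : ZMod 3) + 1 = 1 by decide, omz0]
    linear_combination (om * m 1 + m 0) * h3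
  · rw [show (2 : ZMod 3) + 1 = 0 by decide, show (2 : ZMod 3) + 2 = 1 by decide,
      show (1 : ZMod 3) + 2 = 0 by decide, show (1 : ZMod 3) + 1 = 2 by decide, omz1]
    ring

theorem key_norm (m : ZMod 3 → ℂ) (κ : ℂ) (k : ZMod 3) :
    ‖omz k ^ 2 * (-sg m) - (-(om * κ)) * dd m k‖ = ‖om * tI m (k + 1) + κ * dI m (k + 1)‖ := by
  have h := key m κ (k + 1)
  have e : k + 1 + 2 = k := by
    clear h
    revert k; decide
  rw [e] at h
  have h1 := congrArg norm h
  rw [norm_neg, norm_mul, norm_om, one_mul] at h1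
  exact h1.symm

/-- conjugate totals -/
theorem conj_sg' (m : ZMod 3 → ℂ) :
    ‖∑ j, omz j * (starRingEnd ℂ) (m j)‖ = ‖sg' m‖ := by
  have h2 := hi2
  have hc : ∀ j, (starRingEnd ℂ) (omz j) = omz j ^ 2 := by
    intro j
    have h3 : omz j ^ 3 = 1 := Alg4x133.omz_cube j
    have hn : omz j * (starRingEnd ℂ) (omz j) = 1 := by
      rw [Complex.mul_conj, Complex.normSq_eq_norm_sq, norm_omz]; norm_num
    have hne : omz j ≠ 0 := by
      intro h; rw [h] at hn; simp at hn
    refine mul_left_cancel₀ hne ?_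
    rw [hn, ← h3]; ring
  have hcc : ∀ j, (starRingEnd ℂ) (omz j ^ 2) = omz j := by
    intro j
    rw [← hc j, Complex.conj_conj]
  rw [← RCLike.norm_conj (sg' m)]
  unfold sg'
  rw [map_sum]
  congr 1
  refine Finset.sum_congr rfl fun j _ => ?_
  rw [map_mul, hcc]

/-! ### `L¹` data of one polygon, one type, one width, one mesh -/

/-- conclusion of the corridor identity -/
structure Lx (t κ : ℂ) (T D : Sample → ℂ) (e : ℝ) : Prop where
  iT : Integrable T sampleLaw
  iD : Integrable D sampleLaw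
  le : ∫ ω, ‖t * T ω + κ * D ω‖ ∂sampleLaw ≤ e

/-- 970's corridor data with total error `≤ e` -/
def EnvX (t κ : ℂ) (T D : Sample → ℂ) (e : ℝ) : Prop :=
  ∃ (n r : ℕ) (J : Finset ℕ) (z : ℕ → ℂ) (g0 a1 a2 K q q' c θ ρ : ℝ) (gv : ℕ → ℂ)
    (bad : Set Sample) (G : Sample → ℝ) (v : ℕ → Sample → ℂ) (w w2 o na nb : ℕ → Sample → ℝ)
    (Q Q' E1 E2 dd : Sample → ℝ) (m : MeasurableSpace Sample) (X0 : Sample → ℂ),
    Env sampleLaw n r J t κ z g0 a1 a2 K q q' c θ ρ gv bad G v w w2 o na nb Q Q' E1 E2 dd T D ∧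
    Measurable[m] X0 ∧ (fun ω => t * T ω + κ * D ω) =ᵐ[sampleLaw] X0 ∧
    (∀ f : Sample → ℂ, Measurable[m] f → (∀ ω, ‖f ω‖ ≤ 1) → EnvF sampleLaw n g0 gv G v o T f) ∧
    tot n r J a1 a2 K q q' c θ ρ ‖κ‖ ≤ e

theorem EnvX.lx {t κ : ℂ} {T D : Sample → ℂ} {e : ℝ} (h : EnvX t κ T D e) : Lx t κ T D e := by
  obtain ⟨n, r, J, z, g0, a1, a2, K, q, q', c, θ, ρ, gv, bad, G, v, w, w2, o, na, nb, Q, Q', E1,
    E2, dd, m, X0, h1, h2, h3, h4, h5⟩ := h
  have : IsProbabilityMeasure sampleLaw := by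
    rw [sampleLaw]; infer_instance
  exact ⟨h1.iT, h1.iD, (h1.l1 h2 h3 h4).trans h5⟩

/-! ### POLY -/

variable {U I : Type}

theorem Lx.prob {t κ : ℂ} {T D : Sample → ℂ} {e η : ℝ} (h : Lx t κ T D e) (hη : 0 < η)
    (he : e ≤ η ^ 2) : sampleLaw {ω | η < ‖t * T ω + κ * D ω‖} ≤ ENNReal.ofReal η := by
  have iX : Integrable (fun ω => t * T ω + κ * D ω) sampleLaw :=
    (h.iT.const_mul _).add (h.iD.const_mul _)
  have h3 := mul_meas_ge_le_lintegral₀ iX.aestronglyMeasurable.aemeasurable.enorm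
    (ENNReal.ofReal η)
  have h4 : ∫⁻ ω, ‖t * T ω + κ * D ω‖ₑ ∂sampleLaw ≤ ENNReal.ofReal (η ^ 2) := by
    rw [← ofReal_integral_norm_eq_lintegral_enorm iX]
    exact ENNReal.ofReal_le_ofReal (h.le.trans he)
  have h5 : ENNReal.ofReal η * sampleLaw {ω | ENNReal.ofReal η ≤ ‖t * T ω + κ * D ω‖ₑ} ≤
      ENNReal.ofReal η * ENNReal.ofReal η := by
    refine (h3.trans h4).trans (le_of_eq ?_)
    rw [← ENNReal.ofReal_mul hη.le, pow_two]
  have h6 : sampleLaw {ω | ENNReal.ofReal η ≤ ‖t * T ω + κ * D ω‖ₑ} ≤ ENNReal.ofReal η :=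
    (ENNReal.mul_le_mul_iff_right (ENNReal.ofReal_pos.2 hη).ne' ENNReal.ofReal_ne_top).1 h5
  refine (measure_mono fun ω hω => ?_).trans h6
  simp only [mem_ofPred_eq] at hω ⊢
  rw [← ofReal_norm]
  exact ENNReal.ofReal_le_ofReal hω.le

/-- **composition**: from the corridor identities of all polygons and types to `POLY` for the two
totals -/
theorem poly_ends {𝓁 : Filter I} [𝓁.NeBot] {κ : I → ℝ → ℂ} {m : U → ℝ → Sample → ZMod 3 → ℂ}
    {e : U → I → ℝ → ℝ} (he : ∀ u, DL 𝓁 (e u))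
    (h : ∀ u, ∀ᶠ N in 𝓁, ∀ᶠ ε : ℝ in 𝓝[>] 0, ∀ i : ZMod 3,
      Lx om (κ N ε) (fun ω => tI (m u ε ω) i) (fun ω => dI (m u ε ω) i) (e u N ε)) :
    POLY (fun u ε ω => 3 * ∑ i, omz i * m u ε ω i)
      (fun u ε ω => 3 * ∑ i, omz i * (starRingEnd ℂ) (m u ε ω i)) := by
  have hP : RIGP (fun u ε ω => -sg (m u ε ω)) (fun u ε ω => dd (m u ε ω)) := by
    intro F η hη
    obtain ⟨N, hN⟩ := ((Filter.eventually_all_finset F).2 fun u _ =>
      (h u).and (he u (η ^ 2) (by positivity))).exists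
    filter_upwards [(Filter.eventually_all_finset F).2 fun u hu => (hN u hu).1.and (hN u hu).2]
      with ε hε
    refine ⟨-(om * κ N ε), fun u hu k => ?_⟩
    obtain ⟨h1, h2⟩ := hε u hu
    have h3 := (h1 (k + 1)).prob hη h2
    refine (measure_mono fun ω hω => ?_).trans h3
    simp only [mem_ofPred_eq] at hω ⊢
    rwa [key_norm] at hω
  have hR : RLP (fun u ε ω => -sg (m u ε ω)) (fun u ε ω => -sg' (m u ε ω))
      (fun u ε ω => dd (m u ε ω)) := by
    intro u η hη
    refine Eventually.of_forall fun ε => ?_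
    have h2 : {ω | ¬ Rl (-sg (m u ε ω)) (-sg' (m u ε ω)) (dd (m u ε ω))} = ∅ := by
      rw [Set.eq_empty_iff_forall_notMem]
      intro ω hω
      exact hω (rl _)
    rw [h2]; simp
  have h1 := poly_smul (poly_of_p hP hR) (-3) (-3)
  intro u u' η hη
  filter_upwards [h1 u u' η hη] with ε h2
  rcases h2 with h2 | h2
  · left
    convert h2 using 5
    unfold sg; ring_nf
  · right
    refine (le_of_eq (congrArg _ ?_)).trans h2
    ext ω
    simp only [mem_ofPred_eq]
    rw [norm_mul, conj_sg', neg_mul_neg, norm_mul]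


end Crest.Agent.R143.RigCx654
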