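import Crest.Agent.R143.IndLoc4_279
import Crest.Agent.R143.CorM_970

/-!
# R143 (helper279), box R8 at environment level: `CorMx970.Env` and `EnvF` on `sampleLaw`

* `cav_av` : `cav F S` = 970's mean over the subsets of `S`
* `Mz ε B X` : `X` = a.e. a function of the configuration in `B`; `prod_int` : product formula for
  `Mz ε C X`, `Mz ε U Y`, `C`, `U` disjoint
* `Inp` : literal input (weight `g`, charges `V l` in the corridor `C`; tiles `a'`, `b'` of the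
  touches inside `U`)
* `Inp.env` : `Env` from `Inp` and the fields of the other boxes, `Inp.envF` : `EnvF` for every
  `f` measurable with respect to the configuration in `U`; `Inp.l1` : the `L¹` bound
-/

set_option autoImplicit false

noncomputable section

namespace Crest.Agent.R143.EnvIx279

open MeasureTheory Set ProbabilityTheory
open Crest.ProbabilityR.Voronoi
open Crest.Agent.R143.PP0x831 Crest.Agent.R143.Poisx304 Crest.Agent.R143.Janx304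
open Crest.Agent.R143.IndLocx279 Crest.Agent.R143.IndLoc2x279 Crest.Agent.R143.IndLoc3x279
open Crest.Agent.R143.IndLoc4x279
open scoped ENNReal Nat

variable {ε : ℝ}

lemma probS : IsProbabilityMeasure sampleLaw := by unfold sampleLaw; infer_instance

attribute [local instance] probS

/-! ## `cav` and `av` -/

lemma cav_av {E : Type*} [AddCommGroup E] [Module ℝ E] (F : Set (ℂ × Bool) → E)
    (S : Finset ℂ) : cav F S = CorMx970.av S.powerset fun β => F (clr S β) := by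
  unfold cav CorMx970.av
  rw [Finset.card_powerset, inv_pow]
  push_cast
  rfl

lemma cav_nonneg {F : Set (ℂ × Bool) → ℝ} (h : ∀ X, 0 ≤ F X) (S : Finset ℂ) : 0 ≤ cav F S := by
  rw [cav_av]; exact CorMx970.av_nonneg fun β _ => h _

lemma cav_le_one {F : Set (ℂ × Bool) → ℝ} (h : ∀ X, F X ≤ 1) (S : Finset ℂ) : cav F S ≤ 1 :=
  (cav_mono (g := fun _ => (1 : ℝ)) fun β _ => h _).trans_eq (cav_const 1 S)

lemma cav_cs {g F : Set (ℂ × Bool) → ℝ} (hg : ∀ X, 0 ≤ g X) (S : Finset ℂ) :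
    cav (fun X => g X * F X) S ^ 2 ≤ cav g S * cav (fun X => g X * F X ^ 2) S := by
  simp only [cav_av]
  exact CorMx970.av_cs fun β _ => hg _

/-! ## functions of the configuration in a set -/

/-- `X` is a.e. a function of the configuration in `B` -/
def Mz {𝕜 : Type*} [MeasurableSpace 𝕜] (ε : ℝ) (B : Set ℂ) (X : Sample → 𝕜) : Prop :=
  ∃ Y : Sample → 𝕜, Measurable[sig ε B] Y ∧ X =ᵐ[sampleLaw] Y

lemma mz_of {𝕜 : Type*} [MeasurableSpace 𝕜] {B : Set ℂ} {X : Sample → 𝕜}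
    (h : Measurable[sig ε B] X) : Mz ε B X := ⟨X, h, Filter.EventuallyEq.rfl⟩

lemma Mz.map {𝕜 𝕜' : Type*} [MeasurableSpace 𝕜] [MeasurableSpace 𝕜'] {B : Set ℂ}
    {X : Sample → 𝕜} (h : Mz ε B X) {p : 𝕜 → 𝕜'} (hp : Measurable p) :
    Mz ε B fun ω => p (X ω) := by
  obtain ⟨Y, hY, e⟩ := h
  exact ⟨fun ω => p (Y ω), hp.comp hY, e.mono fun ω h => by simp only at h ⊢; rw [h]⟩

lemma Mz.mul {𝕜 : Type*} [RCLike 𝕜] {B : Set ℂ} {X X' : Sample → 𝕜} (h : Mz ε B X)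
    (h' : Mz ε B X') : Mz ε B fun ω => X ω * X' ω := by
  obtain ⟨Y, hY, e⟩ := h
  obtain ⟨Y', hY', e'⟩ := h'
  exact ⟨fun ω => Y ω * Y' ω, Measurable.mul hY hY', by
    filter_upwards [e, e'] with ω h1 h2
    rw [h1, h2]⟩


/-- the quenched mean of a functional local on `B` -/
lemma mz_cav {𝕜 : Type*} [RCLike 𝕜] {B : Set ℂ} (hB : MeasurableSet B)
    {F : Set (ℂ × Bool) → 𝕜} (hF : LocalOn B F) (hm : FinMeas F) {S : Sample → Finset ℂ}
    (hS : ∀ᵐ ω ∂sampleLaw, (S ω : Set ℂ) ⊆ points ε ω ∧ points ε ω ∩ B ⊆ S ω) :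
    Mz ε B fun ω => cav F (S ω) := by
  refine ⟨fun ω => cav F (fs (points ε ω ∩ B)), ?_, cav_ae hF hS⟩
  have h := meas_sig (ε := ε) (ps_local (fun P => cav F (fs P)) B)
    (ps_measX (f := fun P => cav F (fs P)) (fun n => cav_meas hm n) hB)
  simpa only [psn_cfg] using h

/-- **product formula** -/
theorem prod_int {𝕜 : Type*} [RCLike 𝕜] (hε : 0 < ε) {C U : Set ℂ} (hC : MeasurableSet C)
    (hCb : Bornology.IsBounded C) (hU : MeasurableSet U) (hUb : Bornology.IsBounded U)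
    (hd : Disjoint C U) {X Y : Sample → 𝕜} (hX : Mz ε C X) (hY : Mz ε U Y)
    (iX : Integrable X sampleLaw) (iY : Integrable Y sampleLaw) :
    Integrable (fun ω => X ω * Y ω) sampleLaw ∧
      ∫ ω, X ω * Y ω ∂sampleLaw = (∫ ω, X ω ∂sampleLaw) * ∫ ω, Y ω ∂sampleLaw := by
  obtain ⟨X', hX', eX⟩ := hX
  obtain ⟨Y', hY', eY⟩ := hY
  have h0 := indep_sig hε hC hCb hU hUb hd
  have h1 : IndepFun X' Y' sampleLaw := by
    rw [IndepFun_iff_Indep]
    exact indep_of_indep_of_le_left (indep_of_indep_of_le_right h0 hY'.comap_le) hX'.comap_le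
  have h2 : IndepFun X Y sampleLaw := h1.congr eX.symm eY.symm
  exact ⟨h2.integrable_mul iX iY,
    h2.integral_fun_mul_eq_mul_integral iX.aestronglyMeasurable iY.aestronglyMeasurable⟩

/-! ## the input -/

/-- indicator functions of the tiles -/
def onF (a b : Set (ℂ × Bool) → ℕ) (l : ℕ) (X : Set (ℂ × Bool)) : ℝ :=
  if l ∈ Finset.Ico (a X) (b X) then 1 else 0

def nrF (r : ℕ) (a : Set (ℂ × Bool) → ℕ) (l : ℕ) (X : Set (ℂ × Bool)) : ℝ :=
  if l ≤ a X + r ∧ a X ≤ l + r then 1 else 0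

/-- weight and charges in the corridor `C`, tiles of the touches inside `U` -/
structure Inp (ε : ℝ) (C U : Set ℂ) (n : ℕ) (S : Sample → Finset ℂ) (g : Set (ℂ × Bool) → ℝ)
    (V : ℕ → Set (ℂ × Bool) → ℂ) (a b : Set (ℂ × Bool) → ℕ) : Prop where
  hε : 0 < ε
  hC : MeasurableSet C
  hCb : Bornology.IsBounded C
  hU : MeasurableSet U
  hUb : Bornology.IsBounded U
  hd : Disjoint C U
  hS : ∀ᵐ ω ∂sampleLaw, (S ω : Set ℂ) ⊆ points ε ω ∧ points ε ω ∩ (C ∪ U) ⊆ S ω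
  gl : LocalOn C g
  gm : FinMeas g
  g0 : ∀ X, 0 ≤ g X
  g1 : ∀ X, g X ≤ 1
  Vl : ∀ l ∈ Finset.range n, LocalOn C (V l)
  Vm : ∀ l ∈ Finset.range n, FinMeas (V l)
  V2 : ∀ l ∈ Finset.range n,
    Integrable (fun ω => g (cfg ε ω) * ‖V l (cfg ε ω)‖ ^ 2) sampleLaw
  al : LocalOn U a
  am : FinMeas a
  bl : LocalOn U b
  bm : FinMeas b

/-- quenched means -/
def qG (S : Sample → Finset ℂ) (g : Set (ℂ × Bool) → ℝ) (ω : Sample) : ℝ := cav g (S ω)

def qv (S : Sample → Finset ℂ) (g : Set (ℂ × Bool) → ℝ) (V : ℕ → Set (ℂ × Bool) → ℂ) (l : ℕ)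
    (ω : Sample) : ℂ := cav (fun X => (g X : ℂ) * V l X) (S ω)

def qw (S : Sample → Finset ℂ) (g : Set (ℂ × Bool) → ℝ) (V : ℕ → Set (ℂ × Bool) → ℂ) (l : ℕ)
    (ω : Sample) : ℝ := cav (fun X => g X * ‖V l X‖) (S ω)

def qw2 (S : Sample → Finset ℂ) (g : Set (ℂ × Bool) → ℝ) (V : ℕ → Set (ℂ × Bool) → ℂ) (l : ℕ)
    (ω : Sample) : ℝ := cav (fun X => g X * ‖V l X‖ ^ 2) (S ω)

def qo (S : Sample → Finset ℂ) (a b : Set (ℂ × Bool) → ℕ) (l : ℕ) (ω : Sample) : ℝ :=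
  cav (onF a b l) (S ω)

def qn (S : Sample → Finset ℂ) (r : ℕ) (a : Set (ℂ × Bool) → ℕ) (l : ℕ) (ω : Sample) : ℝ :=
  cav (nrF r a l) (S ω)

/-! these are 970's means -/

lemma qG_av (S : Sample → Finset ℂ) (g : Set (ℂ × Bool) → ℝ) (ω : Sample) :
    qG S g ω = CorMx970.av (S ω).powerset fun β => g (clr (S ω) β) := cav_av _ _

lemma qv_av (S : Sample → Finset ℂ) (g : Set (ℂ × Bool) → ℝ) (V : ℕ → Set (ℂ × Bool) → ℂ)
    (l : ℕ) (ω : Sample) : qv S g V l ω = CorMx970.av (S ω).powerset fun β =>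
      (g (clr (S ω) β) : ℂ) * V l (clr (S ω) β) := cav_av _ _

lemma qw_av (S : Sample → Finset ℂ) (g : Set (ℂ × Bool) → ℝ) (V : ℕ → Set (ℂ × Bool) → ℂ)
    (l : ℕ) (ω : Sample) : qw S g V l ω = CorMx970.av (S ω).powerset fun β =>
      g (clr (S ω) β) * ‖V l (clr (S ω) β)‖ := cav_av _ _

lemma qo_av (S : Sample → Finset ℂ) (a b : Set (ℂ × Bool) → ℕ) (l : ℕ) (ω : Sample) :
    qo S a b l ω = CorMx970.av (S ω).powerset (CorMx970.on (fun β => a (clr (S ω) β))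
      (fun β => b (clr (S ω) β)) l) := by
  unfold qo
  rw [cav_av]
  congr 1

lemma qn_av (S : Sample → Finset ℂ) (r : ℕ) (a : Set (ℂ × Bool) → ℕ) (l : ℕ) (ω : Sample) :
    qn S r a l ω = CorMx970.av (S ω).powerset (CorMx970.nr r (fun β => a (clr (S ω) β)) l) := by
  unfold qn
  rw [cav_av]
  congr 1

namespace Inp

variable {C U : Set ℂ} {n r : ℕ} {S : Sample → Finset ℂ} {g : Set (ℂ × Bool) → ℝ}
  {V : ℕ → Set (ℂ × Bool) → ℂ} {a b : Set (ℂ × Bool) → ℕ} (h : Inp ε C U n S g V a b)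

include h

lemma hSC : ∀ᵐ ω ∂sampleLaw, (S ω : Set ℂ) ⊆ points ε ω ∧ points ε ω ∩ C ⊆ S ω := by
  filter_upwards [h.hS] with ω hω
  exact ⟨hω.1, (inter_subset_inter_right _ subset_union_left).trans hω.2⟩

lemma hSU : ∀ᵐ ω ∂sampleLaw, (S ω : Set ℂ) ⊆ points ε ω ∧ points ε ω ∩ U ⊆ S ω := by
  filter_upwards [h.hS] with ω hω
  exact ⟨hω.1, (inter_subset_inter_right _ subset_union_right).trans hω.2⟩

lemma ae_C {X : Type*} [MeasurableSpace X] {f : Set (ℂ × Bool) → X} (hf : LocalOn C f)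
    (hm : FinMeas f) : Measurable fun ω => f (cfg ε ω) := meas_fun h.hε h.hC h.hCb hf hm

/-- functionals in the corridor -/
theorem corr {𝕜 : Type*} [RCLike 𝕜] {F : Set (ℂ × Bool) → 𝕜} (hF : LocalOn C F)
    (hm : FinMeas F) (hi : Integrable (fun ω => F (cfg ε ω)) sampleLaw) :
    Integrable (fun ω => cav F (S ω)) sampleLaw ∧
      ∫ ω, cav F (S ω) ∂sampleLaw = ∫ ω, F (cfg ε ω) ∂sampleLaw :=
  int_cav h.hε h.hC h.hCb hF hm hi h.hSC

/-- functionals inside -/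
theorem ins {𝕜 : Type*} [RCLike 𝕜] {F : Set (ℂ × Bool) → 𝕜} (hF : LocalOn U F)
    (hm : FinMeas F) (hi : Integrable (fun ω => F (cfg ε ω)) sampleLaw) :
    Integrable (fun ω => cav F (S ω)) sampleLaw ∧
      ∫ ω, cav F (S ω) ∂sampleLaw = ∫ ω, F (cfg ε ω) ∂sampleLaw :=
  int_cav h.hε h.hU h.hUb hF hm hi h.hSU

lemma g_int : Integrable (fun ω => g (cfg ε ω)) sampleLaw :=
  Integrable.of_bound (h.ae_C h.gl h.gm).aestronglyMeasurable 1
    (ae_of_all _ fun ω => by rw [Real.norm_of_nonneg (h.g0 _)]; exact h.g1 _)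

lemma gV_loc {l : ℕ} (hl : l ∈ Finset.range n) : LocalOn C fun X => (g X : ℂ) * V l X := by
  intro X
  have h1 := h.gl X
  have h2 := h.Vl l hl X
  simp only [h1, h2]

lemma gV_meas {l : ℕ} (hl : l ∈ Finset.range n) : FinMeas fun X => (g X : ℂ) * V l X :=
  fun k => (Complex.measurable_ofReal.comp (h.gm k)).mul (h.Vm l hl k)

lemma gn_loc {l : ℕ} (hl : l ∈ Finset.range n) : LocalOn C fun X => g X * ‖V l X‖ := by
  intro X
  have h1 := h.gl X
  have h2 := h.Vl l hl X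
  simp only [h1, h2]

lemma gn_meas {l : ℕ} (hl : l ∈ Finset.range n) : FinMeas fun X => g X * ‖V l X‖ :=
  fun k => (h.gm k).mul (h.Vm l hl k).norm

lemma g2_loc {l : ℕ} (hl : l ∈ Finset.range n) : LocalOn C fun X => g X * ‖V l X‖ ^ 2 := by
  intro X
  have h1 := h.gl X
  have h2 := h.Vl l hl X
  simp only [h1, h2]

lemma g2_meas {l : ℕ} (hl : l ∈ Finset.range n) : FinMeas fun X => g X * ‖V l X‖ ^ 2 :=
  fun k => (h.gm k).mul ((h.Vm l hl k).norm.pow_const 2)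

lemma gn_int {l : ℕ} (hl : l ∈ Finset.range n) :
    Integrable (fun ω => g (cfg ε ω) * ‖V l (cfg ε ω)‖) sampleLaw := by
  refine (h.g_int.add (h.V2 l hl)).mono' (h.ae_C (h.gn_loc hl)
    (h.gn_meas hl)).aestronglyMeasurable (ae_of_all _ fun ω => ?_)
  have h0 := h.g0 (cfg ε ω)
  rw [Real.norm_of_nonneg (mul_nonneg h0 (norm_nonneg _)), Pi.add_apply]
  nlinarith [sq_nonneg (‖V l (cfg ε ω)‖ - 1), norm_nonneg (V l (cfg ε ω))]

lemma gV_int {l : ℕ} (hl : l ∈ Finset.range n) :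
    Integrable (fun ω => (g (cfg ε ω) : ℂ) * V l (cfg ε ω)) sampleLaw := by
  refine (h.gn_int hl).mono' (h.ae_C (h.gV_loc hl)
    (h.gV_meas hl)).aestronglyMeasurable (ae_of_all _ fun ω => ?_)
  rw [norm_mul, Complex.norm_real, Real.norm_of_nonneg (h.g0 _)]

lemma on_loc (l : ℕ) : LocalOn U (onF a b l) := by
  intro X
  have h1 := h.al X
  have h2 := h.bl X
  simp only [onF, h1, h2]

lemma on_meas (l : ℕ) : FinMeas (onF a b l) := by
  intro k
  exact (measurable_of_countable fun z : ℕ × ℕ => if l ∈ Finset.Ico z.1 z.2 then (1 : ℝ) else 0).comp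
    ((h.am k).prodMk (h.bm k))



omit h in
lemma nr_meas {c : Set (ℂ × Bool) → ℕ} (hc : FinMeas c) (l : ℕ) : FinMeas (nrF r c l) :=
  fun k => (measurable_of_countable fun z : ℕ => if l ≤ z + r ∧ z ≤ l + r then (1 : ℝ) else 0).comp
    (hc k)

omit h in
lemma on_01 (l : ℕ) (X : Set (ℂ × Bool)) : 0 ≤ onF a b l X ∧ onF a b l X ≤ 1 := by
  unfold onF; split_ifs <;> norm_num

omit h in
lemma nr_01 {c : Set (ℂ × Bool) → ℕ} (l : ℕ) (X : Set (ℂ × Bool)) :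
    0 ≤ nrF r c l X ∧ nrF r c l X ≤ 1 := by
  unfold nrF; split_ifs <;> norm_num

lemma on_int (l : ℕ) : Integrable (fun ω => onF a b l (cfg ε ω)) sampleLaw :=
  Integrable.of_bound (meas_fun h.hε h.hU h.hUb (h.on_loc l) (h.on_meas l)).aestronglyMeasurable 1
    (ae_of_all _ fun ω => by
      rw [Real.norm_of_nonneg (on_01 l _).1]; exact (on_01 l _).2)

lemma nr_int {c : Set (ℂ × Bool) → ℕ} (hc : LocalOn U c) (hm : FinMeas c) (l : ℕ) :
    Integrable (fun ω => nrF r c l (cfg ε ω)) sampleLaw :=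
  Integrable.of_bound (meas_fun h.hε h.hU h.hUb
    (fun X => by have := hc X; simp only [nrF, this]) (nr_meas hm l)).aestronglyMeasurable 1
    (ae_of_all _ fun ω => by
      rw [Real.norm_of_nonneg (nr_01 l _).1]; exact (nr_01 l _).2)

lemma mzG : Mz ε C (qG S g) := mz_cav h.hC h.gl h.gm h.hSC

lemma mzv {l : ℕ} (hl : l ∈ Finset.range n) : Mz ε C (qv S g V l) :=
  mz_cav h.hC (h.gV_loc hl) (h.gV_meas hl) h.hSC

lemma mzw {l : ℕ} (hl : l ∈ Finset.range n) : Mz ε C (qw S g V l) :=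
  mz_cav h.hC (h.gn_loc hl) (h.gn_meas hl) h.hSC

lemma mzo (l : ℕ) : Mz ε U (qo S a b l) := mz_cav h.hU (h.on_loc l) (h.on_meas l) h.hSU

lemma mzn {c : Set (ℂ × Bool) → ℕ} (hc : LocalOn U c) (hm : FinMeas c) (l : ℕ) :
    Mz ε U (qn S r c l) :=
  mz_cav h.hU (fun X => by have := hc X; simp only [nrF, this]) (nr_meas hm l) h.hSU

lemma iG : Integrable (qG S g) sampleLaw := (h.corr h.gl h.gm h.g_int).1

lemma eG : ∫ ω, qG S g ω ∂sampleLaw = ∫ ω, g (cfg ε ω) ∂sampleLaw :=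
  (h.corr h.gl h.gm h.g_int).2

lemma iv' {l : ℕ} (hl : l ∈ Finset.range n) : Integrable (qv S g V l) sampleLaw :=
  (h.corr (h.gV_loc hl) (h.gV_meas hl) (h.gV_int hl)).1

lemma ev {l : ℕ} (hl : l ∈ Finset.range n) : ∫ ω, qv S g V l ω ∂sampleLaw =
    ∫ ω, (g (cfg ε ω) : ℂ) * V l (cfg ε ω) ∂sampleLaw :=
  (h.corr (h.gV_loc hl) (h.gV_meas hl) (h.gV_int hl)).2

lemma iw' {l : ℕ} (hl : l ∈ Finset.range n) : Integrable (qw S g V l) sampleLaw :=
  (h.corr (h.gn_loc hl) (h.gn_meas hl) (h.gn_int hl)).1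

lemma ew {l : ℕ} (hl : l ∈ Finset.range n) : ∫ ω, qw S g V l ω ∂sampleLaw =
    ∫ ω, g (cfg ε ω) * ‖V l (cfg ε ω)‖ ∂sampleLaw :=
  (h.corr (h.gn_loc hl) (h.gn_meas hl) (h.gn_int hl)).2

lemma iw2' {l : ℕ} (hl : l ∈ Finset.range n) : Integrable (qw2 S g V l) sampleLaw :=
  (h.corr (h.g2_loc hl) (h.g2_meas hl) (h.V2 l hl)).1

lemma ew2 {l : ℕ} (hl : l ∈ Finset.range n) : ∫ ω, qw2 S g V l ω ∂sampleLaw =
    ∫ ω, g (cfg ε ω) * ‖V l (cfg ε ω)‖ ^ 2 ∂sampleLaw :=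
  (h.corr (h.g2_loc hl) (h.g2_meas hl) (h.V2 l hl)).2

lemma io' (l : ℕ) : Integrable (qo S a b l) sampleLaw :=
  (h.ins (h.on_loc l) (h.on_meas l) (h.on_int l)).1

lemma in' {c : Set (ℂ × Bool) → ℕ} (hc : LocalOn U c) (hm : FinMeas c) (l : ℕ) :
    Integrable (qn S r c l) sampleLaw :=
  (h.ins (fun X => by have := hc X; simp only [nrF, this]) (nr_meas hm l)
    (h.nr_int hc hm l)).1

lemma w0' (l : ℕ) (ω : Sample) : 0 ≤ qw S g V l ω :=
  cav_nonneg (fun X => mul_nonneg (h.g0 X) (norm_nonneg _)) _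

lemma w20' (l : ℕ) (ω : Sample) : 0 ≤ qw2 S g V l ω :=
  cav_nonneg (fun X => mul_nonneg (h.g0 X) (sq_nonneg _)) _

omit h in
lemma n0' {c : Set (ℂ × Bool) → ℕ} (l : ℕ) (ω : Sample) : 0 ≤ qn S r c l ω :=
  cav_nonneg (fun X => (nr_01 l X).1) _

lemma sn {c : Set (ℂ × Bool) → ℕ} (hc : LocalOn U c) (hm : FinMeas c) :
    ∑ l ∈ Finset.range n, ∫ ω, qn S r c l ω ∂sampleLaw ≤ 2 * r + 1 := by
  rw [← integral_finset_sum _ fun l _ => h.in' hc hm l]
  have h1 : ∀ ω, ∑ l ∈ Finset.range n, qn S r c l ω ≤ 2 * r + 1 := by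
    intro ω
    simp only [qn_av]
    exact CorMx970.sum_av_nr_le n r _ ⟨∅, Finset.empty_mem_powerset _⟩
  have h2 : Integrable (fun ω => ∑ l ∈ Finset.range n, qn S r c l ω) sampleLaw :=
    integrable_finset_sum _ fun l _ => h.in' hc hm l
  refine (integral_mono h2 (integrable_const (2 * (r : ℝ) + 1)) h1).trans_eq ?_
  rw [integral_const, smul_eq_mul, probReal_univ, one_mul]

/-- **the fields of `Env`** which come from independence and measurability -/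
theorem env {J : Finset ℕ} {t κ : ℂ} {z : ℕ → ℂ} {a1 a2 K q q' c θ ρ : ℝ} {bad : Set Sample}
    {Q Q' E1 E2 dd : Sample → ℝ} {T D : Sample → ℂ} {B : ℝ} (J_le : J ⊆ Finset.range n)
    (g0_pos : 0 < ∫ ω, g (cfg ε ω) ∂sampleLaw) (K0 : 0 ≤ K) (θ0 : 0 ≤ θ) (ρ0 : 0 ≤ ρ)
    (q0 : 0 ≤ q) (q0' : 0 ≤ q') (tn : ‖t‖ = 1) (mbad : MeasurableSet bad)
    (hbad : sampleLaw.real bad ≤ ρ * ∫ ω, g (cfg ε ω) ∂sampleLaw)
    (main : ∀ᵐ ω ∂sampleLaw, ‖t * ((qG S g ω : ℂ) * T ω) +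
        ∑ l ∈ Finset.range n, qv S g V l ω * (qo S a b l ω : ℂ)‖ ≤
      E1 ω + E2 ω + (∑ l ∈ Finset.range n, qw S g V l ω * (qn S r a l ω + qn S r b l ω +
        bad.indicator 1 ω + θ) + √(qG S g ω * Q ω) + √(qG S g ω * Q' ω)))
    (i1 : Integrable E1 sampleLaw)
    (e1 : ∫ ω, E1 ω ∂sampleLaw ≤ a1 * ∫ ω, g (cfg ε ω) ∂sampleLaw)
    (i2 : Integrable E2 sampleLaw)
    (e2 : ∫ ω, E2 ω ∂sampleLaw ≤ a2 * ∫ ω, g (cfg ε ω) ∂sampleLaw)
    (e3 : ∀ l ∈ Finset.range n, ∫ ω, g (cfg ε ω) * ‖V l (cfg ε ω)‖ ^ 2 ∂sampleLaw ≤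
      K ^ 2 * ∫ ω, g (cfg ε ω) ∂sampleLaw)
    (iQ : Integrable Q sampleLaw) (Q0 : ∀ ω, 0 ≤ Q ω)
    (eQ : ∫ ω, Q ω ∂sampleLaw ≤ q ^ 2 * ∫ ω, g (cfg ε ω) ∂sampleLaw)
    (iQ' : Integrable Q' sampleLaw) (Q0' : ∀ ω, 0 ≤ Q' ω)
    (eQ' : ∫ ω, Q' ω ∂sampleLaw ≤ q' ^ 2 * ∫ ω, g (cfg ε ω) ∂sampleLaw)
    (mean : ∀ l ∈ J, ∫ ω, (g (cfg ε ω) : ℂ) * V l (cfg ε ω) ∂sampleLaw =
      ((∫ ω, g (cfg ε ω) ∂sampleLaw : ℝ) : ℂ) * (κ * z l))
    (hT : Measurable[sig ε U] T) (Tb : ∀ ω, ‖T ω‖ ≤ B) (iD : Integrable D sampleLaw)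
    (idd : Integrable dd sampleLaw) (edd : ∫ ω, dd ω ∂sampleLaw ≤ c)
    (disp : ∀ᵐ ω ∂sampleLaw, ‖D ω - ∑ l ∈ J, z l * (qo S a b l ω : ℂ)‖ ≤ dd ω) :
    CorMx970.Env sampleLaw n r J t κ z (∫ ω, g (cfg ε ω) ∂sampleLaw) a1 a2 K q q' c θ ρ
      (fun l => ∫ ω, (g (cfg ε ω) : ℂ) * V l (cfg ε ω) ∂sampleLaw) bad (qG S g) (qv S g V)
      (qw S g V) (qw2 S g V) (qo S a b) (qn S r a) (qn S r b) Q Q' E1 E2 dd T D := by
  have hTm : Measurable T := hT.mono (sig_le h.hε h.hU h.hUb) le_rfl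
  have iT : Integrable T sampleLaw :=
    Integrable.of_bound hTm.aestronglyMeasurable B (ae_of_all _ Tb)
  have iGc : Integrable (fun ω => (qG S g ω : ℂ)) sampleLaw := h.iG.ofReal
  have mGc : Mz ε C fun ω => (qG S g ω : ℂ) := h.mzG.map Complex.measurable_ofReal
  have ioc : ∀ l, Integrable (fun ω => (qo S a b l ω : ℂ)) sampleLaw := fun l => (h.io' l).ofReal
  have moc : ∀ l, Mz ε U fun ω => (qo S a b l ω : ℂ) :=
    fun l => (h.mzo l).map Complex.measurable_ofReal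
  have pn : ∀ {c : Set (ℂ × Bool) → ℕ}, LocalOn U c → FinMeas c → ∀ l ∈ Finset.range n,
      Integrable (fun ω => qw S g V l ω * qn S r c l ω) sampleLaw ∧
      ∫ ω, qw S g V l ω * qn S r c l ω ∂sampleLaw =
        (∫ ω, qw S g V l ω ∂sampleLaw) * ∫ ω, qn S r c l ω ∂sampleLaw :=
    fun hc hm l hl => prod_int h.hε h.hC h.hCb h.hU h.hUb h.hd (h.mzw hl) (h.mzn hc hm l)
      (h.iw' hl) (h.in' hc hm l)
  exact
  { J_le := J_le
    g0_pos := g0_pos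
    K0 := K0
    θ0 := θ0
    ρ0 := ρ0
    q0 := q0
    q0' := q0'
    tn := tn
    iG := h.iG
    G0 := fun ω => cav_nonneg h.g0 _
    G1 := fun ω => cav_le_one h.g1 _
    Gm := h.eG
    mbad := mbad
    hbad := hbad
    main := main
    i1 := i1
    e1 := e1
    i2 := i2
    e2 := e2
    iw := fun l hl => (h.iw' hl).aestronglyMeasurable
    w0 := fun l _ ω => h.w0' l ω
    iw2 := fun l hl => h.iw2' hl
    w20 := fun l _ ω => h.w20' l ω
    wcs := fun l _ ω => cav_cs h.g0 _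
    e3 := fun l hl => by rw [h.ew2 hl]; exact e3 l hl
    iQ := iQ
    Q0 := Q0
    eQ := eQ
    iQ' := iQ'
    Q0' := Q0'
    eQ' := eQ'
    ina := fun l hl => (pn h.al h.am l hl).1
    inb := fun l hl => (pn h.bl h.bm l hl).1
    pna := fun l hl => (pn h.al h.am l hl).2
    pnb := fun l hl => (pn h.bl h.bm l hl).2
    na0 := fun l _ => integral_nonneg fun ω => n0' l ω
    nb0 := fun l _ => integral_nonneg fun ω => n0' l ω
    sna := h.sn h.al h.am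
    snb := h.sn h.bl h.bm
    iv := fun l hl => (prod_int h.hε h.hC h.hCb h.hU h.hUb h.hd (h.mzv hl) (moc l)
      (h.iv' hl) (ioc l)).1
    io := fun l _ => h.io' l
    o0 := fun l _ ω => cav_nonneg (fun X => (on_01 l X).1) _
    o1 := fun l _ ω => cav_le_one (fun X => (on_01 l X).2) _
    mean := mean
    gvn := fun l hl => by
      rw [h.ew hl]
      refine (norm_integral_le_integral_norm _).trans_eq (integral_congr_ae (ae_of_all _ fun ω => ?_))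
      simp only [norm_mul, Complex.norm_real, Real.norm_of_nonneg (h.g0 _)]
    iT := iT
    iGT := (prod_int h.hε h.hC h.hCb h.hU h.hUb h.hd mGc (mz_of hT) iGc iT).1
    iD := iD
    idd := idd
    edd := edd
    disp := disp }

/-- **`EnvF`** for every weight `f` measurable with respect to the configuration in `U` -/
theorem envF {T : Sample → ℂ} {B : ℝ} (hT : Measurable[sig ε U] T) (Tb : ∀ ω, ‖T ω‖ ≤ B)
    {f : Sample → ℂ} (hf : Measurable[sig ε U] f) (f1 : ∀ ω, ‖f ω‖ ≤ 1) :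
    CorMx970.EnvF sampleLaw n (∫ ω, g (cfg ε ω) ∂sampleLaw)
      (fun l => ∫ ω, (g (cfg ε ω) : ℂ) * V l (cfg ε ω) ∂sampleLaw) (qG S g) (qv S g V)
      (qo S a b) T f := by
  have hTm : Measurable T := hT.mono (sig_le h.hε h.hU h.hUb) le_rfl
  have hfm : Measurable f := hf.mono (sig_le h.hε h.hU h.hUb) le_rfl
  have iT : Integrable T sampleLaw :=
    Integrable.of_bound hTm.aestronglyMeasurable B (ae_of_all _ Tb)
  have ifT : Integrable (fun ω => f ω * T ω) sampleLaw :=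
    iT.bdd_mul hfm.aestronglyMeasurable (ae_of_all _ f1)
  have iGc : Integrable (fun ω => (qG S g ω : ℂ)) sampleLaw := h.iG.ofReal
  have mGc : Mz ε C fun ω => (qG S g ω : ℂ) := h.mzG.map Complex.measurable_ofReal
  refine ⟨hfm, f1, ?_, fun l hl => ?_⟩
  · have h1 := (prod_int h.hε h.hC h.hCb h.hU h.hUb h.hd mGc
      ((mz_of hf).mul (mz_of hT)) iGc ifT).2
    have e : ∀ ω, f ω * ((qG S g ω : ℂ) * T ω) = (qG S g ω : ℂ) * (f ω * T ω) := fun ω => by ring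
    simp only [e]
    have e2 : ∫ ω, (qG S g ω : ℂ) ∂sampleLaw = ((∫ ω, qG S g ω ∂sampleLaw : ℝ) : ℂ) :=
      integral_ofReal (𝕜 := ℂ)
    rw [h1, e2, h.eG]
  · have moc : Mz ε U fun ω => (qo S a b l ω : ℂ) := (h.mzo l).map Complex.measurable_ofReal
    have ifo : Integrable (fun ω => f ω * (qo S a b l ω : ℂ)) sampleLaw :=
      (h.io' l).ofReal.bdd_mul hfm.aestronglyMeasurable (ae_of_all _ f1)
    have h1 := (prod_int h.hε h.hC h.hCb h.hU h.hUb h.hd (h.mzv hl)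
      ((mz_of hf).mul moc) (h.iv' hl) ifo).2
    have e : ∀ ω, f ω * (qv S g V l ω * (qo S a b l ω : ℂ)) =
        qv S g V l ω * (f ω * (qo S a b l ω : ℂ)) := fun ω => by ring
    simp only [e]
    rw [h1, h.ev hl]

/-- **the `L¹` bound** -/
theorem l1 {J : Finset ℕ} {t κ : ℂ} {z : ℕ → ℂ} {g0 a1 a2 K q q' c θ ρ : ℝ} {gv : ℕ → ℂ}
    {bad : Set Sample} {w w2 na nb : ℕ → Sample → ℝ} {Q Q' E1 E2 dd : Sample → ℝ}
    {T D : Sample → ℂ} {B : ℝ}
    (hg0 : g0 = ∫ ω, g (cfg ε ω) ∂sampleLaw)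
    (hgv : gv = fun l => ∫ ω, (g (cfg ε ω) : ℂ) * V l (cfg ε ω) ∂sampleLaw)
    (he : CorMx970.Env sampleLaw n r J t κ z g0 a1 a2 K q q' c θ ρ gv bad (qG S g) (qv S g V)
      w w2 (qo S a b) na nb Q Q' E1 E2 dd T D)
    (hT : Measurable[sig ε U] T) (Tb : ∀ ω, ‖T ω‖ ≤ B) (hD : Measurable[sig ε U] D) :
    ∫ ω, ‖t * T ω + κ * D ω‖ ∂sampleLaw ≤ CorMx970.tot n r J a1 a2 K q q' c θ ρ ‖κ‖ := by
  subst hg0 hgv
  have h1 : Measurable[sig ε U] fun ω => t * T ω + κ * D ω :=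
    Measurable.add (Measurable.const_mul hT t) (Measurable.const_mul hD κ)
  exact he.l1 h1 Filter.EventuallyEq.rfl fun f hf f1 => h.envF hT Tb hf f1

end Inp

end Crest.Agent.R143.EnvIx279
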