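import Crest.Agent.R143.NetV_346
import Crest.Agent.R143.EnvI_279
import Crest.Agent.R143.MeasP_609
import Crest.Agent.R143.Lay_416

-- ▼ part R143/Disp_798
section

/-!
# Row 143 (S0194), RIG: the field `disp` of `PolyAx970.Cor` (helper798)

* `tel` : sum of the displacements of the straight tiles between two positions
* `exC_compl` : the mean over `T` is the mean over `V \ T`
* `Pos`, `one`, `one_of_lt` : positions of the two hit vertices in ONE colouring (`x` : hit of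
  `i + 1` in `T`, `y` : hit of `i + 2` in the complementary colouring), tile indicator
* `disp` : `‖(Ey (i+1) - Ey (i+2)) - ∑ k ∈ J, zz k * E one k‖ ≤ (2 c + #corners) h`
-/

set_option autoImplicit false

noncomputable section

open scoped Classical

namespace Crest.Agent.R143.Dispx798

open Crest.Agent.R143.B0x346 Crest.Agent.R143.K33x877 Crest.Agent.R143.NetUx346
  Crest.Agent.R143.NetVx346

/-! ### telescoping -/

/-- indicator of the tile `k` between the positions `a` and `b` -/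
def btw (a b k : ℕ) : ℝ := if a ≤ k ∧ k < b then 1 else 0

theorem btw_nonneg (a b k : ℕ) : 0 ≤ btw a b k := by
  unfold btw; split_ifs <;> norm_num

theorem btw_le (a b k : ℕ) : btw a b k ≤ 1 := by
  unfold btw; split_ifs <;> norm_num

theorem tel {g : ℕ → ℂ} {zz : ℕ → ℂ} {h : ℝ} {n : ℕ} {J : Finset ℕ} (hJ : J ⊆ Finset.range n)
    (hz : ∀ k ∈ J, zz k = g (k + 1) - g k) (hh : ∀ k < n, ‖g (k + 1) - g k‖ ≤ h)
    {a b : ℕ} (hab : a ≤ b) (hb : b ≤ n) :
    ‖(g b - g a) - ∑ k ∈ J, zz k * (btw a b k : ℂ)‖ ≤ ((Finset.range n \ J).card : ℝ) * h := by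
  have e1 : g b - g a = ∑ k ∈ Finset.range n, (g (k + 1) - g k) * (btw a b k : ℂ) := by
    have e2 : ∑ k ∈ Finset.Ico a b, (g (k + 1) - g k) = g b - g a :=
      Finset.sum_Ico_sub g hab
    rw [← e2]
    have e3 : Finset.Ico a b = (Finset.range n).filter fun k => a ≤ k ∧ k < b := by
      ext k
      simp only [Finset.mem_Ico, Finset.mem_filter, Finset.mem_range]
      constructor
      · rintro ⟨h1, h2⟩; exact ⟨by omega, h1, h2⟩
      · rintro ⟨_, h1, h2⟩; exact ⟨h1, h2⟩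
    rw [e3, Finset.sum_filter]
    refine Finset.sum_congr rfl fun k _ => ?_
    unfold btw
    split_ifs <;> simp
  have e4 : ∑ k ∈ J, zz k * (btw a b k : ℂ) =
      ∑ k ∈ J, (g (k + 1) - g k) * (btw a b k : ℂ) :=
    Finset.sum_congr rfl fun k hk => by rw [hz k hk]
  rw [e1, e4, ← Finset.sum_sdiff hJ, add_sub_cancel_right]
  refine (norm_sum_le _ _).trans ?_
  rw [← nsmul_eq_mul]
  refine Finset.sum_le_card_nsmul _ _ _ fun k hk => ?_
  have hk' := Finset.mem_range.1 (Finset.mem_sdiff.1 hk).1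
  rw [norm_mul, Complex.norm_real, Real.norm_of_nonneg (btw_nonneg _ _ _)]
  have h1 := hh k hk'
  have h2 := btw_le a b k
  have h3 := btw_nonneg a b k
  have h4 := norm_nonneg (g (k + 1) - g k)
  nlinarith

/-! ### complementary colourings -/

theorem exC_compl (V : Finset ℂ) (f : Finset ℂ → ℂ) :
    exC V (fun T => f (V \ T)) = exC V f := by
  unfold exC
  congr 1
  refine Finset.sum_nbij' (fun T => V \ T) (fun T => V \ T) ?_ ?_ ?_ ?_ ?_
  · intro T _
    exact Finset.mem_powerset.2 Finset.sdiff_subset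
  · intro T _
    exact Finset.mem_powerset.2 Finset.sdiff_subset
  · intro T hT
    exact Finset.sdiff_sdiff_eq_self (Finset.mem_powerset.1 hT)
  · intro T hT
    exact Finset.sdiff_sdiff_eq_self (Finset.mem_powerset.1 hT)
  · intro T _
    rfl

theorem exC_sum {ι : Type*} (V : Finset ℂ) (I : Finset ι) (f : ι → Finset ℂ → ℂ) :
    exC V (fun T => ∑ k ∈ I, f k T) = ∑ k ∈ I, exC V (f k) := by
  unfold exC
  rw [Finset.sum_comm, Finset.sum_div]

/-! ### the two hit vertices in one colouring -/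

variable {S : Finset ℂ} {A : ZMod 3 → Set ℂ}

/-- hit vertex of `i + 1` in the colouring `T` -/
def xU (S : Finset ℂ) (A : ZMod 3 → Set ℂ) (i : ZMod 3) (T : Finset ℂ) : ℂ :=
  hv S A (i + 1) (T : Set ℂ)

/-- hit vertex of `i + 2` in the complementary colouring -/
def yU (S : Finset ℂ) (A : ZMod 3 → Set ℂ) (i : ZMod 3) (T : Finset ℂ) : ℂ :=
  hv S A (i + 2) ((ff S A \ T : Finset ℂ) : Set ℂ)

theorem Ey_x (hX : Hex S A) (z : ℂ → ℂ) (i : ZMod 3) :
    Ey S A z (i + 1) = exC (ff S A) fun T => z (xU S A i T) :=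
  Ey_eq hX z (i + 1)

theorem Ey_y (hX : Hex S A) (z : ℂ → ℂ) (i : ZMod 3) :
    Ey S A z (i + 2) = exC (ff S A) fun T => z (yU S A i T) := by
  rw [Ey_eq hX z (i + 2), ← exC_compl]
  rfl



/-- **the displacement, one environment**: `px`, `py` = positions of the hit vertices, `y` first -/
theorem disp {g : ℕ → ℂ} {zz : ℕ → ℂ} {h c : ℝ} {n : ℕ} {J : Finset ℕ}
    (hJ : J ⊆ Finset.range n) (hz : ∀ k ∈ J, zz k = g (k + 1) - g k)
    (hh : ∀ k < n, ‖g (k + 1) - g k‖ ≤ h) (hX : Hex S A) (i : ZMod 3)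
    (px py : Finset ℂ → ℕ)
    (hp : ∀ T ⊆ ff S A, py T ≤ px T ∧ px T ≤ n ∧ ‖xU S A i T - g (px T)‖ ≤ c * h ∧
      ‖yU S A i T - g (py T)‖ ≤ c * h) :
    ‖(Ey S A id (i + 1) - Ey S A id (i + 2)) -
        ∑ k ∈ J, zz k * exC (ff S A) (fun T => ((btw (py T) (px T) k : ℝ) : ℂ))‖ ≤
      (2 * c + ((Finset.range n \ J).card : ℝ)) * h := by
  have e : (Ey S A id (i + 1) - Ey S A id (i + 2)) -
        ∑ k ∈ J, zz k * exC (ff S A) (fun T => ((btw (py T) (px T) k : ℝ) : ℂ)) =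
      exC (ff S A) fun T => (xU S A i T - yU S A i T) -
        ∑ k ∈ J, zz k * ((btw (py T) (px T) k : ℝ) : ℂ) := by
    rw [Ey_x hX, Ey_y hX, exC_sub, exC_sub, exC_sum]
    congr 1
    exact Finset.sum_congr rfl fun k _ => (exC_mul _ _ _).symm
  rw [e]
  refine norm_exC _ _ fun T hT => ?_
  obtain ⟨h1, h2, h3, h4⟩ := hp T hT
  have h5 := tel hJ hz hh h1 h2
  have e2 : (xU S A i T - yU S A i T) - ∑ k ∈ J, zz k * ((btw (py T) (px T) k : ℝ) : ℂ) =
      (xU S A i T - g (px T)) - (yU S A i T - g (py T)) +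
        ((g (px T) - g (py T)) - ∑ k ∈ J, zz k * ((btw (py T) (px T) k : ℝ) : ℂ)) := by ring
  rw [e2]
  refine (norm_add_le _ _).trans ?_
  have h6 := norm_sub_le (xU S A i T - g (px T)) (yU S A i T - g (py T))
  linarith

/-! ### the frozen form: `zV` -/

section zV

variable {V : Finset ℂ} {B : ZMod 3 → Set ℂ}

/-- mean end point on the class `j`, frozen form -/
def EV (S V : Finset ℂ) (B : ZMod 3 → Set ℂ) (z : ℂ → ℂ) (j : ZMod 3) : ℂ :=
  exC V fun T => zV S V B j (T : Set ℂ) z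


/-- end point on `w + 1` in the colouring `T` -/
def xV (S V : Finset ℂ) (B : ZMod 3 → Set ℂ) (w : ZMod 3) (T : Finset ℂ) : ℂ :=
  zV S V B (w + 1) (T : Set ℂ) id

/-- end point on `w + 2` in the complementary colouring -/
def yV (S V : Finset ℂ) (B : ZMod 3 → Set ℂ) (w : ZMod 3) (T : Finset ℂ) : ℂ :=
  zV S V B (w + 2) ((V \ T : Finset ℂ) : Set ℂ) id

theorem EV_x (w : ZMod 3) : EV S V B id (w + 1) = exC V (xV S V B w) := rfl

theorem EV_y (w : ZMod 3) : EV S V B id (w + 2) = exC V (yV S V B w) := by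
  unfold EV
  rw [← exC_compl]
  rfl

/-- mean of a bound which fails on `bad` colourings -/
theorem norm_exC_bad {f : Finset ℂ → ℂ} {e C : ℝ} (bad : Finset ℂ → Prop) (he : 0 ≤ e)
    (hC : 0 ≤ C) (h1 : ∀ T ⊆ V, ¬ bad T → ‖f T‖ ≤ e) (h2 : ∀ T ⊆ V, bad T → ‖f T‖ ≤ C) :
    ‖exC V f‖ ≤ e + C * ((∑ T ∈ V.powerset, if bad T then (1 : ℝ) else 0) / 2 ^ V.card) := by
  refine (norm_exC_le V f).trans ?_
  have h3 : ∑ T ∈ V.powerset, ‖f T‖ ≤
      ∑ T ∈ V.powerset, (e + C * (if bad T then (1 : ℝ) else 0)) := by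
    refine Finset.sum_le_sum fun T hT => ?_
    have hT' := Finset.mem_powerset.1 hT
    by_cases hb : bad T
    · rw [if_pos hb, mul_one]
      have := h2 T hT' hb
      linarith
    · rw [if_neg hb, mul_zero, add_zero]
      exact h1 T hT' hb
  have h4 : (0 : ℝ) < 2 ^ V.card := by positivity
  rw [div_le_iff₀ h4]
  refine h3.trans (le_of_eq ?_)
  rw [Finset.sum_add_distrib, Finset.sum_const, Finset.card_powerset, nsmul_eq_mul,
    ← Finset.mul_sum]
  push_cast
  field_simp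

/-- fraction of the bad colourings -/
def frac (V : Finset ℂ) (bad : Finset ℂ → Prop) : ℝ :=
  (∑ T ∈ V.powerset, if bad T then (1 : ℝ) else 0) / 2 ^ V.card


end zV

end Crest.Agent.R143.Dispx798
end
end

-- ▼ part R143/TlA_58

/-!
# Row 143 (S0194), RIG: the tiles of the two touches of the polygon (helper58)

* `tlz g lo hi v` : least index in `[lo, hi]` whose gate `g a` is nearest to `v` (Borel in `v`)
* `fl` : colours flipped; `FMe.fl`, `LocalOn.fl`
* `loc_yP` : the end points are local on the window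
* `ta`, `tb` : tile of the end point on the label `w + 2` (flipped colours; own arc `[0, r]`) and of
  the end point on the label `w + 1` (own arc `[r, n]`), `w` = white label: `ta ≤ r ≤ tb ≤ n` for
  every configuration; `ta_loc`, `ta_meas`, `tb_loc`, `tb_meas` : fields of 279's `Inp`
* `yP_clr`, `yP_fl_clr` : the end points of a colouring = 798's `xV`, `yV`
* `ta_clr`, `tb_clr`, `qo_exC` : the means of 279 are the means of 798's `dispV`
-/

set_option autoImplicit false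

noncomputable section

open scoped Classical

namespace Crest.Agent.R143.TlAx58

open MeasureTheory Set
open Crest.ProbabilityR.Voronoi
open Crest.Agent.R143.PP0x831 Crest.Agent.R143.Janx304 Crest.Agent.R143.Prodx609
open Crest.Agent.R143.FinMx609 Crest.Agent.R143.FinTx609 Crest.Agent.R143.FinUx609
open Crest.Agent.R143.MeasPx609
open Crest.Agent.R143.NetUx346 Crest.Agent.R143.NetVx346 Crest.Agent.R143.PolyUx346
open Crest.Agent.R143.K33x877 (Clu)
open Crest.Agent.R143.IndLoc3x279 (fs clr cav)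
open Crest.Agent.R143.TileRx228 Crest.Agent.R143.LayQx811 Crest.Agent.R143.Layx416

/-! ### the nearest index of an interval -/

/-- `a` is nearest to `v` among the indices `lo, …, hi` -/
def NrI (g : ℕ → ℂ) (lo hi : ℕ) (v : ℂ) (a : ℕ) : Prop :=
  (lo ≤ a ∧ a ≤ hi) ∧ ∀ b, lo ≤ b → b ≤ hi → dist (g a) v ≤ dist (g b) v

/-- least nearest index -/
def tlz (g : ℕ → ℂ) (lo hi : ℕ) (v : ℂ) : ℕ := sInf {a | NrI g lo hi v a}

theorem exists_nrI (g : ℕ → ℂ) {lo hi : ℕ} (h : lo ≤ hi) (v : ℂ) : ∃ a, NrI g lo hi v a := by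
  obtain ⟨a, ha, hm⟩ := Finset.exists_min_image (Finset.Icc lo hi) (fun b => dist (g b) v)
    ⟨lo, Finset.mem_Icc.2 ⟨le_rfl, h⟩⟩
  exact ⟨a, Finset.mem_Icc.1 ha, fun b h1 h2 => hm b (Finset.mem_Icc.2 ⟨h1, h2⟩)⟩

theorem nrI_tlz (g : ℕ → ℂ) {lo hi : ℕ} (h : lo ≤ hi) (v : ℂ) :
    NrI g lo hi v (tlz g lo hi v) := Nat.sInf_mem (exists_nrI g h v)

theorem le_tlz (g : ℕ → ℂ) {lo hi : ℕ} (h : lo ≤ hi) (v : ℂ) : lo ≤ tlz g lo hi v :=
  (nrI_tlz g h v).1.1

theorem tlz_le (g : ℕ → ℂ) {lo hi : ℕ} (h : lo ≤ hi) (v : ℂ) : tlz g lo hi v ≤ hi :=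
  (nrI_tlz g h v).1.2

/-- the gate of `tlz` is nearest -/
theorem dist_tlz (g : ℕ → ℂ) {lo hi : ℕ} (v : ℂ) {b : ℕ} (h1 : lo ≤ b) (h2 : b ≤ hi) :
    dist (g (tlz g lo hi v)) v ≤ dist (g b) v := (nrI_tlz g (h1.trans h2) v).2 b h1 h2

theorem meas_nrI (g : ℕ → ℂ) (lo hi a : ℕ) : MeasurableSet {v | NrI g lo hi v a} := by
  have e : {v | NrI g lo hi v a} = {_v | lo ≤ a ∧ a ≤ hi} ∩ ⋂ b : ℕ, ⋂ (_ : lo ≤ b),
      ⋂ (_ : b ≤ hi), {v | dist (g a) v ≤ dist (g b) v} := by
    ext v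
    simp only [NrI, mem_ofPred_eq, mem_inter_iff, mem_iInter]
  rw [e]
  refine (MeasurableSet.const _).inter ?_
  refine MeasurableSet.iInter fun b => MeasurableSet.iInter fun _ => MeasurableSet.iInter fun _ => ?_
  exact measurableSet_le (measurable_const.dist measurable_id) (measurable_const.dist measurable_id)

/-- `tlz` is a Borel function of the point -/
theorem meas_tlz (g : ℕ → ℂ) (lo hi : ℕ) : Measurable (tlz g lo hi) := by
  by_cases h : lo ≤ hi
  · refine measurable_to_countable' fun n => ?_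
    have e : tlz g lo hi ⁻¹' {n} = {v | NrI g lo hi v n} ∩ ⋂ m : ℕ, ⋂ (_ : m < n),
        {v | NrI g lo hi v m}ᶜ := by
      ext v
      simp only [mem_preimage, mem_singleton_iff, mem_inter_iff, mem_ofPred_eq, mem_iInter,
        mem_compl_iff]
      constructor
      · rintro rfl
        exact ⟨nrI_tlz g h v, fun m hm hc => absurd (Nat.sInf_le hc) (not_le.2 hm)⟩
      · rintro ⟨h1, h2⟩
        refine le_antisymm (Nat.sInf_le h1) ?_
        by_contra hc
        exact h2 _ (not_le.1 hc) (nrI_tlz g h v)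
    rw [e]
    exact (meas_nrI g lo hi n).inter (MeasurableSet.iInter fun m =>
      MeasurableSet.iInter fun _ => (meas_nrI g lo hi m).compl)
  · have e : tlz g lo hi = fun _ => 0 := by
      funext v
      unfold tlz
      have : {a | NrI g lo hi v a} = ∅ := by
        ext a
        simp only [mem_ofPred_eq, mem_empty_iff_false, iff_false]
        intro ha
        exact h (ha.1.1.trans ha.1.2)
      rw [this, Nat.sInf_empty]
    rw [e]
    exact measurable_const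

/-! ### flipped colours -/

/-- the configuration with flipped colours -/
def fl (X : Set (ℂ × Bool)) : Set (ℂ × Bool) := {p | (p.1, !p.2) ∈ X}

theorem ps_fl (X : Set (ℂ × Bool)) : ps (fl X) = ps X := by
  ext x
  simp only [ps, fl, mem_image, mem_ofPred_eq, Prod.exists, exists_and_right, exists_eq_right]
  constructor
  · rintro ⟨b, h⟩
    exact ⟨_, h⟩
  · rintro ⟨b, h⟩
    exact ⟨!b, by simpa using h⟩

theorem fl_range {n : ℕ} (z : Fin n → ℂ × Bool) :
    fl (range z) = range fun i => ((z i).1, !(z i).2) := by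
  ext ⟨x, b⟩
  simp only [fl, mem_ofPred_eq, mem_range, Prod.mk.injEq]
  constructor
  · rintro ⟨i, hi⟩
    exact ⟨i, by rw [hi], by rw [hi]; simp⟩
  · rintro ⟨i, h1, h2⟩
    exact ⟨i, by rw [← h1, ← h2]; simp⟩


theorem fme_fl {C : Type*} [MeasurableSpace C] {F : Set (ℂ × Bool) → C} (hF : FMe F) :
    FMe fun X => F (fl X) := by
  intro n
  have e : (fun z : Fin n → ℂ × Bool => (fun X => F (fl X)) (range z)) =
      (fun z : Fin n → ℂ × Bool => F (range z)) ∘ fun z i => ((z i).1, !(z i).2) := by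
    funext z
    show F (fl (range z)) = _
    rw [fl_range]
    rfl
  rw [e]
  refine (hF n).comp (measurable_pi_iff.2 fun i => ?_)
  have h1 : Measurable fun z : Fin n → ℂ × Bool => z i := measurable_pi_apply i
  have h2 : Measurable fun b : Bool => !b := measurable_of_countable _
  exact (measurable_fst.comp h1).prodMk (h2.comp (measurable_snd.comp h1))

theorem loc_fl {C : Type*} {W : Set ℂ} {F : Set (ℂ × Bool) → C} (hF : LocalOn W F) :
    LocalOn W fun X => F (fl X) := fun X => hF (fl X)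

/-! ### the end points are local -/

theorem mem_of_fs {P : Set ℂ} {x : ℂ} (h : x ∈ fs P) : x ∈ P := by
  unfold IndLoc3x279.fs at h
  split_ifs at h with hP
  · exact hP.mem_toFinset.1 h
  · exact absurd h (Finset.notMem_empty x)

theorem zV_congr {S V : Finset ℂ} {B : ZMod 3 → Set ℂ} {i : ZMod 3} {T T' : Set ℂ} {z : ℂ → ℂ}
    (h : ∀ x ∈ V, x ∈ T ↔ x ∈ T') : zV S V B i T z = zV S V B i T' z := by
  have e1 : {x | x ∈ V} ∩ T = {x | x ∈ V} ∩ T' := by
    ext x
    simp only [mem_inter_iff, mem_ofPred_eq]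
    exact and_congr_right fun hx => h x hx
  have e2 : {x | x ∈ V} \ T = {x | x ∈ V} \ T' := by
    ext x
    simp only [Set.mem_sdiff, mem_ofPred_eq]
    exact and_congr_right fun hx => not_congr (h x hx)
  have e : hitsV S V B i T = hitsV S V B i T' := by
    ext t
    rw [mem_hitsV, mem_hitsV]
    unfold HitV
    rw [e1, e2]
  unfold zV
  rw [e]

theorem Sf_ovr (W : Set ℂ) (X : Set (ℂ × Bool)) : Sf W (X ∩ ovr W) = Sf W X := by
  unfold Sf
  congr 1
  ext x
  simp only [ps, ovr, mem_inter_iff, mem_image, mem_ofPred_eq]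
  constructor
  · rintro ⟨⟨q, ⟨h1, h2⟩, rfl⟩, h3⟩; exact ⟨⟨q, h1, rfl⟩, h3⟩
  · rintro ⟨⟨q, h1, rfl⟩, h3⟩; exact ⟨⟨q, ⟨h1, h3⟩, rfl⟩, h3⟩

/-- **the end points are local on the window** -/
theorem loc_yP (u : Poly) (d : ℝ) (W : Set ℂ) (z : ℂ → ℂ) (i : ZMod 3) :
    LocalOn W (yP u d W z i) := by
  intro X
  show yP u d W z i X = yP u d W z i (X ∩ ovr W)
  unfold yP
  rw [Sf_ovr]
  refine zV_congr fun x hx => ?_
  have hx1 : x ∈ Sf W X := (Finset.mem_filter.1 hx).1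
  have hx2 : x ∈ W := (mem_of_fs hx1).2
  show (x, true) ∈ X ↔ (x, true) ∈ X ∩ ovr W
  exact ⟨fun h => ⟨h, hx2⟩, fun h => h.1⟩

/-! ### the tiles of the touches -/

section tiles

/-- gate `k` of the corridor of the white label `w` -/
def gt (h : ℝ) (W : ℤ → ℤ × ℤ) (A e : ℤ → ℤ) (w : ZMod 3) (k : ℕ) : ℂ := gz h W (al A e w + k)

/-- **tile of the end point on `w + 2`** (flipped colours), own arc -/
def ta (u : Poly) (d h : ℝ) (Wd : Set ℂ) (W : ℤ → ℤ × ℤ) (A e : ℤ → ℤ) (w : ZMod 3)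
    (X : Set (ℂ × Bool)) : ℕ :=
  tlz (gt h W A e w) 0 (rr A e w) (yP u d Wd id (w + 2) (fl X))

/-- **tile of the end point on `w + 1`**, own arc -/
def tb (u : Poly) (d h : ℝ) (Wd : Set ℂ) (W : ℤ → ℤ × ℤ) (A e : ℤ → ℤ) (w : ZMod 3)
    (X : Set (ℂ × Bool)) : ℕ :=
  tlz (gt h W A e w) (rr A e w) (nn A e w) (yP u d Wd id (w + 1) X)

variable (u : Poly) (d h : ℝ) (Wd : Set ℂ) {n M : ℕ} {m : ℤ} {p W : ℤ → ℤ × ℤ} {A e : ℤ → ℤ}
  (w : ZMod 3) (X : Set (ℂ × Bool))

theorem ta_le : ta u d h Wd W A e w X ≤ rr A e w := tlz_le _ (Nat.zero_le _) _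

theorem rr_le_nn (H : Lay n M m p W A e) : rr A e w ≤ nn A e w := by
  have := H.rr_lt w
  omega


theorem tb_le (H : Lay n M m p W A e) : tb u d h Wd W A e w X ≤ nn A e w :=
  tlz_le _ (rr_le_nn w H) _


theorem ta_le_nn (H : Lay n M m p W A e) : ta u d h Wd W A e w X ≤ nn A e w :=
  (ta_le u d h Wd w X).trans (rr_le_nn w H)

/-- the fields of `EnvIx279.Inp` -/
theorem ta_loc (W : ℤ → ℤ × ℤ) (A e : ℤ → ℤ) : LocalOn Wd (ta u d h Wd W A e w) := by
  intro X
  have h1 := loc_fl (loc_yP u d Wd id (w + 2)) X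
  simp only at h1
  unfold ta
  rw [h1]

theorem tb_loc (W : ℤ → ℤ × ℤ) (A e : ℤ → ℤ) : LocalOn Wd (tb u d h Wd W A e w) := by
  intro X
  unfold tb
  rw [loc_yP u d Wd id (w + 1) X]

theorem ta_meas (W : ℤ → ℤ × ℤ) (A e : ℤ → ℤ) (hWd : MeasurableSet Wd) :
    FinMeas (ta u d h Wd W A e w) := fun n =>
  (meas_tlz _ _ _).comp (fme_fl (fme_yP u d hWd measurable_id (w + 2)) n)

theorem tb_meas (W : ℤ → ℤ × ℤ) (A e : ℤ → ℤ) (hWd : MeasurableSet Wd) :
    FinMeas (tb u d h Wd W A e w) := fun n =>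
  (meas_tlz _ _ _).comp (fme_yP u d hWd measurable_id (w + 1) n)

/-- larger windows -/
theorem LocalOn.mono {C : Type*} {W W' : Set ℂ} {F : Set (ℂ × Bool) → C} (hF : LocalOn W F)
    (h : W ⊆ W') : LocalOn W' F := by
  intro X
  rw [hF X, hF (X ∩ {p | p.1 ∈ W'})]
  congr 1
  ext p
  simp only [mem_inter_iff, mem_ofPred_eq]
  exact ⟨fun hp => ⟨⟨hp.1, h hp.2⟩, hp.2⟩, fun hp => ⟨hp.1.1, hp.2⟩⟩

end tiles

/-! ### colourings -/

section colour

variable {u : Poly} {d h : ℝ} {Wd : Set ℂ} {S β : Finset ℂ} {z : ℂ → ℂ}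

/-- sites, free sites and labels of the window -/
def Sw (Wd : Set ℂ) (S : Finset ℂ) : Finset ℂ := S.filter fun x => x ∈ Wd
def Vw (u : Poly) (d : ℝ) (Wd : Set ℂ) (S : Finset ℂ) : Finset ℂ := Vin (Sw Wd S) u.P d
def Bw (u : Poly) (d : ℝ) (Wd : Set ℂ) (S : Finset ℂ) : ZMod 3 → Set ℂ :=
  NetVx346.Bl (Sw Wd S) (Vw u d Wd S) u.Lab

theorem Vw_sub : Vw u d Wd S ⊆ S :=
  (Finset.filter_subset _ _).trans (Finset.filter_subset _ _)

theorem Sf_clr' (Wd : Set ℂ) (S β : Finset ℂ) : Sf Wd (clr S β) = Sw Wd S := by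
  rw [← Finset.coe_inj, Sf_coe (clr_fin S β), ps_clr]
  ext x
  simp [Sw]

theorem Sf_fl (Wd : Set ℂ) (X : Set (ℂ × Bool)) : Sf Wd (fl X) = Sf Wd X := by
  unfold Sf
  rw [ps_fl]

/-- the end point of a colouring -/
theorem yP_clr (w : ZMod 3) (hβ : β ⊆ S) :
    yP u d Wd z w (clr S β) =
      zV (Sw Wd S) (Vw u d Wd S) (Bw u d Wd S) w ((β ∩ Vw u d Wd S : Finset ℂ) : Set ℂ) z := by
  unfold yP
  rw [Sf_clr', bl_clr hβ]
  refine zV_congr fun x hx => ?_
  rw [Finset.mem_coe, Finset.mem_coe, Finset.mem_inter]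
  exact ⟨fun h => ⟨h, hx⟩, fun h => h.1⟩

/-- the end point of the complementary colouring -/
theorem yP_fl_clr (w : ZMod 3) :
    yP u d Wd z w (fl (clr S β)) =
      zV (Sw Wd S) (Vw u d Wd S) (Bw u d Wd S) w
        ((Vw u d Wd S \ (β ∩ Vw u d Wd S) : Finset ℂ) : Set ℂ) z := by
  unfold yP
  rw [Sf_fl, Sf_clr']
  refine zV_congr fun x hx => ?_
  have hxS : x ∈ S := Vw_sub hx
  rw [Finset.mem_coe, Finset.mem_sdiff, Finset.mem_inter]
  show (x, !true) ∈ clr S β ↔ _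
  unfold IndLoc3x279.clr
  simp only [mem_ofPred_eq, Bool.not_true, Bool.false_eq_true, false_iff]
  constructor
  · rintro ⟨_, h2⟩
    exact ⟨hx, fun h3 => h2 h3.1⟩
  · rintro ⟨_, h2⟩
    exact ⟨hxS, fun h3 => h2 ⟨h3, hx⟩⟩

variable {W : ℤ → ℤ × ℤ} {A e : ℤ → ℤ}

/-- the tile of the touch as a function of the colouring of the free sites -/
def ca (u : Poly) (d h : ℝ) (Wd : Set ℂ) (S : Finset ℂ) (W : ℤ → ℤ × ℤ) (A e : ℤ → ℤ) (w : ZMod 3)
    (T : Finset ℂ) : ℕ :=
  tlz (gt h W A e w) 0 (rr A e w)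
    (Dispx798.yV (Sw Wd S) (Vw u d Wd S) (Bw u d Wd S) w T)

def cb (u : Poly) (d h : ℝ) (Wd : Set ℂ) (S : Finset ℂ) (W : ℤ → ℤ × ℤ) (A e : ℤ → ℤ) (w : ZMod 3)
    (T : Finset ℂ) : ℕ :=
  tlz (gt h W A e w) (rr A e w) (nn A e w)
    (Dispx798.xV (Sw Wd S) (Vw u d Wd S) (Bw u d Wd S) w T)

theorem ta_clr (w : ZMod 3) :
    ta u d h Wd W A e w (clr S β) = ca u d h Wd S W A e w (β ∩ Vw u d Wd S) := by
  unfold ta ca Dispx798.yV
  rw [yP_fl_clr (w + 2)]

theorem tb_clr (w : ZMod 3) (hβ : β ⊆ S) :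
    tb u d h Wd W A e w (clr S β) = cb u d h Wd S W A e w (β ∩ Vw u d Wd S) := by
  unfold tb cb Dispx798.xV
  rw [yP_clr (w + 1) hβ]

/-- the mean over the colourings of `S` of a function of the colouring of the free sites -/
theorem cav_exC {V : Finset ℂ} (hV : V ⊆ S) {F : Set (ℂ × Bool) → ℂ} {f : Finset ℂ → ℂ}
    (hF : ∀ β ⊆ S, F (clr S β) = f (β ∩ V)) : cav F S = exC V f := by
  have h1 : exC V f = exC V fun T => f (T ∩ V) := by
    unfold exC
    congr 1
    refine Finset.sum_congr rfl fun T hT => ?_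
    show f T = f (T ∩ V)
    rw [Finset.inter_eq_left.2 (Finset.mem_powerset.1 hT)]
  rw [h1, exC_all hV (g := fun T => f (T ∩ V)) (fun β => by
    simp only [Finset.inter_assoc, Finset.inter_self])]
  unfold IndLoc3x279.cav
  congr 1
  exact Finset.sum_congr rfl fun β hβ => hF β (Finset.mem_powerset.1 hβ)

theorem cav_ofReal (F : Set (ℂ × Bool) → ℝ) (S : Finset ℂ) :
    ((cav F S : ℝ) : ℂ) = cav (fun X => (F X : ℂ)) S := by
  unfold IndLoc3x279.cav
  rw [Complex.real_smul, smul_eq_mul]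
  push_cast
  rfl

/-- **279's mean of the tile indicator is the mean of `dispV`** -/
theorem qo_exC (w : ZMod 3) (l : ℕ) (S : Sample → Finset ℂ) (ω : Sample) :
    ((EnvIx279.qo S (ta u d h Wd W A e w) (tb u d h Wd W A e w) l ω : ℝ) : ℂ) =
      exC (Vw u d Wd (S ω)) fun T =>
        ((Dispx798.btw (ca u d h Wd (S ω) W A e w T) (cb u d h Wd (S ω) W A e w T) l : ℝ) : ℂ) := by
  unfold EnvIx279.qo
  rw [cav_ofReal]
  refine cav_exC Vw_sub fun β hβ => ?_
  show ((EnvIx279.onF _ _ l _ : ℝ) : ℂ) = _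
  congr 1
  unfold EnvIx279.onF Dispx798.btw
  rw [ta_clr w, tb_clr w hβ]
  simp only [Finset.mem_Ico]

end colour

end Crest.Agent.R143.TlAx58
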