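import Crest.Agent.R143.Cd5_806
import Crest.Agent.R143.TlA_58
import Crest.Agent.R143.LayU_416
import Crest.Agent.R143.MeasD_609

-- ▼ part R143/Cd6_806
section

/-!
# Row 143 (S0194), block D, TentC, file 6 (helper806): the polygon

* `CellDom.norm_idx` : boundary indices modulo the period
* `CellDom.nb`, `CellDom.side_fine`, `CellDom.cen_mem`, `CellDom.mth`
-/

set_option autoImplicit false

noncomputable section

namespace Crest.Agent.R143.Cdx806

open Set Metric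
open Crest.Agent.R158.Sp896 Crest.Agent.R143.Tentx359 Crest.Agent.R158.Tj656
open Crest.Agent.R143.Tenx416 (nx Pg OnS)

theorem Pg_diff_Om {s : ℝ} (hs : 0 < s) {F : Set V} {L : ℕ} {v : ℕ → V} (hc : Cyc F L v) {z : ℂ}
    (hz : z ∈ Pg s F) (hz' : z ∉ Om s F) : ∃ x, z ∈ ed s (v x) (v (x + 1)) := by
  obtain ⟨q, hq, hzq⟩ := mem_Pg.1 hz
  rw [mem_om hs] at hz'
  push Not at hz'
  obtain ⟨q', hzq', hq'⟩ := hz'
  obtain ⟨p, p', h1, h2, h3, h4, h5⟩ := Crest.Agent.R158.Tg331.exists_adj hs hzq hzq' hq hq'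
  obtain ⟨a, b, hab, rfl, rfl⟩ := exists_dart h1
  obtain ⟨i, -, hi1, hi2⟩ := hc.all a b hab h2 h3
  refine ⟨i, ?_⟩
  rw [hi1, hi2, Crest.Agent.R158.Tg331.mem_ed_iff hs hab]
  exact ⟨h4, h5⟩

/-- a frontier point on a short segment -/
theorem seg_front {s : ℝ} (hs : 0 < s) {F : Set V} {x w : ℂ} (hx : x ∈ Pg s F) (hw : w ∉ Pg s F) :
    ∃ z, z ∈ Pg s F ∧ z ∉ Om s F ∧ dist z x ≤ dist w x ∧ dist z w ≤ dist w x := by
  have hpre : IsPreconnected (segment ℝ x w) := (convex_segment x w).isPreconnected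
  have h1 : ∃ z ∈ segment ℝ x w, z ∈ Pg s F ∧ z ∉ Om s F := by
    by_contra hcon
    push Not at hcon
    obtain ⟨z, -, hz1, hz2⟩ := hpre (Om s F) (Pg s F)ᶜ (om_open s F)
      (Pg_closed hs F).isOpen_compl (fun z hz => by
        by_cases h : z ∈ Pg s F
        · exact Or.inl (hcon z hz h)
        · exact Or.inr h) ⟨x, left_mem_segment ℝ x w, hcon x (left_mem_segment ℝ x w) hx⟩
      ⟨w, right_mem_segment ℝ x w, hw⟩
    exact hz2 (mem_Pg.2 ⟨_, (mem_om hs).1 hz1 _ (mem_cellOf hs z), mem_cellOf hs z⟩)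
  obtain ⟨z, hz, hzP, hzO⟩ := h1
  refine ⟨z, hzP, hzO, ?_, ?_⟩
  · have : segment ℝ x w ⊆ closedBall x (dist w x) :=
      (convex_closedBall x _).segment_subset (mem_closedBall_self dist_nonneg) (mem_closedBall.2 le_rfl)
    exact this hz
  · have : segment ℝ x w ⊆ closedBall w (dist w x) :=
      (convex_closedBall w _).segment_subset (mem_closedBall.2 (by rw [dist_comm]))
        (mem_closedBall_self dist_nonneg)
    exact this hz

section

variable {F : Set V} {L : ℕ} {v : ℕ → V} {m : ℕ → ℕ} {c : V} {M : ℤ} {U : ℕ → ℕ → V} {s : ℝ}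

theorem CellDom.norm_idx (D : CellDom F L v m c M U) (x : ℕ) : ∃ (i : ZMod 4) (y : ℕ),
    m i.val ≤ y ∧ y < nx L m i ∧ v y = v x ∧ v (y + 1) = v (x + 1) := by
  have h1 := D.cfg.m01
  have h2 := D.cfg.m12
  have h3 := D.cfg.m23
  have h4 := D.cfg.m3L
  have hL := D.cfg.cyc.four_le
  have hp : Function.Periodic v L := D.cfg.cyc.per
  have e1 : v (x % L) = v x := hp.map_mod_nat x
  have e2 : v (x % L + 1) = v (x + 1) := by
    rw [← hp.map_mod_nat (x + 1), ← hp.map_mod_nat (x % L + 1), Nat.mod_add_mod]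
  have e3 : x % L < L := Nat.mod_lt _ (by omega)
  rcases Nat.lt_or_ge (x % L) (m 0) with g0 | g0
  · refine ⟨3, x % L + L, ?_, ?_, ?_, ?_⟩
    · show m 3 ≤ x % L + L
      omega
    · show x % L + L < m 0 + L
      omega
    · rw [hp]; exact e1
    · rw [show x % L + L + 1 = x % L + 1 + L by ring, hp]; exact e2
  rcases Nat.lt_or_ge (x % L) (m 1) with g1 | g1
  · exact ⟨0, x % L, g0, g1, e1, e2⟩
  rcases Nat.lt_or_ge (x % L) (m 2) with g2 | g2
  · exact ⟨1, x % L, g1, g2, e1, e2⟩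
  rcases Nat.lt_or_ge (x % L) (m 3) with g3 | g3
  · exact ⟨2, x % L, g2, g3, e1, e2⟩
  · refine ⟨3, x % L, g3, ?_, e1, e2⟩
    show x % L < m 0 + L
    omega

theorem CellDom.edge_lr (D : CellDom F L v m c M U) (hs : 0 < s) {y : ℕ} {z : ℂ}
    (hz : z ∈ ed s (v y) (v (y + 1))) : z ∈ sq s (lcv v y) ∧ z ∈ sq s (rcv v y) :=
  (Crest.Agent.R158.Tg331.mem_ed_iff hs (D.cfg.cyc.step y)).1 hz

theorem Rg_not_Pg (hs : 0 < s) {i : ZMod 4} {w : ℂ} (h : w ∈ Rg s F v m c M U i) :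
    w ∉ Pg s F := by
  intro hw
  obtain ⟨q, hq, hwq⟩ := mem_Pg.1 hw
  exact body_not_Om hs (Or.inl hq) hwq i h.1

/-- the mark `j` as a last mark -/
theorem CellDom.last_mark (D : CellDom F L v m c M U) (j : ZMod 4) :
    v (nx L m (j - 1)) = v (m j.val) ∧ v (nx L m (j - 1) + 1) = v (m j.val + 1) := by
  have hp : Function.Periodic v L := D.cfg.cyc.per
  rcases z4 j with rfl | rfl | rfl | rfl
  · have e : nx L m (0 - 1) = m 0 + L := rfl
    rw [e, show m 0 + L + 1 = m 0 + 1 + L by ring, hp, hp]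
    exact ⟨rfl, rfl⟩
  · exact ⟨rfl, rfl⟩
  · exact ⟨rfl, rfl⟩
  · exact ⟨rfl, rfl⟩

/-- the region `i` only comes near the polygon at the side `i` -/
theorem CellDom.nb (D : CellDom F L v m c M U) (hs : 0 < s) {x : ℂ} (hx : x ∈ Pg s F)
    (i : ZMod 4) {w : ℂ} (hw : w ∈ Rg s F v m c M U i) (h : dist w x < s / 4) :
    ∃ y, OnS L m i y ∧ ∃ z ∈ ed s (v y) (v (y + 1)), dist z x < s / 4 := by
  obtain ⟨z, hz, hz', hd1, hd2⟩ := seg_front hs hx (Rg_not_Pg hs hw)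
  obtain ⟨x0, hx0⟩ := Pg_diff_Om hs D.cfg.cyc hz hz'
  obtain ⟨j, y, hy1, hy2, hy3, hy4⟩ := D.norm_idx x0
  rw [← hy3, ← hy4] at hx0
  have hzr := (D.edge_lr hs hx0).2
  have hq := (mem_om hs).1 hw.1 _ (mem_cellOf hs w)
  have hN := near_N8 hs hzr (mem_cellOf hs w) (by linarith)
  have hdz : dist z x < s / 4 := by linarith
  rcases hy1.eq_or_lt with he | hlt
  · have e1 : rcv v y = U j.val (0 + 1) := by
      rw [← he]; exact (D.cfg.start1 _ (zlt j)).symm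
    rw [e1] at hN
    rcases D.near_tent j hN hq.1 with h2 | h2
    · have := D.disj hq h2
      subst this
      exact ⟨y, ⟨hy1, hy2.le⟩, z, hx0, hdz⟩
    · have := D.disj hq h2
      subst this
      obtain ⟨f1, f2⟩ := D.last_mark j
      refine ⟨nx L m (j - 1), ⟨(D.mark_le _).le, le_rfl⟩, z, ?_, hdz⟩
      rw [f1, f2, he]
      exact hx0
  · have h2 := D.arc j y hlt hy2
    have h3 := D.sep _ _ _ h2 _ hq hN
    subst h3
    exact ⟨y, ⟨hy1, hy2.le⟩, z, hx0, hdz⟩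



/-! ### the mouth -/



/-- middle of the edge `x` -/
def mid (s : ℝ) (v : ℕ → V) (x : ℕ) : ℂ := (pt s (v x) + pt s (v (x + 1))) / 2



end

end Crest.Agent.R143.Cdx806
end
end

-- ▼ part R143/TlG_58

/-!
# Row 143 (S0194), RIG: geometry of the tiles of the touches (helper58)

* `mem_arcs` : every point of `u.P` off the open polygon is on an arc of `u`
* `hit_arc` : a site of `Bl S (Vin S u.P d) u.Lab i` is at distance `≤ 2 d` from the arc `i`
* `hit_tile` : and at distance `≤ 8 h + 2 d` from a gate of its own arc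
* `ta_near`, `tb_near`, `ca_near`, `cb_near` : the tiles of `TlA_58` are within `8 h + 2 d` of the
  hit vertex if there is exactly one hit
* `gate_idx`, `idx_near` : two indices whose gates are near are near
* `hol_Sw`, `Sw_Ap`, `mI_EV`, `DI_EV` : window `u.P`, 609's `DI`
-/

set_option autoImplicit false

noncomputable section

open scoped Classical

namespace Crest.Agent.R143.TlGx58

open MeasureTheory Set
open Crest.ProbabilityR.Voronoi
open Crest.Agent.R143.NetUx346 Crest.Agent.R143.NetVx346 Crest.Agent.R143.PolyUx346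
open Crest.Agent.R143.TileRx228 Crest.Agent.R143.LayQx811 Crest.Agent.R143.Layx416
open Crest.Agent.R143.LayUx416 Crest.Agent.R143.TlAx58
open Crest.Agent.R143.Brkx478 (Bk cells)
open Crest.Agent.R143.Locx922 (Hol)
open Crest.Agent.R143.LocUx700 (deep mem_Vin)
open Crest.Agent.R158.Tj656 (Om)
open Crest.Agent.R158.Sp896 (V pt ed)

/-! ### the boundary of the polygon is the union of the arcs -/

theorem exists_lab' (i : ZMod 3) : ∃ l : Fin 3, ((l : ℕ) : ZMod 3) = i := by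
  revert i
  decide

theorem exists_lab (j : ℤ) : ∃ l : Fin 3, ((l : ℕ) : ZMod 3) = -(j : ZMod 3) := exists_lab' _

theorem lab_inj {l l' : Fin 3} (h : ((l : ℕ) : ZMod 3) = ((l' : ℕ) : ZMod 3)) : l = l' := by
  revert l l'
  decide

/-- **every boundary point is on an arc** -/
theorem mem_arcs (u : Poly) {z : ℂ} (hz : z ∈ u.P) (hz' : z ∉ Om u.s (cells (u.U : Set Bk))) :
    ∃ l, z ∈ u.Arc l := by
  obtain ⟨M, p, W, A, e, H⟩ := exists_layU u (m := 10) le_rfl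
  obtain ⟨x, hx⟩ := Cdx806.Pg_diff_Om u.s_pos u.cyc hz hz'
  obtain ⟨r1, r2⟩ := H.pv' x
  rw [ed, segment_symm, ← r1, ← r2, LayU.mem_seg] at hx
  obtain ⟨t, t0, t1, rfl⟩ := hx
  set k : ℤ := -(x : ℤ) - 1 with hk
  obtain ⟨j, j1, j2⟩ := H.lay.ex (A k)
  have g1 := H.lay.g_mem j
  have g2 := H.lay.g_mem (j + 1)
  have c1 : e j < k := by
    by_contra hc
    have := H.lay.Amono.monotone (not_lt.1 hc)
    omega
  have c2 : k ≤ e (j + 1) := by
    by_contra hc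
    have := H.lay.Amono.monotone (show e (j + 1) + 1 ≤ k by omega)
    omega
  by_cases c3 : k = e (j + 1) ∧ 1 / 2 ≤ t
  · obtain ⟨l, hl⟩ := exists_lab (j + 1)
    have h3 := H.lay.elt (j + 1)
    exact ⟨l, (H.arc_iff hl _).2 ⟨k, t, ⟨t0, t1, by omega, by omega, fun _ => c3.2,
      fun h => by omega⟩, rfl⟩⟩
  · obtain ⟨l, hl⟩ := exists_lab j
    refine ⟨l, (H.arc_iff hl _).2 ⟨k, t, ⟨t0, t1, by omega, c2, fun h => by omega, fun h => ?_⟩,
      rfl⟩⟩
    by_contra hc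
    exact c3 ⟨h, (not_le.1 hc).le⟩

/-! ### the hit vertices are near their arc -/

variable {u : Poly} {S : Finset ℂ} {d h : ℝ} {i w : ZMod 3} {x : ℂ}

/-- **a labelled site next to the free sites is near its arc** -/
theorem hit_arc (hd : 0 < d) (hH : Hol (S : Set ℂ) (deep u.P d) d)
    (hx : x ∈ NetVx346.Bl S (Vin S u.P d) u.Lab i) {l : Fin 3} (hl : ((l : ℕ) : ZMod 3) = i) :
    Metric.infDist x (u.Arc l) ≤ 2 * d := by
  have hb := hx
  rw [LocUx700.bl_eq] at hb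
  have hxP : x ∈ u.P := LocUx700.bd_Vin hd hH hb.1
  obtain ⟨h1, h2, -, h4⟩ := hx
  have h3 : ¬ Metric.closedBall x (2 * d) ⊆ u.P := fun hc => h2 (mem_Vin.2 ⟨h1, hc⟩)
  obtain ⟨y, hy, hyP⟩ := Set.not_subset.1 h3
  obtain ⟨z, z1, z2, z3, -⟩ := Cdx806.seg_front u.s_pos (F := cells (u.U : Set Bk)) hxP hyP
  obtain ⟨l', hl'⟩ := mem_arcs u z1 z2
  obtain ⟨j, j1, j2, -⟩ := Poly.near_lab (u := u) x
  have hjl : j = l := lab_inj (by rw [hl, ← h4, j2])
  subst hjl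
  refine (j1 l').trans ((Metric.infDist_le_dist_of_mem hl').trans ?_)
  rw [dist_comm]
  exact z3.trans (Metric.mem_closedBall.1 hy)

theorem arc_nonempty (u : Poly) (l : Fin 3) : (u.Arc l).Nonempty :=
  ⟨u.mid (u.k l), Or.inl (Or.inl (left_mem_segment ℝ _ _))⟩

theorem gz_cen {W : ℤ → ℤ × ℤ} {M : ℕ} (hW : FPath M W) (hh : 0 ≤ h) (a : ℤ) :
    dist (gz h W a) (cen h W a) ≤ h / 2 := by
  have e : gz h W a - cen h W a = -((h / 2 : ℝ) : ℂ) * cz (W a - W (a - 1)) := by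
    unfold gz cen
    rw [LayQx811.cz_sub]
    push_cast
    ring
  have hs := hW.step (a - 1)
  rw [sub_add_cancel] at hs
  have hn : ‖cz (W a - W (a - 1))‖ = 1 := by
    rcases hs with hs | hs | hs | hs <;> rw [hs] <;> unfold cz <;>
      simp [Complex.norm_def, Complex.normSq]
  rw [dist_eq_norm, e, norm_mul, norm_neg, Complex.norm_real, Real.norm_of_nonneg (by linarith), hn,
    mul_one]

theorem norm_le_of {z : ℂ} {c : ℝ} (h1 : |z.re| ≤ 9 / 2 * c) (h2 : |z.im| ≤ 9 / 2 * c) :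
    ‖z‖ ≤ 13 / 2 * c := by
  have hc : 0 ≤ c := by
    have := (abs_nonneg _).trans h1
    linarith
  have h3 : ‖z‖ ^ 2 = z.re ^ 2 + z.im ^ 2 := by
    rw [← Complex.normSq_eq_norm_sq, Complex.normSq_apply]
    ring
  have h4 : z.re ^ 2 ≤ (9 / 2 * c) ^ 2 := sq_le_sq' (abs_le.1 h1).1 (abs_le.1 h1).2
  have h5 : z.im ^ 2 ≤ (9 / 2 * c) ^ 2 := sq_le_sq' (abs_le.1 h2).1 (abs_le.1 h2).2
  have h6 := norm_nonneg z
  nlinarith

section lay

variable {m M : ℕ} {p W : ℤ → ℤ × ℤ} {A e : ℤ → ℤ}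

/-- **a point near an arc is near a gate of this arc** -/
theorem arc_gate (H : LayU u m M p W A e) (hh : (m : ℝ) * h = u.s) {j : ℤ} {l : Fin 3}
    (hl : ((l : ℕ) : ZMod 3) = -(j : ZMod 3)) {ρ : ℝ} (hx : Metric.infDist x (u.Arc l) ≤ ρ) :
    ∃ a, g A e j ≤ a ∧ a ≤ g A e (j + 1) ∧ dist (gz h W a) x ≤ 8 * h + ρ := by
  have h0 := H.h_pos hh
  obtain ⟨y, hy, hxy⟩ := (Metric.infDist_lt_iff (arc_nonempty u l)).1
    (lt_of_le_of_lt hx (show ρ < ρ + h by linarith))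
  obtain ⟨a, a1, a2, a3, a4⟩ := H.arc_tile hh hl hy
  refine ⟨a, a1, a2, ?_⟩
  have h1 := gz_cen H.lay.fp h0.le a
  have h2 : dist (cen h W a) y ≤ 13 / 2 * h := by
    rw [dist_eq_norm]
    exact norm_le_of (by rw [Complex.sub_re]; exact a3) (by rw [Complex.sub_im]; exact a4)
  have h3 := dist_triangle (gz h W a) (cen h W a) x
  have h4 := dist_triangle (cen h W a) y x
  rw [dist_comm y x] at h4
  linarith

/-- **the hit vertex is near a gate of its own arc** -/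
theorem hit_tile (H : LayU u m M p W A e) (hh : (m : ℝ) * h = u.s) (hd : 0 < d)
    (hH : Hol (S : Set ℂ) (deep u.P d) d) {j : ℤ}
    (hx : x ∈ NetVx346.Bl S (Vin S u.P d) u.Lab (-(j : ZMod 3))) :
    ∃ a, g A e j ≤ a ∧ a ≤ g A e (j + 1) ∧ dist (gz h W a) x ≤ 8 * h + 2 * d := by
  obtain ⟨l, hl⟩ := exists_lab j
  exact arc_gate H hh hl (hit_arc hd hH hx hl)

theorem lab1 (w : ZMod 3) : (-((jj w + 1 : ℤ) : ZMod 3)) = w + 2 := by
  rw [Int.cast_add, neg_add, jj_lab]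
  rfl

theorem lab2 (w : ZMod 3) : (-((jj w + 2 : ℤ) : ZMod 3)) = w + 1 := by
  rw [Int.cast_add, neg_add, jj_lab]
  rfl

/-- the tile of a hit vertex of label `w + 2` -/
theorem tl_near1 (H : LayU u m M p W A e) (hh : (m : ℝ) * h = u.s) (hd : 0 < d)
    (hH : Hol (S : Set ℂ) (deep u.P d) d)
    (hx : x ∈ NetVx346.Bl S (Vin S u.P d) u.Lab (w + 2)) :
    dist (gt h W A e w (tlz (gt h W A e w) 0 (rr A e w) x)) x ≤ 8 * h + 2 * d := by
  rw [← lab1 w] at hx
  obtain ⟨a, a1, a2, a3⟩ := hit_tile H hh hd hH hx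
  rw [show jj w + 1 + 1 = jj w + 2 by ring] at a2
  have h1 := H.lay.rr_eq w
  have ha1 : al A e w ≤ a := a1
  have ha2 : a ≤ mi A e w := a2
  obtain ⟨k, hk⟩ : ∃ k : ℕ, a = al A e w + k := ⟨(a - al A e w).toNat, by omega⟩
  refine (dist_tlz (gt h W A e w) x (b := k) (Nat.zero_le _) (by omega)).trans ?_
  unfold gt
  rw [← hk]
  exact a3

/-- the tile of a hit vertex of label `w + 1` -/
theorem tl_near2 (H : LayU u m M p W A e) (hh : (m : ℝ) * h = u.s) (hd : 0 < d)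
    (hH : Hol (S : Set ℂ) (deep u.P d) d)
    (hx : x ∈ NetVx346.Bl S (Vin S u.P d) u.Lab (w + 1)) :
    dist (gt h W A e w (tlz (gt h W A e w) (rr A e w) (nn A e w) x)) x ≤ 8 * h + 2 * d := by
  rw [← lab2 w] at hx
  obtain ⟨a, a1, a2, a3⟩ := hit_tile H hh hd hH hx
  rw [show jj w + 2 + 1 = jj w + 3 by ring] at a2
  have h1 := H.lay.rr_eq w
  have h2 := H.lay.nn_eq w
  have ha1 : mi A e w ≤ a := a1
  have ha2 : a ≤ be A e w := a2
  obtain ⟨k, hk⟩ : ∃ k : ℕ, a = al A e w + k := ⟨(a - al A e w).toNat, by omega⟩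
  refine (dist_tlz (gt h W A e w) x (b := k) (by omega) (by omega)).trans ?_
  unfold gt
  rw [← hk]
  exact a3

/-! ### the functionals -/

theorem zV_one {S V : Finset ℂ} {B : ZMod 3 → Set ℂ} {i : ZMod 3} {T : Set ℂ}
    (h1 : (hitsV S V B i T).card = 1) : ∃ x ∈ B i, ∀ z : ℂ → ℂ, zV S V B i T z = z x := by
  obtain ⟨t, ht⟩ := Finset.card_eq_one.1 h1
  have h2 : t ∈ hitsV S V B i T := by rw [ht]; exact Finset.mem_singleton_self t
  refine ⟨t.1, (mem_hitsV.1 h2).2.1, fun z => ?_⟩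
  unfold zV
  rw [if_pos h1, ht, Finset.sum_singleton]

/-- density is inherited by the sites of a window which contains `P` -/
theorem hol_Sw {P Wd : Set ℂ} (hPW : P ⊆ Wd) (hH : Hol (S : Set ℂ) (deep P d) d) :
    Hol (Sw Wd S : Set ℂ) (deep P d) d := by
  intro v hv z hz
  obtain ⟨s, hs, hsz⟩ := hH v hv z hz
  refine ⟨s, ?_, hsz⟩
  rw [Finset.mem_coe, Sw, Finset.mem_filter]
  refine ⟨hs, hPW (hv ?_)⟩
  rw [Metric.mem_closedBall, dist_eq_norm]
  have : s - v = (s - z) + (z - v) := by ring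
  rw [this]
  refine (norm_add_le _ _).trans ?_
  linarith

variable {Wd : Set ℂ} {T : Finset ℂ}

/-- **the tile of the touch on `w + 2`** -/
theorem ca_near (H : LayU u m M p W A e) (hh : (m : ℝ) * h = u.s) (hd : 0 < d)
    (hPW : u.P ⊆ Wd) (hH : Hol (S : Set ℂ) (deep u.P d) d)
    (h1 : (hitsV (Sw Wd S) (Vw u d Wd S) (Bw u d Wd S) (w + 2)
      ((Vw u d Wd S \ T : Finset ℂ) : Set ℂ)).card = 1) :
    ‖Dispx798.yV (Sw Wd S) (Vw u d Wd S) (Bw u d Wd S) w T -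
      gt h W A e w (ca u d h Wd S W A e w T)‖ ≤ 8 * h + 2 * d := by
  obtain ⟨x, hx, hz⟩ := zV_one h1
  have e1 : Dispx798.yV (Sw Wd S) (Vw u d Wd S) (Bw u d Wd S) w T = x := hz id
  have h2 := tl_near1 (S := Sw Wd S) H hh hd (hol_Sw hPW hH) hx
  unfold ca
  rw [e1, ← dist_eq_norm, dist_comm]
  exact h2

/-- **the tile of the touch on `w + 1`** -/
theorem cb_near (H : LayU u m M p W A e) (hh : (m : ℝ) * h = u.s) (hd : 0 < d)
    (hPW : u.P ⊆ Wd) (hH : Hol (S : Set ℂ) (deep u.P d) d)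
    (h1 : (hitsV (Sw Wd S) (Vw u d Wd S) (Bw u d Wd S) (w + 1) (T : Set ℂ)).card = 1) :
    ‖Dispx798.xV (Sw Wd S) (Vw u d Wd S) (Bw u d Wd S) w T -
      gt h W A e w (cb u d h Wd S W A e w T)‖ ≤ 8 * h + 2 * d := by
  obtain ⟨x, hx, hz⟩ := zV_one h1
  have e1 : Dispx798.xV (Sw Wd S) (Vw u d Wd S) (Bw u d Wd S) w T = x := hz id
  have h2 := tl_near2 (S := Sw Wd S) H hh hd (hol_Sw hPW hH) hx
  unfold cb
  rw [e1, ← dist_eq_norm, dist_comm]
  exact h2

theorem ca_le_cb {n : ℕ} {m' : ℤ} (H : Lay n M m' p W A e) (w : ZMod 3) (T : Finset ℂ) :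
    ca u d h Wd S W A e w T ≤ rr A e w ∧ rr A e w ≤ cb u d h Wd S W A e w T ∧
      cb u d h Wd S W A e w T ≤ nn A e w :=
  ⟨tlz_le _ (Nat.zero_le _) _, le_tlz _ (rr_le_nn w H) _, tlz_le _ (rr_le_nn w H) _⟩

end lay

/-! ### near gates have near indices -/

section idx

variable {n M : ℕ} {m : ℤ} {p W : ℤ → ℤ × ℤ} {A e : ℤ → ℤ}

theorem gz_re (h : ℝ) (W : ℤ → ℤ × ℤ) (a : ℤ) :
    (gz h W a).re = h * (W a).1 - h / 2 * ((W a).1 - (W (a - 1)).1) := by
  unfold gz cz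
  simp [Complex.mul_re, Complex.add_re, Complex.add_im]
  ring

theorem gz_im (h : ℝ) (W : ℤ → ℤ × ℤ) (a : ℤ) :
    (gz h W a).im = h * (W a).2 - h / 2 * ((W a).2 - (W (a - 1)).2) := by
  unfold gz cz
  simp [Complex.mul_im, Complex.add_re, Complex.add_im]
  ring

/-- near gates, near vertices -/
theorem sd2_gz (hW : FPath M W) (hh : 0 < h) {r a b : ℤ}
    (hr : dist (gz h W a) (gz h W b) < r * h) : sd2 (W a) (W b) ≤ r := by
  have st : ∀ a : ℤ, |((W a).1 : ℝ) - (W (a - 1)).1| ≤ 1 ∧ |((W a).2 : ℝ) - (W (a - 1)).2| ≤ 1 := by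
    intro a
    have hs := hW.step (a - 1)
    rw [sub_add_cancel] at hs
    have h1 := Seg.u4_abs hs
    simp only [Prod.fst_sub, Prod.snd_sub] at h1
    exact ⟨by exact_mod_cast h1.1, by exact_mod_cast h1.2⟩
  obtain ⟨a1, a2⟩ := st a
  obtain ⟨b1, b2⟩ := st b
  rw [dist_eq_norm] at hr
  have hre := (Complex.abs_re_le_norm (gz h W a - gz h W b)).trans_lt hr
  have him := (Complex.abs_im_le_norm (gz h W a - gz h W b)).trans_lt hr
  rw [Complex.sub_re, gz_re, gz_re] at hre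
  rw [Complex.sub_im, gz_im, gz_im] at him
  have key : ∀ (x y x' y' : ℤ), |(x : ℝ) - x'| ≤ 1 → |(y : ℝ) - y'| ≤ 1 →
      |h * x - h / 2 * (x - x') - (h * y - h / 2 * (y - y'))| < r * h → |x - y| ≤ r := by
    intro x y x' y' h1 h2 h3
    have h4 : |(x : ℝ) - y| * h < (r + 1) * h := by
      have e1 : ((x : ℝ) - y) * h = (h * x - h / 2 * (x - x') - (h * y - h / 2 * (y - y'))) +
          (h / 2 * (x - x') - h / 2 * (y - y')) := by ring
      have e2 : |((x : ℝ) - y) * h| = |(x : ℝ) - y| * h := by rw [abs_mul, abs_of_pos hh]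
      rw [← e2, e1]
      refine (abs_add_le _ _).trans_lt ?_
      have h5 : |h / 2 * ((x : ℝ) - x') - h / 2 * (y - y')| ≤ h := by
        refine (abs_sub _ _).trans ?_
        rw [abs_mul, abs_mul, abs_of_pos (show 0 < h / 2 by linarith)]
        nlinarith
      linarith
    have h5 : |(x : ℝ) - y| < r + 1 := lt_of_mul_lt_mul_right h4 hh.le
    have h6 : |x - y| < r + 1 := by exact_mod_cast h5
    omega
  exact sd2_le.2 ⟨key _ _ _ _ a1 b1 hre, key _ _ _ _ a2 b2 him⟩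

/-- **near gates of a corridor have near indices** -/
theorem gate_idx (H : Lay n M m p W A e) (hh : 0 < h) (w : ZMod 3) {k l : ℕ}
    (hk : k ≤ nn A e w) (hl : l ≤ nn A e w) {r : ℤ} (hr0 : 0 ≤ r) (hr : 2 * r + 4 ≤ m)
    (hr7 : r + 7 ≤ m) (hd : dist (gt h W A e w k) (gt h W A e w l) < r * h) :
    |(k : ℤ) - l| ≤ 2 * r := by
  have h1 := H.nn_eq w
  have h2 := H.quasi_cor w hr hr7 hr0 (sd2_gz H.fp hh hd) (by omega) (by omega) (by omega)
    (by omega)
  rwa [show al A e w + (k : ℤ) - (al A e w + l) = k - l by ring] at h2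

/-- **comparison of two touches**: gate `k` near `v`, gate `l` near `v'`, `v` near `v'` -/
theorem idx_near (H : Lay n M m p W A e) (hh : 0 < h) (w : ZMod 3) {k l : ℕ}
    (hk : k ≤ nn A e w) (hl : l ≤ nn A e w) {v v' : ℂ} {ρ ρ' e0 : ℝ}
    (h1 : dist (gt h W A e w k) v ≤ ρ) (h2 : dist (gt h W A e w l) v' ≤ ρ') (h3 : dist v v' ≤ e0)
    {r : ℤ} (hr0 : 0 ≤ r) (hr : 2 * r + 4 ≤ m) (hr7 : r + 7 ≤ m) (hd : ρ + ρ' + e0 < r * h) :
    |(k : ℤ) - l| ≤ 2 * r := by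
  refine gate_idx H hh w hk hl hr0 hr hr7 (lt_of_le_of_lt ?_ hd)
  have h4 := dist_triangle (gt h W A e w k) v (gt h W A e w l)
  have h5 := dist_triangle v v' (gt h W A e w l)
  rw [dist_comm v' _] at h5
  linarith

/-- the same with `ℕ` inequalities -/
theorem idx_near' (H : Lay n M m p W A e) (hh : 0 < h) (w : ZMod 3) {k l : ℕ}
    (hk : k ≤ nn A e w) (hl : l ≤ nn A e w) {v v' : ℂ} {ρ ρ' e0 : ℝ}
    (h1 : dist (gt h W A e w k) v ≤ ρ) (h2 : dist (gt h W A e w l) v' ≤ ρ') (h3 : dist v v' ≤ e0)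
    {r : ℕ} (hr : 2 * (r : ℤ) + 4 ≤ m) (hr7 : (r : ℤ) + 7 ≤ m) (hd : ρ + ρ' + e0 < r * h) :
    k ≤ l + 2 * r ∧ l ≤ k + 2 * r := by
  have h4 := idx_near H hh w hk hl h1 h2 h3 (r := r) (by omega) hr hr7 (by exact_mod_cast hd)
  rw [abs_le] at h4
  omega

end idx

/-! ### the sites of the sample -/

section sample

variable {ε : ℝ} {ω : Sample} {Wd : Set ℂ}




end sample

end Crest.Agent.R143.TlGx58
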