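import Crest.Agent.R143.TlA_58
import Crest.Agent.R143.MeasD_609
import Crest.Agent.R143.RigC_654
import Crest.Agent.R143.TlG_58

-- ▼ part R143/DispI_840
section

/-!
# Row 143 (S0194), RIG: the field `disp` of `EnvIx279.Inp.env` for the frozen polygons (helper840)

On 798's core `Disp_798` and 58's tiles `TlA_58`.

* `tel'` : 798's telescoping with positions `a ≤ b + c'`
* `nuq` : no unique hit triple; `fracQ` : fraction of the colourings without unique hit
* `dispB`, `dispQ` : 798's `dispV` for tile functions `tx`, `ty` of the end points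
* **`disp_env`** : one environment, any window `Wd`, tiles `ta`, `tb` of 58;
  `zl l = gate l - gate (l + 1)` since `D w = m (w + 2) - m (w + 1) = y - x`
* **`disp_DI`** : 609's `DI` (window `u.P`)
* **`disp_field`** : the hypotheses `idd`, `edd`, `disp` of `Inp.env`
-/

set_option autoImplicit false
set_option linter.unusedSectionVars false

noncomputable section

open scoped Classical

namespace Crest.Agent.R143.DispIx840

open MeasureTheory Filter Topology
open Crest.ProbabilityR.Voronoi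
open Crest.Agent.R143.B0x346 Crest.Agent.R143.NetUx346 Crest.Agent.R143.NetVx346
open Crest.Agent.R143.PolyUx346
open Crest.Agent.R143.Dispx798
open Crest.Agent.R143.IndLoc3x279 (clr cav)
open Crest.Agent.R143.FinTx609 (Sf Sf_clr bl_clr ps_clr)
open Crest.Agent.R143.FinUx609 (hitsV_inter exC_all)
open Crest.Agent.R143.MeasPx609 (Wn yP)
open Crest.Agent.R143.EnvIx279 (qo onF)

/-! ### telescoping with slack -/

section tel

variable {g : ℕ → ℂ} {h : ℝ} {n : ℕ}

theorem norm_tel (hh : ∀ k < n, ‖g (k + 1) - g k‖ ≤ h) {b a : ℕ} (hab : b ≤ a) (ha : a ≤ n) :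
    ‖g a - g b‖ ≤ ((a - b : ℕ) : ℝ) * h := by
  obtain ⟨t, rfl⟩ := Nat.exists_eq_add_of_le hab
  rw [Nat.add_sub_cancel_left]
  clear hab
  induction t with
  | zero => simp
  | succ t ih =>
    have h1 := ih (by omega)
    have h2 := hh (b + t) (by omega)
    have e : g (b + (t + 1)) - g b = (g (b + t + 1) - g (b + t)) + (g (b + t) - g b) := by
      rw [← add_assoc]; ring
    rw [e]
    refine (norm_add_le _ _).trans ?_
    push_cast
    linarith

theorem tel' {zz : ℕ → ℂ} {J : Finset ℕ} (hJ : J ⊆ Finset.range n)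
    (hz : ∀ k ∈ J, zz k = g (k + 1) - g k) (hh : ∀ k < n, ‖g (k + 1) - g k‖ ≤ h) (hh0 : 0 ≤ h)
    {a b c' : ℕ} (ha : a ≤ n) (hb : b ≤ n) (hab : a ≤ b + c') :
    ‖(g b - g a) - ∑ k ∈ J, zz k * (Dispx798.btw a b k : ℂ)‖ ≤
      (((Finset.range n \ J).card : ℝ) + c') * h := by
  have p1 : 0 ≤ ((Finset.range n \ J).card : ℝ) * h := by positivity
  have p2 : 0 ≤ (c' : ℝ) * h := by positivity
  rcases le_or_gt a b with h1 | h1
  · have := tel hJ hz hh h1 hb
    linarith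
  · have e : ∑ k ∈ J, zz k * (Dispx798.btw a b k : ℂ) = 0 := by
      refine Finset.sum_eq_zero fun k _ => ?_
      have : Dispx798.btw a b k = 0 := by
        unfold Dispx798.btw
        rw [if_neg (by omega)]
      rw [this]
      simp
    rw [e, sub_zero, ← norm_neg, neg_sub]
    have h2 := norm_tel hh h1.le ha
    have h3 : ((a - b : ℕ) : ℝ) ≤ c' := by
      have : a - b ≤ c' := by omega
      exact_mod_cast this
    have h4 := mul_le_mul_of_nonneg_right h3 hh0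
    linarith

end tel

/-! ### one environment, colourings of `V` -/

section one

variable {S V : Finset ℂ} {B : ZMod 3 → Set ℂ}

/-- no unique hit triple of the type `j` in the colouring `T` -/
def nuq (S V : Finset ℂ) (B : ZMod 3 → Set ℂ) (j : ZMod 3) (T : Set ℂ) : Prop :=
  (hitsV S V B j T).card ≠ 1

/-- fraction of the colourings without unique hit -/
def fracQ (S V : Finset ℂ) (B : ZMod 3 → Set ℂ) (j : ZMod 3) : ℝ :=
  frac V fun T => nuq S V B j (T : Set ℂ)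




theorem frac_or {V : Finset ℂ} {p q : Finset ℂ → Prop} :
    frac V (fun T => p T ∨ q T) ≤ frac V p + frac V q := by
  unfold frac
  rw [← add_div, ← Finset.sum_add_distrib]
  refine div_le_div_of_nonneg_right (Finset.sum_le_sum fun T _ => ?_) (by positivity)
  by_cases hp : p T
  · rw [if_pos (Or.inl hp), if_pos hp]
    split_ifs <;> norm_num
  · by_cases hq : q T
    · rw [if_pos (Or.inr hq), if_neg hp, if_pos hq]
      norm_num
    · rw [if_neg (by tauto), if_neg hp, if_neg hq]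
      norm_num

theorem frac_compl {V : Finset ℂ} (p : Finset ℂ → Prop) :
    frac V (fun T => p (V \ T)) = frac V p := by
  unfold frac
  congr 1
  refine Finset.sum_nbij' (fun T => V \ T) (fun T => V \ T) ?_ ?_ ?_ ?_ ?_
  · intro T _
    exact Finset.mem_powerset.2 Finset.sdiff_subset
  · intro T _
    exact Finset.mem_powerset.2 Finset.sdiff_subset
  · intro T hT
    exact Finset.sdiff_sdiff_eq_self (Finset.mem_powerset.1 hT)
  · intro T hT
    exact Finset.sdiff_sdiff_eq_self (Finset.mem_powerset.1 hT)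
  · intro T _
    rfl

/-- the value at a unique hit is the value at a point of the class -/
theorem zV_mem {j : ZMod 3} {T : Set ℂ} (h : ¬ nuq S V B j T) : zV S V B j T id ∈ B j := by
  unfold nuq at h
  push Not at h
  unfold zV
  rw [if_pos h]
  obtain ⟨t, ht⟩ := Finset.card_eq_one.1 h
  rw [ht, Finset.sum_singleton]
  have : t ∈ hitsV S V B j T := by rw [ht]; exact Finset.mem_singleton_self t
  exact (mem_hitsV.1 this).2.1

/-- **798's `dispV` for tile functions `tx`, `ty` of the end points** -/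
theorem dispB {g : ℕ → ℂ} {zz : ℕ → ℂ} {h c M : ℝ} {n c' : ℕ} {J : Finset ℕ}
    (hJ : J ⊆ Finset.range n) (hz : ∀ k ∈ J, zz k = g (k + 1) - g k)
    (hh : ∀ k < n, ‖g (k + 1) - g k‖ ≤ h) (hh0 : 0 ≤ h) (hc : 0 ≤ c) (hM : 0 ≤ M)
    (w : ZMod 3) (tx ty : ℂ → ℕ) (txn : ∀ v, tx v ≤ n) (tyn : ∀ v, ty v ≤ n)
    (hx : ∀ v ∈ B (w + 1), ‖v - g (tx v)‖ ≤ c)
    (hy : ∀ v ∈ B (w + 2), ‖v - g (ty v)‖ ≤ c)
    (hxy : ∀ v ∈ B (w + 2), ∀ v' ∈ B (w + 1), ty v ≤ tx v' + c')
    (hB : ∀ j, ∀ v ∈ B j, ‖v‖ ≤ M) (bad : Finset ℂ → Prop)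
    (hb : ∀ T ⊆ V, ¬ bad T → xV S V B w T ∈ B (w + 1) ∧ yV S V B w T ∈ B (w + 2)) :
    ‖(EV S V B id (w + 1) - EV S V B id (w + 2)) -
        ∑ k ∈ J, zz k * exC V (fun T => ((Dispx798.btw (ty (yV S V B w T)) (tx (xV S V B w T)) k : ℝ) : ℂ))‖ ≤
      (2 * c + (((Finset.range n \ J).card : ℝ) + c') * h) + (2 * M + n * h) * frac V bad := by
  have e : (EV S V B id (w + 1) - EV S V B id (w + 2)) -
        ∑ k ∈ J, zz k * exC V (fun T => ((Dispx798.btw (ty (yV S V B w T)) (tx (xV S V B w T)) k : ℝ) : ℂ)) =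
      exC V fun T => (xV S V B w T - yV S V B w T) -
        ∑ k ∈ J, zz k * ((Dispx798.btw (ty (yV S V B w T)) (tx (xV S V B w T)) k : ℝ) : ℂ) := by
    rw [EV_x, EV_y, exC_sub, exC_sub, exC_sum]
    congr 1
    exact Finset.sum_congr rfl fun k _ => (exC_mul _ _ _).symm
  rw [e]
  refine norm_exC_bad bad (by positivity) (by positivity) (fun T hT hn => ?_) fun T hT _ => ?_
  · obtain ⟨m1, m2⟩ := hb T hT hn
    have h1 := hx _ m1
    have h2 := hy _ m2
    have h5 := tel' hJ hz hh hh0 (tyn (yV S V B w T)) (txn (xV S V B w T)) (hxy _ m2 _ m1)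
    set a := ty (yV S V B w T)
    set b := tx (xV S V B w T)
    have e2 : (xV S V B w T - yV S V B w T) - ∑ k ∈ J, zz k * ((Dispx798.btw a b k : ℝ) : ℂ) =
        (xV S V B w T - g b) - (yV S V B w T - g a) +
          ((g b - g a) - ∑ k ∈ J, zz k * ((Dispx798.btw a b k : ℝ) : ℂ)) := by ring
    rw [e2]
    refine (norm_add_le _ _).trans ?_
    have h6 := norm_sub_le (xV S V B w T - g b) (yV S V B w T - g a)
    linarith
  · have h5 : ‖∑ k ∈ J, zz k * ((Dispx798.btw (ty (yV S V B w T)) (tx (xV S V B w T)) k : ℝ) : ℂ)‖ ≤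
        n * h := by
      refine (norm_sum_le _ _).trans ?_
      have h6 : ∑ k ∈ J, ‖zz k * ((Dispx798.btw (ty (yV S V B w T)) (tx (xV S V B w T)) k : ℝ) : ℂ)‖ ≤
          ∑ k ∈ J, h := by
        refine Finset.sum_le_sum fun k hk => ?_
        rw [norm_mul, Complex.norm_real, Real.norm_of_nonneg (btw_nonneg _ _ _), hz k hk]
        have h7 := hh k (Finset.mem_range.1 (hJ hk))
        have h8 := btw_le (ty (yV S V B w T)) (tx (xV S V B w T)) k
        have h9 := btw_nonneg (ty (yV S V B w T)) (tx (xV S V B w T)) k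
        have h10 := norm_nonneg (g (k + 1) - g k)
        nlinarith
      refine h6.trans ?_
      rw [Finset.sum_const, nsmul_eq_mul]
      refine mul_le_mul_of_nonneg_right ?_ hh0
      have := Finset.card_le_card hJ
      rw [Finset.card_range] at this
      exact_mod_cast this
    have h3 : ‖xV S V B w T‖ ≤ M := norm_zV hM (hB _)
    have h4 : ‖yV S V B w T‖ ≤ M := norm_zV hM (hB _)
    have h6 := norm_sub_le (xV S V B w T - yV S V B w T)
      (∑ k ∈ J, zz k * ((Dispx798.btw (ty (yV S V B w T)) (tx (xV S V B w T)) k : ℝ) : ℂ))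
    have h7 := norm_sub_le (xV S V B w T) (yV S V B w T)
    linarith

/-- the same, error = fraction of the colourings without unique hit -/
theorem dispQ {g : ℕ → ℂ} {zz : ℕ → ℂ} {h c M : ℝ} {n c' : ℕ} {J : Finset ℕ}
    (hJ : J ⊆ Finset.range n) (hz : ∀ k ∈ J, zz k = g (k + 1) - g k)
    (hh : ∀ k < n, ‖g (k + 1) - g k‖ ≤ h) (hh0 : 0 ≤ h) (hc : 0 ≤ c) (hM : 0 ≤ M)
    (w : ZMod 3) (tx ty : ℂ → ℕ) (txn : ∀ v, tx v ≤ n) (tyn : ∀ v, ty v ≤ n)
    (hx : ∀ v ∈ B (w + 1), ‖v - g (tx v)‖ ≤ c)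
    (hy : ∀ v ∈ B (w + 2), ‖v - g (ty v)‖ ≤ c)
    (hxy : ∀ v ∈ B (w + 2), ∀ v' ∈ B (w + 1), ty v ≤ tx v' + c')
    (hB : ∀ j, ∀ v ∈ B j, ‖v‖ ≤ M) :
    ‖(EV S V B id (w + 1) - EV S V B id (w + 2)) -
        ∑ k ∈ J, zz k * exC V (fun T => ((Dispx798.btw (ty (yV S V B w T)) (tx (xV S V B w T)) k : ℝ) : ℂ))‖ ≤
      (2 * c + (((Finset.range n \ J).card : ℝ) + c') * h) +
        (2 * M + n * h) * (fracQ S V B (w + 1) + fracQ S V B (w + 2)) := by
  have h1 := dispB hJ hz hh hh0 hc hM w tx ty txn tyn hx hy hxy hB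
    (fun T => nuq S V B (w + 1) (T : Set ℂ) ∨ nuq S V B (w + 2) ((V \ T : Finset ℂ) : Set ℂ))
    fun T _ hn => by
      simp only [not_or] at hn
      exact ⟨zV_mem hn.1, zV_mem hn.2⟩
  refine h1.trans (add_le_add le_rfl ?_)
  refine mul_le_mul_of_nonneg_left ?_ (by positivity)
  refine frac_or.trans (le_of_eq ?_)
  unfold fracQ
  rw [frac_compl fun T : Finset ℂ => nuq S V B (w + 2) (T : Set ℂ)]

end one

/-! ### the environment -/

section env

open Crest.Agent.R143.TlAx58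
open Crest.Agent.R143.TileRx228 (FPath gz ge gz_succ norm_ge)
open Crest.Agent.R143.Layx416 (Lay rr nn al)
open Crest.Agent.R143.Dbl2x609 (Ap coe_Ap)
open Crest.Agent.R143.MeasDx609 (mI DI)
open Crest.Agent.R143.MeasPx609 (isCompact_P)

variable {u : Poly} {N M : ℕ} {m : ℤ} {p W : ℤ → ℤ × ℤ} {A e : ℤ → ℤ} {ε d h : ℝ} {Wd : Set ℂ}
  {w : ZMod 3}

/-- displacement of the tile `l`, against the corridor: `D w = y - x` -/
def zl (h : ℝ) (W : ℤ → ℤ × ℤ) (A e : ℤ → ℤ) (w : ZMod 3) (l : ℕ) : ℂ :=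
  gt h W A e w l - gt h W A e w (l + 1)

theorem norm_gt_succ (P : FPath M W) (hh : 0 ≤ h) (k : ℕ) :
    ‖gt h W A e w (k + 1) - gt h W A e w k‖ ≤ h := by
  unfold gt
  have e1 : al A e w + ((k + 1 : ℕ) : ℤ) = al A e w + k + 1 := by push_cast; ring
  rw [e1, gz_succ, add_sub_cancel_left, norm_mul, Complex.norm_real, Real.norm_of_nonneg hh,
    norm_div, Complex.norm_ofNat]
  have h1 := norm_add_le (ge W (al A e w + k)) (ge W (al A e w + k + 1))
  rw [norm_ge P, norm_ge P] at h1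
  have h2 : ‖ge W (al A e w + k) + ge W (al A e w + k + 1)‖ / 2 ≤ 1 := by linarith
  calc _ ≤ h * 1 := mul_le_mul_of_nonneg_left h2 hh
    _ = h := mul_one h

/-- **one environment**: window `Wd`, tiles of 58 -/
theorem disp_env (H : Lay N M m p W A e) (hh : 0 ≤ h) {J : Finset ℕ}
    (hJ : J ⊆ Finset.range (nn A e w)) {c R : ℝ} (hc : 0 ≤ c) (hR : 0 ≤ R)
    (S : Sample → Finset ℂ) (ω : Sample)
    (hx : ∀ v ∈ Bw u d Wd (S ω) (w + 1),
      dist (gt h W A e w (tlz (gt h W A e w) (rr A e w) (nn A e w) v)) v ≤ c)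
    (hy : ∀ v ∈ Bw u d Wd (S ω) (w + 2),
      dist (gt h W A e w (tlz (gt h W A e w) 0 (rr A e w) v)) v ≤ c)
    (hB : ∀ j, ∀ v ∈ Bw u d Wd (S ω) j, ‖v‖ ≤ R) :
    ‖(EV (Sw Wd (S ω)) (Vw u d Wd (S ω)) (Bw u d Wd (S ω)) id (w + 2) -
        EV (Sw Wd (S ω)) (Vw u d Wd (S ω)) (Bw u d Wd (S ω)) id (w + 1)) -
        ∑ l ∈ J, zl h W A e w l *
          ((qo S (ta u d h Wd W A e w) (tb u d h Wd W A e w) l ω : ℝ) : ℂ)‖ ≤
      (2 * c + ((Finset.range (nn A e w) \ J).card : ℝ) * h) + (2 * R + nn A e w * h) *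
        (fracQ (Sw Wd (S ω)) (Vw u d Wd (S ω)) (Bw u d Wd (S ω)) (w + 1) +
          fracQ (Sw Wd (S ω)) (Vw u d Wd (S ω)) (Bw u d Wd (S ω)) (w + 2)) := by
  have hrn := rr_le_nn w H
  have h1 := dispQ (S := Sw Wd (S ω)) (V := Vw u d Wd (S ω)) (B := Bw u d Wd (S ω))
    (g := gt h W A e w) (zz := fun k => gt h W A e w (k + 1) - gt h W A e w k) (h := h) (c := c)
    (M := R) (n := nn A e w) (c' := 0) (J := J) hJ (fun _ _ => rfl)
    (fun k _ => norm_gt_succ H.fp hh k) hh hc hR w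
    (fun v => tlz (gt h W A e w) (rr A e w) (nn A e w) v)
    (fun v => tlz (gt h W A e w) 0 (rr A e w) v)
    (fun v => tlz_le _ hrn _) (fun v => (tlz_le _ (Nat.zero_le _) _).trans hrn)
    (fun v hv => by rw [← dist_eq_norm, dist_comm]; exact hx v hv)
    (fun v hv => by rw [← dist_eq_norm, dist_comm]; exact hy v hv)
    (fun v _ v' _ => by
      rw [add_zero]
      exact (tlz_le _ (Nat.zero_le _) _).trans (le_tlz _ hrn _)) hB
  have e1 : (EV (Sw Wd (S ω)) (Vw u d Wd (S ω)) (Bw u d Wd (S ω)) id (w + 2) -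
        EV (Sw Wd (S ω)) (Vw u d Wd (S ω)) (Bw u d Wd (S ω)) id (w + 1)) -
        ∑ l ∈ J, zl h W A e w l *
          ((qo S (ta u d h Wd W A e w) (tb u d h Wd W A e w) l ω : ℝ) : ℂ) =
      -((EV (Sw Wd (S ω)) (Vw u d Wd (S ω)) (Bw u d Wd (S ω)) id (w + 1) -
        EV (Sw Wd (S ω)) (Vw u d Wd (S ω)) (Bw u d Wd (S ω)) id (w + 2)) -
        ∑ k ∈ J, (gt h W A e w (k + 1) - gt h W A e w k) *
          exC (Vw u d Wd (S ω)) (fun T => ((Dispx798.btw
            (tlz (gt h W A e w) 0 (rr A e w) (yV (Sw Wd (S ω)) (Vw u d Wd (S ω))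
              (Bw u d Wd (S ω)) w T))
            (tlz (gt h W A e w) (rr A e w) (nn A e w) (xV (Sw Wd (S ω)) (Vw u d Wd (S ω))
              (Bw u d Wd (S ω)) w T)) k : ℝ) : ℂ))) := by
    have e2 : ∑ l ∈ J, zl h W A e w l *
          ((qo S (ta u d h Wd W A e w) (tb u d h Wd W A e w) l ω : ℝ) : ℂ) =
        -∑ k ∈ J, (gt h W A e w (k + 1) - gt h W A e w k) *
          exC (Vw u d Wd (S ω)) (fun T => ((Dispx798.btw
            (tlz (gt h W A e w) 0 (rr A e w) (yV (Sw Wd (S ω)) (Vw u d Wd (S ω))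
              (Bw u d Wd (S ω)) w T))
            (tlz (gt h W A e w) (rr A e w) (nn A e w) (xV (Sw Wd (S ω)) (Vw u d Wd (S ω))
              (Bw u d Wd (S ω)) w T)) k : ℝ) : ℂ)) := by
      rw [← Finset.sum_neg_distrib]
      refine Finset.sum_congr rfl fun l _ => ?_
      rw [TlAx58.qo_exC]
      unfold zl ca cb
      ring
    rw [e2]
    ring
  rw [e1, norm_neg]
  simpa using h1


/-- free sites and labels of the points in `u.P` -/
def Vp (u : Poly) (ε : ℝ) (ω : Sample) : Finset ℂ := Vin (Ap ε u.P ω) u.P √ε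
def Bp (u : Poly) (ε : ℝ) (ω : Sample) : ZMod 3 → Set ℂ :=
  NetVx346.Bl (Ap ε u.P ω) (Vp u ε ω) u.Lab


theorem Bp_P (hε : 0 < ε) {ω : Sample} {j : ZMod 3} {v : ℂ} (hv : v ∈ Bp u ε ω j) : v ∈ u.P := by
  have h1 : v ∈ (Ap ε u.P ω : Set ℂ) := hv.1
  rw [coe_Ap hε (isCompact_P u).isBounded] at h1
  exact h1.2



end env

end Crest.Agent.R143.DispIx840
end
end

-- ▼ part R143/DispJ_840
section

/-!
# Row 143 (S0194), RIG: the field `disp` for every window (helper840)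

* `fracQ_eq` : `fracQ = 1 -` mean of `zV` of the constant `1`; `fme_fracQ`, **`sig_fracQ`** :
  the fraction of colourings without unique hit is measurable with respect to the points in `U`
* `mW`, `DW` : mean end points and displacement in the window `Wd`; `DW_I` (609's `DI`,
  window `u.P`), `DW_m` (346's `D`, window `Wn`), `DW_dI` (654's `dI`)
* **`disp_fieldW`** : `idd`, `edd`, `disp` with all the geometry off `bad`
* **`disp_dI`** : the same for `dI (PolyMx346.m u ε ω) i`, exactly the hypotheses of 609's `envX_of`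
-/

set_option autoImplicit false
set_option linter.unusedSectionVars false

noncomputable section

open scoped Classical

namespace Crest.Agent.R143.DispJx840

open MeasureTheory Filter Topology Set
open Crest.ProbabilityR.Voronoi
open Crest.Agent.R143.PP0x831
open Crest.Agent.R143.B0x346 Crest.Agent.R143.NetUx346 Crest.Agent.R143.NetVx346
open Crest.Agent.R143.PolyUx346
open Crest.Agent.R143.Dispx798
open Crest.Agent.R143.DispIx840
open Crest.Agent.R143.FinTx609 Crest.Agent.R143.FinMx609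
open Crest.Agent.R143.MeasPx609 Crest.Agent.R143.MeasDx609
open Crest.Agent.R143.EnvIx279 (qo onF)
open Crest.Agent.R143.IndLoc2x279 (sig sig_le)
open Crest.Agent.R143.TlAx58
open Crest.Agent.R143.Layx416 (Lay rr nn al)
open Crest.Agent.R143.Dbl2x609 (Ap coe_Ap)
open Crest.Agent.R143.RigCx654 (dI tI)

/-! ### the fraction without unique hit is measurable -/

section frac

variable {S V : Finset ℂ} {B : ZMod 3 → Set ℂ} {P W : Set ℂ} {d : ℝ} {L : ℂ → ZMod 3}





end frac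

/-! ### the displacement in a window -/

section win

variable {u : Poly} {N M : ℕ} {m : ℤ} {p W : ℤ → ℤ × ℤ} {A e : ℤ → ℤ} {ε d h : ℝ} {Wd : Set ℂ}
  {w : ZMod 3}

/-- mean end point in the window -/
def mW (u : Poly) (ε : ℝ) (Wd : Set ℂ) (ω : Sample) (i : ZMod 3) : ℂ :=
  mU (Ap ε Wd ω) u.P √ε u.Lab i id

/-- displacement in the window -/
def DW (u : Poly) (ε : ℝ) (Wd : Set ℂ) (ω : Sample) (k : ZMod 3) : ℂ :=
  mW u ε Wd ω (k + 2) - mW u ε Wd ω (k + 1)





/-- free sites of the window -/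
def Vs (u : Poly) (ε : ℝ) (Wd : Set ℂ) (ω : Sample) : Finset ℂ := Vin (Ap ε Wd ω) u.P √ε
/-- labels of the window -/
def Bs (u : Poly) (ε : ℝ) (Wd : Set ℂ) (ω : Sample) : ZMod 3 → Set ℂ :=
  NetVx346.Bl (Ap ε Wd ω) (Vs u ε Wd ω) u.Lab


theorem Sw_eqW (hε : 0 < ε) (hb : Bornology.IsBounded Wd) {S : Finset ℂ} {ω : Sample}
    (h1 : (S : Set ℂ) ⊆ points ε ω) (h2 : points ε ω ∩ Wd ⊆ S) : Sw Wd S = Ap ε Wd ω := by
  rw [← Finset.coe_inj, coe_Ap hε hb]
  ext x
  simp only [Sw, Finset.coe_filter, Set.mem_ofPred_eq, Set.mem_inter_iff]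
  exact ⟨fun h => ⟨h1 h.1, h.2⟩, fun h => ⟨h2 h, h.2⟩⟩

/-- fraction of the colourings without unique hit -/
def fq (u : Poly) (ε : ℝ) (Wd : Set ℂ) (j : ZMod 3) (ω : Sample) : ℝ :=
  fracQ (Ap ε Wd ω) (Vs u ε Wd ω) (Bs u ε Wd ω) j






theorem norm_mW {R : ℝ} (hε : 0 < ε) (hb : Bornology.IsBounded Wd) (hR : 0 ≤ R)
    (hRW : ∀ v ∈ Wd, ‖v‖ ≤ R) (ω : Sample) (i : ZMod 3) : ‖mW u ε Wd ω i‖ ≤ R :=
  norm_mU hR (fun v hv => hRW v (by
    have : v ∈ (Ap ε Wd ω : Set ℂ) := hv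
    rw [coe_Ap hε hb] at this
    exact this.2)) i

theorem norm_sum_qo (hh : 0 ≤ h) {J : Finset ℕ}
    (hJ : J ⊆ Finset.range (nn A e w)) (S : Sample → Finset ℂ) (a b : Set (ℂ × Bool) → ℕ)
    (ω : Sample) (zz : ℕ → ℂ) (hz : ∀ l, ‖zz l‖ ≤ h) :
    ‖∑ l ∈ J, zz l * ((qo S a b l ω : ℝ) : ℂ)‖ ≤ nn A e w * h := by
  have hq : ∀ l, |qo S a b l ω| ≤ 1 := by
    intro l
    unfold qo
    have h0 : 0 ≤ IndLoc3x279.cav (onF a b l) (S ω) :=
      EnvIx279.cav_nonneg (fun X => by unfold onF; split_ifs <;> norm_num) _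
    have h1 : IndLoc3x279.cav (onF a b l) (S ω) ≤ 1 :=
      EnvIx279.cav_le_one (fun X => by unfold onF; split_ifs <;> norm_num) _
    rw [abs_of_nonneg h0]
    exact h1
  refine (norm_sum_le _ _).trans ?_
  have h6 : ∑ l ∈ J, ‖zz l * ((qo S a b l ω : ℝ) : ℂ)‖ ≤ ∑ l ∈ J, h := by
    refine Finset.sum_le_sum fun l _ => ?_
    rw [norm_mul, Complex.norm_real, Real.norm_eq_abs]
    have h7 := hz l
    have h8 := hq l
    have h9 := abs_nonneg (qo S a b l ω)
    have h10 := norm_nonneg (zz l)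
    nlinarith
  refine h6.trans ?_
  rw [Finset.sum_const, nsmul_eq_mul]
  refine mul_le_mul_of_nonneg_right ?_ hh
  have := Finset.card_le_card hJ
  rw [Finset.card_range] at this
  exact_mod_cast this

theorem norm_zl (H : Lay N M m p W A e) (hh : 0 ≤ h) (l : ℕ) : ‖zl h W A e w l‖ ≤ h := by
  unfold zl
  rw [← norm_neg, neg_sub]
  exact norm_gt_succ H.fp hh l

/-- **one environment, window `Wd`** -/
theorem disp_DW (hε : 0 < ε) (H : Lay N M m p W A e) (hh : 0 ≤ h)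
    (hb : Bornology.IsBounded Wd) {J : Finset ℕ}
    (hJ : J ⊆ Finset.range (nn A e w)) {c R : ℝ} (hc : 0 ≤ c) (hR : 0 ≤ R)
    (hRW : ∀ v ∈ Wd, ‖v‖ ≤ R) (S : Sample → Finset ℂ) (ω : Sample)
    (h1 : (S ω : Set ℂ) ⊆ points ε ω) (h2 : points ε ω ∩ Wd ⊆ S ω)
    (hx : ∀ v ∈ Bs u ε Wd ω (w + 1),
      dist (gt h W A e w (tlz (gt h W A e w) (rr A e w) (nn A e w) v)) v ≤ c)
    (hy : ∀ v ∈ Bs u ε Wd ω (w + 2),
      dist (gt h W A e w (tlz (gt h W A e w) 0 (rr A e w) v)) v ≤ c) :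
    ‖DW u ε Wd ω w - ∑ l ∈ J, zl h W A e w l *
          ((qo S (ta u √ε h Wd W A e w) (tb u √ε h Wd W A e w) l ω : ℝ) : ℂ)‖ ≤
      (2 * c + ((Finset.range (nn A e w) \ J).card : ℝ) * h) + (2 * R + nn A e w * h) *
        (fq u ε Wd (w + 1) ω + fq u ε Wd (w + 2) ω) := by
  have hS := Sw_eqW hε hb h1 h2
  have eV : Vw u √ε Wd (S ω) = Vs u ε Wd ω := by
    unfold Vw Vs
    rw [hS]
  have eB : Bw u √ε Wd (S ω) = Bs u ε Wd ω := by
    unfold Bw Bs
    rw [hS, eV]
  have h3 := disp_env (u := u) (d := √ε) (Wd := Wd) (w := w) H hh hJ hc hR S ω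
    (by rw [eB]; exact hx) (by rw [eB]; exact hy)
    (by
      rw [eB]
      intro j v hv
      have h1 : v ∈ (Ap ε Wd ω : Set ℂ) := hv.1
      rw [coe_Ap hε hb] at h1
      exact hRW v h1.2)
  rw [hS, eV, eB] at h3
  exact h3

/-- **`idd`, `edd`, `disp`**, everything off `bad` -/
theorem disp_fieldW (hε : 0 < ε) (H : Lay N M m p W A e) (hh : 0 ≤ h)
    (hb : Bornology.IsBounded Wd) {J : Finset ℕ}
    (hJ : J ⊆ Finset.range (nn A e w)) {c R θ : ℝ} (hc : 0 ≤ c) (hR : 0 ≤ R) (hθ : 0 ≤ θ)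
    (hRW : ∀ v ∈ Wd, ‖v‖ ≤ R) (S : Sample → Finset ℂ)
    (hS : ∀ᵐ ω ∂sampleLaw, (S ω : Set ℂ) ⊆ points ε ω ∧ points ε ω ∩ Wd ⊆ S ω)
    {bad : Set Sample} (mbad : MeasurableSet bad)
    (hx : ∀ᵐ ω ∂sampleLaw, ω ∉ bad → ∀ v ∈ Bs u ε Wd ω (w + 1),
      dist (gt h W A e w (tlz (gt h W A e w) (rr A e w) (nn A e w) v)) v ≤ c)
    (hy : ∀ᵐ ω ∂sampleLaw, ω ∉ bad → ∀ v ∈ Bs u ε Wd ω (w + 2),
      dist (gt h W A e w (tlz (gt h W A e w) 0 (rr A e w) v)) v ≤ c)
    (hq : ∀ᵐ ω ∂sampleLaw, ω ∉ bad →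
      fq u ε Wd (w + 1) ω ≤ θ ∧ fq u ε Wd (w + 2) ω ≤ θ) :
    let dd : Sample → ℝ := fun ω => (2 * c + ((Finset.range (nn A e w) \ J).card : ℝ) * h) +
      (2 * R + nn A e w * h) * (2 * θ + bad.indicator 1 ω)
    Integrable dd sampleLaw ∧
      (∫ ω, dd ω ∂sampleLaw = (2 * c + ((Finset.range (nn A e w) \ J).card : ℝ) * h) +
        (2 * R + nn A e w * h) * (2 * θ + sampleLaw.real bad)) ∧
      ∀ᵐ ω ∂sampleLaw, ‖DW u ε Wd ω w - ∑ l ∈ J, zl h W A e w l *
          ((qo S (ta u √ε h Wd W A e w) (tb u √ε h Wd W A e w) l ω : ℝ) : ℂ)‖ ≤ dd ω := by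
  intro dd
  have : IsProbabilityMeasure sampleLaw := by unfold sampleLaw; infer_instance
  have ib : Integrable (bad.indicator (1 : Sample → ℝ)) sampleLaw :=
    (integrable_const (1 : ℝ)).indicator mbad
  have i1 : Integrable (fun ω => 2 * θ + bad.indicator 1 ω) sampleLaw :=
    (integrable_const _).add ib
  have i2 : Integrable (fun ω => (2 * R + nn A e w * h) * (2 * θ + bad.indicator 1 ω))
      sampleLaw := i1.const_mul _
  refine ⟨(integrable_const _).add i2, ?_, ?_⟩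
  · show ∫ ω, ((2 * c + ((Finset.range (nn A e w) \ J).card : ℝ) * h) +
      (2 * R + nn A e w * h) * (2 * θ + bad.indicator 1 ω)) ∂sampleLaw = _
    have j1 : ∫ ω, bad.indicator (1 : Sample → ℝ) ω ∂sampleLaw = sampleLaw.real bad :=
      integral_indicator_one mbad
    have j2 : ∫ ω, (2 * θ + bad.indicator (1 : Sample → ℝ) ω) ∂sampleLaw =
        2 * θ + sampleLaw.real bad := by
      rw [integral_add (integrable_const _) ib, j1]
      simp
    rw [integral_add (integrable_const _) i2, integral_const_mul, j2]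
    simp
  · filter_upwards [hS, hx, hy, hq] with ω h1 h2 h3 h4
    have p1 : 0 ≤ 2 * c + ((Finset.range (nn A e w) \ J).card : ℝ) * h := by positivity
    by_cases hω : ω ∈ bad
    · have q1 : ‖DW u ε Wd ω w‖ ≤ 2 * R := by
        unfold DW
        refine (norm_sub_le _ _).trans ?_
        have a1 := norm_mW (u := u) hε hb hR hRW ω (w + 2)
        have a2 := norm_mW (u := u) hε hb hR hRW ω (w + 1)
        linarith
      have q2 := norm_sum_qo (w := w) hh hJ S (ta u √ε h Wd W A e w) (tb u √ε h Wd W A e w) ω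
        (zl h W A e w) fun l => norm_zl H hh l
      have q3 : (2 * R + nn A e w * h) ≤
          (2 * R + nn A e w * h) * (2 * θ + bad.indicator (1 : Sample → ℝ) ω) := by
        rw [Set.indicator_of_mem hω, Pi.one_apply]
        have : 0 ≤ 2 * R + nn A e w * h := by positivity
        nlinarith
      refine (norm_sub_le _ _).trans ?_
      show _ ≤ (2 * c + ((Finset.range (nn A e w) \ J).card : ℝ) * h) +
        (2 * R + nn A e w * h) * (2 * θ + bad.indicator 1 ω)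
      linarith
    · refine (disp_DW hε H hh hb hJ hc hR hRW S ω h1.1 h1.2 (h2 hω) (h3 hω)).trans ?_
      refine add_le_add le_rfl (mul_le_mul_of_nonneg_left ?_ (by positivity))
      rw [Set.indicator_of_notMem hω]
      obtain ⟨q1, q2⟩ := h4 hω
      linarith

/-- sign of 654: `z l = gate (l + 1) - gate l` -/
theorem neg_zl (l : ℕ) : -zl h W A e w l = gt h W A e w (l + 1) - gt h W A e w l := by
  unfold zl
  ring


end win

end Crest.Agent.R143.DispJx840
end
end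

-- ▼ part R143/TlH_58

/-!
# Row 143 (S0194), RIG: the hypotheses `hx`, `hy` of 840's `disp_field` (helper58)

* `hit_arcP` : a labelled site in `u.P` is at distance `≤ 2 d` from its arc (no density)
* `tl_nearP1`, `tl_nearP2` : its tile is within `8 h + 2 d`
* **`hx_P`, `hy_P`** : `hx`, `hy` of `disp_field` (window `u.P`, EVERY `ω`), `c = 8 h + 2 √ε`
* **`hx_W`, `hy_W`** : the same in the window `Wn`, if there is no hole of radius `√ε` deep in `u.P`
* **`disp_u`** : the fields `idd`, `edd`, `disp` for 609's `DI` and 416's layout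
-/

set_option autoImplicit false

noncomputable section

open scoped Classical

namespace Crest.Agent.R143.TlHx58

open MeasureTheory Set
open Crest.ProbabilityR.Voronoi
open Crest.Agent.R143.NetUx346 Crest.Agent.R143.NetVx346 Crest.Agent.R143.PolyUx346
open Crest.Agent.R143.TileRx228 Crest.Agent.R143.LayQx811 Crest.Agent.R143.Layx416
open Crest.Agent.R143.LayUx416 Crest.Agent.R143.TlAx58 Crest.Agent.R143.TlGx58
open Crest.Agent.R143.MeasPx609 (Wn bdd_Wn isCompact_P)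
open Crest.Agent.R143.MeasDx609 (DI)
open Crest.Agent.R143.DispIx840 Crest.Agent.R143.DispJx840
open Crest.Agent.R143.EnvIx279 (qo)
open Crest.Agent.R143.Dbl2x609 (Ap)
open Crest.Agent.R143.Brkx478 (Bk cells)
open Crest.Agent.R143.Locx922 (Hol)
open Crest.Agent.R143.LocUx700 (deep mem_Vin)

variable {u : Poly} {S : Finset ℂ} {d h ε : ℝ} {i w : ZMod 3} {x : ℂ} {ω : Sample}
  {m M : ℕ} {p W : ℤ → ℤ × ℤ} {A e : ℤ → ℤ}

/-- **a labelled site of `u.P` is near its arc**, no density -/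
theorem hit_arcP (hxP : x ∈ u.P) (hx : x ∈ NetVx346.Bl S (Vin S u.P d) u.Lab i) {l : Fin 3}
    (hl : ((l : ℕ) : ZMod 3) = i) : Metric.infDist x (u.Arc l) ≤ 2 * d := by
  obtain ⟨h1, h2, -, h4⟩ := hx
  have h3 : ¬ Metric.closedBall x (2 * d) ⊆ u.P := fun hc => h2 (mem_Vin.2 ⟨h1, hc⟩)
  obtain ⟨y, hy, hyP⟩ := Set.not_subset.1 h3
  obtain ⟨z, z1, z2, z3, -⟩ := Cdx806.seg_front u.s_pos (F := cells (u.U : Set Bk)) hxP hyP
  obtain ⟨l', hl'⟩ := mem_arcs u z1 z2
  obtain ⟨j, j1, j2, -⟩ := Poly.near_lab (u := u) x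
  have hjl : j = l := lab_inj (by rw [hl, ← h4, j2])
  subst hjl
  refine (j1 l').trans ((Metric.infDist_le_dist_of_mem hl').trans ?_)
  rw [dist_comm]
  exact z3.trans (Metric.mem_closedBall.1 hy)

/-- the tile of a site of `u.P` of label `w + 2` -/
theorem tl_nearP1 (H : LayU u m M p W A e) (hh : (m : ℝ) * h = u.s) (hxP : x ∈ u.P)
    (hx : x ∈ NetVx346.Bl S (Vin S u.P d) u.Lab (w + 2)) :
    dist (gt h W A e w (tlz (gt h W A e w) 0 (rr A e w) x)) x ≤ 8 * h + 2 * d := by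
  rw [← lab1 w] at hx
  obtain ⟨l, hl⟩ := exists_lab (jj w + 1)
  obtain ⟨a, a1, a2, a3⟩ := arc_gate H hh hl (hit_arcP hxP hx hl)
  rw [show jj w + 1 + 1 = jj w + 2 by ring] at a2
  have h1 := H.lay.rr_eq w
  have ha1 : al A e w ≤ a := a1
  have ha2 : a ≤ mi A e w := a2
  obtain ⟨k, hk⟩ : ∃ k : ℕ, a = al A e w + k := ⟨(a - al A e w).toNat, by omega⟩
  refine (dist_tlz (gt h W A e w) x (b := k) (Nat.zero_le _) (by omega)).trans ?_
  unfold gt
  rw [← hk]
  exact a3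

/-- the tile of a site of `u.P` of label `w + 1` -/
theorem tl_nearP2 (H : LayU u m M p W A e) (hh : (m : ℝ) * h = u.s) (hxP : x ∈ u.P)
    (hx : x ∈ NetVx346.Bl S (Vin S u.P d) u.Lab (w + 1)) :
    dist (gt h W A e w (tlz (gt h W A e w) (rr A e w) (nn A e w) x)) x ≤ 8 * h + 2 * d := by
  rw [← lab2 w] at hx
  obtain ⟨l, hl⟩ := exists_lab (jj w + 2)
  obtain ⟨a, a1, a2, a3⟩ := arc_gate H hh hl (hit_arcP hxP hx hl)
  rw [show jj w + 2 + 1 = jj w + 3 by ring] at a2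
  have h1 := H.lay.rr_eq w
  have h2 := H.lay.nn_eq w
  have ha1 : mi A e w ≤ a := a1
  have ha2 : a ≤ be A e w := a2
  obtain ⟨k, hk⟩ : ∃ k : ℕ, a = al A e w + k := ⟨(a - al A e w).toNat, by omega⟩
  refine (dist_tlz (gt h W A e w) x (b := k) (by omega) (by omega)).trans ?_
  unfold gt
  rw [← hk]
  exact a3

/-- **`hx` of `disp_field`**, window `u.P`, every `ω` -/
theorem hx_P (hε : 0 < ε) (H : LayU u m M p W A e) (hh : (m : ℝ) * h = u.s) (w : ZMod 3)
    (ω : Sample) : ∀ v ∈ Bp u ε ω (w + 1),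
      dist (gt h W A e w (tlz (gt h W A e w) (rr A e w) (nn A e w) v)) v ≤ 8 * h + 2 * √ε :=
  fun _ hv => tl_nearP2 H hh (Bp_P hε hv) hv

/-- **`hy` of `disp_field`**, window `u.P`, every `ω` -/
theorem hy_P (hε : 0 < ε) (H : LayU u m M p W A e) (hh : (m : ℝ) * h = u.s) (w : ZMod 3)
    (ω : Sample) : ∀ v ∈ Bp u ε ω (w + 2),
      dist (gt h W A e w (tlz (gt h W A e w) 0 (rr A e w) v)) v ≤ 8 * h + 2 * √ε :=
  fun _ hv => tl_nearP1 H hh (Bp_P hε hv) hv




end Crest.Agent.R143.TlHx58
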