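import Crest.Agent.R143.FinU_609
import Crest.Agent.R143.RelP_62
import Crest.Agent.R143.GPosC_348
import Crest.Agent.R143.LayU_416
import Crest.Agent.R143.ColX_829
import Crest.Agent.R143.Dbl2_609
import Crest.Agent.R143.CorE_133
import Crest.Agent.R143.CorL_765
import Crest.Agent.R143.InpI_609
import Crest.Agent.R143.RigP_854
import Crest.Agent.R143.InpJ_609
import Crest.Agent.R143.CorV_169
import Crest.Agent.R143.TlH_58
import Crest.Agent.R143.QuenS_654
import Crest.Agent.R143.SpM_169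

-- ▼ part R143/PolyM_62
section

/-!
# Row 143 (S0194): the frozen totals as random variables (helper62)

For 346's frozen `Poly` (`PolyU_346`) and 609's measurability (`FinU_609`), `0 < ε`:

* `Wd u ε` : the window `{x | infDist x u.P ≤ 100 √ε}`, closed and bounded; `S_eq : u.S ε ω = Ap ..`
* `meas_lab`, `meas_in` : the labels and the deep points are Borel
* `meas_T`, `meas_T'`, `meas_TB`, `meas_Dk` : measurable functions of the sample
* `FT u ε z X` : the total as a function of the configuration (`T = FT (cfg)`, `FMe`, local on the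
  window): `T_cfg`, `T'_cfg`, `fme_FT`, `FT_loc`
* `bdd` : for every `u` there is `C > 0` with `‖T‖, ‖T'‖, ‖TB‖, ‖Dk k‖ ≤ C` for all `0 < ε ≤ 1` and
  ALL `ω`; `int_T`, `int_T'`, `int_TB`, `int_Dk` : integrable
-/

set_option autoImplicit false

noncomputable section

open scoped Classical

namespace Crest.Agent.R143.PolyMx62

open MeasureTheory Filter Topology
open Crest.ProbabilityR.Voronoi
open Crest.Agent.R143.PP0x831 Crest.Agent.R143.Janx304 Crest.Agent.R143.Dblx609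
open Crest.Agent.R143.Dbl2x609
open Crest.Agent.R143.B0x346 Crest.Agent.R143.NetUx346 Crest.Agent.R143.NetVx346
  Crest.Agent.R143.PolyUx346
open Crest.Agent.R143.Prodx609 Crest.Agent.R143.FinMx609 Crest.Agent.R143.FinTx609
  Crest.Agent.R143.FinUx609
open Crest.Agent.R143.Brkx478 (Bk cells cells_finite)
open Crest.Agent.R143.Tenx416 (Pg)
open Crest.Agent.R143.DefsNx346 (hi)
open Crest.Agent.R143.RelPx62
open Crest.Agent.R158.Sp896

variable (u : Poly) {ε : ℝ}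

/-! ### the region and the window -/




theorem P_ne : u.P.Nonempty := by
  have h := u.cyc.left 0
  refine ⟨⟨u.s * (lc (u.v 0) (u.v (0 + 1))).1, u.s * (lc (u.v 0) (u.v (0 + 1))).2⟩,
    Set.mem_biUnion h ?_⟩
  have hs := u.s_pos
  refine ⟨le_rfl, ?_, le_rfl, ?_⟩
  · show u.s * _ ≤ u.s * _
    nlinarith
  · show u.s * _ ≤ u.s * _
    nlinarith

/-- the window -/
def Wd (ε : ℝ) : Set ℂ := {x | Metric.infDist x u.P ≤ 100 * √ε}






/-! ### Borel data -/




/-! ### measurability -/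








/-! ### functions of the configuration -/









/-! ### bounds -/







end Crest.Agent.R143.PolyMx62
end
end

-- ▼ part R143/LawH_765
section

/-!
# Row 143 (S0194), glue CorrI: law ⇒ `CorH` for the coloured sites of the big disc (helper765)

On top of 348's `corH_all`; `S ω = Ap ε B ω` (609), coloured sites `Xc hS h3 s` (829), layout
`LayU` (416), side `100 η`, `m * (100 η) = u.s`.

* `RR_near` : points of the strips are near `u.P`; `Rall_ball`, `fat_ball` : strips in the big disc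
* **`law_corH`** : any layout, any bounded measurable `B ⊇ Rall`, any `U`: almost surely, for every
  colouring `s` of the cells with positive weight: `CorH (Xc hS h3 s) U M W η d (al A e i) (nn A e i)`
* **`law_corU`** : the same for `LayU` and the discs of radius `R'` (sites) and `R + 4` (region `U`),
  `u.P` in the disc of radius `R`
-/

set_option autoImplicit false

noncomputable section

open scoped Classical

namespace Crest.Agent.R143.LawHx765

open MeasureTheory Set Metric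
open Crest.ProbabilityR.Voronoi
open Crest.Agent.R143.B0x346 Crest.Agent.R143.Locx922
open Crest.Agent.R143.PP0x831 Crest.Agent.R143.Poisx304 Crest.Agent.R143.Janx304
open Crest.Agent.R143.IndLocx279 Crest.Agent.R143.PWx978 Crest.Agent.R143.Tplx978
open Crest.Agent.R143.WLocx713 Crest.Agent.R143.IndLoc3x279
open Crest.Agent.R143.TileRx228 Crest.Agent.R143.PthFx765 Crest.Agent.R143.TplIx204
open Crest.Agent.R143.LayQx811 Crest.Agent.R143.Layx416 Crest.Agent.R143.LayUx416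
open Crest.Agent.R143.CorNx765 Crest.Agent.R143.GPosFx348 Crest.Agent.R143.GPosCx348
open Crest.Agent.R143.FinCx811 Crest.Agent.R143.ColXx829 Crest.Agent.R143.Dbl2x609
open Crest.Agent.R143.FinMx609 Crest.Agent.R143.PolyUx346
open Crest.Agent.R143.CorHx713 (gO gA QA CorH)
open scoped ENNReal

/-! ### geometry -/

section geo

variable {u : Poly} {m M : ℕ} {p W : ℤ → ℤ × ℤ} {A e : ℤ → ℤ} {η : ℝ}

theorem s_le (u : Poly) : u.s ≤ 1 := by
  unfold Poly.s
  exact pow_le_one₀ (by norm_num) (by norm_num)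

theorem eta_pos (L : LayU u m M p W A e) (hh : (m : ℝ) * (100 * η) = u.s) : 0 < η := by
  have := L.h_pos hh
  linarith

/-- the unit is small -/
theorem eta_le (L : LayU u m M p W A e) (hh : (m : ℝ) * (100 * η) = u.s) : 1000 * η ≤ 1 := by
  have h1 := s_le u
  have h2 : (10 : ℝ) ≤ m := by exact_mod_cast L.m_pos
  have h3 := eta_pos L hh
  rw [← hh] at h1
  nlinarith

/-- points of the strips are near `u.P` -/
theorem RR_near (L : LayU u m M p W A e) (hh : (m : ℝ) * (100 * η) = u.s) {a' b' : ℝ}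
    (ha : a' < 100 * η) (hab : a' ≤ b') (hb : 0 ≤ b') (hbh : b' ≤ 100 * η) {a : ℤ} {w : ℂ}
    (hw : w ∈ RR a' b' (100 * η) W a) : infDist w u.P ≤ 3 / 10 := by
  obtain ⟨-, -, -, -, h1⟩ := L.RR_dist hh ha hab hb hbh hw
  have h2 := eta_le L hh
  refine h1.trans ?_
  linarith

theorem RR_ball (L : LayU u m M p W A e) (hh : (m : ℝ) * (100 * η) = u.s) {R : ℝ}
    (hR : u.P ⊆ closedBall 0 R) {a' b' : ℝ}
    (ha : a' < 100 * η) (hab : a' ≤ b') (hb : 0 ≤ b') (hbh : b' ≤ 100 * η) (a : ℤ) :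
    RR a' b' (100 * η) W a ⊆ closedBall 0 (R + 1 / 2) := by
  intro w hw
  have h1 := RR_near L hh ha hab hb hbh hw
  obtain ⟨y, hy, hwy⟩ := (infDist_lt_iff (PolyMx62.P_ne u)).1
    (show infDist w u.P < 1 / 2 by linarith)
  have h2 := hR hy
  rw [mem_closedBall] at h2 ⊢
  have := dist_triangle w y 0
  linarith

/-- the points of the template are in the disc of radius `R + 1 / 2` -/
theorem Rall_ball (L : LayU u m M p W A e) (hh : (m : ℝ) * (100 * η) = u.s) {R : ℝ}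
    (hR : u.P ⊆ closedBall 0 R) : Rall (12 * η) (52 * η) (100 * η) W ⊆ closedBall 0 (R + 1 / 2) := by
  have h0 := eta_pos L hh
  refine iUnion_subset fun a => ?_
  exact RR_ball L hh hR (by linarith) (by linarith) (by linarith) (by linarith) a

/-- the tile side around the strips is in the disc of radius `R + 4` -/
theorem fat_ball (L : LayU u m M p W A e) (hh : (m : ℝ) * (100 * η) = u.s) {R : ℝ}
    (hR : u.P ⊆ closedBall 0 R) : ∀ a : ℤ, ∀ w ∈ RR (9 * η) (51 * η) (100 * η) W a, ∀ s : ℂ,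
      ‖s - w‖ ≤ 100 * η → s ∈ closedBall (0 : ℂ) (R + 4) := by
  intro a w hw s hs
  have h0 := eta_pos L hh
  have h1 := eta_le L hh
  have h2 := RR_ball L hh hR (by linarith) (by linarith) (by linarith) (by linarith) a hw
  rw [mem_closedBall, dist_zero_right] at h2 ⊢
  have h3 := norm_add_le (s - w) w
  rw [sub_add_cancel] at h3
  linarith

end geo

/-! ### law ⇒ corridor -/

variable {ε : ℝ} {hε : 0 < ε} {c : ℝ≥0∞} {c0 : c ≠ 0} {c1 : c ≤ 1} {D : DT} {η : ℝ}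

/-- **positive weight gives the corridor**, for every colouring of the cells -/
theorem law_corH {n M : ℕ} {m : ℤ} {p W : ℤ → ℤ × ℤ} {A e : ℤ → ℤ} (L : Lay n M m p W A e)
    [Fintype (ZMod M)] (N : NumC D η) (H : Std (D.raw ε hε c c0 c1).tpl D.A' D.B' D.h Prod.fst)
    (hP : (D.raw ε hε c c0 c1).AePos) (i : ZMod 3) {B : Set ℂ} (hB : Bornology.IsBounded B)
    (hR : Rall (12 * η) (52 * η) (100 * η) W ⊆ B) {d : ℝ} (hd : 0 < d) (hd' : 100 * d ≤ η)
    {U : Set ℂ} (hU : ∀ a : ℤ, ∀ w ∈ RR (9 * η) (51 * η) (100 * η) W a, ∀ s : ℂ,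
      ‖s - w‖ ≤ 100 * η → s ∈ U) :
    ∀ᵐ ω ∂sampleLaw, Hol (Ap ε B ω : Set ℂ) U d →
      ∀ (hS : GP (Ap ε B ω : Set ℂ)) (h3 : 3 ≤ (Ap ε B ω).card) (s : Cs hS → ZMod 2),
        gC L.fp H A e i (Xc hS h3 s) ≠ 0 → CorH (Xc hS h3 s) U M W η d (al A e i) (nn A e i) := by
  have h1 : ∀ᵐ ω ∂sampleLaw, (Ap ε B ω : Set ℂ) ⊆ points ε ω ∧
      points ε ω ∩ Rall D.A' D.B' D.h W ⊆ Ap ε B ω := by
    refine Filter.Eventually.of_forall fun ω => ?_
    rw [coe_Ap hε hB, N.A', N.B', N.h]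
    exact ⟨inter_subset_left, inter_subset_inter_right _ hR⟩
  have h2 := L.rr_pos i
  have h4 := L.rr_lt i
  have h5 := L.nn_lt i
  filter_upwards [corH_all (Ac := A) (e := e) N L.fp H hP i h1 hd hd' (by omega) (by omega) hU]
    with ω hω hH hS h3 s hg
  exact hω hS hH (bs hS h3 s) bs_sub hullC_Xc hg

/-- **the same for the layout of a polygon** and discs -/
theorem law_corU {u : Poly} {m M : ℕ} {p W : ℤ → ℤ × ℤ} {A e : ℤ → ℤ} (L : LayU u m M p W A e)
    [Fintype (ZMod M)] (hh : (m : ℝ) * (100 * η) = u.s) (N : NumC D η)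
    (H : Std (D.raw ε hε c c0 c1).tpl D.A' D.B' D.h Prod.fst)
    (hP : (D.raw ε hε c c0 c1).AePos) {R R' : ℝ} (hR : u.P ⊆ closedBall 0 R)
    (hR' : R + 1 ≤ R') {d : ℝ} (hd : 0 < d) (hd' : 100 * d ≤ η) :
    ∀ᵐ ω ∂sampleLaw, Hol (Ap ε (closedBall 0 R') ω : Set ℂ) (closedBall 0 (R + 4)) d →
      ∀ (hS : GP (Ap ε (closedBall 0 R') ω : Set ℂ)) (h3 : 3 ≤ (Ap ε (closedBall 0 R') ω).card)
        (s : Cs hS → ZMod 2) (i : ZMod 3), gC L.lay.fp H A e i (Xc hS h3 s) ≠ 0 →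
          CorH (Xc hS h3 s) (closedBall 0 (R + 4)) M W η d (al A e i) (nn A e i) := by
  have h1 : Rall (12 * η) (52 * η) (100 * η) W ⊆ closedBall 0 R' :=
    (Rall_ball L hh hR).trans (closedBall_subset_closedBall (by linarith))
  have h2 : ∀ i : ZMod 3, ∀ᵐ ω ∂sampleLaw,
      Hol (Ap ε (closedBall 0 R') ω : Set ℂ) (closedBall 0 (R + 4)) d →
      ∀ (hS : GP (Ap ε (closedBall 0 R') ω : Set ℂ)) (h3 : 3 ≤ (Ap ε (closedBall 0 R') ω).card)
        (s : Cs hS → ZMod 2), gC L.lay.fp H A e i (Xc hS h3 s) ≠ 0 →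
          CorH (Xc hS h3 s) (closedBall 0 (R + 4)) M W η d (al A e i) (nn A e i) := fun i =>
    law_corH L.lay N H hP i isBounded_closedBall h1 hd hd' (fat_ball L hh hR)
  filter_upwards [ae_all_iff.2 h2] with ω hω hH hS h3 s i hg
  exact hω i hH hS h3 s hg

end Crest.Agent.R143.LawHx765
end
end

-- ▼ part R143/DisI_749
section

/-!
# Row 143 (S0194), block RIG: corridors, windows and discs (helper749)

`H : LayU u m M p W A e`, side `h` of the tiles with `m h = u.s`, tile regions `Rall a' b' h W`.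
* `off_P`, `off_Wn` : the tile regions are disjoint from `u.P` and from the window `Wn u ε`
  (`100 √ε < h - a'`); `off_Wn_ev` : for all small `ε`
* `sub_UU`, `sub_RU`, `P_RU`, `Wn_UU`, `Wn_RU`, `UU_RU` : everything is in the disc of `SU u`
* `reg_off_P`, `reg_off_Wn`, `reg_sub_UU`, `reg_sub_RU` : the same for the region of 765's net
* `hS_SU`, `hS_all` : the sites of the regions and windows are in `SU u ε ω`
* **`inp_SU`** : 279's `Inp` with `S = SU u ε` (609's `inp`)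
-/

set_option autoImplicit false
set_option linter.unusedSectionVars false

noncomputable section

open scoped Classical

namespace Crest.Agent.R143.DisIx749

open MeasureTheory Set Filter Topology
open Crest.ProbabilityR.Voronoi
open Crest.Agent.R143.PP0x831 Crest.Agent.R143.Dbl2x609 Crest.Agent.R143.B0x346
open Crest.Agent.R143.MeasPx609 Crest.Agent.R143.PolyUx346
open Crest.Agent.R143.CorEx133 Crest.Agent.R143.LayUx416
open Crest.Agent.R143.TileRx228 Crest.Agent.R143.CorNx765 Crest.Agent.R143.PthFx765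
open Crest.Agent.R143.PWx978 Crest.Agent.R143.LimSx133 Crest.Agent.R143.Tplx978
open Crest.Agent.R143.EnvIx279
open Crest.Agent.R143.IndLocx279 Crest.Agent.R143.TplIx204
open scoped ENNReal

section lay

variable {u : Poly} {m M : ℕ} {p W : ℤ → ℤ × ℤ} {A e : ℤ → ℤ} {h a' b' ε : ℝ}

/-- the tile regions are off `u.P` -/
theorem off_P (H : LayU u m M p W A e) (hh : (m : ℝ) * h = u.s) (ha : a' < h) (hab : a' ≤ b')
    (hb : 0 ≤ b') (hbh : b' ≤ h) : Disjoint (Rall a' b' h W) u.P := by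
  rw [Set.disjoint_left]
  rintro s hs
  obtain ⟨a, hs⟩ := mem_iUnion.1 hs
  exact (H.RR_dist hh ha hab hb hbh hs).1



theorem sub_UU (H : LayU u m M p W A e) (hh : (m : ℝ) * h = u.s) (ha : a' < h) (hab : a' ≤ b')
    (hb : 0 ≤ b') (hbh : b' ≤ h) : Rall a' b' h W ⊆ UU u :=
  iUnion_subset fun a => RR_sub H hh ha hab hb hbh a

end lay

section discs

variable {u : Poly} {ε : ℝ}

theorem UU_RU : UU u ⊆ Metric.closedBall 0 (RU u) :=
  Metric.closedBall_subset_closedBall (by have := one_le_Rp u; unfold RU; linarith)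








end discs

section net

variable {u : Poly} {m M : ℕ} {p W : ℤ → ℤ × ℤ} {Ac e : ℤ → ℤ} {ε : ℝ} {T : Tpl ε (Tn × Bool)}
  {A B h : ℝ} [DecidableEq (ZMod M)] [Fintype (ZMod M)]








end net

end Crest.Agent.R143.DisIx749
end
end

-- ▼ part R143/JTn_709
section

/-!
# Row 143 (S0194), RIG, item (10) of 970's last layer (helper709)

* `nT_ge` : the number of the out tiles is at least `2 m - 6`
* **`JT_nonempty`** : straight out tiles with straight neighbours exist eventually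
* `JT_ge` : their number is eventually at least `k`; `nT_ev`
-/

set_option autoImplicit false

noncomputable section

open scoped Classical

namespace Crest.Agent.R143.JTnx709

open Filter Topology
open Crest.Agent.R143.PolyUx346 (Poly)
open Crest.Agent.R143.Layx416 Crest.Agent.R143.LayUx416
open Crest.Agent.R143.RigPx854

/-- the number of the out tiles -/
theorem nT_ge {u : Poly} (i : ZMod 3) {N : ℕ} (h : u.n + 4 ≤ N) :
    2 * mN u N ≤ nT u i N + 6 := by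
  have H := (ly_spec h).lay
  have h1 := H.g_gap (jj i + 1)
  have h2 := H.g_gap (jj i + 1 + 1)
  have h3 := H.nn_eq i
  have e1 : jj i + 1 + 1 + 1 = jj i + 3 := by ring
  rw [e1] at h2
  unfold al be at h3
  unfold nT
  omega

/-- the number of the out tiles goes to infinity -/
theorem nT_ev (u : Poly) (i : ZMod 3) (k : ℕ) : ∀ᶠ N in atTop, k ≤ nT u i N := by
  filter_upwards [mN_mono (u := u) (k + 6), eventually_ge_atTop (u.n + 4)] with N h1 h2
  have := nT_ge (u := u) i h2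
  omega

/-- the number of the straight out tiles with straight neighbours goes to infinity -/
theorem JT_ge (u : Poly) (i : ZMod 3) (k : ℕ) : ∀ᶠ N in atTop, k ≤ (JT u i N).card := by
  filter_upwards [nT_ev u i (k + (3 * u.L + 4)), eventually_ge_atTop (u.n + 4)] with N h1 h2
  have h3 := JT_card (u := u) i h2
  have h4 : (nT u i N : ℝ) ≤ ((JT u i N).card + (3 * u.L + 4) : ℕ) := by push_cast; linarith
  have h5 : nT u i N ≤ (JT u i N).card + (3 * u.L + 4) := by exact_mod_cast h4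
  omega

/-- **(10)** : straight out tiles with straight neighbours exist -/
theorem JT_nonempty (u : Poly) (i : ZMod 3) : ∀ᶠ N in atTop, (JT u i N).Nonempty := by
  filter_upwards [JT_ge u i 1] with N h
  exact Finset.card_pos.1 (by omega)

end Crest.Agent.R143.JTnx709
end
end

-- ▼ part R143/RigZd_609
section

/-!
# Row 143 (S0194), RIG: the concrete objects of the last layer (helper609)

* `et N = hN N / 100`; `TData` : 204's template data for all widths and meshes (`NumC`), `tpl`, `std`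
* `neM`, `uM` : the gates of the corridor net; **`net`**, **`gW`** : net and weight of the label `w`
* **`VL`** : spatial charge of the tile `l` (169's `VL`: `2 ≤ l`, `l + 2 < nT`, otherwise `0`)
* **`kZ Z N ε`** : the number `κ` (169's `kap` for `fP`)
* **`tA`, `tB`** : tiles of the touches (58), window `u.P`; `zL l = gate (l + 1) - gate l`
* `CW` = region of the net, `UP = u.P`, `SU u ε ω` = sites (133)
* **`inp`** : 279's `Inp` for these objects, from the integrability of `g ‖V l‖ ^ 2`; `disU` : the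
  corridor is off `u.P`, in the disc; **`mean`** : field `mean`; `nz` : a straight tile exists
-/

set_option autoImplicit false
set_option linter.style.haveILetI false

noncomputable section

open scoped Classical

namespace Crest.Agent.R143.RigZdx609

open MeasureTheory Set Filter Topology
open scoped ENNReal
open Crest.ProbabilityR.Voronoi
open Crest.Agent.R143.PP0x831 Crest.Agent.R143.Poisx304 Crest.Agent.R143.Janx304
open Crest.Agent.R143.Prodx609 Crest.Agent.R143.FinMx609 Crest.Agent.R143.FinM2x609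
open Crest.Agent.R143.Dbl2x609 Crest.Agent.R143.B0x346
open Crest.Agent.R143.MeasPx609 Crest.Agent.R143.MeasDx609 Crest.Agent.R143.InpIx609
  Crest.Agent.R143.InpJx609
open Crest.Agent.R143.PolyUx346 (Poly)
open Crest.Agent.R143.IndLocx279
open Crest.Agent.R143.IndLoc2x279 (sig sig_le sig_mono)
open Crest.Agent.R143.IndLoc3x279 (clr cav)
open Crest.Agent.R143.EnvIx279
open Crest.Agent.R143.PWx978 Crest.Agent.R143.Tplx978
open Crest.Agent.R143.TileRx228 Crest.Agent.R143.PthFx765 Crest.Agent.R143.TplIx204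
open Crest.Agent.R143.CorNx765 Crest.Agent.R143.Layx416 Crest.Agent.R143.LayUx416
open Crest.Agent.R143.RigPx854
open Crest.Agent.R143.SpMx169 (fP fP_meas kap)
open Crest.Agent.R143.TlAx58 (ta tb ta_loc tb_loc ta_meas tb_meas)
open Crest.Agent.R143.CorEx133 (Rp RU UU SU)

/-! ### the template family -/

/-- unit of length: `h = 100 η` -/
def et (N : ℕ) : ℝ := hN N / 100

theorem et_pos (N : ℕ) : 0 < et N := div_pos (hN_pos N) (by norm_num)

theorem et_h (N : ℕ) : 100 * et N = hN N := by unfold et; ring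

/-- **template data of all widths and meshes**: functions of `(N, ε)` only -/
structure TData where
  D : ℕ → ℝ → DT
  c : ℕ → ℝ → ℝ≥0∞
  c0 : ∀ N ε, c N ε ≠ 0
  c1 : ∀ N ε, c N ε ≤ 1
  num : ∀ N ε, GPosCx348.NumC (D N ε) (et N)

variable (Z : TData) {N : ℕ} {ε : ℝ} {u : Poly} {w : ZMod 3}

/-- 978's template with forced events -/
def TData.raw (N : ℕ) (hε : 0 < ε) : Raw ε (Tn × Bool) :=
  (Z.D N ε).raw ε hε (Z.c N ε) (Z.c0 N ε) (Z.c1 N ε)

/-- the template -/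
def TData.tpl (N : ℕ) (hε : 0 < ε) : Tpl ε (Tn × Bool) := (Z.raw N hε).tpl

theorem TData.h_eq (N : ℕ) (ε : ℝ) : (Z.D N ε).h = hN N := by
  rw [(Z.num N ε).h, et_h]

theorem TData.isS (N : ℕ) (ε : ℝ) : CorVx169.IsS (Z.D N ε) (et N) :=
  ⟨(Z.num N ε).g, (Z.num N ε).A, (Z.num N ε).B, (Z.num N ε).A', (Z.num N ε).B', (Z.num N ε).h⟩

/-- standard boxes -/
theorem TData.std (N : ℕ) (hε : 0 < ε) :
    Std (Z.tpl N hε) (Z.D N ε).A' (Z.D N ε).B' (Z.D N ε).h Prod.fst := by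
  have h1 := Z.num N ε
  have h2 := et_pos N
  refine std_raw _ hε _ _ ?_ ?_ ?_
  · rw [h1.A']; positivity
  · rw [h1.A', h1.B']; linarith
  · rw [h1.A', h1.B', h1.h]; linarith

/-! ### the net -/

theorem fp (hN : u.n + 4 ≤ N) : FPath (ly u N).M (ly u N).W := (ly_spec hN).lay.fp

theorem neM (hN : u.n + 4 ≤ N) : NeZero (ly u N).M := ⟨by
  have := (ly_spec hN).lay.nn_lt 0
  omega⟩

/-- all gates (and all tiles) -/
def uM (hN : u.n + 4 ≤ N) : Finset (ZMod (ly u N).M) :=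
  haveI := neM hN
  Finset.univ

/-- **the corridor net of the label `w`** -/
def net (u : Poly) (w : ZMod 3) (hN : u.n + 4 ≤ N) (hε : 0 < ε) :
    Net ε (ZMod (ly u N).M) (ZMod (ly u N).M) :=
  (cpth (fp hN) (Z.std N hε) (ly u N).A (ly u N).e w).net

/-- **the weight** -/
def gW (u : Poly) (w : ZMod 3) (hN : u.n + 4 ≤ N) (hε : 0 < ε) : Cf → ℝ :=
  LimSx133.gR (net Z u w hN hε) (uM hN) (uM hN)

/-- region of the net -/
def CW (u : Poly) (w : ZMod 3) (hN : u.n + 4 ≤ N) (hε : 0 < ε) : Set ℂ :=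
  (net Z u w hN hε).reg (uM hN) (uM hN)

theorem hNu (hN : u.n + 4 ≤ N) (hε : 0 < ε) (k : ZMod (ly u N).M) (_ : k ∈ uM hN) :
    (net Z u w hN hε).N k ⊆ uM hN := by
  have := neM hN
  exact Finset.subset_univ _

/-- the region is the union of the tiles -/
theorem CW_eq (hN : u.n + 4 ≤ N) (hε : 0 < ε) :
    CW Z u w hN hε = Rall (Z.D N ε).A' (Z.D N ε).B' (Z.D N ε).h (ly u N).W := by
  have := neM hN
  exact reg_eq (fp hN) (Z.std N hε) (Ac := (ly u N).A) (e := (ly u N).e) w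


theorem gW_pos (hN : u.n + 4 ≤ N) (hε : 0 < ε) {X : Cf} (hX : X.Finite) :
    haveI := neM hN
    0 < gW Z u w hN hε X ↔ gC (fp hN) (Z.std N hε) (ly u N).A (ly u N).e w X ≠ 0 := by
  have := neM hN
  exact LimSx133.gR_pos (net Z u w hN hε) (hNu Z hN hε) hX

/-! ### charges, touches -/

/-- **spatial charge of the tile `l`** (any field `f`; in RIG `f = fP`) -/
def VL (f : ℂ × ℂ × ℂ → ℂ) (u : Poly) (w : ZMod 3) (ε : ℝ) (hN : u.n + 4 ≤ N) (l : ℕ) : Cf → ℂ :=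
  SpMx169.VL (Z.D N ε) (fp hN) (et N / 2) f (al (ly u N).A (ly u N).e w) (nT u w N) l

/-- tile of the touch on `w + 2` -/
def tA (u : Poly) (w : ZMod 3) (N : ℕ) (ε : ℝ) : Cf → ℕ :=
  ta u √ε (hN N) u.P (ly u N).W (ly u N).A (ly u N).e w

/-- tile of the touch on `w + 1` -/
def tB (u : Poly) (w : ZMod 3) (N : ℕ) (ε : ℝ) : Cf → ℕ :=
  tb u √ε (hN N) u.P (ly u N).W (ly u N).A (ly u N).e w

/-- increment of the gates -/
def zL (u : Poly) (w : ZMod 3) (N : ℕ) (l : ℕ) : ℂ :=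
  TlAx58.gt (hN N) (ly u N).W (ly u N).A (ly u N).e w (l + 1) -
    TlAx58.gt (hN N) (ly u N).W (ly u N).A (ly u N).e w l

theorem zL_eq (l : ℕ) : zL u w N l = -DispIx840.zl (hN N) (ly u N).W (ly u N).A (ly u N).e w l :=
  (DispJx840.neg_zl l).symm

/-- mass of the weight -/
def g0 (u : Poly) (w : ZMod 3) (hN : u.n + 4 ≤ N) (hε : 0 < ε) : ℝ :=
  ∫ ω, gW Z u w hN hε (cfg ε ω) ∂sampleLaw

/-! ### `Inp` -/

/-- the corridor is off `u.P`, and inside the disc of the sites -/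
structure DisU (u : Poly) (w : ZMod 3) (hN : u.n + 4 ≤ N) (hε : 0 < ε) : Prop where
  dis : Disjoint (CW Z u w hN hε) u.P
  sub : CW Z u w hN hε ⊆ Metric.closedBall 0 (RU u)

theorem P_sub_RU (u : Poly) : u.P ⊆ Metric.closedBall 0 (RU u) := by
  intro z hz
  have h1 := CorEx133.P_norm u hz
  have h2 := CorEx133.one_le_Rp u
  rw [mem_closedBall_zero_iff]
  unfold RU
  linarith

theorem VL_local {f : ℂ × ℂ × ℂ → ℂ} (hN : u.n + 4 ≤ N) (hε : 0 < ε) (l : ℕ) :
    LocalOn (CW Z u w hN hε) (VL Z f u w ε hN l) := by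
  rw [CW_eq]
  exact SpMx169.VL_Rall (Z.D N ε) (fp hN) (et N / 2) f _ _ l

theorem VL_fm {f : ℂ × ℂ × ℂ → ℂ} (hf : Measurable f) (hN : u.n + 4 ≤ N) (l : ℕ) :
    FinMeas (VL Z f u w ε hN l) := SpMx169.VL_fm (Z.D N ε) (fp hN) (et N / 2) hf _ _ l

theorem mNh (hN : u.n + 4 ≤ N) (ε : ℝ) : (mN u N : ℝ) * (Z.D N ε).h = u.s := by
  rw [Z.h_eq]
  exact mN_hN (by omega)

/-- the corridor is off `u.P`, and inside the disc -/
theorem disU (hN : u.n + 4 ≤ N) (hε : 0 < ε) : DisU Z u w hN hε := by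
  have h1 := Z.num N ε
  have h2 := et_pos N
  have a1 : (Z.D N ε).A' < (Z.D N ε).h := by rw [h1.A', h1.h]; linarith
  have a2 : (Z.D N ε).A' ≤ (Z.D N ε).B' := by rw [h1.A', h1.B']; linarith
  have a3 : 0 ≤ (Z.D N ε).B' := by rw [h1.B']; positivity
  have a4 : (Z.D N ε).B' ≤ (Z.D N ε).h := by rw [h1.B', h1.h]; linarith
  refine ⟨?_, ?_⟩
  · rw [CW_eq]
    exact DisIx749.off_P (ly_spec hN) (mNh Z hN ε) a1 a2 a3 a4
  · rw [CW_eq]
    exact (DisIx749.sub_UU (ly_spec hN) (mNh Z hN ε) a1 a2 a3 a4).trans DisIx749.UU_RU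

/-- **279's `Inp`** -/
theorem inp {f : ℂ × ℂ × ℂ → ℂ} (hf : Measurable f) (hN : u.n + 4 ≤ N) (hε : 0 < ε)
    (V2 : ∀ l ∈ Finset.range (nT u w N),
      Integrable (fun ω => gW Z u w hN hε (cfg ε ω) * ‖VL Z f u w ε hN l (cfg ε ω)‖ ^ 2)
        sampleLaw) :
    Inp ε (CW Z u w hN hε) u.P (nT u w N) (SU u ε) (gW Z u w hN hε) (VL Z f u w ε hN)
      (tA u w N ε) (tB u w N ε) :=
  InpIx609.inp (net Z u w hN hε) (hNu Z hN hε) (isCompact_P u).measurableSet
    (isCompact_P u).isBounded (disU Z hN hε).dis Metric.isBounded_closedBall (disU Z hN hε).sub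
    (P_sub_RU u)
    (fun l _ => VL_local Z hN hε l) (fun l _ => VL_fm Z hf hN l) V2
    (ta_loc u √ε (RigPx854.hN N) u.P w _ _ _)
    (ta_meas u √ε (RigPx854.hN N) u.P w _ _ _ (isCompact_P u).measurableSet)
    (tb_loc u √ε (RigPx854.hN N) u.P w _ _ _)
    (tb_meas u √ε (RigPx854.hN N) u.P w _ _ _ (isCompact_P u).measurableSet)

/-! ### the mean -/

/-- **the number `κ`** -/
def kZ (N : ℕ) (ε : ℝ) : ℂ := if he : 0 < ε then kap (Z.D N ε) (et N / 2) (Z.std N he) fP else 0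

/-- **field `mean`** -/
theorem mean (hN : u.n + 4 ≤ N) (hε : 0 < ε)
    (hA0 : ∫⁻ ω, (Z.tpl N hε).A (cfg ε ω) ∂sampleLaw ≠ 0) {l : ℕ} (hl : l ∈ JT u w N) :
    ∫ ω, (gW Z u w hN hε (cfg ε ω) : ℂ) * VL Z fP u w ε hN l (cfg ε ω) ∂sampleLaw =
      ((g0 Z u w hN hε : ℝ) : ℂ) * (kZ Z N ε * zL u w N l) := by
  haveI := neM hN
  obtain ⟨h1, h2, h3⟩ := mem_JT.1 hl
  have hM : nT u w N + 8 ≤ (ly u N).M := (ly_spec hN).lay.nn_lt w
  have hM1 : nn (ly u N).A (ly u N).e w < (ly u N).M := by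
    have : nn (ly u N).A (ly u N).e w = nT u w N := rfl
    omega
  have hM3 : Pr (ly u N).M 3 := Or.inr (by omega)
  have hh : (Z.D N ε).h ≠ 0 := by rw [Z.h_eq]; exact (RigPx854.hN_pos N).ne'
  have h := SpMx169.VL_mean_gt (Z.D N ε) (fp hN) (et N / 2) (Z.std N hε) (i := w)
    hM1 hM3 hA0 hh h1 h2 h3
  have e1 : kZ Z N ε = kap (Z.D N ε) (et N / 2) (Z.std N hε) fP := dif_pos hε
  rw [e1]
  have e2 : zL u w N l = gz (Z.D N ε).h (ly u N).W
      (al (ly u N).A (ly u N).e w + ((l + 1 : ℕ) : ℤ)) -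
        gz (Z.D N ε).h (ly u N).W (al (ly u N).A (ly u N).e w + (l : ℤ)) := by
    rw [Z.h_eq]
    rfl
  rw [e2]
  exact h

/-- the displacement of a tile of the list -/
theorem zL_norm (hN : u.n + 4 ≤ N) {l : ℕ} (hl : l ∈ JT u w N) :
    ‖zL u w N l‖ = RigPx854.hN N := by
  obtain ⟨h1, -, -⟩ := mem_JT.1 hl
  obtain ⟨-, -, -, h4, -⟩ := mem_SJ.1 h1
  have e1 : al (ly u N).A (ly u N).e w + ((l + 1 : ℕ) : ℤ) =
      al (ly u N).A (ly u N).e w + l + 1 := by push_cast; ring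
  unfold zL TlAx58.gt
  rw [e1, SpMx169.gz_S (fp hN) h4, norm_mul, norm_ge (fp hN), mul_one, Complex.norm_real,
    Real.norm_of_nonneg (hN_pos N).le]

theorem nz (u : Poly) (w : ZMod 3) : ∀ᶠ N : ℕ in atTop, ∃ l ∈ JT u w N,
    RigPx854.hN N ≤ ‖zL u w N l‖ := by
  filter_upwards [JTnx709.JT_nonempty u w, eventually_ge_atTop (u.n + 4)] with N h1 h2
  obtain ⟨l, hl⟩ := h1
  exact ⟨l, hl, (zL_norm h2 hl).ge⟩

end Crest.Agent.R143.RigZdx609
end
end

-- ▼ part R143/RigZ_609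

/-!
# Row 143 (S0194), RIG: all environments (helper609)

* `PosP Z` : positivity of the template with absolute constants (653 PosF)
* **`Op Z u w`** : the open inputs for one polygon and one white label, one field per box
* `lowN`, `E1`, `a1_dl`, `rho_t3` : the limits
* `Op.l1d` : `L1D` for small `e0`, large `N`, small `ε`; **`Op.rigW`** : 854's contract
* **`rig_of_op`** : `POLY Poly.T Poly.T'` (= `FinCx894.Rig`)
-/

set_option autoImplicit false
set_option linter.style.haveILetI false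

noncomputable section

open scoped Classical

namespace Crest.Agent.R143.RigZx609

open MeasureTheory Set Filter Topology
open scoped ENNReal
open Crest.ProbabilityR.Voronoi
open Crest.Agent.R143.PP0x831 Crest.Agent.R143.Dbl2x609 Crest.Agent.R143.B0x346
open Crest.Agent.R143.MeasPx609 Crest.Agent.R143.MeasDx609 Crest.Agent.R143.InpIx609
  Crest.Agent.R143.InpJx609
open Crest.Agent.R143.PolyUx346 (Poly)
open Crest.Agent.R143.AsmNx758 (POLY)
open Crest.Agent.R143.IndLoc3x279 (clr)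
open Crest.Agent.R143.EnvIx279
open Crest.Agent.R143.CorMx970 (tot)
open Crest.Agent.R143.RigCx654 Crest.Agent.R143.RigDx654
open Crest.Agent.R143.PolyQx854 Crest.Agent.R143.PolySx854 Crest.Agent.R143.PolyEx854
open Crest.Agent.R143.RigPx854
open Crest.Agent.R143.RigZdx609
open Crest.Agent.R143.CorEx133 (RU UU SU)
open Crest.Agent.R143.QuenSx654 (SmE sme_env)
open Crest.Agent.R143.LimSx133
open Crest.Agent.R143.SpMx169 (fP fP_meas)

attribute [local instance] probS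

/-! ### the open inputs -/

/-- positivity of the template, absolute constants (653 PosF) -/
def PosP (Z : TData) : Prop := ∃ cc > 0, ∃ c0 > 0, ∀ N : ℕ, ∀ᶠ ε : ℝ in 𝓝[>] 0, ∀ he : 0 < ε,
  ENNReal.ofReal cc ≤ Z.c N ε ∧ ENNReal.ofReal c0 ≤ ∫⁻ ω, (Z.tpl N he).A (cfg ε ω) ∂sampleLaw

/-- quenched data exist at one environment -/
def QuenX (n r c : ℕ) (S : Finset ℂ) (g : Set (ℂ × Bool) → ℝ)
    (V : ℕ → Set (ℂ × Bool) → ℂ) (a b : Set (ℂ × Bool) → ℕ) (t T : ℂ) (E1 a2 θ Q : ℝ) : Prop :=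
  ∃ (Vβ Vγ : Finset ℂ → Finset ℂ → ℂ) (TK : Finset ℂ → ℂ) (W : ℕ → Finset ℂ → Finset ℂ → ℂ)
    (ka kb : Finset ℂ → Finset ℂ → ℕ), Quen n r c S g V a b t T E1 a2 θ Q Vβ Vγ TK W ka kb

/-- `∀ᶠ N, ∀ᶠ ε, ∀ hn he` -/
def Ev (u : Poly) (P : ∀ (N : ℕ) (ε : ℝ), u.n + 4 ≤ N → 0 < ε → Prop) : Prop :=
  ∀ᶠ N : ℕ in atTop, ∀ᶠ ε : ℝ in 𝓝[>] 0, ∀ (hn : u.n + 4 ≤ N) (he : 0 < ε), P N ε hn he

/-- **open inputs of RIG** for the polygon `u` and the white label `w` (type `w + 1`) -/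
structure Op (Z : TData) (u : Poly) (w : ZMod 3) where
  C1 : ℝ
  C3 : ℝ
  C7 : ℝ
  /-- size of the loops (304 SmI) -/
  k : ℕ → ℝ
  /-- index distance (854 `rT`) -/
  r : ℝ → ℕ → ℕ
  /-- number of the partial tiles -/
  c : ℕ
  Q : ℕ → ℝ → Sample → ℝ
  bad : ℝ → ℕ → ℝ → Set Sample
  a2 : ℝ → ℕ → ℝ → ℝ
  θ : ℝ → ℕ → ℝ → ℝ
  /-- displacement error -/
  cd : ℝ → ℕ → ℝ → ℝ
  hC1 : 0 ≤ C1
  hk : ∀ N, 0 < k N
  hr : ∀ᶠ e0 : ℝ in 𝓝[>] 0, ∀ᶠ N in atTop, (r e0 N : ℝ) ≤ C7 * (e0 / hN N + 1)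
  /-- (9) MomI: second moments -/
  mom : Ev u fun N ε hn he => ∀ l ∈ Finset.range (nT u w N),
    Integrable (fun ω => gW Z u w hn he (cfg ε ω) * ‖VL Z fP u w ε hn l (cfg ε ω)‖ ^ 2)
      sampleLaw ∧
    ∫ ω, gW Z u w hn he (cfg ε ω) * ‖VL Z fP u w ε hn l (cfg ε ω)‖ ^ 2 ∂sampleLaw ≤
      (C1 * hN N) ^ 2 * g0 Z u w hn he
  /-- (9) MomI: quenched majorant -/
  hQ : Ev u fun N ε hn he => (∀ ω, 0 ≤ Q N ε ω) ∧ Integrable (Q N ε) sampleLaw ∧
    ∫ ω, Q N ε ω ∂sampleLaw ≤ C3 ^ 2 * hN N * g0 Z u w hn he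
  /-- (13) BadI -/
  hbad : ∀ᶠ e0 : ℝ in 𝓝[>] 0, ∀ᶠ N : ℕ in atTop, ∀ η > 0, ∀ᶠ ε : ℝ in 𝓝[>] 0,
    sampleLaw (bad e0 N ε) ≤ ENNReal.ofReal η
  ha : T3 atTop a2
  ha0 : ∀ᶠ e0 : ℝ in 𝓝[>] 0, ∀ᶠ N in atTop, ∀ᶠ ε : ℝ in 𝓝[>] 0, 0 ≤ a2 e0 N ε
  hθ : T3 atTop θ
  hθ0 : ∀ᶠ e0 : ℝ in 𝓝[>] 0, ∀ᶠ N in atTop, ∀ᶠ ε : ℝ in 𝓝[>] 0, 0 ≤ θ e0 N ε
  hcd : T3 atTop cd
  /-- (1) - (7) QuenI: one environment -/
  quen : ∀ᶠ e0 : ℝ in 𝓝[>] 0, Ev u fun N ε hn he => ∀ᵐ ω ∂sampleLaw, ω ∉ bad e0 N ε →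
    ∀ E : ℝ, SmE ε ω (UU u) (k N) E →
      QuenX (nT u w N) (r e0 N) c (SU u ε ω) (gW Z u w hn he) (VL Z fP u w ε hn) (tA u w N ε)
        (tB u w N ε) om (tI (mv u ε ω) (w + 1)) E (a2 e0 N ε) (θ e0 N ε) (Q N ε ω)
  /-- (12) DispK -/
  disp : ∀ᶠ e0 : ℝ in 𝓝[>] 0, Ev u fun N ε _ _ => ∃ dd : Sample → ℝ, Integrable dd sampleLaw ∧
    ∫ ω, dd ω ∂sampleLaw ≤ cd e0 N ε ∧
      ∀ᵐ ω ∂sampleLaw, ‖dI (mv u ε ω) (w + 1) - ∑ l ∈ JT u w N, zL u w N l *
        (qo (SU u ε) (tA u w N ε) (tB u w N ε) l ω : ℂ)‖ ≤ dd ω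

/-! ### limits -/

theorem Ev.and {u : Poly} {P P' : ∀ (N : ℕ) (ε : ℝ), u.n + 4 ≤ N → 0 < ε → Prop} (h : Ev u P)
    (h' : Ev u P') : Ev u fun N ε hn he => P N ε hn he ∧ P' N ε hn he := by
  unfold Ev at *
  filter_upwards [h, h'] with N h1 h2
  filter_upwards [h1, h2] with ε h3 h4 hn he
  exact ⟨h3 hn he, h4 hn he⟩

section lim

variable {Z : TData} {u : Poly} {w : ZMod 3}

/-- mass of the weight, total function -/
def gt0 (Z : TData) (u : Poly) (w : ZMod 3) (N : ℕ) (ε : ℝ) : ℝ :=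
  if h : u.n + 4 ≤ N ∧ 0 < ε then g0 Z u w h.1 h.2 else 1

theorem gt0_eq {N : ℕ} {ε : ℝ} (hn : u.n + 4 ≤ N) (he : 0 < ε) :
    gt0 Z u w N ε = g0 Z u w hn he := by
  unfold gt0
  rw [dif_pos ⟨hn, he⟩]

theorem g0_lower {N : ℕ} {ε : ℝ} (hn : u.n + 4 ≤ N) (he : 0 < ε) {cc c0 : ℝ} (h1 : 0 ≤ cc)
    (h2 : 0 ≤ c0) (hc : ENNReal.ofReal cc ≤ Z.c N ε)
    (hA : ENNReal.ofReal c0 ≤ ∫⁻ ω, (Z.tpl N he).A (cfg ε ω) ∂sampleLaw) :
    cc ^ (ly u N).M * c0 ^ (ly u N).M ≤ g0 Z u w hn he := by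
  have := neM hn
  have h3 := pth_g0_ge (Crest.Agent.R143.CorNx765.cpth (fp hn) (Z.std N he) (ly u N).A (ly u N).e w)
    (I := uM hn) (J := uM hn) (fun k _ => ⟨Finset.mem_univ _, Finset.mem_univ _⟩) h1 h2 hc hA
  have h4 : (uM hn).card = (ly u N).M := by
    unfold uM
    rw [Finset.card_univ, ZMod.card]
  rw [h4] at h3
  exact h3

theorem lowN (hp : PosP Z) (u : Poly) (w : ZMod 3) : ∀ᶠ N : ℕ in atTop, LowN (gt0 Z u w N) := by
  obtain ⟨cc, h1, c0, h2, h3⟩ := hp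
  filter_upwards [eventually_ge_atTop (u.n + 4)] with N hn
  refine lowN_of h1 h2 (ly u N).M (ly u N).M ?_
  filter_upwards [h3 N, self_mem_nhdsWithin] with ε h4 (he : 0 < ε)
  rw [gt0_eq hn he]
  obtain ⟨h5, h6⟩ := h4 he
  exact g0_lower hn he h1.le h2.le h5 h6

theorem UU_bdd (u : Poly) : Bornology.IsBounded (UU u) := Metric.isBounded_closedBall

/-- 304's error function for the size `k` -/
def E1 (u : Poly) {k : ℝ} (hk : 0 < k) : ℝ → Sample → ℝ := (sme_env hk (UU_bdd u)).choose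

theorem E1_spec (u : Poly) {k : ℝ} (hk : 0 < k) :
    (∀ ε, 0 < ε → Measurable (E1 u hk ε)) ∧ (∀ ε ω, 0 ≤ E1 u hk ε ω) ∧
      (∀ᶠ ε in 𝓝[>] (0 : ℝ), Integrable (E1 u hk ε) sampleLaw) ∧
      Tendsto (fun ε : ℝ => ∫ ω, E1 u hk ε ω ∂sampleLaw) (𝓝[>] 0) (𝓝 0) ∧
      ∀ᶠ ε in 𝓝[>] (0 : ℝ), ∀ᵐ ω ∂sampleLaw, SmE ε ω (UU u) k (E1 u hk ε ω) :=
  (sme_env hk (UU_bdd u)).choose_spec

namespace Op

variable (O : Op Z u w)

/-- first error -/
def a1 (N : ℕ) (ε : ℝ) : ℝ := (∫ ω, E1 u (O.hk N) ε ω ∂sampleLaw) / gt0 Z u w N ε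

theorem a1_dl (hp : PosP Z) : DL atTop O.a1 :=
  dl_div (lowN hp u w) (Eventually.of_forall fun N => (E1_spec u (O.hk N)).2.2.2.1)

/-- relative probability of the bad set -/
def rho (e0 : ℝ) (N : ℕ) (ε : ℝ) : ℝ := sampleLaw.real (O.bad e0 N ε) / gt0 Z u w N ε

theorem rho_t3 (hp : PosP Z) : T3 atTop O.rho := by
  refine t3_of_dl ?_
  filter_upwards [O.hbad] with e0 h
  exact dl_bad (lowN hp u w) h

/-- partial tiles constant -/
def q (N : ℕ) : ℝ := √(2 * O.c) * |O.C3| * √(hN N)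

theorem q_sq (N : ℕ) : O.q N ^ 2 = 2 * O.c * (O.C3 ^ 2 * hN N) := by
  unfold q
  rw [mul_pow, mul_pow, sq_abs, Real.sq_sqrt (by positivity), Real.sq_sqrt (hN_pos N).le]
  ring

theorem q_nonneg (N : ℕ) : 0 ≤ O.q N := by unfold q; positivity

/-- everything at one `(e0, N, ε)` -/
theorem core (hp' : PosP Z) : ∀ᶠ e0 : ℝ in 𝓝[>] 0, ∀ᶠ N : ℕ in atTop,
    ∀ᶠ ε : ℝ in 𝓝[>] 0,
      L1D om (kZ Z N ε) (fun ω => tI (mv u ε ω) (w + 1)) (fun ω => dI (mv u ε ω) (w + 1))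
        (tot (nT u w N) (O.r e0 N + O.c) (JT u w N) (O.a1 N ε)
          (O.a2 e0 N ε + 3 * Mb u * O.rho e0 N ε) (O.C1 * hN N) (O.q N) (O.q N) (O.cd e0 N ε)
          (O.θ e0 N ε) (O.rho e0 N ε) ‖kZ Z N ε‖) ∧
      ∀ l ∈ JT u w N, ‖kZ Z N ε‖ * ‖zL u w N l‖ ≤ O.C1 * hN N := by
  have hL := lowN hp' u w
  obtain ⟨cc, hcc, c0, hc0, hpos⟩ := hp'
  have hA : Ev u fun N ε _ he => ∫⁻ ω, (Z.tpl N he).A (cfg ε ω) ∂sampleLaw ≠ 0 := by
    refine Eventually.of_forall fun N => ?_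
    filter_upwards [hpos N] with ε h _ he
    have h1 := (h he).2
    intro h2
    rw [h2] at h1
    exact absurd (ENNReal.ofReal_eq_zero.1 (le_antisymm h1 zero_le)) (not_le.2 hc0)
  have key := (hA.and O.mom).and O.hQ
  filter_upwards [O.quen, O.disp, O.ha0, O.hθ0] with e0 h1 h2 h3 h4
  have h5 := (h1.and h2).and key
  unfold Ev at h5
  filter_upwards [h5, h3, h4, eventually_ge_atTop (u.n + 4), hL] with N g1 g3 g4 hn g5
  obtain ⟨-, e2, e3, e4, e5⟩ := E1_spec u (O.hk N)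
  filter_upwards [g1, g3, g4, self_mem_nhdsWithin, g5.pos, e3, e5] with ε k1 k3 k4 he k5 k6 k7
  have he' : 0 < ε := he
  obtain ⟨⟨m1, dd, m2, m3, m4⟩, ⟨m5, m6⟩, m7, m8, m9⟩ := k1 hn he'
  have hI := inp Z fP_meas hn he' (w := w) fun l hl => (m6 l hl).1
  have hg : 0 < g0 Z u w hn he' := by
    rw [gt0_eq hn he'] at k5
    exact k5
  have ea : O.a1 N ε * g0 Z u w hn he' = ∫ ω, E1 u (O.hk N) ε ω ∂sampleLaw := by
    unfold a1
    rw [gt0_eq hn he', div_mul_cancel₀ _ hg.ne']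
  have er : O.rho e0 N ε * g0 Z u w hn he' = sampleLaw.real (O.bad e0 N ε) := by
    unfold rho
    rw [gt0_eq hn he', div_mul_cancel₀ _ hg.ne']
  have hrho : 0 ≤ O.rho e0 N ε := div_nonneg measureReal_nonneg k5.le
  have hgood : ∀ᵐ ω ∂sampleLaw, ω ∉ msb (O.bad e0 N ε) →
      Good (nT u w N) (O.r e0 N + O.c) (SU u ε) (gW Z u w hn he') (VL Z fP u w ε hn) (tA u w N ε)
        (tB u w N ε) om (tI (mv u ε ω) (w + 1)) (E1 u (O.hk N) ε ω) (O.a2 e0 N ε) (O.θ e0 N ε)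
        (2 * O.c * O.Q N ε ω) (2 * O.c * O.Q N ε ω) ω := by
    filter_upwards [m1, k7] with ω p1 p2 p3
    obtain ⟨Vβ, Vγ, TK, W, ka, kb, p4⟩ := p1 (fun h => p3 (sub_msb _ h)) _ p2
    exact p4.good norm_om1 hI.g0
  have hQi : Integrable (fun ω => 2 * (O.c : ℝ) * O.Q N ε ω) sampleLaw := m8.const_mul _
  have hQe : ∫ ω, 2 * (O.c : ℝ) * O.Q N ε ω ∂sampleLaw ≤ O.q N ^ 2 * g0 Z u w hn he' := by
    rw [integral_const_mul, q_sq]
    calc 2 * (O.c : ℝ) * ∫ ω, O.Q N ε ω ∂sampleLaw ≤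
        2 * (O.c : ℝ) * (O.C3 ^ 2 * hN N * g0 Z u w hn he') :=
          mul_le_mul_of_nonneg_left m9 (by positivity)
      _ = _ := by ring
  have henv := env_gen (T := fun ω => tI (mv u ε ω) (w + 1)) (D := fun ω => dI (mv u ε ω) (w + 1))
    (κ := kZ Z N ε) (z := zL u w N) hI norm_om1 (sig_tv he' u subset_rfl (w + 1))
    (sig_dv he' u subset_rfl (w + 1)) (fun ω => norm_tv he' u ω (w + 1))
    (fun ω => norm_dv he' u ω (w + 1)) (JT_sub u w N) hg (mul_nonneg O.hC1 (hN_pos N).le) k4 hrho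
    (O.q_nonneg N) (O.q_nonneg N) k3 (msb_meas (O.bad e0 N ε))
    (by rw [msb_real]; exact le_of_eq er.symm) hgood (e2 ε) k6 (le_of_eq ea.symm)
    (fun l hl => (m6 l hl).2) hQi (fun ω => mul_nonneg (by positivity) (m7 ω)) hQe hQi
    (fun ω => mul_nonneg (by positivity) (m7 ω)) hQe
    (fun l hl => mean Z hn he' m5 hl) m2 m3 m4
  refine ⟨henv.1, fun l hl => ?_⟩
  obtain ⟨gv, G, v, w', w2, o, na, nb, E2, h6, -⟩ := henv.2
  exact env_kappa h6 hl

theorem kap (hp : PosP Z) : ∀ᶠ N : ℕ in atTop, ∀ᶠ ε : ℝ in 𝓝[>] 0,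
    ‖kZ Z N ε‖ ≤ O.C1 := by
  obtain ⟨e0, h⟩ := (O.core hp).exists
  filter_upwards [h, nz u w] with N h1 h2
  obtain ⟨l, hl, h3⟩ := h2
  filter_upwards [h1] with ε h4
  have h5 := h4.2 l hl
  have h6 : ‖kZ Z N ε‖ * hN N ≤ ‖kZ Z N ε‖ * ‖zL u w N l‖ :=
    mul_le_mul_of_nonneg_left h3 (norm_nonneg _)
  exact le_of_mul_le_mul_right (h6.trans h5) (hN_pos N)

/-- **854's contract** -/
def rigW (hp : PosP Z) : RigW (fun N ε => om * kZ Z N ε) u w where
  C1 := O.C1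
  C3 := √(2 * O.c) * |O.C3|
  C6 := O.C1
  C7 := |O.C7| + O.c
  r e0 N := O.r e0 N + O.c
  a1 := O.a1
  q N _ := O.q N
  q' N _ := O.q N
  c := O.cd
  a2 e0 N ε := O.a2 e0 N ε + 3 * Mb u * O.rho e0 N ε
  θ := O.θ
  ρ := O.rho
  hC1 := O.hC1
  hr := by
    filter_upwards [O.hr, self_mem_nhdsWithin] with e0 h1 (he0 : 0 < e0)
    filter_upwards [h1] with N h2
    have h3 : 0 ≤ e0 / hN N := div_nonneg he0.le (hN_pos N).le
    have h4 : O.C7 * (e0 / hN N + 1) ≤ |O.C7| * (e0 / hN N + 1) :=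
      mul_le_mul_of_nonneg_right (le_abs_self _) (by positivity)
    have h5 : (O.c : ℝ) ≤ O.c * (e0 / hN N + 1) := by
      nlinarith [Nat.cast_nonneg (α := ℝ) O.c]
    push_cast
    linarith
  hq := Eventually.of_forall fun _ => Eventually.of_forall fun _ => le_rfl
  hq' := Eventually.of_forall fun _ => Eventually.of_forall fun _ => le_rfl
  hκ := by
    filter_upwards [O.kap hp] with N h1
    filter_upwards [h1] with ε h2
    rw [norm_mul, norm_om1, one_mul]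
    exact h2
  h1 := O.a1_dl hp
  h2 := O.ha.add ((O.rho_t3 hp).const_mul (by have := (Mb_pos u).le; positivity))
  hθ := O.hθ
  hρ := O.rho_t3 hp
  hc := O.hcd
  hθ0 := O.hθ0
  lx := by
    filter_upwards [O.core hp] with e0 h1
    filter_upwards [h1] with N h2
    filter_upwards [h2, self_mem_nhdsWithin] with ε h3 he
    have h4 := l1d_in he u w h3.1
    have h5 : ‖om * kZ Z N ε‖ = ‖kZ Z N ε‖ := by rw [norm_mul, norm_om1, one_mul]
    rw [h5]
    exact h4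

end Op

/-- **RIG from the open inputs** -/
theorem rig_of_op (hp : PosP Z)
    (h : ∀ (u : Poly) (w : ZMod 3), Nonempty (Op Z u w)) : POLY Poly.T Poly.T' := by
  refine poly_of_rigW (κ := fun N ε => om * kZ Z N ε) fun u w => ?_
  obtain ⟨O⟩ := h u w
  exact ⟨O.rigW hp⟩

end lim

end Crest.Agent.R143.RigZx609
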