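import Crest.Agent.R143.R10E_930
import Crest.Agent.R143.CorE_133
import Crest.Agent.R143.PolyE_854
import Crest.Agent.R143.R10U_930
import Crest.Agent.R143.RigZ_609

-- ▼ part R143/BadG_204
section

/-!
# Row 143 (S0194), RIG: negligible families of bad environments (helper204)

* `Neg B` : `P(B ε) → 0` as `ε → 0`; `Neg.mono`, `Neg.union`, `Neg.iUnion`, `Neg.of_ofReal`,
  `Neg.of_rpow`; `Neg.cor` (133's `CorEnv`), `Neg.ge` (930's `GE`)
* `msb B ε` : measurable hull, same probability; `Neg.msb`, `Neg.real`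
* `Neg.ratio` : `P(B ε) / g₀(ε) → 0` if `g₀ ≥ a > 0`; `ratio_le`; `t3_of_tendsto`
-/

set_option autoImplicit false

noncomputable section

open scoped Classical ENNReal

namespace Crest.Agent.R143.BadGx204

open MeasureTheory Set Filter Topology
open Crest.ProbabilityR.Voronoi
open Crest.Agent.R143.B0x346 Crest.Agent.R143.DelGx806
open Crest.Agent.R143.CorEx133 Crest.Agent.R143.R10Ex930
open Crest.Agent.R143.PolyUx346 (Poly)
open Crest.Agent.R143.PolyEx854 (T3)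

/-- **negligible family of events** -/
def Neg (B : ℝ → Set Sample) : Prop := Tendsto (fun ε => sampleLaw (B ε)) (𝓝[>] 0) (𝓝 0)

variable {A B : ℝ → Set Sample}

theorem Neg.mono (h : Neg B) (hs : ∀ᶠ ε : ℝ in 𝓝[>] 0, A ε ⊆ B ε) : Neg A :=
  tendsto_of_tendsto_of_tendsto_of_le_of_le' tendsto_const_nhds h
    (Eventually.of_forall fun _ => zero_le) (hs.mono fun _ h1 => measure_mono h1)





/-- from a bound -/
theorem Neg.of_ofReal {f : ℝ → ℝ} (h : ∀ᶠ ε : ℝ in 𝓝[>] 0, sampleLaw (B ε) ≤ ENNReal.ofReal (f ε))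
    (hf : Tendsto f (𝓝[>] 0) (𝓝 0)) : Neg B := by
  have h1 := ENNReal.tendsto_ofReal hf
  rw [ENNReal.ofReal_zero] at h1
  exact tendsto_of_tendsto_of_tendsto_of_le_of_le' tendsto_const_nhds h1
    (Eventually.of_forall fun _ => zero_le) h

theorem tendsto_id0 : Tendsto (fun ε : ℝ => ε) (𝓝[>] 0) (𝓝 0) :=
  tendsto_id.mono_left nhdsWithin_le_nhds


theorem Neg.of_rpow {a : ℝ} (ha : 0 < a)
    (h : ∀ᶠ ε : ℝ in 𝓝[>] 0, sampleLaw (B ε) ≤ ENNReal.ofReal (ε ^ a)) : Neg B := by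
  refine Neg.of_ofReal h ?_
  have h1 := tendsto_id0.rpow_const (p := a) (Or.inr ha.le)
  rwa [Real.zero_rpow ha.ne'] at h1

/-! ### the two environments -/

/-- **133's environment** -/
theorem Neg.cor (u : Poly) {K1 c2 ρ0 : ℝ} (hK1 : 0 ≤ K1) (hc2 : 0 < c2) (hρ0 : 0 < ρ0) :
    Neg fun ε => {ω | ¬ CorEnv u ε √ε K1 c2 ρ0 ω} :=
  Neg.of_rpow one_pos ((cor_env_sqrt u 1 K1 1 c2 ρ0 hK1 one_pos hc2 hρ0).mono fun _ h => h.2)



/-! ### measurable hull -/








/-! ### relative probability -/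





end Crest.Agent.R143.BadGx204
end
end

-- ▼ part R143/RigN_377

/-!
# Row 143 (S0194), RIG: the numbers of 609's `Op` (helper377)

All numbers are functions of the width only (`η = √h`, `h = hN N`).

* `C0 c0 c1 c2 K0` : the constants of 930's `r10u`, `r10s`
* `dU u`, `et0 N`, `th0 u N` : scale, precision `√h`, bound of the probabilities of R10
* `a2 u`, `th u` : the errors `a2`, `θ` of `Op`; `a2_t3`, `th_t3`, `a2_nonneg`, `th_nonneg`
* `c2c u N` : mesh parameter of 133's `CorEnv`; `neg_env`, `env_bad`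
* `rI c N` index distance of 737's `near`; `rF c N = 2 (rI c N) + 3`; `rI_lt`, **`rF_hr`**
* **`NumW`**, **`NumE`**, `ev_w`, `ev_e`, **`ev_num`** : all side conditions
* **`con_r10`** : R10 with these numbers
-/

set_option autoImplicit false

noncomputable section

open scoped Classical ENNReal

namespace Crest.Agent.R143.RigNx377

open MeasureTheory Set Filter Topology
open Crest.ProbabilityR.Voronoi
open Crest.Agent.R143.PolyUx346 (Poly)
open Crest.Agent.R143.PolySx854 Crest.Agent.R143.PolyEx854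
open Crest.Agent.R143.RigPx854 (hN hN_pos hN_tendsto mN mN_hN)
open Crest.Agent.R143.R10Nx930 (Du Du_pos Con)
open Crest.Agent.R143.R10Ux930 (r10u)
open Crest.Agent.R143.R10Px923 (UKin Nw Cpl)
open Crest.Agent.R143.CorEx133
open Crest.Agent.R143.NetUx346 (ff)
open Crest.Agent.R143.NetVx346 (Vin Bl)
open Crest.Agent.R143.RigZx609 (Ev)

/-! ### the constants of R10 -/

/-- constant of the bound -/
def C0 : ℝ := r10u.choose

/-- exponent of the bound -/
def c0 : ℝ := r10u.choose_spec.choose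

/-- constant of the mesh -/
def c1 : ℝ := r10u.choose_spec.choose_spec.choose

/-- constant of the triangles -/
def c2 : ℝ := r10u.choose_spec.choose_spec.choose_spec.choose

/-- constant of the discs -/
def K0 : ℝ := r10u.choose_spec.choose_spec.choose_spec.choose_spec.choose

theorem r10s : 1 ≤ C0 ∧ 0 < c0 ∧ 0 < c1 ∧ c1 ≤ 1 ∧ 0 < c2 ∧ 2 ≤ K0 ∧
    ∀ (u : Poly) (ε h c2c ρ0 : ℝ) (ω : Sample), 0 < h → 100 * h ≤ Du u K0 → ρ0 ≤ Du u K0 →
    c2c * Du u K0 ≤ c2 * h → √ε ≤ c1 * h → 5000 * √ε ≤ h → CorEnv u ε √ε K0 c2c ρ0 ω →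
    ∀ (m M : ℕ) (p W : ℤ → ℤ × ℤ) (Ai e : ℤ → ℤ), LayUx416.LayU u m M p W Ai e →
    (m : ℝ) * h = u.s → ∀ (A : ZMod 3 → Set ℂ) (o : ℂ × ℂ × ℂ) (i : ZMod 3)
      (A1 B1 w a0 a1 b0 b1 m' : ℝ), A1 ≤ B1 → B1 < h → Nw h √ε w a0 a1 b0 b1 m' →
    UKin (SU u ε ω) A o i u.P h A1 B1 w a0 a1 b0 b1 m' W Ai e →
    Vin (SU u ε ω) u.P √ε ⊆ ff (SU u ε ω) A ∧
      ∀ Wd : Set ℂ, u.P ⊆ Wd → Con C0 c0 K0 u ε h ω A Wd :=
  r10u.choose_spec.choose_spec.choose_spec.choose_spec.choose_spec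

theorem C0_ge : 1 ≤ C0 := r10s.1
theorem c0_pos : 0 < c0 := r10s.2.1
theorem c1_pos : 0 < c1 := r10s.2.2.1
theorem c2_pos : 0 < c2 := r10s.2.2.2.2.1
theorem K0_ge : 2 ≤ K0 := r10s.2.2.2.2.2.1
theorem K0_nonneg : 0 ≤ K0 := by linarith [K0_ge]

/-! ### the numbers -/

/-- scale of the polygon -/
def dU (u : Poly) : ℝ := Du u K0

theorem dU_pos (u : Poly) : 0 < dU u := Du_pos u K0_nonneg

/-- precision of the touches -/
def et0 (N : ℕ) : ℝ := √(hN N)

theorem et0_pos (N : ℕ) : 0 < et0 N := Real.sqrt_pos.2 (hN_pos N)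

theorem et0_sq (N : ℕ) : et0 N * et0 N = hN N := Real.mul_self_sqrt (hN_pos N).le

/-- bound of the probabilities -/
def th0 (u : Poly) (N : ℕ) : ℝ := C0 * ((16 * hN N / et0 N) ^ c0 + (hN N / dU u) ^ c0)

/-- bound of the probability of many hits -/
def th1 (u : Poly) (N : ℕ) : ℝ := C0 * (hN N / dU u) ^ c0

theorem th1_nonneg (u : Poly) (N : ℕ) : 0 ≤ th1 u N := by
  have h1 := C0_ge
  have h2 := dU_pos u
  have h3 := hN_pos N
  unfold th1
  positivity

theorem th1_le (u : Poly) (N : ℕ) : th1 u N ≤ th0 u N := by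
  have h1 := C0_ge
  have h2 := et0_pos N
  have h3 := hN_pos N
  have h4 : 0 ≤ C0 * (16 * hN N / et0 N) ^ c0 := by positivity
  unfold th1 th0
  linarith [mul_add C0 ((16 * hN N / et0 N) ^ c0) ((hN N / dU u) ^ c0)]

theorem th0_nonneg (u : Poly) (N : ℕ) : 0 ≤ th0 u N := (th1_nonneg u N).trans (th1_le u N)

theorem et0_tendsto : Tendsto et0 atTop (𝓝 0) := by
  have h := (Real.continuous_sqrt.tendsto 0).comp hN_tendsto
  rwa [Real.sqrt_zero] at h

theorem hN_tendsto' : Tendsto hN atTop (𝓝[>] 0) :=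
  tendsto_nhdsWithin_iff.2 ⟨hN_tendsto, Eventually.of_forall hN_pos⟩

theorem th0_tendsto (u : Poly) : Tendsto (th0 u) atTop (𝓝 0) :=
  (R10Nx930.r10_lim C0 c0 K0 c0_pos K0_nonneg u).comp hN_tendsto'

/-- **the error `a2`** -/
def a2 (u : Poly) (_ : ℝ) (N : ℕ) (_ : ℝ) : ℝ := 3 * (et0 N + 2 * RU u * th0 u N)

/-- **the error `θ`** -/
def th (u : Poly) (_ : ℝ) (N : ℕ) (_ : ℝ) : ℝ := 4 * th0 u N

/-- error of the width -/
theorem t3_width {b : ℕ → ℝ} (hb : Tendsto b atTop (𝓝 0)) : T3 atTop fun _ N _ => b N :=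
  DL.t3 (dl_width hb)

theorem a2_t3 (u : Poly) : T3 atTop (a2 u) := by
  refine t3_width ?_
  have h := (et0_tendsto.add ((th0_tendsto u).const_mul (2 * RU u))).const_mul 3
  rwa [mul_zero, add_zero, mul_zero] at h

theorem th_t3 (u : Poly) : T3 atTop (th u) := by
  refine t3_width ?_
  have h := (th0_tendsto u).const_mul 4
  rwa [mul_zero] at h

theorem a2_nonneg (u : Poly) (e0 : ℝ) (N : ℕ) (ε : ℝ) : 0 ≤ a2 u e0 N ε := by
  have h1 := RU_ge u
  have h2 := th0_nonneg u N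
  have h3 := et0_pos N
  unfold a2
  positivity

theorem th_nonneg (u : Poly) (e0 : ℝ) (N : ℕ) (ε : ℝ) : 0 ≤ th u e0 N ε := by
  have h2 := th0_nonneg u N
  unfold th
  positivity

/-- field `ha0` -/
theorem a2_ev (u : Poly) : ∀ᶠ e0 : ℝ in 𝓝[>] 0, ∀ᶠ N in atTop, ∀ᶠ ε : ℝ in 𝓝[>] 0,
    0 ≤ a2 u e0 N ε :=
  Eventually.of_forall fun _ => Eventually.of_forall fun _ => Eventually.of_forall fun _ =>
    a2_nonneg u _ _ _

/-- field `hθ0` -/
theorem th_ev (u : Poly) : ∀ᶠ e0 : ℝ in 𝓝[>] 0, ∀ᶠ N in atTop, ∀ᶠ ε : ℝ in 𝓝[>] 0,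
    0 ≤ th u e0 N ε :=
  Eventually.of_forall fun _ => Eventually.of_forall fun _ => Eventually.of_forall fun _ =>
    th_nonneg u _ _ _

/-! ### the environment -/

/-- mesh parameter of 133's environment -/
def c2c (u : Poly) (N : ℕ) : ℝ := c2 * hN N / dU u

theorem c2c_pos (u : Poly) (N : ℕ) : 0 < c2c u N :=
  div_pos (mul_pos c2_pos (hN_pos N)) (dU_pos u)

theorem c2c_mul (u : Poly) (N : ℕ) : c2c u N * Du u K0 = c2 * hN N :=
  div_mul_cancel₀ _ (dU_pos u).ne'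

/-- **the environment of R10** at the width `N` -/
def EnvN (u : Poly) (N : ℕ) (ε : ℝ) (ω : Sample) : Prop := CorEnv u ε √ε K0 (c2c u N) (dU u) ω



/-! ### the index distance -/

/-- index distance of 737's `near` -/
def rI (c N : ℕ) : ℕ := ⌊et0 N / hN N⌋₊ + c

/-- `x + √h < r h` if `x ≤ (c - 1) h` -/
theorem rI_lt {c N : ℕ} {x : ℝ} (hx : x ≤ ((c : ℝ) - 1) * hN N) : x + et0 N < rI c N * hN N := by
  have h0 := hN_pos N
  have h1 := Nat.lt_floor_add_one (et0 N / hN N)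
  rw [div_lt_iff₀ h0] at h1
  unfold rI
  push_cast
  nlinarith

/-- the condition `hρ` of 737's `near`, with the constants of the template -/
theorem rI_near {N : ℕ} {A' B' d : ℝ} (h1 : 2 * A' + B' ≤ 2 * hN N) (hd : 2 * d ≤ hN N) :
    A' + B' + A' + hN N / 2 + (8 * hN N + 2 * d) + et0 N < rI 13 N * hN N := by
  have h0 := hN_pos N
  refine rI_lt ?_
  push_cast
  linarith

/-- **index distance** of 654's `quenI` -/
def rF (c N : ℕ) : ℕ := 2 * rI c N + 3


theorem rI_le {c N : ℕ} {e0 : ℝ} (h : et0 N ≤ e0) : (rI c N : ℝ) ≤ e0 / hN N + c := by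
  have h0 := hN_pos N
  have h1 := Nat.floor_le (div_pos (et0_pos N) h0).le
  have h2 : et0 N / hN N ≤ e0 / hN N := div_le_div_of_nonneg_right h h0.le
  unfold rI
  push_cast
  linarith

/-- **field `hr`** -/
theorem rF_hr (c : ℕ) : ∀ᶠ e0 : ℝ in 𝓝[>] 0, ∀ᶠ N in atTop,
    (rF c N : ℝ) ≤ (2 * c + 3 : ℝ) * (e0 / hN N + 1) := by
  filter_upwards [self_mem_nhdsWithin] with e0 (h0 : 0 < e0)
  filter_upwards [et0_tendsto.eventually_le_const h0] with N h1
  have h2 := rI_le (c := c) h1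
  have h3 : 0 ≤ e0 / hN N := div_nonneg h0.le (hN_pos N).le
  have h4 : (0 : ℝ) ≤ c := Nat.cast_nonneg c
  unfold rF
  push_cast
  nlinarith

/-! ### the side conditions -/

/-- side conditions of the width -/
structure NumW (u : Poly) (c : ℕ) (e0 : ℝ) (N : ℕ) : Prop where
  n4 : u.n + 4 ≤ N
  h100 : 100 * hN N ≤ Du u K0
  lo : 16 * hN N ≤ et0 N
  up : et0 N ≤ Du u K0
  e0le : et0 N ≤ e0
  r4 : 2 * (rI c N : ℤ) + 4 ≤ (mN u N : ℤ)
  r7 : (rI c N : ℤ) + 7 ≤ (mN u N : ℤ)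

/-- side conditions of the mesh -/
structure NumE (N : ℕ) (ε : ℝ) : Prop where
  pos : 0 < ε
  c1 : √ε ≤ c1 * hN N
  s5 : 5000 * √ε ≤ hN N
  d2 : √ε ≤ 1 / 100

theorem hN_le {x : ℝ} (hx : 0 < x) : ∀ᶠ N in atTop, hN N ≤ x := hN_tendsto.eventually_le_const hx

theorem et0_le {x : ℝ} (hx : 0 < x) : ∀ᶠ N in atTop, et0 N ≤ x :=
  et0_tendsto.eventually_le_const hx

theorem ev_w (u : Poly) (c : ℕ) {e0 : ℝ} (he : 0 < e0) : ∀ᶠ N in atTop, NumW u c e0 N := by
  have h1 := dU_pos u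
  have hs := u.s_pos
  filter_upwards [eventually_ge_atTop (u.n + 4), hN_le (x := dU u / 100) (by positivity),
    et0_le (x := 1 / 16) (by norm_num), et0_le h1, et0_le he,
    et0_le (x := u.s / 4) (by positivity), hN_le (x := u.s / (2 * (2 * c + 14))) (by positivity)]
    with N k1 k2 k3 k4 k5 k6 k7
  have g0 := hN_pos N
  have g1 := et0_pos N
  have g2 := et0_sq N
  have g3 := mN_hN (u := u) (N := N) (by omega)
  have hc : (0 : ℝ) ≤ c := Nat.cast_nonneg c
  have g4 : 2 * (rI c N : ℝ) + (14 : ℝ) ≤ mN u N := by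
    have q1 := rI_le (c := c) (le_refl (et0 N))
    have q2 : 2 * (et0 N / hN N + c) + 14 ≤ mN u N := by
      have q3 : (2 * (et0 N / hN N + c) + 14) * hN N ≤ mN u N * hN N := by
        rw [g3]
        have q4 : (2 * (et0 N / hN N + c) + 14) * hN N = 2 * et0 N + (2 * c + 14) * hN N := by
          field_simp
          ring
        rw [q4]
        rw [le_div_iff₀ (by positivity)] at k7
        linarith
      exact le_of_mul_le_mul_right q3 g0
    linarith
  have g5 : 2 * (rI c N : ℤ) + 14 ≤ (mN u N : ℤ) := by exact_mod_cast g4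
  refine ⟨k1, by unfold dU at k2; linarith, by nlinarith, k4, k5, by omega, by omega⟩

theorem ev_e (N : ℕ) : ∀ᶠ ε : ℝ in 𝓝[>] 0, NumE N ε := by
  have h0 := hN_pos N
  filter_upwards [self_mem_nhdsWithin, sqrt_small (mul_pos c1_pos h0),
    sqrt_small (c := hN N / 5000) (by positivity), sqrt_small (c := 1 / 100) (by norm_num)]
    with ε (k1 : 0 < ε) k2 k3 k4
  exact ⟨k1, k2, by linarith, k4⟩

/-- **all side conditions** -/
theorem ev_num (u : Poly) (c : ℕ) : ∀ᶠ e0 : ℝ in 𝓝[>] 0, Ev u fun N ε _ _ =>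
    NumW u c e0 N ∧ NumE N ε := by
  filter_upwards [self_mem_nhdsWithin] with e0 (h0 : 0 < e0)
  filter_upwards [ev_w u c h0] with N h1
  filter_upwards [ev_e N] with ε h2 _ _
  exact ⟨h1, h2⟩

/-! ### R10 with the numbers -/


end Crest.Agent.R143.RigNx377
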