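import Crest.Agent.R143.GateA_838

/-!
# Row 143 (S0194), R2 / SEP (3646 (3b)), the INDEX half (helper927)

* `asum_map` : the total angle is invariant under `s ↦ (s - z0) / e`
* `wall_jump` : a closed chain `M ++ R` where `M` goes from the left to the right of the wall
  `{X = 0, y0 ≤ Y ≤ y1}` inside `y0 < Y < y1` and `R` does not meet the wall: the total angle at the
  top of the wall minus the total angle at the bottom is `2 π`
* `Ring`, `Ring.cyc` : closed chain made of pieces `P j` from `x j` to `x (j + 1)` in regions `RR j`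
* `ring_index` : index `2 π` at the bottom of the wall, `0` at its top
* `asum_off` : the index is constant along chains of Delaunay edges off the closed chain
-/

set_option autoImplicit false

noncomputable section

open scoped Classical

namespace Crest.Agent.R143.Idxx927

open Crest.Agent.R143.B0x346 Crest.Agent.R143.DelGx806 Crest.Agent.R143.DelRx806
open Crest.Agent.R143.ToolWx838 Crest.Agent.R143.Blkx838 Crest.Agent.R143.ToolW2x838
open Crest.Agent.R143.ToolW3x838 Crest.Agent.R143.Circ4x838 Crest.Agent.R143.Gatex838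

variable {S : Finset ℂ} {z0 e : ℂ}

/-! ### change of frame -/

theorem ang_map (he : e ≠ 0) (x a b : ℂ) :
    ang ((x - z0) / e) ((a - z0) / e) ((b - z0) / e) = ang x a b := by
  unfold ang
  have e1 : (b - z0) / e - (x - z0) / e = (b - x) / e := by ring
  have e2 : (a - z0) / e - (x - z0) / e = (a - x) / e := by ring
  rw [e1, e2, div_div_div_cancel_right₀ he]

theorem asum_map (he : e ≠ 0) (x : ℂ) (l : List ℂ) :
    asum ((x - z0) / e) (l.map fun s => (s - z0) / e) = asum x l := by
  induction l with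
  | nil => rfl
  | cons a l ih =>
    cases l with
    | nil => rfl
    | cons b l =>
      have ih' : asum ((x - z0) / e) ((b - z0) / e :: l.map fun s => (s - z0) / e) =
        asum x (b :: l) := ih
      change ang ((x - z0) / e) ((a - z0) / e) ((b - z0) / e) +
        asum ((x - z0) / e) ((b - z0) / e :: l.map fun s => (s - z0) / e) = _
      rw [ih', ang_map he, asum_cons]

/-- `segment` in the frame -/
theorem seg_back (he : e ≠ 0) {a b z : ℂ}
    (h : z ∈ segment ℝ ((a - z0) / e) ((b - z0) / e)) : z0 + e * z ∈ segment ℝ a b := by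
  obtain ⟨s, t, hs, ht, hst, rfl⟩ := h
  refine ⟨s, t, hs, ht, hst, ?_⟩
  have h1 : s = 1 - t := by linarith
  subst h1
  simp only [Complex.real_smul]
  push_cast
  field_simp
  ring

/-! ### the wall -/

/-- the point of height `t` of the wall in the standard frame -/
def wp (t : ℝ) : ℂ := ⟨0, t⟩

@[simp] theorem wp_re (t : ℝ) : (wp t).re = 0 := rfl
@[simp] theorem wp_im (t : ℝ) : (wp t).im = t := rfl

theorem seg_re_const {a b z : ℂ} {c : ℝ} (ha : a.re = c) (hb : b.re = c)
    (hz : z ∈ segment ℝ a b) : z.re = c := by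
  obtain ⟨s, t, hs, ht, hst, rfl⟩ := hz
  simp only [Complex.add_re, Complex.real_smul, Complex.mul_re, Complex.ofReal_re,
    Complex.ofReal_im, zero_mul, sub_zero, ha, hb]
  rw [← add_mul, hst, one_mul]

theorem seg_im_const {a b z : ℂ} {c : ℝ} (ha : a.im = c) (hb : b.im = c)
    (hz : z ∈ segment ℝ a b) : z.im = c := by
  obtain ⟨s, t, hs, ht, hst, rfl⟩ := hz
  simp only [Complex.add_im, Complex.real_smul, Complex.mul_im, Complex.ofReal_re,
    Complex.ofReal_im, zero_mul, add_zero, ha, hb]
  rw [← add_mul, hst, one_mul]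

theorem seg_wp {y0 y1 : ℝ} (h01 : y0 ≤ y1) {z : ℂ} (hz : z ∈ segment ℝ (wp y0) (wp y1)) :
    ∃ t, y0 ≤ t ∧ t ≤ y1 ∧ z = wp t := by
  obtain ⟨s, t, hs, ht, hst, rfl⟩ := hz
  have h1 := mul_nonneg ht (sub_nonneg.2 h01)
  have h2 := mul_nonneg hs (sub_nonneg.2 h01)
  have e1 : s = 1 - t := by linarith
  subst e1
  refine ⟨(1 - t) * y0 + t * y1, ?_, ?_, ?_⟩
  · nlinarith
  · nlinarith
  · apply Complex.ext <;> simp

/-- **wall jump**, standard frame -/
theorem wall_jump0 {M R : List ℂ} {a b : ℂ} {y0 y1 : ℝ} (h01 : y0 ≤ y1)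
    (hM0 : M.head? = some a) (hM1 : M.getLast? = some b)
    (hR0 : R.head? = some b) (hR1 : R.getLast? = some a)
    (hM : ∀ s ∈ M, y0 < s.im ∧ s.im < y1) (ha : a.re < 0) (hb : 0 < b.re)
    (hR : ∀ p ∈ prs R, ∀ t, y0 ≤ t → t ≤ y1 → wp t ∉ segment ℝ p.1 p.2) :
    asum (wp y1) M + asum (wp y1) R = asum (wp y0) M + asum (wp y0) R + 2 * Real.pi := by
  have hMn : M ≠ [] := by rintro rfl; simp at hM0
  have hRn : R ≠ [] := by rintro rfl; simp at hR0
  have eh : M.head hMn = a := by
    rw [List.head?_eq_some_head hMn] at hM0; exact Option.some.inj hM0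
  have el : M.getLast hMn = b := by
    rw [List.getLast?_eq_some_getLast hMn] at hM1; exact Option.some.inj hM1
  have haM : a ∈ M := eh ▸ List.head_mem hMn
  have hbM : b ∈ M := el ▸ List.getLast_mem hMn
  have hya := hM a haM
  have hyb := hM b hbM
  set H : ℝ := y1 + 1 with hH
  set A : ℂ := ⟨a.re, H⟩ with hA
  set B : ℂ := ⟨b.re, H⟩ with hB
  -- the three auxiliary segments do not meet the wall
  have w1 : ∀ t, y0 ≤ t → t ≤ y1 → wp t ∉ segment ℝ a A := by
    intro t _ _ hz
    have := seg_re_const (a := a) (b := A) (c := a.re) rfl rfl hz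
    rw [wp_re] at this; linarith
  have w2 : ∀ t, y0 ≤ t → t ≤ y1 → wp t ∉ segment ℝ A B := by
    intro t _ ht hz
    have := seg_im_const (c := H) rfl rfl hz
    rw [wp_im] at this; linarith
  have w3 : ∀ t, y0 ≤ t → t ≤ y1 → wp t ∉ segment ℝ B b := by
    intro t _ _ hz
    have := seg_re_const (a := B) (b := b) (c := b.re) rfl rfl hz
    rw [wp_re] at this; linarith
  -- closed chain `R, A, B, b`
  have ec : ∀ z, asum z (cat R [a, A, B, b]) =
      asum z R + (ang z a A + ang z A B + ang z B b) := by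
    intro z
    rw [asum_cat hR1 rfl]
    simp only [asum_cons, asum_one, add_zero]
    ring
  have hcl : (cat R [a, A, B, b]).head? = (cat R [a, A, B, b]).getLast? := by
    rw [cat_head hRn, cat_last hR1 rfl, hR0]
    rfl
  have hconst : asum (wp y0) (cat R [a, A, B, b]) = asum (wp y1) (cat R [a, A, B, b]) := by
    refine asum_seg hcl fun z hz p hp => ?_
    obtain ⟨t, h0, h1, rfl⟩ := seg_wp h01 hz
    rw [prs_cat hR1 rfl, List.mem_append] at hp
    rcases hp with hp | hp
    · exact hR p hp t h0 h1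
    · simp only [prs_cons, prs_one, List.mem_cons, List.not_mem_nil, or_false] at hp
      rcases hp with rfl | rfl | rfl
      · exact w1 t h0 h1
      · exact w2 t h0 h1
      · exact w3 t h0 h1
  rw [ec, ec] at hconst
  -- from the top
  have htop := asum_rect hMn (z := wp y1) (H := H) (by rw [wp_im]; linarith)
    (fun s hs => (hM s hs).2) (by rw [eh, wp_re]; exact ha) (by rw [el, wp_re]; exact hb)
  rw [eh, el] at htop
  -- from the bottom
  have hbot : asum (wp y0) (cat M [b, B, A, a]) = 0 := by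
    refine asum_half_closed (u := Complex.I) ?_ fun s hs => ?_
    · rw [cat_head hMn, cat_last hM1 rfl, hM0]; rfl
    · have e1 : ((s - wp y0) / Complex.I).re = s.im - y0 := by
        rw [div_eq_mul_inv, Complex.inv_I]; simp
      rw [e1]
      rcases mem_cat hs with hs | hs
      · linarith [(hM s hs).1]
      · simp only [List.mem_cons, List.not_mem_nil, or_false] at hs
        rcases hs with rfl | rfl | rfl | rfl
        · linarith
        · change 0 < H - y0; linarith
        · change 0 < H - y0; linarith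
        · linarith
  rw [asum_cat hM1 rfl] at hbot
  simp only [asum_cons, asum_one, add_zero] at hbot
  have c1 : ∀ t, y0 ≤ t → t ≤ y1 → ang (wp t) A a = - ang (wp t) a A :=
    fun t h0 h1 => ang_comm (w1 t h0 h1)
  have c2 : ∀ t, y0 ≤ t → t ≤ y1 → ang (wp t) B A = - ang (wp t) A B :=
    fun t h0 h1 => ang_comm (w2 t h0 h1)
  have c3 : ∀ t, y0 ≤ t → t ≤ y1 → ang (wp t) b B = - ang (wp t) B b :=
    fun t h0 h1 => ang_comm (w3 t h0 h1)
  rw [c1 _ le_rfl h01, c2 _ le_rfl h01, c3 _ le_rfl h01] at hbot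
  have d1 := c1 _ h01 le_rfl
  have d2 := c2 _ h01 le_rfl
  have d3 := c3 _ h01 le_rfl
  linarith

/-- the point of height `t` of the wall of the frame -/
def wl (z0 e : ℂ) (t : ℝ) : ℂ := z0 + e * ((t : ℂ) * Complex.I)

theorem wl_map (he : e ≠ 0) (t : ℝ) : (wl z0 e t - z0) / e = wp t := by
  unfold wl
  have : (z0 + e * ((t : ℂ) * Complex.I) - z0) / e = (t : ℂ) * Complex.I := by
    field_simp; ring
  rw [this]
  apply Complex.ext <;> simp

theorem wl_eq (t : ℝ) : wl z0 e t = z0 + e * wp t := by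
  unfold wl
  congr 2
  apply Complex.ext <;> simp

@[simp] theorem X_wl (he : e ≠ 0) (t : ℝ) : X z0 e (wl z0 e t) = 0 := by
  unfold X; rw [wl_map he]; rfl

@[simp] theorem Y_wl (he : e ≠ 0) (t : ℝ) : Y z0 e (wl z0 e t) = t := by
  unfold Y; rw [wl_map he]; rfl

/-- **wall jump** -/
theorem wall_jump (he : e ≠ 0) {M R : List ℂ} {a b : ℂ} {y0 y1 : ℝ} (h01 : y0 ≤ y1)
    (hM0 : M.head? = some a) (hM1 : M.getLast? = some b)
    (hR0 : R.head? = some b) (hR1 : R.getLast? = some a)
    (hM : ∀ s ∈ M, y0 < Y z0 e s ∧ Y z0 e s < y1) (ha : X z0 e a < 0) (hb : 0 < X z0 e b)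
    (hR : ∀ p ∈ prs R, ∀ t, y0 ≤ t → t ≤ y1 → wl z0 e t ∉ segment ℝ p.1 p.2) :
    asum (wl z0 e y1) M + asum (wl z0 e y1) R =
      asum (wl z0 e y0) M + asum (wl z0 e y0) R + 2 * Real.pi := by
  set f : ℂ → ℂ := fun s => (s - z0) / e with hf
  have h := wall_jump0 (M := M.map f) (R := R.map f) (a := f a) (b := f b) h01
    (by rw [List.head?_map, hM0]; rfl) (by rw [List.getLast?_map, hM1]; rfl)
    (by rw [List.head?_map, hR0]; rfl) (by rw [List.getLast?_map, hR1]; rfl)
    (by
      intro s hs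
      rw [List.mem_map] at hs
      obtain ⟨r, hr, rfl⟩ := hs
      exact hM r hr) ha hb
    (by
      intro p hp t h0 h1 hz
      rw [prs_map, List.mem_map] at hp
      obtain ⟨q, hq, rfl⟩ := hp
      have := seg_back he hz
      rw [← wl_eq] at this
      exact hR q hq t h0 h1 this)
  rw [← wl_map (z0 := z0) he y0, ← wl_map (z0 := z0) he y1, asum_map he, asum_map he, asum_map he,
    asum_map he] at h
  exact h

/-! ### far points -/


/-- index `0` beyond a line -/
theorem asum_line {l : List ℂ} (hl : l.head? = l.getLast?) {y : ℝ}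
    (hb : ∀ s ∈ l, Y z0 e s < y) {h : ℂ} (hh : y ≤ Y z0 e h) (he : e ≠ 0) : asum h l = 0 := by
  refine asum_half_closed (u := -(e * Complex.I)) hl fun s hs => ?_
  have h1 := hb s hs
  have e1 : (s - h) / (-(e * Complex.I)) = ((s - z0) / e - (h - z0) / e) * Complex.I := by
    rw [div_eq_iff (neg_ne_zero.2 (mul_ne_zero he Complex.I_ne_zero))]
    field_simp
    linear_combination (s - h) * Complex.I_mul_I
  have e2 : (((s - z0) / e - (h - z0) / e) * Complex.I).re = Y z0 e h - Y z0 e s := by
    unfold Y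
    simp only [Complex.mul_re, Complex.I_re, Complex.I_im, Complex.sub_im, mul_zero, mul_one,
      zero_sub, Complex.sub_re]
    ring
  rw [e1, e2]
  linarith

/-! ### closed chains made of pieces -/

/-- pieces `a, a + 1, .., a + n`, concatenated -/
def run (P : ℕ → List ℂ) (a : ℕ) : ℕ → List ℂ
  | 0 => P a
  | n + 1 => cat (run P a n) (P (a + n + 1))

/-- closed chain of `N` pieces `P j`, from `x j` to `x (j + 1)`, in the regions `RR j` -/
structure RingP (N : ℕ) (x : ℕ → ℂ) (P : ℕ → List ℂ) (RR : ℕ → Set ℂ) : Prop where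
  hN : 3 ≤ N
  per : ∀ j, P (j + N) = P j
  hd : ∀ j, (P j).head? = some (x j)
  lst : ∀ j, (P j).getLast? = some (x (j + 1))
  reg : ∀ j, j < N → ∀ p ∈ prs (P j), ∀ z ∈ segment ℝ p.1 p.2, z ∈ RR j

section Pieces

variable {N : ℕ} {x : ℕ → ℂ} {P : ℕ → List ℂ} {RR : ℕ → Set ℂ}

theorem run_last (hd : ∀ j, (P j).head? = some (x j)) (lst : ∀ j, (P j).getLast? = some (x (j + 1)))
    (a n : ℕ) : (run P a n).getLast? = some (x (a + n + 1)) := by
  induction n with
  | zero => exact lst a
  | succ n ih => rw [run, cat_last ih (hd _), lst]; rfl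

theorem run_head (hd : ∀ j, (P j).head? = some (x j)) (a n : ℕ) :
    (run P a n).head? = some (x a) := by
  induction n with
  | zero => exact hd a
  | succ n ih =>
    rw [run, cat_head (by rintro h; rw [h] at ih; simp at ih), ih]

theorem prs_run (hd : ∀ j, (P j).head? = some (x j)) (lst : ∀ j, (P j).getLast? = some (x (j + 1)))
    (a n : ℕ) {p : ℂ × ℂ} : p ∈ prs (run P a n) ↔ ∃ j, j ≤ n ∧ p ∈ prs (P (a + j)) := by
  induction n with
  | zero =>
    constructor
    · exact fun h => ⟨0, le_rfl, h⟩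
    · rintro ⟨j, hj, h⟩
      obtain rfl : j = 0 := by omega
      exact h
  | succ n ih =>
    rw [run, prs_cat (run_last hd lst a n) (hd _), List.mem_append, ih]
    constructor
    · rintro (⟨j, hj, h⟩ | h)
      · exact ⟨j, by omega, h⟩
      · exact ⟨n + 1, le_rfl, by rw [← add_assoc]; exact h⟩
    · rintro ⟨j, hj, h⟩
      by_cases h' : j ≤ n
      · exact Or.inl ⟨j, h', h⟩
      · obtain rfl : j = n + 1 := by omega
        right; rw [← add_assoc] at h; exact h

theorem mem_run (a n : ℕ) {s : ℂ} (h : s ∈ run P a n) : ∃ j, j ≤ n ∧ s ∈ P (a + j) := by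
  induction n with
  | zero => exact ⟨0, le_rfl, h⟩
  | succ n ih =>
    rcases mem_cat h with h | h
    · obtain ⟨j, hj, h⟩ := ih h
      exact ⟨j, by omega, h⟩
    · exact ⟨n + 1, le_rfl, by rw [← add_assoc]; exact h⟩

theorem run_mem (hd : ∀ j, (P j).head? = some (x j)) (lst : ∀ j, (P j).getLast? = some (x (j + 1)))
    (a n : ℕ) {s : ℂ} {j : ℕ} (hj : j ≤ n) (h : s ∈ P (a + j)) : s ∈ run P a n := by
  induction n with
  | zero =>
    obtain rfl : j = 0 := by omega
    exact h
  | succ n ih =>
    rw [run, cat_eq (run_last hd lst a n) (hd _), List.mem_append]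
    by_cases h' : j ≤ n
    · have h1 := ih h'
      by_cases h2 : s ∈ (run P a n).dropLast
      · exact Or.inl h2
      · right
        have hne : run P a n ≠ [] := List.ne_nil_of_mem h1
        rw [← List.dropLast_append_getLast hne, List.mem_append, List.mem_singleton] at h1
        rcases h1 with h1 | h1
        · exact absurd h1 h2
        · have h3 := run_last hd lst a n
          rw [List.getLast?_eq_some_getLast hne] at h3
          have h4 := hd (a + n + 1)
          rw [h1, Option.some.inj h3]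
          exact List.mem_of_mem_head? h4
    · obtain rfl : j = n + 1 := by omega
      right; rw [← add_assoc] at h; exact h

theorem asum_run (hd : ∀ j, (P j).head? = some (x j)) (lst : ∀ j, (P j).getLast? = some (x (j + 1)))
    (a n : ℕ) (z : ℂ) : asum z (run P a n) = ∑ j ∈ Finset.range (n + 1), asum z (P (a + j)) := by
  induction n with
  | zero => simp [run]
  | succ n ih =>
    rw [run, asum_cat (run_last hd lst a n) (hd _), ih, Finset.sum_range_succ _ (n + 1), add_assoc a]

theorem sum_per {g : ℕ → ℝ} (hg : ∀ j, g (j + N) = g j) (a : ℕ) :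
    ∑ j ∈ Finset.range N, g (a + j) = ∑ j ∈ Finset.range N, g j := by
  induction a with
  | zero => simp
  | succ a ih =>
    rw [← ih]
    have h1 : ∑ j ∈ Finset.range (N + 1), g (a + j) = ∑ j ∈ Finset.range N, g (a + j) + g (a + N) :=
      Finset.sum_range_succ _ _
    have h2 : ∑ j ∈ Finset.range (N + 1), g (a + j) =
        ∑ j ∈ Finset.range N, g (a + (j + 1)) + g (a + 0) := Finset.sum_range_succ' _ _
    rw [hg, add_zero] at *
    have h3 : ∀ j, g (a + 1 + j) = g (a + (j + 1)) := fun j => by congr 1; omega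
    simp only [h3]
    linarith

/-- the closed chain -/
def cyc (N : ℕ) (P : ℕ → List ℂ) : List ℂ := run P 0 (N - 1)

variable (H : RingP N x P RR)

include H

theorem RingP.perx (j : ℕ) : x (j + N) = x j := by
  have h1 := H.hd (j + N)
  rw [H.per, H.hd j] at h1
  exact (Option.some.inj h1).symm

theorem RingP.closed : (cyc N P).head? = (cyc N P).getLast? := by
  have hN := H.hN
  unfold cyc
  rw [run_head H.hd, run_last H.hd H.lst]
  have e : 0 + (N - 1) + 1 = 0 + N := by omega
  rw [e, H.perx]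

theorem RingP.prs {p : ℂ × ℂ} : p ∈ prs (cyc N P) ↔ ∃ j, j < N ∧ p ∈ ToolWx838.prs (P j) := by
  have hN := H.hN
  unfold cyc
  rw [prs_run H.hd H.lst]
  constructor
  · rintro ⟨j, hj, h⟩
    rw [zero_add] at h
    exact ⟨j, by omega, h⟩
  · rintro ⟨j, hj, h⟩
    exact ⟨j, by omega, by rw [zero_add]; exact h⟩

theorem RingP.mem {s : ℂ} : s ∈ cyc N P ↔ ∃ j, j < N ∧ s ∈ P j := by
  have hN := H.hN
  unfold cyc
  constructor
  · intro h
    obtain ⟨j, hj, h⟩ := mem_run _ _ h
    rw [zero_add] at h
    exact ⟨j, by omega, h⟩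
  · rintro ⟨j, hj, h⟩
    exact run_mem H.hd H.lst 0 (N - 1) (j := j) (by omega) (by rw [zero_add]; exact h)

theorem RingP.asum (z : ℂ) :
    asum z (cyc N P) = ∑ j ∈ Finset.range N, ToolWx838.asum z (P j) := by
  have hN := H.hN
  unfold cyc
  rw [asum_run H.hd H.lst]
  have e : N - 1 + 1 = N := by omega
  rw [e]
  simp only [zero_add]

/-- Delaunay chain -/
theorem RingP.loop (hdel : ∀ j, j < N → ∀ p ∈ ToolWx838.prs (P j), DE S p.1 p.2) :
    Loop S (cyc N P) where
  closed := H.closed
  del := by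
    intro p hp
    obtain ⟨j, hj, h⟩ := H.prs.1 hp
    exact hdel j hj p h

theorem RingP.off {z : ℂ} (hz : ∀ j, j < N → z ∉ RR j) : Off z (cyc N P) := by
  intro p hp hseg
  obtain ⟨j, hj, h⟩ := H.prs.1 hp
  exact hz j hj (H.reg j hj p h z hseg)

theorem per_mod {j : ℕ} : P j = P (j % N) := by
  have hN := H.hN
  have h1 : ∀ q r, P (r + q * N) = P r := by
    intro q r
    induction q with
    | zero => simp
    | succ q ih =>
      have e : r + (q + 1) * N = (r + q * N) + N := by ring
      rw [e, H.per, ih]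
  conv_lhs => rw [← Nat.mod_add_div j N, mul_comm]
  exact h1 _ _

/-- **jump of the index across the wall of the gate `k + 1`** -/
theorem RingP.jump {z0 e : ℂ} (he : e ≠ 0) {y0 y1 : ℝ} (h01 : y0 ≤ y1) (k : ℕ)
    (hM : ∀ s, s ∈ P k ∨ s ∈ P (k + 1) → y0 < Y z0 e s ∧ Y z0 e s < y1)
    (ha : X z0 e (x k) < 0) (hb : 0 < X z0 e (x (k + 2)))
    (hW : ∀ j, k + 2 ≤ j → j < k + N → ∀ t, y0 ≤ t → t ≤ y1 → wl z0 e t ∉ RR (j % N)) :
    ToolWx838.asum (wl z0 e y1) (cyc N P) =
      ToolWx838.asum (wl z0 e y0) (cyc N P) + 2 * Real.pi := by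
  have hN := H.hN
  have hNpos : 0 < N := by omega
  have hm := wall_jump (z0 := z0) (M := run P k 1) (R := run P (k + 2) (N - 3)) (a := x k)
    (b := x (k + 2)) he h01 (run_head H.hd k 1) (run_last H.hd H.lst k 1)
    (run_head H.hd (k + 2) (N - 3))
    (by
      rw [run_last H.hd H.lst]
      have e1 : k + 2 + (N - 3) + 1 = k + N := by omega
      rw [e1, H.perx])
    (by
      intro s hs
      obtain ⟨j, hj, h⟩ := mem_run _ _ hs
      refine hM s ?_
      rcases Nat.le_one_iff_eq_zero_or_eq_one.1 hj with rfl | rfl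
      · exact Or.inl h
      · exact Or.inr h) ha hb
    (by
      intro p hp t h0 h1 hz
      obtain ⟨j, hj, h⟩ := (prs_run H.hd H.lst _ _).1 hp
      rw [per_mod H] at h
      exact hW (k + 2 + j) (by omega) (by omega) t h0 h1
        (H.reg _ (Nat.mod_lt _ hNpos) p h _ hz))
  have hsum : ∀ z, ToolWx838.asum z (run P k 1) + ToolWx838.asum z (run P (k + 2) (N - 3)) =
      ToolWx838.asum z (cyc N P) := by
    intro z
    rw [H.asum, ← sum_per (N := N) (g := fun j => ToolWx838.asum z (P j))
      (fun j => by rw [H.per]) k, asum_run H.hd H.lst, asum_run H.hd H.lst]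
    have e1 : N = 2 + (N - 2) := by omega
    have e4 : ∑ j ∈ Finset.range (2 + (N - 2)), ToolWx838.asum z (P (k + j)) =
        ∑ j ∈ Finset.range 2, ToolWx838.asum z (P (k + j)) +
        ∑ j ∈ Finset.range (N - 2), ToolWx838.asum z (P (k + (2 + j))) :=
      Finset.sum_range_add (fun j => ToolWx838.asum z (P (k + j))) 2 (N - 2)
    rw [← e1] at e4
    have e2 : N - 3 + 1 = N - 2 := by omega
    rw [e2, e4]
    congr 1
    refine Finset.sum_congr rfl fun j _ => ?_
    rw [add_assoc k 2 j]
  rw [hsum, hsum] at hm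
  exact hm

/-- the index at the top of the wall vanishes if the outward ray is off the ring -/
theorem RingP.top {z0 e : ℂ} (he : e ≠ 0) {y1 : ℝ}
    (hray : ∀ j, j < N → ∀ t, y1 ≤ t → wl z0 e t ∉ RR j) :
    ToolWx838.asum (wl z0 e y1) (cyc N P) = 0 := by
  obtain ⟨T, hT⟩ := ((cyc N P).toFinset.image (Y z0 e)).exists_le
  have hT' : ∀ s ∈ cyc N P, Y z0 e s ≤ T := fun s hs =>
    hT _ (Finset.mem_image_of_mem _ (List.mem_toFinset.2 hs))
  set T' := max T y1 + 1 with hT1
  have h1 : y1 ≤ T' := by linarith [le_max_right T y1]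
  have h2 : T < T' := by linarith [le_max_left T y1]
  have hc : ToolWx838.asum (wl z0 e y1) (cyc N P) = ToolWx838.asum (wl z0 e T') (cyc N P) := by
    refine asum_seg H.closed fun z hz => H.off fun j hj => ?_
    obtain ⟨s, t, hs, ht, hst, rfl⟩ := hz
    have e1 : s • wl z0 e y1 + t • wl z0 e T' = wl z0 e (s * y1 + t * T') := by
      have h3 : s = 1 - t := by linarith
      subst h3
      unfold wl
      simp only [Complex.real_smul]
      push_cast
      ring
    rw [e1]
    refine hray j hj _ ?_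
    have h4 := mul_nonneg ht (sub_nonneg.2 h1)
    have h3 : s = 1 - t := by linarith
    subst h3
    nlinarith
  rw [hc]
  refine asum_line (z0 := z0) (e := e) (y := T') H.closed (fun s hs => ?_) ?_ he
  · exact lt_of_le_of_lt (hT' s hs) h2
  · rw [Y_wl he]

/-- **ring index**: the index is `-2 π` on every preconnected set off the ring which contains the
bottom of the wall of one gate whose outward ray is off the ring (gates enumerated in the direction
of increasing `X`, inside = below) -/
theorem RingP.index {z0 e : ℂ} (he : e ≠ 0) {y0 y1 : ℝ} (h01 : y0 ≤ y1) (k : ℕ)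
    (hM : ∀ s, s ∈ P k ∨ s ∈ P (k + 1) → y0 < Y z0 e s ∧ Y z0 e s < y1)
    (ha : X z0 e (x k) < 0) (hb : 0 < X z0 e (x (k + 2)))
    (hW : ∀ j, k + 2 ≤ j → j < k + N → ∀ t, y0 ≤ t → t ≤ y1 → wl z0 e t ∉ RR (j % N))
    (hray : ∀ j, j < N → ∀ t, y1 ≤ t → wl z0 e t ∉ RR j)
    {K : Set ℂ} (hK : IsPreconnected K) (hKR : ∀ z ∈ K, ∀ j, j < N → z ∉ RR j)
    (hw : wl z0 e y0 ∈ K) {z : ℂ} (hz : z ∈ K) :
    ToolWx838.asum z (cyc N P) = -(2 * Real.pi) := by
  have h1 := H.jump he h01 k hM ha hb hW
  rw [H.top he hray] at h1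
  rw [asum_const H.closed hK (fun w hw => H.off (hKR w hw)) hz hw]
  linarith

end Pieces

/-! ### constancy along chains of sites -/

/-- the index is constant along chains of Delaunay edges off the closed chain -/
theorem asum_off (hS : GP (S : Set ℂ)) {c : List ℂ} (hl : Loop S c) {u v : ℂ} (hu : u ∉ c)
    (h : Relation.ReflTransGen (fun a b => DE S a b ∧ b ∉ c) u v) :
    asum u c = asum v c ∧ v ∉ c := by
  induction h with
  | refl => exact ⟨rfl, hu⟩
  | tail _ h2 ih =>
    rename_i b d
    obtain ⟨h3, h4⟩ := h2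
    refine ⟨?_, h4⟩
    rw [ih.1]
    refine asum_seg hl.closed fun z hz p hp hseg => ?_
    have m := mem_of_prs hp
    rcases edges_meet hS h3 (hl.del p hp) hz hseg with h | h | h | h
    · exact ih.2 (h ▸ m.1)
    · exact ih.2 (h ▸ m.2)
    · exact h4 (h ▸ m.1)
    · exact h4 (h ▸ m.2)

/-- separation: sites of different index are not joined off the closed chain -/
theorem sep (hS : GP (S : Set ℂ)) {c : List ℂ} (hl : Loop S c) {u v : ℂ} (hu : u ∉ c)
    (hne : asum u c ≠ asum v c) :
    ¬ Relation.ReflTransGen (fun a b => DE S a b ∧ b ∉ c) u v :=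
  fun h => hne (asum_off hS hl hu h).1

end Crest.Agent.R143.Idxx927
end
private theorem rz_b1d679a5f6 : type_of% @_root_.Crest.Agent.R143.Idxx927.run.eq_def := @_root_.Crest.Agent.R143.Idxx927.run.eq_def -- L277
private theorem rz_9dbdf63303 : type_of% @_root_.Crest.Agent.R143.Idxx927.run.eq_1 := @_root_.Crest.Agent.R143.Idxx927.run.eq_1 -- L277
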