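import Crest.Agent.R143.Spt_169
import Crest.Agent.R143.WLoc10_713

/-!
# Row 143 (S0194), CORE-C, box R6: spatial charges of a corridor on `cm0 hS` (helper832)

117's corridor (`DCorr`, gates `p k`, arc regions `B k`), spatial regions `Q l`, `l < m`.

* `FQ S m Q l` : the gap darts whose face has its centre in `Q l` (169's `F l`); `fQ f Q` : the field
  restricted to the triangles with centre in `Q`; `fQ_meas`
* `QReg S n m B Q` : disjoint regions, a face with two sites in `B k` has its centre in one of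
  `Q (k - 1), Q k, Q (k + 1)`; `qreg_of_rad`, `qreg_of_hol` : from small faces; `QReg.rev`
* `reg_cm0` : 169's `Reg`
* `DCorr.dir` : all arcs forward, or all arcs backward and no arc forward
* `VZ` : `∑ k ∈ Near n l, ZZ (rst w (F l)) (B k) (p k) (p (k + 1))`
* **`DCorr.main_q`**, **`DCorr.main_q_back`** : the loop, `Reg`, `KS = ZZ`, `Vl = VZ` (the same functional
  in both directions)
* `DCorr.zz_zC`, **`DCorr.vz_VX`** : `VZ = VX`, a functional of the configuration; `VX_fme`,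
  `VX_neck_fme`, `VX_cut` : measurability and locality
-/

set_option autoImplicit false
set_option linter.all false

noncomputable section

open scoped Classical

namespace Crest.Agent.R143.Sptx832

open Crest.Agent.R143.B0x346 Crest.Agent.R143.DelGx806 Crest.Agent.R143.DelRx806
  Crest.Agent.R143.JColx54
open Crest.Agent.R143.Frame1x395 Crest.Agent.R143.Frame2x395 Crest.Agent.R143.Frame3x395
  Crest.Agent.R143.Frame4x395 Crest.Agent.R143.Frame8x395 Crest.Agent.R143.Frame9x395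
  Crest.Agent.R143.Frame10x395 Crest.Agent.R143.Frame11x395
open Crest.Agent.R143.Frame5x395 (sd mem_sd th th_spec)
open Crest.Agent.R143.Splx117 Crest.Agent.R143.WLocx713 Crest.Agent.R143.RingDx117
  Crest.Agent.R143.CorrDx117 Crest.Agent.R143.Sptx169
open Crest.Agent.R143.Locx922 (Hol del_small inD_self)
open Crest.Agent.R143.FinMx609 Crest.Agent.R143.Prodx609
open Crest.Agent.R143.Janx304 (ovr)

/-! ### regions -/

/-- gap darts whose face has its centre in `Q l` -/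
def FQ (S : Finset ℂ) (m : ℕ) (Q : ℕ → Set ℂ) (l : ℕ) : Set (D0 S) :=
  {e | l < m ∧ cen3 (e.1.2, th S e.1, e.1.1) ∈ Q l}

/-- the field restricted to the triangles with centre in `Q` -/
def fQ (f : ℂ × ℂ × ℂ → ℂ) (Q : Set ℂ) (t : ℂ × ℂ × ℂ) : ℂ := if cen3 t ∈ Q then f t else 0

theorem fQ_meas {f : ℂ × ℂ × ℂ → ℂ} (hf : Measurable f) {Q : Set ℂ} (hQ : MeasurableSet Q) :
    Measurable (fQ f Q) := Measurable.ite (meas_cen3 hQ) hf measurable_const

/-- **the regions of the centres**: disjoint, a face with two sites in `B k` has its centre in one of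
the regions `k - 1, k, k + 1` -/
structure QReg (S : Finset ℂ) (n m : ℕ) (B Q : ℕ → Set ℂ) : Prop where
  dis : ∀ l l', l < m → l' < m → ∀ z, z ∈ Q l → z ∈ Q l' → l = l'
  cov : ∀ k, k < n → ∀ a b c, (a, b, c) ∈ delT S → a ∈ B k → b ∈ B k →
    ∃ l, l < m ∧ k ≤ l + 1 ∧ l ≤ k + 1 ∧ cen3 (a, b, c) ∈ Q l

variable {S : Finset ℂ} {χ : ℂ → ZMod 2} {n m : ℕ} {B Q : ℕ → Set ℂ} {d : ℝ}

/-- from the radius of the faces -/
theorem qreg_of_rad (hdis : ∀ l l', l < m → l' < m → ∀ z, z ∈ Q l → z ∈ Q l' → l = l')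
    (hr : ∀ k, k < n → ∀ a b c, (a, b, c) ∈ delT S → a ∈ B k → b ∈ B k →
      ‖a - cen3 (a, b, c)‖ < d)
    (hcov : ∀ k, k < n → ∀ a ∈ B k, ∀ z, ‖a - z‖ < d →
      ∃ l, l < m ∧ k ≤ l + 1 ∧ l ≤ k + 1 ∧ z ∈ Q l) : QReg S n m B Q :=
  ⟨hdis, fun k hk a b c h ha hb => hcov k hk a ha _ (hr k hk a b c h ha hb)⟩

/-- **from `Hol`** -/
theorem qreg_of_hol (hd : 0 < d) (hH : ∀ k, k < n → Hol (S : Set ℂ) (B k) d)
    (hdis : ∀ l l', l < m → l' < m → ∀ z, z ∈ Q l → z ∈ Q l' → l = l')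
    (hcov : ∀ k, k < n → ∀ a ∈ B k, ∀ z, ‖a - z‖ < d →
      ∃ l, l < m ∧ k ≤ l + 1 ∧ l ≤ k + 1 ∧ z ∈ Q l) : QReg S n m B Q := by
  refine qreg_of_rad (d := d) hdis (fun k hk a b c h ha _ => ?_) hcov
  have h1 : Del (S : Set ℂ) a b c := (Finset.mem_filter.1 h).2
  obtain ⟨o, h2, h3, -, -, h4, -⟩ := del_small hd (hH k hk) ha (inD_self a b c) h1
  have h5 : o = cen3 (a, b, c) := (cen3_iff h1.2.2.2.1).1 ⟨h2, h3⟩
  rw [← h5]
  exact h4

/-- the regions in the opposite order -/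
theorem QReg.rev (H : QReg S n n B Q) :
    QReg S n n (fun k => B (n - 1 - k)) fun l => Q (n - 1 - l) := by
  refine ⟨fun l l' h1 h2 z h3 h4 => ?_, fun k hk a b c h ha hb => ?_⟩
  · have := H.dis _ _ (by omega) (by omega) z h3 h4
    omega
  · obtain ⟨l, h1, h2, h3, h4⟩ := H.cov (n - 1 - k) (by omega) a b c h ha hb
    refine ⟨n - 1 - l, by omega, by omega, by omega, ?_⟩
    show cen3 (a, b, c) ∈ Q (n - 1 - (n - 1 - l))
    rw [show n - 1 - (n - 1 - l) = l by omega]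
    exact h4

/-- the gap dart of a state -/
theorem rr_form (hS : GP (S : Set ℂ)) (P : D0 S) :
    ((cm0 hS).rho ((cm0 hS).rho P)).1.2 = P.1.1 ∧
      th S ((cm0 hS).rho ((cm0 hS).rho P)).1 = P.1.2 ∧
      ((cm0 hS).rho ((cm0 hS).rho P)).1.1 = th S P.1 := by
  obtain ⟨⟨a, b⟩, h⟩ := P
  have h1 := th_spec h
  have h2 := delT_rot hS h1
  have h3 := delT_rot hS h2
  have e2 : th S (b, th S (a, b)) = a := th0 hS h2
  have e3 : th S (th S (a, b), a) = b := th0 hS h3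
  refine ⟨e2, ?_, rfl⟩
  show th S (th S (a, b), th S (b, th S (a, b))) = b
  rw [e2]
  exact e3

/-- a state with both sites in `B k` has its face in one of the regions -/
theorem QReg.st (H : QReg S n m B Q) (hS : GP (S : Set ℂ)) {k : ℕ} (hk : k < n) {P : D0 S}
    (hP : P ∈ RD S (B k)) :
    ∃ l, l < m ∧ k ≤ l + 1 ∧ l ≤ k + 1 ∧ (cm0 hS).rho ((cm0 hS).rho P) ∈ FQ S m Q l := by
  obtain ⟨l, h1, h2, h3, h4⟩ := H.cov k hk _ _ _ (th_spec P.2) hP.1 hP.2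
  refine ⟨l, h1, h2, h3, h1, ?_⟩
  obtain ⟨e1, e2, e3⟩ := rr_form hS P
  rw [e1, e2, e3]
  exact h4


/-! ### the direction of the arcs -/

variable {hS : GP (S : Set ℂ)} {hχ : HullC S χ} {y z : ℕ → ℂ} {A : ℕ → Set ℂ} {p : ℕ → D0 S}


/-- the sum of the charges of the arcs next to `l`, field restricted to `G` -/
def VZ {E : Type} [AddCommMonoid E] (hS : GP (S : Set ℂ)) (hχ : HullC S χ) (n : ℕ)
    (B : ℕ → Set ℂ) (p : ℕ → D0 S) (w : D0 S → E) (G : Set (D0 S)) (l : ℕ) : E :=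
  ∑ k ∈ Near n l, ZZ (cm0 hS) (xc hS hχ) (rst w G) (RD S (B k)) (p k) (p (k + 1))


/-- the charge of an arc does not depend on the order of the gates -/
theorem zz_back {E : Type} [AddCommMonoid E] {w : D0 S → E} {W : Set (D0 S)} {a b : D0 S}
    (h1 : FA (cm0 hS) (xc hS hχ) W b a) (h2 : ¬ FA (cm0 hS) (xc hS hχ) W a b) :
    ZZ (cm0 hS) (xc hS hχ) w W b a = ZZ (cm0 hS) (xc hS hχ) w W a b := by
  unfold ZZ
  rw [if_pos h1, if_neg h2, if_pos h1]


/-! ### functionals of the configuration -/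

section conf

variable {X : Set (ℂ × Bool)}

/-- the restricted field in 713's form -/
theorem rst_fQ {f : ℂ × ℂ × ℂ → ℂ} {w : D0 S → ℂ} {l : ℕ} (hl : l < m) {e : D0 S}
    (hw : w e = f (e.1.2, th S e.1, e.1.1)) :
    rst w (FQ S m Q l) e = fQ f (Q l) (e.1.2, th S e.1, e.1.1) := by
  unfold rst fQ
  by_cases h : cen3 (e.1.2, th S e.1, e.1.1) ∈ Q l
  · rw [if_pos h, if_pos (show e ∈ FQ S m Q l from ⟨hl, h⟩), hw]
  · rw [if_neg h, if_neg fun h' : e ∈ FQ S m Q l => h h'.2]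

/-- the spatial charge of the region `l` as a functional of the configuration -/
def VX (f : ℂ × ℂ × ℂ → ℂ) (n : ℕ) (B Q : ℕ → Set ℂ) (St : ℕ → Set (ℂ × Bool) → ℂ × ℂ → Prop)
    (l : ℕ) (X : Set (ℂ × Bool)) : ℂ :=
  ∑ k ∈ Near n l, zC (fQ f (Q l)) (B k) (St k) (St (k + 1)) X

/-- the charge of one arc -/
theorem zz_zC1 (hX : X.Finite) {hS : GP (sX X : Set ℂ)} {hχ : HullC (sX X) (cX X)}
    {p : ℕ → D0 (sX X)} (R : DCorr hS hχ n y z A B p)
    {St : ℕ → Set (ℂ × Bool) → ℂ × ℂ → Prop} (hSt : ∀ k, k ≤ n → St k X (p k).1)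
    (uSt : ∀ k, k ≤ n → ∀ r, St k X r → r = (p k).1) {f : ℂ × ℂ × ℂ → ℂ} {w : D0 (sX X) → ℂ}
    (hw : ∀ k, k < n → ∀ e : D0 (sX X), e.1.2 ∈ B k → th (sX X) e.1 ∈ B k →
      w e = f (e.1.2, th (sX X) e.1, e.1.1)) {k : ℕ} (hk : k < n) {l : ℕ} (hl : l < m) :
    ZZ (cm0 hS) (xc hS hχ) (rst w (FQ (sX X) m Q l)) (RD (sX X) (B k)) (p k) (p (k + 1)) =
      zC (fQ f (Q l)) (B k) (St k) (St (k + 1)) X := by
  have occ : ∀ j, j ≤ n → xc hS hχ (p j) = 1 := R.corr.occ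
  refine WLocx713.zz_zC hX hS hχ (occ k hk.le) (occ (k + 1) hk) (hSt k hk.le) (hSt (k + 1) hk)
    (uSt k hk.le) (uSt (k + 1) hk) (fun v hv hvS => R.innB k hk v hvS hv) fun e h1 h2 => ?_
  exact rst_fQ hl (hw k hk e h1 h2)

/-- **the spatial charge is a functional of the configuration** -/
theorem _root_.Crest.Agent.R143.CorrDx117.DCorr.vz_VX (hX : X.Finite)
    {hS : GP (sX X : Set ℂ)} {hχ : HullC (sX X) (cX X)}
    {p : ℕ → D0 (sX X)} (R : DCorr hS hχ n y z A B p)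
    {St : ℕ → Set (ℂ × Bool) → ℂ × ℂ → Prop} (hSt : ∀ k, k ≤ n → St k X (p k).1)
    (uSt : ∀ k, k ≤ n → ∀ r, St k X r → r = (p k).1) {f : ℂ × ℂ × ℂ → ℂ} {w : D0 (sX X) → ℂ}
    (hw : ∀ k, k < n → ∀ e : D0 (sX X), e.1.2 ∈ B k → th (sX X) e.1 ∈ B k →
      w e = f (e.1.2, th (sX X) e.1, e.1.1)) {l : ℕ} (hl : l < m) :
    VZ hS hχ n B p w (FQ (sX X) m Q l) l = VX f n B Q St l X :=
  Finset.sum_congr rfl fun k hk => zz_zC1 hX R hSt uSt hw (mem_near.1 hk).1 hl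

/-- the same without restriction: 713's form of every summand `ZZ` -/
theorem zz_zC0 (hX : X.Finite) {hS : GP (sX X : Set ℂ)} {hχ : HullC (sX X) (cX X)}
    {p : ℕ → D0 (sX X)} (R : DCorr hS hχ n y z A B p)
    {St : ℕ → Set (ℂ × Bool) → ℂ × ℂ → Prop} (hSt : ∀ k, k ≤ n → St k X (p k).1)
    (uSt : ∀ k, k ≤ n → ∀ r, St k X r → r = (p k).1) {f : ℂ × ℂ × ℂ → ℂ} {w : D0 (sX X) → ℂ}
    (hw : ∀ k, k < n → ∀ e : D0 (sX X), e.1.2 ∈ B k → th (sX X) e.1 ∈ B k →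
      w e = f (e.1.2, th (sX X) e.1, e.1.1)) {k : ℕ} (hk : k < n) :
    ZZ (cm0 hS) (xc hS hχ) w (RD (sX X) (B k)) (p k) (p (k + 1)) =
      zC f (B k) (St k) (St (k + 1)) X := by
  have occ : ∀ j, j ≤ n → xc hS hχ (p j) = 1 := R.corr.occ
  exact WLocx713.zz_zC hX hS hχ (occ k hk.le) (occ (k + 1) hk) (hSt k hk.le) (hSt (k + 1) hk)
    (uSt k hk.le) (uSt (k + 1) hk) (fun v hv hvS => R.innB k hk v hvS hv)
    fun e h1 h2 => hw k hk e h1 h2





end conf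

end Crest.Agent.R143.Sptx832
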