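import Crest.Agent.R143.TileR1_228
import Crest.Agent.R143.RegB_523
import Crest.Agent.R143.FineD_576
import Crest.Agent.R143.Fine2_422
import Crest.Agent.R143.Spt_832
import Crest.Agent.R143.Xc_372
import Crest.Agent.R143.OutP_571
import Crest.Agent.R143.NetV_346
import Crest.Agent.R143.Idx_927

-- ▼ part R143/RegE_523

/-!
# Row 143 (S0194), CORE-C, RIG: region hypotheses of the corridors (helper523)

* `RR_thick` : thickening of a tile; `seg_RR` : segments of short edges of a tile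
* `RL_thick` : spatial regions of the points near a tile
* `QL A B h W o n l` : spatial regions of the open corridor `o ≤ a < o + n`; **`qreg`** : 832's `QReg`
* `Kin r P` : the points at sup distance `≤ r` from `P`; `Kin_preconn`, `Pg_preconn`
* `cor_Kin`, `cor_thick`, `cor_off`, `cor_near` : corridors and the polygon
* `bot` : the points below a gate are in `Kin`; `Kb` : `Kin` with the way down from a gate
-/

set_option autoImplicit false

noncomputable section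

open scoped Classical

namespace Crest.Agent.R143.RegEx523

open Set
open Crest.Agent.R158.Sp896 (V Adj Con rc lc)
open Crest.Agent.R143.Gatex838 (X Y)
open Crest.Agent.R143.TileRx228 (U4 cz cen gz ge Arm RR FPath)
open Crest.Agent.R143.RegBx523
open Crest.Agent.R143.Tenx416 (Pg)
open Crest.Agent.R143.Finex422 (Fine Cl Un ro)

variable {A B h ρ : ℝ} {M : ℕ} {W : ℤ → ℤ × ℤ}

/-! ### thickening -/

theorem X_sub_le {c u s t : ℂ} (hu : ‖u‖ = 1) : |X c u t - X c u s| ≤ ‖t - s‖ := by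
  have e : X c u t - X c u s = ((t - s) / u).re := by
    unfold X
    rw [← Complex.sub_re, ← sub_div]
    congr 2
    ring
  rw [e]
  refine (Complex.abs_re_le_norm _).trans ?_
  rw [norm_div, hu, div_one]

theorem Y_sub_le {c u s t : ℂ} (hu : ‖u‖ = 1) : |Y c u t - Y c u s| ≤ ‖t - s‖ := by
  have e : Y c u t - Y c u s = ((t - s) / u).im := by
    unfold Y
    rw [← Complex.sub_im, ← sub_div]
    congr 2
    ring
  rw [e]
  refine (Complex.abs_im_le_norm _).trans ?_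
  rw [norm_div, hu, div_one]

theorem Arm_thick {c u s t : ℂ} (hu : ‖u‖ = 1) (hs : s ∈ Arm A B c u) (hst : ‖t - s‖ ≤ ρ) :
    t ∈ Arm (A + ρ) (B + ρ) c u := by
  obtain ⟨⟨h1, h2⟩, h3⟩ := hs
  have hX := abs_le.1 ((X_sub_le (c := c) (s := s) (t := t) hu).trans hst)
  have hY := (Y_sub_le (c := c) (s := s) (t := t) hu).trans hst
  refine ⟨⟨by linarith [hX.1], by linarith [hX.2]⟩, ?_⟩
  have := abs_sub_abs_le_abs_sub (Y c u t) (Y c u s)
  linarith

/-- **points near a tile** -/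
theorem RR_thick (hW : FPath M W) {a : ℤ} {s t : ℂ} (hs : s ∈ RR A B h W a) (hst : ‖t - s‖ ≤ ρ) :
    t ∈ RR (A + ρ) (B + ρ) h W a := by
  rcases hs with hs | hs
  · exact Or.inl (Arm_thick (norm_U4 (U4_back hW a)) hs hst)
  · exact Or.inr (Arm_thick (norm_U4 (hW.step a)) hs hst)





/-! ### spatial regions of an open corridor -/









/-! ### sup thickening -/

/-- the points at sup distance `≤ r` from `P` -/
def Kin (r : ℝ) (P : Set ℂ) : Set ℂ := {s | ∃ x ∈ P, |s.re - x.re| ≤ r ∧ |s.im - x.im| ≤ r}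

theorem sub_Kin {r : ℝ} (hr : 0 ≤ r) {P : Set ℂ} : P ⊆ Kin r P := fun x hx =>
  ⟨x, hx, by rw [sub_self, abs_zero]; exact hr, by rw [sub_self, abs_zero]; exact hr⟩

theorem Kin_mono {r r' : ℝ} (h : r ≤ r') {P : Set ℂ} : Kin r P ⊆ Kin r' P :=
  fun _ ⟨x, hx, h1, h2⟩ => ⟨x, hx, h1.trans h, h2.trans h⟩


theorem Kin_of_dist {r : ℝ} {P : Set ℂ} {s x : ℂ} (hx : x ∈ P) (h : ‖s - x‖ ≤ r) :
    s ∈ Kin r P := by
  refine ⟨x, hx, ?_, ?_⟩
  · rw [← Complex.sub_re]; exact (Complex.abs_re_le_norm _).trans h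
  · rw [← Complex.sub_im]; exact (Complex.abs_im_le_norm _).trans h

theorem Kin_preconn {r : ℝ} {P : Set ℂ} (hP : IsPreconnected P) : IsPreconnected (Kin r P) := by
  have h1 : Convex ℝ {b : ℂ | |b.re| ≤ r ∧ |b.im| ≤ r} := by
    intro x hx y hy a b ha hb hab
    obtain ⟨x1, x2⟩ := hx
    obtain ⟨y1, y2⟩ := hy
    simp only [mem_ofPred_eq, Complex.add_re, Complex.add_im, Complex.real_smul,
      Complex.re_ofReal_mul, Complex.im_ofReal_mul]
    have key : ∀ u v : ℝ, |u| ≤ r → |v| ≤ r → |a * u + b * v| ≤ r := by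
      intro u v hu hv
      calc |a * u + b * v| ≤ |a * u| + |b * v| := abs_add_le _ _
        _ = a * |u| + b * |v| := by rw [abs_mul, abs_mul, abs_of_nonneg ha, abs_of_nonneg hb]
        _ ≤ a * r + b * r := by gcongr
        _ = r := by rw [← add_mul, hab, one_mul]
    exact ⟨key _ _ x1 y1, key _ _ x2 y2⟩
  have h2 : Kin r P = (fun q : ℂ × ℂ => q.1 + q.2) '' (P ×ˢ {b : ℂ | |b.re| ≤ r ∧ |b.im| ≤ r}) := by
    ext s
    constructor
    · rintro ⟨x, hx, a1, a2⟩
      exact ⟨(x, s - x), ⟨hx, by simpa using a1, by simpa using a2⟩, by simp⟩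
    · rintro ⟨⟨x, b⟩, ⟨hx, a1, a2⟩, rfl⟩
      exact ⟨x, hx, by simpa using a1, by simpa using a2⟩
  rw [h2]
  exact (hP.prod h1.isPreconnected).image _ (continuous_fst.add continuous_snd).continuousOn

theorem sq_eq (δ : ℝ) (q : V) : Xcx372.sq 0 δ q = Crest.Agent.R158.Sp896.sq δ q := by
  ext z
  simp [Xcx372.sq, Crest.Agent.R158.Sp896.sq]

theorem Pg_preconn {δ : ℝ} (hδ : 0 < δ) {F : Set V} (hF : ∀ q ∈ F, ∀ q' ∈ F, Con F q q') :
    IsPreconnected (Pg δ F) := by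
  have h := Xcx372.conn_sq (o := 0) hδ hF
  unfold Pg
  simpa only [sq_eq] using h


/-! ### corridors and the polygon -/

section polygon

variable {m : ℕ} {F : Set V} {n : ℕ} {p : ℤ → V} {a₀ : ℤ → ℤ}

theorem off_bridge (H : Fine F n (m : ℤ) p M W a₀) (a : ℤ) : FineDx576.Off m F (W a) := H.off a











end polygon

/-! ### below a gate -/

/-- points of the cell on the right of an edge -/
theorem right_cell {F : Set V} {P D : V} (hD : U4 D) (hc : rc P (P + D) ∈ F) {δ u v : ℝ}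
    (hδ : 0 ≤ δ) (u0 : 0 ≤ u) (u1 : u ≤ 1) (v0 : 0 ≤ v) (v1 : v ≤ 1) :
    (δ : ℂ) * (cz P + u * cz D - v * (Complex.I * cz D)) ∈ Pg δ F := by
  have b1 : 0 ≤ δ * u := mul_nonneg hδ u0
  have b2 : δ * u ≤ δ := mul_le_of_le_one_right hδ u1
  have b3 : 0 ≤ δ * v := mul_nonneg hδ v0
  have b4 : δ * v ≤ δ := mul_le_of_le_one_right hδ v1
  rw [Pg, mem_iUnion₂]
  refine ⟨_, hc, ?_⟩
  obtain ⟨P1, P2⟩ := P
  rcases hD with rfl | rfl | rfl | rfl
  · have e : rc (P1, P2) ((P1, P2) + (1, 0)) = (P1, P2 - 1) := by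
      unfold rc; ext <;> simp only [Prod.mk_add_mk] <;> omega
    rw [e]
    simp only [Crest.Agent.R158.Sp896.sq, cz, mem_ofPred_eq]
    simp
    refine ⟨?_, ?_, ?_, ?_⟩ <;> linarith
  · have e : rc (P1, P2) ((P1, P2) + (0, 1)) = (P1, P2) := by
      unfold rc; ext <;> simp only [Prod.mk_add_mk] <;> omega
    rw [e]
    simp only [Crest.Agent.R158.Sp896.sq, cz, mem_ofPred_eq]
    simp
    refine ⟨?_, ?_, ?_, ?_⟩ <;> linarith
  · have e : rc (P1, P2) ((P1, P2) + (-1, 0)) = (P1 - 1, P2) := by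
      unfold rc; ext <;> simp only [Prod.mk_add_mk] <;> omega
    rw [e]
    simp only [Crest.Agent.R158.Sp896.sq, cz, mem_ofPred_eq]
    simp
    refine ⟨?_, ?_, ?_, ?_⟩ <;> linarith
  · have e : rc (P1, P2) ((P1, P2) + (0, -1)) = (P1 - 1, P2 - 1) := by
      unfold rc; ext <;> simp only [Prod.mk_add_mk] <;> omega
    rw [e]
    simp only [Crest.Agent.R158.Sp896.sq, cz, mem_ofPred_eq]
    simp
    refine ⟨?_, ?_, ?_, ?_⟩ <;> linarith

/-- a point in the frame of a gate -/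
theorem frame_eq (hW : FPath M W) (a : ℤ) (s : ℂ) :
    s = gz h W a + ((X (gz h W a) (ge W a) s : ℝ) + (Y (gz h W a) (ge W a) s : ℝ) * Complex.I) *
      ge W a := by
  have h1 := RegBx523.ge_ne hW a
  have h2 : (((X (gz h W a) (ge W a) s : ℝ) : ℂ) + (Y (gz h W a) (ge W a) s : ℝ) * Complex.I) =
      (s - gz h W a) / ge W a := by
    unfold X Y
    exact Complex.re_add_im _
  rw [h2, div_mul_cancel₀ _ h1]
  ring

theorem cz_add (u v : ℤ × ℤ) : cz (u + v) = cz u + cz v := by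
  apply Complex.ext <;> simp [cz]

theorem cz_ro (D : V) : cz (ro D) = Complex.I * cz D := by
  apply Complex.ext <;> simp [cz, ro]

theorem cz_zsmul (t : ℤ) (D : V) : cz (t • D) = (t : ℂ) * cz D := by
  apply Complex.ext <;> simp [cz]

/-- the gates in terms of the coarse walk: `gz = h (m p k + i D + (t + 1/2) D)`, `-1 ≤ t ≤ m` -/
theorem gate_exact {m : ℤ} {F : Set V} {n : ℕ} {p : ℤ → V} {a₀ : ℤ → ℤ}
    (H : Fine F n m p M W a₀) (h : ℝ) (a : ℤ) : ∃ (k t : ℤ), a₀ k ≤ a - 1 ∧ a ≤ a₀ (k + 1) ∧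
      -1 ≤ t ∧ t ≤ m ∧ ge W a = cz (p (k + 1) - p k) ∧
      gz h W a = (h : ℂ) * (m * cz (p k) + Complex.I * ge W a + (t + 1 / 2) * ge W a) := by
  obtain ⟨k, h1, h2⟩ := H.loc (a - 1)
  obtain ⟨t, t0, t1, e1⟩ := H.exact k (a - 1) h1 h2.le
  obtain ⟨t', t0', t1', e1'⟩ := H.exact k a (by omega) (by omega)
  have e2 := H.step k (a - 1) h1 h2
  rw [sub_add_cancel] at e2
  have e3 : W a = W (a - 1) + (p (k + 1) - p k) := by rw [← e2]; abel
  have hD := H.cl.step k
  have e4 : t' = t + 1 := by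
    rw [e1', e1] at e3
    unfold Adj at hD
    simp only [Prod.ext_iff, Prod.fst_add, Prod.snd_add, Prod.smul_fst, Prod.smul_snd, Prod.fst_sub,
      Prod.snd_sub, smul_eq_mul] at e3
    obtain ⟨q1, q2⟩ := e3
    rcases hD with ⟨d1, d2⟩ | ⟨d1, d2⟩ | ⟨d1, d2⟩ | ⟨d1, d2⟩
    · rw [d1, add_sub_cancel_left] at q1; omega
    · rw [d1, sub_sub_cancel_left] at q1; omega
    · rw [d2, add_sub_cancel_left] at q2; omega
    · rw [d2, sub_sub_cancel_left] at q2; omega
  have e5 : ge W a = cz (p (k + 1) - p k) := by unfold ge; rw [e2]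
  refine ⟨k, t, h1, by omega, t0, by omega, e5, ?_⟩
  unfold gz
  rw [e5, e3, cz_add, e1]
  simp only [cz_add, cz_zsmul, cz_ro]
  ring

/-- clamping -/
theorem clamp {x L c : ℝ} (hc : 0 ≤ c) (hL : 0 ≤ L) (h1 : -c ≤ x) (h2 : x ≤ L + c) :
    ∃ y, 0 ≤ y ∧ y ≤ L ∧ |x - y| ≤ c := by
  refine ⟨max 0 (min x L), le_max_left _ _, max_le hL (min_le_right _ _), ?_⟩
  rw [abs_le]
  rcases le_total x L with a1 | a1
  · rw [min_eq_left a1]
    rcases le_total 0 x with a2 | a2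
    · rw [max_eq_right a2]; constructor <;> linarith
    · rw [max_eq_left a2]; constructor <;> linarith
  · rw [min_eq_right a1, max_eq_right hL]; constructor <;> linarith

/-- **the points below a gate** are near the polygon (sup distance) -/
theorem bot {m : ℕ} {F : Set V} {n : ℕ} {p : ℤ → V} {a₀ : ℤ → ℤ}
    (H : Fine F n (m : ℤ) p M W a₀) (hm : 0 < m) (hh : 0 < h) {a : ℤ} {s : ℂ} {r : ℝ}
    (hX : h / 2 + |X (gz h W a) (ge W a) s| ≤ r)
    (hY0 : -(h * (m + 1)) - r ≤ Y (gz h W a) (ge W a) s)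
    (hY : h + Y (gz h W a) (ge W a) s ≤ r) : s ∈ Kin r (Pg (m * h) F) := by
  obtain ⟨k, t, -, -, t0, t1, e1, e2⟩ := gate_exact H h a
  have hs := frame_eq (h := h) H.fpath a s
  set x := X (gz h W a) (ge W a) s with hx
  set y := Y (gz h W a) (ge W a) s with hy
  have hm' : (0 : ℝ) < m := by exact_mod_cast hm
  have hδ : 0 < (m : ℝ) * h := by positivity
  have hr0 : 0 ≤ r := by linarith [abs_nonneg x]
  have hab := abs_le.1 (show |x| ≤ r - h / 2 by linarith)
  have t0' : (-1 : ℝ) ≤ t := by exact_mod_cast t0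
  have t1' : (t : ℝ) ≤ m := by exact_mod_cast t1
  have k1 : h * t ≤ h * m := mul_le_mul_of_nonneg_left t1' hh.le
  have k0 : h * (-1) ≤ h * t := mul_le_mul_of_nonneg_left t0' hh.le
  obtain ⟨u, u0, u1, hu⟩ := clamp (x := h * (t + 1 / 2) + x) (L := m * h) (c := r) hr0 hδ.le
    (by linarith) (by linarith)
  obtain ⟨v, v0, v1, hv⟩ := clamp (x := -(h + y)) (L := m * h) (c := r) hr0 hδ.le
    (by linarith) (by linarith)
  have hU : U4 (p (k + 1) - p k) := Finex422.adj_un (H.cl.step k)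
  have hP : p k + (p (k + 1) - p k) = p (k + 1) := by abel
  have hc : rc (p k) (p k + (p (k + 1) - p k)) ∈ F := by rw [hP]; exact H.cl.right k
  have hmem := right_cell (δ := m * h) (u := u / (m * h)) (v := v / (m * h)) hU hc hδ.le
    (by positivity) (by rw [div_le_one hδ]; exact u1) (by positivity)
    (by rw [div_le_one hδ]; exact v1)
  refine ⟨_, hmem, ?_⟩
  have hne1 : (m : ℂ) ≠ 0 := by exact_mod_cast hm'.ne'
  have hne2 : (h : ℂ) ≠ 0 := by exact_mod_cast hh.ne'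
  have e3 : s - (((m : ℝ) * h : ℝ) : ℂ) * (cz (p k) + ((u / (m * h) : ℝ) : ℂ) *
      cz (p (k + 1) - p k) - ((v / (m * h) : ℝ) : ℂ) * (Complex.I * cz (p (k + 1) - p k))) =
      (((h * (t + 1 / 2) + x - u : ℝ) : ℂ) + ((h + y + v : ℝ) : ℂ) * Complex.I) *
        cz (p (k + 1) - p k) := by
    conv_lhs => rw [hs]
    rw [e2, e1]
    push_cast
    field_simp
    ring
  rw [← Complex.sub_re, ← Complex.sub_im, e3]
  have hv' : |h + y + v| ≤ r := by
    rw [show h + y + v = -(-(h + y) - v) by ring, abs_neg]; exact hv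
  generalize h * (t + 1 / 2) + x - u = q1 at hu ⊢
  generalize h + y + v = q2 at hv' ⊢
  rcases hU with hU | hU | hU | hU <;> rw [hU] <;> simp [cz, hu, hv']

/-- the vertical wall below a gate -/
theorem wl_bot {m : ℕ} {F : Set V} {n : ℕ} {p : ℤ → V} {a₀ : ℤ → ℤ}
    (H : Fine F n (m : ℤ) p M W a₀) (hm : 0 < m) (hh : 0 < h) (a : ℤ) {t r : ℝ}
    (hr : h / 2 ≤ r) (ht0 : -h ≤ t) (ht : h + t ≤ r) :
    Idxx927.wl (gz h W a) (ge W a) t ∈ Kin r (Pg (m * h) F) := by
  have h1 := RegBx523.ge_ne H.fpath a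
  have e1 : X (gz h W a) (ge W a) (Idxx927.wl (gz h W a) (ge W a) t) = 0 := Idxx927.X_wl h1 t
  have e2 : Y (gz h W a) (ge W a) (Idxx927.wl (gz h W a) (ge W a) t) = t := Idxx927.Y_wl h1 t
  refine bot H hm hh (a := a) ?_ ?_ ?_
  · rw [e1, abs_zero]; linarith
  · rw [e2]
    have : 0 ≤ h * (m : ℝ) := by positivity
    linarith
  · rw [e2]; exact ht

/-! ### strict form -/

theorem Arm_shrink {c u s : ℂ} (hs : s ∈ Arm A B c u) : ∃ A' < A, s ∈ Arm A' B c u := by
  obtain ⟨⟨h1, h2⟩, h3⟩ := hs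
  refine ⟨(max (-X c u s) |Y c u s| + A) / 2, ?_, ⟨⟨?_, h2⟩, ?_⟩⟩
  · have : max (-X c u s) |Y c u s| < A := max_lt (by linarith) h3
    linarith
  · have g1 : max (-X c u s) |Y c u s| < A := max_lt (by linarith) h3
    have g2 := le_max_left (-X c u s) |Y c u s|
    linarith
  · have g1 : max (-X c u s) |Y c u s| < A := max_lt (by linarith) h3
    have g2 := le_max_right (-X c u s) |Y c u s|
    linarith

theorem RR_shrink {a : ℤ} {s : ℂ} (hs : s ∈ RR A B h W a) : ∃ A' < A, s ∈ RR A' B h W a := by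
  rcases hs with hs | hs
  · obtain ⟨A', h1, h2⟩ := Arm_shrink hs
    exact ⟨A', h1, Or.inl h2⟩
  · obtain ⟨A', h1, h2⟩ := Arm_shrink hs
    exact ⟨A', h1, Or.inr h2⟩

/-- **the tiles do not meet the thickening of radius `h - A`** -/
theorem RR_Kin {m : ℕ} {F : Set V} {n : ℕ} {p : ℤ → V} {a₀ : ℤ → ℤ}
    (H : Fine F n (m : ℤ) p M W a₀) (hm : 0 < m) (hh : 0 < h) (hB : 0 ≤ B)
    (hBh : B ≤ h) {r : ℝ} (hr : r ≤ h - A) {a : ℤ} {s : ℂ} (hs : s ∈ RR A B h W a) :
    s ∉ Kin r (Pg (m * h) F) := by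
  obtain ⟨A', h1, h2⟩ := RR_shrink hs
  rintro ⟨x, hx, h3, h4⟩
  rcases FineDx576.RR_far H.fpath (off_bridge H) hm hh hB hBh h2 hx with h5 | h5 <;> linarith


end Crest.Agent.R143.RegEx523
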