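import Crest.Agent.R143.Frame3_395

/-!
# Row 143 (S0194), part B without E3: locality of lobes (helper592)

* `dual` : in a closed map with `ex` (genus 0) a set of edges which is orthogonal to all even
  configurations is a sum of boundaries of faces
* `noncross` : the visits of the left cells along a loop do not cross
* `lobe` : if a loop visits the same left cell `c` at two times, the relation `Rel` between the gaps
  visited in between is determined by the arc between these two times
-/

set_option autoImplicit false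

noncomputable section

open scoped Classical

namespace Crest.Agent.R143.NonXx592

open Crest.Agent.R143.Frame1x395 Crest.Agent.R143.Frame2x395 Crest.Agent.R143.Frame3x395

variable {D C : Type} {M : CMap D C} {x : D → ZMod 2}

theorem z2 : ∀ a : ZMod 2, a + a = 0 := by decide

/-- the conditions of an even configuration as a linear map -/
def Tm (M : CMap D C) :
    (D → ZMod 2) →ₗ[ZMod 2] ((D → ZMod 2) × (D → ZMod 2) × (D → ZMod 2)) where
  toFun y := (fun d => if d ∈ M.live then 0 else y d, fun d => y (M.iota d) + y d,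
    fun d => y d + y (M.rho d) + y (M.rho (M.rho d)))
  map_add' a b := by
    refine Prod.ext ?_ (Prod.ext ?_ ?_)
    · funext d
      show (if d ∈ M.live then (0 : ZMod 2) else a d + b d) =
        (if d ∈ M.live then 0 else a d) + (if d ∈ M.live then 0 else b d)
      split_ifs <;> simp
    · funext d
      show a (M.iota d) + b (M.iota d) + (a d + b d) = (a (M.iota d) + a d) + (b (M.iota d) + b d)
      ring
    · funext d
      show (a d + b d) + (a (M.rho d) + b (M.rho d)) + (a (M.rho (M.rho d)) + b (M.rho (M.rho d))) =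
        (a d + a (M.rho d) + a (M.rho (M.rho d))) + (b d + b (M.rho d) + b (M.rho (M.rho d)))
      ring
  map_smul' r a := by
    refine Prod.ext ?_ (Prod.ext ?_ ?_)
    · funext d
      show (if d ∈ M.live then (0 : ZMod 2) else r * a d) = r * (if d ∈ M.live then 0 else a d)
      split_ifs <;> simp
    · funext d
      show r * a (M.iota d) + r * a d = r * (a (M.iota d) + a d)
      ring
    · funext d
      show r * a d + r * a (M.rho d) + r * a (M.rho (M.rho d)) =
        r * (a d + a (M.rho d) + a (M.rho (M.rho d)))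
      ring

theorem ker_isC {y : D → ZMod 2} (hy : Tm M y = 0) : IsC M ∅ y := by
  have h1 : (fun d => if d ∈ M.live then (0 : ZMod 2) else y d) = 0 := congrArg Prod.fst hy
  have h2 : (fun d => y (M.iota d) + y d) = 0 := congrArg (fun z => z.2.1) hy
  have h3 : (fun d => y d + y (M.rho d) + y (M.rho (M.rho d))) = 0 :=
    congrArg (fun z => z.2.2) hy
  refine ⟨fun d hd => ?_, fun d => ?_, fun d => ?_⟩
  · have := congrFun h1 d
    simpa [hd] using this
  · have := congrFun h2 d
    have h4 : y (M.iota d) + y d = 0 := this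
    revert h4
    generalize y (M.iota d) = a
    generalize y d = b
    revert a b; decide
  · rw [if_neg (Set.notMem_empty d)]
    exact congrFun h3 d

/-- **duality** -/
theorem dual [Fintype D] (M : CMap D C) (Z : D → ZMod 2)
    (hZ : ∀ y, IsC M ∅ y → ∑ d, Z d * y d = 0) :
    ∃ ψ : D → ZMod 2, (∀ d, ψ (M.rho d) = ψ d) ∧
      ∀ d ∈ M.live, Z d + Z (M.iota d) = ψ d + ψ (M.iota d) := by
  let φ : Module.Dual (ZMod 2) (D → ZMod 2) :=
    ∑ d, Z d • LinearMap.proj (R := ZMod 2) (φ := fun _ : D => ZMod 2) d
  have hφ : ∀ y : D → ZMod 2, φ y = ∑ d, Z d * y d := by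
    intro y
    simp [φ, LinearMap.sum_apply, smul_eq_mul]
  have hmem : φ ∈ (LinearMap.ker (Tm M)).dualAnnihilator := by
    rw [Submodule.mem_dualAnnihilator]
    intro y hy
    rw [hφ]
    exact hZ y (ker_isC (LinearMap.mem_ker.1 hy))
  rw [← LinearMap.range_dualMap_eq_dualAnnihilator_ker] at hmem
  obtain ⟨g, hg⟩ := hmem
  have hg' : ∀ y, g (Tm M y) = ∑ d, Z d * y d := by
    intro y
    rw [← hφ, ← hg]
    rfl
  let β : D → ZMod 2 := fun d => g (0, Pi.single d 1, 0)
  let γ : D → ZMod 2 := fun d => g (0, 0, Pi.single d 1)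
  have key : ∀ d ∈ M.live, Z d = (β (M.iota d) + β d) + (γ d + γ (M.rho (M.rho d)) + γ (M.rho d)) := by
    intro d hd
    have h1 := hg' (Pi.single d 1)
    have h2 : ∑ e, Z e * (Pi.single d 1 : D → ZMod 2) e = Z d := by
      rw [Finset.sum_eq_single d]
      · simp
      · intro e _ he
        simp [Pi.single_eq_of_ne he]
      · intro h; exact absurd (Finset.mem_univ d) h
    rw [h2] at h1
    rw [← h1]
    have h3 : Tm M (Pi.single d 1) = (0, Pi.single (M.iota d) 1, 0) + (0, Pi.single d 1, 0) +
        ((0, 0, Pi.single d 1) + (0, 0, Pi.single (M.rho (M.rho d)) 1) +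
          (0, 0, Pi.single (M.rho d) 1)) := by
      refine Prod.ext ?_ (Prod.ext ?_ ?_)
      · funext e
        show (if e ∈ M.live then (0 : ZMod 2) else (Pi.single d 1 : D → ZMod 2) e) = _
        by_cases he : e ∈ M.live
        · simp [he]
        · have : e ≠ d := fun hc => he (hc ▸ hd)
          simp [he, Pi.single_eq_of_ne this]
      · funext e
        show (Pi.single d 1 : D → ZMod 2) (M.iota e) + (Pi.single d 1 : D → ZMod 2) e = _
        have h4 : (Pi.single d 1 : D → ZMod 2) (M.iota e) =
            (Pi.single (M.iota d) 1 : D → ZMod 2) e := by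
          by_cases he : e = M.iota d
          · rw [he, M.iota2]; simp
          · have : M.iota e ≠ d := fun hc => he (by rw [← hc, M.iota2])
            rw [Pi.single_eq_of_ne this, Pi.single_eq_of_ne he]
        rw [h4]
        simp
      · funext e
        show (Pi.single d 1 : D → ZMod 2) e + (Pi.single d 1 : D → ZMod 2) (M.rho e) +
          (Pi.single d 1 : D → ZMod 2) (M.rho (M.rho e)) = _
        have h4 : (Pi.single d 1 : D → ZMod 2) (M.rho e) =
            (Pi.single (M.rho (M.rho d)) 1 : D → ZMod 2) e := by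
          by_cases he : e = M.rho (M.rho d)
          · rw [he, M.rho3]; simp
          · have : M.rho e ≠ d := fun hc => he (by rw [← hc, M.rho3])
            rw [Pi.single_eq_of_ne this, Pi.single_eq_of_ne he]
        have h5 : (Pi.single d 1 : D → ZMod 2) (M.rho (M.rho e)) =
            (Pi.single (M.rho d) 1 : D → ZMod 2) e := by
          by_cases he : e = M.rho d
          · rw [he, M.rho3]; simp
          · have : M.rho (M.rho e) ≠ d := fun hc => he (by rw [← hc, M.rho3])
            rw [Pi.single_eq_of_ne this, Pi.single_eq_of_ne he]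
        rw [h4, h5]
        simp
    rw [h3, map_add, map_add, map_add, map_add]
  refine ⟨fun d => γ d + γ (M.rho d) + γ (M.rho (M.rho d)), fun d => ?_, fun d hd => ?_⟩
  · show γ (M.rho d) + γ (M.rho (M.rho d)) + γ (M.rho (M.rho (M.rho d))) = _
    rw [M.rho3]; ring
  · rw [key d hd, key _ (M.iota_live d hd), M.iota2]
    show β (M.iota d) + β d + (γ d + γ (M.rho (M.rho d)) + γ (M.rho d)) +
      (β d + β (M.iota d) + (γ (M.iota d) + γ (M.rho (M.rho (M.iota d))) + γ (M.rho (M.iota d)))) =
      γ d + γ (M.rho d) + γ (M.rho (M.rho d)) +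
      (γ (M.iota d) + γ (M.rho (M.iota d)) + γ (M.rho (M.rho (M.iota d))))
    have e1 := z2 (β (M.iota d))
    have e2 := z2 (β d)
    linear_combination e1 + e2


/-! ### noncrossing -/

/-- the states of the walker -/
abbrev P (M : CMap D C) (x : D → ZMod 2) (p : D) (n : ℕ) : D := (stp M x)^[n] p

theorem P_succ (p : D) (n : ℕ) : P M x p (n + 1) = stp M x (P M x p n) :=
  Function.iterate_succ_apply' _ _ _

/-- the right cell of a state -/
abbrev Rc (M : CMap D C) (d : D) : C := M.cell (M.rho d)

theorem P_occ (h : IsC M ∅ x) {p : D} (hp : x p = 1) (n : ℕ) : x (P M x p n) = 1 := occ_it h hp n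

/-- right cells: either the same, or adjacent through an unoccupied side -/
theorem right_cases (h : IsC M ∅ x) {p : D} (hp : x p = 1) (n : ℕ) :
    (x (M.rho (P M x p n)) = 1 ∧ Rc M (P M x p (n + 1)) = Rc M (P M x p n)) ∨
    (x (M.rho (P M x p n)) = 0 ∧
      Rc M (P M x p (n + 1)) = M.cell (M.rho (M.rho (P M x p n)))) := by
  have hn := P_occ h hp n
  rcases stp_cases h hn (Set.notMem_empty _) with ⟨h1, h2, e⟩ | ⟨h1, h2, e⟩
  · left
    refine ⟨h1, ?_⟩
    rw [P_succ, e]
    exact cell_rho_iota M (h.lv h1)
  · right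
    refine ⟨h1, ?_⟩
    rw [P_succ, e]
    exact cell_rho_iota M (h.lv h2)

/-- **noncrossing**: a loop which visits on its left the cells `c, w, c, w` has `c = w` -/
theorem noncross [Finite D] (h : IsC M ∅ x) {p : D} (hp : x p = 1) {k j l : ℕ} (h0k : 0 < k)
    (hkj : k < j) (hjl : j < l) (hinj : ∀ a b, a < b → b ≤ l → P M x p a ≠ P M x p b)
    (hc : M.cell (P M x p j) = M.cell p) (hw : M.cell (P M x p k) = M.cell (P M x p l)) :
    M.cell (P M x p k) = M.cell p := by
  by_contra hne
  have := Fintype.ofFinite D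
  -- the colouring
  obtain ⟨χ, hχ⟩ := M.ex x h.dead h.iot
    (fun d => by rw [h.par d, if_neg (Set.notMem_empty d)])
  have hχ0 : ∀ d, x d = 0 → χ (M.cell d) = χ (M.cell (M.rho d)) := by
    intro d hd
    rw [hχ d] at hd
    revert hd
    generalize χ (M.cell d) = a
    generalize χ (M.cell (M.rho d)) = b
    revert a b; decide
  have hχ1 : ∀ d, x d = 1 → χ (M.cell d) ≠ χ (M.cell (M.rho d)) := by
    intro d hd
    rw [hχ d] at hd
    revert hd
    generalize χ (M.cell d) = a
    generalize χ (M.cell (M.rho d)) = b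
    revert a b; decide
  have hL : ∀ n, χ (M.cell (P M x p n)) = χ (M.cell p) := it_col h hp hχ0
  have hLR : ∀ m n, Rc M (P M x p m) ≠ M.cell (P M x p n) := by
    intro m n e
    have h1 := hχ1 _ (P_occ h hp m)
    have h2 : χ (M.cell (M.rho (P M x p m))) = χ (M.cell (P M x p n)) := congrArg χ e
    rw [h2, hL, hL] at h1
    exact h1 rfl
  have hrev : ∀ m n, M.iota (P M x p m) ≠ P M x p n := by
    intro m n e
    have h1 := M.cell_iota _ (h.lv (P_occ h hp m))
    rw [e] at h1
    exact hLR m n h1.symm
  -- the dual cycle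
  set Z : D → ZMod 2 := fun d => (if d = P M x p 0 then 1 else 0) + (if d = P M x p j then 1 else 0) +
    ∑ n ∈ Finset.range j, (if x (M.rho (P M x p n)) = 0 ∧ d = M.rho (P M x p n) then 1 else 0)
    with hZdef
  have hpair : ∀ y, IsC M ∅ y → ∑ d, Z d * y d = 0 := by
    intro y hy
    obtain ⟨η, hη⟩ := M.ex y hy.dead hy.iot
      (fun d => by rw [hy.par d, if_neg (Set.notMem_empty d)])
    have s1 : ∀ q : D, ∑ d, (if d = q then (1 : ZMod 2) else 0) * y d = y q := by
      intro q
      rw [Finset.sum_eq_single q]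
      · simp
      · intro b _ hb; simp [hb]
      · intro hq; exact absurd (Finset.mem_univ q) hq
    have s2 : ∀ n, ∑ d, (if x (M.rho (P M x p n)) = 0 ∧ d = M.rho (P M x p n)
        then (1 : ZMod 2) else 0) * y d = η (Rc M (P M x p n)) + η (Rc M (P M x p (n + 1))) := by
      intro n
      rcases right_cases h hp n with ⟨h1, h2⟩ | ⟨h1, h2⟩
      · rw [h2, z2]
        apply Finset.sum_eq_zero
        intro d _
        rw [if_neg, zero_mul]
        rintro ⟨h3, -⟩
        rw [h1] at h3
        exact absurd h3 (by decide)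
      · rw [h2]
        have e : ∑ d, (if x (M.rho (P M x p n)) = 0 ∧ d = M.rho (P M x p n)
            then (1 : ZMod 2) else 0) * y d = y (M.rho (P M x p n)) := by
          rw [← s1]
          refine Finset.sum_congr rfl fun d _ => ?_
          simp [h1]
        rw [e, hη]
    have s3 : ∀ m, ∑ n ∈ Finset.range m, (η (Rc M (P M x p n)) + η (Rc M (P M x p (n + 1)))) =
        η (Rc M (P M x p 0)) + η (Rc M (P M x p m)) := by
      intro m
      induction m with
      | zero => rw [Finset.sum_range_zero, z2]
      | succ m ih =>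
        rw [Finset.sum_range_succ, ih]
        have := z2 (η (Rc M (P M x p m)))
        linear_combination this
    have s4 : ∑ d, Z d * y d = (y (P M x p 0) + y (P M x p j)) +
        ∑ n ∈ Finset.range j, (η (Rc M (P M x p n)) + η (Rc M (P M x p (n + 1)))) := by
      rw [← s1 (P M x p 0), ← s1 (P M x p j), ← Finset.sum_congr rfl fun n _ => s2 n,
        Finset.sum_comm, ← Finset.sum_add_distrib, ← Finset.sum_add_distrib]
      refine Finset.sum_congr rfl fun d _ => ?_
      rw [hZdef]
      simp only
      rw [add_mul, add_mul, Finset.sum_mul]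
    rw [s4, s3, hη (P M x p 0), hη (P M x p j), hc]
    have e1 := z2 (η (M.cell p))
    have e2 := z2 (η (Rc M (P M x p 0)))
    have e3 := z2 (η (Rc M (P M x p j)))
    show η (M.cell p) + η (Rc M (P M x p 0)) + (η (M.cell p) + η (Rc M (P M x p j))) +
      (η (Rc M (P M x p 0)) + η (Rc M (P M x p j))) = 0
    linear_combination e1 + e2 + e3
  obtain ⟨ψ, hψr, hψ⟩ := dual M Z hpair
  -- `ψ` along the loop
  have hZocc : ∀ d, x d = 1 → Z d = (if d = P M x p 0 then 1 else 0) +
      (if d = P M x p j then 1 else 0) := by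
    intro d hd
    rw [hZdef]
    simp only
    rw [Finset.sum_eq_zero, add_zero]
    intro n _
    rw [if_neg]
    rintro ⟨h1, rfl⟩
    rw [hd] at h1
    exact absurd h1 (by decide)
  have hstep : ∀ n, n + 1 ≤ l → ψ (P M x p (n + 1)) = ψ (P M x p n) +
      (if n + 1 = j then 1 else 0) := by
    intro n hn
    have x1 := P_occ h hp (n + 1)
    have h1 := hψ _ (h.lv x1)
    have h2 : ψ (M.iota (P M x p (n + 1))) = ψ (P M x p n) := by
      rcases stp_cases h (P_occ h hp n) (Set.notMem_empty _) with ⟨-, -, e⟩ | ⟨-, -, e⟩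
      · rw [P_succ, e, M.iota2, hψr]
      · rw [P_succ, e, M.iota2, hψr, hψr]
    have h3 : Z (M.iota (P M x p (n + 1))) = 0 := by
      rw [hZocc _ (by rw [h.iot]; exact x1), if_neg (hrev _ _), if_neg (hrev _ _), add_zero]
    have h4 : Z (P M x p (n + 1)) = if n + 1 = j then 1 else 0 := by
      rw [hZocc _ x1, if_neg (fun e => hinj 0 (n + 1) (Nat.succ_pos n) hn e.symm), zero_add]
      by_cases hnj : n + 1 = j
      · rw [if_pos hnj, if_pos (by rw [hnj])]
      · rw [if_neg hnj, if_neg]
        intro e
        rcases lt_or_gt_of_ne hnj with hl | hl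
        · exact hinj _ _ hl hjl.le e
        · exact hinj _ _ hl hn e.symm
    rw [h3, h4, add_zero, h2] at h1
    have := z2 (ψ (P M x p n))
    linear_combination -h1 - this
  have hb : ∀ n, n < j → ψ (P M x p n) = ψ (P M x p 0) := by
    intro n
    induction n with
    | zero => intro _; rfl
    | succ n ih =>
      intro hn
      rw [hstep n (by omega), if_neg (by omega), add_zero, ih (by omega)]
  have ha : ∀ n, n ≤ l → j ≤ n → ψ (P M x p n) = ψ (P M x p 0) + 1 := by
    intro n
    induction n with
    | zero => intro _ h1; omega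
    | succ n ih =>
      intro hn hjn
      rw [hstep n hn]
      by_cases hnj : n + 1 = j
      · rw [if_pos hnj, hb n (by omega)]
      · rw [if_neg hnj, add_zero, ih (by omega) (by omega)]
  -- the configuration around `w`
  set w := M.cell (P M x p k) with hwdef
  set ind : C → ZMod 2 := fun c => if c = w then 1 else 0 with hind
  have indw : ind w = 1 := by rw [hind]; exact if_pos rfl
  have ind0 : ∀ c, c ≠ w → ind c = 0 := fun c hcw => by rw [hind]; exact if_neg hcw
  have hRw : ∀ n, Rc M (P M x p n) ≠ w := fun n => hLR n k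
  have hZ0 : ∀ d, Z d ≠ 0 → ind (M.cell d) = 0 ∧ ind (M.cell (M.rho d)) = 0 := by
    intro d hd
    by_cases d0 : d = P M x p 0
    · rw [d0]
      exact ⟨ind0 _ (fun e => hne e.symm), ind0 _ (hRw 0)⟩
    by_cases dj : d = P M x p j
    · rw [dj]
      exact ⟨ind0 _ (fun e => hne (by rw [← hc]; exact e.symm)), ind0 _ (hRw j)⟩
    have : ∃ n ∈ Finset.range j, (if x (M.rho (P M x p n)) = 0 ∧ d = M.rho (P M x p n)
        then (1 : ZMod 2) else 0) ≠ 0 := by
      by_contra hcon
      push Not at hcon
      apply hd
      rw [hZdef]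
      simp only
      rw [if_neg d0, if_neg dj, Finset.sum_eq_zero hcon]
      rfl
    obtain ⟨n, -, hn⟩ := this
    have hn2 : x (M.rho (P M x p n)) = 0 ∧ d = M.rho (P M x p n) := by
      by_contra hcon
      exact hn (if_neg hcon)
    rw [hn2.2]
    refine ⟨ind0 _ (hRw n), ?_⟩
    rcases right_cases h hp n with ⟨h1, -⟩ | ⟨-, h1⟩
    · rw [hn2.1] at h1
      exact absurd h1 (by decide)
    · rw [← h1]
      exact ind0 _ (hRw (n + 1))
  set y : D → ZMod 2 := fun d => (ind (M.cell d) + ind (M.cell (M.rho d))) * ψ d with hydef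
  have hy : IsC M ∅ y := by
    refine ⟨fun d hd => ?_, fun d => ?_, fun d => ?_⟩
    · show (ind (M.cell d) + ind (M.cell (M.rho d))) * ψ d = 0
      rw [M.dead d hd, z2, zero_mul]
    · show (ind (M.cell (M.iota d)) + ind (M.cell (M.rho (M.iota d)))) * ψ (M.iota d) =
        (ind (M.cell d) + ind (M.cell (M.rho d))) * ψ d
      by_cases hd : d ∈ M.live
      · rw [M.cell_iota d hd, cell_rho_iota M hd]
        rcases z01 (ind (M.cell d) + ind (M.cell (M.rho d))) with h0 | h1
        · rw [h0, add_comm, h0, zero_mul, zero_mul]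
        · have e1 : Z d = 0 := by
            by_contra hcon
            have := hZ0 d hcon
            rw [this.1, this.2] at h1
            exact absurd h1 (by decide)
          have e2 : Z (M.iota d) = 0 := by
            by_contra hcon
            have h3 := hZ0 _ hcon
            rw [M.cell_iota d hd, cell_rho_iota M hd] at h3
            rw [h3.1, h3.2] at h1
            exact absurd h1 (by decide)
          have h4 := hψ d hd
          rw [e1, e2, add_zero] at h4
          have h5 : ψ (M.iota d) = ψ d := by
            revert h4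
            generalize ψ d = a
            generalize ψ (M.iota d) = b
            revert a b; decide
          rw [h5, add_comm]
      · have hd' : M.iota d ∉ M.live := fun hc' => hd (by
          have := M.iota_live _ hc'
          rwa [M.iota2] at this)
        rw [M.dead d hd, M.dead _ hd', z2, z2, zero_mul, zero_mul]
    · rw [if_neg (Set.notMem_empty d)]
      show (ind (M.cell d) + ind (M.cell (M.rho d))) * ψ d +
        (ind (M.cell (M.rho d)) + ind (M.cell (M.rho (M.rho d)))) * ψ (M.rho d) +
        (ind (M.cell (M.rho (M.rho d))) + ind (M.cell (M.rho (M.rho (M.rho d))))) *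
          ψ (M.rho (M.rho d)) = 0
      rw [hψr (M.rho d), hψr d, M.rho3]
      have e1 := z2 (ind (M.cell d))
      have e2 := z2 (ind (M.cell (M.rho d)))
      have e3 := z2 (ind (M.cell (M.rho (M.rho d))))
      linear_combination ψ d * e1 + ψ d * e2 + ψ d * e3
  obtain ⟨η, hη⟩ := M.ex y hy.dead hy.iot
    (fun d => by rw [hy.par d, if_neg (Set.notMem_empty d)])
  have hRη : ∀ n, η (Rc M (P M x p (n + 1))) = η (Rc M (P M x p n)) := by
    intro n
    rcases right_cases h hp n with ⟨-, h2⟩ | ⟨h1, h2⟩
    · rw [h2]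
    · have h3 := hη (M.rho (P M x p n))
      have h4 : y (M.rho (P M x p n)) = 0 := by
        show (ind (M.cell (M.rho (P M x p n))) + ind (M.cell (M.rho (M.rho (P M x p n))))) * _ = 0
        rw [ind0 _ (hRw n), ← h2, ind0 _ (hRw (n + 1)), add_zero, zero_mul]
      rw [h4] at h3
      rw [h2]
      revert h3
      show 0 = η (Rc M (P M x p n)) + η (M.cell (M.rho (M.rho (P M x p n)))) →
        η (M.cell (M.rho (M.rho (P M x p n)))) = η (Rc M (P M x p n))
      generalize η (Rc M (P M x p n)) = a
      generalize η (M.cell (M.rho (M.rho (P M x p n)))) = b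
      revert a b; decide
  have hR0 : ∀ n, η (Rc M (P M x p n)) = η (Rc M (P M x p 0)) := by
    intro n
    induction n with
    | zero => rfl
    | succ n ih => rw [hRη, ih]
  have yk : y (P M x p k) = ψ (P M x p k) := by
    show (ind (M.cell (P M x p k)) + ind (Rc M (P M x p k))) * ψ (P M x p k) = _
    rw [← hwdef, indw, ind0 _ (hRw k), add_zero, one_mul]
  have yl : y (P M x p l) = ψ (P M x p l) := by
    show (ind (M.cell (P M x p l)) + ind (Rc M (P M x p l))) * ψ (P M x p l) = _
    rw [← hw, indw, ind0 _ (hRw l), add_zero, one_mul]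
  have f1 := hη (P M x p k)
  have f2 := hη (P M x p l)
  rw [yk, hb k hkj, ← hwdef] at f1
  rw [yl, ha l le_rfl hjl.le, ← hw] at f2
  have g1 : ψ (P M x p 0) = η w + η (Rc M (P M x p 0)) := by
    rw [f1]; show η w + η (Rc M (P M x p k)) = _; rw [hR0]
  have g2 : ψ (P M x p 0) + 1 = η w + η (Rc M (P M x p 0)) := by
    rw [f2]; show η w + η (Rc M (P M x p l)) = _; rw [hR0]
  rw [← g1] at g2
  have : (1 : ZMod 2) = 0 := by linear_combination g2
  exact absurd this (by decide)


/-! ### lobes -/

theorem P_add (p : D) (m n : ℕ) : P M x p (m + n) = P M x (P M x p n) m :=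
  Function.iterate_add_apply _ _ _ _

theorem P_per {p : D} {N : ℕ} (hN : P M x p N = p) (n : ℕ) : P M x p (n + N) = P M x p n := by
  rw [P_add, hN]

theorem out_eq (h : IsC M ∅ x) {p g : D} {a : ℕ} (hg : Gp M x g) (ga : M.rho g = P M x p a) :
    out M g = P M x p (a + 1) := by
  rw [P_succ, ← ga, hg.stp h]

/-- from the gap at time `a` to the gap at time `b` -/
theorem av_fwd (h : IsC M ∅ x) {p : D} {N : ℕ} (hinj : ∀ a b, a < b → b < N → P M x p a ≠ P M x p b)
    {a b : ℕ} (hab : a < b) (hbN : b < N) {g k : D} (hg : Gp M x g) (ga : M.rho g = P M x p a)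
    (kb : M.rho k = P M x p b) (c : C) :
    Av M x c (out M g) (M.rho k) ↔ ∀ u, a < u → u ≤ b → M.cell (P M x p u) ≠ c := by
  rw [out_eq h hg ga, kb]
  constructor
  · rintro ⟨n, h1, h2⟩ u hu1 hu2
    have h3 : P M x p (n + (a + 1)) = P M x p b := by rw [P_add]; exact h1
    have hn : b ≤ n + (a + 1) := by
      by_contra hcon
      exact hinj _ _ (not_le.1 hcon) hbN h3
    have h4 := h2 (u - (a + 1)) (by omega)
    rw [← show P M x p (u - (a + 1) + (a + 1)) = (stp M x)^[u - (a + 1)] (P M x p (a + 1)) from
      P_add p _ _, show u - (a + 1) + (a + 1) = u by omega] at h4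
    exact h4
  · intro H
    refine ⟨b - (a + 1), ?_, fun k hk => ?_⟩
    · show P M x (P M x p (a + 1)) (b - (a + 1)) = _
      rw [← P_add, show b - (a + 1) + (a + 1) = b by omega]
    · show M.cell (P M x (P M x p (a + 1)) k) ≠ c
      rw [← P_add]
      exact H _ (by omega) (by omega)

/-- from the gap at time `b` back to the gap at time `a` -/
theorem av_bwd (h : IsC M ∅ x) {p : D} {N : ℕ} (hN : P M x p N = p)
    (hinj : ∀ a b, a < b → b < N → P M x p a ≠ P M x p b)
    {a b : ℕ} (hab : a < b) (hbN : b < N) {g k : D} (hk : Gp M x k) (ga : M.rho g = P M x p a)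
    (kb : M.rho k = P M x p b) (c : C) :
    Av M x c (out M k) (M.rho g) ↔
      (∀ u, b < u → u < N → M.cell (P M x p u) ≠ c) ∧ ∀ u, u ≤ a → M.cell (P M x p u) ≠ c := by
  rw [out_eq h hk kb, ga]
  constructor
  · rintro ⟨n, h1, h2⟩
    have h3 : P M x p (n + (b + 1)) = P M x p a := by rw [P_add]; exact h1
    have hn : N + a ≤ n + (b + 1) := by
      by_contra hcon
      rcases lt_or_ge (n + (b + 1)) N with hl | hl
      · exact hinj a _ (by omega) hl h3.symm
      · have h5 : P M x p (n + (b + 1)) = P M x p (n + (b + 1) - N) := by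
          conv_lhs => rw [show n + (b + 1) = (n + (b + 1) - N) + N by omega]
          exact P_per hN _
        rw [h5] at h3
        exact hinj _ _ (by omega) (by omega) h3
    have h4 : ∀ u, b < u → u ≤ N + a → M.cell (P M x p u) ≠ c := by
      intro u hu1 hu2
      have h5 := h2 (u - (b + 1)) (by omega)
      rw [← show P M x p (u - (b + 1) + (b + 1)) = (stp M x)^[u - (b + 1)] (P M x p (b + 1)) from
        P_add p _ _, show u - (b + 1) + (b + 1) = u by omega] at h5
      exact h5
    refine ⟨fun u hu1 hu2 => h4 u hu1 (by omega), fun u hu => ?_⟩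
    have h5 := h4 (u + N) (by omega) (by omega)
    rwa [P_per hN] at h5
  · rintro ⟨H1, H2⟩
    refine ⟨N + a - (b + 1), ?_, fun k hk => ?_⟩
    · show P M x (P M x p (b + 1)) (N + a - (b + 1)) = _
      rw [← P_add, show N + a - (b + 1) + (b + 1) = a + N by omega, P_per hN]
    · show M.cell (P M x (P M x p (b + 1)) k) ≠ c
      rw [← P_add]
      rcases lt_or_ge (k + (b + 1)) N with hl | hl
      · exact H1 _ (by omega) hl
      · have h5 : P M x p (k + (b + 1)) = P M x p (k + (b + 1) - N) := by
          conv_lhs => rw [show k + (b + 1) = (k + (b + 1) - N) + N by omega]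
          exact P_per hN _
        rw [h5]
        exact H2 _ (by omega)



end Crest.Agent.R143.NonXx592
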