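import Crest.Agent.R143.Cross3_228
import Crest.Agent.R143.RingD_117
import Crest.Agent.R143.TileR0_228

-- ▼ part R143/PathD_503
section

/-!
# Row 143 (S0194): from gates and tile events to the ring of tubes (helper503)

Gates: 921's `NeckD` in the frames `(z0 k, e k)`, windows `a0 < X < a1`, `b0 < Y < b1`.
Tiles: 921's `Tile` (black link, white link) inside the regions `R k`.

* `GPath` : the geometry of the frames and the regions (no percolation)
* `Gts` : the gates and the black links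
* `GPath.ring` : **the ring of tubes `DRing` of helper117** (block H)
-/

set_option autoImplicit false

noncomputable section

open scoped Classical

namespace Crest.Agent.R143.PathDx503

open Crest.Agent.R143.B0x346 Crest.Agent.R143.DelGx806 Crest.Agent.R143.DelRx806
open Crest.Agent.R143.JColx54
open Crest.Agent.R143.ToolWx838 Crest.Agent.R143.Blkx838
open Crest.Agent.R143.Gatex838 Crest.Agent.R143.RingDx117 Crest.Agent.R143.Neckx921
open Crest.Agent.R143.Crossx228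
open Crest.Agent.R143.Frame1x395 Crest.Agent.R143.Frame2x395 Crest.Agent.R143.Frame3x395
  Crest.Agent.R143.Frame4x395 Crest.Agent.R143.Frame8x395 Crest.Agent.R143.Frame9x395
  Crest.Agent.R143.Frame10x395 Crest.Agent.R143.Frame11x395
open Crest.Agent.R143.Frame5x395 (sd mem_sd th th_spec)
open Crest.Agent.R143.Splx117 Crest.Agent.R143.WLocx713

variable {S V β : Finset ℂ} {χ : ℂ → ZMod 2}

/-- the window of a gate -/
def Win (z0 e : ℂ) (a0 a1 b0 b1 : ℝ) : Set ℂ :=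
  {s | (a0 < X z0 e s ∧ X z0 e s < a1) ∧ b0 < Y z0 e s ∧ Y z0 e s < b1}

/-! ### links -/

/-- a black link is a chain of one colour -/
theorem lk_stc {A R : Set ℂ} {b : ZMod 2} {u v : ℂ} (hA : ∀ s ∈ A, χ s = b) (hR : A ⊆ R)
    (h : Lk S A u v) : Relation.ReflTransGen (StC S χ R) u v :=
  Relation.ReflTransGen.mono (fun _ _ h => ⟨h.1, (hA _ h.2.1).trans (hA _ h.2.2).symm,
    hR h.2.1, hR h.2.2⟩) _ _ h.2

/-- the dart of a bichromatic neighbour pair -/
theorem sd_of (hχ : HullC S χ) {y x : ℂ} (h : DE S x y) (hc : χ y + χ x = 1) : (y, x) ∈ sd S := by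
  rcases h with ⟨c, h⟩ | ⟨c, h⟩
  · refine twin hχ (mem_sd.2 ⟨c, h⟩) ?_
    rw [add_comm]
    exact hc
  · exact mem_sd.2 ⟨c, h⟩

/-- the colours of the neck and of the last white site -/
theorem neck_col {z0 e : ℂ} {a0 a1 b0 b1 m : ℝ} {y x : ℂ} {b : ZMod 2}
    (hβ : ∀ s ∈ V, χ s = b ↔ s ∈ β) (h : NeckD S z0 e a0 a1 b0 b1 m V β y x) :
    χ y = b ∧ χ y + χ x = 1 := by
  obtain ⟨up, dn, h, rfl⟩ := h
  have hy : χ y = b := (hβ _ h.cy.1).2 h.cy.2
  have hx := h.cu _ (List.getLast_mem h.nu)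
  have hx' : χ (up.getLast h.nu) ≠ b := fun hc => hx.2 ((hβ _ hx.1).1 hc)
  refine ⟨hy, ?_⟩
  rw [hy]
  have key : ∀ b w : ZMod 2, w ≠ b → b + w = 1 := by decide
  exact key _ _ hx'

theorem neck_win {z0 e : ℂ} {a0 a1 b0 b1 m : ℝ} {y x : ℂ}
    (h : NeckD S z0 e a0 a1 b0 b1 m V β y x) : y ∈ Win z0 e a0 a1 b0 b1 := by
  obtain ⟨up, dn, h, -⟩ := h
  exact ⟨(h.win y (by simp)).1, h.yb⟩

theorem neck_sd {z0 e : ℂ} {a0 a1 b0 b1 m : ℝ} {y x : ℂ} {b : ZMod 2} (hχ : HullC S χ)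
    (hβ : ∀ s ∈ V, χ s = b ↔ s ∈ β) (h : NeckD S z0 e a0 a1 b0 b1 m V β y x) : (y, x) ∈ sd S := by
  have h1 := (neck_col hβ h).2
  obtain ⟨up, dn, h, rfl⟩ := h
  exact sd_of hχ h.de h1

/-! ### geometry -/

/-- geometry of the frames and the regions; `P k` : the tile `k` (from gate `k` to gate `k + 1`) is
in use; `m` bounds the steps -/
structure GPath (S : Finset ℂ) (P : ℕ → Prop) (z0 e : ℕ → ℂ) (R : ℕ → Set ℂ)
    (a0 a1 b0 b1 m : ℝ) : Prop where
  e0 : ∀ k, e k ≠ 0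
  near : ∀ k, P k → P (k + 1) → ∀ s ∈ S, (s ∈ R k ∨ s ∈ R (k + 1)) →
    a0 - m ≤ X (z0 (k + 1)) (e (k + 1)) s → X (z0 (k + 1)) (e (k + 1)) s ≤ a1 + m →
    b0 < Y (z0 (k + 1)) (e (k + 1)) s ∧ Y (z0 (k + 1)) (e (k + 1)) s < b1
  lt : ∀ k, P k → ∀ s ∈ Win (z0 k) (e k) a0 a1 b0 b1, X (z0 (k + 1)) (e (k + 1)) s ≤ a0
  gt : ∀ k, P k → ∀ s ∈ Win (z0 (k + 1)) (e (k + 1)) a0 a1 b0 b1, a1 ≤ X (z0 k) (e k) s
  step : ∀ k, P k → P (k + 1) → ∀ u v, DE S u v → (u ∈ R k ∨ u ∈ R (k + 1)) →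
    (v ∈ R k ∨ v ∈ R (k + 1)) → |X (z0 (k + 1)) (e (k + 1)) u - X (z0 (k + 1)) (e (k + 1)) v| ≤ m
  inn : ∀ k, P k → ∀ s ∈ S, s ∈ R k → ¬ OnHull S s

/-- **gates and black links** -/
structure Gts (S V β : Finset ℂ) (P : ℕ → Prop) (z0 e : ℕ → ℂ) (R : ℕ → Set ℂ)
    (a0 a1 b0 b1 m : ℝ) (y x : ℕ → ℂ) : Prop where
  gate : ∀ k, (P k ∨ ∃ j, k = j + 1 ∧ P j) → NeckD S (z0 k) (e k) a0 a1 b0 b1 m V β (y k) (x k)
  link : ∀ k, P k → Lk S {s | s ∈ β ∧ s ∈ R k} (y k) (y (k + 1))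

section

variable {P : ℕ → Prop} {z0 e : ℕ → ℂ} {R B : ℕ → Set ℂ} {a0 a1 b0 b1 m m' : ℝ} {y x : ℕ → ℂ}
  {b : ZMod 2}

theorem Gts.g0 (h : Gts S V β P z0 e R a0 a1 b0 b1 m y x) {k : ℕ} (hk : P k) :
    NeckD S (z0 k) (e k) a0 a1 b0 b1 m V β (y k) (x k) := h.gate k (Or.inl hk)

theorem Gts.g1 (h : Gts S V β P z0 e R a0 a1 b0 b1 m y x) {k : ℕ} (hk : P k) :
    NeckD S (z0 (k + 1)) (e (k + 1)) a0 a1 b0 b1 m V β (y (k + 1)) (x (k + 1)) :=
  h.gate (k + 1) (Or.inr ⟨k, rfl, hk⟩)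

/-- two consecutive necks are different -/
theorem Gts.ne (G : GPath S P z0 e R a0 a1 b0 b1 m') (h : Gts S V β P z0 e R a0 a1 b0 b1 m y x)
    {k : ℕ} (hk : P k) : y k ≠ y (k + 1) := by
  intro hc
  have h1 := G.lt k hk _ (neck_win (h.g0 hk))
  have h2 := (neck_win (h.g1 hk)).1.1
  rw [hc] at h1
  linarith

/-- the links are chains of one colour -/
theorem Gts.stc (hβ : ∀ s ∈ V, χ s = b ↔ s ∈ β) (hβV : β ⊆ V)
    (h : Gts S V β P z0 e R a0 a1 b0 b1 m y x) {k : ℕ} (hk : P k) :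
    Relation.ReflTransGen (StC S χ (R k)) (y k) (y (k + 1)) :=
  lk_stc (fun s hs => (hβ s (hβV hs.1)).2 hs.1) (fun _ hs => hs.2) (h.link k hk)

/-- every chain from `y k` to `y (k + 2)` inside the two tiles passes `y (k + 1)` -/
theorem Gts.crs (hS : GP (S : Set ℂ)) (hβ : ∀ s ∈ V, χ s = b ↔ s ∈ β)
    (G : GPath S P z0 e R a0 a1 b0 b1 m') (h : Gts S V β P z0 e R a0 a1 b0 b1 m y x) {k : ℕ}
    (hk : P k) (hk1 : P (k + 1)) :
    ¬ Relation.ReflTransGen (StR S χ (R k ∪ R (k + 1)) (y (k + 1))) (y k) (y (k + 2)) := by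
  have c1 := (neck_col hβ (h.g1 hk)).1
  refine neckD_cross_union (m := m') (h.g1 hk) hS (G.e0 _) (by rw [c1]; exact hβ)
    (fun s hs h1 => G.near k hk hk1 s hs (Or.inl h1))
    (fun s hs h1 => G.near k hk hk1 s hs (Or.inr h1)) (G.step k hk hk1)
    ((neck_col hβ (h.g0 hk)).1.trans c1.symm) (Or.inl ⟨?_, ?_⟩)
  · exact G.lt k hk _ (neck_win (h.g0 hk))
  · exact G.gt (k + 1) hk1 _ (neck_win (h.g1 hk1))

/-- **the ring of tubes** -/
theorem Gts.ring {hS : GP (S : Set ℂ)} {hχ : HullC S χ} {n : ℕ}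
    (hβ : ∀ s ∈ V, χ s = b ↔ s ∈ β) (hβV : β ⊆ V)
    (G : GPath S (fun _ => True) z0 e R a0 a1 b0 b1 m')
    (h : Gts S V β (fun _ => True) z0 e R a0 a1 b0 b1 m y x) (n3 : 3 ≤ n)
    (pery : ∀ k, y (k + n) = y k) (perx : ∀ k, x (k + n) = x k) (perR : ∀ k, R (k + n) = R k)
    (perB : ∀ k, B (k + n) = B k) (innB : ∀ k, ∀ v ∈ S, v ∈ B k → ¬ OnHull S v)
    (dis : ∀ k j, 2 ≤ j → j + 1 < n → Disjoint (R k) (R (k + j)))
    (far : ∀ k j, 2 ≤ j → j < n →
      Disjoint (Win (z0 (k + j)) (e (k + j)) a0 a1 b0 b1) (B k))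
    (conf : ∀ k (p q : D0 S), p.1 = (y k, x k) → q.1 = (y (k + 1), x (k + 1)) →
      FA (cm0 hS) (xc hS hχ) (RD S (B k)) p q ∨ FA (cm0 hS) (xc hS hχ) (RD S (B k)) q p) :
    DRing hS hχ n y x R B (fun k => ⟨(y k, x k), neck_sd hχ hβ (h.g0 trivial)⟩) where
  n3 := n3
  pery := pery
  perz := perx
  perA := perR
  perB := perB
  st := fun _ => rfl
  col := fun k => (neck_col hβ (h.g0 (k := k) trivial)).2
  innA := fun k => G.inn k trivial
  innB := innB
  link := fun _ => h.stc hβ hβV trivial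
  mem0 := fun k => (h.link k trivial).1.1.2
  mem1 := fun k => (h.link k trivial).1.2.2
  ne := fun _ => h.ne G trivial
  dis := dis
  far := fun k j h1 h2 h3 =>
    Set.disjoint_left.1 (far k j h1 h2) (neck_win (h.g0 (k := k + j) trivial)) h3
  cross := fun _ => h.crs hS hβ G trivial trivial
  conf := fun k => conf k _ _ rfl rfl

end

end Crest.Agent.R143.PathDx503
end
end

-- ▼ part R143/PathG_503

/-!
# Row 143 (S0194): frames along a fine path (helper503)

Coordinates of the gates and tiles of `TileR0_228.FPath` (`η` half width of the windows, `A` half width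
of the strips, `h` mesh, `m` bound of the steps).

* `arm_frame` : the arms in the frame of a gate
* `near`, `win_lt`, `win_gt` : the fields of `PathDx503.GPath`
* **`gpath`** : `GPath` for every fine path
-/

set_option autoImplicit false

noncomputable section

open scoped Classical

namespace Crest.Agent.R143.PathGx503

open Crest.Agent.R143.Gatex838 (X Y X_turn Y_turn)
open Crest.Agent.R143.TileRx228 Crest.Agent.R143.PathDx503

/-! ### coordinates -/

theorem X_neg (c u s : ℂ) : X c (-u) s = -X c u s := by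
  unfold X
  rw [div_neg, Complex.neg_re]

theorem Y_neg (c u s : ℂ) : Y c (-u) s = -Y c u s := by
  unfold Y
  rw [div_neg, Complex.neg_im]

theorem X_add {u : ℂ} (hu : u ≠ 0) (c s : ℂ) (t : ℝ) : X (c + t * u) u s = X c u s - t := by
  unfold X
  have : (s - (c + t * u)) / u = (s - c) / u - t := by
    field_simp
    ring
  rw [this, Complex.sub_re, Complex.ofReal_re]

theorem Y_add {u : ℂ} (hu : u ≠ 0) (c s : ℂ) (t : ℝ) : Y (c + t * u) u s = Y c u s := by
  unfold Y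
  have : (s - (c + t * u)) / u = (s - c) / u - t := by
    field_simp
    ring
  rw [this, Complex.sub_im, Complex.ofReal_im, sub_zero]

/-- unit lattice directions -/
def D4 (u : ℂ) : Prop := u = 1 ∨ u = Complex.I ∨ u = -1 ∨ u = -Complex.I

theorem D4.ne0 {u : ℂ} (h : D4 u) : u ≠ 0 := by
  rcases h with rfl | rfl | rfl | rfl
  · exact one_ne_zero
  · exact Complex.I_ne_zero
  · exact neg_ne_zero.2 one_ne_zero
  · exact neg_ne_zero.2 Complex.I_ne_zero

theorem D4.norm {u : ℂ} (h : D4 u) : ‖u‖ = 1 := by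
  rcases h with rfl | rfl | rfl | rfl <;> simp

theorem D4.neg {u : ℂ} (h : D4 u) : D4 (-u) := by
  rcases h with rfl | rfl | rfl | rfl
  · exact Or.inr (Or.inr (Or.inl rfl))
  · exact Or.inr (Or.inr (Or.inr rfl))
  · exact Or.inl (neg_neg 1)
  · exact Or.inr (Or.inl (neg_neg _))

theorem cz_sub (a b : ℤ × ℤ) : cz (a - b) = cz a - cz b := by
  apply Complex.ext
  · simp [cz]
  · simp [cz]

theorem d4_cz {u : ℤ × ℤ} (h : U4 u) : D4 (cz u) := by
  rcases h with rfl | rfl | rfl | rfl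
  · left; apply Complex.ext <;> simp [cz]
  · right; left; apply Complex.ext <;> simp [cz]
  · right; right; left; apply Complex.ext <;> simp [cz]
  · right; right; right; apply Complex.ext <;> simp [cz]

/-- two directions: equal, opposite, or perpendicular -/
theorem d4_cases {u v : ℂ} (hu : D4 u) (hv : D4 v) :
    v = u ∨ v = -u ∨ v = u * Complex.I ∨ v = -(u * Complex.I) := by
  rcases hu with rfl | rfl | rfl | rfl <;> rcases hv with rfl | rfl | rfl | rfl <;> simp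

/-! ### frames -/

variable {h A B η m : ℝ} {M : ℕ} {W : ℤ → ℤ × ℤ}

theorem ge_d4 (F : FPath M W) (a : ℤ) : D4 (ge W a) := by
  have := F.step (a - 1)
  rw [show a - 1 + 1 = a by ring] at this
  exact d4_cz this

theorem ge_ne (F : FPath M W) (a : ℤ) : ge W (a + 1) ≠ -ge W a := by
  intro hc
  have h1 : cz (W (a + 1)) - cz (W a) = -(cz (W a) - cz (W (a - 1))) := by
    have : ge W (a + 1) = cz (W (a + 1) - W a) := by
      unfold ge
      rw [show a + 1 - 1 = a by ring]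
    rw [this] at hc
    unfold ge at hc
    rw [cz_sub, cz_sub] at hc
    exact hc
  have h2 : cz (W (a + 1)) = cz (W (a - 1)) := by linear_combination h1
  have h3 : W (a - 1 + 2) = W (a - 1) := by
    rw [show a - 1 + 2 = a + 1 by ring]
    have e1 := congrArg Complex.re h2
    have e2 := congrArg Complex.im h2
    simp only [cz, Int.cast_inj] at e1 e2
    exact Prod.ext e1 e2
  exact F.turn _ h3

/-- the centre of the tile `a` in the frame of the gate `a` -/
theorem cen_l (h : ℝ) (W : ℤ → ℤ × ℤ) (a : ℤ) :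
    cen h W a = gz h W a + ((h / 2 : ℝ) : ℂ) * ge W a := by
  unfold cen gz ge
  rw [cz_sub]
  push_cast
  ring

/-- the centre of the tile `a` in the frame of the gate `a + 1` -/
theorem cen_r (h : ℝ) (W : ℤ → ℤ × ℤ) (a : ℤ) :
    cen h W a = gz h W (a + 1) + ((-(h / 2) : ℝ) : ℂ) * ge W (a + 1) := by
  unfold cen gz ge
  rw [cz_sub, show a + 1 - 1 = a by ring]
  push_cast
  ring

theorem Xc_l (F : FPath M W) (a : ℤ) (s : ℂ) :
    X (cen h W a) (ge W a) s = X (gz h W a) (ge W a) s - h / 2 := by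
  rw [cen_l, X_add (ge_d4 F a).ne0]

theorem Yc_l (F : FPath M W) (a : ℤ) (s : ℂ) :
    Y (cen h W a) (ge W a) s = Y (gz h W a) (ge W a) s := by
  rw [cen_l, Y_add (ge_d4 F a).ne0]

theorem Xc_r (F : FPath M W) (a : ℤ) (s : ℂ) :
    X (cen h W a) (ge W (a + 1)) s = X (gz h W (a + 1)) (ge W (a + 1)) s + h / 2 := by
  rw [cen_r, X_add (ge_d4 F _).ne0]
  ring

theorem Yc_r (F : FPath M W) (a : ℤ) (s : ℂ) :
    Y (cen h W a) (ge W (a + 1)) s = Y (gz h W (a + 1)) (ge W (a + 1)) s := by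
  rw [cen_r, Y_add (ge_d4 F _).ne0]

/-- an arm in a frame: parallel or perpendicular -/
theorem arm_frame {c u v s : ℂ} (hu : D4 u) (hv : D4 v) (hs : s ∈ Arm A B c v) :
    |Y c u s| < A ∨ |X c u s| < A := by
  obtain ⟨-, h2⟩ := hs
  rcases d4_cases hu hv with rfl | rfl | rfl | rfl
  · exact Or.inl h2
  · rw [Y_neg, abs_neg] at h2
    exact Or.inl h2
  · rw [Y_turn, abs_neg] at h2
    exact Or.inr h2
  · rw [Y_neg, Y_turn, neg_neg] at h2
    exact Or.inr h2

/-- directions of the arms -/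
theorem arm_l (F : FPath M W) (a : ℤ) : D4 (cz (W (a - 1) - W a)) := by
  have h1 := (ge_d4 F a).neg
  have : cz (W (a - 1) - W a) = -ge W a := by
    unfold ge
    rw [cz_sub, cz_sub]
    ring
  rw [this]
  exact h1

theorem arm_r (F : FPath M W) (a : ℤ) : D4 (cz (W (a + 1) - W a)) := d4_cz (F.step a)

/-- **near a gate the two tiles are in the strip** -/
theorem near_l (F : FPath M W) {a : ℤ} {s : ℂ} {κ : ℝ} (hκ : κ + A ≤ h / 2)
    (hs : s ∈ RR A B h W a) (h1 : |X (gz h W (a + 1)) (ge W (a + 1)) s| ≤ κ) :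
    |Y (gz h W (a + 1)) (ge W (a + 1)) s| < A := by
  have h2 : |Y (cen h W a) (ge W (a + 1)) s| < A ∨ |X (cen h W a) (ge W (a + 1)) s| < A := by
    rcases hs with hs | hs
    · exact arm_frame (ge_d4 F _) (arm_l F a) hs
    · exact arm_frame (ge_d4 F _) (arm_r F a) hs
  rw [Xc_r F, Yc_r F] at h2
  rcases h2 with h2 | h2
  · exact h2
  · rw [abs_lt] at h2
    rw [abs_le] at h1
    linarith [h1.1, h2.2]

theorem near_r (F : FPath M W) {a : ℤ} {s : ℂ} {κ : ℝ} (hκ : κ + A ≤ h / 2)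
    (hs : s ∈ RR A B h W a) (h1 : |X (gz h W a) (ge W a) s| ≤ κ) :
    |Y (gz h W a) (ge W a) s| < A := by
  have h2 : |Y (cen h W a) (ge W a) s| < A ∨ |X (cen h W a) (ge W a) s| < A := by
    rcases hs with hs | hs
    · exact arm_frame (ge_d4 F _) (arm_l F a) hs
    · exact arm_frame (ge_d4 F _) (arm_r F a) hs
  rw [Xc_l F, Yc_l F] at h2
  rcases h2 with h2 | h2
  · exact h2
  · rw [abs_lt] at h2
    rw [abs_le] at h1
    linarith [h1.2, h2.1]




end Crest.Agent.R143.PathGx503
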