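import Crest.Agent.R143.Frame11_395
import Crest.Agent.R143.NonX_592
import Crest.Agent.R143.Circ_63
import Crest.Agent.R143.Frame10_395
import Crest.Agent.R143.Blk_838
import Crest.Agent.R143.RingD_117
import Crest.Agent.R143.PathG_503

-- ▼ part R143/Conf_686
section

/-!
# Row 143 (S0194), part A free route: CONFINEMENT (leaf V2 of 117's cut, helper686)

Two states `p`, `q` of the walker (black cell on the left, white cell on the right), the left cells
joined by a black chain, the right cells joined by a white chain, both chains inside the region `R`.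
Then `p` and `q` are on one loop and ONE of the two arcs of the loop between `p` and `q` only passes
through triangles inside `R`.

* `Ln`, `ex_Z` : chains and their indicator
* `conf_abs` : the statement for closed maps (`CMap`)
* `conf_curve` : Delaunay triangulation, wired hull (`cm0`): one of the two arcs passes through
  triangles which do not meet the connected set `K`, if the chains do not meet `K`
* `conf` : `R` bounded open, `K` = its frontier: one arc passes through triangles inside `R`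
-/

set_option autoImplicit false

noncomputable section

open scoped Classical

namespace Crest.Agent.R143.Confx686

open Crest.Agent.R143.Frame1x395 Crest.Agent.R143.Frame2x395 Crest.Agent.R143.Frame3x395
  Crest.Agent.R143.Frame11x395 Crest.Agent.R143.NonXx592

section abs

variable {D C : Type} {M : CMap D C} {x : D → ZMod 2}

/-- connected by unoccupied darts of the set `E` -/
def Ln (M : CMap D C) (x : D → ZMod 2) (E : Set D) : C → C → Prop :=
  Relation.EqvGen fun a b => ∃ d ∈ E, x d = 0 ∧ M.cell d = a ∧ M.cell (M.rho d) = b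

theorem Ln.con {E : Set D} {a b : C} (h : Ln M x E a b) : Con M x a b := by
  induction h with
  | rel a b hab =>
    obtain ⟨d, -, h1, h2, h3⟩ := hab
    exact Relation.EqvGen.rel _ _ ⟨d, h1, h2, h3⟩
  | refl => exact Relation.EqvGen.refl _
  | symm _ _ _ ih => exact Relation.EqvGen.symm _ _ ih
  | trans _ _ _ _ _ ih1 ih2 => exact Relation.EqvGen.trans _ _ _ ih1 ih2

theorem Ln.mono {E E' : Set D} (hE : E ⊆ E') {a b : C} (h : Ln M x E a b) : Ln M x E' a b := by
  induction h with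
  | rel a b hab =>
    obtain ⟨d, h0, h1, h2, h3⟩ := hab
    exact Relation.EqvGen.rel _ _ ⟨d, hE h0, h1, h2, h3⟩
  | refl => exact Relation.EqvGen.refl _
  | symm _ _ _ ih => exact Relation.EqvGen.symm _ _ ih
  | trans _ _ _ _ _ ih1 ih2 => exact Relation.EqvGen.trans _ _ _ ih1 ih2

theorem Ln.symm {E : Set D} {a b : C} (h : Ln M x E a b) : Ln M x E b a :=
  Relation.EqvGen.symm _ _ h

theorem Ln.trans {E : Set D} {a b c : C} (h : Ln M x E a b) (h' : Ln M x E b c) :
    Ln M x E a c := Relation.EqvGen.trans _ _ _ h h'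

theorem Ln.refl {E : Set D} (a : C) : Ln M x E a a := Relation.EqvGen.refl _

theorem Ln.one {E : Set D} {d : D} (h : d ∈ E) (h0 : x d = 0) :
    Ln M x E (M.cell d) (M.cell (M.rho d)) := Relation.EqvGen.rel _ _ ⟨d, h, h0, rfl, rfl⟩

/-- the indicator of a chain -/
theorem ex_Z [Fintype D] {E : Set D} {a b : C} (h : Ln M x E a b) :
    ∃ Z : D → ZMod 2, (∀ d, Z d ≠ 0 → d ∈ E ∧ x d = 0) ∧
      ∀ (y : D → ZMod 2) (χ : C → ZMod 2), (∀ d, y d = χ (M.cell d) + χ (M.cell (M.rho d))) →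
        ∑ d, Z d * y d = χ a + χ b := by
  induction h with
  | rel a b hab =>
    obtain ⟨d, h1, h2, rfl, rfl⟩ := hab
    refine ⟨Pi.single d 1, ?_, ?_⟩
    · intro e he
      by_cases hed : e = d
      · subst hed; exact ⟨h1, h2⟩
      · exact absurd (Pi.single_eq_of_ne hed 1) he
    · intro y χ hy
      rw [Finset.sum_eq_single d]
      · rw [Pi.single_eq_same, one_mul, hy]
      · intro e _ he
        rw [Pi.single_eq_of_ne he, zero_mul]
      · intro hn; exact absurd (Finset.mem_univ d) hn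
  | refl a =>
    refine ⟨fun _ => 0, fun d hd => absurd rfl hd, ?_⟩
    intro y χ _
    simp [z_self]
  | symm a b _ ih =>
    obtain ⟨Z, h1, h2⟩ := ih
    refine ⟨Z, h1, fun y χ hy => ?_⟩
    rw [h2 y χ hy, add_comm]
  | trans a b c _ _ ih1 ih2 =>
    obtain ⟨Z, h1, h2⟩ := ih1
    obtain ⟨Z', h1', h2'⟩ := ih2
    refine ⟨fun d => Z d + Z' d, ?_, ?_⟩
    · intro d hd
      by_cases h3 : Z d = 0
      · apply h1'
        intro h4
        exact hd (by show Z d + Z' d = 0; rw [h3, h4]; decide)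
      · exact h1 d h3
    · intro y χ hy
      have h3 : ∀ d, (Z d + Z' d) * y d = Z d * y d + Z' d * y d := fun d => by ring
      simp only [h3]
      rw [Finset.sum_add_distrib, h2 y χ hy, h2' y χ hy]
      linear_combination z_self (χ b)

theorem z4 : ∀ a b u v : ZMod 2, u + v = a + b → b = a + u + v := by decide

theorem z5 : ∀ a b : ZMod 2, (0 : ZMod 2) = a + b → b = a := by decide

/-- **confinement in a closed map** -/
theorem conf_abs [Fintype D] (h : IsC M ∅ x) {p q : D} (hp : x p = 1) (hq : x q = 1)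
    (hne : p ≠ q) {E : Set D} (hpE : p ∈ E) (hqE : q ∈ E)
    (hl : Ln M x E (M.cell p) (M.cell q)) (hr : Ln M x E (M.cell (M.rho p)) (M.cell (M.rho q)))
    {O : Set D} (hO : ∀ ψ : D → ZMod 2, (∀ d, ψ (M.rho d) = ψ d) →
      (∀ d ∈ M.live, d ∉ E → M.iota d ∉ E → ψ (M.iota d) = ψ d) →
      ∀ d ∈ O, ∀ d' ∈ O, ψ d = ψ d') :
    ∃ n N, 0 < n ∧ n < N ∧ P M x p n = q ∧ P M x p N = p ∧
      (∀ a b, a < b → b < N → P M x p a ≠ P M x p b) ∧
      ((∀ m, m < n → P M x p m ∉ O) ∨ (∀ m, n ≤ m → m < N → P M x p m ∉ O)) := by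
  -- the period
  obtain ⟨N1, hN1⟩ := periodic h hp
  have hex : ∃ N, 0 < N ∧ P M x p N = p := ⟨N1, hN1⟩
  obtain ⟨hN0, hN⟩ := Nat.find_spec hex
  have hmin : ∀ m, m < Nat.find hex → ¬ (0 < m ∧ P M x p m = p) := fun m hm => Nat.find_min hex hm
  set N := Nat.find hex with hNdef
  have hinj : ∀ a b, a < b → b < N → P M x p a ≠ P M x p b := by
    intro a b hab hb e
    have e1 : P M x p (b - a) = p := by
      apply it_inj h (occ_it h hp _) hp a
      rw [← Function.iterate_add_apply, show a + (b - a) = b by omega]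
      exact e.symm
    exact hmin (b - a) (by omega) ⟨by omega, e1⟩
  -- the time of `q`
  obtain ⟨n1, hn1⟩ := same_loop h hp hq hl.con hr.con
  obtain ⟨n, hnN, hn⟩ : ∃ n, n < N ∧ P M x p n = q := by
    refine ⟨n1 % N, Nat.mod_lt _ hN0, ?_⟩
    have hper : ∀ k j, P M x p (j + N * k) = P M x p j := by
      intro k
      induction k with
      | zero => intro j; rfl
      | succ k ih =>
        intro j
        rw [show j + N * (k + 1) = (j + N * k) + N by ring, P_per hN]
        exact ih j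
    have h1 := hper (n1 / N) (n1 % N)
    rw [Nat.mod_add_div] at h1
    rw [← h1]
    exact hn1
  have hn0 : 0 < n := by
    rcases Nat.eq_zero_or_pos n with h0 | h0
    · subst h0
      exact absurd hn hne
    · exact h0
  -- the cycle
  obtain ⟨Z1, z1, s1⟩ := ex_Z hl
  obtain ⟨Z2, z2', s2⟩ := ex_Z hr
  obtain ⟨ψ, hψr, hψ⟩ := dual M (fun d => Z1 d + Z2 d + (Pi.single p 1 : D → ZMod 2) d +
    (Pi.single q 1 : D → ZMod 2) d) (by
      intro y hy
      obtain ⟨χ, hχ⟩ := M.ex y hy.dead hy.iot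
        (fun d => by rw [hy.par d, if_neg (Set.notMem_empty d)])
      have e1 : ∀ r : D, ∑ d, (Pi.single r 1 : D → ZMod 2) d * y d =
          χ (M.cell r) + χ (M.cell (M.rho r)) := by
        intro r
        rw [Finset.sum_eq_single r]
        · rw [Pi.single_eq_same, one_mul, hχ]
        · intro e _ he
          rw [Pi.single_eq_of_ne he, zero_mul]
        · intro hn; exact absurd (Finset.mem_univ r) hn
      have e2 : ∀ d, (Z1 d + Z2 d + (Pi.single p 1 : D → ZMod 2) d +
          (Pi.single q 1 : D → ZMod 2) d) * y d = Z1 d * y d + Z2 d * y d +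
          (Pi.single p 1 : D → ZMod 2) d * y d + (Pi.single q 1 : D → ZMod 2) d * y d :=
        fun d => by ring
      simp only [e2]
      rw [Finset.sum_add_distrib, Finset.sum_add_distrib, Finset.sum_add_distrib, e1, e1,
        s1 y χ hχ, s2 y χ hχ]
      linear_combination z_self (χ (M.cell p)) + z_self (χ (M.cell q)) +
        z_self (χ (M.cell (M.rho p))) + z_self (χ (M.cell (M.rho q))))
  -- the two sides
  obtain ⟨c, hc⟩ := M.ex x h.dead h.iot (fun d => by rw [h.par d, if_neg (Set.notMem_empty d)])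
  have hc0 : ∀ d, x d = 0 → c (M.cell d) = c (M.cell (M.rho d)) := by
    intro d hd
    rw [hc d] at hd
    revert hd
    generalize c (M.cell d) = a
    generalize c (M.cell (M.rho d)) = b
    revert a b; decide
  have hlc : ∀ m, c (M.cell (P M x p m)) = c (M.cell p) := it_col h hp hc0
  have hcpq : c (M.cell q) = c (M.cell p) := by rw [← hn]; exact hlc n
  -- a state of the loop is not the reverse of `p` or `q`
  have hrev : ∀ m, M.iota (P M x p m) ≠ p ∧ M.iota (P M x p m) ≠ q := by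
    have key : ∀ m r, x r = 1 → c (M.cell r) = c (M.cell p) → M.iota (P M x p m) ≠ r := by
      intro m r hr hcr e
      have h1 := cell_rho_iota M (h.lv (P_occ h hp m))
      rw [e] at h1
      have h2 := hc r
      rw [hr, h1, hlc m, hcr, z_self] at h2
      exact absurd h2 (by decide)
    exact fun m => ⟨key m p hp rfl, key m q hq hcpq⟩
  have hstep : ∀ m, ψ (P M x p (m + 1)) = ψ (P M x p m) +
      (if P M x p (m + 1) = p then 1 else 0) + (if P M x p (m + 1) = q then 1 else 0) := by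
    intro m
    -- the exit side
    obtain ⟨s, hs1, hs2, hs3⟩ : ∃ s, ψ s = ψ (P M x p m) ∧ x s = 1 ∧
        P M x p (m + 1) = M.iota s := by
      rcases stp_cases h (P_occ h hp m) (Set.notMem_empty _) with ⟨h1, -, e⟩ | ⟨-, h1, e⟩
      · exact ⟨_, hψr _, h1, by rw [P_succ, e]⟩
      · exact ⟨_, by rw [hψr, hψr], h1, by rw [P_succ, e]⟩
    have h1 := hψ s (h.lv hs2)
    have zs : ∀ (Z : D → ZMod 2), (∀ d, Z d ≠ 0 → d ∈ E ∧ x d = 0) → ∀ r, x r = 1 → Z r = 0 := by
      intro Z hZ r hr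
      by_contra h0
      have := (hZ r h0).2
      rw [hr] at this
      exact absurd this (by decide)
    have hx' : x (M.iota s) = 1 := by rw [h.iot]; exact hs2
    have ns : ∀ r, r ≠ s → (Pi.single r 1 : D → ZMod 2) s = 0 := fun r hr =>
      Pi.single_eq_of_ne (fun e => hr e.symm) 1
    have hs4 : M.iota (P M x p (m + 1)) = s := by rw [hs3, M.iota2]
    have np : p ≠ s := fun e => (hrev (m + 1)).1 (by rw [hs4, e])
    have nq : q ≠ s := fun e => (hrev (m + 1)).2 (by rw [hs4, e])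
    have si : ∀ r : D, (Pi.single r 1 : D → ZMod 2) (M.iota s) =
        if P M x p (m + 1) = r then 1 else 0 := by
      intro r
      rw [hs3]
      by_cases hr : M.iota s = r
      · rw [if_pos hr, hr, Pi.single_eq_same]
      · rw [if_neg hr, Pi.single_eq_of_ne hr]
    simp only [zs Z1 z1 s hs2, zs Z2 z2' s hs2, zs Z1 z1 _ hx', zs Z2 z2' _ hx', ns p np, ns q nq,
      si, zero_add] at h1
    rw [← hs3] at h1
    rw [← hs1]
    exact z4 _ _ _ _ h1
  -- before `q`
  have hA : ∀ m, m < n → ψ (P M x p m) = ψ p := by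
    intro m
    induction m with
    | zero => intro _; rfl
    | succ m ih =>
      intro hm
      rw [hstep m, ih (by omega), if_neg, if_neg]
      · simp
      · intro e
        exact hinj (m + 1) n hm hnN (by rw [e, hn])
      · intro e
        exact hinj 0 (m + 1) (by omega) (by omega) e.symm
  have hB : ∀ m, n ≤ m → m < N → ψ (P M x p m) = ψ p + 1 := by
    intro m
    induction m with
    | zero => intro h0; omega
    | succ m ih =>
      intro h0 hm
      have e0 : P M x p (m + 1) ≠ p := fun e => hinj 0 (m + 1) (by omega) hm e.symm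
      rcases Nat.lt_or_ge m n with h1 | h1
      · have e2 : m + 1 = n := by omega
        rw [hstep m, hA m h1, if_neg e0, if_pos (by rw [e2]; exact hn)]
        ring
      · rw [hstep m, ih h1 (by omega), if_neg e0, if_neg]
        · simp
        · intro e
          exact hinj n (m + 1) (by omega) hm (by rw [e, hn])
  have hO' := hO ψ hψr (by
    intro d hd h1 h2
    have h3 := hψ d hd
    have zz : ∀ (Z : D → ZMod 2), (∀ d, Z d ≠ 0 → d ∈ E ∧ x d = 0) → ∀ r, r ∉ E → Z r = 0 := by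
      intro Z hZ r hr
      by_contra h0
      exact hr (hZ r h0).1
    have ss : ∀ r : D, r ∈ E → ∀ t, t ∉ E → (Pi.single r 1 : D → ZMod 2) t = 0 := by
      intro r hr t ht
      exact Pi.single_eq_of_ne (fun e : t = r => ht (by rw [e]; exact hr)) 1
    simp only [zz Z1 z1 d h1, zz Z2 z2' d h1, zz Z1 z1 _ h2, zz Z2 z2' _ h2, ss p hpE d h1,
      ss q hqE d h1, ss p hpE _ h2, ss q hqE _ h2] at h3
    simp only [add_zero] at h3
    exact z5 _ _ h3)
  refine ⟨n, N, hn0, hnN, hn, hN, hinj, ?_⟩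
  by_contra hcon
  rw [not_or] at hcon
  push Not at hcon
  obtain ⟨⟨a, ha1, ha2⟩, b, hb1, hb2, hb3⟩ := hcon
  have e := hO' _ ha2 _ hb3
  rw [hA a ha1, hB b hb1 hb2] at e
  revert e
  generalize ψ p = u
  revert u; decide

end abs

/-! ### the Delaunay triangulation with wired hull -/

section del

open Crest.Agent.R143.B0x346 Crest.Agent.R143.DelGx806 Crest.Agent.R143.DelRx806
  Crest.Agent.R143.Frame8x395 Crest.Agent.R143.Frame10x395 Crest.Agent.R143.Circx63
  Crest.Agent.R143.Blkx838 Crest.Agent.R143.ToolWx838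
open Crest.Agent.R143.Frame5x395 (sd mem_sd th th_spec)
open Crest.Agent.R143.JColx54 (delT_rot)

variable {S : Finset ℂ}

/-- the triangle on the left of a dart -/
def tr (S : Finset ℂ) (d : D0 S) : ℂ × ℂ × ℂ := (d.1.1, d.1.2, th S d.1)

theorem tr_mem (d : D0 S) : tr S d ∈ delT S := th_spec d.2

/-- the edge of a dart -/
def sg (d : D0 S) : Set ℂ := segment ℝ d.1.1 d.1.2

theorem tr_rho (hS : GP (S : Set ℂ)) (d : D0 S) : tr S ((cm0 hS).rho d) ∈ rots (tr S d) := by
  obtain ⟨⟨a, b⟩, hd⟩ := d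
  have h1 := th_spec hd
  have h2 : th S (b, th S (a, b)) = a := th0 hS (delT_rot hS h1)
  have h3 : tr S ((cm0 hS).rho ⟨(a, b), hd⟩) = (b, th S (a, b), a) :=
    Prod.ext rfl (Prod.ext rfl h2)
  rw [h3]
  exact Or.inr (Or.inl rfl)

theorem cT_rho (hS : GP (S : Set ℂ)) (d : D0 S) : cT (tr S ((cm0 hS).rho d)) = cT (tr S d) :=
  cT_rots (tr_rho hS d)

theorem tr_pos (d : D0 S) : 0 < cr (d.1.2 - d.1.1) (th S d.1 - d.1.1) := by
  obtain ⟨o, h⟩ := mem_delT_iff.1 (tr_mem d)
  exact h.pos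

theorem sg_cT (d : D0 S) : sg d ⊆ cT (tr S d) := fun _ hx => seg_sub_cT (tr_pos d) hx

theorem sg_rho (hS : GP (S : Set ℂ)) (d : D0 S) : sg ((cm0 hS).rho d) ⊆ cT (tr S d) := by
  rw [← cT_rho hS d]
  exact sg_cT _

theorem sg_rho2 (hS : GP (S : Set ℂ)) (d : D0 S) :
    sg ((cm0 hS).rho ((cm0 hS).rho d)) ⊆ cT (tr S d) := by
  rw [← cT_rho hS d]
  exact sg_rho hS _

theorem sg_iota (hS : GP (S : Set ℂ)) (d : D0 S) : sg ((cm0 hS).iota d) = sg d := by
  show sg (io0 d) = sg d
  by_cases h : (d.1.2, d.1.1) ∈ sd S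
  · rw [io0_live h]
    exact segment_symm ℝ _ _
  · rw [io0_dead h]

/-- a rotation invariant function of the darts with the same triangle -/
theorem rot_inv (hS : GP (S : Set ℂ)) {ψ : D0 S → ZMod 2}
    (hψ : ∀ d, ψ ((cm0 hS).rho d) = ψ d) {d : D0 S} {u v w : ℂ} (h : (u, v, w) ∈ rots (tr S d)) :
    ∃ e : D0 S, e.1 = (u, v) ∧ ψ e = ψ d := by
  obtain ⟨⟨a, b⟩, hd⟩ := d
  have h1 := th_spec hd
  rcases rots_cases h with h2 | h2 | h2
  · have e1 : u = a := congrArg Prod.fst h2
    have e2 : v = b := congrArg (fun t => t.2.1) h2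
    refine ⟨⟨(a, b), hd⟩, ?_, rfl⟩
    rw [e1, e2]
  · have e1 : u = b := congrArg Prod.fst h2
    have e2 : v = th S (a, b) := congrArg (fun t => t.2.1) h2
    refine ⟨(cm0 hS).rho ⟨(a, b), hd⟩, ?_, hψ _⟩
    rw [e1, e2]
    rfl
  · have e1 : u = th S (a, b) := congrArg Prod.fst h2
    have e2 : v = a := congrArg (fun t => t.2.1) h2
    refine ⟨(cm0 hS).rho ((cm0 hS).rho ⟨(a, b), hd⟩), ?_, by rw [hψ, hψ]⟩
    rw [e1, e2]
    have h3 : th S (b, th S (a, b)) = a := th0 hS (delT_rot hS h1)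
    show (th S (a, b), th S (b, th S (a, b))) = _
    rw [h3]

/-- darts whose edge does not meet `K` -/
def Ed (S : Finset ℂ) (K : Set ℂ) : Set (D0 S) := {d | Disjoint (sg d) K}

/-- darts whose triangle meets `K` -/
def Ou (S : Finset ℂ) (K : Set ℂ) : Set (D0 S) := {d | (cT (tr S d) ∩ K).Nonempty}

/-- **the triangles which meet a connected set are connected across the edges which meet it** -/
theorem psi_const (hS : GP (S : Set ℂ)) {K : Set ℂ} (hK : IsPreconnected K)
    (hcov : ∀ z ∈ K, ∃ t ∈ delT S, z ∈ cT t) (hKS : ∀ z ∈ K, z ∉ S) (ψ : D0 S → ZMod 2)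
    (hψ : ∀ d, ψ ((cm0 hS).rho d) = ψ d)
    (hi : ∀ d ∈ (cm0 hS).live, d ∉ Ed S K → (cm0 hS).iota d ∉ Ed S K →
      ψ ((cm0 hS).iota d) = ψ d) {d d' : D0 S} (hd : d ∈ Ou S K) (hd' : d' ∈ Ou S K) :
    ψ d = ψ d' := by
  by_contra hne
  set A : Set ℂ := ⋃ e ∈ {e : D0 S | ψ e = ψ d}, cT (tr S e) with hA
  set B : Set ℂ := ⋃ e ∈ {e : D0 S | ψ e ≠ ψ d}, cT (tr S e) with hB
  have cA : IsClosed A := (Set.toFinite _).isClosed_biUnion fun e _ => isClosed_cT _
  have cB : IsClosed B := (Set.toFinite _).isClosed_biUnion fun e _ => isClosed_cT _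
  have hAB : K ⊆ A ∪ B := by
    intro z hz
    obtain ⟨⟨a, b, c⟩, ht, hzt⟩ := hcov z hz
    have hm : (a, b) ∈ sd S := mem_sd.2 ⟨c, ht⟩
    have he : tr S ⟨(a, b), hm⟩ = (a, b, c) := Prod.ext rfl (Prod.ext rfl (th0 hS ht))
    rw [← he] at hzt
    by_cases h : ψ ⟨(a, b), hm⟩ = ψ d
    · exact Or.inl (Set.mem_biUnion (show (⟨(a, b), hm⟩ : D0 S) ∈ {e : D0 S | ψ e = ψ d} from h) hzt)
    · exact Or.inr (Set.mem_biUnion (show (⟨(a, b), hm⟩ : D0 S) ∈ {e : D0 S | ψ e ≠ ψ d} from h) hzt)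
  obtain ⟨z1, h1, h1'⟩ := hd
  obtain ⟨z2, h2, h2'⟩ := hd'
  have n1 : (K ∩ A).Nonempty :=
    ⟨z1, h1', Set.mem_biUnion (show d ∈ {e : D0 S | ψ e = ψ d} from rfl) h1⟩
  have n2 : (K ∩ B).Nonempty :=
    ⟨z2, h2', Set.mem_biUnion (show d' ∈ {e : D0 S | ψ e ≠ ψ d} from fun e => hne e.symm) h2⟩
  obtain ⟨z, hzK, hzA, hzB⟩ := isPreconnected_closed_iff.1 hK A B cA cB hAB n1 n2
  rw [hA, Set.mem_iUnion₂] at hzA
  rw [hB, Set.mem_iUnion₂] at hzB
  obtain ⟨e1, he1, hz1⟩ := hzA
  obtain ⟨e2, he2, hz2⟩ := hzB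
  have he1' : ψ e1 = ψ d := he1
  have he2' : ψ e2 ≠ ψ d := he2
  rcases meet hS (tr_mem e1) (tr_mem e2) hz1 hz2 (fun h => hKS z hzK h) with h3 | h3
  · obtain ⟨e, ee, hpe⟩ := rot_inv hS hψ (d := e1) (u := e2.1.1) (v := e2.1.2) (w := th S e2.1) h3
    have : e = e2 := Subtype.ext ee
    rw [this, he1'] at hpe
    exact he2' hpe
  · obtain ⟨u, v, w, w', h4, h5, h6⟩ := h3
    obtain ⟨e, ee, hpe⟩ := rot_inv hS hψ h4
    obtain ⟨e', ee', hpe'⟩ := rot_inv hS hψ h5
    have hlive : e ∈ (cm0 hS).live := by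
      show (e.1.2, e.1.1) ∈ sd S
      rw [ee]
      have := e'.2
      rwa [ee'] at this
    have hio : (cm0 hS).iota e = e' := by
      show io0 e = e'
      rw [io0_live hlive]
      apply Subtype.ext
      show (e.1.2, e.1.1) = e'.1
      rw [ee, ee']
    have hne1 : e ∉ Ed S K := by
      intro h
      refine Set.disjoint_left.1 h ?_ hzK
      show z ∈ segment ℝ e.1.1 e.1.2
      rw [ee]; exact h6
    have hne2 : (cm0 hS).iota e ∉ Ed S K := by
      intro h
      have h' : Disjoint (sg ((cm0 hS).iota e)) K := h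
      rw [sg_iota] at h'
      exact hne1 h'
    have h7 := hi e hlive hne1 hne2
    rw [hio, hpe', hpe, he1'] at h7
    exact he2' h7

/-- **confinement by a connected set** -/
theorem conf_curve (hS : GP (S : Set ℂ)) {x : D0 S → ZMod 2} (h : IsC (cm0 hS) ∅ x) {p q : D0 S}
    (hp : x p = 1) (hq : x q = 1) (hne : p ≠ q) {K : Set ℂ} (hK : IsPreconnected K)
    (hcov : ∀ z ∈ K, ∃ t ∈ delT S, z ∈ cT t) (hKS : ∀ z ∈ K, z ∉ S)
    (hpK : p ∈ Ed S K) (hqK : q ∈ Ed S K)
    (hl : Ln (cm0 hS) x (Ed S K) ((cm0 hS).cell p) ((cm0 hS).cell q))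
    (hr : Ln (cm0 hS) x (Ed S K) ((cm0 hS).cell ((cm0 hS).rho p))
      ((cm0 hS).cell ((cm0 hS).rho q))) :
    ∃ n N, 0 < n ∧ n < N ∧ P (cm0 hS) x p n = q ∧ P (cm0 hS) x p N = p ∧
      (∀ a b, a < b → b < N → P (cm0 hS) x p a ≠ P (cm0 hS) x p b) ∧
      ((∀ m, m < n → Disjoint (cT (tr S (P (cm0 hS) x p m))) K) ∨
        (∀ m, n ≤ m → m < N → Disjoint (cT (tr S (P (cm0 hS) x p m))) K)) := by
  obtain ⟨n, N, h1, h2, h3, h4, h5, h6⟩ := conf_abs h hp hq hne hpK hqK hl hr (O := Ou S K)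
    (fun ψ hψ hi d hd d' hd' => psi_const hS hK hcov hKS ψ hψ hi hd hd')
  refine ⟨n, N, h1, h2, h3, h4, h5, ?_⟩
  have key : ∀ d : D0 S, d ∉ Ou S K → Disjoint (cT (tr S d)) K := by
    intro d hd
    rw [Set.disjoint_iff_inter_eq_empty]
    exact Set.not_nonempty_iff_eq_empty.1 hd
  rcases h6 with h6 | h6
  · exact Or.inl fun m hm => key _ (h6 m hm)
  · exact Or.inr fun m hm hm' => key _ (h6 m hm hm')

/-! ### regions -/

theorem convex_cT (t : ℂ × ℂ × ℂ) : Convex ℝ (cT t) := by
  obtain ⟨a, b, c⟩ := t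
  have key : ∀ u v : ℂ, Convex ℝ {z : ℂ | 0 ≤ cr (v - u) (z - u)} := by
    intro u v x hx y hy s t hs ht hst
    have hx' : 0 ≤ cr (v - u) (x - u) := hx
    have hy' : 0 ≤ cr (v - u) (y - u) := hy
    show 0 ≤ cr (v - u) (s • x + t • y - u)
    have e : cr (v - u) (s • x + t • y - u) = s * cr (v - u) (x - u) + t * cr (v - u) (y - u) := by
      have hs' : s = 1 - t := by linarith
      subst hs'
      unfold cr
      simp only [Complex.sub_re, Complex.sub_im, Complex.add_re, Complex.add_im,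
        Complex.real_smul, Complex.mul_re, Complex.mul_im, Complex.ofReal_re, Complex.ofReal_im]
      ring
    rw [e]
    positivity
  have : cT (a, b, c) = {z : ℂ | 0 ≤ cr (b - a) (z - a)} ∩ ({z : ℂ | 0 ≤ cr (c - b) (z - b)} ∩
      {z : ℂ | 0 ≤ cr (a - c) (z - c)}) := by
    ext z
    exact ⟨fun h => ⟨h.1, h.2.1, h.2.2⟩, fun h => ⟨h.1, h.2.1, h.2.2⟩⟩
  rw [this]
  exact (key a b).inter ((key b c).inter (key c a))

/-- a triangle which meets the region and not its frontier is in the region -/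
theorem cT_sub {R : Set ℂ} {t : ℂ × ℂ × ℂ} (h : Disjoint (cT t) (frontier R))
    (h' : (cT t ∩ R).Nonempty) : cT t ⊆ R := by
  have h1 := (convex_cT t).isPreconnected
  have h2 : cT t ⊆ interior R ∪ (closure R)ᶜ := by
    intro z hz
    by_cases h3 : z ∈ closure R
    · left
      by_contra h4
      exact Set.disjoint_left.1 h hz ⟨h3, h4⟩
    · exact Or.inr h3
  have h3 : (cT t ∩ interior R).Nonempty := by
    obtain ⟨z, hz, hzR⟩ := h'
    rcases h2 hz with h4 | h4
    · exact ⟨z, hz, h4⟩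
    · exact absurd (subset_closure hzR) h4
  exact (h1.subset_left_of_subset_union isOpen_interior isClosed_closure.isOpen_compl
    (Set.disjoint_compl_right_iff_subset.2 (interior_subset.trans subset_closure)) h2 h3).trans
    interior_subset

theorem sg_ne (d : D0 S) : (sg d).Nonempty := ⟨_, left_mem_segment ℝ _ _⟩

/-- the walker stays in the region as long as his triangles do not meet the frontier -/
theorem stay (hS : GP (S : Set ℂ)) {x : D0 S → ZMod 2} (h : IsC (cm0 hS) ∅ x) {p : D0 S}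
    (hp : x p = 1) {R : Set ℂ} {a b : ℕ} (ha : sg (P (cm0 hS) x p a) ⊆ R)
    (hd : ∀ m, a ≤ m → m < b → Disjoint (cT (tr S (P (cm0 hS) x p m))) (frontier R)) :
    ∀ m, a ≤ m → m < b → cT (tr S (P (cm0 hS) x p m)) ⊆ R := by
  have key : ∀ m, a ≤ m → m < b → sg (P (cm0 hS) x p m) ⊆ R →
      cT (tr S (P (cm0 hS) x p m)) ⊆ R := by
    intro m h1 h2 h3
    obtain ⟨z, hz⟩ := sg_ne (P (cm0 hS) x p m)
    exact cT_sub (hd m h1 h2) ⟨z, sg_cT _ hz, h3 hz⟩
  intro m h1
  induction m, h1 using Nat.le_induction with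
  | base => intro h2; exact key a le_rfl h2 ha
  | succ m h1 ih =>
    intro h2
    apply key (m + 1) (by omega) h2
    have h3 := ih (by omega)
    rcases stp_cases h (P_occ h hp m) (Set.notMem_empty _) with ⟨-, -, e⟩ | ⟨-, -, e⟩
    · rw [P_succ, e, sg_iota]
      exact (sg_rho hS _).trans h3
    · rw [P_succ, e, sg_iota]
      exact (sg_rho2 hS _).trans h3

/-- darts whose edge is in `R` -/
def Ei (S : Finset ℂ) (R : Set ℂ) : Set (D0 S) := {d | sg d ⊆ R}

/-- **confinement (V2)** : `R` open with connected frontier, covered by the triangles and without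
sites on the frontier; the two chains inside `R`. Then all triangles of one of the two arcs of the
loop between `p` and `q` are inside `R`. -/
theorem conf (hS : GP (S : Set ℂ)) {x : D0 S → ZMod 2} (h : IsC (cm0 hS) ∅ x) {p q : D0 S}
    (hp : x p = 1) (hq : x q = 1) (hne : p ≠ q) {R : Set ℂ} (hR : IsOpen R)
    (hK : IsPreconnected (frontier R)) (hcov : ∀ z ∈ frontier R, ∃ t ∈ delT S, z ∈ cT t)
    (hKS : ∀ z ∈ frontier R, z ∉ S) (hpR : sg p ⊆ R) (hqR : sg q ⊆ R)
    (hl : Ln (cm0 hS) x (Ei S R) ((cm0 hS).cell p) ((cm0 hS).cell q))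
    (hr : Ln (cm0 hS) x (Ei S R) ((cm0 hS).cell ((cm0 hS).rho p))
      ((cm0 hS).cell ((cm0 hS).rho q))) :
    ∃ n N, 0 < n ∧ n < N ∧ P (cm0 hS) x p n = q ∧ P (cm0 hS) x p N = p ∧
      (∀ a b, a < b → b < N → P (cm0 hS) x p a ≠ P (cm0 hS) x p b) ∧
      ((∀ m, m < n → cT (tr S (P (cm0 hS) x p m)) ⊆ R) ∨
        (∀ m, n ≤ m → m < N → cT (tr S (P (cm0 hS) x p m)) ⊆ R)) := by
  have hE : Ei S R ⊆ Ed S (frontier R) := by
    intro d hd
    exact Set.disjoint_of_subset_left hd (by
      rw [hR.frontier_eq]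
      exact Set.disjoint_sdiff_right)
  obtain ⟨n, N, h1, h2, h3, h4, h5, h6⟩ := conf_curve hS h hp hq hne hK hcov hKS
    (hE hpR) (hE hqR) (hl.mono hE) (hr.mono hE)
  refine ⟨n, N, h1, h2, h3, h4, h5, ?_⟩
  rcases h6 with h6 | h6
  · left
    intro m hm
    exact stay hS h hp (a := 0) (b := n) hpR (fun m _ hm => h6 m hm) m (Nat.zero_le m) hm
  · right
    have h7 : sg (P (cm0 hS) x p n) ⊆ R := by rw [h3]; exact hqR
    exact stay hS h hp h7 h6


end del

end Crest.Agent.R143.Confx686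
end
end

-- ▼ part R143/Conf2_686
section

/-!
# Row 143 (S0194), part A free route: CONFINEMENT in the literal form of `DRing.conf` (helper686)

`conf_FA` : two gate darts `p = (y, z)`, `q = (y2, z2)`; `y -> y2` and `z -> z2` chains of one colour
inside `A`; `A`-edges inside the open set `R`, whose frontier is connected, covered by the triangles
and free of sites. Then the walk from `p` arrives in `q` inside `R`, or the walk from `q` in `p`.
-/

set_option autoImplicit false

noncomputable section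

open scoped Classical

namespace Crest.Agent.R143.Conf2x686

open Crest.Agent.R143.B0x346 Crest.Agent.R143.DelGx806 Crest.Agent.R143.DelRx806
open Crest.Agent.R143.Frame1x395 Crest.Agent.R143.Frame2x395 Crest.Agent.R143.Frame3x395
  Crest.Agent.R143.Frame8x395 Crest.Agent.R143.Frame10x395 Crest.Agent.R143.Frame11x395
open Crest.Agent.R143.Frame5x395 (sd mem_sd th th_spec)
open Crest.Agent.R143.Splx117 Crest.Agent.R143.WLocx713 Crest.Agent.R143.RingDx117
open Crest.Agent.R143.Blkx838 (DE)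
open Crest.Agent.R143.Circx63
open Crest.Agent.R143.Confx686
open Crest.Agent.R143.NonXx592

variable {S : Finset ℂ} {χ : ℂ → ZMod 2} {A R : Set ℂ}

theorem z_self' : ∀ a : ZMod 2, a + a = 0 := by decide

/-- a chain of one colour in `A` -/
theorem ln_rtg (hS : GP (S : Set ℂ)) (hχ : HullC S χ)
    (hseg : ∀ u v, DE S u v → u ∈ A → v ∈ A → segment ℝ u v ⊆ R) {a b : ℂ}
    (h : Relation.ReflTransGen (StC S χ A) a b) :
    Ln (cm0 hS) (xc hS hχ) (Ei S R) (Quot.mk _ a) (Quot.mk _ b) := by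
  induction h with
  | refl => exact Ln.refl _
  | tail _ h1 ih =>
    refine ih.trans ?_
    obtain ⟨hd, hc, hu, hv⟩ := h1
    rename_i u v _
    have hs := hseg u v hd hu hv
    rcases hd with ⟨c, hc'⟩ | ⟨c, hc'⟩
    · have hm : (u, v) ∈ sd S := mem_sd.2 ⟨c, hc'⟩
      refine Ln.one (M := cm0 hS) (d := ⟨(u, v), hm⟩) hs ?_
      show χ u + χ v = 0
      rw [hc, z_self']
    · have hm : (v, u) ∈ sd S := mem_sd.2 ⟨c, hc'⟩
      refine Ln.symm (Ln.one (M := cm0 hS) (d := ⟨(v, u), hm⟩) ?_ ?_)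
      · show segment ℝ v u ⊆ R
        rw [segment_symm]; exact hs
      · show χ v + χ u = 0
        rw [hc, z_self']

/-- the sites of a dart whose triangle is inside `R` -/
theorem rd_of {d : D0 S} (h : cT (tr S d) ⊆ R) : d ∈ RD S R := by
  have h1 := (sg_cT d).trans h
  exact ⟨h1 (left_mem_segment ℝ _ _), h1 (right_mem_segment ℝ _ _)⟩

/-- **confinement (V2)**, with the triangles -/
theorem conf_tri (hS : GP (S : Set ℂ)) (hχ : HullC S χ) (hR : IsOpen R)
    (hK : IsPreconnected (frontier R)) (hcov : ∀ z ∈ frontier R, ∃ t ∈ delT S, z ∈ cT t)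
    (hKS : ∀ z ∈ frontier R, z ∉ S)
    (hseg : ∀ u v, DE S u v → u ∈ A → v ∈ A → segment ℝ u v ⊆ R) {y z y2 z2 : ℂ} {p q : D0 S}
    (hp : p.1 = (y, z)) (hq : q.1 = (y2, z2)) (col : χ y + χ z = 1)
    (hyA : y ∈ A) (hzA : z ∈ A) (hy2A : y2 ∈ A) (hz2A : z2 ∈ A)
    (hy : Relation.ReflTransGen (StC S χ A) y y2) (hz : Relation.ReflTransGen (StC S χ A) z z2)
    (hne : p ≠ q) :
    ∃ n N, 0 < n ∧ n < N ∧ P (cm0 hS) (xc hS hχ) p n = q ∧ P (cm0 hS) (xc hS hχ) p N = p ∧
      (∀ a b, a < b → b < N → P (cm0 hS) (xc hS hχ) p a ≠ P (cm0 hS) (xc hS hχ) p b) ∧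
      ((∀ m, m < n → cT (tr S (P (cm0 hS) (xc hS hχ) p m)) ⊆ R) ∨
        (∀ m, n ≤ m → m < N → cT (tr S (P (cm0 hS) (xc hS hχ) p m)) ⊆ R)) := by
  have chi_eq : ∀ {a b : ℂ}, Relation.ReflTransGen (StC S χ A) a b → χ a = χ b := by
    intro a b h
    induction h with
    | refl => rfl
    | tail _ h1 ih => exact ih.trans h1.2.1
  have de_of : ∀ {d : D0 S} {u v : ℂ}, d.1 = (u, v) → DE S u v := by
    intro d u v h
    have h1 := d.2
    rw [h] at h1
    exact Or.inl (mem_sd.1 h1)
  have even : IsC (cm0 hS) ∅ (xc hS hχ) := cfg_isC _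
  refine conf hS even ?_ ?_ hne hR hK hcov hKS ?_ ?_ ?_ ?_
  · show χ p.1.1 + χ p.1.2 = 1
    rw [hp]; exact col
  · show χ q.1.1 + χ q.1.2 = 1
    rw [hq, ← chi_eq hy, ← chi_eq hz]; exact col
  · show segment ℝ p.1.1 p.1.2 ⊆ R
    rw [hp]; exact hseg y z (de_of hp) hyA hzA
  · show segment ℝ q.1.1 q.1.2 ⊆ R
    rw [hq]; exact hseg y2 z2 (de_of hq) hy2A hz2A
  · show Ln (cm0 hS) (xc hS hχ) (Ei S R) (Quot.mk _ p.1.1) (Quot.mk _ q.1.1)
    rw [hp, hq]
    exact ln_rtg hS hχ hseg hy
  · show Ln (cm0 hS) (xc hS hχ) (Ei S R) (Quot.mk _ p.1.2) (Quot.mk _ q.1.2)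
    rw [hp, hq]
    exact ln_rtg hS hχ hseg hz

/-- **confinement (V2)** : `DRing.conf` -/
theorem conf_FA (hS : GP (S : Set ℂ)) (hχ : HullC S χ) (hR : IsOpen R)
    (hK : IsPreconnected (frontier R)) (hcov : ∀ z ∈ frontier R, ∃ t ∈ delT S, z ∈ cT t)
    (hKS : ∀ z ∈ frontier R, z ∉ S)
    (hseg : ∀ u v, DE S u v → u ∈ A → v ∈ A → segment ℝ u v ⊆ R) {y z y2 z2 : ℂ} {p q : D0 S}
    (hp : p.1 = (y, z)) (hq : q.1 = (y2, z2)) (col : χ y + χ z = 1)
    (hyA : y ∈ A) (hzA : z ∈ A) (hy2A : y2 ∈ A) (hz2A : z2 ∈ A)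
    (hy : Relation.ReflTransGen (StC S χ A) y y2) (hz : Relation.ReflTransGen (StC S χ A) z z2) :
    FA (cm0 hS) (xc hS hχ) (RD S R) p q ∨ FA (cm0 hS) (xc hS hχ) (RD S R) q p := by
  have de_of : ∀ {d : D0 S} {u v : ℂ}, d.1 = (u, v) → DE S u v := by
    intro d u v h
    have h1 := d.2
    rw [h] at h1
    exact Or.inl (mem_sd.1 h1)
  have rd_seg : ∀ {d : D0 S} {u v : ℂ}, d.1 = (u, v) → u ∈ A → v ∈ A → d ∈ RD S R := by
    intro d u v h hu hv
    have h1 := hseg u v (de_of h) hu hv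
    refine ⟨?_, ?_⟩
    · rw [h]; exact h1 (left_mem_segment ℝ _ _)
    · rw [h]; exact h1 (right_mem_segment ℝ _ _)
  have hpR := rd_seg hp hyA hzA
  have hqR := rd_seg hq hy2A hz2A
  by_cases hne : p = q
  · left
    refine ⟨0, hne, fun i hi => ?_⟩
    rw [Nat.le_zero.1 hi]
    exact hpR
  obtain ⟨n, N, h1, h2, h3, h4, -, h6⟩ := conf_tri hS hχ hR hK hcov hKS hseg hp hq col hyA hzA
    hy2A hz2A hy hz hne
  rcases h6 with h6 | h6
  · left
    refine ⟨n, h3, fun i hi => ?_⟩
    rcases Nat.lt_or_ge i n with h | h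
    · exact rd_of (h6 i h)
    · have : i = n := le_antisymm hi h
      rw [this]
      show P (cm0 hS) (xc hS hχ) p n ∈ RD S R
      rw [h3]; exact hqR
  · right
    have e : ∀ i, (stp (cm0 hS) (xc hS hχ))^[i] q = P (cm0 hS) (xc hS hχ) p (n + i) := by
      intro i
      rw [← h3, add_comm]
      exact (Function.iterate_add_apply _ i n p).symm
    refine ⟨N - n, ?_, fun i hi => ?_⟩
    · rw [e, show n + (N - n) = N by omega]; exact h4
    · rw [e]
      rcases Nat.lt_or_ge (n + i) N with h | h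
      · exact rd_of (h6 _ (by omega) h)
      · have : n + i = N := by omega
        rw [this, h4]; exact hpR

end Crest.Agent.R143.Conf2x686
end
end

-- ▼ part R143/ConfT_503

/-!
# Row 143 (S0194): confinement for the tiles of a fine path (helper503)

* `star_frontier` : the frontier of a star-shaped region `{g < 1}` (`g` continuous, homogeneous, positive)
  is connected
* `rr_frontier` : the frontier of a tile region `RR` is connected
* `exists_t` : an enlargement of the tile region without sites on its frontier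
* **`conf_tile`** : black link + white link inside `RR A B` ==> `FA` inside `RR (A + τ) (B + τ)`
  (`DRing.conf`, from 686's `conf_FA`)
-/

set_option autoImplicit false

noncomputable section

open scoped Classical

namespace Crest.Agent.R143.ConfTx503

open Set
open Crest.Agent.R143.B0x346 Crest.Agent.R143.DelGx806 Crest.Agent.R143.DelRx806
open Crest.Agent.R143.Frame1x395 Crest.Agent.R143.Frame2x395 Crest.Agent.R143.Frame3x395
  Crest.Agent.R143.Frame8x395 Crest.Agent.R143.Frame10x395 Crest.Agent.R143.Frame11x395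
open Crest.Agent.R143.Frame5x395 (sd mem_sd th th_spec)
open Crest.Agent.R143.Splx117 Crest.Agent.R143.WLocx713 Crest.Agent.R143.RingDx117
open Crest.Agent.R143.Blkx838 (DE)
open Crest.Agent.R143.Circx63
open Crest.Agent.R143.Gatex838 (X Y X_turn Y_turn)
open Crest.Agent.R143.TileRx228 Crest.Agent.R143.PathDx503 Crest.Agent.R143.PathGx503
open Crest.Agent.R143.Neckx921 (Lk)

/-! ### star-shaped regions -/

/-- **the frontier of a star-shaped region is connected** -/
theorem star_frontier {g : ℂ → ℝ} {c : ℂ} (hg : Continuous g)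
    (hh : ∀ (t : ℝ) (w : ℂ), 0 ≤ t → g (c + t * w) = t * g (c + w))
    (hp : ∀ w, w ≠ 0 → 0 < g (c + w)) : IsPreconnected (frontier {s | g s < 1}) := by
  have e1 : frontier {s | g s < 1} = {s | g s = 1} := by
    apply Subset.antisymm
    · intro s hs
      have := frontier_lt_subset_eq hg continuous_const hs
      exact this
    · intro s hs
      rw [mem_ofPred_eq] at hs
      refine ⟨?_, ?_⟩
      · -- limit of `c + t (s - c)`, `t → 1-`
        have hl : Filter.Tendsto (fun t : ℝ => c + (t : ℂ) * (s - c)) (nhdsWithin 1 (Ico 0 1))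
            (nhds s) := by
          have h1 : Continuous (fun t : ℝ => c + (t : ℂ) * (s - c)) := by fun_prop
          have h2 := h1.tendsto 1
          have h3 : c + ((1 : ℝ) : ℂ) * (s - c) = s := by push_cast; ring
          rw [h3] at h2
          exact h2.mono_left nhdsWithin_le_nhds
        have : (nhdsWithin (1 : ℝ) (Ico 0 1)).NeBot := by
          rw [← mem_closure_iff_nhdsWithin_neBot, closure_Ico (by norm_num)]
          exact ⟨by norm_num, le_refl _⟩
        refine mem_closure_of_tendsto hl ?_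
        filter_upwards [self_mem_nhdsWithin] with t ht
        show g (c + t * (s - c)) < 1
        rw [hh t _ ht.1]
        have h4 : c + (s - c) = s := by ring
        rw [h4, hs, mul_one]
        exact ht.2
      · have ho : IsOpen {s | g s < 1} := isOpen_lt hg continuous_const
        rw [ho.interior_eq, mem_ofPred_eq, hs]
        exact lt_irrefl _
  rw [e1]
  have hS : IsPreconnected (Metric.sphere (0 : ℂ) 1) :=
    isPreconnected_sphere (by rw [Complex.rank_real_complex]; norm_num) _ _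
  have e2 : {s | g s = 1} = (fun w : ℂ => c + ((g (c + w))⁻¹ : ℝ) * w) '' Metric.sphere (0 : ℂ) 1 := by
    apply Subset.antisymm
    · intro s hs
      rw [mem_ofPred_eq] at hs
      have hsc : s ≠ c := by
        rintro rfl
        have := hh 0 0 le_rfl
        simp only [mul_zero, add_zero, zero_mul] at this
        rw [this] at hs
        exact zero_ne_one hs
      have hn : 0 < ‖s - c‖ := norm_pos_iff.2 (sub_ne_zero.2 hsc)
      refine ⟨((‖s - c‖⁻¹ : ℝ) : ℂ) * (s - c), ?_, ?_⟩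
      · rw [mem_sphere_zero_iff_norm, norm_mul, Complex.norm_real, Real.norm_eq_abs,
          abs_of_pos (inv_pos.2 hn), inv_mul_cancel₀ hn.ne']
      · have h1 := hh ‖s - c‖⁻¹ (s - c) (inv_pos.2 hn).le
        have h4 : c + (s - c) = s := by ring
        rw [h4, hs, mul_one] at h1
        simp only [h1, inv_inv]
        rw [← mul_assoc, ← Complex.ofReal_mul, mul_inv_cancel₀ hn.ne', Complex.ofReal_one, one_mul,
          h4]
    · rintro _ ⟨w, hw, rfl⟩
      have hw0 : w ≠ 0 := by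
        rintro rfl
        simp at hw
      have h1 := hp w hw0
      rw [mem_ofPred_eq, hh _ _ (inv_pos.2 h1).le, inv_mul_cancel₀ h1.ne']
  rw [e2]
  refine hS.image _ ?_
  intro w hw
  have hw0 : w ≠ 0 := by
    rintro rfl
    simp at hw
  have h1 := hp w hw0
  have h2 : ContinuousAt (fun w : ℂ => g (c + w)) w := by
    have : Continuous (fun w : ℂ => g (c + w)) := by fun_prop
    exact this.continuousAt
  have h3 : ContinuousAt (fun w : ℂ => ((g (c + w))⁻¹ : ℝ)) w := h2.inv₀ h1.ne'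
  exact (continuousAt_const.add
    ((Complex.continuous_ofReal.continuousAt.comp h3).mul continuousAt_id)).continuousWithinAt

/-! ### the gauge of an arm -/

theorem X_cw (c v w : ℂ) : X c v (c + w) = (w / v).re := by
  unfold X; rw [add_sub_cancel_left]

theorem Y_cw (c v w : ℂ) : Y c v (c + w) = (w / v).im := by
  unfold Y; rw [add_sub_cancel_left]

theorem X_cont (c v : ℂ) : Continuous (X c v) := by
  unfold X
  exact Complex.continuous_re.comp ((continuous_id.sub continuous_const).div_const _)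

theorem Y_cont (c v : ℂ) : Continuous (Y c v) := by
  unfold Y
  exact Complex.continuous_im.comp ((continuous_id.sub continuous_const).div_const _)

/-- gauge of an arm -/
def ga (A B : ℝ) (c v s : ℂ) : ℝ := max (max (-(X c v s) / A) (X c v s / B)) (|Y c v s| / A)

theorem ga_cont (A B : ℝ) (c v : ℂ) : Continuous (ga A B c v) := by
  have h1 := X_cont c v
  have h2 := Y_cont c v
  unfold ga
  exact (((h1.neg.div_const _).max (h1.div_const _)).max (h2.abs.div_const _))

theorem ga_hom {A B : ℝ} (c v : ℂ) (t : ℝ) (w : ℂ) (ht : 0 ≤ t) :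
    ga A B c v (c + t * w) = t * ga A B c v (c + w) := by
  unfold ga
  rw [X_cw, Y_cw, X_cw, Y_cw]
  have e : (t : ℂ) * w / v = t * (w / v) := by ring
  rw [e, Complex.re_ofReal_mul, Complex.im_ofReal_mul, abs_mul, abs_of_nonneg ht, mul_max_of_nonneg _ _ ht,
    mul_max_of_nonneg _ _ ht]
  congr 1
  · congr 1
    · ring
    · ring
  · ring

theorem ga_pos {A B : ℝ} (hA : 0 < A) (hB : 0 < B) {c v : ℂ} (hv : v ≠ 0) {w : ℂ} (hw : w ≠ 0) :
    0 < ga A B c v (c + w) := by
  unfold ga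
  rw [X_cw, Y_cw]
  have h : w / v ≠ 0 := div_ne_zero hw hv
  by_cases h1 : (w / v).im = 0
  · have h2 : (w / v).re ≠ 0 := fun h3 => h (Complex.ext h3 h1)
    rcases lt_or_gt_of_ne h2 with h3 | h3
    · exact lt_max_of_lt_left (lt_max_of_lt_left (div_pos (by linarith) hA))
    · exact lt_max_of_lt_left (lt_max_of_lt_right (div_pos h3 hB))
  · exact lt_max_of_lt_right (div_pos (abs_pos.2 h1) hA)

theorem mem_arm {A B : ℝ} (hA : 0 < A) (hB : 0 < B) {c v s : ℂ} :
    s ∈ Arm A B c v ↔ ga A B c v s < 1 := by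
  unfold ga Arm
  rw [max_lt_iff, max_lt_iff, div_lt_one hA, div_lt_one hB, div_lt_one hA, mem_ofPred_eq,
    neg_lt]

theorem arm_open (A B : ℝ) (c v : ℂ) : IsOpen (Arm A B c v) := by
  have h1 := X_cont c v
  have h2 := (Y_cont c v).abs
  exact ((isOpen_lt continuous_const h1).inter (isOpen_lt h1 continuous_const)).inter
    (isOpen_lt h2 continuous_const)

/-- **the frontier of the union of two arms is connected** -/
theorem arms_frontier {A B : ℝ} (hA : 0 < A) (hB : 0 < B) {c u v : ℂ} (hu : u ≠ 0) (hv : v ≠ 0) :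
    IsPreconnected (frontier (Arm A B c u ∪ Arm A B c v)) := by
  have e : Arm A B c u ∪ Arm A B c v = {s | min (ga A B c u s) (ga A B c v s) < 1} := by
    ext s
    rw [mem_union, mem_arm hA hB, mem_arm hA hB, mem_ofPred_eq, min_lt_iff]
  rw [e]
  refine star_frontier (c := c) ((ga_cont A B c u).min (ga_cont A B c v)) (fun t w ht => ?_)
    (fun w hw => lt_min (ga_pos hA hB hu hw) (ga_pos hA hB hv hw))
  rw [ga_hom c u t w ht, ga_hom c v t w ht, mul_min_of_nonneg _ _ ht]

/-- a point of the frontier of an arm -/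
theorem arm_fr {A B : ℝ} {c v s : ℂ} (hs : s ∈ frontier (Arm A B c v)) :
    -A = X c v s ∨ X c v s = B ∨ |Y c v s| = A := by
  by_contra hc
  push Not at hc
  obtain ⟨h1, h2, h3⟩ := hc
  have ho := arm_open A B c v
  rw [frontier, ho.interior_eq] at hs
  have hcl : s ∈ {s | (-A ≤ X c v s ∧ X c v s ≤ B) ∧ |Y c v s| ≤ A} := by
    refine closure_minimal ?_ ?_ hs.1
    · rintro z ⟨⟨a1, a2⟩, a3⟩
      exact ⟨⟨a1.le, a2.le⟩, a3.le⟩
    · have h1 := X_cont c v
      have h2 := (Y_cont c v).abs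
      exact ((isClosed_le continuous_const h1).inter (isClosed_le h1 continuous_const)).inter
        (isClosed_le h2 continuous_const)
  apply hs.2
  exact ⟨⟨lt_of_le_of_ne hcl.1.1 h1, lt_of_le_of_ne hcl.1.2 h2⟩, lt_of_le_of_ne hcl.2 h3⟩

theorem arm_sub {A B A' B' : ℝ} (hA : A ≤ A') (hB : B ≤ B') (c v : ℂ) :
    Arm A B c v ⊆ Arm A' B' c v := by
  rintro z ⟨⟨a1, a2⟩, a3⟩
  exact ⟨⟨by linarith, by linarith⟩, by linarith⟩

theorem arm_cl {A B A' B' : ℝ} (hA : A < A') (hB : B < B') (c v : ℂ) :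
    closure (Arm A B c v) ⊆ Arm A' B' c v := by
  intro s hs
  have hcl : s ∈ {s | (-A ≤ X c v s ∧ X c v s ≤ B) ∧ |Y c v s| ≤ A} := by
    refine closure_minimal ?_ ?_ hs
    · rintro z ⟨⟨a1, a2⟩, a3⟩
      exact ⟨⟨a1.le, a2.le⟩, a3.le⟩
    · have h1 := X_cont c v
      have h2 := (Y_cont c v).abs
      exact ((isClosed_le continuous_const h1).inter (isClosed_le h1 continuous_const)).inter
        (isClosed_le h2 continuous_const)
  exact ⟨⟨by linarith [hcl.1.1], by linarith [hcl.1.2]⟩, by linarith [hcl.2]⟩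

/-- a point near a point of an arm -/
theorem arm_near {A B t : ℝ} {c v u z : ℂ} (hv : ‖v‖ = 1) (hu : u ∈ Arm A B c v)
    (hz : ‖z - u‖ ≤ t) : z ∈ Arm (A + t) (B + t) c v := by
  obtain ⟨⟨a1, a2⟩, a3⟩ := hu
  have h1 := (Crossx228.abs_X_sub c hv z u).trans hz
  have h2 := (Crossx228.abs_Y_sub c hv z u).trans hz
  rw [abs_le] at h1 h2
  rw [abs_lt] at a3
  refine ⟨⟨by linarith [h1.1], by linarith [h1.2]⟩, abs_lt.2 ⟨by linarith [h2.1], by linarith [h2.2]⟩⟩

/-- **an enlargement without sites on the frontier** -/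
theorem exists_t (S : Finset ℂ) (A B : ℝ) (c u v : ℂ) {lo hi : ℝ} (h : lo < hi) :
    ∃ t, (lo < t ∧ t < hi) ∧
      ∀ z ∈ frontier (Arm (A + t) (B + t) c u ∪ Arm (A + t) (B + t) c v), z ∉ S := by
  set f : ℂ → ℂ → Finset ℝ := fun v s => {-(X c v s) - A, X c v s - B, |Y c v s| - A} with hf
  set T : Finset ℝ := S.biUnion (fun s => f u s ∪ f v s) with hT
  obtain ⟨t, ht, htT⟩ := (Set.Ioo_infinite h).exists_notMem_finset T
  refine ⟨t, ht, fun z hz hzS => htT ?_⟩
  have key : ∀ v, z ∈ frontier (Arm (A + t) (B + t) c v) → t ∈ f v z := by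
    intro v hz
    rw [hf]
    simp only [Finset.mem_insert, Finset.mem_singleton]
    rcases arm_fr hz with h1 | h1 | h1
    · left; linarith
    · right; left; linarith
    · right; right; linarith
  rw [hT, Finset.mem_biUnion]
  refine ⟨z, hzS, Finset.mem_union.2 ?_⟩
  rcases frontier_union_subset _ _ hz with h1 | h1
  · exact Or.inl (key u h1.1)
  · exact Or.inr (key v h1.2)

/-! ### tiles -/

variable {S : Finset ℂ} {χ : ℂ → ZMod 2} {h A B m τ : ℝ} {M : ℕ} {W : ℤ → ℤ × ℤ}

theorem fa_mono {D C : Type} [Fintype D] [DecidableEq D] {M : CMap D C} {x : D → ZMod 2}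
    {R R' : Set D} {a b : D} (hR : R ⊆ R') (h : FA M x R a b) : FA M x R' a b := by
  obtain ⟨n, h1, h2⟩ := h
  exact ⟨n, h1, fun i hi => hR (h2 i hi)⟩

theorem rr_sub {A' B' : ℝ} (hA : A ≤ A') (hB : B ≤ B') (a : ℤ) :
    RR A B h W a ⊆ RR A' B' h W a :=
  union_subset_union (arm_sub hA hB _ _) (arm_sub hA hB _ _)

theorem rr_open (a : ℤ) : IsOpen (RR A B h W a) := (arm_open _ _ _ _).union (arm_open _ _ _ _)

theorem rr_near (F : FPath M W) {a : ℤ} {u z : ℂ} (hu : u ∈ RR A B h W a) (hz : ‖z - u‖ ≤ τ) :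
    z ∈ RR (A + τ) (B + τ) h W a := by
  rcases hu with hu | hu
  · exact Or.inl (arm_near (arm_l F a).norm hu hz)
  · exact Or.inr (arm_near (arm_r F a).norm hu hz)

/-- **confinement for a tile** -/
theorem conf_tile (hS : GP (S : Set ℂ)) (hχ : HullC S χ) (F : FPath M W) (a : ℤ) (hA : 0 < A)
    (hB : 0 < B) (hm : 0 ≤ m) (hmτ : m < τ)
    (hcov : ∀ z ∈ RR (A + τ) (B + τ) h W a, ∃ t ∈ delT S, z ∈ cT t)
    (hstep : ∀ u v, DE S u v → u ∈ RR A B h W a → v ∈ RR A B h W a → ‖u - v‖ ≤ m)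
    {y z y2 z2 : ℂ} {p q : D0 S} (hp : p.1 = (y, z)) (hq : q.1 = (y2, z2)) (col : χ y + χ z = 1)
    (hyA : y ∈ RR A B h W a) (hzA : z ∈ RR A B h W a) (hy2A : y2 ∈ RR A B h W a)
    (hz2A : z2 ∈ RR A B h W a)
    (hy : Relation.ReflTransGen (StC S χ (RR A B h W a)) y y2)
    (hz : Relation.ReflTransGen (StC S χ (RR A B h W a)) z z2) :
    FA (cm0 hS) (xc hS hχ) (RD S (RR (A + τ) (B + τ) h W a)) p q ∨
      FA (cm0 hS) (xc hS hχ) (RD S (RR (A + τ) (B + τ) h W a)) q p := by
  obtain ⟨t, ⟨t1, t2⟩, ht⟩ := exists_t S A B (cen h W a) (cz (W (a - 1) - W a))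
    (cz (W (a + 1) - W a)) hmτ
  have hsub : RR (A + t) (B + t) h W a ⊆ RR (A + τ) (B + τ) h W a :=
    rr_sub (by linarith) (by linarith) a
  have hRD : RD S (RR (A + t) (B + t) h W a) ⊆ RD S (RR (A + τ) (B + τ) h W a) :=
    fun d hd => ⟨hsub hd.1, hsub hd.2⟩
  have hcl : frontier (RR (A + t) (B + t) h W a) ⊆ RR (A + τ) (B + τ) h W a := by
    refine frontier_subset_closure.trans ?_
    unfold RR
    rw [closure_union]
    exact union_subset_union (arm_cl (by linarith) (by linarith) _ _)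
      (arm_cl (by linarith) (by linarith) _ _)
  have h1 := Conf2x686.conf_FA (A := RR A B h W a) (R := RR (A + t) (B + t) h W a) hS hχ
    (rr_open a)
    (arms_frontier (by linarith) (by linarith) (arm_l F a).ne0 (arm_r F a).ne0)
    (fun z hz => hcov z (hcl hz)) ht ?_ hp hq col hyA hzA hy2A hz2A hy hz
  · rcases h1 with h1 | h1
    · exact Or.inl (fa_mono hRD h1)
    · exact Or.inr (fa_mono hRD h1)
  · intro u v huv hu hv s hs
    refine rr_near F hu ?_
    have h2 : ‖s - u‖ ≤ ‖v - u‖ := by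
      have h3 := norm_sub_le_of_mem_segment hs
      exact h3
    rw [norm_sub_rev v u] at h2
    exact h2.trans ((hstep u v huv hu hv).trans t1.le)

end Crest.Agent.R143.ConfTx503
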