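import Mathlib

/-!
# Row 143: resampling along a stopping set (helper778; notes 3363, 3261, 3252, 3285)

`S` finite set of cells, `B` finite set of colours, `O : (S → B) → Finset S` a stopping set
(the cells revealed by an exploration).  `mix O σ τ` = `σ` on the revealed cells, `τ` elsewhere.

* `sum_mix`   : `mix O σ τ` is uniform when `σ`, `τ` are independent uniform;
* `sum_swap`  : `Σ g(σ) F(mix σ τ) = Σ g(mix σ τ) F(σ)`;
* `wt O g`    : `E[g | revealed cells]`; `wt_adp` adapted, `sum_wt` : `Σ wt g * F = Σ g * F` for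
                adapted `F`, and `sum_wt_gen` : `Σ wt g * F = 2^{-|S|} Σ_{σ,τ} g(σ) F(mix σ τ)`;
* `dens`      : if `σ` is fresh on `T` and only `K σ ⊆ Tᶜ` (a function of `σ` off `T`) has been
                revealed off `T`, then under `mix` the law is dominated by: `σ` on `K σ`, fresh
                elsewhere.
-/

set_option autoImplicit false
set_option linter.unusedSectionVars false

open scoped Classical

noncomputable section

namespace Crest.Agent.R143.Resax778

variable {S B : Type*} [Fintype S] [Fintype B]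

/-- stopping set -/
def StopSet (O : (S → B) → Finset S) : Prop := ∀ σ τ, (∀ s ∈ O σ, τ s = σ s) → O τ = O σ

/-- adapted function -/
def Adp {E : Type*} (O : (S → B) → Finset S) (F : (S → B) → E) : Prop :=
  ∀ σ τ, (∀ s ∈ O σ, τ s = σ s) → F τ = F σ

/-- `σ` on the finite set `K`, `τ` elsewhere -/
def glue (K : Finset S) (σ τ : S → B) : S → B := fun s => if s ∈ K then σ s else τ s

/-- `σ` on the revealed cells, `τ` elsewhere -/
def mix (O : (S → B) → Finset S) (σ τ : S → B) : S → B := glue (O σ) σ τ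

variable {O : (S → B) → Finset S} {σ τ : S → B}

theorem glue_on {K : Finset S} {s : S} (h : s ∈ K) : glue K σ τ s = σ s := if_pos h
theorem glue_off {K : Finset S} {s : S} (h : s ∉ K) : glue K σ τ s = τ s := if_neg h

theorem mix_on {s : S} (h : s ∈ O σ) : mix O σ τ s = σ s := if_pos h
theorem mix_off {s : S} (h : s ∉ O σ) : mix O σ τ s = τ s := if_neg h

theorem stop_mix (hO : StopSet O) (σ τ : S → B) : O (mix O σ τ) = O σ :=
  hO σ _ fun _ hs => mix_on hs


/-- exchange of the two configurations off the revealed cells -/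
def sw (O : (S → B) → Finset S) (p : (S → B) × (S → B)) : (S → B) × (S → B) :=
  (mix O p.1 p.2, glue (O p.1) p.2 p.1)

theorem sw_sw (hO : StopSet O) (p : (S → B) × (S → B)) : sw O (sw O p) = p := by
  obtain ⟨σ, τ⟩ := p
  have e := stop_mix hO σ τ
  unfold sw
  refine Prod.ext ?_ ?_
  · funext s
    show glue (O (mix O σ τ)) (mix O σ τ) (glue (O σ) τ σ) s = σ s
    rw [e]
    by_cases h : s ∈ O σ
    · rw [glue_on h, mix_on h]
    · rw [glue_off h, glue_off h]
  · funext s
    show glue (O (mix O σ τ)) (glue (O σ) τ σ) (mix O σ τ) s = τ s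
    rw [e]
    by_cases h : s ∈ O σ
    · rw [glue_on h, glue_on h]
    · rw [glue_off h, mix_off h]

/-- the exchange as a permutation -/
def swE (hO : StopSet O) : Equiv.Perm ((S → B) × (S → B)) where
  toFun := sw O
  invFun := sw O
  left_inv := sw_sw hO
  right_inv := sw_sw hO

variable {M : Type*} [AddCommMonoid M]

theorem sum_sw (hO : StopSet O) (F : (S → B) → (S → B) → M) :
    ∑ σ, ∑ τ, F (mix O σ τ) (glue (O σ) τ σ) = ∑ σ, ∑ τ, F σ τ := by
  rw [← Fintype.sum_prod_type' (f := fun σ τ => F (mix O σ τ) (glue (O σ) τ σ)),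
    ← Fintype.sum_prod_type' (f := fun σ τ => F σ τ)]
  exact Equiv.sum_comp (swE hO) fun p : (S → B) × (S → B) => F p.1 p.2

/-- **the resampled configuration is uniform** -/
theorem sum_mix (hO : StopSet O) (F : (S → B) → M) :
    ∑ σ, ∑ τ, F (mix O σ τ) = (Fintype.card B ^ Fintype.card S) • ∑ σ, F σ := by
  rw [sum_sw hO fun σ _ => F σ, Finset.smul_sum]
  refine Finset.sum_congr rfl fun σ _ => ?_
  rw [Finset.sum_const, Finset.card_univ, Fintype.card_fun]


/-- symmetry of the resampling -/
theorem sum_swap {R : Type*} [Semiring R] (hO : StopSet O) (g F : (S → B) → R) :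
    ∑ σ, ∑ τ, g σ * F (mix O σ τ) = ∑ σ, ∑ τ, g (mix O σ τ) * F σ := by
  have h := sum_sw hO fun σ τ => g (mix O σ τ) * F σ
  rw [← h]
  refine Finset.sum_congr rfl fun σ _ => Finset.sum_congr rfl fun τ _ => ?_
  congr 2
  have h2 := congrArg Prod.fst (sw_sw hO (σ, τ))
  exact h2.symm

/-! ### weights -/

section wt

variable {R : Type*} [Field R]

/-- `E[g | revealed cells]` -/
def wt (O : (S → B) → Finset S) (g : (S → B) → R) (σ : S → B) : R :=
  (∑ τ, g (mix O σ τ)) / ((Fintype.card B ^ Fintype.card S : ℕ) : R)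





end wt




/-! ### the exploration inside a fresh set -/

/-- **domination** : `σ` is fresh on `T` (the weight `g` and the set `K` only look at `σ` off `T`);
on the event `G` the cells revealed off `T` are exactly `K σ`.  Then `mix O σ τ` is dominated by
`σ` on `K σ`, fresh elsewhere. -/
theorem dens (hO : StopSet O) {T : Finset S} {K : (S → B) → Finset S}
    (hKT : ∀ σ, Disjoint (K σ) T)
    (hK : ∀ σ τ, (∀ s, s ∉ T → τ s = σ s) → K τ = K σ)
    {G : (S → B) → Prop} (hG : ∀ σ, G σ → O σ \ T = K σ)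
    {g : (S → B) → ℝ} (hg : ∀ σ τ, (∀ s, s ∉ T → τ s = σ s) → g τ = g σ) (hg0 : ∀ σ, 0 ≤ g σ)
    {F : (S → B) → (S → B) → ℝ} (hF0 : ∀ σ μ, 0 ≤ F σ μ)
    (hF : ∀ σ τ μ, (∀ s, s ∉ T → τ s = σ s) → F τ μ = F σ μ) :
    ∑ σ, ∑ τ, (if G σ then g σ * F σ (mix O σ τ) else 0) ≤
      ∑ σ, ∑ τ, g σ * F σ (glue (K σ) σ τ) := by
  -- the exchange on `O σ ∩ T`
  set f : (S → B) × (S → B) → (S → B) × (S → B) := fun p =>
    (glue (O p.1 ∩ T) p.2 p.1, glue (O p.1 ∩ T) p.1 p.2) with hf
  have f1 : ∀ p s, s ∉ T → (f p).1 s = p.1 s := fun p s hs =>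
    glue_off fun h => hs (Finset.mem_inter.1 h).2
  have key : ∀ p : (S → B) × (S → B), G p.1 →
      glue (K (f p).1) (f p).1 (f p).2 = mix O p.1 p.2 := by
    intro p hp
    have e : K (f p).1 = K p.1 := hK _ _ (f1 p)
    rw [e]
    funext s
    by_cases hs : s ∈ K p.1
    · have hsT : s ∉ T := Finset.disjoint_left.1 (hKT _) hs
      have hsO : s ∈ O p.1 := by
        rw [← hG _ hp] at hs
        exact (Finset.mem_sdiff.1 hs).1
      rw [glue_on hs, f1 p s hsT, mix_on hsO]
    · rw [glue_off hs]
      by_cases hsO : s ∈ O p.1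
      · have hsT : s ∈ T := by
          by_contra hT
          exact hs (by rw [← hG _ hp]; exact Finset.mem_sdiff.2 ⟨hsO, hT⟩)
        rw [mix_on hsO]
        exact glue_on (Finset.mem_inter.2 ⟨hsO, hsT⟩)
      · rw [mix_off hsO]
        exact glue_off fun h => hsO (Finset.mem_inter.1 h).1
  have inj : Set.InjOn f {p | G p.1} := by
    intro p hp q hq e
    have e1 : mix O p.1 p.2 = mix O q.1 q.2 := by rw [← key p hp, ← key q hq, e]
    have e2 : O p.1 = O q.1 := by rw [← stop_mix hO p.1 p.2, e1, stop_mix hO]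
    have a1 := congrArg Prod.fst e
    have a2 := congrArg Prod.snd e
    refine Prod.ext ?_ ?_
    · funext s
      by_cases hs : s ∈ O p.1 ∩ T
      · have h := congrFun a2 s
        have hs' : s ∈ O q.1 ∩ T := by rwa [← e2]
        rwa [show (f p).2 s = p.1 s from glue_on hs, show (f q).2 s = q.1 s from glue_on hs'] at h
      · have h := congrFun a1 s
        have hs' : s ∉ O q.1 ∩ T := by rwa [← e2]
        rwa [show (f p).1 s = p.1 s from glue_off hs,
          show (f q).1 s = q.1 s from glue_off hs'] at h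
    · funext s
      by_cases hs : s ∈ O p.1 ∩ T
      · have h := congrFun a1 s
        have hs' : s ∈ O q.1 ∩ T := by rwa [← e2]
        rwa [show (f p).1 s = p.2 s from glue_on hs, show (f q).1 s = q.2 s from glue_on hs'] at h
      · have h := congrFun a2 s
        have hs' : s ∉ O q.1 ∩ T := by rwa [← e2]
        rwa [show (f p).2 s = p.2 s from glue_off hs,
          show (f q).2 s = q.2 s from glue_off hs'] at h
  rw [← Fintype.sum_prod_type' (f := fun σ τ => if G σ then g σ * F σ (mix O σ τ) else 0),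
    ← Fintype.sum_prod_type' (f := fun σ τ => g σ * F σ (glue (K σ) σ τ))]
  rw [← Finset.sum_filter fun p : (S → B) × (S → B) => G p.1]
  set P : (S → B) × (S → B) → ℝ := fun q => g q.1 * F q.1 (glue (K q.1) q.1 q.2) with hP
  have e3 : ∑ p ∈ Finset.univ.filter (fun p : (S → B) × (S → B) => G p.1),
      g p.1 * F p.1 (mix O p.1 p.2) =
      ∑ p ∈ Finset.univ.filter (fun p : (S → B) × (S → B) => G p.1), P (f p) := by
    refine Finset.sum_congr rfl fun p hp => ?_
    have hp' : G p.1 := (Finset.mem_filter.1 hp).2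
    show _ = g (f p).1 * F (f p).1 (glue (K (f p).1) (f p).1 (f p).2)
    rw [key p hp', hg _ _ (f1 p), hF _ _ _ (f1 p)]
  have e4 : ∑ p ∈ Finset.univ.filter (fun p : (S → B) × (S → B) => G p.1), P (f p) =
      ∑ q ∈ (Finset.univ.filter (fun p : (S → B) × (S → B) => G p.1)).image f, P q :=
    (Finset.sum_image fun p hp q hq e =>
      inj (Finset.mem_filter.1 hp).2 (Finset.mem_filter.1 hq).2 e).symm
  rw [e3, e4]
  exact Finset.sum_le_sum_of_subset_of_nonneg (Finset.subset_univ _)
    fun p _ _ => mul_nonneg (hg0 _) (hF0 _ _)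

end Crest.Agent.R143.Resax778
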