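import Crest.Agent.R143.CorrD_117
import Crest.Agent.R143.Neck1_921
import Crest.Agent.R143.Idx_927

-- ▼ part R143/Sep1_686
section

/-!
# Row 143 (S0194), part A free route: SEPARATION (3b) of note 3646, planar tools (helper686)

* `off_site`, `asum_site`, `asum_off` : sites off a closed chain `l`; neighbours off `l` see `l` under
  the same angle; `asum_hull_site` : sites of the hull see it under the angle `0`
* `AdjC`, `OffZ`, **`sep_cell`** : no path of cells of `cm0 hS` off `l` joins a site of nonzero index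
  to the hull
* `cross_lk` : a horizontal chain meets every set which contains a vertical link
* **`neck_low`** : white sites joined to the upper arm inside the region of the two neighbouring tiles
  are above the level `b0` and not on the lower arm, if a black chain crosses a long window
-/

set_option autoImplicit false

noncomputable section

open scoped Classical

namespace Crest.Agent.R143.Sepx686

open Crest.Agent.R143.B0x346 Crest.Agent.R143.DelGx806 Crest.Agent.R143.DelRx806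
open Crest.Agent.R143.ToolWx838 Crest.Agent.R143.Blkx838 Crest.Agent.R143.ToolW2x838
open Crest.Agent.R143.ToolW3x838 Crest.Agent.R143.Gatex838 Crest.Agent.R143.Neckx921
open Crest.Agent.R143.Frame1x395 Crest.Agent.R143.Frame2x395 Crest.Agent.R143.Frame3x395
  Crest.Agent.R143.Frame4x395 Crest.Agent.R143.Frame8x395 Crest.Agent.R143.Frame9x395
  Crest.Agent.R143.Frame10x395 Crest.Agent.R143.Frame11x395
open Crest.Agent.R143.Frame5x395 (sd mem_sd th th_spec)

variable {S : Finset ℂ} {l : List ℂ}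

/-! ### sites -/

/-- a site which is not on the chain is off all its edges -/
theorem off_site (hS : GP (S : Set ℂ)) (hl : Loop S l) {s : ℂ} (hs : s ∈ S) (h : s ∉ l) :
    Off s l := by
  intro p hp hseg
  have m := mem_of_prs hp
  rcases edge_vertex hS (hl.del p hp) hs hseg with h1 | h1
  · exact h (h1 ▸ m.1)
  · exact h (h1 ▸ m.2)

/-- neighbours off the chain see it under the same angle -/
theorem asum_site (hS : GP (S : Set ℂ)) (hl : Loop S l) {u v : ℂ} (h : DE S u v) (hu : u ∉ l)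
    (hv : v ∉ l) : asum u l = asum v l := by
  by_contra hne
  obtain ⟨s, hs1, hs2⟩ := site_of_ne hS hl (q := [u, v])
    (by intro p hp; simp only [prs_cons, prs_one, List.mem_singleton] at hp; rw [hp]; exact h)
    (by simp) (by simpa using hne)
  simp only [List.mem_cons, List.not_mem_nil, or_false] at hs2
  rcases hs2 with rfl | rfl
  · exact hu hs1
  · exact hv hs1

/-- sites joined off the chain see it under the same angle -/
theorem asum_off (hS : GP (S : Set ℂ)) (hl : Loop S l) {u v : ℂ}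
    (h : Relation.ReflTransGen (fun a b => DE S a b ∧ a ∉ l ∧ b ∉ l) u v) :
    asum u l = asum v l := by
  induction h with
  | refl => rfl
  | tail _ h1 ih => exact ih.trans (asum_site hS hl h1.1 h1.2.1 h1.2.2)

/-- a link off the chain -/
theorem asum_lk (hS : GP (S : Set ℂ)) (hl : Loop S l) {A : Set ℂ} (hA : ∀ s ∈ A, s ∉ l) {u v : ℂ}
    (h : Lk S A u v) : asum u l = asum v l :=
  asum_off hS hl (Relation.ReflTransGen.mono (fun _ _ h => ⟨h.1, hA _ h.2.1, hA _ h.2.2⟩) _ _ h.2)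

/-- the sites of the hull see the chain under the angle `0` -/
theorem asum_onHull (hS : GP (S : Set ℂ)) (hl : Loop S l) (hlS : ∀ s ∈ l, s ∈ S) {v : ℂ}
    (h : OnHull S v) (hv : v ∉ l) : asum v l = 0 := by
  obtain ⟨a, h⟩ := h
  have hav : Avoid l (a, v) :=
    ⟨fun hp => hv (mem_of_prs hp).2, fun hp => hv (mem_of_prs hp).1⟩
  have hde : DE S a v := Or.inl h.1
  have hvS : v ∈ S := by
    obtain ⟨c, hc⟩ := h.1
    exact (mem_delT.1 hc).2.1
  rw [← asum_hull hS hl hlS h hav]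
  refine asum_seg hl.closed fun z hz => ?_
  obtain ⟨s, t, hs, ht, hst, rfl⟩ := hz
  rcases ht.lt_or_eq with ht | ht
  · have hs' : s = 1 - t := by linarith
    refine off_side hS hl hde hav (s := t / 2) (t := 1 - t / 2) (by linarith) (by linarith)
      (by ring) ?_
    subst hs'
    unfold mid
    simp only [Complex.real_smul]
    push_cast
    ring
  · have e : s • v + t • mid (a, v) = v := by
      rw [← ht, show s = 1 by linarith]; simp
    rw [e]
    exact off_site hS hl hvS hv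

/-! ### cells -/

/-- neighbouring cells -/
def AdjC {D C : Type} (M : CMap D C) (a b : C) : Prop :=
  ∃ d, (M.cell d = a ∧ M.cell (M.rho d) = b) ∨ (M.cell d = b ∧ M.cell (M.rho d) = a)

/-- joined by cells off `Z` -/
def OffZ {D C : Type} (M : CMap D C) (Z : Set C) : C → C → Prop :=
  Relation.ReflTransGen fun a b => AdjC M a b ∧ a ∉ Z ∧ b ∉ Z

theorem cell_eq (hS : GP (S : Set ℂ)) (d : D0 S) :
    (cm0 hS).cell d = Quot.mk (hullE S) d.1.1 := rfl


theorem de_dart (d : D0 S) : DE S d.1.1 d.1.2 := Or.inl (mem_sd.1 d.2)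

theorem dart_mem (d : D0 S) : d.1.1 ∈ S ∧ d.1.2 ∈ S := by
  obtain ⟨c, hc⟩ := mem_sd.1 d.2
  exact ⟨(mem_delT.1 hc).1, (mem_delT.1 hc).2.1⟩

/-- neighbours of an inner site -/
theorem adj_inner (hS : GP (S : Set ℂ)) {u : ℂ} (hu : ¬ OnHull S u) {b : Quot (hullE S)}
    (h : AdjC (cm0 hS) (Quot.mk _ u) b) : ∃ w, DE S u w ∧ b = Quot.mk _ w := by
  obtain ⟨d, h | h⟩ := h
  · have e : d.1.1 = u := quot_inner hS hu h.1.symm
    refine ⟨d.1.2, ?_, h.2.symm⟩
    rw [← e]; exact de_dart d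
  · have e : d.1.2 = u := quot_inner hS hu h.2.symm
    refine ⟨d.1.1, ?_, h.1.symm⟩
    rw [← e]; exact (de_dart d).symm

/-- **separation**: the cells which are joined off the closed chain `l` to a site of nonzero index are
inner sites with the same index -/
theorem sep_cell (hS : GP (S : Set ℂ)) (hl : Loop S l) (hlS : ∀ s ∈ l, s ∈ S)
    {Z : Set (Quot (hullE S))} (hZ : ∀ s ∈ l, (Quot.mk _ s : Quot (hullE S)) ∈ Z) {v : ℂ}
    (hv : ¬ OnHull S v) (h0 : asum v l ≠ 0) {c : Quot (hullE S)}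
    (h : OffZ (cm0 hS) Z (Quot.mk _ v) c) :
    ∃ u, c = Quot.mk _ u ∧ ¬ OnHull S u ∧ asum u l = asum v l := by
  induction h with
  | refl => exact ⟨v, rfl, hv, rfl⟩
  | tail _ h1 ih =>
    obtain ⟨u, rfl, hu, hau⟩ := ih
    obtain ⟨hadj, hz1, hz2⟩ := h1
    obtain ⟨w, hde, rfl⟩ := adj_inner hS hu hadj
    have hul : u ∉ l := fun h => hz1 (hZ u h)
    have hwl : w ∉ l := fun h => hz2 (hZ w h)
    have e := asum_site hS hl hde hul hwl
    refine ⟨w, rfl, fun hw => ?_, e.symm.trans hau⟩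
    rw [asum_onHull hS hl hlS hw hwl, hau] at e
    exact h0 e

/-- **separation**, hull form -/
theorem sep_hull (hS : GP (S : Set ℂ)) (hl : Loop S l) (hlS : ∀ s ∈ l, s ∈ S)
    {Z : Set (Quot (hullE S))} (hZ : ∀ s ∈ l, (Quot.mk _ s : Quot (hullE S)) ∈ Z) {v w : ℂ}
    (hv : ¬ OnHull S v) (h0 : asum v l ≠ 0) (hw : OnHull S w) :
    ¬ OffZ (cm0 hS) Z (Quot.mk _ v) (Quot.mk _ w) := by
  intro h
  obtain ⟨u, h1, h2, -⟩ := sep_cell hS hl hlS hZ hv h0 h
  have : w = u := quot_inner hS h2 h1.symm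
  exact h2 (this ▸ hw)

/-! ### links and crossings -/

/-- a link is a list of sites -/
theorem lk_to_list {A : Set ℂ} {u v : ℂ} (h : Lk S A u v) :
    ∃ q : List ℂ, ∃ hq : q ≠ [], (∀ p ∈ prs q, DE S p.1 p.2) ∧ (∀ s ∈ q, s ∈ A) ∧
      q.head hq = u ∧ q.getLast hq = v := by
  obtain ⟨⟨hu, hv⟩, h⟩ := h
  induction h with
  | refl => exact ⟨[u], by simp, by simp, by simpa using hu, rfl, rfl⟩
  | tail _ h1 ih =>
    rename_i w1 w2 _
    obtain ⟨q, hq, h2, h3, h4, h5⟩ := ih h1.2.1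
    refine ⟨q ++ [w2], by simp, ?_, ?_, ?_, by simp⟩
    · rw [← isChain_iff_prs, List.isChain_append]
      refine ⟨(isChain_iff_prs (R := DE S) q).2 h2, by simp, ?_⟩
      intro x hx y hy
      rw [List.getLast?_eq_some_getLast hq] at hx
      simp only [Option.mem_def, Option.some.injEq, List.head?_cons] at hx hy
      rw [← hx, ← hy, h5]
      exact h1.1
    · intro s hs
      rcases List.mem_append.1 hs with h | h
      · exact h3 s h
      · rw [List.mem_singleton] at h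
        rw [h]; exact h1.2.2
    · rw [List.head_append_of_ne_nil hq, h4]

/-- a horizontal crossing meets a vertical link -/
theorem cross_lk (hS : GP (S : Set ℂ)) {z0 e : ℂ} (he : e ≠ 0) {x0 x1 y0 y1 : ℝ} {P : List ℂ}
    (hP : P ≠ []) (dP : ∀ p ∈ prs P, DE S p.1 p.2)
    (hPy : ∀ a ∈ P, y0 < Y z0 e a ∧ Y z0 e a < y1) (hP0 : X z0 e (P.head hP) ≤ x0)
    (hP1 : x1 ≤ X z0 e (P.getLast hP)) {A : Set ℂ} (hA : ∀ a ∈ A, x0 < X z0 e a ∧ X z0 e a < x1)
    {u v : ℂ} (h : Lk S A u v) (hu : Y z0 e u ≤ y0) (hv : y1 ≤ Y z0 e v) : ∃ s, s ∈ P ∧ s ∈ A := by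
  obtain ⟨q, hq, h2, h3, h4, h5⟩ := lk_to_list h
  obtain ⟨s, hs1, hs2⟩ := cross_e hS he hP hq dP h2 hPy (fun a ha => hA a (h3 a ha)) hP0 hP1
    (by rw [h4]; exact hu) (by rw [h5]; exact hv)
  exact ⟨s, hs1, h3 s hs2⟩

/-- **the white sites joined to the upper arm of a neck are above the level `b0` and not on the lower
arm**, if a black chain `P` crosses the long window `x0 < X < x1` inside the strip -/
theorem neck_low (hS : GP (S : Set ℂ)) {z0 e : ℂ} (he : e ≠ 0) {a0 a1 b0 b1 m x0 x1 : ℝ}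
    {V β : Finset ℂ} {up dn : List ℂ} {y : ℂ} (N : Neck S z0 e a0 a1 b0 b1 m V β up y dn)
    (h0 : x0 ≤ a0) (h1 : a1 ≤ x1) {P : List ℂ} (hP : P ≠ []) (dP : ∀ p ∈ prs P, DE S p.1 p.2)
    (cP : ∀ s ∈ P, s ∈ β) (hPy : ∀ a ∈ P, b0 < Y z0 e a ∧ Y z0 e a < b1)
    (hP0 : X z0 e (P.head hP) ≤ x0) (hP1 : x1 ≤ X z0 e (P.getLast hP)) {W : Set ℂ}
    (hW : ∀ s ∈ W, (x0 < X z0 e s ∧ X z0 e s < x1) ∧ s ∉ β) {r : ℂ}
    (h : Lk S W (up.getLast N.nu) r) : b0 < Y z0 e r ∧ r ∉ dn := by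
  have hadj := N.adj
  rw [← isChain_iff_prs, List.isChain_append] at hadj
  obtain ⟨c1, c2, -⟩ := hadj
  have hwin : ∀ s ∈ up ++ y :: dn, x0 < X z0 e s ∧ X z0 e s < x1 := fun s hs =>
    ⟨h0.trans_lt (N.win s hs).1.1, (N.win s hs).1.2.trans_le h1⟩
  have hup : ∀ s ∈ up, x0 < X z0 e s ∧ X z0 e s < x1 := fun s hs =>
    hwin s (List.mem_append_left _ hs)
  have hdn : ∀ s ∈ dn, x0 < X z0 e s ∧ X z0 e s < x1 := fun s hs =>
    hwin s (List.mem_append_right _ (List.mem_cons_of_mem _ hs))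
  -- the upper arm
  set U : Set ℂ := {s | s ∈ up ∨ s ∈ W} with hU
  have l1 : Lk S U (up.head N.nu) r := by
    refine Lk.trans (v := up.getLast N.nu) ?_ (h.mono fun s hs => Or.inr hs)
    exact lk_list ((isChain_iff_prs (R := DE S) up).1 c1) (fun s hs => Or.inl hs)
      (List.head_mem _) (List.getLast_mem _)
  constructor
  · by_contra hr
    push Not at hr
    obtain ⟨s, hs1, hs2⟩ := cross_lk hS he hP dP hPy hP0 hP1 (A := U)
      (by
        rintro s (hs | hs)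
        · exact hup s hs
        · exact (hW s hs).1) l1.symm hr N.top
    rcases hs2 with hs2 | hs2
    · exact (N.cu s hs2).2 (cP s hs1)
    · exact (hW s hs2).2 (cP s hs1)
  · intro hr
    have l2 : Lk S {s | s ∈ U ∨ s ∈ dn} (dn.getLast N.nd) (up.head N.nu) := by
      refine Lk.trans (v := r) ?_ (l1.symm.mono fun s hs => Or.inl hs)
      exact lk_list ((isChain_iff_prs (R := DE S) dn).1 c2.tail) (fun s hs => Or.inr hs)
        (List.getLast_mem _) hr
    obtain ⟨s, hs1, hs2⟩ := cross_lk hS he hP dP hPy hP0 hP1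
      (by
        rintro s ((hs | hs) | hs)
        · exact hup s hs
        · exact (hW s hs).1
        · exact hdn s hs) l2 N.bot N.top
    rcases hs2 with (hs2 | hs2) | hs2
    · exact (N.cu s hs2).2 (cP s hs1)
    · exact (hW s hs2).2 (cP s hs1)
    · exact (N.cd s hs2 (hPy s hs1).1).2 (cP s hs1)

end Crest.Agent.R143.Sepx686
end
end

-- ▼ part R143/Sep2_686
section

/-!
# Row 143 (S0194), part A free route: SEPARATION (3b) of note 3646, the closed white chain (helper686)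

* `RS`, `LS` : right and left sites of the walk from `e` up to the time `m`
* `right_lk`, `left_lk` : they are chains of Delaunay neighbours of one colour
* `far_side` : the closed chain misses the neck and its lower arm
-/

set_option autoImplicit false

noncomputable section

open scoped Classical

namespace Crest.Agent.R143.Sepx686

open Crest.Agent.R143.B0x346 Crest.Agent.R143.DelGx806 Crest.Agent.R143.DelRx806
open Crest.Agent.R143.JColx54 (delT_rot)
open Crest.Agent.R143.ToolWx838 Crest.Agent.R143.Blkx838 Crest.Agent.R143.ToolW2x838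
open Crest.Agent.R143.ToolW3x838 Crest.Agent.R143.Gatex838 Crest.Agent.R143.Neckx921
open Crest.Agent.R143.Frame1x395 Crest.Agent.R143.Frame2x395 Crest.Agent.R143.Frame3x395
  Crest.Agent.R143.Frame4x395 Crest.Agent.R143.Frame8x395 Crest.Agent.R143.Frame9x395
  Crest.Agent.R143.Frame10x395 Crest.Agent.R143.Frame11x395
open Crest.Agent.R143.Frame5x395 (sd mem_sd th th_spec)
open Crest.Agent.R143.Splx117 Crest.Agent.R143.WLocx713 Crest.Agent.R143.RingDx117
  Crest.Agent.R143.CorrDx117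

variable {S : Finset ℂ} {χ : ℂ → ZMod 2}

/-- left sites up to the time `m` -/
def LS (S : Finset ℂ) (χ : ℂ → ZMod 2) (e : ℂ × ℂ) (m : ℕ) : Set ℂ :=
  {s | ∃ i ≤ m, s = ((nx S χ)^[i] e).1}

/-- right sites up to the time `m` -/
def RS (S : Finset ℂ) (χ : ℂ → ZMod 2) (e : ℂ × ℂ) (m : ℕ) : Set ℂ :=
  {s | ∃ i ≤ m, s = ((nx S χ)^[i] e).2}

theorem z_r : ∀ a b c : ZMod 2, a + b = 1 → b + c ≠ 1 → c = b := by decide
theorem z_l : ∀ a b c : ZMod 2, a + b = 1 → b + c = 1 → c = a := by decide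

/-- one step of the walk -/
theorem nx_step (hS : GP (S : Set ℂ)) {e : ℂ × ℂ} (h : Occ S χ e) :
    ((nx S χ e).1 = e.1 ∨ DE S e.1 (nx S χ e).1) ∧ ((nx S χ e).2 = e.2 ∨ DE S e.2 (nx S χ e).2) ∧
      χ (nx S χ e).1 = χ e.1 ∧ χ (nx S χ e).2 = χ e.2 := by
  obtain ⟨a, b⟩ := e
  obtain ⟨h1, h2⟩ := h
  have t1 := th_spec h1
  have t2 := delT_rot hS t1
  have t3 := delT_rot hS t2
  unfold nx
  split_ifs with hc
  · exact ⟨Or.inr (Or.inr ⟨b, t3⟩), Or.inl rfl, z_l _ _ _ h2 hc, rfl⟩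
  · exact ⟨Or.inl rfl, Or.inr (Or.inl ⟨a, t2⟩), rfl, z_r _ _ _ h2 hc⟩

theorem lk_de {A : Set ℂ} {u v : ℂ} (hu : u ∈ A) (hv : v ∈ A) (h : v = u ∨ DE S u v) :
    Lk S A u v := by
  rcases h with h | h
  · rw [h]; exact Lk.refl hu
  · exact ⟨⟨hu, hv⟩, .single ⟨h, hu, hv⟩⟩

theorem LS_mono {e : ℂ × ℂ} {m m' : ℕ} (h : m ≤ m') : LS S χ e m ⊆ LS S χ e m' :=
  fun _ ⟨i, hi, h1⟩ => ⟨i, hi.trans h, h1⟩

theorem RS_mono {e : ℂ × ℂ} {m m' : ℕ} (h : m ≤ m') : RS S χ e m ⊆ RS S χ e m' :=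
  fun _ ⟨i, hi, h1⟩ => ⟨i, hi.trans h, h1⟩

/-- the left sites are a chain of one colour -/
theorem left_lk (hS : GP (S : Set ℂ)) (hχ : HullC S χ) {e : ℂ × ℂ} (h : Occ S χ e) (m : ℕ) :
    Lk S (LS S χ e m) e.1 ((nx S χ)^[m] e).1 ∧ χ ((nx S χ)^[m] e).1 = χ e.1 := by
  induction m with
  | zero => exact ⟨Lk.refl ⟨0, le_rfl, rfl⟩, rfl⟩
  | succ m ih =>
    have h1 := nx_step hS (h.it hS hχ m)
    rw [Function.iterate_succ_apply']
    refine ⟨(ih.1.mono (LS_mono (Nat.le_succ m))).trans (lk_de ⟨m, Nat.le_succ m, rfl⟩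
      ⟨m + 1, le_rfl, by rw [Function.iterate_succ_apply']⟩ h1.1), h1.2.2.1.trans ih.2⟩

/-- the right sites are a chain of one colour -/
theorem right_lk (hS : GP (S : Set ℂ)) (hχ : HullC S χ) {e : ℂ × ℂ} (h : Occ S χ e) (m : ℕ) :
    Lk S (RS S χ e m) e.2 ((nx S χ)^[m] e).2 ∧ χ ((nx S χ)^[m] e).2 = χ e.2 := by
  induction m with
  | zero => exact ⟨Lk.refl ⟨0, le_rfl, rfl⟩, rfl⟩
  | succ m ih =>
    have h1 := nx_step hS (h.it hS hχ m)
    rw [Function.iterate_succ_apply']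
    refine ⟨(ih.1.mono (RS_mono (Nat.le_succ m))).trans (lk_de ⟨m, Nat.le_succ m, rfl⟩
      ⟨m + 1, le_rfl, by rw [Function.iterate_succ_apply']⟩ h1.2.1), h1.2.2.2.trans ih.2⟩

theorem LS_col (hS : GP (S : Set ℂ)) (hχ : HullC S χ) {e : ℂ × ℂ} (h : Occ S χ e) {m : ℕ} {s : ℂ}
    (hs : s ∈ LS S χ e m) : χ s = χ e.1 := by
  obtain ⟨i, -, rfl⟩ := hs
  exact (left_lk hS hχ h i).2

theorem RS_col (hS : GP (S : Set ℂ)) (hχ : HullC S χ) {e : ℂ × ℂ} (h : Occ S χ e) {m : ℕ} {s : ℂ}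
    (hs : s ∈ RS S χ e m) : χ s = χ e.2 := by
  obtain ⟨i, -, rfl⟩ := hs
  exact (right_lk hS hχ h i).2

/-- the left sites are linked to the first one -/
theorem LS_lk (hS : GP (S : Set ℂ)) (hχ : HullC S χ) {e : ℂ × ℂ} (h : Occ S χ e) {m : ℕ} {s : ℂ}
    (hs : s ∈ LS S χ e m) : Lk S (LS S χ e m) e.1 s := by
  obtain ⟨i, hi, rfl⟩ := hs
  exact (left_lk hS hχ h i).1.mono (LS_mono hi)

theorem RS_lk (hS : GP (S : Set ℂ)) (hχ : HullC S χ) {e : ℂ × ℂ} (h : Occ S χ e) {m : ℕ} {s : ℂ}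
    (hs : s ∈ RS S χ e m) : Lk S (RS S χ e m) e.2 s := by
  obtain ⟨i, hi, rfl⟩ := hs
  exact (right_lk hS hχ h i).1.mono (RS_mono hi)

/-- **an arc inside `B`**: the walk from `p` to `q` -/
theorem fa_sets (hS : GP (S : Set ℂ)) (hχ : HullC S χ) {B : Set ℂ} {p q : D0 S}
    (hp : χ p.1.1 + χ p.1.2 = 1) (h : FA (cm0 hS) (xc hS hχ) (RD S B) p q) :
    Occ S χ p.1 ∧ ∃ m, (stp (cm0 hS) (xc hS hχ))^[m] p = q ∧ (nx S χ)^[m] p.1 = q.1 ∧
      LS S χ p.1 m ⊆ B ∧ RS S χ p.1 m ⊆ B := by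
  obtain ⟨m, h1, h2⟩ := h
  have key : ∀ i, ((stp (cm0 hS) (xc hS hχ))^[i] p).1 = (nx S χ)^[i] p.1 := it_eq hS hχ hp
  refine ⟨⟨p.2, hp⟩, m, h1, by rw [← key, h1], ?_, ?_⟩
  · rintro s ⟨i, hi, rfl⟩
    rw [← key]
    exact (h2 i hi).1
  · rintro s ⟨i, hi, rfl⟩
    rw [← key]
    exact (h2 i hi).2

/-! ### the corridor -/

section corr

variable {hS : GP (S : Set ℂ)} {hχ : HullC S χ} {n : ℕ} {y z : ℕ → ℂ} {A B : ℕ → Set ℂ}
  {p : ℕ → D0 S}

theorem stc_col {A : Set ℂ} {a b : ℂ} (h : Relation.ReflTransGen (StC S χ A) a b) : χ a = χ b := by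
  induction h with
  | refl => rfl
  | tail _ h1 ih => exact ih.trans h1.2.1

/-- the colour of the gates -/
theorem col_y (D : DCorr hS hχ n y z A B p) {k : ℕ} (hk : k ≤ n) : χ (y k) = χ (y 0) := by
  induction k with
  | zero => rfl
  | succ k ih => rw [← ih (by omega)]; exact (stc_col (D.link k (by omega))).symm

theorem z1 : ∀ a b : ZMod 2, a + b = 1 → b ≠ a := by decide
theorem z2 : ∀ a b c : ZMod 2, a + b = 1 → a = c → b ≠ c := by decide

theorem col_z (D : DCorr hS hχ n y z A B p) {k : ℕ} (hk : k ≤ n) : χ (z k) ≠ χ (y 0) :=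
  z2 _ _ _ (D.col k hk) (col_y D hk)

theorem occ_p (D : DCorr hS hχ n y z A B p) {k : ℕ} (hk : k ≤ n) : Occ S χ (p k).1 := by
  refine ⟨(p k).2, ?_⟩
  rw [D.st k hk]
  exact D.col k hk

/-- **the arcs of the corridor, walked with decreasing index**: the time from `p (k + 1)` to `p k` -/
structure Back (D : DCorr hS hχ n y z A B p) (t : ℕ → ℕ) : Prop where
  arr : ∀ k, k < n → (nx S χ)^[t k] (p (k + 1)).1 = (p k).1
  lB : ∀ k, k < n → LS S χ (p (k + 1)).1 (t k) ⊆ B k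
  rB : ∀ k, k < n → RS S χ (p (k + 1)).1 (t k) ⊆ B k

theorem exists_back (D : DCorr hS hχ n y z A B p)
    (hb : ∀ k, k < n → FA (cm0 hS) (xc hS hχ) (RD S (B k)) (p (k + 1)) (p k)) :
    ∃ t, Back D t := by
  have h : ∀ k, ∃ m, k < n → (nx S χ)^[m] (p (k + 1)).1 = (p k).1 ∧
      LS S χ (p (k + 1)).1 m ⊆ B k ∧ RS S χ (p (k + 1)).1 m ⊆ B k := by
    intro k
    by_cases hk : k < n
    · obtain ⟨-, m, -, h2, h3, h4⟩ := fa_sets hS hχ (by
        rw [D.st (k + 1) (by omega)]; exact D.col (k + 1) (by omega)) (hb k hk)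
      exact ⟨m, fun _ => ⟨h2, h3, h4⟩⟩
    · exact ⟨0, fun h => absurd h hk⟩
  choose t ht using h
  exact ⟨t, fun k hk => (ht k hk).1, fun k hk => (ht k hk).2.1, fun k hk => (ht k hk).2.2⟩

variable {D : DCorr hS hχ n y z A B p} {t : ℕ → ℕ}

/-- the right sites of an arc are linked to both of its ends -/
theorem Back.rlk (T : Back D t) {k : ℕ} (hk : k < n) {s : ℂ}
    (hs : s ∈ RS S χ (p (k + 1)).1 (t k)) :
    Lk S (RS S χ (p (k + 1)).1 (t k)) (z (k + 1)) s ∧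
      Lk S (RS S χ (p (k + 1)).1 (t k)) (z k) s := by
  have ho := occ_p D (show k + 1 ≤ n by omega)
  have e1 : (p (k + 1)).1.2 = z (k + 1) := by rw [D.st (k + 1) (by omega)]
  have e0 : (p k).1.2 = z k := by rw [D.st k (by omega)]
  have h1 := RS_lk hS hχ ho hs
  have h2 := (right_lk hS hχ ho (t k)).1
  rw [T.arr k hk, e0] at h2
  rw [e1] at h1 h2
  exact ⟨h1, h2.symm.trans h1⟩

/-- the left sites of an arc are linked to both of its ends -/
theorem Back.llk (T : Back D t) {k : ℕ} (hk : k < n) {s : ℂ}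
    (hs : s ∈ LS S χ (p (k + 1)).1 (t k)) :
    Lk S (LS S χ (p (k + 1)).1 (t k)) (y (k + 1)) s ∧
      Lk S (LS S χ (p (k + 1)).1 (t k)) (y k) s := by
  have ho := occ_p D (show k + 1 ≤ n by omega)
  have e1 : (p (k + 1)).1.1 = y (k + 1) := by rw [D.st (k + 1) (by omega)]
  have e0 : (p k).1.1 = y k := by rw [D.st k (by omega)]
  have h1 := LS_lk hS hχ ho hs
  have h2 := (left_lk hS hχ ho (t k)).1
  rw [T.arr k hk, e0] at h2
  rw [e1] at h1 h2
  exact ⟨h1, h2.symm.trans h1⟩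

theorem Back.rcol (_T : Back D t) {k : ℕ} (hk : k < n) {s : ℂ}
    (hs : s ∈ RS S χ (p (k + 1)).1 (t k)) : χ s ≠ χ (y 0) := by
  rw [RS_col hS hχ (occ_p D (show k + 1 ≤ n by omega)) hs, D.st (k + 1) (by omega)]
  exact col_z D (by omega)

theorem Back.lcol (_T : Back D t) {k : ℕ} (hk : k < n) {s : ℂ}
    (hs : s ∈ LS S χ (p (k + 1)).1 (t k)) : χ s = χ (y 0) := by
  rw [LS_col hS hχ (occ_p D (show k + 1 ≤ n by omega)) hs, D.st (k + 1) (by omega)]
  exact col_y D (by omega)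

/-- all sites of the colour of the corridor have the same index -/
theorem Back.idx_left (T : Back D t) {cw : List ℂ} (hl : Loop S cw)
    (hc : ∀ s ∈ cw, χ s ≠ χ (y 0)) {k : ℕ} (hk : k < n) {s : ℂ}
    (hs : s ∈ LS S χ (p (k + 1)).1 (t k)) : asum s cw = asum (y k) cw :=
  (asum_lk hS hl (fun s' hs' h => hc s' h (T.lcol hk hs')) (T.llk hk hs).2).symm

theorem idx_y (D : DCorr hS hχ n y z A B p) {cw : List ℂ} (hl : Loop S cw)
    (hc : ∀ s ∈ cw, χ s ≠ χ (y 0)) {k : ℕ} (hk : k ≤ n) : asum (y k) cw = asum (y 0) cw := by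
  induction k with
  | zero => rfl
  | succ k ih =>
    rw [← ih (by omega)]
    have h1 := D.link k (by omega)
    have h0 := col_y D (show k ≤ n by omega)
    symm
    have key : ∀ b, Relation.ReflTransGen (StC S χ (A k)) (y k) b →
        χ b = χ (y 0) ∧ asum (y k) cw = asum b cw := by
      intro b h
      induction h with
      | refl => exact ⟨h0, rfl⟩
      | tail _ h2 ih2 =>
        have h3 := ih2.1
        have h4 := h2.2.1.symm.trans h3
        exact ⟨h4, ih2.2.trans (asum_site hS hl h2.1 (fun h => hc _ h h3) (fun h => hc _ h h4))⟩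
    exact (key _ h1).2

/-- the four links around the gate `k0` -/
theorem links4 (D : DCorr hS hχ n y z A B p) {k0 : ℕ} (h2 : 2 ≤ k0) (h3 : k0 + 2 ≤ n) {G : Set ℂ}
    (hG : ∀ j, k0 ≤ j + 2 → j < k0 + 2 → ∀ s ∈ S, s ∈ A j → χ s = χ (y 0) → s ∈ G) :
    Lk S G (y (k0 - 2)) (y (k0 + 2)) := by
  have one : ∀ j, k0 ≤ j + 2 → j < k0 + 2 → Lk S G (y j) (y (j + 1)) := by
    intro j hj hj'
    have h0 := col_y D (show j ≤ n by omega)
    have key : ∀ b, Relation.ReflTransGen (StC S χ (A j)) (y j) b →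
        χ b = χ (y 0) ∧ Lk S G (y j) b := by
      intro b h
      induction h with
      | refl => exact ⟨h0, Lk.refl (hG j hj hj' _ (D.yS (by omega)) (D.mem0 j (by omega)) h0)⟩
      | tail _ h4 ih =>
        rename_i b1 b2 _
        have h5 := ih.1
        have h6 := h4.2.1.symm.trans h5
        obtain ⟨m1, m2⟩ := de_sites h4.1
        have g1 := hG j hj hj' _ m1 h4.2.2.1 h5
        have g2 := hG j hj hj' _ m2 h4.2.2.2 h6
        exact ⟨h6, ih.2.trans ⟨⟨g1, g2⟩, .single ⟨h4.1, g1, g2⟩⟩⟩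
    exact (key _ (D.link j (by omega))).2
  have e : k0 = k0 - 2 + 2 := by omega
  obtain ⟨k, rfl⟩ : ∃ k, k0 = k + 2 := ⟨k0 - 2, e⟩
  have := (((one k (by omega) (by omega)).trans (one (k + 1) (by omega) (by omega))).trans
    (one (k + 2) (by omega) (by omega))).trans (one (k + 3) (by omega) (by omega))
  exact this

/-- **the closed white chain misses the neck `y k0` and its lower arm** -/
theorem Back.miss (T : Back D t) (hS' : GP (S : Set ℂ)) {k0 : ℕ} (h2 : 2 ≤ k0) (h3 : k0 + 2 ≤ n)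
    {z0 e : ℂ} (he : e ≠ 0) {a0 a1 b0 b1 m x0 x1 : ℝ} {V β : Finset ℂ} {up dn : List ℂ}
    (N : Neck S z0 e a0 a1 b0 b1 m V β up (y k0) dn) (hup : up.getLast N.nu = z k0)
    (h0 : x0 ≤ a0) (h1 : a1 ≤ x1)
    (hβ : ∀ j, k0 ≤ j + 2 → j < k0 + 2 → ∀ s ∈ S, s ∈ A j → χ s = χ (y 0) → s ∈ β)
    (hβ' : ∀ s ∈ β, χ s = χ (y 0))
    (hA : ∀ j, k0 ≤ j + 2 → j < k0 + 2 → ∀ s ∈ S, s ∈ A j → b0 < Y z0 e s ∧ Y z0 e s < b1)
    (hX0 : X z0 e (y (k0 - 2)) ≤ x0) (hX1 : x1 ≤ X z0 e (y (k0 + 2)))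
    (hB : ∀ j, k0 ≤ j + 1 → j < k0 + 1 → ∀ s ∈ S, s ∈ B j → x0 < X z0 e s ∧ X z0 e s < x1)
    (hfar : ∀ j, j < n → j ≠ k0 → j + 1 ≠ k0 → ∀ s ∈ dn, s ∉ B j) {k : ℕ} (hk : k < n) {r : ℂ}
    (hr : r ∈ RS S χ (p (k + 1)).1 (t k)) :
    r ≠ y k0 ∧ r ∉ dn ∧ (k = k0 ∨ k + 1 = k0 → b0 < Y z0 e r) := by
  have hcol := T.rcol hk hr
  have hy : r ≠ y k0 := by
    rintro rfl
    exact hcol (col_y D (by omega))
  by_cases hk0 : k = k0 ∨ k + 1 = k0
  · -- the black chain
    obtain ⟨P, hP, dP, mP, P0, P1⟩ := lk_to_list (links4 D h2 h3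
      (G := {s | s ∈ β ∧ b0 < Y z0 e s ∧ Y z0 e s < b1})
      (fun j hj hj' s hsS hs hc => ⟨hβ j hj hj' s hsS hs hc, hA j hj hj' s hsS hs⟩))
    have hlk : Lk S (RS S χ (p (k + 1)).1 (t k)) (up.getLast N.nu) r := by
      rw [hup]
      rcases hk0 with h | h
      · rw [← h]; exact (T.rlk hk hr).2
      · rw [← h]; exact (T.rlk hk hr).1
    have hWS : ∀ s ∈ RS S χ (p (k + 1)).1 (t k), s ∈ S := by
      rintro s ⟨i, -, rfl⟩
      have ho := (occ_p D (show k + 1 ≤ n by omega)).it hS hχ i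
      have := th_spec ho.1
      exact (mem_delT.1 this).2.1
    obtain ⟨g1, g2⟩ := neck_low hS' he N h0 h1 hP dP (fun s hs => (mP s hs).1)
      (fun s hs => (mP s hs).2) (by rw [P0]; exact hX0) (by rw [P1]; exact hX1)
      (W := RS S χ (p (k + 1)).1 (t k))
      (fun s hs => ⟨hB k (by omega) (by omega) s (hWS s hs) (T.rB k hk hs),
        fun h => T.rcol hk hs (hβ' s h)⟩) hlk
    exact ⟨hy, g2, fun _ => g1⟩
  · refine ⟨hy, fun h => ?_, fun h => absurd h hk0⟩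
    push Not at hk0
    exact hfar k hk hk0.1 hk0.2 r h (T.rB k hk hr)

/-- **the neck and the lower end of its arm have the same index** -/
theorem neck_idx (hS : GP (S : Set ℂ)) {z0 e : ℂ} {a0 a1 b0 b1 m : ℝ} {V β : Finset ℂ}
    {up dn : List ℂ} {y : ℂ} (N : Neck S z0 e a0 a1 b0 b1 m V β up y dn) {cw : List ℂ}
    (hl : Loop S cw) (hy : y ∉ cw) (hd : ∀ s ∈ dn, s ∉ cw) :
    asum y cw = asum (dn.getLast N.nd) cw := by
  have hadj := N.adj
  rw [← isChain_iff_prs, List.isChain_append] at hadj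
  have h1 : Lk S {s | s ∈ y :: dn} y (dn.getLast N.nd) :=
    lk_list ((isChain_iff_prs (R := DE S) (y :: dn)).1 hadj.2.1) (fun s hs => hs) (by simp)
      (List.mem_cons_of_mem _ (List.getLast_mem _))
  refine asum_lk hS hl (fun s hs => ?_) h1
  rcases List.mem_cons.1 hs with h | h
  · rw [h]; exact hy
  · exact hd s h

end corr

end Crest.Agent.R143.Sepx686
end
end

-- ▼ part R143/Sep3_686

/-!
# Row 143 (S0194), part A free route: **SEPARATION** (3b) of note 3646 (helper686; index half helper927)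

* `PRing` : the pieces of the closed white chain: right sites of the arcs `k < n` (from `z k` to
  `z (k + 1)`), white links in the tiles `n ≤ j < N`
* **`sep_chain`** : a closed white chain `cw` in (right sites of the arcs) ∪ (white sites of the
  closing tiles), of index `-2π` at all points of `K`, at all gates and at all left sites of the arcs
* **`sep_ext`** : no path of cells off `Z ⊇ cw` joins a left site of the arcs or a site of `K` to the
  hull
-/

set_option autoImplicit false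

noncomputable section

open scoped Classical

namespace Crest.Agent.R143.Sepx686

open Crest.Agent.R143.B0x346 Crest.Agent.R143.DelGx806 Crest.Agent.R143.DelRx806
open Crest.Agent.R143.ToolWx838 Crest.Agent.R143.Blkx838 Crest.Agent.R143.ToolW2x838
open Crest.Agent.R143.ToolW3x838 Crest.Agent.R143.Gatex838 Crest.Agent.R143.Neckx921
open Crest.Agent.R143.Frame1x395 Crest.Agent.R143.Frame2x395 Crest.Agent.R143.Frame3x395
  Crest.Agent.R143.Frame4x395 Crest.Agent.R143.Frame8x395 Crest.Agent.R143.Frame9x395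
  Crest.Agent.R143.Frame10x395 Crest.Agent.R143.Frame11x395
open Crest.Agent.R143.Frame5x395 (sd mem_sd th th_spec)
open Crest.Agent.R143.Splx117 Crest.Agent.R143.WLocx713 Crest.Agent.R143.RingDx117
  Crest.Agent.R143.CorrDx117
open Crest.Agent.R143.Idxx927 (RingP cyc wl)

variable {S : Finset ℂ} {χ : ℂ → ZMod 2} {hS : GP (S : Set ℂ)} {hχ : HullC S χ} {n N : ℕ}
  {y z : ℕ → ℂ} {A B : ℕ → Set ℂ} {p : ℕ → D0 S}

/-- the pieces exist -/
theorem exists_pieces {N : ℕ} (hN : 3 ≤ N) {x : ℕ → ℂ} (hx : ∀ j, x (j + N) = x j) {Q RR : ℕ → Set ℂ}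
    (hQ : ∀ j, j < N → Lk S (Q j) (x j) (x (j + 1)))
    (hseg : ∀ j, j < N → ∀ u v, DE S u v → u ∈ Q j → v ∈ Q j → segment ℝ u v ⊆ RR j) :
    ∃ P : ℕ → List ℂ, RingP N x P RR ∧ Loop S (cyc N P) ∧ (∀ s ∈ cyc N P, ∃ j, j < N ∧ s ∈ Q j) ∧
      ∀ j, j < N → ∀ s ∈ P j, s ∈ Q j := by
  have hxm : ∀ j, x (j % N) = x j := by
    have h1 : ∀ q r, x (r + q * N) = x r := by
      intro q r
      induction q with
      | zero => simp
      | succ q ih =>
        have e : r + (q + 1) * N = (r + q * N) + N := by ring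
        rw [e, hx, ih]
    intro j
    conv_rhs => rw [← Nat.mod_add_div j N, mul_comm]
    exact (h1 _ _).symm
  have hxm1 : ∀ j, x (j % N + 1) = x (j + 1) := by
    intro j
    rw [← hxm (j + 1), ← hxm (j % N + 1), Nat.mod_add_mod]
  have h : ∀ j, ∃ q : List ℂ, j < N → ∃ hq : q ≠ [], (∀ p ∈ prs q, DE S p.1 p.2) ∧
      (∀ s ∈ q, s ∈ Q j) ∧ q.head hq = x j ∧ q.getLast hq = x (j + 1) := by
    intro j
    by_cases hj : j < N
    · obtain ⟨q, hq, h1⟩ := lk_to_list (hQ j hj)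
      exact ⟨q, fun _ => ⟨hq, h1⟩⟩
    · exact ⟨[], fun h => absurd h hj⟩
  choose P0 hP0 using h
  have hm : ∀ j, j % N < N := fun j => Nat.mod_lt _ (by omega)
  have H : RingP N x (fun j => P0 (j % N)) RR :=
    { hN := hN
      per := fun j => by show P0 ((j + N) % N) = _; rw [Nat.add_mod_right]
      hd := fun j => by
        obtain ⟨hq, -, -, h3, -⟩ := hP0 (j % N) (hm j)
        show (P0 (j % N)).head? = _
        rw [List.head?_eq_some_head hq, h3, hxm]
      lst := fun j => by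
        obtain ⟨hq, -, -, -, h4⟩ := hP0 (j % N) (hm j)
        show (P0 (j % N)).getLast? = _
        rw [List.getLast?_eq_some_getLast hq, h4, hxm1]
      reg := fun j hj p hp z hz => by
        rw [Nat.mod_eq_of_lt hj] at hp
        obtain ⟨hq, h1, h2, -, -⟩ := hP0 j hj
        have m := mem_of_prs hp
        exact hseg j hj _ _ (h1 p hp) (h2 _ m.1) (h2 _ m.2) hz }
  refine ⟨fun j => P0 (j % N), H, H.loop ?_, ?_, ?_⟩
  · intro j hj p hp
    rw [Nat.mod_eq_of_lt hj] at hp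
    obtain ⟨hq, h1, h2, -, -⟩ := hP0 j hj
    exact h1 p hp
  · intro s hs
    obtain ⟨j, hj, h⟩ := H.mem.1 hs
    rw [Nat.mod_eq_of_lt hj] at h
    obtain ⟨hq, h1, h2, -, -⟩ := hP0 j hj
    exact ⟨j, hj, h2 s h⟩
  · intro j hj s hs
    have hs' : s ∈ P0 (j % N) := hs
    rw [Nat.mod_eq_of_lt hj] at hs'
    obtain ⟨hq, h1, h2, -, -⟩ := hP0 j hj
    exact h2 s hs'

/-- sets of the sites of the pieces: right sites of the arcs, white sites of the closing tiles -/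
def QQ (S : Finset ℂ) (χ : ℂ → ZMod 2) (n : ℕ) (p : ℕ → D0 S) (t : ℕ → ℕ) (W : ℕ → Set ℂ) (j : ℕ) :
    Set ℂ := if j < n then RS S χ (p (j + 1)).1 (t j) else W j

theorem RS_S (D : DCorr hS hχ n y z A B p) {k : ℕ} (hk : k < n) {m : ℕ} {s : ℂ}
    (hs : s ∈ RS S χ (p (k + 1)).1 m) : s ∈ S := by
  obtain ⟨i, -, rfl⟩ := hs
  have ho := (occ_p D (show k + 1 ≤ n by omega)).it hS hχ i
  have := th_spec ho.1
  exact (mem_delT.1 this).2.1

theorem LS_S (D : DCorr hS hχ n y z A B p) {k : ℕ} (hk : k < n) {m : ℕ} {s : ℂ}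
    (hs : s ∈ LS S χ (p (k + 1)).1 m) : s ∈ S := by
  obtain ⟨i, -, rfl⟩ := hs
  have ho := (occ_p D (show k + 1 ≤ n by omega)).it hS hχ i
  have := th_spec ho.1
  exact (mem_delT.1 this).1

/-- hypotheses on the inner gate `k0` -/
structure InG (S : Finset ℂ) (χ : ℂ → ZMod 2) (n : ℕ) (y z : ℕ → ℂ) (A B : ℕ → Set ℂ) (k0 : ℕ)
    (z0 e : ℂ) (a0 a1 b0 b1 m x0 x1 : ℝ) (V β : Finset ℂ) (up dn : List ℂ) : Prop where
  h2 : 2 ≤ k0
  h3 : k0 + 2 ≤ n
  he : e ≠ 0
  neck : Neck S z0 e a0 a1 b0 b1 m V β up (y k0) dn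
  upz : up.getLast neck.nu = z k0
  x0a : x0 ≤ a0
  a1x : a1 ≤ x1
  β1 : ∀ j, k0 ≤ j + 2 → j < k0 + 2 → ∀ s ∈ S, s ∈ A j → χ s = χ (y 0) → s ∈ β
  β2 : ∀ s ∈ β, χ s = χ (y 0)
  strip : ∀ j, k0 ≤ j + 2 → j < k0 + 2 → ∀ s ∈ S, s ∈ A j → b0 < Y z0 e s ∧ Y z0 e s < b1
  left : X z0 e (y (k0 - 2)) ≤ x0
  right : x1 ≤ X z0 e (y (k0 + 2))
  mid : ∀ j, k0 ≤ j + 1 → j < k0 + 1 → ∀ s ∈ S, s ∈ B j → x0 < X z0 e s ∧ X z0 e s < x1
  farB : ∀ j, j < n → j ≠ k0 → j + 1 ≠ k0 → ∀ s ∈ dn, s ∉ B j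

/-- **SEP, the closed white chain** -/
theorem sep_chain (D : DCorr hS hχ n y z A B p) {t : ℕ → ℕ} (T : Back D t) {N : ℕ} (hN : 3 ≤ N)
    (_hn : n ≤ N) {k0 : ℕ} {z0 e : ℂ} {a0 a1 b0 b1 m x0 x1 : ℝ} {V β : Finset ℂ} {up dn : List ℂ}
    (G : InG S χ n y z A B k0 z0 e a0 a1 b0 b1 m x0 x1 V β up dn)
    -- white links of the closing tiles
    {x : ℕ → ℂ} (hxz : ∀ k, k ≤ n → x k = z k) (hxN : ∀ j, x (j + N) = x j) {W : ℕ → Set ℂ}
    (hW : ∀ j, n ≤ j → j < N → Lk S (W j) (x j) (x (j + 1)))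
    (hWS : ∀ j, n ≤ j → j < N → ∀ s ∈ W j, s ∈ S ∧ χ s ≠ χ (y 0) ∧ s ∉ dn)
    -- regions
    {RR : ℕ → Set ℂ}
    (hsB : ∀ j, j < n → ∀ u v, DE S u v → u ∈ B j → v ∈ B j → segment ℝ u v ⊆ RR j)
    (hsW : ∀ j, n ≤ j → j < N → ∀ u v, DE S u v → u ∈ W j → v ∈ W j → segment ℝ u v ⊆ RR j)
    -- the extreme gate `k1 + 1`
    {k1 : ℕ} {z1 e1 : ℂ} (he1 : e1 ≠ 0) {y0 y1 : ℝ} (h01 : y0 ≤ y1)
    (hM : ∀ j, j = k1 % N ∨ j = (k1 + 1) % N → ∀ s ∈ S, (j < n → s ∈ B j) → (n ≤ j → s ∈ W j) →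
      y0 < Y z1 e1 s ∧ Y z1 e1 s < y1)
    (ha : X z1 e1 (x k1) < 0) (hb : 0 < X z1 e1 (x (k1 + 2)))
    (hWl : ∀ j, k1 + 2 ≤ j → j < k1 + N → ∀ t, y0 ≤ t → t ≤ y1 → wl z1 e1 t ∉ RR (j % N))
    (hray : ∀ j, j < N → ∀ t, y1 ≤ t → wl z1 e1 t ∉ RR j)
    -- the inner side
    {K : Set ℂ} (hK : IsPreconnected K)
    (hKR : ∀ w ∈ K, ∀ j, j < N → w ∈ RR j → (j = k0 ∨ j + 1 = k0) ∧ Y z0 e w ≤ b0)
    (hw : wl z1 e1 y0 ∈ K) (hdn : dn.getLast G.neck.nd ∈ K) :
    ∃ cw : List ℂ, Loop S cw ∧ (∀ s ∈ cw, s ∈ S) ∧ (∀ s ∈ cw, χ s ≠ χ (y 0)) ∧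
      (∀ s ∈ cw, (∃ k, k < n ∧ s ∈ RS S χ (p (k + 1)).1 (t k)) ∨ ∃ j, n ≤ j ∧ j < N ∧ s ∈ W j) ∧
      (∀ w ∈ K, asum w cw = -(2 * Real.pi)) ∧ (∀ k, k ≤ n → asum (y k) cw = -(2 * Real.pi)) ∧
      ∀ k, k < n → ∀ s ∈ LS S χ (p (k + 1)).1 (t k), asum s cw = -(2 * Real.pi) := by
  obtain ⟨h2, h3, he, neck, upz, x0a, a1x, β1, β2, strip, left, right, mid, farB⟩ := G
  have miss : ∀ k, k < n → ∀ r ∈ RS S χ (p (k + 1)).1 (t k), r ≠ y k0 ∧ r ∉ dn ∧
      (k = k0 ∨ k + 1 = k0 → b0 < Y z0 e r) := fun k hk r hr =>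
    T.miss hS h2 h3 he neck upz x0a a1x β1 β2 strip left right mid farB hk hr
  -- the pieces
  set RR' : ℕ → Set ℂ := fun j => {w | w ∈ RR j ∧ ((j = k0 ∨ j + 1 = k0) → b0 < Y z0 e w)} with hRR'
  have hQ : ∀ j, j < N → Lk S (QQ S χ n p t W j) (x j) (x (j + 1)) := by
    intro j hj
    unfold QQ
    split_ifs with hjn
    · rw [hxz j (by omega), hxz (j + 1) (by omega)]
      have ho := occ_p D (show j + 1 ≤ n by omega)
      have h1 := (right_lk hS hχ ho (t j)).1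
      rw [T.arr j hjn, D.st j (by omega)] at h1
      rw [show (p (j + 1)).1.2 = z (j + 1) by rw [D.st (j + 1) (by omega)]] at h1
      exact h1.symm
    · exact hW j (by omega) hj
  obtain ⟨P, H, hl, hmem, hPQ⟩ := exists_pieces (RR := RR') hN hxN hQ (by
    intro j hj u v hde hu hv w hw'
    unfold QQ at hu hv
    by_cases hjn : j < n
    · rw [if_pos hjn] at hu hv
      refine ⟨hsB j hjn u v hde (T.rB j hjn hu) (T.rB j hjn hv) hw', fun hj0 => ?_⟩
      have g1 := (miss j hjn u hu).2.2 hj0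
      have g2 := (miss j hjn v hv).2.2 hj0
      obtain ⟨s, t', hs, ht, hst, rfl⟩ := hw'
      have e1 : Y z0 e (s • u + t' • v) = s * Y z0 e u + t' * Y z0 e v := by
        unfold Y
        have hs' : s = 1 - t' := by linarith
        subst hs'
        have : (((1 - t' : ℝ) • u + t' • v - z0) / e : ℂ) =
            ((1 - t' : ℝ) : ℂ) * ((u - z0) / e) + (t' : ℂ) * ((v - z0) / e) := by
          simp only [Complex.real_smul]
          push_cast
          field_simp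
          ring
        rw [this, Complex.add_im, Complex.im_ofReal_mul, Complex.im_ofReal_mul]
      rw [e1]
      rcases hs.lt_or_eq with hs0 | hs0
      · have k1 := mul_lt_mul_of_pos_left g1 hs0
        have k2 := mul_le_mul_of_nonneg_left g2.le ht
        have k3 : s * b0 + t' * b0 = b0 := by rw [← add_mul, hst, one_mul]
        linarith
      · have k3 : t' = 1 := by linarith
        rw [← hs0, k3]
        linarith
    · rw [if_neg hjn] at hu hv
      exact ⟨hsW j (by omega) hj u v hde hu hv hw', fun hj0 => by omega⟩)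
  have hcS : ∀ s ∈ cyc N P, s ∈ S := by
    intro s hs
    obtain ⟨j, hj, h⟩ := hmem s hs
    unfold QQ at h
    by_cases hjn : j < n
    · rw [if_pos hjn] at h; exact RS_S D hjn h
    · rw [if_neg hjn] at h; exact (hWS j (by omega) hj s h).1
  have hcc : ∀ s ∈ cyc N P, χ s ≠ χ (y 0) := by
    intro s hs
    obtain ⟨j, hj, h⟩ := hmem s hs
    unfold QQ at h
    by_cases hjn : j < n
    · rw [if_pos hjn] at h; exact T.rcol hjn h
    · rw [if_neg hjn] at h; exact (hWS j (by omega) hj s h).2.1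
  have hdnc : ∀ s ∈ dn, s ∉ cyc N P := by
    intro s hsd hs
    obtain ⟨j, hj, h⟩ := hmem s hs
    unfold QQ at h
    by_cases hjn : j < n
    · rw [if_pos hjn] at h; exact (miss j hjn s h).2.1 hsd
    · rw [if_neg hjn] at h; exact (hWS j (by omega) hj s h).2.2 hsd
  have hKi : ∀ w ∈ K, asum w (cyc N P) = -(2 * Real.pi) := by
    intro w hwK
    refine H.index (z0 := z1) he1 h01 k1 ?_ ha hb ?_ ?_ hK ?_ hw hwK
    · intro s hs
      have key : ∀ j, s ∈ P (j % N) → j % N = k1 % N ∨ j % N = (k1 + 1) % N →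
          y0 < Y z1 e1 s ∧ Y z1 e1 s < y1 := by
        intro j hsj hj1
        have hjN : j % N < N := Nat.mod_lt _ (by omega)
        have hq := hPQ _ hjN s hsj
        have hsS : s ∈ S := hcS s (H.mem.2 ⟨_, hjN, hsj⟩)
        refine hM _ hj1 s hsS ?_ ?_
        · intro hjn
          unfold QQ at hq
          rw [if_pos hjn] at hq
          exact T.rB _ hjn hq
        · intro hjn
          unfold QQ at hq
          rwa [if_neg (by omega)] at hq
      rcases hs with hs | hs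
      · rw [Idxx927.per_mod H] at hs
        exact key k1 hs (Or.inl rfl)
      · rw [Idxx927.per_mod H] at hs
        exact key (k1 + 1) hs (Or.inr rfl)
    · intro j h1 h4 t1 h5 h6 h7
      exact hWl j h1 h4 t1 h5 h6 h7.1
    · intro j hj t1 h5 h7
      exact hray j hj t1 h5 h7.1
    · intro w hw j hj h7
      obtain ⟨h8, h9⟩ := hKR w hw j hj h7.1
      exact absurd (h7.2 h8) (not_lt.2 h9)
  have hy0 : asum (y k0) (cyc N P) = -(2 * Real.pi) := by
    rw [neck_idx hS neck hl (fun h => hcc _ h (col_y D (by omega))) hdnc]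
    exact hKi _ hdn
  have hyk : ∀ k, k ≤ n → asum (y k) (cyc N P) = -(2 * Real.pi) := by
    intro k hk
    rw [idx_y D hl hcc hk, ← idx_y D hl hcc (show k0 ≤ n by omega), hy0]
  refine ⟨cyc N P, hl, hcS, hcc, ?_, hKi, hyk, ?_⟩
  · intro s hs
    obtain ⟨j, hj, h⟩ := hmem s hs
    unfold QQ at h
    by_cases hjn : j < n
    · rw [if_pos hjn] at h; exact Or.inl ⟨j, hjn, h⟩
    · rw [if_neg hjn] at h; exact Or.inr ⟨j, by omega, hj, h⟩
  · intro k hk s hs
    rw [T.idx_left hl hcc hk hs, hyk k hk.le]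


end Crest.Agent.R143.Sepx686
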