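import Crest.Agent.R143.Idx_927
import Crest.Agent.R143.Ext_358
import Crest.Agent.R143.Frame10_395
import Crest.Agent.R143.Sep3_686
import Crest.Agent.R143.TileR2_228
import Crest.Agent.R143.ConfT_503

-- ▼ part R143/SepE_927
section

/-!
# Row 143 (S0194), R4 / SEP: from the index of a closed white chain to `Sep` of `Ext_358` on `cm0 hS`
(helper927)

* `iq` : index of the cells of `cm0 hS` (total angle of the closed chain `c`; `0` on the hull)
* `ad_de`, `iq_ad` : constant along edges off the chain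
* `left_step`, `left_all` : the left cells of a walker are black and have the index of the first one
* `sep_end`, `sep_walk` : `Sep (cm0 hS) (hc S) Z AL`
* `not_ext` : a site of non zero index is not in `Ext`; `ext_iq`
* `asum_black` : the index is constant along black chains
-/

set_option autoImplicit false

noncomputable section

open scoped Classical

namespace Crest.Agent.R143.SepEx927

open Crest.Agent.R143.B0x346 Crest.Agent.R143.DelGx806 Crest.Agent.R143.DelRx806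
open Crest.Agent.R143.ToolWx838 Crest.Agent.R143.Blkx838 Crest.Agent.R143.Idxx927
open Crest.Agent.R143.Frame1x395 Crest.Agent.R143.Frame8x395 Crest.Agent.R143.Frame10x395
open Crest.Agent.R143.Frame5x395 (sd mem_sd)
open Crest.Agent.R143.Extx358 Crest.Agent.R143.Gatex838

variable {S : Finset ℂ}

/-- the hull cells -/
def hc (S : Finset ℂ) : Set (Quot (hullE S)) := {q | ∃ h, OnHull S h ∧ q = Quot.mk _ h}

/-- index of a cell -/
def iq (hS : GP (S : Set ℂ)) {c : List ℂ} (hh : ∀ h, OnHull S h → asum h c = 0) :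
    Quot (hullE S) → ℝ :=
  Quot.lift (fun s => asum s c) (by
    intro a b hab
    show asum a c = asum b c
    rw [hh a (onHull_left hS hab), hh b ⟨a, hab⟩])

@[simp] theorem iq_mk (hS : GP (S : Set ℂ)) {c : List ℂ} (hh : ∀ h, OnHull S h → asum h c = 0)
    (s : ℂ) : iq hS hh (Quot.mk _ s) = asum s c := rfl

theorem iq_hull (hS : GP (S : Set ℂ)) {c : List ℂ} (hh : ∀ h, OnHull S h → asum h c = 0)
    {q : Quot (hullE S)} (hq : q ∈ hc S) : iq hS hh q = 0 := by
  obtain ⟨h, h1, rfl⟩ := hq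
  exact hh h h1

/-- adjacent cells have adjacent sites -/
theorem ad_de (hS : GP (S : Set ℂ)) {q q' : Quot (hullE S)} (h : Ad (cm0 hS) q q') :
    ∃ a b, q = Quot.mk _ a ∧ q' = Quot.mk _ b ∧ DE S a b := by
  obtain ⟨d, hd, rfl, rfl⟩ := h
  obtain ⟨c, hc⟩ := mem_sd.1 d.2
  exact ⟨d.1.1, d.1.2, rfl, rfl, Or.inl ⟨c, hc⟩⟩

/-- cells of a closed chain -/
def cw (S : Finset ℂ) (c : List ℂ) : Set (Quot (hullE S)) := {q | ∃ s ∈ c, q = Quot.mk _ s}

/-- the index is constant along the edges off the chain -/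
theorem iq_ad (hS : GP (S : Set ℂ)) {c : List ℂ} (hl : Loop S c)
    (hh : ∀ h, OnHull S h → asum h c = 0) {q q' : Quot (hullE S)} (h : Ad (cm0 hS) q q')
    (h1 : q ∉ cw S c) (h2 : q' ∉ cw S c) : iq hS hh q = iq hS hh q' := by
  obtain ⟨a, b, rfl, rfl, hab⟩ := ad_de hS h
  have ha : a ∉ c := fun h3 => h1 ⟨a, h3, rfl⟩
  have hb : b ∉ c := fun h3 => h2 ⟨b, h3, rfl⟩
  exact (asum_off hS hl ha (Relation.ReflTransGen.single ⟨hab, hb⟩)).1


/-- the index is `0` on `Ext` -/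
theorem ext_iq (hS : GP (S : Set ℂ)) {c : List ℂ} (hl : Loop S c)
    (hh : ∀ h, OnHull S h → asum h c = 0) {Z : Set (Quot (hullE S))} (hZ : cw S c ⊆ Z)
    {q : Quot (hullE S)} (hq : Ext (cm0 hS) (hc S) Z q) : iq hS hh q = 0 :=
  ext_index hZ (fun _ _ h h1 h2 => iq_ad hS hl hh h h1 h2) (fun _ hq _ => iq_hull hS hh hq) hq

/-- a site of non zero index is not in `Ext` -/
theorem not_ext (hS : GP (S : Set ℂ)) {c : List ℂ} (hl : Loop S c)
    (hh : ∀ h, OnHull S h → asum h c = 0) {Z : Set (Quot (hullE S))} (hZ : cw S c ⊆ Z)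
    {u : ℂ} (hu : asum u c ≠ 0) : ¬ Ext (cm0 hS) (hc S) Z (Quot.mk _ u) :=
  fun h => hu (ext_iq hS hl hh hZ h)

/-! ### left cells -/

section walker

variable {D C : Type} [Fintype D] {M : CMap D C} {χ : C → ZMod 2}




end walker




end Crest.Agent.R143.SepEx927
end
end

-- ▼ part R143/SepL_686

/-!
# Row 143 (S0194), part A free route: SEPARATION along a fine path (helper686)

Box (b) of CorrI_831: `sep_chain` on 228's fine path `W` (tiles `RR A B h W a`, gates `gz`, `ge`).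

* `SGeo` : geometry (one inner gate `k0` in a straight run, one extreme gate `k1 + 1`, the inner side
  `K0`)
* `sepL_chain` : the closed white chain
* **`sepL`** : `Extx358.Sep` for the left cells of the loop, and no site of `K0` is in `Ext`
-/

set_option autoImplicit false

noncomputable section

open scoped Classical

namespace Crest.Agent.R143.SepLx686

open Crest.Agent.R143.B0x346 Crest.Agent.R143.DelGx806 Crest.Agent.R143.DelRx806
open Crest.Agent.R143.ToolWx838 Crest.Agent.R143.Blkx838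
open Crest.Agent.R143.ToolW3x838 Crest.Agent.R143.Gatex838 Crest.Agent.R143.Neckx921
open Crest.Agent.R143.Frame1x395 Crest.Agent.R143.Frame2x395 Crest.Agent.R143.Frame3x395
  Crest.Agent.R143.Frame4x395 Crest.Agent.R143.Frame8x395 Crest.Agent.R143.Frame9x395
  Crest.Agent.R143.Frame10x395 Crest.Agent.R143.Frame11x395
open Crest.Agent.R143.Frame5x395 (sd mem_sd th th_spec)
open Crest.Agent.R143.Splx117 Crest.Agent.R143.WLocx713 Crest.Agent.R143.RingDx117
  Crest.Agent.R143.CorrDx117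
open Crest.Agent.R143.Idxx927 (RingP cyc wl X_wl Y_wl)
open Crest.Agent.R143.TileRx228
open Crest.Agent.R143.Sepx686

variable {S : Finset ℂ} {M n k0 k1 : ℕ} {W : ℤ → ℤ × ℤ} {A B h b1 m ρ τ κ : ℝ} {o : ℤ} {K0 : Set ℂ}

/-- **geometry of the separation** -/
structure SGeo (S : Finset ℂ) (M n k0 k1 : ℕ) (W : ℤ → ℤ × ℤ) (A B h b1 m ρ τ κ : ℝ) (o : ℤ)
    (K0 : Set ℂ) : Prop where
  fp : FPath M W
  A0 : 0 < A
  AB : A ≤ B
  Bh : h / 2 < B
  b1A : A ≤ b1
  m0 : 0 ≤ m
  ρ0 : 0 ≤ ρ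
  ρτ : ρ < τ
  τκ : τ < κ
  b1κ : b1 + m < A + κ
  hh : A + B + 2 * κ < h
  edge : ∀ a u v, DE S u v → u ∈ RR (A + ρ) (B + ρ) h W a → v ∈ RR (A + ρ) (B + ρ) h W a →
    ‖v - u‖ ≤ τ - ρ
  inn : ∀ a, ∀ s ∈ S, s ∈ RR (A + ρ) (B + ρ) h W a → ¬ OnHull S s
  k3 : 3 ≤ k0
  kn : k0 + 3 ≤ n
  nM : n < M
  st : ∀ a : ℤ, o + k0 - 2 ≤ a → a ≤ o + k0 + 1 → ge W (a + 1) = ge W a
  k1M : k1 < M
  st1 : ge W (o + k1 + 1) = ge W (o + k1)
  st2 : ge W (o + k1 + 1 + 1) = ge W (o + k1 + 1)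
  ext : ∀ a s, s ∈ RR (A + τ) (B + τ) h W a →
    Y (gz h W (o + k1 + 1)) (ge W (o + k1 + 1)) s < A + τ
  K0pre : IsPreconnected K0
  K0off : ∀ w ∈ K0, ∀ a, w ∉ RR (A + τ) (B + τ) h W a
  K0k : wl (gz h W (o + k0)) (ge W (o + k0)) (-(A + τ)) ∈ K0
  K0e : wl (gz h W (o + k1 + 1)) (ge W (o + k1 + 1)) (-(A + τ)) ∈ K0

/-- regions of a tile with a periodic index -/
theorem RR_mod (P : FPath M W) (A B h : ℝ) (o : ℤ) (j : ℕ) :
    RR A B h W (o + (j % M : ℕ)) = RR A B h W (o + j) := by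
  have h1 : ∀ (q : ℕ) (a : ℤ), RR A B h W (a + q * M) = RR A B h W a := by
    intro q a
    induction q with
    | zero => simp
    | succ q ih =>
      have e : a + ((q + 1 : ℕ) : ℤ) * M = (a + q * M) + M := by push_cast; ring
      rw [e, RR_per P, ih]
  have h2 := h1 (j / M) (o + (j % M : ℕ))
  rw [← h2]
  congr 1
  have h3 := Nat.mod_add_div j M
  have h4 : ((j % M : ℕ) : ℤ) + (M : ℤ) * ((j / M : ℕ) : ℤ) = (j : ℤ) := by exact_mod_cast h3
  linarith

theorem cv_lt {r s a b c : ℝ} (hr : 0 ≤ r) (hs : 0 ≤ s) (hrs : r + s = 1) (ha : a < c)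
    (hb : b < c) : r * a + s * b < c := by
  have e : r = 1 - s := by linarith
  rcases hr.lt_or_eq with h | h
  · have h1 := mul_lt_mul_of_pos_left ha h
    have h2 := mul_le_mul_of_nonneg_left hb.le hs
    have h3 : r * c + s * c = c := by rw [← add_mul, hrs, one_mul]
    linarith
  · have h3 : s = 1 := by linarith
    rw [← h, h3]; linarith

theorem cv_gt {r s a b c : ℝ} (hr : 0 ≤ r) (hs : 0 ≤ s) (hrs : r + s = 1) (ha : c < a)
    (hb : c < b) : c < r * a + s * b := by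
  have := cv_lt hr hs hrs (neg_lt_neg ha) (neg_lt_neg hb)
  linarith

theorem cv_le {r s a b c : ℝ} (hr : 0 ≤ r) (hs : 0 ≤ s) (hrs : r + s = 1) (ha : a ≤ c)
    (hb : b ≤ c) : r * a + s * b ≤ c := by
  have h1 := mul_le_mul_of_nonneg_left ha hr
  have h2 := mul_le_mul_of_nonneg_left hb hs
  have h3 : r * c + s * c = c := by rw [← add_mul, hrs, one_mul]
  linarith

theorem X_comb (z0 e : ℂ) {u v : ℂ} {s t : ℝ} (h : s + t = 1) :
    X z0 e (s • u + t • v) = s * X z0 e u + t * X z0 e v := by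
  unfold X
  have h' : (s : ℂ) + (t : ℂ) = 1 := by exact_mod_cast h
  have : (s • u + t • v - z0) / e = (s : ℂ) * ((u - z0) / e) + (t : ℂ) * ((v - z0) / e) := by
    rw [Complex.real_smul, Complex.real_smul]
    linear_combination (z0 / e) * h'
  rw [this, Complex.add_re, Complex.re_ofReal_mul, Complex.re_ofReal_mul]

theorem Y_comb (z0 e : ℂ) {u v : ℂ} {s t : ℝ} (h : s + t = 1) :
    Y z0 e (s • u + t • v) = s * Y z0 e u + t * Y z0 e v := by
  unfold Y
  have h' : (s : ℂ) + (t : ℂ) = 1 := by exact_mod_cast h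
  have : (s • u + t • v - z0) / e = (s : ℂ) * ((u - z0) / e) + (t : ℂ) * ((v - z0) / e) := by
    rw [Complex.real_smul, Complex.real_smul]
    linear_combination (z0 / e) * h'
  rw [this, Complex.add_im, Complex.im_ofReal_mul, Complex.im_ofReal_mul]

/-- a segment with short length stays in the enlarged tile -/
theorem seg_RR (P : FPath M W) {A B h t : ℝ} {a : ℤ} {u v : ℂ} (hu : u ∈ RR A B h W a)
    (hd : ‖v - u‖ ≤ t) : segment ℝ u v ⊆ RR (A + t) (B + t) h W a := by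
  intro w hw
  have hwu : ‖w - u‖ ≤ t := by
    obtain ⟨r, s, hr, hs, hrs, rfl⟩ := hw
    have e : r • u + s • v - u = (s : ℂ) * (v - u) := by
      have : r = 1 - s := by linarith
      subst this
      simp only [Complex.real_smul]
      push_cast
      ring
    rw [e, norm_mul, Complex.norm_real, Real.norm_of_nonneg hs]
    have h1 : 0 ≤ ‖v - u‖ := norm_nonneg _
    nlinarith
  rcases hu with hu | hu
  · exact Or.inl (Crest.Agent.R143.ConfTx503.arm_near (norm_cz (P.step' a)) hu hwu)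
  · exact Or.inr (Crest.Agent.R143.ConfTx503.arm_near (norm_cz (P.step a)) hu hwu)

/-- the frames of the gates `k0 - 2, …, k0 + 2` -/
theorem SGeo.frames (G : SGeo S M n k0 k1 W A B h b1 m ρ τ κ o K0) (s : ℂ) :
    (X (gz h W (o + k0 - 2)) (ge W (o + k0 - 2)) s = X (gz h W (o + k0)) (ge W (o + k0)) s + 2 * h ∧
      Y (gz h W (o + k0 - 2)) (ge W (o + k0 - 2)) s = Y (gz h W (o + k0)) (ge W (o + k0)) s) ∧
    (X (gz h W (o + k0 - 1)) (ge W (o + k0 - 1)) s = X (gz h W (o + k0)) (ge W (o + k0)) s + h ∧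
      Y (gz h W (o + k0 - 1)) (ge W (o + k0 - 1)) s = Y (gz h W (o + k0)) (ge W (o + k0)) s) ∧
    (X (gz h W (o + k0 + 1)) (ge W (o + k0 + 1)) s = X (gz h W (o + k0)) (ge W (o + k0)) s - h ∧
      Y (gz h W (o + k0 + 1)) (ge W (o + k0 + 1)) s = Y (gz h W (o + k0)) (ge W (o + k0)) s) ∧
    (X (gz h W (o + k0 + 2)) (ge W (o + k0 + 2)) s = X (gz h W (o + k0)) (ge W (o + k0)) s - 2 * h ∧
      Y (gz h W (o + k0 + 2)) (ge W (o + k0 + 2)) s = Y (gz h W (o + k0)) (ge W (o + k0)) s) := by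
  have h1 := next_S G.fp (G.st (o + k0 - 2) (by omega) (by omega)) h s
  have h2 := next_S G.fp (G.st (o + k0 - 1) (by omega) (by omega)) h s
  have h3 := next_S G.fp (G.st (o + k0) (by omega) (by omega)) h s
  have h4 := next_S G.fp (G.st (o + k0 + 1) (by omega) (by omega)) h s
  rw [show o + (k0 : ℤ) - 2 + 1 = o + k0 - 1 by ring] at h1
  rw [show o + (k0 : ℤ) - 1 + 1 = o + k0 by ring] at h2
  rw [show o + (k0 : ℤ) + 1 + 1 = o + k0 + 2 by ring] at h4
  refine ⟨⟨by linarith [h1.1, h2.1], by linarith [h1.2, h2.2]⟩, ⟨by linarith [h2.1], h2.2.symm⟩,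
    ⟨h3.1, h3.2⟩, ⟨by linarith [h3.1, h4.1], by linarith [h3.2, h4.2]⟩⟩

/-- the straight tiles around the gate `k0`, in its frame -/
theorem SGeo.strip (G : SGeo S M n k0 k1 W A B h b1 m ρ τ κ o K0) {A' B' : ℝ} (hA : 0 < A') (hAB : A' ≤ B')
    {j : ℕ} (h1 : k0 ≤ j + 2) (h2 : j < k0 + 2) {s : ℂ} (hs : s ∈ RR A' B' h W (o + j)) :
    |Y (gz h W (o + k0)) (ge W (o + k0)) s| < A' ∧
      ((j : ℝ) - k0) * h + (h / 2 - B') < X (gz h W (o + k0)) (ge W (o + k0)) s ∧
      X (gz h W (o + k0)) (ge W (o + k0)) s < ((j : ℝ) - k0) * h + (h / 2 + B') := by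
  have hk : (j : ℤ) = k0 - 2 ∨ (j : ℤ) = k0 - 1 ∨ (j : ℤ) = k0 ∨ (j : ℤ) = k0 + 1 := by omega
  have hd := G.st (o + j) (by omega) (by omega)
  obtain ⟨⟨h3, h4⟩, h5⟩ := (frame_S G.fp hA hAB hd).1 hs
  obtain ⟨f1, f2, f3, f4⟩ := G.frames s
  have ej : (j : ℝ) = ((j : ℤ) : ℝ) := by simp
  rcases hk with hk | hk | hk | hk
  · rw [hk, show o + ((k0 : ℤ) - 2) = o + k0 - 2 by ring, f1.1] at h3 h4
    rw [hk, show o + ((k0 : ℤ) - 2) = o + k0 - 2 by ring, f1.2] at h5
    rw [ej, hk]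
    push_cast
    exact ⟨h5, by linarith, by linarith⟩
  · rw [hk, show o + ((k0 : ℤ) - 1) = o + k0 - 1 by ring, f2.1] at h3 h4
    rw [hk, show o + ((k0 : ℤ) - 1) = o + k0 - 1 by ring, f2.2] at h5
    rw [ej, hk]
    push_cast
    exact ⟨h5, by linarith, by linarith⟩
  · rw [hk] at h3 h4 h5
    rw [ej, hk]
    push_cast
    exact ⟨h5, by linarith, by linarith⟩
  · rw [hk, show o + ((k0 : ℤ) + 1) = o + k0 + 1 by ring, f3.1] at h3 h4
    rw [hk, show o + ((k0 : ℤ) + 1) = o + k0 + 1 by ring, f3.2] at h5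
    rw [ej, hk]
    push_cast
    exact ⟨h5, by linarith, by linarith⟩

/-- the lower part of the window of the gate `a` is off the tiles which do not touch the gate -/
theorem SGeo.win_off (G : SGeo S M n k0 k1 W A B h b1 m ρ τ κ o K0) {a b : ℤ}
    (h0 : ¬ (M : ℤ) ∣ a - b) (h1 : ¬ (M : ℤ) ∣ a - (b + 1)) {s : ℂ}
    (hx : |X (gz h W a) (ge W a) s| < B + κ - h / 2) (hy : |Y (gz h W a) (ge W a) s| < A + κ) :
    s ∉ RR (A + κ) (B + κ) h W b := by
  have hA0 := G.A0
  have hAB := G.AB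
  have hh := G.hh
  have hκ : 0 < κ := by linarith [G.ρ0, G.ρτ, G.τκ]
  have e : a - 1 + 1 = a := by ring
  have g1 : s ∈ RR (A + κ) (B + κ) h W (a - 1) := by
    refine win_left G.fp (by linarith) (by linarith) ?_ ?_
    · rw [e]; linarith
    · rw [e]; exact hy
  have g2 : s ∈ RR (A + κ) (B + κ) h W a :=
    win_right G.fp (by linarith) (by linarith) (by linarith) hy
  exact far G.fp (by linarith) (by linarith) (by linarith) h0 h1 g1 g2

/-- not divisible -/
theorem ndvd {M : ℕ} {x : ℤ} (h0 : x ≠ 0) (h1 : -(M : ℤ) < x) (h2 : x < M) : ¬ (M : ℤ) ∣ x := by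
  rintro ⟨k, hk⟩
  rcases lt_trichotomy k 0 with h | h | h
  · have : (M : ℤ) * k ≤ M * (-1) := Int.mul_le_mul_of_nonneg_left (by omega) (by omega)
    omega
  · rw [h, mul_zero] at hk; exact h0 hk
  · have : (M : ℤ) * 1 ≤ M * k := Int.mul_le_mul_of_nonneg_left (by omega) (by omega)
    omega

variable {χ : ℂ → ZMod 2} {hS : GP (S : Set ℂ)} {hχ : HullC S χ} {y z : ℕ → ℂ} {p : ℕ → D0 S}

/-- the neck of the inner gate -/
structure NkG (S : Finset ℂ) (k0 : ℕ) (W : ℤ → ℤ × ℤ) (A B h b1 m : ℝ) (o : ℤ) (χ : ℂ → ZMod 2)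
    (y z : ℕ → ℂ) (a0 a1 : ℝ) (V β : Finset ℂ) (up dn : List ℂ) : Prop where
  neck : Neck S (gz h W (o + k0)) (ge W (o + k0)) a0 a1 (-A) b1 m V β up (y k0) dn
  upz : up.getLast neck.nu = z k0
  a0w : -(B - h / 2) ≤ a0
  a1w : a1 ≤ B - h / 2
  β1 : ∀ j : ℕ, k0 ≤ j + 2 → j < k0 + 2 → ∀ s ∈ S, s ∈ RR A B h W (o + j) → χ s = χ (y 0) → s ∈ β
  β2 : ∀ s ∈ β, χ s = χ (y 0)

/-- the sites of the lower arm -/
theorem dn_off (G : SGeo S M n k0 k1 W A B h b1 m ρ τ κ o K0) {a0 a1 : ℝ} {V β : Finset ℂ}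
    {up dn : List ℂ} (N : NkG S k0 W A B h b1 m o χ y z a0 a1 V β up dn) {j : ℕ} (hj : j < M)
    (h1 : j ≠ k0) (h2 : j + 1 ≠ k0) {s : ℂ} (hs : s ∈ dn) :
    s ∉ RR (A + κ) (B + κ) h W (o + j) := by
  have hw := N.neck.win s (List.mem_append_right _ (List.mem_cons_of_mem _ hs))
  have h3 := N.a0w
  have h4 := N.a1w
  have hκ : 0 < κ := by linarith [G.ρ0, G.ρτ, G.τκ]
  have hb := G.b1κ
  have hbA := G.b1A
  have hn := G.nM
  have hkn := G.kn
  have hk3 := G.k3
  refine G.win_off (a := o + k0) (ndvd (by omega) (by omega) (by omega))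
    (ndvd (by omega) (by omega) (by omega)) ?_ ?_
  · rw [abs_lt]; constructor <;> linarith [hw.1.1, hw.1.2]
  · rw [abs_lt]; constructor <;> linarith [hw.2.1, hw.2.2]

/-- **the hypotheses `InG`** -/
theorem inG (G : SGeo S M n k0 k1 W A B h b1 m ρ τ κ o K0)
    (D : DCorr hS hχ n y z (fun k => RR A B h W (o + k)) (fun k => RR (A + ρ) (B + ρ) h W (o + k)) p)
    {a0 a1 : ℝ} {V β : Finset ℂ} {up dn : List ℂ}
    (N : NkG S k0 W A B h b1 m o χ y z a0 a1 V β up dn) :
    InG S χ n y z (fun k => RR A B h W (o + k)) (fun k => RR (A + ρ) (B + ρ) h W (o + k)) k0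
      (gz h W (o + k0)) (ge W (o + k0)) a0 a1 (-A) b1 m (-(3 * h / 2)) (3 * h / 2) V β up dn := by
  have hA0 := G.A0
  have hAB := G.AB
  have hm0 := G.m0
  have hb1 := G.b1A
  have hκ := G.τκ
  have hρ0 := G.ρ0
  have hρτ := G.ρτ
  have hh := G.hh
  have hBh := G.Bh
  have hk3 := G.k3
  have hkn := G.kn
  have hnM := G.nM
  have hN1 := N.a0w
  have hN2 := N.a1w
  refine
    { h2 := by omega
      h3 := by omega
      he := TileRx228.ge_ne G.fp _
      neck := N.neck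
      upz := N.upz
      x0a := by linarith
      a1x := by linarith
      β1 := fun j h1 h2 s hs hs' hc => N.β1 j h1 h2 s hs hs' hc
      β2 := N.β2
      strip := ?_
      left := ?_
      right := ?_
      mid := ?_
      farB := ?_ }
  · intro j h1 h2 s _ hs
    have := (G.strip hA0 hAB h1 h2 hs).1
    rw [abs_lt] at this
    exact ⟨this.1, by linarith [this.2]⟩
  · -- `y (k0 - 2)`
    have g0 := D.mem0 (k0 - 2) (by omega)
    have g1 := D.mem1 (k0 - 3) (by omega)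
    rw [show k0 - 3 + 1 = k0 - 2 by omega] at g1
    rw [show o + ((k0 - 2 : ℕ) : ℤ) = o + k0 - 2 by omega] at g0
    rw [show o + ((k0 - 3 : ℕ) : ℤ) = o + k0 - 3 by omega] at g1
    have g2 := window G.fp hAB (by linarith) (a := o + k0 - 3) g1
      (by rw [show o + (k0 : ℤ) - 3 + 1 = o + k0 - 2 by ring]; exact g0)
    rw [show o + (k0 : ℤ) - 3 + 1 = o + k0 - 2 by ring, (G.frames _).1.1] at g2
    have := (abs_lt.1 g2.1).2
    linarith
  · have g0 := D.mem0 (k0 + 2) (by omega)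
    have g1 := D.mem1 (k0 + 1) (by omega)
    rw [show k0 + 1 + 1 = k0 + 2 by omega] at g1
    rw [show o + ((k0 + 2 : ℕ) : ℤ) = o + k0 + 2 by push_cast; ring] at g0
    rw [show o + ((k0 + 1 : ℕ) : ℤ) = o + k0 + 1 by push_cast; ring] at g1
    have g2 := window G.fp hAB (by linarith) (a := o + k0 + 1) g1
      (by rw [show o + (k0 : ℤ) + 1 + 1 = o + k0 + 2 by ring]; exact g0)
    rw [show o + (k0 : ℤ) + 1 + 1 = o + k0 + 2 by ring, (G.frames _).2.2.2.1] at g2
    have := (abs_lt.1 g2.1).1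
    linarith
  · intro j h1 h2 s _ hs
    obtain ⟨-, h3, h4⟩ := G.strip (by linarith) (by linarith) (show k0 ≤ j + 2 by omega)
      (show j < k0 + 2 by omega) hs
    have e1 : (j : ℝ) - k0 = 0 ∨ (j : ℝ) - k0 = -1 := by
      have : j = k0 ∨ j + 1 = k0 := by omega
      rcases this with h | h
      · left; rw [h]; ring
      · right; rw [← h]; push_cast; ring
    rcases e1 with e1 | e1
    · rw [e1] at h3 h4
      constructor <;> linarith
    · rw [e1] at h3 h4
      constructor <;> linarith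
  · intro j hj h1 h2 s hs hsB
    exact dn_off G N (by omega) h1 h2 hs (RR_mono (by linarith) (by linarith) h W _ hsB)

/-- white sites of the closing tile `j` -/
def WT (S : Finset ℂ) (χ : ℂ → ZMod 2) (y : ℕ → ℂ) (W : ℤ → ℤ × ℤ) (A B h : ℝ) (o : ℤ) (j : ℕ) :
    Set ℂ := {s | (s ∈ S ∧ χ s ≠ χ (y 0)) ∧ s ∈ RR A B h W (o + j)}

/-- **the closed white chain along the fine path** -/
theorem sepL_chain (G : SGeo S M n k0 k1 W A B h b1 m ρ τ κ o K0)
    (D : DCorr hS hχ n y z (fun k => RR A B h W (o + k)) (fun k => RR (A + ρ) (B + ρ) h W (o + k)) p)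
    {t : ℕ → ℕ} (T : Back D t) {a0 a1 : ℝ} {V β : Finset ℂ} {up dn : List ℂ}
    (N : NkG S k0 W A B h b1 m o χ y z a0 a1 V β up dn) {x : ℕ → ℂ} (hxz : ∀ k, k ≤ n → x k = z k)
    (hxM : ∀ j, x (j + M) = x j)
    (hW : ∀ j, n ≤ j → j < M → Lk S (WT S χ y W A B h o j) (x j) (x (j + 1))) :
    ∃ cw : List ℂ, Loop S cw ∧ (∀ s ∈ cw, s ∈ S) ∧ (∀ s ∈ cw, χ s ≠ χ (y 0)) ∧
      (∀ s ∈ cw, (∃ k, k < n ∧ s ∈ RS S χ (p (k + 1)).1 (t k)) ∨
        ∃ j, n ≤ j ∧ j < M ∧ s ∈ WT S χ y W A B h o j) ∧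
      (∀ w ∈ K0, asum w cw = -(2 * Real.pi)) ∧ (∀ k, k ≤ n → asum (y k) cw = -(2 * Real.pi)) ∧
      ∀ k, k < n → ∀ s ∈ LS S χ (p (k + 1)).1 (t k), asum s cw = -(2 * Real.pi) := by
  have hA0 := G.A0
  have hAB := G.AB
  have hm0 := G.m0
  have hb1 := G.b1A
  have hbκ := G.b1κ
  have hτκ := G.τκ
  have hρ0 := G.ρ0
  have hρτ := G.ρτ
  have hh := G.hh
  have hBh := G.Bh
  have hk3 := G.k3
  have hkn := G.kn
  have hnM := G.nM
  have GI := inG G D N
  have sub1 : ∀ a, RR A B h W a ⊆ RR (A + ρ) (B + ρ) h W a := fun a =>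
    RR_mono (by linarith) (by linarith) h W a
  have sub2 : ∀ a, RR (A + ρ) (B + ρ) h W a ⊆ RR (A + τ) (B + τ) h W a := fun a =>
    RR_mono (by linarith) (by linarith) h W a
  have seg : ∀ (a : ℤ) (u v : ℂ), DE S u v → u ∈ RR (A + ρ) (B + ρ) h W a →
      v ∈ RR (A + ρ) (B + ρ) h W a → segment ℝ u v ⊆ RR (A + τ) (B + τ) h W a := by
    intro a u v hd hu hv
    have h1 := seg_RR G.fp hu (G.edge a u v hd hu hv)
    rwa [show A + ρ + (τ - ρ) = A + τ by ring, show B + ρ + (τ - ρ) = B + τ by ring] at h1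
  -- the white sites of the gates are in the windows
  have zB : ∀ k, k < n → z k ∈ RR (A + ρ) (B + ρ) h W (o + k) ∧
      z (k + 1) ∈ RR (A + ρ) (B + ρ) h W (o + k) := by
    intro k hk
    have e1 : (p (k + 1)).1.2 = z (k + 1) := by rw [D.st (k + 1) (by omega)]
    have e0 : (p k).1.2 = z k := by rw [D.st k (by omega)]
    refine ⟨T.rB k hk ?_, T.rB k hk ?_⟩
    · rw [← e0, ← T.arr k hk]; exact ⟨t k, le_rfl, rfl⟩
    · rw [← e1]; exact ⟨0, Nat.zero_le _, rfl⟩
  have hP : FPath M W := G.fp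
  have hMpos : 0 < M := by omega
  have xR : ∀ j : ℕ, x j ∈ RR (A + ρ) (B + ρ) h W (o + j) ∧
      x (j + 1) ∈ RR (A + ρ) (B + ρ) h W (o + j) := by
    have key : ∀ j : ℕ, j < M → x j ∈ RR (A + ρ) (B + ρ) h W (o + j) ∧
        x (j + 1) ∈ RR (A + ρ) (B + ρ) h W (o + j) := by
      intro j hj
      rcases Nat.lt_or_ge j n with h1 | h1
      · rw [hxz j h1.le, hxz (j + 1) h1]; exact zB j h1
      · have h2 := (hW j h1 hj).1
        exact ⟨sub1 _ h2.1.2, sub1 _ h2.2.2⟩
    intro j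
    have hxm : ∀ q r, x (r + q * M) = x r := by
      intro q r
      induction q with
      | zero => simp
      | succ q ih =>
        have e : r + (q + 1) * M = (r + q * M) + M := by ring
        rw [e, hxM, ih]
    have h1 := key (j % M) (Nat.mod_lt _ hMpos)
    rw [RR_mod hP] at h1
    have e1 : x j = x (j % M) := by
      conv_lhs => rw [← Nat.mod_add_div j M, mul_comm]
      exact hxm _ _
    have e2 : x (j + 1) = x (j % M + 1) := by
      have : j + 1 = (j % M + 1) + j / M * M := by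
        have := Nat.mod_add_div j M
        rw [mul_comm] at this
        omega
      rw [this, hxm]
    rw [e1, e2]
    exact h1
  have xwin : ∀ j : ℕ, |X (gz h W (o + (j + 1 : ℕ))) (ge W (o + (j + 1 : ℕ))) (x (j + 1))| <
      B + ρ - h / 2 := by
    intro j
    have h1 := (xR j).2
    have h2 := (xR (j + 1)).1
    rw [show o + ((j + 1 : ℕ) : ℤ) = o + j + 1 by push_cast; ring] at h2 ⊢
    exact (window hP (by linarith) (by linarith) h1 h2).1
  have xwin' : ∀ j : ℕ, |X (gz h W (o + j)) (ge W (o + j)) (x j)| < B + ρ - h / 2 := by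
    intro j
    have h1 := xwin (j + M - 1)
    rw [show j + M - 1 + 1 = j + M by omega, hxM] at h1
    have e1 : gz h W (o + ((j + M : ℕ) : ℤ)) = gz h W (o + j) := by
      unfold gz
      rw [show o + ((j + M : ℕ) : ℤ) - 1 = o + j - 1 + M by push_cast; ring,
        show o + ((j + M : ℕ) : ℤ) = o + j + M by push_cast; ring, hP.per, hP.per]
    have e2 : ge W (o + ((j + M : ℕ) : ℤ)) = ge W (o + j) := by
      unfold ge
      rw [show o + ((j + M : ℕ) : ℤ) - 1 = o + j - 1 + M by push_cast; ring,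
        show o + ((j + M : ℕ) : ℤ) = o + j + M by push_cast; ring, hP.per, hP.per]
    rw [e1, e2] at h1
    exact h1
  -- the enlarged inner side
  obtain ⟨bS, hbS⟩ : ∃ b, b = dn.getLast N.neck.nd := ⟨_, rfl⟩
  have hbm : bS ∈ dn := by rw [hbS]; exact List.getLast_mem _
  have hbw := N.neck.win bS (List.mem_append_right _ (List.mem_cons_of_mem _ hbm))
  have hbb : Y (gz h W (o + k0)) (ge W (o + k0)) bS ≤ -A := by rw [hbS]; exact N.neck.bot
  have hN1 := N.a0w
  have hN2 := N.a1w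
  have he := TileRx228.ge_ne hP (o + k0)
  set wb : ℂ := wl (gz h W (o + k0)) (ge W (o + k0)) (-(A + τ)) with hwb
  have hxb := X_wl (z0 := gz h W (o + k0)) he (-(A + τ))
  have hyb := Y_wl (z0 := gz h W (o + k0)) he (-(A + τ))
  have hsegb : ∀ w ∈ segment ℝ bS wb, |X (gz h W (o + k0)) (ge W (o + k0)) w| < B + κ - h / 2 ∧
      |Y (gz h W (o + k0)) (ge W (o + k0)) w| < A + κ ∧
      Y (gz h W (o + k0)) (ge W (o + k0)) w ≤ -A := by
    rintro w ⟨r, s, hr, hs, hrs, rfl⟩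
    rw [X_comb _ _ hrs, Y_comb _ _ hrs, hwb, hxb, hyb]
    obtain ⟨⟨w1, w2⟩, w3, -⟩ := hbw
    refine ⟨abs_lt.2 ⟨cv_gt hr hs hrs ?_ ?_, cv_lt hr hs hrs ?_ ?_⟩,
      abs_lt.2 ⟨cv_gt hr hs hrs ?_ ?_, cv_lt hr hs hrs ?_ ?_⟩, cv_le hr hs hrs hbb ?_⟩ <;> linarith
  -- the tiles near the extreme gate
  have st1 := G.st1
  have st2 := G.st2
  have ex1 := fun s => next_S hP st1 h s
  have ex2 := fun s => next_S hP st2 h s
  have hk1 := G.k1M
  obtain ⟨cw, c1, c2, c3, c4, c5, c6, c7⟩ := sep_chain D T (N := M) (by omega) hnM.le GI hxz hxM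
    (W := WT S χ y W A B h o) hW
    (fun j hj hj' s hs => ⟨hs.1.1, hs.1.2, fun hsd => dn_off G N hj' (by omega) (by omega) hsd
      (RR_mono (by linarith) (by linarith) h W _ hs.2)⟩)
    (RR := fun j => RR (A + τ) (B + τ) h W (o + j))
    (fun j hj u v hd hu hv => seg _ u v hd hu hv)
    (fun j hj hj' u v hd hu hv => seg _ u v hd (sub1 _ hu.2) (sub1 _ hv.2))
    (k1 := k1) (z1 := gz h W (o + k1 + 1)) (e1 := ge W (o + k1 + 1)) (TileRx228.ge_ne hP _)
    (y0 := -(A + τ)) (y1 := A + τ) (by linarith)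
    (by
      intro j hj s hsS h1 h2
      have hsR : s ∈ RR (A + ρ) (B + ρ) h W (o + j) := by
        rcases Nat.lt_or_ge j n with h3 | h3
        · exact h1 h3
        · exact sub1 _ (h2 h3).2
      rcases hj with hj | hj
      · rw [hj, RR_mod hP] at hsR
        have h3 := ((frame_S hP (by linarith) (by linarith) st1).1 hsR).2
        rw [← (ex1 s).2, abs_lt] at h3
        constructor <;> linarith [h3.1, h3.2]
      · rw [hj, RR_mod hP, show o + ((k1 + 1 : ℕ) : ℤ) = o + k1 + 1 by push_cast; ring] at hsR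
        have h3 := ((frame_S hP (by linarith) (by linarith) st2).1 hsR).2
        rw [abs_lt] at h3
        constructor <;> linarith [h3.1, h3.2])
    (by
      have h3 := xwin' k1
      rw [(ex1 (x k1)).1]
      linarith [(abs_lt.1 h3).2])
    (by
      have h3 := xwin' (k1 + 2)
      rw [show o + ((k1 + 2 : ℕ) : ℤ) = o + k1 + 1 + 1 by push_cast; ring] at h3
      rw [(ex2 (x (k1 + 2))).1] at h3
      linarith [(abs_lt.1 h3).1])
    (by
      intro j hj hj' t1 h3 h4 h5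
      have h5' : wl (gz h W (o + k1 + 1)) (ge W (o + k1 + 1)) t1 ∈ RR (A + τ) (B + τ) h W (o + j) := by
        have := RR_mod hP (A + τ) (B + τ) h o j
        rw [← this]; exact h5
      refine G.win_off (a := o + k1 + 1) (b := o + j) (ndvd (by omega) (by omega) (by omega))
        (ndvd (by omega) (by omega) (by omega)) ?_ ?_ (RR_mono (by linarith) (by linarith) h W _ h5')
      · rw [X_wl (TileRx228.ge_ne hP _), abs_zero]; linarith
      · rw [Y_wl (TileRx228.ge_ne hP _), abs_lt]; constructor <;> linarith)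
    (by
      intro j hj t1 h3 h4
      have h5 := G.ext _ _ h4
      rw [Y_wl (TileRx228.ge_ne hP _)] at h5
      linarith)
    (K := K0 ∪ segment ℝ bS wb)
    (G.K0pre.union wb G.K0k (right_mem_segment ℝ _ _) (convex_segment _ _).isPreconnected)
    (by
      rintro w (hw | hw) j hj h4
      · exact absurd h4 (G.K0off w hw _)
      · obtain ⟨g1, g2, g3⟩ := hsegb w hw
        refine ⟨?_, g3⟩
        by_contra hc
        push Not at hc
        exact G.win_off (a := o + k0) (b := o + j) (ndvd (by omega) (by omega) (by omega))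
          (ndvd (by omega) (by omega) (by omega)) g1 g2
          (RR_mono (by linarith) (by linarith) h W _ h4))
    (Or.inl G.K0e)
    (Or.inr (by rw [hbS]; exact left_mem_segment ℝ _ _))
  exact ⟨cw, c1, c2, c3, c4, fun w hw => c5 w (Or.inl hw), c6, c7⟩


end Crest.Agent.R143.SepLx686
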