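import Crest.Agent.R143.LayU_416
import Crest.Agent.R143.RegE_523
import Crest.Agent.R143.SepL_686

-- ▼ part R143/LayX_416
section

/-!
# Row 143 (S0194), box R1f: the extreme gate (helper416)

* `ext_edge` : a coarse edge going down in the last column
* `LayU.ext_le` : all fine vertices are at most in the column of this part of the fine path
* **`LayU.extreme`** : a gate `a` with seven straight tiles `a - 3, …, a + 3` such that all tile regions
  (of half width `A'`) lie in `{Y < A'}` of the frame of `a` (for the index half of SEP, 927 / 686)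
-/

set_option autoImplicit false
set_option linter.unusedSimpArgs false

noncomputable section

open scoped Classical

namespace Crest.Agent.R143.LayUx416

open Crest.Agent.R143.TileRx228
open Crest.Agent.R143.LayQx811
open Crest.Agent.R143.Layx416
open Crest.Agent.R143.PolyUx346
open Crest.Agent.R143.Finex422 (Fine Cl ro)
open Crest.Agent.R143.Brkx478 (Bk cells Conn cells_finite)
open Crest.Agent.R158.Sp896 (V Adj lc rc)
open Crest.Agent.R143.Gatex838 (X Y)

/-- **a coarse edge in the last column, going down** -/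
theorem ext_edge {F : Set V} {n : ℕ} {p : ℤ → V} (C : Cl F n p) (hf : F.Finite) :
    ∃ k, p (k + 1) = ((p k).1, (p k).2 - 1) ∧ ∀ l, (p l).1 ≤ (p k).1 := by
  have hne : F.Nonempty := ⟨_, C.right 0⟩
  obtain ⟨q, hq, hmax⟩ := hf.exists_maximalFor (fun q : V => q.1) F hne
  have hmax' : ∀ c ∈ F, c.1 ≤ q.1 := fun c hc => by
    by_contra h
    exact absurd (hmax hc (by simp only; omega)) (by simp only; omega)
  obtain ⟨k, k1, k2⟩ := C.all (q.1 + 1, q.2 + 1) (q.1 + 1, q.2) (by unfold Adj; simp)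
    (by
      have : rc (q.1 + 1, q.2 + 1) (q.1 + 1, q.2) = q := by
        unfold rc
        ext <;> simp only <;> omega
      rw [this]
      exact hq)
    (by
      have : lc (q.1 + 1, q.2 + 1) (q.1 + 1, q.2) = (q.1 + 1, q.2) := by
        unfold lc
        ext <;> simp only <;> omega
      rw [this]
      intro h
      have := hmax' _ h
      simp only at this
      omega)
  refine ⟨k, ?_, fun l => ?_⟩
  · rw [k2, k1]
    ext <;> simp
  · rw [k1]
    have h1 := hmax' _ (C.right l)
    have h2 := C.step l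
    unfold rc at h1
    unfold Adj at h2
    simp only at h1 ⊢
    omega

namespace LayU

variable {u : Poly} {m M : ℕ} {p W : ℤ → ℤ × ℤ} {A e : ℤ → ℤ}

theorem exact_le (H : LayU u m M p W A e) {x : ℤ} (hx : ∀ l, (p l).1 ≤ x) (b : ℤ) :
    (W b).1 ≤ m * x + 1 := by
  obtain ⟨l, l1, l2⟩ := H.fine.loc b
  obtain ⟨t, t0, t1, hW⟩ := H.fine.exact l b l1 l2.le
  have hs := H.fine.cl.step l
  have h1 := hx l
  have h2 := hx (l + 1)
  have hm : (0 : ℤ) ≤ m := Int.natCast_nonneg m
  have hm1 := mul_le_mul_of_nonneg_left h1 hm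
  have hm2 := mul_le_mul_of_nonneg_left h2 hm
  rw [hW]
  simp only [ro, Prod.fst_add, Prod.smul_fst, Prod.fst_sub, Prod.snd_sub, smul_eq_mul]
  unfold Adj at hs
  rcases hs with ⟨a1, a2⟩ | ⟨a1, a2⟩ | ⟨a1, a2⟩ | ⟨a1, a2⟩
  · rw [a1] at hm2
    rw [a1, a2, show t * ((p l).1 + 1 - (p l).1) = t by ring]
    have : (m : ℤ) * ((p l).1 + 1) = m * (p l).1 + m := by ring
    omega
  · rw [a1, a2, show t * ((p l).1 - 1 - (p l).1) = -t by ring]
    omega
  · rw [a1, a2, show t * ((p l).1 - (p l).1) = 0 by ring]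
    omega
  · rw [a1, a2, show t * ((p l).1 - (p l).1) = 0 by ring]
    omega

/-- tile regions left of the column `x` -/
theorem RR_le (H : LayU u m M p W A e) {x : ℤ} (hx : ∀ b, (W b).1 ≤ x) {h a' b' : ℝ} (hh : 0 < h)
    (ha : 0 < a') (hb : b' ≤ h) {b : ℤ} {s : ℂ} (hs : s ∈ RR a' b' h W b) : s.re < h * x + a' := by
  have key : ∀ w : ℤ × ℤ, U4 (w - W b) → w.1 ≤ x → s ∈ Arm a' b' (cen h W b) (cz (w - W b)) →
      s.re < h * x + a' := by
    intro w hu hw hs
    rw [mem_arm hu] at hs
    obtain ⟨⟨h1, h2⟩, h3⟩ := hs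
    simp only [Complex.sub_re, Complex.sub_im, FineDx576.cen_re, FineDx576.cen_im] at h1 h2 h3
    have e0 : h * (W b).1 ≤ h * x := by
      have : ((W b).1 : ℝ) ≤ x := by exact_mod_cast hx b
      exact mul_le_mul_of_nonneg_left this hh.le
    rw [abs_lt] at h3
    rcases hu with hu | hu | hu | hu
    · rw [hu] at h1 h2 h3
      simp only [Int.cast_one, Int.cast_zero, one_mul, zero_mul, add_zero, sub_zero] at h1 h2 h3
      have e1 : h * ((W b).1 + 1) ≤ h * x := by
        have e2 : (w - W b).1 = 1 := by rw [hu]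
        rw [Prod.fst_sub] at e2
        have : ((W b).1 + 1 : ℝ) ≤ x := by exact_mod_cast (show (W b).1 + 1 ≤ x by omega)
        exact mul_le_mul_of_nonneg_left this hh.le
      linarith
    · rw [hu] at h1 h2 h3
      simp only [Int.cast_one, Int.cast_zero, one_mul, zero_mul, zero_add, zero_sub] at h1 h2 h3
      linarith
    · rw [hu] at h1 h2 h3
      simp only [Int.cast_one, Int.cast_zero, Int.cast_neg, one_mul, zero_mul, add_zero, sub_zero,
        zero_add, zero_sub, neg_mul] at h1 h2 h3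
      linarith
    · rw [hu] at h1 h2 h3
      simp only [Int.cast_one, Int.cast_zero, Int.cast_neg, one_mul, zero_mul, add_zero, sub_zero,
        zero_add, zero_sub, neg_mul] at h1 h2 h3
      linarith
  rcases hs with hs | hs
  · exact key _ (FPath.step' H.lay.fp b) (hx _) hs
  · exact key _ (H.lay.fp.step b) (hx _) hs

/-- **the extreme gate** -/
theorem extreme (H : LayU u m M p W A e) : ∃ a : ℤ,
    (∀ b, a - 3 ≤ b → b ≤ a + 4 → ge W b = -Complex.I) ∧
    (∀ b, a - 3 ≤ b → b ≤ a + 3 → ge W (b + 1) = ge W b) ∧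
    (∀ b, (W b).1 ≤ (W a).1) ∧ (W (a - 1)).1 = (W a).1 ∧
    ∀ {h a' b' : ℝ}, 0 < h → 0 < a' → b' ≤ h → ∀ b, ∀ s ∈ RR a' b' h W b,
      Y (gz h W a) (ge W a) s < a' := by
  obtain ⟨k, k1, k2⟩ := ext_edge H.fine.cl (cells_finite u.U.finite_toSet)
  have hl := H.fine.Alen k
  have hm := H.m_pos
  have hD : p (k + 1) - p k = (0, -1) := by
    rw [k1]
    ext <;> simp
  have hge : ∀ b, A k < b → b ≤ A (k + 1) → ge W b = -Complex.I := by
    intro b h1 h2
    have := H.fine.step k (b - 1) (by omega) (by omega)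
    rw [sub_add_cancel, hD] at this
    unfold ge
    rw [this]
    apply Complex.ext <;> simp [cz]
  have hW : ∀ b, A k ≤ b → b ≤ A (k + 1) → (W b).1 = m * (p k).1 + 1 := by
    intro b h1 h2
    obtain ⟨t, t0, t1, hW⟩ := H.fine.exact k b h1 h2
    rw [hW, hD]
    simp [ro]
  have hle := H.exact_le k2
  refine ⟨A k + 4, fun b h1 h2 => hge b (by omega) (by omega), fun b h1 h2 => ?_, fun b => ?_, ?_, ?_⟩
  · rw [hge b (by omega) (by omega), hge (b + 1) (by omega) (by omega)]
  · rw [hW (A k + 4) (by omega) (by omega)]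
    exact hle b
  · rw [hW _ (by omega) (by omega), hW _ (by omega) (by omega)]
  · intro h a' b' hh ha hb b s hs
    have h1 := H.RR_le (x := m * (p k).1 + 1) hle hh ha hb hs
    have h2 : (gz h W (A k + 4)).re = h * ((m * (p k).1 + 1 : ℤ) : ℝ) := by
      have e1 := hW (A k + 4) (by omega) (by omega)
      have e2 := hW (A k + 4 - 1) (by omega) (by omega)
      unfold gz cz
      rw [e1, e2]
      simp
    rw [hge _ (by omega) (by omega)]
    have h3 : Y (gz h W (A k + 4)) (-Complex.I) s = s.re - (gz h W (A k + 4)).re := by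
      simp [Y, Complex.div_im, Complex.normSq]
    rw [h3, h2]
    linarith

end LayU

end Crest.Agent.R143.LayUx416
end
end

-- ▼ part R143/RegS_523

/-!
# Row 143 (S0194), CORE-C, RIG: geometry of the separation from the layout (helper523)

`K0 h A u` : the points at sup distance `≤ h - A` from `u.P`.
* `K0_pre`, `K0_off`, `K0_bot`, `P_sub` : preconnected, off all tiles `RR A B`, contains the bottom
  points of all gates and `u.P`
* **`sgeo`** : 686's `SGeo` for the corridor of the label `i`, inner gate `rr i`, some extreme gate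
-/

set_option autoImplicit false

noncomputable section

open scoped Classical

namespace Crest.Agent.R143.RegSx523

open Set
open Crest.Agent.R143.B0x346 Crest.Agent.R143.DelGx806 Crest.Agent.R143.DelRx806
open Crest.Agent.R143.ToolWx838 Crest.Agent.R143.Blkx838
open Crest.Agent.R143.ToolW3x838 Crest.Agent.R143.Neckx921 Crest.Agent.R143.Frame10x395
open Crest.Agent.R143.Gatex838 (X Y)
open Crest.Agent.R143.TileRx228 (U4 cz cen gz ge Arm RR FPath)
open Crest.Agent.R143.RegBx523 Crest.Agent.R143.RegEx523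
open Crest.Agent.R143.Tenx416 (Pg)
open Crest.Agent.R143.Brkx478 (Bk cells Conn con_cells)
open Crest.Agent.R143.PolyUx346
open Crest.Agent.R143.Layx416 Crest.Agent.R143.LayUx416
open Crest.Agent.R143.Idxx927 (wl)

variable {u : Poly} {mm M : ℕ} {p W : ℤ → ℤ × ℤ} {aa e : ℤ → ℤ} {h A B : ℝ}

/-- the inner side -/
def K0 (h A : ℝ) (u : Poly) : Set ℂ := Kin (h - A) u.P

theorem P_pre (u : Poly) : IsPreconnected u.P := by
  have : u.P = Pg u.s (cells (u.U : Set Bk)) := rfl
  rw [this]
  exact Pg_preconn u.s_pos (con_cells u.con)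

theorem K0_pre (h A : ℝ) (u : Poly) : IsPreconnected (K0 h A u) := Kin_preconn (P_pre u)

theorem P_sub (hA : A ≤ h) : u.P ⊆ K0 h A u := sub_Kin (by linarith)

theorem K0_off (H : LayU u mm M p W aa e) (hh : (mm : ℝ) * h = u.s) (hB : 0 ≤ B) (hBh : B ≤ h) :
    ∀ w ∈ K0 h A u, ∀ a, w ∉ RR A B h W a := by
  intro w hw a ha
  refine RR_Kin H.fine (by have := H.m_pos; omega) (H.h_pos hh) hB hBh le_rfl ha ?_
  rw [← LayU.P_eq u hh]
  exact hw

theorem K0_bot (H : LayU u mm M p W aa e) (hh : (mm : ℝ) * h = u.s) (_hA : 0 ≤ A)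
    (hA2 : 2 * A ≤ h) (a : ℤ) : wl (gz h W a) (ge W a) (-A) ∈ K0 h A u := by
  have h0 := H.h_pos hh
  unfold K0
  rw [LayU.P_eq u hh]
  exact wl_bot H.fine (by have := H.m_pos; omega) h0 a (by linarith) (by linarith) (by linarith)

/-- the points below a gate -/
theorem K0_below (H : LayU u mm M p W aa e) (hh : (mm : ℝ) * h = u.s) {a : ℤ} {s : ℂ}
    (hX : |X (gz h W a) (ge W a) s| ≤ h / 2 - A) (hY0 : -h ≤ Y (gz h W a) (ge W a) s)
    (hY : Y (gz h W a) (ge W a) s ≤ -A) : s ∈ K0 h A u := by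
  have h0 := H.h_pos hh
  unfold K0
  rw [LayU.P_eq u hh]
  refine bot H.fine (by have := H.m_pos; omega) h0 (a := a) (by linarith) ?_ (by linarith)
  have : 0 ≤ h * (mm : ℝ) := by positivity
  linarith

/-- **the geometry of the separation** -/
theorem sgeo (H : LayU u mm M p W aa e) (hh : (mm : ℝ) * h = u.s) {S : Finset ℂ}
    {b1 m ρ τ κ : ℝ} (hA : 0 < A) (hAB : A ≤ B) (hB : h / 2 < B) (hb1 : A ≤ b1) (hm : 0 ≤ m)
    (hρ : 0 ≤ ρ) (hρτ : ρ < τ) (hτκ : τ < κ) (hbκ : b1 + m < A + κ) (hK : A + B + 2 * κ < h)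
    (edge : ∀ a u v, DE S u v → u ∈ RR (A + ρ) (B + ρ) h W a → v ∈ RR (A + ρ) (B + ρ) h W a →
      ‖v - u‖ ≤ τ - ρ)
    (inn : ∀ a, ∀ s ∈ S, s ∈ RR (A + ρ) (B + ρ) h W a → ¬ OnHull S s) (i : ZMod 3) :
    ∃ k1, SepLx686.SGeo S M (nn aa e i) (rr aa e i) k1 W A B h b1 m ρ τ κ (al aa e i)
      (K0 h (A + τ) u) := by
  obtain ⟨a, x1, x2, x3, x4, x5⟩ := H.extreme
  have h0 := H.h_pos hh
  have hM := H.lay.M_pos
  have hfp := H.lay.fp
  obtain ⟨c, c1, c2, c3⟩ := rep (show 0 < M by omega) (al aa e i) (a - 1)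
  obtain ⟨k1, hk1⟩ : ∃ k1 : ℕ, c = al aa e i + k1 := ⟨(c - al aa e i).toNat, by omega⟩
  have e1 : (M : ℤ) ∣ (al aa e i + k1 + 1) - a := by
    have := dvd_neg.2 c3
    rwa [hk1, show -(a - 1 - (al aa e i + (k1 : ℤ))) = al aa e i + k1 + 1 - a by ring] at this
  have g1 := RegBx523.ge_cong hfp e1
  have g0 := RegBx523.ge_cong hfp (a := a - 1) (b := al aa e i + k1)
    (by rwa [show al aa e i + (k1 : ℤ) - (a - 1) = al aa e i + k1 + 1 - a by ring])
  have g2 := RegBx523.ge_cong hfp (a := a + 1) (b := al aa e i + k1 + 1 + 1)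
    (by rwa [show al aa e i + (k1 : ℤ) + 1 + 1 - (a + 1) = al aa e i + k1 + 1 - a by ring])
  have z1 := RegBx523.gz_cong (h := h) hfp e1
  have q1 := H.lay.rr_pos i
  have q2 := H.lay.rr_lt i
  have q3 := H.lay.nn_lt i
  have q4 := H.lay.rr_eq i
  have hA2 : 2 * (A + τ) ≤ h := by linarith
  exact ⟨k1,
    { fp := hfp
      A0 := hA
      AB := hAB
      Bh := hB
      b1A := hb1
      m0 := hm
      ρ0 := hρ
      ρτ := hρτ
      τκ := hτκ
      b1κ := hbκ
      hh := hK
      edge := edge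
      inn := inn
      k3 := by omega
      kn := by omega
      nM := by omega
      st := fun b hb1 hb2 => (H.lay.run_mi i (by omega) (by omega)).1
      k1M := by omega
      st1 := by
        rw [g1, g0]
        have := x2 (a - 1) (by omega) (by omega)
        rwa [sub_add_cancel] at this
      st2 := by
        rw [g1, g2]
        exact x2 a (by omega) (by omega)
      ext := fun b s hs => by
        rw [g1, z1]
        exact x5 h0 (by linarith) (by linarith) b s hs
      K0pre := K0_pre _ _ _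
      K0off := K0_off H hh (by linarith) (by linarith)
      K0k := K0_bot H hh (by linarith) hA2 _
      K0e := K0_bot H hh (by linarith) hA2 _ }⟩

end Crest.Agent.R143.RegSx523
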