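import Crest.Agent.R143.Lay_416

/-!
# Row 143 (S0194), RIG, box Q2: the windows of the partial tiles (helper416)

All indices relative to `o = al A e i` (gate `0` of the corridor of the label `i`); the tile `k` is
straight if `ge W (o + k + 1) = ge W (o + k)`.

* `Wd W o n M l a b` : window of the tile `l`: tiles `a ≤ k ≤ b`, left separator = gate `a - 2`,
  right separator = gate `b + 3`, nine straight tiles round each separator, lengths bounded,
  separators inside the out tiles or inside the closing tiles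
* `WdA A W o n M l a b` : the separators are at distance at least five from the coarse vertices `A k`
* `Wd.cases` : middle, left end, right end, in natural numbers
* **`exists_wd`** : every out tile has such a window (`40 ≤ m`)
* **`wa`, `wb`** : canonical windows; `pS`, `qS` : removed tiles, in the order of the strand
* `str_g` : the tiles round the gate of a mark are straight; `col4`, `coln4`, `colr` : column gates
-/

set_option autoImplicit false

noncomputable section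

open scoped Classical

namespace Crest.Agent.R143.WndGx416

open Crest.Agent.R143.TileRx228 Crest.Agent.R143.LayQx811 Crest.Agent.R143.Layx416

/-- **window of the tile `l`** -/
structure Wd (W : ℤ → ℤ × ℤ) (o : ℤ) (n M : ℕ) (l a b : ℤ) : Prop where
  al : a + 2 ≤ l
  lb : l + 2 ≤ b
  la : l ≤ a + 18
  bl : b ≤ l + 18
  ab : b ≤ a + 29
  /-- left separator: gate `a - 2` -/
  sl : ∀ k : ℤ, a - 6 ≤ k → k ≤ a + 2 → ge W (o + k + 1) = ge W (o + k)
  /-- right separator: gate `b + 3` -/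
  sr : ∀ k : ℤ, b - 1 ≤ k → k ≤ b + 7 → ge W (o + k + 1) = ge W (o + k)
  /-- the left separator is in the out tiles, or in the closing tiles -/
  cl : 6 ≤ a ∨ (a = -2 ∧ l < 17 ∧
    ∀ k : ℤ, -16 ≤ k → k ≤ 16 → ge W (o + k + 1) = ge W (o + k))
  /-- the right separator is in the out tiles, or in the closing tiles -/
  cr : b + 7 ≤ n ∨ (b = n + 1 ∧ (n : ℤ) < l + 18 ∧
    ∀ k : ℤ, n - 16 ≤ k → k ≤ n + 16 → ge W (o + k + 1) = ge W (o + k))
  one : 6 ≤ a ∨ b + 7 ≤ n
  /-- closing tiles, no wrap -/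
  nM : n + 30 ≤ M
  room : b + 80 ≤ a + M

/-- **window with separators far from the coarse vertices `A k`** -/
structure WdA (A : ℤ → ℤ) (W : ℤ → ℤ × ℤ) (o : ℤ) (n M : ℕ) (l a b : ℤ) : Prop
    extends Wd W o n M l a b where
  gl : ∃ k, A k + 5 ≤ o + (a - 2) ∧ o + (a - 2) + 5 ≤ A (k + 1)
  gr : ∃ k, A k + 5 ≤ o + (b + 3) ∧ o + (b + 3) + 5 ≤ A (k + 1)

variable {n M : ℕ} {m : ℤ} {p W : ℤ → ℤ × ℤ} {A e : ℤ → ℤ}

section lay

/-- straight tiles -/
theorem str (H : Lay n M m p W A e) {a : ℤ} (h : ∀ k, A k ≠ a) : ge W (a + 1) = ge W a := by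
  unfold ge
  rw [add_sub_cancel_right, H.straight fun k => (h k).symm]

/-- two corners are far -/
theorem cor_gap (H : Lay n M m p W A e) {k l : ℤ} (h : k < l) : A k + m - 2 ≤ A l := by
  have h1 := abs_le.1 (H.len k)
  have h2 := H.Amono.monotone (show k + 1 ≤ l by omega)
  omega

/-- tiles between two coarse vertices are straight -/
theorem str_seg (H : Lay n M m p W A e) {k a : ℤ} (h1 : A k < a) (h2 : a < A (k + 1)) :
    ge W (a + 1) = ge W a := by
  refine str H fun j hj => ?_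
  rcases lt_or_ge j (k + 1) with h3 | h3
  · have := H.Amono.monotone (show j ≤ k by omega)
    omega
  · have := H.Amono.monotone h3
    omega

/-- a separator on the left of `y` -/
theorem run_left (H : Lay n M m p W A e) (hm : 12 ≤ m) (y : ℤ) :
    ∃ y', y - 9 ≤ y' ∧ y' ≤ y ∧ ∃ k, A k + 5 ≤ y' - 2 ∧ y' + 3 ≤ A (k + 1) := by
  obtain ⟨k, h1, h2⟩ := H.seg_exists (y + 2)
  by_cases h : A k + 5 ≤ y - 2
  · exact ⟨y, by omega, le_rfl, k, h, by omega⟩
  · refine ⟨A k - 3, by omega, by omega, k - 1, ?_, ?_⟩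
    · have := cor_gap H (show k - 1 < k by omega)
      omega
    · have e : k - 1 + 1 = k := by ring
      rw [e]
      omega

/-- a separator on the right of `y` -/
theorem run_right (H : Lay n M m p W A e) (hm : 12 ≤ m) (y : ℤ) :
    ∃ y', y ≤ y' ∧ y' ≤ y + 9 ∧ ∃ k, A k + 5 ≤ y' + 3 ∧ y' + 8 ≤ A (k + 1) := by
  obtain ⟨k, h1, h2⟩ := H.seg_exists (y - 2)
  by_cases h : y + 8 ≤ A (k + 1)
  · exact ⟨y, le_rfl, by omega, k, by omega, h⟩
  · refine ⟨A (k + 1) + 2, by omega, by omega, k + 1, by omega, ?_⟩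
    have := cor_gap H (show k + 1 < k + 1 + 1 by omega)
    omega

/-- the gate of a mark is far from the coarse vertices -/
theorem g_far (H : Lay n M m p W A e) (hm : 40 ≤ m) (j : ℤ) :
    A (e j) + 19 ≤ g A e j ∧ g A e j + 19 ≤ A (e j + 1) := by
  have h := H.g_mem j
  omega


/-- coarse vertices round gate `0` -/
theorem al_far (H : Lay n M m p W A e) (hm : 40 ≤ m) (i : ZMod 3) :
    ∃ k, A k + 19 ≤ al A e i ∧ al A e i + 19 ≤ A (k + 1) := ⟨_, g_far H hm (jj i + 1)⟩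

/-- coarse vertices round gate `n` -/
theorem be_far (H : Lay n M m p W A e) (hm : 40 ≤ m) (i : ZMod 3) :
    ∃ k, A k + 19 ≤ al A e i + nn A e i ∧ al A e i + nn A e i + 19 ≤ A (k + 1) := by
  rw [H.nn_eq i]
  exact ⟨_, g_far H hm (jj i + 3)⟩


/-- the column gate `4` -/
theorem col4 (H : Lay n M m p W A e) (hm : 40 ≤ m) (i : ZMod 3) :
    ∃ k, A k + 4 ≤ al A e i + 4 ∧ al A e i + 4 + 4 ≤ A (k + 1) := by
  obtain ⟨k, h1, h2⟩ := al_far H hm i
  exact ⟨k, by omega, by omega⟩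

/-- the column gate `n - 4` -/
theorem coln4 (H : Lay n M m p W A e) (hm : 40 ≤ m) (i : ZMod 3) :
    ∃ k, A k + 4 ≤ al A e i + nn A e i - 4 ∧ al A e i + nn A e i - 4 + 4 ≤ A (k + 1) := by
  obtain ⟨k, h1, h2⟩ := be_far H hm i
  exact ⟨k, by omega, by omega⟩


/-- straight tiles, relative to gate `0` of the label `i` -/
theorem str_al (H : Lay n M m p W A e) (hm : 40 ≤ m) (i : ZMod 3) {k : ℤ} (h1 : -18 ≤ k)
    (h2 : k ≤ 18) : ge W (al A e i + k + 1) = ge W (al A e i + k) := by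
  obtain ⟨j, h3, h4⟩ := al_far H hm i
  exact str_seg H (k := j) (by omega) (by omega)

/-- the same, relative to gate `n` -/
theorem str_be (H : Lay n M m p W A e) (hm : 40 ≤ m) (i : ZMod 3) {k : ℤ}
    (h1 : (nn A e i : ℤ) - 18 ≤ k) (h2 : k ≤ nn A e i + 18) :
    ge W (al A e i + k + 1) = ge W (al A e i + k) := by
  obtain ⟨j, h3, h4⟩ := be_far H hm i
  exact str_seg H (k := j) (by omega) (by omega)

/-- numbers of out tiles and of closing tiles -/
theorem nn_big (H : Lay n M m p W A e) (i : ZMod 3) :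
    2 * m ≤ nn A e i + 6 ∧ (nn A e i : ℤ) + m ≤ M + 3 := by
  have h1 := H.g_gap (jj i + 1)
  have h2 := H.g_gap (jj i + 2)
  have h3 := H.be_al' i
  have h4 := H.nn_eq i
  have e1 : be A e i = g A e (jj i + 2 + 1) := by unfold be; rw [add_assoc]; rfl
  have e2 : al A e i = g A e (jj i + 1) := rfl
  rw [show jj i + 1 + 1 = jj i + 2 by ring] at h1
  constructor <;> omega

/-- **EVERY OUT TILE HAS A WINDOW** -/
theorem exists_wd1 (H : Lay n M m p W A e) (hm : 40 ≤ m) (i : ZMod 3) {l : ℤ} (l0 : 0 ≤ l)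
    (l1 : l < nn A e i) : ∃ a b : ℤ, WdA A W (al A e i) (nn A e i) M l a b := by
  obtain ⟨hn, hM⟩ := nn_big H i
  have hl : ∃ a : ℤ, a + 2 ≤ l ∧
      (∃ k, A k + 5 ≤ al A e i + (a - 2) ∧ al A e i + (a - 2) + 5 ≤ A (k + 1)) ∧
      ((17 ≤ l ∧ l ≤ a + 11) ∨ (a = -2 ∧ l < 17)) := by
    rcases lt_or_ge l 17 with h | h
    · obtain ⟨k, h1, h2⟩ := al_far H hm i
      exact ⟨-2, by omega, ⟨k, by omega, by omega⟩, Or.inr ⟨rfl, h⟩⟩
    · obtain ⟨y, h1, h2, k, h3, h4⟩ := run_left H (by omega) (al A e i + l - 2)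
      exact ⟨y - al A e i, by omega, ⟨k, by omega, by omega⟩, Or.inl ⟨h, by omega⟩⟩
  have hr : ∃ b : ℤ, l + 2 ≤ b ∧
      (∃ k, A k + 5 ≤ al A e i + (b + 3) ∧ al A e i + (b + 3) + 5 ≤ A (k + 1)) ∧
      ((l + 18 ≤ nn A e i ∧ b ≤ l + 11) ∨ (b = nn A e i + 1 ∧ (nn A e i : ℤ) < l + 18)) := by
    rcases lt_or_ge (nn A e i : ℤ) (l + 18) with h | h
    · obtain ⟨k, h1, h2⟩ := be_far H hm i
      exact ⟨nn A e i + 1, by omega, ⟨k, by omega, by omega⟩, Or.inr ⟨rfl, h⟩⟩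
    · obtain ⟨y, h1, h2, k, h3, h4⟩ := run_right H (by omega) (al A e i + l + 2)
      exact ⟨y - al A e i, by omega, ⟨k, by omega, by omega⟩, Or.inl ⟨h, by omega⟩⟩
  obtain ⟨a, a1, ⟨ka, a2, a2'⟩, a3⟩ := hl
  obtain ⟨b, b1, ⟨kb, b2, b2'⟩, b3⟩ := hr
  refine ⟨a, b, ⟨⟨a1, b1, ?_, ?_, ?_, ?_, ?_, ?_, ?_, ?_, ?_, ?_⟩, ⟨ka, a2, a2'⟩, ⟨kb, b2, b2'⟩⟩⟩
  · rcases a3 with a3 | a3 <;> omega
  · rcases b3 with b3 | b3 <;> omega
  · rcases a3 with a3 | a3 <;> rcases b3 with b3 | b3 <;> omega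
  · exact fun k h1 h2 => str_seg H (k := ka) (by omega) (by omega)
  · exact fun k h1 h2 => str_seg H (k := kb) (by omega) (by omega)
  · rcases a3 with a3 | a3
    · exact Or.inl (by omega)
    · exact Or.inr ⟨a3.1, a3.2, fun k h1 h2 => str_al H hm i (by omega) (by omega)⟩
  · rcases b3 with b3 | b3
    · exact Or.inl (by omega)
    · exact Or.inr ⟨b3.1, b3.2, fun k h1 h2 => str_be H hm i (by omega) (by omega)⟩
  · rcases a3 with a3 | a3 <;> rcases b3 with b3 | b3 <;> omega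
  · omega
  · rcases a3 with a3 | a3 <;> rcases b3 with b3 | b3 <;> omega

end lay

/-! ### canonical windows -/

/-- **canonical window of the tile `l`** (zero if there is none) -/
def wab (A : ℤ → ℤ) (W : ℤ → ℤ × ℤ) (o : ℤ) (n M : ℕ) (l : ℤ) : ℤ × ℤ :=
  if h : ∃ ab : ℤ × ℤ, WdA A W o n M l ab.1 ab.2 then Classical.choose h else (0, 0)

/-- left end of the canonical window -/
def wa (A : ℤ → ℤ) (W : ℤ → ℤ × ℤ) (o : ℤ) (n M : ℕ) (l : ℤ) : ℤ := (wab A W o n M l).1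

/-- right end of the canonical window -/
def wb (A : ℤ → ℤ) (W : ℤ → ℤ × ℤ) (o : ℤ) (n M : ℕ) (l : ℤ) : ℤ := (wab A W o n M l).2

theorem wab_spec {o l : ℤ} (h : ∃ a b : ℤ, WdA A W o n M l a b) :
    WdA A W o n M l (wa A W o n M l) (wb A W o n M l) := by
  obtain ⟨a, b, h⟩ := h
  have h' : ∃ ab : ℤ × ℤ, WdA A W o n M l ab.1 ab.2 := ⟨(a, b), h⟩
  unfold wa wb wab
  rw [dif_pos h']
  exact Classical.choose_spec h'

/-- **the canonical windows of the out tiles** -/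
theorem wab_lay {n₀ : ℕ} (H : Lay n₀ M m p W A e) (hm : 40 ≤ m) (i : ZMod 3) {l : ℤ} (l0 : 0 ≤ l)
    (l1 : l < nn A e i) : WdA A W (al A e i) (nn A e i) M l (wa A W (al A e i) (nn A e i) M l)
      (wb A W (al A e i) (nn A e i) M l) := wab_spec (exists_wd1 H hm i l0 l1)

/-- removed tiles of the strand tile `l` (= path tile `n - 1 - l`): first one -/
def pS (A : ℤ → ℤ) (W : ℤ → ℤ × ℤ) (o : ℤ) (n M : ℕ) (l : ℕ) : ℤ :=
  o + wa A W o n M ((n : ℤ) - 1 - l) - 5

/-- removed tiles of the strand tile `l` (= path tile `n - 1 - l`): last one -/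
def qS (A : ℤ → ℤ) (W : ℤ → ℤ × ℤ) (o : ℤ) (n M : ℕ) (l : ℕ) : ℤ :=
  o + wb A W o n M ((n : ℤ) - 1 - l) + 5


namespace Wd

variable {o : ℤ} {l a b : ℤ}

/-- **the three cases, in natural numbers.** Middle: two pieces (tiles `< l - 1` and `≥ l + 2`), both
separators are inner out gates. Left end: one piece (tiles `≥ l + 2`), left separator = closing gate
`-4`. Right end: one piece (tiles `< l - 1`), right separator = closing gate `n + 4`. -/
theorem cases (H : Wd W o n M l a b) (hl : 0 ≤ l) (hn : l < n) :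
    (∃ l' a' b' : ℕ, l = l' ∧ a = a' ∧ b = b' ∧ 6 ≤ a' ∧ a' + 2 ≤ l' ∧ l' + 2 ≤ b' ∧ b' + 7 ≤ n) ∨
    (∃ l' b' : ℕ, l = l' ∧ a = -2 ∧ b = b' ∧ l' < 17 ∧ l' + 2 ≤ b' ∧ b' + 7 ≤ n) ∨
    (∃ l' a' : ℕ, l = l' ∧ a = a' ∧ b = n + 1 ∧ n < l' + 18 ∧ 6 ≤ a' ∧ a' + 2 ≤ l' ∧ l' < n) := by
  have h1 := H.al
  have h2 := H.lb
  have h3 := H.one
  rcases H.cl with h4 | h4 <;> rcases H.cr with h5 | h5
  · exact Or.inl ⟨l.toNat, a.toNat, b.toNat, by omega, by omega, by omega, by omega, by omega,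
      by omega, by omega⟩
  · exact Or.inr (Or.inr ⟨l.toNat, a.toNat, by omega, by omega, h5.1, by omega, by omega,
      by omega, by omega⟩)
  · exact Or.inr (Or.inl ⟨l.toNat, b.toNat, by omega, h4.1, by omega, by omega, by omega,
      by omega⟩)
  · omega

/-- straight tiles of the left separator, absolute indices (`SGeo.st` at `k0 = a - 2`) -/
theorem stL (H : Wd W o n M l a b) : ∀ x : ℤ, o + (a - 2) - 2 ≤ x → x ≤ o + (a - 2) + 1 →
    ge W (x + 1) = ge W x := by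
  intro x h1 h2
  have := H.sl (x - o) (by omega) (by omega)
  rwa [show o + (x - o) = x by ring] at this

/-- straight tiles of the right separator, absolute indices (`SGeo.st` at `k0 = b + 3`) -/
theorem stR (H : Wd W o n M l a b) : ∀ x : ℤ, o + (b + 3) - 2 ≤ x → x ≤ o + (b + 3) + 1 →
    ge W (x + 1) = ge W x := by
  intro x h1 h2
  have := H.sr (x - o) (by omega) (by omega)
  rwa [show o + (x - o) = x by ring] at this

/-- left separator, out type: an inner gate `k0 : ℕ` with `3 ≤ k0`, `k0 + 3 ≤ n`, straight -/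
theorem gateL (H : Wd W o n M l a b) (hn : l < n) (h : 6 ≤ a) : ∃ k0 : ℕ, (k0 : ℤ) = a - 2 ∧
    4 ≤ k0 ∧ k0 + 3 ≤ n ∧ (k0 : ℤ) + 4 ≤ l ∧
      ∀ x : ℤ, o + k0 - 2 ≤ x → x ≤ o + k0 + 1 → ge W (x + 1) = ge W x := by
  have h1 := H.al
  refine ⟨(a - 2).toNat, by omega, by omega, by omega, by omega, fun x h2 h3 => H.stL x ?_ ?_⟩
  · omega
  · omega

/-- right separator, out type -/
theorem gateR (H : Wd W o n M l a b) (hl : 0 ≤ l) (h : b + 7 ≤ n) : ∃ k0 : ℕ, (k0 : ℤ) = b + 3 ∧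
    3 ≤ k0 ∧ k0 + 4 ≤ n ∧ l + 5 ≤ k0 ∧
      ∀ x : ℤ, o + k0 - 2 ≤ x → x ≤ o + k0 + 1 → ge W (x + 1) = ge W x := by
  have h1 := H.lb
  refine ⟨(b + 3).toNat, by omega, by omega, by omega, by omega, fun x h2 h3 => H.stR x ?_ ?_⟩
  · omega
  · omega

/-- the windows of 304: removed tiles `a - s, …, b + s`, `s ≤ 8` -/
theorem w48 (H : Wd W o n M l a b) {s : ℤ} (hs0 : 0 ≤ s) (hs : s ≤ 8) :
    o + a - s + 1 < o + l ∧ o + l + 1 < o + b + s ∧ o + b + s ≤ (o + a - s) + (48 : ℕ) := by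
  have h1 := H.al
  have h2 := H.lb
  have h3 := H.ab
  refine ⟨by omega, by omega, by push_cast; omega⟩

end Wd

/-- **the canonical windows in the order of the strand** -/
theorem pqS {n₀ : ℕ} (H : Lay n₀ M m p W A e) (hm : 40 ≤ m) (i : ZMod 3) {l : ℕ}
    (hl : l < nn A e i) :
    pS A W (al A e i) (nn A e i) M l + 1 < al A e i + ((nn A e i : ℤ) - 1 - l) ∧
      al A e i + ((nn A e i : ℤ) - 1 - l) + 1 < qS A W (al A e i) (nn A e i) M l ∧
      qS A W (al A e i) (nn A e i) M l ≤ pS A W (al A e i) (nn A e i) M l + (48 : ℕ) := by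
  have h := wab_lay H hm i (l := (nn A e i : ℤ) - 1 - l) (by omega) (by omega)
  exact h.toWd.w48 (s := 5) (by norm_num) (by norm_num)

end Crest.Agent.R143.WndGx416
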