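import Crest.Agent.R143.WndI_416
import Crest.Agent.R143.SpR2_169
import Crest.Agent.R143.WndG_416
import Crest.Agent.R143.RegS_523
import Crest.Agent.R143.RigD_654
import Crest.Agent.R143.LimS_133
import Crest.Agent.R143.MeasD_609
import Crest.Agent.R143.PolyE_854
import Crest.Agent.R143.HqP_304
import Crest.Agent.R143.RigN_377

-- ▼ part R143/WndX_829
section

/-!
# Row 143 (S0194), RIG, field `Q`: the windows with 169's regions `QX` (helper829)

The region `QX h W o n l` of an end tile (`l = 0`, `l + 1 = n`) is in TWO lattice squares, so 416's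
`wnd_cor` (one square, side `2 h`) does not apply.  Here the regions `D l` are in three squares
`Sq3 h W (a l)`, the window contains the tiles `a l - 1, a l, a l + 1` strictly, the side is `4 h`.

* `Sq3`, `thick_sq3`, `far_win3`
* `wnd_lay3`, `wnd_cor3` : 416's theorems for `D l ⊆ Sq3 h W (a l)`
* `QX_Sq3`, `QX_meas`; **`wnd_QX`** : `D l = QX h W o n (n - 1 - l)` (order of time, 831's `Ft`)
-/

set_option autoImplicit false

noncomputable section

namespace Crest.Agent.R143.WndXx829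

open MeasureTheory Set
open Crest.ProbabilityR.Voronoi
open Crest.Agent.R143.PP0x831 Crest.Agent.R143.PWx978 Crest.Agent.R143.Tplx978
open Crest.Agent.R143.TileRx228 Crest.Agent.R143.PthFx765 Crest.Agent.R143.Hqx304
open Crest.Agent.R143.HqPx304 Crest.Agent.R143.CorNx765
open Crest.Agent.R143.LayQx811 Crest.Agent.R143.Layx416 Crest.Agent.R143.LayUx416
open Crest.Agent.R143.PolyUx346 Crest.Agent.R143.WndIx416
open Crest.Agent.R143.SpRx169
open Crest.Agent.R143.SumScx302 (sq)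
open scoped ENNReal

/-- three consecutive squares -/
def Sq3 (h : ℝ) (W : ℤ → ℤ × ℤ) (a : ℤ) : Set ℂ :=
  Sqr h W (a - 1) ∪ (Sqr h W a ∪ Sqr h W (a + 1))

variable {W : ℤ → ℤ × ℤ}

theorem mem_thick3 {h ρ : ℝ} {a : ℤ} {s : ℂ} :
    s ∈ Metric.thickening ρ (Sq3 h W a) ↔ s ∈ Metric.thickening ρ (Sqr h W (a - 1)) ∨
      s ∈ Metric.thickening ρ (Sqr h W a) ∨ s ∈ Metric.thickening ρ (Sqr h W (a + 1)) := by
  unfold Sq3
  rw [Metric.thickening_union, Metric.thickening_union]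
  exact Iff.rfl

/-- consecutive centres -/
theorem cen_next {M : ℕ} (P : FPath M W) {h : ℝ} (h0 : 0 ≤ h) (a : ℤ) :
    |(cen h W (a + 1)).re - (cen h W a).re| ≤ h ∧
      |(cen h W (a + 1)).im - (cen h W a).im| ≤ h := by
  rw [FineDx576.cen_re, FineDx576.cen_re, FineDx576.cen_im, FineDx576.cen_im]
  have hst := P.step a
  have key : |(W (a + 1)).1 - (W a).1| ≤ 1 ∧ |(W (a + 1)).2 - (W a).2| ≤ 1 := by
    have d1 : (W (a + 1)).1 - (W a).1 = (W (a + 1) - W a).1 := rfl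
    have d2 : (W (a + 1)).2 - (W a).2 = (W (a + 1) - W a).2 := rfl
    rw [d1, d2]
    rcases hst with hs | hs | hs | hs <;> rw [hs] <;> simp
  have k1 : |((W (a + 1)).1 : ℝ) - (W a).1| ≤ 1 := by exact_mod_cast key.1
  have k2 : |((W (a + 1)).2 : ℝ) - (W a).2| ≤ 1 := by exact_mod_cast key.2
  constructor
  · rw [← mul_sub, abs_mul, abs_of_nonneg h0]
    nlinarith
  · rw [← mul_sub, abs_mul, abs_of_nonneg h0]
    nlinarith

/-- a neighbourhood of the three squares is in a square of side `4 h` -/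
theorem thick_sq3 {M : ℕ} (P : FPath M W) {ρ h : ℝ} (h0 : 0 ≤ h) (hρ : ρ ≤ h / 2) (a : ℤ) :
    Metric.thickening ρ (Sq3 h W a) ⊆
      sq (cen h W a - ⟨2 * h, 2 * h⟩) (2 * (2 * h)) := by
  have hc : ∀ b : ℤ, (b = a - 1 ∨ b = a ∨ b = a + 1) →
      |(cen h W b).re - (cen h W a).re| ≤ h ∧ |(cen h W b).im - (cen h W a).im| ≤ h := by
    rintro b (rfl | rfl | rfl)
    · have := cen_next P h0 (a - 1)
      rw [sub_add_cancel] at this
      rw [abs_sub_comm, abs_sub_comm (cen h W (a - 1)).im]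
      exact this
    · simp [h0]
    · exact cen_next P h0 a
  have key : ∀ b : ℤ, (b = a - 1 ∨ b = a ∨ b = a + 1) → ∀ w : ℂ,
      w ∈ Metric.thickening ρ (Sqr h W b) →
      w ∈ sq (cen h W a - ⟨2 * h, 2 * h⟩) (2 * (2 * h)) := by
    intro b hb w hw
    obtain ⟨c1, c2⟩ := hc b hb
    obtain ⟨t, ⟨h1, h2⟩, ht⟩ := Metric.mem_thickening_iff.1 hw
    rw [dist_eq_norm] at ht
    have h3 := (Complex.abs_re_le_norm (w - t)).trans_lt ht
    have h4 := (Complex.abs_im_le_norm (w - t)).trans_lt ht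
    rw [Complex.sub_re] at h1 h3
    rw [Complex.sub_im] at h2 h4
    rw [abs_le] at h1 h2 c1 c2
    rw [abs_lt] at h3 h4
    refine ⟨?_, ?_, ?_, ?_⟩ <;> simp only [Complex.sub_re, Complex.sub_im] <;> linarith
  intro w hw
  rcases mem_thick3.1 hw with h1 | h1 | h1
  · exact key _ (Or.inl rfl) w h1
  · exact key _ (Or.inr (Or.inl rfl)) w h1
  · exact key _ (Or.inr (Or.inr rfl)) w h1

section path

variable {n M : ℕ} {m : ℤ} {p W : ℤ → ℤ × ℤ} {Ac e : ℤ → ℤ} {A B h ε : ℝ} {Ty : Type*}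
  {T : Tpl ε Ty} {tu : Ty → Tn} [DecidableEq (ZMod M)]

/-- **the regions off the window are far from the three squares** -/
theorem far_win3 (L : Lay n M m p W Ac e) (H : Std T A B h tu) {ty : ZMod M → Ty}
    (hty : Typ W tu ty) (I J : Finset (ZMod M)) {p' q' a : ℤ} (hp : p' + 1 < a)
    (hq : a + 1 < q') {ρ : ℝ} (hh : A + ρ ≤ h / 2) :
    Disjoint ((pth L.fp H ty hty).net.reg (I \ Iw M p' q') (J \ Jw M p' q'))
      (Metric.thickening ρ (Sq3 h W a)) := by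
  rw [Set.disjoint_left]
  intro s hs ht
  rcases mem_thick3.1 ht with h1 | h1 | h1
  · exact Set.disjoint_left.1 (far_winS L H hty I J (p' := p') (q' := q') (a := a - 1)
      (by omega) (by omega) hh) hs h1
  · exact Set.disjoint_left.1 (far_winS L H hty I J (p' := p') (q' := q') (a := a)
      (by omega) (by omega) hh) hs h1
  · exact Set.disjoint_left.1 (far_winS L H hty I J (p' := p') (q' := q') (a := a + 1)
      (by omega) (by omega) hh) hs h1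

/-- **THE WINDOWS OF THE FINE PATH**, regions in three squares -/
theorem wnd_lay3 (L : Lay n M m p W Ac e) (H : Std T A B h tu) {ty : ZMod M → Ty}
    (hty : Typ W tu ty) {I J : Finset (ZMod M)} (hN : ∀ k ∈ J, k ∈ I ∧ k + 1 ∈ I) {N : ℕ}
    {a p' q' : ℕ → ℤ} {w : ℕ} (hp : ∀ l < N, p' l + 1 < a l) (hq : ∀ l < N, a l + 1 < q' l)
    (hm : ∀ l < N, q' l ≤ p' l + w) (hI : ∀ l < N, Iw M (p' l) (q' l) ⊆ I)
    (hJ : ∀ l < N, Jw M (p' l) (q' l) ⊆ J) {D : ℕ → Set ℂ} {d ρ : ℝ}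
    (hDm : ∀ l < N, MeasurableSet (D l)) (hD : ∀ l < N, D l ⊆ Sq3 h W (a l)) (hρ : d < ρ)
    (hh : A + ρ ≤ h / 2) (hε : ε ≤ 2 * h) {X : Set ℂ} (hX : MeasurableSet X)
    (hXb : Bornology.IsBounded X) (hreg : (pth L.fp H ty hty).net.reg I J ⊆ X)
    (hXW : ∀ l < N, Metric.thickening ρ (Sq3 h W (a l)) ⊆ X)
    (hA : ∫⁻ ω, T.A (cfg ε ω) ∂sampleLaw ≠ 0) :
    Wnd (pth L.fp H ty hty).net I J N (fun l => Iw M (p' l) (q' l)) (fun l => Jw M (p' l) (q' l)) D d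
      (2 * (2 * h)) X (mm T w) where
  Bm := hX
  Bb := hXb
  reg := hreg
  es := by
    have h1 := H.hA
    have h2 := H.hAB
    have h3 := H.hB
    linarith
  hN := Win.hN_of hN
  hI := hI
  hJ := hJ
  hN₁ := by
    intro l hl k hk i hi
    obtain ⟨hk1, hk2⟩ := Finset.mem_sdiff.1 hk
    rw [net_N, Finset.mem_insert, Finset.mem_singleton] at hi
    rw [Finset.mem_sdiff]
    rcases hi with rfl | rfl
    · exact ⟨(hN i hk1).1, fun h => hk2 (Iw_sub _ _ h)⟩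
    · refine ⟨(hN k hk1).2, fun h => hk2 ?_⟩
      obtain ⟨j, hj, hjk⟩ := Finset.mem_image.1 h
      have hj' := Finset.mem_Icc.1 hj
      have : k = ((j - 1 : ℤ) : ZMod M) := by
        push_cast
        rw [hjk]
        ring
      rw [this]
      exact mem_Jw (by omega) (by omega)
  Dm := hDm
  W := by
    intro l hl
    have h1 := H.hA
    have h2 := H.hAB
    have h3 := H.hB
    refine ⟨cen h W (a l) - ⟨2 * h, 2 * h⟩, Metric.thickening ρ (Sq3 h W (a l)),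
      Metric.isOpen_thickening.measurableSet, hXW l hl,
      thick_sq3 L.fp (by linarith) (by linarith) (a l), ?_,
      far_win3 L H hty I J (hp l hl) (hq l hl) hh⟩
    intro o ho s hs
    rw [Metric.mem_closedBall] at hs
    exact Metric.mem_thickening_iff.2 ⟨o, hD l hl ho, by linarith⟩
  pos := mm_ne w hA
  mass := fun l hl => mass_win L.fp H hty (hm l hl)

end path

/-! ### the corridor net of a polygon -/

section poly

variable {u : Poly} {m M : ℕ} {p W : ℤ → ℤ × ℤ} {Ac e : ℤ → ℤ} {A B h : ℝ}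
variable {ε : ℝ} {T : Tpl ε (Tn × Bool)} [DecidableEq (ZMod M)]

/-- **THE WINDOWS OF THE CORRIDOR NET OF THE LABEL `i`**, regions `D l` in three squares -/
theorem wnd_cor3 [Fintype (ZMod M)] (H : LayU u m M p W Ac e) (hh : (m : ℝ) * h = u.s)
    (Hs : Std T A B h Prod.fst) (i : ZMod 3) {N : ℕ} {a p' q' : ℕ → ℤ} {w : ℕ}
    (hp : ∀ l < N, p' l + 1 < a l) (hq : ∀ l < N, a l + 1 < q' l)
    (hm : ∀ l < N, q' l ≤ p' l + w)
    {D : ℕ → Set ℂ} {d ρ : ℝ} (hDm : ∀ l < N, MeasurableSet (D l))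
    (hD : ∀ l < N, D l ⊆ Sq3 h W (a l)) (hρ : d < ρ) (hAρ : A + ρ ≤ h / 2) (hε : ε ≤ 2 * h)
    {X : Set ℂ} (hX : MeasurableSet X) (hXb : Bornology.IsBounded X)
    (hXP : ∀ s, Metric.infDist s u.P ≤ 5 * h → s ∈ X)
    (hA : ∫⁻ ω, T.A (cfg ε ω) ∂sampleLaw ≠ 0) :
    Wnd (cpth H.lay.fp Hs Ac e i).net Finset.univ Finset.univ N (fun l => Iw M (p' l) (q' l))
      (fun l => Jw M (p' l) (q' l)) D d (2 * (2 * h)) X (mm T w) :=
  wnd_lay3 H.lay Hs (cty_typ i) (fun _ _ => ⟨Finset.mem_univ _, Finset.mem_univ _⟩) hp hq hm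
    (fun _ _ => Finset.subset_univ _) (fun _ _ => Finset.subset_univ _) hDm hD hρ hAρ hε hX hXb
    (fun _ hs => hXP _ (reg_P H hh Hs i _ _ hs))
    (fun l _ s hs => by
      have hr : ρ ≤ h / 2 := by have := Hs.hA; linarith
      rcases mem_thick3.1 hs with h1 | h1 | h1
      · exact hXP _ (Sqr_P H hh hr h1)
      · exact hXP _ (Sqr_P H hh hr h1)
      · exact hXP _ (Sqr_P H hh hr h1)) hA

end poly

/-! ### 169's regions -/

section qx

variable {h : ℝ} {o : ℤ} {n l : ℕ}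

/-- 169's region of a tile is in three squares -/
theorem QX_Sq3 {M : ℕ} (P : FPath M W) : QX h W o n l ⊆ Sq3 h W (o + l) := by
  intro z hz
  obtain ⟨i, hi, h1⟩ := qx_mem hz
  have h2 := Rg_Sqr P h _ hi
  rcases h1 with rfl | ⟨rfl, rfl⟩ | ⟨rfl, hn⟩
  · exact Or.inr (Or.inl h2)
  · refine Or.inl ?_
    rw [show o + ((0 : ℕ) : ℤ) - 1 = o + -1 by push_cast; ring]
    exact h2
  · refine Or.inr (Or.inr ?_)
    rw [show o + (l : ℤ) + 1 = o + n by rw [← hn]; push_cast; ring]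
    exact h2

theorem QX_meas : MeasurableSet (QX h W o n l) := by
  unfold QX
  refine (Rg_meas h W _).union (MeasurableSet.union ?_ ?_)
  · split_ifs
    · exact Rg_meas h W _
    · exact MeasurableSet.empty
  · split_ifs
    · exact Rg_meas h W _
    · exact MeasurableSet.empty

end qx

section fin

variable {u : Poly} {m M : ℕ} {p W : ℤ → ℤ × ℤ} {Ac e : ℤ → ℤ} {A B h : ℝ}
variable {ε : ℝ} {T : Tpl ε (Tn × Bool)} [DecidableEq (ZMod M)]

/-- **THE WINDOWS FOR 831's `Ft`** : `D l = QX h W o n (n - 1 - l)` (order of time), any tile windows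
`p' l + 1 < o + (n - 1 - l) < q' l - 1` -/
theorem wnd_QX [Fintype (ZMod M)] (H : LayU u m M p W Ac e) (hh : (m : ℝ) * h = u.s)
    (Hs : Std T A B h Prod.fst) (i : ZMod 3) {o : ℤ} {n : ℕ} {p' q' : ℕ → ℤ} {w : ℕ}
    (hp : ∀ l < n, p' l + 1 < o + ((n - 1 - l : ℕ) : ℤ))
    (hq : ∀ l < n, o + ((n - 1 - l : ℕ) : ℤ) + 1 < q' l)
    (hm : ∀ l < n, q' l ≤ p' l + w) {d ρ : ℝ} (hρ : d < ρ) (hAρ : A + ρ ≤ h / 2)
    (hε : ε ≤ 2 * h) {X : Set ℂ} (hX : MeasurableSet X) (hXb : Bornology.IsBounded X)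
    (hXP : ∀ s, Metric.infDist s u.P ≤ 5 * h → s ∈ X)
    (hA : ∫⁻ ω, T.A (cfg ε ω) ∂sampleLaw ≠ 0) :
    Wnd (cpth H.lay.fp Hs Ac e i).net Finset.univ Finset.univ n (fun l => Iw M (p' l) (q' l))
      (fun l => Jw M (p' l) (q' l)) (fun l => QX h W o n (n - 1 - l)) d (2 * (2 * h)) X
      (mm T w) :=
  wnd_cor3 H hh Hs i (a := fun l => o + ((n - 1 - l : ℕ) : ℤ)) hp hq hm
    (fun _ _ => QX_meas) (fun _ _ => QX_Sq3 H.lay.fp) hρ hAρ hε hX hXb hXP hA

end fin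

end Crest.Agent.R143.WndXx829
end
end

-- ▼ part R143/RigF_970
section

/-!
# Row 143 (S0194), CORE-C, RIG: from the data of the corridors to `POLY` (helper970)

* `Box` : data of one corridor (one polygon, one type, one width, one mesh): 279's `Inp`, `Quen`
  (654) at the good environments, moments, means, displacement; `Box.l1d` : the `L¹` bound with
  970's total error
* `Bx u i ε κ η` : there is a box for the type `i` of the polygon `u` (totals of the points in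
  `u.P`, 609) with total error `≤ η`
* **`poly_of_box`** : `Bx` for every polygon, type and `η`, eventually in the width, then the mesh,
  common `κ` ⟹ `POLY Poly.T Poly.T'`
* `tot_le` : the total error from the parameters
-/

set_option autoImplicit false

noncomputable section

open scoped Classical

namespace Crest.Agent.R143.RigFx970

open Complex Set Filter Topology MeasureTheory
open scoped ENNReal
open Crest.ProbabilityR.Voronoi
open Crest.Agent.R143.B0x346 Crest.Agent.R143.PP0x831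
open Crest.Agent.R143.AsmNx758 (POLY)
open Crest.Agent.R143.CorMx970 (tot Env EnvF)
open Crest.Agent.R143.EnvIx279 Crest.Agent.R143.IndLoc2x279 Crest.Agent.R143.RigDx654
open Crest.Agent.R143.IndLocx279
open Crest.Agent.R143.PolyEx854 (L1D polyP_of_l1k poly_of_l1 dl_max0)
open Crest.Agent.R143.PolySx854 (DL)
open Crest.Agent.R143.PolyUx346 (Poly)
open Crest.Agent.R143.MeasDx609 (mI aI bI DI rlI poly_of_in sig_mI sig_aI)
open Crest.Agent.R143.Alg4x133 (Rl omz0 omz1 omz2 norm_om norm_omz)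

lemma probS : IsProbabilityMeasure sampleLaw := by unfold sampleLaw; infer_instance

attribute [local instance] probS

/-- **data of one corridor** (one polygon, one type, one width, one mesh) -/
structure Box (ε : ℝ) (C U : Set ℂ) (n r c : ℕ) (J : Finset ℕ) (S : Sample → Finset ℂ)
    (g : Set (ℂ × Bool) → ℝ) (V : ℕ → Set (ℂ × Bool) → ℂ) (a b : Set (ℂ × Bool) → ℕ)
    (t κ : ℂ) (z : ℕ → ℂ) (T D : Sample → ℂ) (M a1 a2 K q cD θ ρ : ℝ) (bad : Set Sample)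
    (E1 Q dd : Sample → ℝ) : Prop where
  inp : Inp ε C U n S g V a b
  J_le : J ⊆ Finset.range n
  g0_pos : 0 < ∫ ω, g (cfg ε ω) ∂sampleLaw
  tn : ‖t‖ = 1
  K0 : 0 ≤ K
  a20 : 0 ≤ a2
  θ0 : 0 ≤ θ
  q0 : 0 ≤ q
  hbad : sampleLaw.real bad ≤ ρ * ∫ ω, g (cfg ε ω) ∂sampleLaw
  quen : ∀ᵐ ω ∂sampleLaw, ω ∉ bad → ∃ (Vβ Vγ : Finset ℂ → Finset ℂ → ℂ) (TK : Finset ℂ → ℂ)
    (W : ℕ → Finset ℂ → Finset ℂ → ℂ) (ka kb : Finset ℂ → Finset ℂ → ℕ),
    Quen n r c (S ω) g V a b t (T ω) (E1 ω) a2 θ (Q ω) Vβ Vγ TK W ka kb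
  E0 : ∀ ω, 0 ≤ E1 ω
  i1 : Integrable E1 sampleLaw
  e1 : ∫ ω, E1 ω ∂sampleLaw ≤ a1 * ∫ ω, g (cfg ε ω) ∂sampleLaw
  Q0 : ∀ ω, 0 ≤ Q ω
  iQ : Integrable Q sampleLaw
  eQ : 2 * c * ∫ ω, Q ω ∂sampleLaw ≤ q ^ 2 * ∫ ω, g (cfg ε ω) ∂sampleLaw
  e3 : ∀ l ∈ Finset.range n, ∫ ω, g (cfg ε ω) * ‖V l (cfg ε ω)‖ ^ 2 ∂sampleLaw ≤
    K ^ 2 * ∫ ω, g (cfg ε ω) ∂sampleLaw
  mean : ∀ l ∈ J, ∫ ω, (g (cfg ε ω) : ℂ) * V l (cfg ε ω) ∂sampleLaw =
    ((∫ ω, g (cfg ε ω) ∂sampleLaw : ℝ) : ℂ) * (κ * z l)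
  hT : Measurable[sig ε U] T
  Tb : ∀ ω, ‖T ω‖ ≤ M
  hD : Measurable[sig ε U] D
  iD : Integrable D sampleLaw
  idd : Integrable dd sampleLaw
  edd : ∫ ω, dd ω ∂sampleLaw ≤ cD
  disp : ∀ᵐ ω ∂sampleLaw, ‖D ω - ∑ l ∈ J, z l * (qo S a b l ω : ℂ)‖ ≤ dd ω

namespace Box

variable {ε : ℝ} {C U : Set ℂ} {n r c : ℕ} {J : Finset ℕ} {S : Sample → Finset ℂ}
  {g : Set (ℂ × Bool) → ℝ} {V : ℕ → Set (ℂ × Bool) → ℂ} {a b : Set (ℂ × Bool) → ℕ}
  {t κ : ℂ} {z : ℕ → ℂ} {T D : Sample → ℂ} {M a1 a2 K q cD θ ρ : ℝ} {bad : Set Sample}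
  {E1 Q dd : Sample → ℝ}


end Box

/-! ### the totals of 609 -/

/-- total of the points in `u.P` -/
def TI (u : Poly) (ε : ℝ) (ω : Sample) : ℂ := ∑ j : ZMod 3, omz j * mI u ε j id ω

/-- displacement between the touches of the type `i` -/
def dis (u : Poly) (ε : ℝ) (i : ZMod 3) (ω : Sample) : ℂ :=
  mI u ε i id ω - mI u ε (i + 1) id ω






/-! ### POLY -/

/-- a corridor for the type `i` of the polygon `u`, total error `≤ η` -/
def Bx (u : Poly) (i : ZMod 3) (ε : ℝ) (κ : ℂ) (η : ℝ) : Prop :=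
  ∃ (C U : Set ℂ) (n r c : ℕ) (J : Finset ℕ) (S : Sample → Finset ℂ)
    (g : Set (ℂ × Bool) → ℝ) (V : ℕ → Set (ℂ × Bool) → ℂ) (a b : Set (ℂ × Bool) → ℕ)
    (z : ℕ → ℂ) (M a1 a2 K q cD θ ρ : ℝ) (bad : Set Sample) (E1 Q dd : Sample → ℝ),
    Box ε C U n r c J S g V a b (omz (-i)) κ z (TI u ε) (dis u ε i) M a1 a2 K q cD θ ρ bad
      E1 Q dd ∧ tot n (r + c) J a1 (a2 + M * ρ) K q q cD θ ρ ‖κ‖ ≤ η


variable {I : Type}



/-! ### the total error -/


end Crest.Agent.R143.RigFx970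
end
namespace Crest.Agent.R143.RigFx970.Bx
end Crest.Agent.R143.RigFx970.Bx
end

-- ▼ part R143/HqE_304
section

/-!
# Row 143 (S0194), CORE-C, RIG: fields `Q0`, `iQ`, `eQ`, `V2`, `e3` of 970's `Box` (helper304)

In 133's real weight `gR`; `μ` = lower bound of the mass of the windows.
* `fields` : `Q := Qt`; `2 c ∫ Q ≤ q² g0` if `2 c n K C s² / μ ≤ q²`; `∫ gR |V|² ≤ K₁² g0` if
  `K C s² / μ ≤ K₁²`
* `fields_h` : squares of side `2 h`, `n h ≤ N₀` : `q = √(8 c N₀ K C / μ * h)`,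
  `K₁ = √(4 K C / μ) * h`
* `mm_ge` : `cc ^ (m + 1) c0 ^ m ≤ mm`
* `quen_Q` : hypothesis `hQ` of `Quen` from the quenched inequalities of the windows
-/

set_option autoImplicit false
set_option linter.unusedSectionVars false

noncomputable section

namespace Crest.Agent.R143.HqEx304

open MeasureTheory Set Filter Topology
open Crest.ProbabilityR.Voronoi
open Crest.Agent.R143.PP0x831 Crest.Agent.R143.Poisx304
open Crest.Agent.R143.ColSumx304
open Crest.Agent.R143.Dblx609 Crest.Agent.R143.Dbl2x609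
open Crest.Agent.R143.IndLocx279 Crest.Agent.R143.PWx978 Crest.Agent.R143.Tplx978
open Crest.Agent.R143.TilePx176 Crest.Agent.R143.TileRx176
open Crest.Agent.R143.Hqx304 Crest.Agent.R143.HqPx304 Crest.Agent.R143.LimSx133
open Crest.Agent.R143.IndLoc3x279 (clr cav)
open Crest.Agent.R143.CorMx970 (av)
open scoped ENNReal

/-- **fields `Q0`, `iQ`, `eQ`, `V2`, `e3`** -/
theorem fields : ∃ C : ℝ, 0 ≤ C ∧ ∀ {ε d s : ℝ} {ι κ : Type} [DecidableEq ι] [DecidableEq κ]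
    {M : Net ε ι κ} {I : Finset ι} {J : Finset κ} {n : ℕ} {I₁ : ℕ → Finset ι}
    {J₁ : ℕ → Finset κ} {D : ℕ → Set ℂ} {B : Set ℂ} {m0 : ℝ≥0∞},
    Wnd M I J n I₁ J₁ D d s B m0 → ∀ {μ K : ℝ}, 0 < μ → μ ≤ m0.toReal → 0 ≤ K →
    ((∀ ω, 0 ≤ Qt M I J n I₁ J₁ D d B K ω) ∧
      Integrable (Qt M I J n I₁ J₁ D d B K) sampleLaw ∧
      ∀ (c : ℕ) (q : ℝ), 2 * c * (n * (K * (C * s ^ 2 / μ))) ≤ q ^ 2 →
        2 * c * ∫ ω, Qt M I J n I₁ J₁ D d B K ω ∂sampleLaw ≤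
          q ^ 2 * ∫ ω, gR M I J (cfg ε ω) ∂sampleLaw) ∧
    ∀ l < n, ∀ V : Set (ℂ × Bool) → ℂ, LocalOn B V → FinMeas V →
      (∀ᵐ ω ∂sampleLaw, ∑ β ∈ (Ap ε B ω).powerset,
        (M.gw (I \ I₁ l) (J \ J₁ l) (paint (Ap ε B ω) β)).toReal *
          ((win M (I₁ l) (J₁ l) (paint (Ap ε B ω) β)).toReal * ‖V (paint (Ap ε B ω) β)‖ ^ 2) ≤
        K * ∑ β ∈ (Ap ε B ω).powerset, (M.gw (I \ I₁ l) (J \ J₁ l) (paint (Ap ε B ω) β)).toReal *
          (Hd (D l) d (paint (Ap ε B ω) β)).toReal) →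
      Integrable (fun ω => gR M I J (cfg ε ω) * ‖V (cfg ε ω)‖ ^ 2) sampleLaw ∧
      ∀ K₁ : ℝ, K * (C * s ^ 2 / μ) ≤ K₁ ^ 2 →
        ∫ ω, gR M I J (cfg ε ω) * ‖V (cfg ε ω)‖ ^ 2 ∂sampleLaw ≤
          K₁ ^ 2 * ∫ ω, gR M I J (cfg ε ω) ∂sampleLaw := by
  obtain ⟨C1, hC1, h1⟩ := Qt_bound
  obtain ⟨C2, hC2, h2⟩ := V2_bound
  refine ⟨max C1 C2, hC1.trans (le_max_left _ _), ?_⟩
  intro ε d s ι κ _ _ M I J n I₁ J₁ D B m0 h μ K hμ hm hK
  have e0 := int_gR M h.hN (I := I) (J := J)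
  have g0 : 0 ≤ (∫⁻ ω, M.gw I J (cfg ε ω) ∂sampleLaw).toReal := ENNReal.toReal_nonneg
  have hm0 : 0 < m0.toReal := hμ.trans_le hm
  have key : ∀ C', 0 ≤ C' → C' ≤ max C1 C2 →
      K * (C' * s ^ 2 / m0.toReal) ≤ K * (max C1 C2 * s ^ 2 / μ) := by
    intro C' h0 hC'
    refine mul_le_mul_of_nonneg_left ?_ hK
    have : (0 : ℝ) ≤ s ^ 2 := sq_nonneg s
    exact div_le_div₀ (mul_nonneg (h0.trans hC') this) (mul_le_mul_of_nonneg_right hC' this)
      hμ hm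
  constructor
  · obtain ⟨i1, i2⟩ := h1 h K hK
    refine ⟨fun ω => Qt_nonneg hK ω, i1, fun c q hq => ?_⟩
    rw [e0]
    have c0 : (0 : ℝ) ≤ 2 * c := by positivity
    have n0 : (0 : ℝ) ≤ n := Nat.cast_nonneg n
    calc 2 * c * ∫ ω, Qt M I J n I₁ J₁ D d B K ω ∂sampleLaw
        ≤ 2 * c * (n * (K * (C1 * s ^ 2 / m0.toReal)) *
          (∫⁻ ω, M.gw I J (cfg ε ω) ∂sampleLaw).toReal) := mul_le_mul_of_nonneg_left i2 c0
      _ = 2 * c * (n * (K * (C1 * s ^ 2 / m0.toReal))) *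
          (∫⁻ ω, M.gw I J (cfg ε ω) ∂sampleLaw).toReal := by ring
      _ ≤ 2 * c * (n * (K * (max C1 C2 * s ^ 2 / μ))) *
          (∫⁻ ω, M.gw I J (cfg ε ω) ∂sampleLaw).toReal := by
          refine mul_le_mul_of_nonneg_right ?_ g0
          exact mul_le_mul_of_nonneg_left
            (mul_le_mul_of_nonneg_left (key C1 hC1 (le_max_left _ _)) n0) c0
      _ ≤ q ^ 2 * (∫⁻ ω, M.gw I J (cfg ε ω) ∂sampleLaw).toReal :=
          mul_le_mul_of_nonneg_right hq g0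
  · intro l hl V hVl hVm hV
    obtain ⟨i1, i2⟩ := h2 h l hl K hK V hVl hVm hV
    have e1 : (fun ω => gR M I J (cfg ε ω) * ‖V (cfg ε ω)‖ ^ 2) =
        fun ω => (M.gw I J (cfg ε ω)).toReal * ‖V (cfg ε ω)‖ ^ 2 := by
      funext ω
      rw [gR_cfg M h.hN]
    rw [e1, e0]
    refine ⟨i1, fun K₁ hK₁ => i2.trans (mul_le_mul_of_nonneg_right ?_ g0)⟩
    exact (key C2 hC2 (le_max_right _ _)).trans hK₁


/-! ### the mass of a window -/

section mass

variable {ε : ℝ} {Ty : Type*} {T : Tpl ε Ty}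

theorem mm_ne_top (m : ℕ) : mm T m ≠ ∞ := by
  unfold mm
  refine ENNReal.mul_ne_top (ENNReal.pow_ne_top ?_) (ENNReal.pow_ne_top ?_)
  · exact ne_top_of_le_ne_top ENNReal.one_ne_top (min_le_right _ _)
  · exact ne_top_of_le_ne_top ENNReal.one_ne_top (Win.A_le T)

/-- **lower bound of the mass of a window** -/
theorem mm_ge (m : ℕ) {cc c0 : ℝ} (h0 : 0 ≤ cc) (h1 : cc ≤ 1) (h0' : 0 ≤ c0)
    (hc : ENNReal.ofReal cc ≤ T.c)
    (ha : ENNReal.ofReal c0 ≤ ∫⁻ ω, T.A (cfg ε ω) ∂sampleLaw) :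
    cc ^ (m + 1) * c0 ^ m ≤ (mm T m).toReal := by
  refine (ENNReal.ofReal_le_iff_le_toReal (mm_ne_top m)).1 ?_
  unfold mm
  rw [ENNReal.ofReal_mul (pow_nonneg h0 _), ENNReal.ofReal_pow h0, ENNReal.ofReal_pow h0']
  refine mul_le_mul' (pow_le_pow_left' (le_min hc ?_) _) (pow_le_pow_left' ha _)
  rw [← ENNReal.ofReal_one]
  exact ENNReal.ofReal_le_ofReal h1

end mass

/-! ### `hQ` of `Quen` -/

section quen

variable {ε : ℝ} {ι κ : Type} [DecidableEq ι] [DecidableEq κ] {M : Net ε ι κ}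
  {I : Finset ι} {J : Finset κ} {n : ℕ} {I₁ : ℕ → Finset ι} {J₁ : ℕ → Finset κ}
  {D : ℕ → Set ℂ} {d s : ℝ} {B : Set ℂ} {m0 : ℝ≥0∞}



end quen

end Crest.Agent.R143.HqEx304
end
end

-- ▼ part R143/RigQ_377

/-!
# Row 143 (S0194), RIG: the field `hQ` of 609's `Op` (helper377)

* `pZ`, `qZ`, `I1`, `J1`, `DZ` : 416's canonical windows in the order of the strand, gates, tiles,
  169's regions, for the layout of `u` at the width `N`
* **`wndZ`** : 304's `Wnd` for the corridor net of RigZd (side `4 h`, width `48`)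
* **`Qz Z u w N ε`** : the quenched majorant (304's `Qt`), `Qz_eq`
* `Qz_int` : `∫ Qz ≤ C₃² h g₀`; **`hQ_z`** : field `hQ`
-/

set_option autoImplicit false

noncomputable section

namespace Crest.Agent.R143.RigQx377

open MeasureTheory Set Filter Topology
open Crest.ProbabilityR.Voronoi
open Crest.Agent.R143.PP0x831
open Crest.Agent.R143.PolyUx346 (Poly)
open Crest.Agent.R143.PWx978 Crest.Agent.R143.Tplx978
open Crest.Agent.R143.Hqx304 Crest.Agent.R143.HqPx304 Crest.Agent.R143.HqEx304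
open Crest.Agent.R143.Layx416 Crest.Agent.R143.LayUx416
open Crest.Agent.R143.WndGx416 (pS qS pqS)
open Crest.Agent.R143.WndXx829 (wnd_QX)
open Crest.Agent.R143.SpRx169 (QX)
open Crest.Agent.R143.RigPx854
open Crest.Agent.R143.RigZdx609 Crest.Agent.R143.RigZx609
open Crest.Agent.R143.CorEx133 (Rp RU UU SU)
open scoped ENNReal

/-! ### the windows -/

/-- first removed tile, order of the strand -/
def pZ (u : Poly) (w : ZMod 3) (N l : ℕ) : ℤ :=
  pS (ly u N).A (ly u N).W (al (ly u N).A (ly u N).e w) (nT u w N) (ly u N).M l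

/-- last removed tile, order of the strand -/
def qZ (u : Poly) (w : ZMod 3) (N l : ℕ) : ℤ :=
  qS (ly u N).A (ly u N).W (al (ly u N).A (ly u N).e w) (nT u w N) (ly u N).M l

/-- gates of the window -/
def I1 (u : Poly) (w : ZMod 3) (N l : ℕ) : Finset (ZMod (ly u N).M) :=
  Iw (ly u N).M (pZ u w N l) (qZ u w N l)

/-- tiles of the window -/
def J1 (u : Poly) (w : ZMod 3) (N l : ℕ) : Finset (ZMod (ly u N).M) :=
  Jw (ly u N).M (pZ u w N l) (qZ u w N l)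

/-- region of the tile, order of the strand -/
def DZ (u : Poly) (w : ZMod 3) (N l : ℕ) : Set ℂ :=
  QX (hN N) (ly u N).W (al (ly u N).A (ly u N).e w) (nT u w N) (nT u w N - 1 - l)

variable (Z : TData) {N : ℕ} {ε : ℝ} {u : Poly} {w : ZMod 3}

theorem near_RU {s : ℂ} (hs : Metric.infDist s u.P ≤ 5 * hN N) :
    s ∈ Metric.closedBall (0 : ℂ) (RU u) := by
  obtain ⟨y, hy, he⟩ := (MeasPx609.isCompact_P u).exists_infDist_eq_dist (MeasPx609.P_nonempty u) s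
  rw [he, dist_eq_norm] at hs
  have h1 := CorEx133.P_norm u hy
  have h2 := norm_add_le (s - y) y
  rw [sub_add_cancel] at h2
  have h3 := CorEx133.one_le_Rp u
  have h4 : hN N ≤ 1 := pow_le_one₀ (by norm_num) (by norm_num)
  rw [mem_closedBall_zero_iff]
  unfold RU
  linarith

/-- **304's windows for the corridor net** -/
theorem wndZ (hn : u.n + 4 ≤ N) (he : 0 < ε) (hm : 40 ≤ mN u N) (hε : ε ≤ 2 * hN N)
    (hA : ∫⁻ ω, (Z.tpl N he).A (cfg ε ω) ∂sampleLaw ≠ 0) :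
    Wnd (net Z u w hn he) (uM hn) (uM hn) (nT u w N) (I1 u w N) (J1 u w N) (DZ u w N) (et N)
      (2 * (2 * hN N)) (Metric.closedBall 0 (RU u)) (mm (Z.tpl N he) 48) := by
  have := neM hn
  have h1 := Z.num N ε
  have h2 := et_pos N
  have h3 := Z.h_eq N ε
  have h4 := et_h N
  have hpq : ∀ l < nT u w N, pZ u w N l + 1 <
      al (ly u N).A (ly u N).e w + ((nT u w N - 1 - l : ℕ) : ℤ) ∧
      al (ly u N).A (ly u N).e w + ((nT u w N - 1 - l : ℕ) : ℤ) + 1 < qZ u w N l ∧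
      qZ u w N l ≤ pZ u w N l + (48 : ℕ) := by
    intro l hl
    have h5 := pqS (ly_spec hn).lay (by exact_mod_cast hm) w hl
    have e1 : ((nT u w N - 1 - l : ℕ) : ℤ) = (nT u w N : ℤ) - 1 - l := by omega
    rw [e1]
    exact h5
  have h6 := wnd_QX (ly_spec hn) (mNh Z hn ε) (Z.std N he) w (o := al (ly u N).A (ly u N).e w)
    (n := nT u w N) (p' := pZ u w N) (q' := qZ u w N) (w := 48) (fun l hl => (hpq l hl).1)
    (fun l hl => (hpq l hl).2.1) (fun l hl => (hpq l hl).2.2) (d := et N) (ρ := 2 * et N)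
    (by linarith) (by rw [h1.A', h3]; linarith) (by rw [h3]; exact hε)
    (X := Metric.closedBall 0 (RU u)) measurableSet_closedBall Metric.isBounded_closedBall
    (fun s hs => near_RU (by rwa [h3] at hs)) hA
  have e1 : DZ u w N = fun l => QX (Z.D N ε).h (ly u N).W (al (ly u N).A (ly u N).e w) (nT u w N)
      (nT u w N - 1 - l) := by
    funext l
    unfold DZ
    rw [h3]
  rw [e1, ← h3]
  exact h6

/-! ### the majorant -/

/-- **the quenched majorant** -/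
def Qz (Z : TData) (u : Poly) (w : ZMod 3) (N : ℕ) (ε : ℝ) (ω : Sample) : ℝ :=
  if h : u.n + 4 ≤ N ∧ 0 < ε then
    Qt (net Z u w h.1 h.2) (uM h.1) (uM h.1) (nT u w N) (I1 u w N) (J1 u w N) (DZ u w N) (et N)
      (Metric.closedBall 0 (RU u)) (9 * 48) ω
  else 0

theorem Qz_eq (hn : u.n + 4 ≤ N) (he : 0 < ε) :
    Qz Z u w N ε = Qt (net Z u w hn he) (uM hn) (uM hn) (nT u w N) (I1 u w N) (J1 u w N)
      (DZ u w N) (et N) (Metric.closedBall 0 (RU u)) (9 * 48) := by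
  funext ω
  unfold Qz
  rw [dif_pos ⟨hn, he⟩]


/-- **`∫ Qz ≤ C₃² h g₀`** -/
theorem Qz_int (hp : PosP Z) (u : Poly) (w : ZMod 3) : ∃ C3 : ℝ, Ev u fun N ε hn he =>
    (∀ ω, 0 ≤ Qz Z u w N ε ω) ∧ Integrable (Qz Z u w N ε) sampleLaw ∧
      ∫ ω, Qz Z u w N ε ω ∂sampleLaw ≤ C3 ^ 2 * hN N * g0 Z u w hn he := by
  obtain ⟨C, hC, hf⟩ := fields
  obtain ⟨cc, hcc, c0, hc0, hp⟩ := hp
  set μ : ℝ := min cc 1 ^ (48 + 1) * c0 ^ 48 with hμd
  have hm1 : 0 < min cc 1 := lt_min hcc one_pos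
  have hμ : 0 < μ := by positivity
  set N0 : ℝ := 2 * u.L * u.s with hN0
  have hN0' : 0 ≤ N0 := by
    have := u.s_pos.le
    positivity
  refine ⟨√(9 * 48 * (16 * C / μ) * N0), ?_⟩
  unfold Ev
  filter_upwards [mN_mono (u := u) 40] with N hm
  filter_upwards [hp N, CorEx133.sqrt_small (c := 1) one_pos,
    (gt_mem_nhds (hN_pos N) : ∀ᶠ x : ℝ in 𝓝 0, x < hN N).filter_mono nhdsWithin_le_nhds]
    with ε h1 _ h3 hn he
  obtain ⟨h4, h5⟩ := h1 he
  have hA : ∫⁻ ω, (Z.tpl N he).A (cfg ε ω) ∂sampleLaw ≠ 0 :=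
    ((ENNReal.ofReal_pos.2 hc0).trans_le h5).ne'
  have hW := wndZ Z (w := w) hn he hm (by linarith [hN_pos N]) hA
  have hmm : μ ≤ (mm (Z.tpl N he) 48).toReal := by
    refine mm_ge 48 hm1.le (min_le_right _ _) hc0.le ?_ h5
    exact (ENNReal.ofReal_le_ofReal (min_le_left _ _)).trans h4
  obtain ⟨⟨f1, f2, f3⟩, -⟩ := hf hW hμ hmm (K := 9 * 48) (by norm_num)
  rw [Qz_eq Z hn he]
  refine ⟨f1, f2, ?_⟩
  have hh := hN_pos N
  have hT := nT_le w hn
  have g00 : 0 ≤ g0 Z u w hn he := integral_nonneg fun ω => LimSx133.gR_nonneg _ _ _ _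
  have key := f3 1 √(2 * (9 * 48 * (16 * C / μ) * N0 * hN N)) (by
    rw [Real.sq_sqrt (by positivity)]
    have e1 : 2 * ((1 : ℕ) : ℝ) * ((nT u w N : ℝ) * (9 * 48 * (C * (2 * (2 * hN N)) ^ 2 / μ))) =
        2 * (9 * 48 * (16 * C / μ)) * hN N * ((nT u w N : ℝ) * hN N) := by
      push_cast
      ring
    rw [e1]
    calc 2 * (9 * 48 * (16 * C / μ)) * hN N * ((nT u w N : ℝ) * hN N) ≤
        2 * (9 * 48 * (16 * C / μ)) * hN N * N0 :=
          mul_le_mul_of_nonneg_left hT (by positivity)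
      _ = _ := by ring)
  rw [Real.sq_sqrt (by positivity)] at key
  rw [Real.sq_sqrt (by positivity)]
  have e2 : g0 Z u w hn he =
      ∫ ω, LimSx133.gR (net Z u w hn he) (uM hn) (uM hn) (cfg ε ω) ∂sampleLaw := rfl
  rw [← e2] at key
  push_cast at key
  linarith

/-- constant of the field `hQ` -/
def C3z (hp : PosP Z) (u : Poly) (w : ZMod 3) : ℝ := (Qz_int Z hp u w).choose

/-- **field `hQ`** of `Op` -/
theorem hQ_z (hp : PosP Z) (u : Poly) (w : ZMod 3) : Ev u fun N ε hn he =>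
    (∀ ω, 0 ≤ Qz Z u w N ε ω) ∧ Integrable (Qz Z u w N ε) sampleLaw ∧
      ∫ ω, Qz Z u w N ε ω ∂sampleLaw ≤ C3z Z hp u w ^ 2 * hN N * g0 Z u w hn he :=
  (Qz_int Z hp u w).choose_spec

end Crest.Agent.R143.RigQx377
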