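import Crest.Agent.R143.Spt_169

/-!
# Row 143 (S0194), CORE-C, box R6: spatial tile charges, part 2 (helper169)

The three facts in the shape of `ErrSx168.errS` (`c = 2`): `K[y → x] = ∑ W l`, `W l = Vl l` well inside,
`W l = 0` well outside, where `W l = KP .. (rst w (F l)) .. a b`, `ka`, `kb` = arcs of the two end times.
-/

set_option autoImplicit false

noncomputable section

open scoped Classical

namespace Crest.Agent.R143.Sptx169

open Crest.Agent.R143.Frame1x395 Crest.Agent.R143.Frame2x395 Crest.Agent.R143.Frame3x395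
  Crest.Agent.R143.Frame4x395 Crest.Agent.R143.Frame8x395 Crest.Agent.R143.Frame9x395
  Crest.Agent.R143.Frame11x395
open Crest.Agent.R143.Splx117

variable {D C : Type} {M : CMap D C} {x : D → ZMod 2} {q : D} {n m : ℕ} {T : ℕ → ℕ}
  {E : Type} [AddCommMonoid E] {w : D → E} {F : ℕ → Set D}

/-- the charge of the window `[a, b)` in the region `l` -/
def Wl (M : CMap D C) (x : D → ZMod 2) (q : D) (T : ℕ → ℕ) (n : ℕ) (w : D → E) (F : ℕ → Set D)
    (a b l : ℕ) : E := KP M x q (rst w (F l)) (T 0) (T n) a b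

/-- well inside -/
theorem Reg.wl_in (R : Reg M x q T n m F) {a b ka kb l : ℕ} (ha : T 0 ≤ a) (hab : a ≤ b)
    (hb : b ≤ T n) (ha2 : a ≤ T (ka + 1)) (hb1 : T kb ≤ b) (hkb : kb < n)
    (h1 : ka + 2 ≤ l) (h2 : l + 2 < kb) : Wl M x q T n w F a b l = Vl M x q T n w F l := by
  refine R.kp_full ha hab hb fun k hk => ?_
  rw [mem_near] at hk
  have mo : ∀ {i j : ℕ}, i ≤ j → j ≤ n → T i ≤ T j := fun {i j} h h' =>
    mono_of R.mono (Nat.zero_le i) h h'
  have e1 := mo (show ka + 1 ≤ k by omega) (by omega)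
  have e2 := mo (show k + 1 ≤ kb by omega) (by omega)
  omega

/-- well outside -/
theorem Reg.wl_out (R : Reg M x q T n m F) {a b ka kb l : ℕ} (ha : T 0 ≤ a)
    (hb : b ≤ T n) (ha1 : T ka ≤ a) (hka : ka < n) (hb2 : b ≤ T (kb + 1))
    (h : l + 2 < ka ∨ kb + 2 ≤ l) : Wl M x q T n w F a b l = 0 := by
  refine R.kp_off ha hb fun k hk => ?_
  rw [mem_near] at hk
  have mo : ∀ {i j : ℕ}, i ≤ j → j ≤ n → T i ≤ T j := fun {i j} h h' =>
    mono_of R.mono (Nat.zero_le i) h h'
  rcases h with h | h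
  · right
    have e1 := mo (show k + 1 ≤ ka by omega) (by omega)
    omega
  · left
    have e1 := mo (show kb + 1 ≤ k by omega) (by omega)
    omega

/-- the window is the sum of its regions -/
theorem Reg.wl_sum (R : Reg M x q T n m F) {a b : ℕ} (ha : T 0 ≤ a) (hb : b ≤ T n) :
    KP M x q w (T 0) (T n) a b = ∑ l ∈ Finset.range m, Wl M x q T n w F a b l := R.kp_reg ha hb

/-- the arc of a time -/
theorem exists_arc (hn : 0 < n) {a : ℕ} (ha : T 0 ≤ a) (hb : a ≤ T n) :
    ∃ k, k < n ∧ T k ≤ a ∧ a ≤ T (k + 1) := by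
  obtain ⟨k, -, h1, h2, h3⟩ := arc_of (T := T) hn ha hb
  exact ⟨k, h1, h2, h3⟩


/-- the spatial charge under a field which is a sum over regions of faces (all darts of a face are in the
same region): a restricted field of spin `z` has spin `z` -/
theorem rst_spin {z : ℂ} {v : D → ℂ} (hv : Spin M z v) {H : Set D}
    (hH : ∀ d, M.rho d ∈ H ↔ d ∈ H) : Spin M z (rst v H) := by
  intro d
  unfold rst
  by_cases h : d ∈ H
  · rw [if_pos h, if_pos ((hH d).2 h), hv d]
  · rw [if_neg h, if_neg fun h' => h ((hH d).1 h'), mul_zero]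


end Crest.Agent.R143.Sptx169
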