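import Crest.Agent.R143.R5q_166
import Crest.Agent.R143.Spt2_169

/-!
# Row 143 (S0194), RIG (helper166): field `close` of 970's `CorM` from the quenched closing theorem

* `fa`, `fb`, `fM`, `fM'`, `split3` : full tiles `[a, b)` between the touched arcs `ka`, `kb`, two
  partial parts with `‖M‖², ‖M'‖² ≤ 8 Σ ‖W l‖²`
* `Ex.kp` : the outer part of the closing is 169's `KP`
* `arcOf` : arc of a time
* `Ex.closeM` : **`V(β) = V(γ) + Σ_{l ∈ [a, b)} V l + M + M'`**
* `Ex.hitA`, `Ex.hitB` : the touched cells are 395's static hits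
* `Ex.idx` : the tiles `a`, `b` are the tiles of the hits, up to 3 (4)
-/

set_option autoImplicit false
set_option linter.unusedSectionVars false

noncomputable section

open scoped Classical

namespace Crest.Agent.R143.QuSx166

/-! ### full tiles and partial parts -/

section split

/-- first full tile -/
def fa (ka kb : ℕ) : ℕ := if ka + 4 ≤ kb then ka + 2 else ka

/-- end of the full tiles -/
def fb (ka kb : ℕ) : ℕ := if ka + 4 ≤ kb then kb - 2 else ka


variable {E : Type} [AddCommGroup E]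

/-- first partial part -/
def fM (W : ℕ → E) (m ka kb : ℕ) : E :=
  if ka + 4 ≤ kb then ∑ l ∈ (Finset.range m).filter fun l => l < ka + 2, W l
  else ∑ l ∈ Finset.range m, W l

/-- second partial part -/
def fM' (W : ℕ → E) (m ka kb : ℕ) : E :=
  if ka + 4 ≤ kb then ∑ l ∈ (Finset.range m).filter fun l => kb - 2 ≤ l, W l else 0


end split

section sq

variable {W : ℕ → ℂ} {m ka kb : ℕ}




end sq

/-! ### the closing -/

open Crest.Agent.R143.Frame1x395 Crest.Agent.R143.Frame2x395 Crest.Agent.R143.Frame3x395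
  Crest.Agent.R143.Frame4x395 Crest.Agent.R143.Frame8x395 Crest.Agent.R143.Frame9x395
  Crest.Agent.R143.NonXx592 Crest.Agent.R143.Coarsex166 Crest.Agent.R143.Coarse2x166
  Crest.Agent.R143.Flipx166 Crest.Agent.R143.R5bx166 Crest.Agent.R143.R5qx166

open Splx117 (Lp InK gp)
open C2SBx395 (Cq Root Free Rc Pin yv Hit)
open Sptx169 (KP Reg Wl Vl rst)

section close

variable {D C C' : Type} [Fintype D] {M : CMap D C} {σ μ : C → ZMod 2} {p : D}
  {N n r nn m : ℕ} {W : Set C} {i : ZMod 3} {T : ℕ → ℕ} {F : ℕ → Set D} {π : C → C'}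
  {hπ : ClsCon M π}

/-- an arc of a time -/
def arcOf (T : ℕ → ℕ) (nn t : ℕ) : ℕ :=
  if h : ∃ k, k < nn ∧ T k ≤ t ∧ t ≤ T (k + 1) then Nat.find h else 0

theorem arcOf_spec {t : ℕ} (hnn : 0 < nn) (h0 : T 0 ≤ t) (h1 : t ≤ T nn) :
    arcOf T nn t < nn ∧ T (arcOf T nn t) ≤ t ∧ t ≤ T (arcOf T nn t + 1) := by
  have h := Sptx169.exists_arc (T := T) hnn h0 h1
  unfold arcOf
  rw [dif_pos h]
  exact Nat.find_spec h

theorem arcOf_mono (R : ∀ k, k < nn → T k ≤ T (k + 1)) {s t : ℕ} (hnn : 0 < nn)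
    (h0 : T 0 ≤ s) (hst : s ≤ t) (h1 : t ≤ T nn) : arcOf T nn s ≤ arcOf T nn t := by
  obtain ⟨a1, a2, a3⟩ := arcOf_spec (T := T) hnn h0 (hst.trans h1)
  obtain ⟨b1, b2, b3⟩ := arcOf_spec (T := T) hnn (h0.trans hst) h1
  by_contra hc
  -- `s` lies in the arc of `t`
  have mo : T (arcOf T nn t + 1) ≤ T (arcOf T nn s) :=
    Splx117.mono_of (T := T) (a := 0) (b := nn) (fun k _ hk => R k hk) (Nat.zero_le _)
      (by omega) (by omega)
  have hs : s = T (arcOf T nn s) := by omega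
  have ht : t = s := by omega
  rw [ht] at hc
  exact hc le_rfl

/-- the outer part of the closing is 169's `KP` -/
theorem kp_eq {E : Type} [AddCommMonoid E] (h0 : T 0 = 0) (hn : T nn = n) (v : D → E) :
    ∑ j ∈ tG M σ μ p n r, v (gp M (cfg M σ) p j) =
      KP M (cfg M σ) p v (T 0) (T nn) (tB M μ p n r) (tA M μ p n r) := by
  rw [h0, hn]
  rfl

/-- charge of the region `l` between the touches -/
def Wr (M : CMap D C) (σ μ : C → ZMod 2) (p : D) (n r : ℕ) (T : ℕ → ℕ) (nn : ℕ) (w : D → ℂ)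
    (F : ℕ → Set D) (l : ℕ) : ℂ :=
  Wl M (cfg M σ) p T nn w F (tB M μ p n r) (tA M μ p n r) l

/-- spatial tile charge (a function of the revealed colours) -/
def Vr (M : CMap D C) (σ : C → ZMod 2) (p : D) (T : ℕ → ℕ) (nn : ℕ) (w : D → ℂ)
    (F : ℕ → Set D) (l : ℕ) : ℂ := Vl M (cfg M σ) p T nn w F l

/-- arcs of the two touches -/
def kaT (M : CMap D C) (μ : C → ZMod 2) (p : D) (n r : ℕ) (T : ℕ → ℕ) (nn : ℕ) : ℕ :=
  arcOf T nn (tB M μ p n r)

def kbT (M : CMap D C) (μ : C → ZMod 2) (p : D) (n r : ℕ) (T : ℕ → ℕ) (nn : ℕ) : ℕ :=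
  arcOf T nn (tA M μ p n r)


/-- outside of the regions -/
theorem wr_zero (R : Reg M (cfg M σ) p T nn m F) {w : D → ℂ} {a b l : ℕ} (ha : T 0 ≤ a)
    (hb : b ≤ T nn) (hl : m ≤ l) : Wl M (cfg M σ) p T nn w F a b l = 0 := by
  refine Sptx169.kp_zero fun j h1 h2 h3 => Sptx169.rst_not fun h4 => ?_
  obtain ⟨l', hl', h5⟩ := R.cov j (ha.trans h1) (h2.trans_le hb) h3
  have := R.dis j (ha.trans h1) (h2.trans_le hb) h3 l l' h4 h5
  omega

theorem _root_.Crest.Agent.R143.R5qx166.Ex.touch (X : Ex M σ p N n r W) (h0 : T 0 = 0) (hn : T nn = n) (hnn : 0 < nn)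
    (hE : ∀ c ∈ EE M (cfg M σ) p n W, μ c = σ c) (mono : ∀ k, k < nn → T k ≤ T (k + 1)) :
    kaT M μ p n r T nn ≤ kbT M μ p n r T nn ∧ kbT M μ p n r T nn < nn ∧
      T (kaT M μ p n r T nn) ≤ tB M μ p n r ∧ tB M μ p n r ≤ T (kaT M μ p n r T nn + 1) ∧
      T (kbT M μ p n r T nn) ≤ tA M μ p n r ∧ tA M μ p n r ≤ T (kbT M μ p n r T nn + 1) := by
  obtain ⟨h1, h2, h3⟩ := X.tA_spec hE
  obtain ⟨a1, a2, a3⟩ := arcOf_spec (T := T) hnn (t := tB M μ p n r) (by omega) (by omega)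
  obtain ⟨b1, b2, b3⟩ := arcOf_spec (T := T) hnn (t := tA M μ p n r) (by omega) (by omega)
  exact ⟨arcOf_mono mono hnn (by omega) (by omega) (by omega), b1, a2, a3, b2, b3⟩



/-- **the charge of a region is the difference of the restricted sums** -/
theorem _root_.Crest.Agent.R143.R5qx166.Ex.wr_eq (X : Ex M σ p N n r W) (Q : Cq π (AA M σ p n r W i)) (h0 : T 0 = 0)
    (hn : T nn = n) (hE : ∀ c ∈ EE M (cfg M σ) p n W, μ c = σ c) (w : D → ℂ) (l : ℕ) :
    Wr M σ μ p n r T nn w F l =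
      ∑ h ∈ blk M (cfg M μ) (gp M (cfg M σ) p r), rst w (F l) h -
        ∑ h ∈ (blk (coarse M π hπ) (cfg M (r0 W μ)) (gp M (cfg M σ) p r)).erase
          (gp M (cfg M σ) p r), rst w (F l) h := by
  rw [X.close (hπ := hπ) Q hE (rst w (F l)), kp_eq h0 hn, add_sub_cancel_left]
  rfl

/-! ### the touched cells are the hits -/

theorem col_lift (X : Ex M σ p N n r W) (Q : Cq π (AA M σ p n r W i))
    (hE : ∀ c ∈ EE M (cfg M σ) p n W, μ c = σ c) :
    ∃ χ : C' → ZMod 2, (fun c => χ (π c)) = r0 W μ := by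
  obtain ⟨c1, c2, c3⟩ := X.rc (i := i) hE
  have key : ∀ c c', π c = π c' → r0 W μ c = r0 W μ c' := by
    intro c c' e
    rcases (Q.ker _ _).1 e with e | ⟨j, h1, h2⟩
    · rw [e]
    · rcases C2SBx395.z3c i j with rfl | rfl | rfl
      · rw [c2 _ h1, c2 _ h2]
      · rw [c1 _ h1, c1 _ h2]
      · rw [c3 _ h1, c3 _ h2]
  refine ⟨fun c' => r0 W μ (Function.surjInv Q.surj c'), funext fun c => ?_⟩
  exact key _ _ (Function.surjInv_eq Q.surj (π c))

/-- **the left cell at the last touch before `r` is the hit of `A i`**, the left cell at the first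
touch after `r` is the hit of `A (i+1)` (colours flipped) -/
theorem _root_.Crest.Agent.R143.R5qx166.Ex.hits (X : Ex M σ p N n r W) (Q : Cq π (AA M σ p n r W i))
    (hE : ∀ c ∈ EE M (cfg M σ) p n W, μ c = σ c) :
    (∃ k, Hit M (AA M σ p n r W i) i {c | μ c = 1} k ∧
      M.cell k = lc M (cfg M σ) p (tB M μ p n r)) ∧
    ∃ k, Hit M (AA M σ p n r W i) (i + 1) {c | μ c = 1}ᶜ k ∧
      M.cell k = lc M (cfg M σ) p (tA M μ p n r) := by
  have G := X.gi (i := i)
  have Rt := X.root (i := i)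
  have hπ : ClsCon M π := cls_of G Q
  obtain ⟨χ, hχ⟩ := col_lift X Q hE
  obtain ⟨c1, c2, c3⟩ := X.rc (i := i) hE
  have e : ∀ c, χ (π c) = r0 W μ c := fun c => congrFun hχ c
  obtain ⟨h1, h2⟩ := X.ends (hπ := hπ) Q hE
  have ec : cfg M (r0 W μ) = cfg (coarse M π hπ) χ := by rw [← hχ]; rfl
  rw [ec] at h1 h2
  have b0 : χ (π (M.cell (gp M (cfg M σ) p r))) = 1 := by rw [e]; exact c1 _ Rt.r0
  have b1 : χ (π (M.cell (M.rho (gp M (cfg M σ) p r)))) = 1 := by rw [e]; exact c2 _ Rt.r1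
  have b2 : χ (π (M.cell (M.rho (M.rho (gp M (cfg M σ) p r))))) = 0 := by
    rw [e]; exact c3 _ Rt.r2
  have k1 := C2SBx395.kB_hit (hπ := hπ) Rt Q G b0 b1 b2
  have k2 := C2SBx395.kA_hit (hπ := hπ) Rt Q G b0 b1 b2
  have hT : ∀ c, Free (AA M σ p n r W i) c → (c ∈ {c | χ (π c) = 1} ↔ c ∈ {c | μ c = 1}) := by
    intro c hc
    show χ (π c) = 1 ↔ μ c = 1
    have hW : c ∉ W := fun h => hc (i + 2) (by rw [AA_2]; exact h)
    rw [e, r0_F hW]
  refine ⟨⟨_, k1.congr hT, h2⟩, ⟨_, k2.congr fun c hc => ?_, h1⟩⟩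
  exact not_congr (hT c hc)

/-- **positions of the touches = positions of the static hits** -/
theorem _root_.Crest.Agent.R143.R5qx166.Ex.yv_eq (X : Ex M σ p N n r W) (Q : Cq π (AA M σ p n r W i))
    (hE : ∀ c ∈ EE M (cfg M σ) p n W, μ c = σ c) {E : Type} [Zero E] (z : C → E) :
    yv M (AA M σ p n r W i) i {c | μ c = 1} z = z (lc M (cfg M σ) p (tB M μ p n r)) ∧
      yv M (AA M σ p n r W i) (i + 1) {c | μ c = 1}ᶜ z =
        z (lc M (cfg M σ) p (tA M μ p n r)) := by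
  obtain ⟨⟨k, h1, h2⟩, k', h3, h4⟩ := X.hits Q hE
  have G := X.gi (i := i)
  exact ⟨by rw [C2SBx395.yv_eq G h1, h2], by rw [C2SBx395.yv_eq G h3, h4]⟩


end close

end Crest.Agent.R143.QuSx166
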