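import Crest.Agent.R143.Spt2_832
import Crest.Agent.R143.QuS_166
import Crest.Agent.R143.FinC_811

/-!
# Row 143 (S0194), CORE-C: from `cm0 hS` to `rc0 hS` (helper832)

117's and 169's objects on `M` and on `restr M` (the same map with finitely many cells, 302 / 811) are
the same; so the corridor and the strand, typed on `cm0 hS`, give the hypotheses of 166's / 778's
theorems on `rc0 hS`, whose colourings can be averaged.

* `lp_restr`, `lc_restr`, `ink_restr`, `ks_restr`, `kp_restr`, `cut_restr`, `zz_restr`, `reg_restr`,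
  `vl_restr`, `wl_restr`, `str_restr`
* `pc h3 σ` : planar colouring of a colouring `σ` of the cells; `pc_hull`, `lift_pc`, `cfg_pc`
* **`strand_rc0`** : the strand of a corridor on `rc0 hS`: `Str`, `Reg`, tile charges = `VX` of the
  configuration
* **`closeX`** : 166's closing theorem with these tile charges
-/

set_option autoImplicit false
set_option linter.all false

noncomputable section

open scoped Classical

namespace Crest.Agent.R143.Rstx832

open Crest.Agent.R143.B0x346 Crest.Agent.R143.DelGx806 Crest.Agent.R143.DelRx806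
  Crest.Agent.R143.JColx54
open Crest.Agent.R143.Frame1x395 Crest.Agent.R143.Frame2x395 Crest.Agent.R143.Frame3x395
  Crest.Agent.R143.Frame4x395 Crest.Agent.R143.Frame8x395 Crest.Agent.R143.Frame9x395
  Crest.Agent.R143.Frame10x395 Crest.Agent.R143.Frame11x395
open Crest.Agent.R143.Frame5x395 (sd mem_sd th th_spec)
open Crest.Agent.R143.Splx117 Crest.Agent.R143.WLocx713 Crest.Agent.R143.RingDx117
  Crest.Agent.R143.CorrDx117 Crest.Agent.R143.Sptx169 Crest.Agent.R143.Sptx832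
  Crest.Agent.R143.Spt2x832
open Crest.Agent.R143.StrBx117 (Str)
open Crest.Agent.R143.Mass3x302 (restr isC_restr)
open Crest.Agent.R143.FinCx811

/-! ### the same map with finitely many cells -/

section restr

variable {D C : Type} {M : CMap D C} {x : D → ZMod 2} {p : D} {N : ℕ} {T : ℕ → ℕ}

theorem lp_restr : Lp (restr M) x p N ↔ Lp M x p N :=
  ⟨fun L => ⟨isC_restr.1 L.even, L.occ, L.pos, L.per, L.inj⟩,
    fun L => ⟨isC_restr.2 L.even, L.occ, L.pos, L.per, L.inj⟩⟩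

theorem lc_restr {i j : ℕ} : lc (restr M) x p i = lc (restr M) x p j ↔ lc M x p i = lc M x p j :=
  ⟨fun h => congrArg Subtype.val h, fun h => Subtype.ext h⟩

theorem ink_restr {A B i : ℕ} : InK (restr M) x p A B i ↔ InK M x p A B i :=
  ⟨fun h => ⟨h.lo, h.hi, h.gap, fun j l h1 h2 h3 h4 e => h.sep j l h1 h2 h3 h4 (lc_restr.2 e)⟩,
    fun h => ⟨h.lo, h.hi, h.gap, fun j l h1 h2 h3 h4 e => h.sep j l h1 h2 h3 h4 (lc_restr.1 e)⟩⟩


theorem kp_restr {E : Type} [AddCommMonoid E] (w : D → E) (A B a b : ℕ) :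
    KP (restr M) x p w A B a b = KP M x p w A B a b := by
  unfold KP
  refine Finset.sum_congr ?_ fun _ _ => rfl
  ext i
  rw [Finset.mem_filter, Finset.mem_filter, ink_restr]

theorem ks_restr {E : Type} [AddCommMonoid E] (w : D → E) (a b : ℕ) :
    KS (restr M) x p w a b = KS M x p w a b := kp_restr w a b a b

theorem cut_restr {a b : ℕ} : Cut (restr M) x p T a b ↔ Cut M x p T a b := by
  constructor
  · intro h k k' h0 h1 h2 u v a1 a2 a3 a4 e
    obtain ⟨c1, c2⟩ := h k k' h0 h1 h2 u v a1 a2 a3 a4 (lc_restr.2 e)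
    exact ⟨c1, lc_restr.1 c2⟩
  · intro h k k' h0 h1 h2 u v a1 a2 a3 a4 e
    obtain ⟨c1, c2⟩ := h k k' h0 h1 h2 u v a1 a2 a3 a4 (lc_restr.1 e)
    exact ⟨c1, lc_restr.2 c2⟩


theorem vl_restr {E : Type} [AddCommMonoid E] (n : ℕ) (w : D → E) (F : ℕ → Set D) (l : ℕ) :
    Vl (restr M) x p T n w F l = Vl M x p T n w F l := ks_restr _ _ _


theorem reg_restr {n m : ℕ} {F : ℕ → Set D} :
    Reg (restr M) x p T n m F ↔ Reg M x p T n m F :=
  ⟨fun h => ⟨h.mono, cut_restr.1 h.cut, fun i h1 h2 h3 => h.cov i h1 h2 (ink_restr.2 h3),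
    fun i h1 h2 h3 => h.dis i h1 h2 (ink_restr.2 h3),
    fun k hk i h1 h2 h3 => h.near k hk i h1 h2 (ink_restr.2 h3)⟩,
   fun h => ⟨h.mono, cut_restr.2 h.cut, fun i h1 h2 h3 => h.cov i h1 h2 (ink_restr.1 h3),
    fun i h1 h2 h3 => h.dis i h1 h2 (ink_restr.1 h3),
    fun k hk i h1 h2 h3 => h.near k hk i h1 h2 (ink_restr.1 h3)⟩⟩

theorem str_restr {n : ℕ} {Rs : Set D} {P : ℕ → D} {R : ℕ → Set D} :
    Str (restr M) x n Rs P R p N T ↔ Str M x n Rs P R p N T :=
  ⟨fun h => { h with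
      lp := lp_restr.1 h.lp
      cut := cut_restr.1 h.cut },
   fun h => { h with
      lp := lp_restr.2 h.lp
      cut := cut_restr.2 h.cut }⟩

end restr

/-! ### planar colourings -/

section pc

variable {S : Finset ℂ} {hS : GP (S : Set ℂ)}

/-- planar colouring of a colouring of the cells -/
def pc (h3 : 3 ≤ S.card) (σ : Cs hS → ZMod 2) (v : ℂ) : ZMod 2 :=
  if hv : v ∈ S then σ (cs hS h3 ⟨v, hv⟩) else 0





end pc

/-! ### the strand on `rc0 hS` -/


section conf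

variable {X : Set (ℂ × Bool)} {hS : GP (sX X : Set ℂ)} {hχ : HullC (sX X) (cX X)} {n : ℕ}
  {y z : ℕ → ℂ} {A B Q : ℕ → Set ℂ} {p : ℕ → D0 (sX X)}
  {St : ℕ → Set (ℂ × Bool) → ℂ × ℂ → Prop} {f : ℂ × ℂ × ℂ → ℂ} {w : D0 (sX X) → ℂ}

/-- the colours of the cells of a configuration which is constant along the hull -/
def sg (hχ : HullC (sX X) (cX X)) : Cs hS → ZMod 2 := rcol hS (cX X) hχ


/-- data of the strand: start state `q`, times `T` -/
structure StrR (hS : GP (sX X : Set ℂ)) (hχ : HullC (sX X) (cX X)) (n : ℕ) (Rs : Set (D0 (sX X)))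
    (B Q : ℕ → Set ℂ) (p : ℕ → D0 (sX X)) (w : D0 (sX X) → ℂ) (V : ℕ → ℂ)
    (q : D0 (sX X)) (N : ℕ) (T : ℕ → ℕ) : Prop where
  str : Str (rc0 hS) (cfg (rc0 hS) (sg hχ)) n Rs (fun k => p (n - k))
    (fun k => RD (sX X) (B (n - 1 - k))) q N T
  reg : Reg (rc0 hS) (cfg (rc0 hS) (sg hχ)) q T n n (FQ (sX X) n fun l => Q (n - 1 - l))
  val : ∀ l, 2 ≤ l → l + 2 < n → Vl (rc0 hS) (cfg (rc0 hS) (sg hχ)) q T n w
    (FQ (sX X) n fun l => Q (n - 1 - l)) l = V (n - 1 - l)


variable {Rs : Set (D0 (sX X))} {V : ℕ → ℂ} {q : D0 (sX X)} {N : ℕ} {T : ℕ → ℕ}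

open Crest.Agent.R143.R5qx166 Crest.Agent.R143.QuSx166 Crest.Agent.R143.Coarsex166
open C2SBx395 (Cq)

variable {C' : Type} {π : Cs hS → C'} {hπ : ClsCon (rc0 hS) π} {r : ℕ} {W : Set (Cs hS)}
  {i : ZMod 3} {μ : Cs hS → ZMod 2}




end conf

end Crest.Agent.R143.Rstx832
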