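import Crest.Agent.R143.FinC_811
import Crest.Agent.R143.Resa_778

/-!
# Row 143 (S0194), box R5 (helper829): uniform sets of black sites and uniform colours of the cells

* `mean_transfer` : functions of the colours of some cells, each with its own site
* `Inn hS c` : inner cell of `cm0 hS` (cells `Cs hS` of 811), `rep hS c` its site,
  `scol hS β` : colours of the cells given by the set `β` of black sites (the hull is white)
* `site_mean`, **`site_mean_glue`**, `site_mean_glueC` : average over `β ⊆ A` (`S ⊆ A`) =
  average over the colourings of the cells, for functions of the inner cells, in particular for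
  `G (glue O σ ·)`, the hull cells in `O`
-/

set_option autoImplicit false
set_option linter.unusedSectionVars false

noncomputable section

open scoped Classical

namespace Crest.Agent.R143.Freshx829

open Set Filter Topology
open Crest.Agent.R143.B0x346 Crest.Agent.R143.FinCx811 Crest.Agent.R143.Resax778
  Crest.Agent.R143.Frame10x395 Crest.Agent.R143.DelGx806

/-! ### uniform colourings: sites and cells -/



/-- colouring of a set of black cells -/
def ind {K : Type*} (T : Finset K) (c : K) : ZMod 2 := if c ∈ T then 1 else 0



/-! ### the cells of `cm0 hS` -/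

section cells

variable {S : Finset ℂ}

/-- a cell whose sites are not on the hull -/
def Inn (hS : GP (S : Set ℂ)) (c : Cs hS) : Prop :=
  ∃ v, ∃ _ : v ∈ S, c.1 = Quot.mk (hullE S) v ∧ ¬ OnHull S v

/-- the site of an inner cell -/
def rep (hS : GP (S : Set ℂ)) (c : Cs hS) : ℂ := if h : Inn hS c then h.choose else 0

theorem rep_spec {hS : GP (S : Set ℂ)} {c : Cs hS} (h : Inn hS c) :
    rep hS c ∈ S ∧ c.1 = Quot.mk (hullE S) (rep hS c) ∧ ¬ OnHull S (rep hS c) := by
  have e : rep hS c = h.choose := dif_pos h
  rw [e]
  obtain ⟨h1, h2⟩ := h.choose_spec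
  exact ⟨h1, h2⟩

theorem rep_eq {hS : GP (S : Set ℂ)} {c : Cs hS} {v : ℂ} (hv : ¬ OnHull S v) (hvS : v ∈ S)
    (h : c.1 = Quot.mk (hullE S) v) : rep hS c = v := by
  have hc : Inn hS c := ⟨v, hvS, h, hv⟩
  exact quot_inner hS hv (h.symm.trans (rep_spec hc).2.1)









end cells

end Crest.Agent.R143.Freshx829

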