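import Crest.Agent.R143.StrB_117
import Crest.Agent.R143.SiteM_829
import Crest.Agent.R143.RingP_503
import Crest.Agent.R143.TlA_58

/-!
# Row 143 (S0194), RIG, CorrI: the tile index of a cell of the strand (helper709)

* `tlp B n v` : least `l < n` with `v ∈ B (n - 1 - l)`;  `tl hS B n c` : the same for the site of the
  inner cell `c` of `rc0 hS`
* **`Str.htl`** : the hypothesis `htl` of 166's `Ex.idx` for the strand of 117
* `rr_dis` : tiles of a fine path which are not neighbours are disjoint (`n < M` or `M = 0`)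
* `rr_gate` : a point of the tile `a` is at distance `≤ A + B + h / 2` from the gates `a`, `a + 1`
* **`near_tlz`** : if the point `v` of the tile `j` and the point `v'` are at distance `≤ ρ`, then 58's
  index `tlz` of `v'` (nearest gate) and `j` differ by at most `2 r + 1`
-/

set_option autoImplicit false
set_option linter.unusedSectionVars false

noncomputable section

open scoped Classical

namespace Crest.Agent.R143.TlRx709

open Crest.Agent.R143.B0x346 Crest.Agent.R143.DelGx806 Crest.Agent.R143.DelRx806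
  Crest.Agent.R143.JColx54
open Crest.Agent.R143.Frame1x395 Crest.Agent.R143.Frame2x395 Crest.Agent.R143.Frame3x395
  Crest.Agent.R143.Frame4x395 Crest.Agent.R143.Frame8x395 Crest.Agent.R143.Frame9x395
  Crest.Agent.R143.Frame10x395 Crest.Agent.R143.Frame11x395
open Crest.Agent.R143.Frame5x395 (sd mem_sd th th_spec)
open Crest.Agent.R143.FinCx811 Crest.Agent.R143.Freshx829
open Crest.Agent.R143.RingDx117 (RD)
open Crest.Agent.R143.StrBx117 (Str)
open Crest.Agent.R143.Splx117 (Lp)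
open Crest.Agent.R143.TileRx228 (FPath cen gz ge RR Arm cz)
open Crest.Agent.R143.Gatex838 (X Y)
open Crest.Agent.R143.RingPx503 (Dsj dsj_mono)

/-! ### the index of a point -/

section point

variable {B : ℕ → Set ℂ} {n k : ℕ} {v : ℂ}

/-- least `l < n` with the point in `B (n - 1 - l)` -/
def tlp (B : ℕ → Set ℂ) (n : ℕ) (v : ℂ) : ℕ := sInf {l | l < n ∧ v ∈ B (n - 1 - l)}

theorem tlp_mem (hk : k < n) (hv : v ∈ B (n - 1 - k)) :
    tlp B n v < n ∧ v ∈ B (n - 1 - tlp B n v) := Nat.sInf_mem (s := {l | l < n ∧ v ∈ B (n - 1 - l)})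
  ⟨k, hk, hv⟩

theorem tlp_le (hk : k < n) (hv : v ∈ B (n - 1 - k)) : tlp B n v ≤ k := Nat.sInf_le ⟨hk, hv⟩

/-- **the index is `k` or `k - 1`** -/
theorem tlp_near (dis : ∀ a b, a + 2 ≤ b → b < n → v ∈ B a → v ∉ B b) (hk : k < n)
    (hv : v ∈ B (n - 1 - k)) : k ≤ tlp B n v + 1 ∧ tlp B n v ≤ k := by
  have h1 := tlp_le hk hv
  obtain ⟨h2, h3⟩ := tlp_mem hk hv
  refine ⟨?_, h1⟩
  by_contra hc
  exact dis (n - 1 - k) (n - 1 - tlp B n v) (by omega) (by omega) hv h3

end point

/-! ### the index of a cell -/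

section cell

variable {S : Finset ℂ} {hS : GP (S : Set ℂ)} {n N : ℕ} {B : ℕ → Set ℂ} {x : D0 S → ZMod 2}
  {q : D0 S} {T : ℕ → ℕ} {Rs : Set (D0 S)} {P : ℕ → D0 S}

/-- tile index of a cell -/
def tl (hS : GP (S : Set ℂ)) (B : ℕ → Set ℂ) (n : ℕ) (c : Cs hS) : ℕ := tlp B n (rep hS c)

/-- the site of the left cell of a state -/
theorem rep_state (d : D0 S) (hd : ¬ OnHull S d.1.1) : rep hS ((rc0 hS).cell d) = d.1.1 :=
  rep_eq hd (mem_delT.1 (th_spec d.2)).1 rfl

theorem tl_state {d : D0 S} (inn : ∀ k, k < n → ∀ v ∈ S, v ∈ B k → ¬ OnHull S v)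
    (dis : ∀ a b, a + 2 ≤ b → b < n → ∀ v ∈ S, v ∈ B a → v ∉ B b) {k : ℕ} (hk : k < n)
    (hd : d ∈ RD S (B (n - 1 - k))) :
    k ≤ tl hS B n ((rc0 hS).cell d) + 1 ∧ tl hS B n ((rc0 hS).cell d) ≤ k := by
  have h1 : d.1.1 ∈ S := (mem_delT.1 (th_spec d.2)).1
  have h2 := inn (n - 1 - k) (by omega) _ h1 hd.1
  unfold tl
  rw [rep_state d h2]
  exact tlp_near (fun a b h3 h4 => dis a b h3 h4 _ h1) hk hd.1

/-- **the hypothesis `htl` of `Ex.idx`** -/
theorem htl (inn : ∀ k, k < n → ∀ v ∈ S, v ∈ B k → ¬ OnHull S v)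
    (dis : ∀ a b, a + 2 ≤ b → b < n → ∀ v ∈ S, v ∈ B a → v ∉ B b)
    (arc : ∀ k, k < n → ∀ i, T k ≤ i → i ≤ T (k + 1) →
      (stp (cm0 hS) x)^[i] q ∈ RD S (B (n - 1 - k))) :
    ∀ k, k < n → ∀ u, T k ≤ u → u ≤ T (k + 1) →
      k ≤ tl hS B n (Splx117.lc (rc0 hS) x q u) + 1 ∧
        tl hS B n (Splx117.lc (rc0 hS) x q u) ≤ k + 1 := by
  intro k hk u h1 h2
  have h3 := tl_state (hS := hS) inn dis hk (arc k hk u h1 h2)
  exact ⟨h3.1, h3.2.trans (Nat.le_succ k)⟩


/-- the site of a cell with an index is in the tile of the index -/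
theorem tl_spec {c : Cs hS} {k : ℕ} (hk : k < n) (hc : rep hS c ∈ B (n - 1 - k)) :
    tl hS B n c < n ∧ rep hS c ∈ B (n - 1 - tl hS B n c) := tlp_mem hk hc

end cell

/-! ### the tiles of a fine path -/

section path

variable {h A B A' B' ρ : ℝ} {M n : ℕ} {W : ℤ → ℤ × ℤ}

/-- **tiles which are not neighbours are disjoint** -/
theorem rr_dis (hD : Dsj A' B' h M W) (hA : A ≤ A') (hB : B ≤ B') (hM : M = 0 ∨ n < M) (o : ℤ)
    (a b : ℕ) (hab : a + 2 ≤ b) (hb : b < n) (v : ℂ) (hv : v ∈ RR A B h W (o + a)) :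
    v ∉ RR A B h W (o + b) := by
  have nd : ∀ t : ℤ, t ≠ 0 → -n ≤ t → t ≤ n → ¬ (M : ℤ) ∣ t := by
    intro t ht h1 h2 hd
    rcases hM with rfl | hM
    · rw [Nat.cast_zero, zero_dvd_iff] at hd
      exact ht hd
    · rcases lt_or_gt_of_ne ht with h3 | h3
      · have := Int.le_of_dvd (by omega) ((dvd_neg (a := (M : ℤ))).2 hd)
        omega
      · have := Int.le_of_dvd h3 hd
        omega
  refine Set.disjoint_left.1 (dsj_mono hA hB hD (o + a) (o + b) ?_ ?_ ?_) hv
  · exact nd _ (by omega) (by omega) (by omega)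
  · exact nd _ (by omega) (by omega) (by omega)
  · exact nd _ (by omega) (by omega) (by omega)

theorem norm_u4 {u : ℤ × ℤ} (h : TileRx228.U4 u) : ‖cz u‖ = 1 := by
  have e : ‖cz u‖ ^ 2 = 1 := by
    rw [← Complex.normSq_eq_norm_sq, Complex.normSq_apply]
    rcases h with rfl | rfl | rfl | rfl <;> simp [cz]
  nlinarith [norm_nonneg (cz u)]

theorem cz_sub (u v : ℤ × ℤ) : cz (u - v) = cz u - cz v := by
  apply Complex.ext <;> simp [cz]

/-- a point of an arm is near its centre -/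
theorem arm_dist (hA : 0 ≤ A) (hB : 0 ≤ B) {c u s : ℂ} (hu : ‖u‖ = 1) (hs : s ∈ Arm A B c u) :
    ‖s - c‖ ≤ A + B + A := by
  obtain ⟨⟨h1, h2⟩, h3⟩ := hs
  have hu0 : u ≠ 0 := by
    intro h0; rw [h0, norm_zero] at hu; exact zero_ne_one hu
  have e : ‖s - c‖ = ‖(s - c) / u‖ := by rw [norm_div, hu, div_one]
  rw [e]
  refine (Complex.norm_le_abs_re_add_abs_im _).trans ?_
  have h4 : |((s - c) / u).re| ≤ A + B := by
    rw [abs_le]
    constructor
    · have := h1
      unfold X at this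
      linarith
    · have := h2
      unfold X at this
      linarith
  have h5 : |((s - c) / u).im| ≤ A := by
    have := h3
    unfold Y at this
    exact this.le
  linarith

/-- a point of the tile `a` is near the vertex `a` -/
theorem rr_cen (F : FPath M W) (hA : 0 ≤ A) (hB : 0 ≤ B) {a : ℤ} {s : ℂ}
    (hs : s ∈ RR A B h W a) : ‖s - cen h W a‖ ≤ A + B + A := by
  have u1 : TileRx228.U4 (W (a + 1) - W a) := F.step a
  have u2 : TileRx228.U4 (W (a - 1) - W a) := by
    have h1 := F.step (a - 1)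
    rw [sub_add_cancel] at h1
    rcases h1 with e | e | e | e
    · right; right; left; rw [← neg_sub, e]; rfl
    · right; right; right; rw [← neg_sub, e]; rfl
    · left; rw [← neg_sub, e]; rfl
    · right; left; rw [← neg_sub, e]; rfl
  rcases hs with hs | hs
  · exact arm_dist hA hB (norm_u4 u2) hs
  · exact arm_dist hA hB (norm_u4 u1) hs

theorem gz_cen (F : FPath M W) (hh : 0 ≤ h) (a : ℤ) : ‖gz h W a - cen h W a‖ = h / 2 := by
  have e : gz h W a - cen h W a = -((h / 2 : ℝ) : ℂ) * cz (W a - W (a - 1)) := by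
    unfold gz cen
    rw [cz_sub]
    push_cast
    ring
  have u1 : TileRx228.U4 (W a - W (a - 1)) := by
    have h1 := F.step (a - 1)
    rwa [sub_add_cancel] at h1
  rw [e, norm_mul, norm_u4 u1, mul_one, norm_neg, Complex.norm_real, Real.norm_of_nonneg (by linarith)]

theorem gz_cen' (F : FPath M W) (hh : 0 ≤ h) (a : ℤ) : ‖gz h W (a + 1) - cen h W a‖ = h / 2 := by
  have e : gz h W (a + 1) - cen h W a = ((h / 2 : ℝ) : ℂ) * cz (W (a + 1) - W a) := by
    unfold gz cen
    rw [cz_sub, add_sub_cancel_right]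
    push_cast
    ring
  rw [e, norm_mul, norm_u4 (F.step a), mul_one, Complex.norm_real, Real.norm_of_nonneg (by linarith)]

/-- **a point of the tile `a` is near the gates `a` and `a + 1`** -/
theorem rr_gate (F : FPath M W) (hh : 0 ≤ h) (hA : 0 ≤ A) (hB : 0 ≤ B) {a : ℤ} {s : ℂ}
    (hs : s ∈ RR A B h W a) :
    dist (gz h W a) s ≤ A + B + A + h / 2 ∧ dist (gz h W (a + 1)) s ≤ A + B + A + h / 2 := by
  have h1 := rr_cen F hA hB hs
  have h2 := gz_cen F hh a
  have h3 := gz_cen' F hh a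
  constructor
  · have e : gz h W a - s = (gz h W a - cen h W a) - (s - cen h W a) := by ring
    rw [dist_eq_norm, e]
    exact (norm_sub_le _ _).trans (by linarith)
  · have e : gz h W (a + 1) - s = (gz h W (a + 1) - cen h W a) - (s - cen h W a) := by ring
    rw [dist_eq_norm, e]
    exact (norm_sub_le _ _).trans (by linarith)



end path

end Crest.Agent.R143.TlRx709
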