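import Crest.Agent.R143.SysD_166
import Crest.Agent.R143.RigE_654
import Crest.Agent.R143.EvG_168
import Crest.Agent.R143.TlR_709
import Crest.Agent.R143.Rst_832
import Crest.Agent.R143.CorV_169
import Crest.Agent.R143.ColX_829
import Crest.Agent.R143.RcT2_422
import Crest.Agent.R143.TlG_58
import Crest.Agent.R143.Har_315
import Crest.Agent.R143.C2SD_395
import Crest.Agent.R143.GoodA_654
import Crest.Agent.R143.R10N_930
import Crest.Agent.R143.QuenI_597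
import Crest.Agent.R143.RigN_377
import Crest.Agent.R143.RigQ_377

-- ▼ part R143/HxG_166
section

/-!
# Row 143 (S0194), RIG (helper166): the event `Hx` from the strand; `Quen` in the order of the tiles

`hS : GP S`, `s` a colouring of the cells, `A : Str (rc0 hS) (cfg (rc0 hS) s) n Rs P
(fun k => RD S (B (n - 1 - k))) q N T` : 117's strand (168's `SD`), time order.

* `reg_of` : 169's regions `FQ S n fun l => Q (n - 1 - l)` on `rc0 hS`, any colouring of the cells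
* `hv_gen`, `hx_gen` : `Hv` / `Hx` for any family `pa na Ev` ; **`hv_of`**, **`hx_of`** : for 168's
  family (`ι = D × ℕ`, `EvA`)
* `vs_vl` : the adapted charges are the charges of the strand
* `site_of`, `hs_of` : the sites of the left cells of the strand are in the strips (737's `hs`)
* `qreg_cor`, `inn_cor`, `dis_cor`, **`hx_cor`** : under 713's `CorH (Xc hS h3 s) ..`
* `Quen.congr_W`, **`quen_n`** : 654's `Quen` in the order of the tiles (`quen_of` + `Quen.refl`)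
-/

set_option autoImplicit false
set_option linter.unusedSectionVars false

noncomputable section

open scoped Classical

namespace Crest.Agent.R143.HxGx166

open Crest.Agent.R143.Frame1x395 Crest.Agent.R143.Frame2x395 Crest.Agent.R143.Frame3x395
  Crest.Agent.R143.Frame4x395 Crest.Agent.R143.Frame8x395 Crest.Agent.R143.Frame9x395
  Crest.Agent.R143.Frame10x395 Crest.Agent.R143.Frame11x395
  Crest.Agent.R143.B0x346 Crest.Agent.R143.FinCx811 Crest.Agent.R143.DelGx806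
  Crest.Agent.R143.OutSx358 Crest.Agent.R143.SysCx166
open Crest.Agent.R143.RingDx117 (RD)
open Crest.Agent.R143.StrBx117 (Str)
open Crest.Agent.R143.Sptx169 (Reg Vl rst)
open Crest.Agent.R143.Sptx832 (QReg FQ)
open Crest.Agent.R143.SysAx168 (EvA evA_uniq)
open Crest.Agent.R143.TlRx709 (tl)

/-! ### the strand -/

section strand

variable {S : Finset ℂ} {hS : GP (S : Set ℂ)} {n N : ℕ} {B Q : ℕ → Set ℂ} {s : Cs hS → ZMod 2}
  {Rs : Set (D0 S)} {P' : ℕ → D0 S} {q : D0 S} {T : ℕ → ℕ}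


variable {ι : Type} {pa : ι → (Cs hS → ZMod 2) → D0 S} {na : ι → (Cs hS → ZMod 2) → ℕ}
  {Ev : ι → (Cs hS → ZMod 2) → Prop} {i : ι}




variable {H R : Set (Cs hS)} {Qr : Set (D0 S)} {Z : Uniqx323.Zn (rc0 hS)}




/-- **the sites of the left cells of the strand** -/
theorem site_of (A : Str (rc0 hS) (cfg (rc0 hS) s) n Rs P' (fun k => RD S (B (n - 1 - k))) q N T)
    (inn : ∀ k, k < n → ∀ v ∈ S, v ∈ B k → ¬ OnHull S v) :
    ∀ u ≤ T n, ∃ j < n, Freshx829.rep hS ((rc0 hS).cell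
      (NonXx592.P (rc0 hS) (cfg (rc0 hS) s) q u)) ∈ B (n - 1 - j) := by
  intro u hu
  have hn3 := A.n3
  obtain ⟨j, -, hj, a1, a2⟩ := Splx117.arc_of (T := T) (a := 0) (b := n) (u := u) (by omega)
    (by rw [A.T0]; exact Nat.zero_le _) hu
  have hd := A.arc j hj u a1 a2
  have h1 : ((stp (rc0 hS) (cfg (rc0 hS) s))^[u] q).1.1 ∈ S :=
    (DelGx806.mem_delT.1 (Frame5x395.th_spec ((stp (rc0 hS) (cfg (rc0 hS) s))^[u] q).2)).1
  have h2 := inn (n - 1 - j) (by omega) _ h1 hd.1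
  refine ⟨j, hj, ?_⟩
  show Freshx829.rep hS ((rc0 hS).cell ((stp (rc0 hS) (cfg (rc0 hS) s))^[u] q)) ∈ _
  rw [TlRx709.rep_state _ h2]
  exact hd.1

/-- **737's hypothesis `hs`** -/
theorem hs_of (E : EvA (rc0 hS) H R Qr Z (q, T n) s)
    (A : Str (rc0 hS) (cfg (rc0 hS) s) n Rs P' (fun k => RD S (B (n - 1 - k))) q N T)
    (inn : ∀ k, k < n → ∀ v ∈ S, v ∈ B k → ¬ OnHull S v) :
    ∃ i : D0 S × ℕ, EvA (rc0 hS) H R Qr Z i s ∧ ∀ u ≤ i.2, ∃ j < n, Freshx829.rep hS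
      ((rc0 hS).cell (NonXx592.P (rc0 hS) (cfg (rc0 hS) s) i.1 u)) ∈ B (n - 1 - j) :=
  ⟨(q, T n), E, site_of A inn⟩

/-! ### under `CorH` -/

section cor

open Crest.Agent.R143.ColXx829 Crest.Agent.R143.TileRx228 Crest.Agent.R143.CorHx713

variable {h3 : 3 ≤ S.card} {U : Set ℂ} {M : ℕ} {W : ℤ → ℤ × ℤ} {η d : ℝ} {o : ℤ}





end cor

end strand

/-! ### `Quen` in the order of the tiles -/

section quen

open Crest.Agent.R143.SmallAx304 Crest.Agent.R143.CorMx970 Crest.Agent.R143.RigDx654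
  Crest.Agent.R143.SysDx166 Crest.Agent.R143.Coarse2x166
open IndLoc3x279 (clr)


variable {S : Finset ℂ} (hS : GP (S : Set ℂ)) (h3 : 3 ≤ S.card)
  {H R : Set (Cs hS)} {Q : Set (D0 S)} {ι : Type} {pa : ι → (Cs hS → ZMod 2) → D0 S}
  {na : ι → (Cs hS → ZMod 2) → ℕ} {Ev : ι → (Cs hS → ZMod 2) → Prop} {d₀ : D0 S} {k : ZMod 3}
  {F : ℕ → Set (D0 S)} {tl : Cs hS → ℕ}


end quen

end Crest.Agent.R143.HxGx166
end
end

-- ▼ part R143/NearB_139
section

/-!
# Row 143 (S0194), RIG: the field `hθ` of 654's `Quen`, probability half (helper139)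

* `av_pr`, `av_pr'` : mean over the black sets of an event of `β ∩ W` (of `W \ β`) = `pr W`
* `yv_site`, `yv_site'` : 395's `yv` of the giants of `rc0 hS` in a colouring which has the colours of
  `β` on the free cells = the hit vertex `hv S (st A) k (β ∩ ff)`, resp. `hv S (st A) k (ff \ β)` for
  the complementary colouring
* `Sys.touch` : the tiles `ka`, `kb` of the touches of 166 and 709's index `tlp` of the hit vertices
* `zV_local`, `yP_local`, `yP_fl_local` : 58's end points as 346's `zV` on the whole net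
* **`theta_of`**, **`theta_poly`** : `av (far ..) ≤ θ₁ + θ₂` from 930's comparison on the two arcs and
  the geometric input `v` in the giant, `‖v - v'‖ ≤ η` ⟹ near indices
-/

set_option autoImplicit false
set_option linter.unusedSectionVars false

noncomputable section

open scoped Classical

namespace Crest.Agent.R143.NearBx139

open Set
open Crest.ProbabilityR.Voronoi
open Crest.Agent.R143.B0x346 Crest.Agent.R143.DelGx806 Crest.Agent.R143.DelRx806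
  Crest.Agent.R143.JColx54
open Crest.Agent.R143.Frame1x395 Crest.Agent.R143.Frame2x395 Crest.Agent.R143.Frame3x395
  Crest.Agent.R143.Frame4x395 Crest.Agent.R143.Frame8x395 Crest.Agent.R143.Frame9x395
  Crest.Agent.R143.Frame10x395
open Crest.Agent.R143.Frame5x395 (sd mem_sd th th_spec)
open Crest.Agent.R143.FinCx811 (Cs rc0 cell_mem cs)
open Crest.Agent.R143.C2SBx395 Crest.Agent.R143.C2SCx395 Crest.Agent.R143.C2SDx395
open Crest.Agent.R143.Freshx829 (rep rep_eq)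
open Crest.Agent.R143.SmallAx304 (chiS chiS_inner)
open Crest.Agent.R143.K33x877 (Clu fr)
open Crest.Agent.R143.NetUx346 (ff mem_ff HitO Hex hv hv_eq hv_mem)
open Crest.Agent.R143.NetVx346 (zV Bl)
open Crest.Agent.R143.Harx315 (pr pr_flip)
open Crest.Agent.R143.CorMx970 (av far av_add av_mono av_congr)
open Crest.Agent.R143.IndLoc3x279 (clr)
open Crest.Agent.R143.OutSx358 Crest.Agent.R143.SysCx166
open Crest.Agent.R143.TlRx709 (tlp tl rep_state)

/-! ### means of indicators -/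

theorem av_ind (V : Finset ℂ) (P : Finset ℂ → Prop) :
    av V.powerset (fun β => if P β then (1 : ℝ) else 0) = pr V P := by
  unfold av Harx315.pr Harx315.nb Harx315.fl
  rw [Finset.card_powerset, ← Finset.sum_filter, Finset.sum_const, nsmul_eq_mul, mul_one,
    smul_eq_mul]
  push_cast
  rw [inv_mul_eq_div]

/-- mean over the black sets of an event of the colours in `W` -/
theorem av_pr {V W : Finset ℂ} (hW : W ⊆ V) (P : Finset ℂ → Prop) :
    av V.powerset (fun β => if P (β ∩ W) then (1 : ℝ) else 0) = pr W P := by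
  rw [av_ind V fun β => P (β ∩ W), Harx315.pr_dep hW]
  · rw [← av_ind, ← av_ind]
    refine av_congr fun β hβ => ?_
    rw [Finset.inter_eq_left.2 (Finset.mem_powerset.1 hβ)]
  · intro β _
    show P (β ∩ W) ↔ P (β ∩ W ∩ W)
    rw [Finset.inter_assoc, Finset.inter_self]

/-- the complementary colouring -/
theorem av_pr' {V W : Finset ℂ} (hW : W ⊆ V) (P : Finset ℂ → Prop) :
    av V.powerset (fun β => if P (W \ β) then (1 : ℝ) else 0) = pr W P := by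
  rw [← pr_flip W P, ← av_pr hW fun β => P (W \ β)]
  refine av_congr fun β _ => ?_
  have e : W \ (β ∩ W) = W \ β := by
    ext x
    simp only [Finset.mem_sdiff, Finset.mem_inter]
    tauto
  rw [e]

/-! ### the touches of the giants are at the hit vertices -/

section touch

variable {S : Finset ℂ} {hS : GP (S : Set ℂ)} {h3 : 3 ≤ S.card} {A : ZMod 3 → Set (Cs hS)}
  {i j k : ZMod 3} {g : D0 S} {β : Finset ℂ} {μ : Cs hS → ZMod 2}

/-- colours of the free sites -/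
theorem col_free (H : Hl A j) (hμ : ∀ c, Free A c → μ c = chiS hS h3 β c) {v : ℂ}
    (hv : v ∈ fr S (st A)) {c : Cs hS} (hc : c.1 = Quot.mk (hullE S) v) : μ c = 1 ↔ v ∈ β := by
  have hf := free_of_fr hv hc
  have ho : ¬ OnHull S v := fun h => hf j (H c v h hc)
  have e : c = cs hS h3 ⟨v, hv.1⟩ := Subtype.ext hc
  rw [hμ c hf, e, chiS_inner hS h3 β (v := ⟨v, hv.1⟩) ho]
  by_cases h : v ∈ β
  · rw [if_pos h]
    exact ⟨fun _ => h, fun _ => rfl⟩
  · rw [if_neg h]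
    exact ⟨fun h' => absurd h' (by decide), fun h' => absurd h' h⟩

theorem cmp_chi (H : Hl A j) (hμ : ∀ c, Free A c → μ c = chiS hS h3 β c) :
    Cmp A ((β ∩ ff S (st A) : Finset ℂ) : Set ℂ) {c | μ c = 1} := by
  intro v hv c hc
  rw [Finset.mem_coe, Finset.mem_inter]
  show μ c = 1 ↔ _
  rw [col_free H hμ hv hc]
  exact ⟨fun h => ⟨h, mem_ff.2 hv⟩, fun h => h.1⟩

theorem cmp_chi' (H : Hl A j) (hμ : ∀ c, Free A c → μ c = chiS hS h3 β c) :
    Cmp A ((ff S (st A) \ β : Finset ℂ) : Set ℂ) {c | μ c = 1}ᶜ := by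
  intro v hv c hc
  rw [Finset.mem_coe, Finset.mem_sdiff]
  show ¬ μ c = 1 ↔ _
  rw [col_free H hμ hv hc]
  exact ⟨fun h => ⟨mem_ff.2 hv, h⟩, fun h => h.2⟩

/-- a function of the sites at the hit -/
theorem yv_cmp {R : Type} [Zero R] (G : Gi (rc0 hS) A) (H : Hl A j) (F : Far A j)
    (Ro : Root (rc0 hS) A i g) {T : Finset ℂ} (hT : T ⊆ ff S (st A)) {T' : Set (Cs hS)}
    (hc : Cmp A (T : Set ℂ) T') (z : ℂ → R) (k : ZMod 3) :
    yv (rc0 hS) A k T' (fun c => z (rep hS c)) = z (hv S (st A) k (T : Set ℂ)) := by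
  have hX := hex G H Ro
  obtain ⟨d, hd⟩ := hit_ex G Ro k T'
  rw [yv_eq G hd, hv_eq hX hT ((hitO_hit H hc (th_spec d.2)).2 hd)]
  show z (rep hS ((rc0 hS).cell d)) = z d.1.1
  rw [rep_state d (hit_off G F hd)]

/-- **the touch of the giant `k`** -/
theorem yv_site {R : Type} [Zero R] (G : Gi (rc0 hS) A) (H : Hl A j) (F : Far A j)
    (Ro : Root (rc0 hS) A i g) (hμ : ∀ c, Free A c → μ c = chiS hS h3 β c) (z : ℂ → R)
    (k : ZMod 3) :
    yv (rc0 hS) A k {c | μ c = 1} (fun c => z (rep hS c)) =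
      z (hv S (st A) k ((β ∩ ff S (st A) : Finset ℂ) : Set ℂ)) :=
  yv_cmp G H F Ro Finset.inter_subset_right (cmp_chi H hμ) z k

/-- **the touch of the giant `k` in the complementary colouring** -/
theorem yv_site' {R : Type} [Zero R] (G : Gi (rc0 hS) A) (H : Hl A j) (F : Far A j)
    (Ro : Root (rc0 hS) A i g) (hμ : ∀ c, Free A c → μ c = chiS hS h3 β c) (z : ℂ → R)
    (k : ZMod 3) :
    yv (rc0 hS) A k {c | μ c = 1}ᶜ (fun c => z (rep hS c)) =
      z (hv S (st A) k ((ff S (st A) \ β : Finset ℂ) : Set ℂ)) :=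
  yv_cmp G H F Ro Finset.sdiff_subset (cmp_chi' H hμ) z k

end touch

/-! ### 58's end points on the whole net -/

section loc

open Crest.Agent.R143.Locx922 (Hol)
open Crest.Agent.R143.LocUx700 (deep agr_deep mem_Vin bd_Vin)
open Crest.Agent.R143.LocTx700 (SameT sameT_local)
open Crest.Agent.R143.NetVx346 (Vin hitsV)
open Crest.Agent.R143.PolyUx346 (Poly)
open Crest.Agent.R143.MeasPx609 (yP)
open Crest.Agent.R143.TlAx58 (Vw Bw fl yP_clr yP_fl_clr)

variable {S S' : Finset ℂ} {P : Set ℂ} {d : ℝ} {L L' : ℂ → ZMod 3}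


variable {u : Poly} {Wd : Set ℂ} {β : Finset ℂ} {w : ZMod 3} {z : ℂ → ℂ}

theorem sw_agree (hPW : u.P ⊆ Wd) : ∀ x ∈ u.P, x ∈ S ↔ x ∈ TlAx58.Sw Wd S := by
  intro x hx
  unfold TlAx58.Sw
  rw [Finset.mem_filter]
  exact ⟨fun h => ⟨h, hPW hx⟩, fun h => h.1⟩

theorem vw_eq (hd : 0 < d) (hPW : u.P ⊆ Wd) : Vw u d Wd S = Vin S u.P d :=
  (LocUx700.Vin_eq hd (sw_agree hPW)).symm



end loc

/-! ### the touches of 166 -/

section sys

variable {S : Finset ℂ} {hS : GP (S : Set ℂ)} {h3 : 3 ≤ S.card}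
  {H R : Set (Cs hS)} {Q : Set (D0 S)} {ι : Type} {pa : ι → (Cs hS → ZMod 2) → D0 S}
  {na : ι → (Cs hS → ZMod 2) → ℕ} {Ev : ι → (Cs hS → ZMod 2) → Prop} {k j : ZMod 3}
  {nn m r : ℕ} {F : ℕ → Set (D0 S)} {Bt : ℕ → Set ℂ} {n : ℕ} {σ : Cs hS → ZMod 2}
  {β : Finset ℂ}

/-- near indices -/
def Nr (r x y : ℕ) : Prop := x ≤ y + r ∧ y ≤ x + r

theorem Nr.trans {r s x y z : ℕ} (h : Nr r x y) (h' : Nr s y z) : Nr (r + s) x z := by
  unfold Nr at *
  omega

/-- free cells have the second colour -/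
theorem mx_free (Y : Sys (rc0 hS) H R Q pa na Ev) {i : ι} (h : Ev i σ) (τ : Cs hS → ZMod 2)
    {c : Cs hS} (hc : Free (gA (rc0 hS) H R Q pa na Ev k σ) c) :
    mx (rc0 hS) H R pa na Ev σ τ c = τ c := by
  refine (Y.hE (τ := τ) h).2 c fun hE => ?_
  rw [Y.gA_eq k h] at hc
  exact ((Y.ex h).not_free (i := k)).2 hE hc




open Crest.Agent.R143.Locx922 (Hol)
open Crest.Agent.R143.LocUx700 (deep)
open Crest.Agent.R143.NetVx346 (Vin)
open Crest.Agent.R143.PolyUx346 (Poly)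
open Crest.Agent.R143.TlAx58 (ta tb tlz gt)
open Crest.Agent.R143.Layx416 (rr)


end sys

end Crest.Agent.R143.NearBx139
end
end

-- ▼ part R143/NearG_737
section

/-!
# Row 143 (S0194), RIG, field `hθ` of `Quen`, half (A): index and geometry (helper737)

* `Sys.hit_cell` : the hits of the giants `gA k` are cells of the strand, within one arc of the
  touches `ka`, `kb`
* `site_gate` : the site of a cell with a tile `B j` is near the gate `j`
* `Bd` : bad pairs of colourings: hit sites of the strand and of the polygon further than `e0`, or a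
  hit of the polygon which is not unique
* **`far_zero`** : no bad pair ⟹ `far (2 r + 2) ka kb (n - tb) (n - ta) = 0`
* **`near`** : `av (Bd) ≤ θ` ⟹ `av (far (2 r + 2) ka kb (n - tb) (n - ta)) ≤ θ`
* `near_pr`, `pr_side` : probabilities in the free sites of the polygon
-/

set_option autoImplicit false
set_option linter.unusedSectionVars false

noncomputable section

open scoped Classical

namespace Crest.Agent.R143.NearGx737

open Crest.Agent.R143.Frame1x395 Crest.Agent.R143.Frame2x395 Crest.Agent.R143.Frame3x395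
  Crest.Agent.R143.Frame4x395 Crest.Agent.R143.Frame8x395 Crest.Agent.R143.Frame9x395
  Crest.Agent.R143.Frame10x395 Crest.Agent.R143.NonXx592 Crest.Agent.R143.Coarsex166
  Crest.Agent.R143.Coarse2x166
  Crest.Agent.R143.R5bx166 Crest.Agent.R143.R5qx166 Crest.Agent.R143.QuSx166
  Crest.Agent.R143.OutSx358 Crest.Agent.R143.SysCx166
open C2SBx395 (yv)
open Resax778 (mix)

/-! ### the hits are cells of the strand -/

section sys

variable {D C ι : Type} [Fintype D] [Fintype C] {M : CMap D C} {H R : Set C} {Q : Set D}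
  {pa : ι → (C → ZMod 2) → D} {na : ι → (C → ZMod 2) → ℕ} {Ev : ι → (C → ZMod 2) → Prop}
  {σ : C → ZMod 2} {nn m : ℕ} {F : ℕ → Set D} {tl : C → ℕ}

/-- **the hits of `gA k` are cells of the strand near the touches** -/
theorem _root_.Crest.Agent.R143.OutSx358.Sys.hit_cell (S : Sys M H R Q pa na Ev)
    (hx : Hx M pa na Ev nn m F tl σ) (hnn : 0 < nn) {i0 : ι} (hi : Ev i0 σ) {Pp : C → Prop}
    (hP : ∀ u ≤ na i0 σ, Pp (M.cell (P M (cfg M σ) (pa i0 σ) u))) (τ : C → ZMod 2)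
    (k : ZMod 3) :
    (∃ c, Pp c ∧ (∀ {E : Type} [Zero E] (z : C → E),
        yv M (gA M H R Q pa na Ev k σ) k {c | mx M H R pa na Ev σ τ c = 1} z = z c) ∧
      ka M H R Q pa na Ev nn m F tl σ τ ≤ tl c + 1 ∧
        tl c ≤ ka M H R Q pa na Ev nn m F tl σ τ + 1) ∧
    ∃ c, Pp c ∧ (∀ {E : Type} [Zero E] (z : C → E),
        yv M (gA M H R Q pa na Ev k σ) (k + 1) {c | mx M H R pa na Ev σ τ c = 1}ᶜ z = z c) ∧
      kb M H R Q pa na Ev nn m F tl σ τ ≤ tl c + 1 ∧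
        tl c ≤ kb M H R Q pa na Ev nn m F tl σ τ + 1 := by
  have hspec := hx.choose_spec
  set x := hx.choose with hxdef
  have e1 : ka M H R Q pa na Ev nn m F tl σ τ =
      kaT M (mx M H R pa na Ev σ τ) (pa x.1 σ) (na x.1 σ) (rt M Q pa na x.1 σ) x.2 nn := by
    unfold ka
    rw [dif_pos hx]
  have e2 : kb M H R Q pa na Ev nn m F tl σ τ =
      kbT M (mx M H R pa na Ev σ τ) (pa x.1 σ) (na x.1 σ) (rt M Q pa na x.1 σ) x.2 nn := by
    unfold kb
    rw [dif_pos hx]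
  obtain ⟨hEv, h0, hn, hReg, htl⟩ := hspec
  obtain ⟨u1, u2⟩ := S.uni x.1 i0 σ hEv hi
  obtain ⟨g1, g2⟩ := S.hE (τ := τ) hEv
  have X := S.ex hEv
  have mono : ∀ j, j < nn → x.2 j ≤ x.2 (j + 1) := fun j hj => hReg.mono j (Nat.zero_le j) hj
  obtain ⟨c1, c2, c3, c4, c5, c6⟩ := X.touch h0 hn hnn g1 mono
  obtain ⟨t1, t2, t3⟩ := X.tA_spec g1
  have hr : rt M Q pa na x.1 σ ≤ na x.1 σ := by omega
  have f1 := htl _ (by omega) _ c3 c4
  have f2 := htl _ c2 _ c5 c6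
  rw [S.gA_eq k hEv, e1, e2]
  refine ⟨⟨_, ?_, fun z => (X.yv_eq (QuFx778.cq (X.gi (i := k))) g1 z).1, f1.1, f1.2⟩,
    _, ?_, fun z => (X.yv_eq (QuFx778.cq (X.gi (i := k))) g1 z).2, f2.1, f2.2⟩
  · rw [u1]
    refine hP _ ?_
    rw [← u2, ← u1]
    exact t3.trans hr
  · rw [u1]
    refine hP _ ?_
    rw [← u2, ← u1]
    exact t2

end sys

/-! ### the touches of the strand and of the polygon -/

section rc

open Crest.Agent.R143.B0x346 Crest.Agent.R143.FinCx811 Crest.Agent.R143.DelGx806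
  Crest.Agent.R143.SmallAx304 Crest.Agent.R143.CorMx970 Crest.Agent.R143.Freshx829
  Crest.Agent.R143.PolyUx346 Crest.Agent.R143.NetVx346 Crest.Agent.R143.TlAx58
  Crest.Agent.R143.Layx416 Crest.Agent.R143.LayUx416 Crest.Agent.R143.TlGx58
open Crest.Agent.R143.TileRx228 (FPath RR)
open Crest.Agent.R143.IndLoc3x279 (clr)
open Crest.Agent.R143.Locx922 (Hol)
open Crest.Agent.R143.LocUx700 (deep)

variable {S : Finset ℂ} (hS : GP (S : Set ℂ)) (h3 : 3 ≤ S.card)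
  (H R : Set (Cs hS)) (Q : Set (D0 S)) {ι : Type} (pa : ι → (Cs hS → ZMod 2) → D0 S)
  (na : ι → (Cs hS → ZMod 2) → ℕ) (Ev : ι → (Cs hS → ZMod 2) → Prop) (k : ZMod 3)

/-- site of the hit of `gA k` in the mixed colouring -/
def sA (σ τ : Cs hS → ZMod 2) : ℂ :=
  yv (rc0 hS) (gA (rc0 hS) H R Q pa na Ev k σ) k
    {c | mx (rc0 hS) H R pa na Ev σ τ c = 1} (rep hS)

/-- site of the hit of `gA (k + 1)` in the mixed colouring, complementary colours -/
def sB (σ τ : Cs hS → ZMod 2) : ℂ :=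
  yv (rc0 hS) (gA (rc0 hS) H R Q pa na Ev k σ) (k + 1)
    {c | mx (rc0 hS) H R pa na Ev σ τ c = 1}ᶜ (rep hS)

/-- **bad pairs of colourings**: `x` = hit of the polygon on `w + 1` in the colours `τ`, `y` = hit on
`w + 2` in the complementary colours -/
def Bd (u : Poly) (d : ℝ) (Wd : Set ℂ) (w : ZMod 3) (e0 : ℝ) (σ τ : Finset ℂ) : Prop :=
  ¬ ((hitsV (Sw Wd S) (Vw u d Wd S) (Bw u d Wd S) (w + 1)
        ((τ ∩ Vw u d Wd S : Finset ℂ) : Set ℂ)).card = 1 ∧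
      (hitsV (Sw Wd S) (Vw u d Wd S) (Bw u d Wd S) (w + 2)
        ((Vw u d Wd S \ (τ ∩ Vw u d Wd S) : Finset ℂ) : Set ℂ)).card = 1 ∧
      ‖sA hS H R Q pa na Ev k (chiS hS h3 σ) (chiS hS h3 τ) -
        Dispx798.xV (Sw Wd S) (Vw u d Wd S) (Bw u d Wd S) w (τ ∩ Vw u d Wd S)‖ ≤ e0 ∧
      ‖sB hS H R Q pa na Ev k (chiS hS h3 σ) (chiS hS h3 τ) -
        Dispx798.yV (Sw Wd S) (Vw u d Wd S) (Bw u d Wd S) w (τ ∩ Vw u d Wd S)‖ ≤ e0)

variable {H R Q pa na Ev k}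

variable {u : Poly} {m M n : ℕ} {p W : ℤ → ℤ × ℤ} {A e : ℤ → ℤ} {h d e0 ρ0 : ℝ} {w : ZMod 3}
  {Wd : Set ℂ} {B : ℕ → Set ℂ} {m' : ℕ} {F : ℕ → Set (D0 S)}

/-- the site of a cell with a tile is near the gate of the tile -/
theorem site_gate (hB : ∀ j < n, ∀ v ∈ B j, dist (gt h W A e w j) v ≤ ρ0) {c : Cs hS}
    (hc : ∃ j < n, rep hS c ∈ B (n - 1 - j)) :
    TlRx709.tl hS B n c < n ∧
      dist (gt h W A e w (n - 1 - TlRx709.tl hS B n c)) (rep hS c) ≤ ρ0 := by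
  obtain ⟨j, h1, h2⟩ := hc
  obtain ⟨h4, h5⟩ := TlRx709.tl_spec h1 h2
  exact ⟨h4, hB _ (by omega) _ h5⟩

/-- the same for the arms of 228 -/
theorem rr_hB {A' B' : ℝ} (hW : FPath M W) (hh : 0 ≤ h) (hA : 0 ≤ A') (hB : 0 ≤ B') (n : ℕ) :
    ∀ j < n, ∀ v ∈ RR A' B' h W (al A e w + (j : ℕ)),
      dist (gt h W A e w j) v ≤ A' + B' + A' + h / 2 := fun _ _ _ hv =>
  (TlRx709.rr_gate hW hh hA hB hv).1

/-- **a good pair of colourings**: the touches of the strand are the touches of the polygon up to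
`2 r + 2` -/
theorem far_zero (Y : Sys (rc0 hS) H R Q pa na Ev) (HL : LayU u m M p W A e)
    (hh : (m : ℝ) * h = u.s) (hd : 0 < d) (hPW : u.P ⊆ Wd)
    (hH : Hol (S : Set ℂ) (deep u.P d) d)
    (hB : ∀ j < nn A e w, ∀ v ∈ B j, dist (gt h W A e w j) v ≤ ρ0)
    {r : ℕ} (hr : 2 * (r : ℤ) + 4 ≤ m) (hr7 : (r : ℤ) + 7 ≤ m)
    (hρ : ρ0 + (8 * h + 2 * d) + e0 < r * h) {σ τ : Finset ℂ}
    (hx : Hx (rc0 hS) pa na Ev (nn A e w) m' F (TlRx709.tl hS B (nn A e w)) (chiS hS h3 σ))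
    (hs : ∃ i, Ev i (chiS hS h3 σ) ∧ ∀ t ≤ na i (chiS hS h3 σ), ∃ j < nn A e w,
      rep hS ((rc0 hS).cell (P (rc0 hS) (cfg (rc0 hS) (chiS hS h3 σ)) (pa i (chiS hS h3 σ)) t)) ∈
        B (nn A e w - 1 - j))
    (hτ : τ ⊆ S) (hb : ¬ Bd hS h3 H R Q pa na Ev k u d Wd w e0 σ τ) :
    far (2 * r + 2)
      (fun σ τ => ka (rc0 hS) H R Q pa na Ev (nn A e w) m' F (TlRx709.tl hS B (nn A e w))
        (chiS hS h3 σ) (chiS hS h3 τ))
      (fun σ τ => kb (rc0 hS) H R Q pa na Ev (nn A e w) m' F (TlRx709.tl hS B (nn A e w))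
        (chiS hS h3 σ) (chiS hS h3 τ))
      (fun τ => nn A e w - tb u d h Wd W A e w (clr S τ))
      (fun τ => nn A e w - ta u d h Wd W A e w (clr S τ)) σ τ = 0 := by
  have h0 := HL.h_pos hh
  have hnn : 0 < nn A e w := by
    have := HL.lay.rr_lt w
    omega
  obtain ⟨i, hi, hi2⟩ := hs
  unfold Bd at hb
  rw [not_not] at hb
  obtain ⟨b1, b2, b3, b4⟩ := hb
  obtain ⟨⟨c1, p1, y1, a1, a2⟩, c2, p2, y2, a3, a4⟩ := Y.hit_cell hx hnn hi
    (Pp := fun c => ∃ j < nn A e w, rep hS c ∈ B (nn A e w - 1 - j)) hi2 (chiS hS h3 τ) k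
  obtain ⟨q1, q2⟩ := site_gate hS hB p1
  obtain ⟨q3, q4⟩ := site_gate hS hB p2
  have e1 : sA hS H R Q pa na Ev k (chiS hS h3 σ) (chiS hS h3 τ) = rep hS c1 := y1 _
  have e2 : sB hS H R Q pa na Ev k (chiS hS h3 σ) (chiS hS h3 τ) = rep hS c2 := y2 _
  rw [e1] at b3
  rw [e2] at b4
  have n1 := cb_near HL hh hd hPW hH b1
  have n2 := ca_near HL hh hd hPW hH b2
  obtain ⟨l1, l2, l3⟩ := ca_le_cb (u := u) (d := d) (h := h) (Wd := Wd) (S := S) HL.lay w
    (τ ∩ Vw u d Wd S)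
  rw [← dist_eq_norm, dist_comm] at n1 n2
  rw [← dist_eq_norm] at b3 b4
  have i1 := idx_near' HL.lay h0 w (k := nn A e w - 1 - TlRx709.tl hS B (nn A e w) c1) (by omega) l3
    q2 n1 b3 hr hr7 hρ
  have i2 := idx_near' HL.lay h0 w (k := nn A e w - 1 - TlRx709.tl hS B (nn A e w) c2) (by omega)
    (l1.trans (l2.trans l3)) q4 n2 b4 hr hr7 hρ
  unfold far
  beta_reduce
  rw [ta_clr w, tb_clr w hτ, if_pos]
  omega

/-- **field `hθ` of `Quen`** (order of the time), from the probability of the bad pairs -/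
theorem near (Y : Sys (rc0 hS) H R Q pa na Ev) (HL : LayU u m M p W A e)
    (hh : (m : ℝ) * h = u.s) (hd : 0 < d) (hPW : u.P ⊆ Wd)
    (hH : Hol (S : Set ℂ) (deep u.P d) d)
    (hB : ∀ j < nn A e w, ∀ v ∈ B j, dist (gt h W A e w j) v ≤ ρ0)
    {r : ℕ} (hr : 2 * (r : ℤ) + 4 ≤ m) (hr7 : (r : ℤ) + 7 ≤ m)
    (hρ : ρ0 + (8 * h + 2 * d) + e0 < r * h) {θ : ℝ} {g : Set (ℂ × Bool) → ℝ}
    (hg : ∀ σ ∈ S.powerset, 0 < g (clr S σ) →
      Hx (rc0 hS) pa na Ev (nn A e w) m' F (TlRx709.tl hS B (nn A e w)) (chiS hS h3 σ))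
    (hs : ∀ σ ∈ S.powerset, 0 < g (clr S σ) →
      ∃ i, Ev i (chiS hS h3 σ) ∧ ∀ t ≤ na i (chiS hS h3 σ), ∃ j < nn A e w,
        rep hS ((rc0 hS).cell (P (rc0 hS) (cfg (rc0 hS) (chiS hS h3 σ))
          (pa i (chiS hS h3 σ)) t)) ∈ B (nn A e w - 1 - j))
    (hb : ∀ σ ∈ S.powerset, 0 < g (clr S σ) → av S.powerset (fun τ =>
      if Bd hS h3 H R Q pa na Ev k u d Wd w e0 σ τ then (1 : ℝ) else 0) ≤ θ) :
    ∀ σ ∈ S.powerset, 0 < g (clr S σ) → av S.powerset (far (2 * r + 2)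
      (fun σ τ => ka (rc0 hS) H R Q pa na Ev (nn A e w) m' F (TlRx709.tl hS B (nn A e w))
        (chiS hS h3 σ) (chiS hS h3 τ))
      (fun σ τ => kb (rc0 hS) H R Q pa na Ev (nn A e w) m' F (TlRx709.tl hS B (nn A e w))
        (chiS hS h3 σ) (chiS hS h3 τ))
      (fun τ => nn A e w - tb u d h Wd W A e w (clr S τ))
      (fun τ => nn A e w - ta u d h Wd W A e w (clr S τ)) σ) ≤ θ := by
  intro σ hσ h0
  refine (av_mono fun τ hτ => ?_).trans (hb σ hσ h0)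
  by_cases hb' : Bd hS h3 H R Q pa na Ev k u d Wd w e0 σ τ
  · rw [if_pos hb']
    unfold far
    split_ifs <;> norm_num
  · rw [if_neg hb']
    exact (far_zero hS h3 Y HL hh hd hPW hH hB hr hr7 hρ (hg σ hσ h0) (hs σ hσ h0)
      (Finset.mem_powerset.1 hτ) hb').le

end rc

/-! ### probabilities in the free sites of the polygon -/

section prob

open Crest.Agent.R143.Harx315 Crest.Agent.R143.CorMx970


end prob

end Crest.Agent.R143.NearGx737
end
end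

-- ▼ part R143/NearC_139
section

/-!
# Row 143 (S0194), RIG: bad colourings of the touches (helper139)

`A = gA (rc0 hS) … k σ` giants of 358's system at `σ`, `μ = mx … σ (chiS β)` the mixed colouring,
`sA = yv (rc0 hS) A k {μ = 1} (rep hS)`, `sB = yv (rc0 hS) A (k + 1) {μ = 1}ᶜ (rep hS)` the sites of the
two touches; `w = k + 2` the white label, `xV`, `yV` 798's end points of the polygon.

* `sA_eq`, `sB_eq` : the sites of the touches are the hit vertices `hv`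
* **`bd_le`** : mean over the black sets of [not (unique hits on both arcs, `‖sA - xV‖ ≤ e0`,
  `‖sB - yV‖ ≤ e0`)] `≤ 2 θ + 2 θ'` from 930's comparison (`θ`) and 798's `fU ≤ θ'`
-/

set_option autoImplicit false
set_option linter.unusedSectionVars false

noncomputable section

open scoped Classical

namespace Crest.Agent.R143.NearCx139

open Set
open Crest.ProbabilityR.Voronoi
open Crest.Agent.R143.B0x346 Crest.Agent.R143.DelGx806
open Crest.Agent.R143.Frame1x395 Crest.Agent.R143.Frame2x395 Crest.Agent.R143.Frame3x395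
  Crest.Agent.R143.Frame4x395 Crest.Agent.R143.Frame8x395 Crest.Agent.R143.Frame9x395
  Crest.Agent.R143.Frame10x395
open Crest.Agent.R143.NonXx592 (P)
open Crest.Agent.R143.FinCx811 (Cs rc0)
open Crest.Agent.R143.C2SBx395 Crest.Agent.R143.C2SCx395 Crest.Agent.R143.C2SDx395
open Crest.Agent.R143.Freshx829 (rep)
open Crest.Agent.R143.SmallAx304 (chiS)
open Crest.Agent.R143.NetUx346 (ff mem_ff Hex hv hv_mem)
open Crest.Agent.R143.NetVx346 (zV Bl Vin hitsV)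
open Crest.Agent.R143.Harx315 (pr pr_flip)
open Crest.Agent.R143.CorMx970 (av av_add av_mono av_congr)
open Crest.Agent.R143.OutSx358 Crest.Agent.R143.SysCx166 Crest.Agent.R143.NearBx139
open Crest.Agent.R143.PolyUx346 (Poly)
open Crest.Agent.R143.TlAx58 (Vw Bw)
open Crest.Agent.R143.Eddx798 (fU)
open Crest.Agent.R143.Dispx798 (xV yV)

section

variable {S : Finset ℂ} {hS : GP (S : Set ℂ)} {h3 : 3 ≤ S.card}
  {H R : Set (Cs hS)} {Q : Set (D0 S)} {ι : Type} {pa : ι → (Cs hS → ZMod 2) → D0 S}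
  {na : ι → (Cs hS → ZMod 2) → ℕ} {Ev : ι → (Cs hS → ZMod 2) → Prop} {k j : ZMod 3}
  {σ : Cs hS → ZMod 2} {i : ι}

/-- giants and root gap of the system -/
theorem gi_root (Y : Sys (rc0 hS) H R Q pa na Ev) (h : Ev i σ) :
    Gi (rc0 hS) (gA (rc0 hS) H R Q pa na Ev k σ) ∧
      Root (rc0 hS) (gA (rc0 hS) H R Q pa na Ev k σ) k
        (Splx117.gp (rc0 hS) (cfg (rc0 hS) σ) (pa i σ) (rt (rc0 hS) Q pa na i σ)) := by
  rw [Y.gA_eq k h]
  exact ⟨(Y.ex h).gi, (Y.ex h).root (i := k)⟩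

/-- **the site of the touch on `A k`** -/
theorem sA_eq (Y : Sys (rc0 hS) H R Q pa na Ev) (h : Ev i σ)
    (Hh : Hl (gA (rc0 hS) H R Q pa na Ev k σ) j) (Fa : Far (gA (rc0 hS) H R Q pa na Ev k σ) j)
    (h3 : 3 ≤ S.card) (β : Finset ℂ) :
    yv (rc0 hS) (gA (rc0 hS) H R Q pa na Ev k σ) k
        {c | mx (rc0 hS) H R pa na Ev σ (chiS hS h3 β) c = 1} (rep hS) =
      hv S (st (gA (rc0 hS) H R Q pa na Ev k σ)) k
        ((β ∩ ff S (st (gA (rc0 hS) H R Q pa na Ev k σ)) : Finset ℂ) : Set ℂ) := by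
  obtain ⟨G, Ro⟩ := gi_root (k := k) Y h
  exact yv_site (h3 := h3) G Hh Fa Ro (fun c hc => mx_free Y h _ hc) (fun v => v) k

/-- **the site of the touch on `A (k + 1)`** -/
theorem sB_eq (Y : Sys (rc0 hS) H R Q pa na Ev) (h : Ev i σ)
    (Hh : Hl (gA (rc0 hS) H R Q pa na Ev k σ) j) (Fa : Far (gA (rc0 hS) H R Q pa na Ev k σ) j)
    (h3 : 3 ≤ S.card) (β : Finset ℂ) :
    yv (rc0 hS) (gA (rc0 hS) H R Q pa na Ev k σ) (k + 1)
        {c | mx (rc0 hS) H R pa na Ev σ (chiS hS h3 β) c = 1}ᶜ (rep hS) =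
      hv S (st (gA (rc0 hS) H R Q pa na Ev k σ)) (k + 1)
        ((ff S (st (gA (rc0 hS) H R Q pa na Ev k σ)) \ β : Finset ℂ) : Set ℂ) := by
  obtain ⟨G, Ro⟩ := gi_root (k := k) Y h
  exact yv_site' (h3 := h3) G Hh Fa Ro (fun c hc => mx_free Y h _ hc) (fun v => v) (k + 1)

/-- not exactly one hit -/
def Nu (S V : Finset ℂ) (B : ZMod 3 → Set ℂ) (i : ZMod 3) (T : Finset ℂ) : Prop :=
  (hitsV S V B i (T : Set ℂ)).card ≠ 1

/-- the hit of the giant `i` is far from the hit of the polygon -/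
def Fw (S V : Finset ℂ) (A : ZMod 3 → Set ℂ) (S' V' : Finset ℂ) (B' : ZMod 3 → Set ℂ) (e0 : ℝ)
    (i : ZMod 3) (T : Finset ℂ) : Prop :=
  e0 < ‖hv S A i (T : Set ℂ) - zV S' V' B' i ((T ∩ V : Finset ℂ) : Set ℂ) id‖

/-- union bound for four events -/
theorem ind4 {P a b c d : Prop} [Decidable P] (h : P → a ∨ b ∨ c ∨ d) :
    (if P then (1 : ℝ) else 0) ≤
    ((if a then (1 : ℝ) else 0) + (if b then (1 : ℝ) else 0)) +
      ((if c then (1 : ℝ) else 0) + (if d then (1 : ℝ) else 0)) := by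
  by_cases hP : P
  · rw [if_pos hP]
    rcases h hP with h' | h' | h' | h' <;> rw [if_pos h'] <;> split_ifs <;> norm_num
  · rw [if_neg hP]
    split_ifs <;> norm_num

/-- **the bad colourings of the touches** -/
theorem bd_le (Y : Sys (rc0 hS) H R Q pa na Ev) (h : Ev i σ)
    (Hh : Hl (gA (rc0 hS) H R Q pa na Ev k σ) j) (Fa : Far (gA (rc0 hS) H R Q pa na Ev k σ) j)
    (h3 : 3 ≤ S.card) {u : Poly} {d e0 θ θ' : ℝ} {Wd : Set ℂ} {w : ZMod 3} (hd : 0 < d)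
    (hPW : u.P ⊆ Wd) (hk : k = w + 1)
    (hV : Vin S u.P d ⊆ ff S (st (gA (rc0 hS) H R Q pa na Ev k σ)))
    (hp : ∀ i : ZMod 3, pr (ff S (st (gA (rc0 hS) H R Q pa na Ev k σ)))
      (fun β => e0 < ‖hv S (st (gA (rc0 hS) H R Q pa na Ev k σ)) i (β : Set ℂ) -
        zV (TlAx58.Sw Wd S) (Vw u d Wd S) (Bw u d Wd S) i
          ((β ∩ Vin S u.P d : Finset ℂ) : Set ℂ) id‖) ≤ θ)
    (hu : ∀ i, fU u d Wd i S ≤ θ') {E : Finset ℂ → Prop} (hE : ∀ β, E β → ¬ (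
      (hitsV (TlAx58.Sw Wd S) (Vw u d Wd S) (Bw u d Wd S) (w + 1)
        ((β ∩ Vw u d Wd S : Finset ℂ) : Set ℂ)).card = 1 ∧
      (hitsV (TlAx58.Sw Wd S) (Vw u d Wd S) (Bw u d Wd S) (w + 2)
        ((Vw u d Wd S \ (β ∩ Vw u d Wd S) : Finset ℂ) : Set ℂ)).card = 1 ∧
      ‖yv (rc0 hS) (gA (rc0 hS) H R Q pa na Ev k σ) k
          {c | mx (rc0 hS) H R pa na Ev σ (chiS hS h3 β) c = 1} (rep hS) -
        xV (TlAx58.Sw Wd S) (Vw u d Wd S) (Bw u d Wd S) w (β ∩ Vw u d Wd S)‖ ≤ e0 ∧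
      ‖yv (rc0 hS) (gA (rc0 hS) H R Q pa na Ev k σ) (k + 1)
          {c | mx (rc0 hS) H R pa na Ev σ (chiS hS h3 β) c = 1}ᶜ (rep hS) -
        yV (TlAx58.Sw Wd S) (Vw u d Wd S) (Bw u d Wd S) w (β ∩ Vw u d Wd S)‖ ≤ e0)) :
    av S.powerset (fun β => if E β then (1 : ℝ) else 0) ≤ 2 * θ + 2 * θ' := by
  have hk2 : k + 1 = w + 2 := by rw [hk, add_assoc]; rfl
  have hVw : Vw u d Wd S = Vin S u.P d := vw_eq hd hPW
  have hsub : ff S (st (gA (rc0 hS) H R Q pa na Ev k σ)) ⊆ S := Finset.filter_subset _ _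
  have hVS : Vin S u.P d ⊆ S := Finset.filter_subset _ _
  have key : ∀ β ∈ S.powerset, (if E β then (1 : ℝ) else 0) ≤
      ((if Nu (TlAx58.Sw Wd S) (Vw u d Wd S) (Bw u d Wd S) (w + 1) (β ∩ Vin S u.P d)
          then (1 : ℝ) else 0) +
        (if Nu (TlAx58.Sw Wd S) (Vw u d Wd S) (Bw u d Wd S) (w + 2) (Vin S u.P d \ β)
          then (1 : ℝ) else 0)) +
      ((if Fw S (Vin S u.P d) (st (gA (rc0 hS) H R Q pa na Ev k σ)) (TlAx58.Sw Wd S)
          (Vw u d Wd S) (Bw u d Wd S) e0 k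
          (β ∩ ff S (st (gA (rc0 hS) H R Q pa na Ev k σ))) then (1 : ℝ) else 0) +
        (if Fw S (Vin S u.P d) (st (gA (rc0 hS) H R Q pa na Ev k σ)) (TlAx58.Sw Wd S)
          (Vw u d Wd S) (Bw u d Wd S) e0 (k + 1)
          (ff S (st (gA (rc0 hS) H R Q pa na Ev k σ)) \ β) then (1 : ℝ) else 0)) := by
    intro β _
    refine ind4 fun hn => ?_
    have e0' : Vw u d Wd S \ (β ∩ Vw u d Wd S) = Vin S u.P d \ β := by
      rw [hVw]
      ext x
      simp only [Finset.mem_sdiff, Finset.mem_inter]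
      tauto
    by_contra hc
    rw [not_or, not_or, not_or] at hc
    obtain ⟨c1, c2, c3, c4⟩ := hc
    refine hE β hn ⟨?_, ?_, ?_, ?_⟩
    · by_contra h'
      refine c1 ?_
      unfold Nu
      rw [show β ∩ Vin S u.P d = β ∩ Vw u d Wd S by rw [hVw]]
      exact h'
    · by_contra h'
      rw [e0'] at h'
      exact c2 h'
    · by_contra h'
      rw [not_le, sA_eq Y h Hh Fa h3 β] at h'
      refine c3 ?_
      have e1 : β ∩ ff S (st (gA (rc0 hS) H R Q pa na Ev k σ)) ∩ Vin S u.P d =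
          β ∩ Vw u d Wd S := by
        rw [Finset.inter_assoc, Finset.inter_eq_right.2 hV, hVw]
      unfold Fw
      rw [e1]
      unfold Dispx798.xV at h'
      rw [← hk] at h'
      exact h'
    · by_contra h'
      rw [not_le, sB_eq Y h Hh Fa h3 β] at h'
      refine c4 ?_
      have e1 : (ff S (st (gA (rc0 hS) H R Q pa na Ev k σ)) \ β) ∩ Vin S u.P d =
          Vw u d Wd S \ (β ∩ Vw u d Wd S) := by
        rw [e0']
        ext v
        simp only [Finset.mem_sdiff, Finset.mem_inter]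
        exact ⟨fun h => ⟨h.2, h.1.2⟩, fun h => ⟨⟨hV h.1, h.2⟩, h.1⟩⟩
      unfold Fw
      rw [e1]
      unfold Dispx798.yV at h'
      rw [← hk2] at h'
      exact h'
  refine (av_mono key).trans ?_
  rw [av_add, av_add, av_add,
    av_pr hVS (Nu (TlAx58.Sw Wd S) (Vw u d Wd S) (Bw u d Wd S) (w + 1)),
    av_pr' hVS (Nu (TlAx58.Sw Wd S) (Vw u d Wd S) (Bw u d Wd S) (w + 2)),
    av_pr hsub (Fw S (Vin S u.P d) (st (gA (rc0 hS) H R Q pa na Ev k σ)) (TlAx58.Sw Wd S)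
      (Vw u d Wd S) (Bw u d Wd S) e0 k),
    av_pr' hsub (Fw S (Vin S u.P d) (st (gA (rc0 hS) H R Q pa na Ev k σ)) (TlAx58.Sw Wd S)
      (Vw u d Wd S) (Bw u d Wd S) e0 (k + 1))]
  have u0 : ∀ i, pr (Vin S u.P d) (Nu (TlAx58.Sw Wd S) (Vw u d Wd S) (Bw u d Wd S) i) ≤ θ' := by
    intro i
    have := hu i
    unfold fU at this
    rw [← hVw]
    exact this
  have u1 := u0 (w + 1)
  have u2 := u0 (w + 2)
  have u3 : pr (ff S (st (gA (rc0 hS) H R Q pa na Ev k σ))) (Fw S (Vin S u.P d)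
      (st (gA (rc0 hS) H R Q pa na Ev k σ)) (TlAx58.Sw Wd S) (Vw u d Wd S) (Bw u d Wd S) e0 k) ≤
      θ := hp k
  have u4 : pr (ff S (st (gA (rc0 hS) H R Q pa na Ev k σ))) (Fw S (Vin S u.P d)
      (st (gA (rc0 hS) H R Q pa na Ev k σ)) (TlAx58.Sw Wd S) (Vw u d Wd S) (Bw u d Wd S) e0
        (k + 1)) ≤ θ := hp (k + 1)
  linarith

/-- **the bad colourings of 737** -/
theorem bd_theta (Y : Sys (rc0 hS) H R Q pa na Ev) {σ₀ : Finset ℂ} (h : Ev i (chiS hS h3 σ₀))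
    (Hh : Hl (gA (rc0 hS) H R Q pa na Ev k (chiS hS h3 σ₀)) j)
    (Fa : Far (gA (rc0 hS) H R Q pa na Ev k (chiS hS h3 σ₀)) j)
    {u : Poly} {d e0 θ θ' : ℝ} {Wd : Set ℂ} {w : ZMod 3} (hd : 0 < d)
    (hPW : u.P ⊆ Wd) (hk : k = w + 1)
    (hV : Vin S u.P d ⊆ ff S (st (gA (rc0 hS) H R Q pa na Ev k (chiS hS h3 σ₀))))
    (hp : ∀ i : ZMod 3, pr (ff S (st (gA (rc0 hS) H R Q pa na Ev k (chiS hS h3 σ₀))))
      (fun β => e0 < ‖hv S (st (gA (rc0 hS) H R Q pa na Ev k (chiS hS h3 σ₀))) i (β : Set ℂ) -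
        zV (TlAx58.Sw Wd S) (Vw u d Wd S) (Bw u d Wd S) i
          ((β ∩ Vin S u.P d : Finset ℂ) : Set ℂ) id‖) ≤ θ)
    (hu : ∀ i, fU u d Wd i S ≤ θ') :
    av S.powerset (fun τ =>
      if NearGx737.Bd hS h3 H R Q pa na Ev k u d Wd w e0 σ₀ τ then (1 : ℝ) else 0) ≤
      2 * θ + 2 * θ' :=
  bd_le Y h Hh Fa h3 hd hPW hk hV hp hu
    (E := NearGx737.Bd hS h3 H R Q pa na Ev k u d Wd w e0 σ₀) fun _ hb => hb

open Crest.Agent.R143.Layx416 (al)
open Crest.Agent.R143.LayUx416 (LayU)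
open Crest.Agent.R143.Locx922 (Hol)
open Crest.Agent.R143.LocUx700 (deep)
open Crest.Agent.R143.TlAx58 (ta tb gt)
open Crest.Agent.R143.IndLoc3x279 (clr)
open Crest.Agent.R143.CorMx970 (far)

/-- **the field `hθ` of `Quen`** from 358's system, 166's `Hx`, 930's comparison -/
theorem near_pr (Y : Sys (rc0 hS) H R Q pa na Ev)
    (hH : ∀ c : Cs hS, ∀ v, OnHull S v → c.1 = Quot.mk (hullE S) v → c ∈ H)
    (hZ : ∀ i σ, Ev i σ → ∀ c ∈ H, c ∉ ac (rc0 hS) (pa i σ) (na i σ) σ)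
    {u : Poly} {m M : ℕ} {p W : ℤ → ℤ × ℤ} {A e : ℤ → ℤ} {h d e0 ρ0 θ θ' : ℝ} {w : ZMod 3}
    {Wd : Set ℂ} {B : ℕ → Set ℂ} {m' : ℕ} {F : ℕ → Set (D0 S)} (hk : k = w + 1)
    (HL : LayU u m M p W A e) (hh : (m : ℝ) * h = u.s) (hd : 0 < d) (hPW : u.P ⊆ Wd)
    (hHol : Hol (S : Set ℂ) (deep u.P d) d)
    (hB : ∀ j < Layx416.nn A e w, ∀ v ∈ B j, dist (gt h W A e w j) v ≤ ρ0)
    {r : ℕ} (hr : 2 * (r : ℤ) + 4 ≤ m) (hr7 : (r : ℤ) + 7 ≤ m)
    (hρ : ρ0 + (8 * h + 2 * d) + e0 < r * h) {g : Set (ℂ × Bool) → ℝ}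
    (hg : ∀ σ ∈ S.powerset, 0 < g (clr S σ) → Hx (rc0 hS) pa na Ev (Layx416.nn A e w) m' F
      (TlRx709.tl hS B (Layx416.nn A e w)) (chiS hS h3 σ))
    (hs : ∀ σ ∈ S.powerset, 0 < g (clr S σ) →
      ∃ i, Ev i (chiS hS h3 σ) ∧ ∀ t ≤ na i (chiS hS h3 σ), ∃ j < Layx416.nn A e w,
        rep hS ((rc0 hS).cell (P (rc0 hS) (cfg (rc0 hS) (chiS hS h3 σ))
          (pa i (chiS hS h3 σ)) t)) ∈ B (Layx416.nn A e w - 1 - j))
    (hC : ∀ σ ∈ S.powerset, 0 < g (clr S σ) →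
      Vin S u.P d ⊆ ff S (st (gA (rc0 hS) H R Q pa na Ev k (chiS hS h3 σ))) ∧
      ∀ i : ZMod 3, pr (ff S (st (gA (rc0 hS) H R Q pa na Ev k (chiS hS h3 σ))))
        (fun β => e0 < ‖hv S (st (gA (rc0 hS) H R Q pa na Ev k (chiS hS h3 σ))) i (β : Set ℂ) -
          zV (TlAx58.Sw Wd S) (Vw u d Wd S) (Bw u d Wd S) i
            ((β ∩ Vin S u.P d : Finset ℂ) : Set ℂ) id‖) ≤ θ)
    (hu : ∀ i, fU u d Wd i S ≤ θ') :
    ∀ σ ∈ S.powerset, 0 < g (clr S σ) → av S.powerset (far (2 * r + 2)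
      (fun σ τ => ka (rc0 hS) H R Q pa na Ev (Layx416.nn A e w) m' F
        (TlRx709.tl hS B (Layx416.nn A e w)) (chiS hS h3 σ) (chiS hS h3 τ))
      (fun σ τ => kb (rc0 hS) H R Q pa na Ev (Layx416.nn A e w) m' F
        (TlRx709.tl hS B (Layx416.nn A e w)) (chiS hS h3 σ) (chiS hS h3 τ))
      (fun τ => Layx416.nn A e w - tb u d h Wd W A e w (clr S τ))
      (fun τ => Layx416.nn A e w - ta u d h Wd W A e w (clr S τ)) σ) ≤ 2 * θ + 2 * θ' := by
  refine NearGx737.near hS h3 (k := k) Y HL hh hd hPW hHol hB hr hr7 hρ hg hs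
    fun σ hσ h0 => ?_
  obtain ⟨i, hi, -⟩ := hs σ hσ h0
  obtain ⟨c1, c2⟩ := hC σ hσ h0
  exact bd_theta Y hi (GoodAx654.hl_gA Y hH hi (hZ i _ hi)) (GoodAx654.far_gA Y hH hi (hZ i _ hi))
    hd hPW hk c1 c2 hu

end

section con

open MeasureTheory
open Crest.Agent.R143.Layx416 (al)
open Crest.Agent.R143.LayUx416 (LayU)
open Crest.Agent.R143.Locx922 (Hol)
open Crest.Agent.R143.LocUx700 (deep)
open Crest.Agent.R143.TlAx58 (ta tb gt)
open Crest.Agent.R143.IndLoc3x279 (clr)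
open Crest.Agent.R143.CorMx970 (far)
open Crest.Agent.R143.CorEx133 (SU)
open Crest.Agent.R143.R10Nx930 (Con Du)

/-- **the field `hθ` of `Quen` from 930's `Con`** -/
theorem near_con {u : Poly} {ε : ℝ} {ω : Sample} {hS : GP (SU u ε ω : Set ℂ)}
    {h3 : 3 ≤ (SU u ε ω).card} {H R : Set (Cs hS)} {Q : Set (D0 (SU u ε ω))} {ι : Type}
    {pa : ι → (Cs hS → ZMod 2) → D0 (SU u ε ω)} {na : ι → (Cs hS → ZMod 2) → ℕ}
    {Ev : ι → (Cs hS → ZMod 2) → Prop} {k : ZMod 3} (Y : Sys (rc0 hS) H R Q pa na Ev)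
    (hH : ∀ c : Cs hS, ∀ v, OnHull (SU u ε ω) v → c.1 = Quot.mk (hullE (SU u ε ω)) v → c ∈ H)
    (hZ : ∀ i σ, Ev i σ → ∀ c ∈ H, c ∉ ac (rc0 hS) (pa i σ) (na i σ) σ)
    {m M : ℕ} {p W : ℤ → ℤ × ℤ} {A e : ℤ → ℤ} {h e0 ρ0 C c K : ℝ} {w : ZMod 3}
    {Wd : Set ℂ} {B : ℕ → Set ℂ} {m' : ℕ} {F : ℕ → Set (D0 (SU u ε ω))} (hk : k = w + 1)
    (HL : LayU u m M p W A e) (hh : (m : ℝ) * h = u.s) (hε : 0 < ε) (hPW : u.P ⊆ Wd)
    (hHol : Hol (SU u ε ω : Set ℂ) (deep u.P √ε) √ε)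
    (hB : ∀ j < Layx416.nn A e w, ∀ v ∈ B j, dist (gt h W A e w j) v ≤ ρ0)
    {r : ℕ} (hr : 2 * (r : ℤ) + 4 ≤ m) (hr7 : (r : ℤ) + 7 ≤ m)
    (hρ : ρ0 + (8 * h + 2 * √ε) + e0 < r * h) (he1 : 16 * h ≤ e0) (he2 : e0 ≤ Du u K)
    {g : Set (ℂ × Bool) → ℝ}
    (hg : ∀ σ ∈ (SU u ε ω).powerset, 0 < g (clr (SU u ε ω) σ) →
      Hx (rc0 hS) pa na Ev (Layx416.nn A e w) m' F
        (TlRx709.tl hS B (Layx416.nn A e w)) (chiS hS h3 σ))
    (hs : ∀ σ ∈ (SU u ε ω).powerset, 0 < g (clr (SU u ε ω) σ) →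
      ∃ i, Ev i (chiS hS h3 σ) ∧ ∀ t ≤ na i (chiS hS h3 σ), ∃ j < Layx416.nn A e w,
        rep hS ((rc0 hS).cell (P (rc0 hS) (cfg (rc0 hS) (chiS hS h3 σ))
          (pa i (chiS hS h3 σ)) t)) ∈ B (Layx416.nn A e w - 1 - j))
    (hC : ∀ σ ∈ (SU u ε ω).powerset, 0 < g (clr (SU u ε ω) σ) →
      Vin (SU u ε ω) u.P √ε ⊆
        ff (SU u ε ω) (st (gA (rc0 hS) H R Q pa na Ev k (chiS hS h3 σ))) ∧
      Con C c K u ε h ω (st (gA (rc0 hS) H R Q pa na Ev k (chiS hS h3 σ))) Wd) :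
    ∀ σ ∈ (SU u ε ω).powerset, 0 < g (clr (SU u ε ω) σ) →
      av (SU u ε ω).powerset (far (2 * r + 2)
      (fun σ τ => ka (rc0 hS) H R Q pa na Ev (Layx416.nn A e w) m' F
        (TlRx709.tl hS B (Layx416.nn A e w)) (chiS hS h3 σ) (chiS hS h3 τ))
      (fun σ τ => kb (rc0 hS) H R Q pa na Ev (Layx416.nn A e w) m' F
        (TlRx709.tl hS B (Layx416.nn A e w)) (chiS hS h3 σ) (chiS hS h3 τ))
      (fun τ => Layx416.nn A e w - tb u √ε h Wd W A e w (clr (SU u ε ω) τ))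
      (fun τ => Layx416.nn A e w - ta u √ε h Wd W A e w (clr (SU u ε ω) τ)) σ) ≤
      2 * (C * ((16 * h / e0) ^ c + (h / Du u K) ^ c)) + 2 * (C * (h / Du u K) ^ c) := by
  intro σ hσ h0
  exact near_pr Y hH hZ hk HL hh (Real.sqrt_pos.2 hε) hPW hHol hB hr hr7 hρ hg hs
    (fun σ hσ h0 => ⟨(hC σ hσ h0).1, ((hC σ hσ h0).2.1 e0 he1 he2).2⟩)
    ((hC σ hσ h0).2.2) σ hσ h0

end con

end Crest.Agent.R143.NearCx139
end
end

-- ▼ part R143/QuenJ_597

/-!
# Row 143 (S0194), RIG: plugs on `Sx` (helper597)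

`X : Sx w Z hN hε hS h3 h₀ R Zz` (QuenI_597), one environment.

* `bk_inn` : no hull site in the strips; **`Sx.strand`** : 737's hypothesis `hs`
* **`Sx.near`** : hypothesis `hθ` of `quen_u` (139's `near_con` with 377's numbers)
* `TileI` : 829's `TileD` for 377's windows; **`Sx.q`** : hypothesis `hQ` of `quen_u`, `Qq = Qz` (377)
-/

set_option autoImplicit false
set_option linter.unusedSectionVars false
set_option linter.style.haveILetI false

noncomputable section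

open scoped Classical

namespace Crest.Agent.R143.QuenIx597

open MeasureTheory Set Filter Topology
open scoped ENNReal
open Crest.ProbabilityR.Voronoi
open Crest.Agent.R143.PP0x831 Crest.Agent.R143.Janx304 Crest.Agent.R143.Dbl2x609
open Crest.Agent.R143.B0x346 Crest.Agent.R143.DelGx806 Crest.Agent.R143.DelRx806
  Crest.Agent.R143.FinCx811 Crest.Agent.R143.Resax778 Crest.Agent.R143.SmallAx304
open Crest.Agent.R143.Frame1x395 Crest.Agent.R143.Frame2x395 Crest.Agent.R143.Frame3x395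
  Crest.Agent.R143.Frame4x395
open Crest.Agent.R143.Frame8x395 hiding cfg
open Crest.Agent.R143.Frame9x395 Crest.Agent.R143.Frame10x395
open Crest.Agent.R143.CorMx970 (av far)
open Crest.Agent.R143.IndLoc3x279 (clr)
open Crest.Agent.R143.OutSx358 (Sys gA ac)
open Crest.Agent.R143.SysAx168 (EvA)
open Crest.Agent.R143.Uniqx323 (Zn Strd)
open Crest.Agent.R143.ColXx829 (Xc)
open Crest.Agent.R143.RingDx117 (RD)
open Crest.Agent.R143.PolyUx346 (Poly)
open Crest.Agent.R143.CorEx133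
open Crest.Agent.R143.RigPx854 (ly ly_spec mN mN_hN mN_10 hN hN_pos nT)
open Crest.Agent.R143.RigZdx609 Crest.Agent.R143.LayUx416 Crest.Agent.R143.Layx416
open Crest.Agent.R143.TileRx228
open Crest.Agent.R143.CorrIx831 (Ft tlt Bk Stk SDS)

variable {N : ℕ} {ε : ℝ} {u : Poly} {w : ZMod 3} {Z : TData} {hN : u.n + 4 ≤ N} {hε : 0 < ε}
  {ω : Sample} {hS : GP (SU u ε ω : Set ℂ)} {h3 : 3 ≤ (SU u ε ω).card} {h₀ : Cs hS}
  {R : Set (Cs hS)} {Zz : Zn (rc0 hS)} {K1 c2 ρ0 : ℝ}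

/-- no hull site in the strips -/
theorem bk_inn (hN : u.n + 4 ≤ N) (C : CorEnv u ε √ε K1 c2 ρ0 ω) (o : ℤ) (k : ℕ) {v : ℂ}
    (hv : v ∈ Bk (et N) (ly u N).W o k) : ¬ OnHull (SU u ε ω) v := by
  have h0 := et_pos N
  exact C.inn (RR_sub (ly_spec hN) (h := 100 * et N) (mh hN) (by linarith) (by linarith)
    (by linarith) (by linarith) _ hv)

/-- **737's hypothesis `hs`** : the sites of the left cells of the strand -/
theorem Sx.strand (X : Sx w Z hN hε hS h3 h₀ R Zz) (C : CorEnv u ε √ε K1 c2 ρ0 ω)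
    (σ : Finset ℂ) (h : 0 < gW Z u w hN hε (clr (SU u ε ω) σ)) :
    ∃ i, EvI hS w N h₀ R Zz i (chiS hS h3 σ) ∧ ∀ t ≤ i.2, ∃ j < nT u w N,
      Freshx829.rep hS ((rc0 hS).cell (NonXx592.P (rc0 hS)
        (Frame8x395.cfg (rc0 hS) (chiS hS h3 σ)) i.1 t)) ∈
        Bk (et N) (ly u N).W (oT u w N) (nT u w N - 1 - j) := by
  rw [← gW_xc (hS := hS) (h3 := h3) Z hN hε C] at h
  obtain ⟨p, q, k, T, -, h1, h2⟩ := X.out _ h
  exact HxGx166.hs_of (B := Bk (et N) (ly u N).W (oT u w N)) h2.1 h1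
    fun j _ v _ hv => bk_inn hN C _ j hv

open Crest.Agent.R143.RigNx377
open Crest.Agent.R143.NetUx346 Crest.Agent.R143.NetVx346
open Crest.Agent.R143.R10Nx930 (Con Du)

/-- distance of the sites of a strip to its gate -/
theorem bk_gate (hN : u.n + 4 ≤ N) (w : ZMod 3) : ∀ j < nn (ly u N).A (ly u N).e w,
    ∀ v ∈ Bk (et N) (ly u N).W (oT u w N) j,
      dist (TlAx58.gt (RigPx854.hN N) (ly u N).W (ly u N).A (ly u N).e w j) v ≤
        19 / 2 * et N + 103 / 2 * et N + 19 / 2 * et N + RigPx854.hN N / 2 := by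
  have h0 := et_pos N
  intro j hj v hv
  refine NearGx737.rr_hB (A' := 19 / 2 * et N) (B' := 103 / 2 * et N) (fp hN) (hN_pos N).le
    (by positivity) (by positivity) _ j hj v ?_
  rw [← et_h]
  exact hv

/-- **hypothesis `hθ` of `quen_u`** -/
theorem Sx.near (X : Sx w Z hN hε hS h3 h₀ R Zz) (C : CorEnv u ε √ε K1 c2 ρ0 ω) {e0 : ℝ}
    (hW : NumW u 13 e0 N) (hE : NumE N ε)
    (hC : ∀ σ ∈ (SU u ε ω).powerset, 0 < gW Z u w hN hε (clr (SU u ε ω) σ) →
      Vin (SU u ε ω) u.P √ε ⊆ ff (SU u ε ω) (GI hS h3 w N h₀ R Zz σ) ∧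
      Con C0 c0 K0 u ε (RigPx854.hN N) ω (GI hS h3 w N h₀ R Zz σ) u.P) :
    ∀ σ ∈ (SU u ε ω).powerset, 0 < gW Z u w hN hε (clr (SU u ε ω) σ) →
      av (SU u ε ω).powerset (far (2 * rI 13 N + 2) (kaI hS h3 w N h₀ R Zz)
        (kbI hS h3 w N h₀ R Zz)
        (fun τ => nT u w N - tB u w N ε (clr (SU u ε ω) τ))
        (fun τ => nT u w N - tA u w N ε (clr (SU u ε ω) τ)) σ) ≤ th u e0 N ε := by
  intro σ hσ h0
  have e1 := et_pos N
  have e2 := et_h N
  have key := NearCx139.near_con (hS := hS) (h3 := h3) (k := w + 1) (C := C0) (c := c0)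
    (K := K0) (e0 := et0 N) (h := RigPx854.hN N) (r := rI 13 N) (Wd := u.P)
    (B := Bk (et N) (ly u N).W (oT u w N)) (m' := nT u w N)
    (F := Ft (SU u ε ω) (et N) (ly u N).W (oT u w N) (nT u w N)) X.Y X.hH X.hZ rfl (ly_spec hN)
    (mN_hN (u := u) (N := N) (by omega)) hε subset_rfl
    (C.hol.mono ((LocUx700.deep_sub (Real.sqrt_nonneg ε)).trans (P_sub_UU u)))
    (bk_gate hN w) hW.r4 hW.r7
    (rI_near (N := N) (A' := 19 / 2 * et N) (B' := 103 / 2 * et N) (by linarith)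
      (by have := hE.s5; have := Real.sqrt_nonneg ε; linarith)) hW.lo hW.up
    (g := gW Z u w hN hε) (fun σ _ h => X.hx C σ h) (fun σ _ h => X.strand C σ h) hC σ hσ h0
  refine key.trans ?_
  have h1 := th1_le u N
  have h2 : 2 * (C0 * ((16 * RigPx854.hN N / et0 N) ^ c0 + (RigPx854.hN N / Du u K0) ^ c0)) +
      2 * (C0 * (RigPx854.hN N / Du u K0) ^ c0) = 2 * th0 u N + 2 * th1 u N := rfl
  rw [h2]
  unfold th
  linarith

/-! ### the partial tiles -/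

section q

open Crest.Agent.R143.RigQx377 Crest.Agent.R143.ColSumx304 Crest.Agent.R143.Lawx831
open Crest.Agent.R143.Hqx304 Crest.Agent.R143.Engx490
open Crest.Agent.R143.Coarse2x166 (zs)
open Crest.Agent.R143.C2SDx395 (zc)
open Sptx169 (rst)

/-- **one tile of Q2** (829's `TileD`, 377's windows, order of time) -/
def TileI (w : ZMod 3) (Z : TData) (hN : u.n + 4 ≤ N) (hε : 0 < ε) (hS : GP (SU u ε ω : Set ℂ))
    (h3 : 3 ≤ (SU u ε ω).card) (h₀ : Cs hS) (R : Set (Cs hS)) (Zz : Zn (rc0 hS)) (l : ℕ) :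
    Prop :=
  DryQx829.TileD hS h3 {h₀} R (paI hS) (naI hS) (EvI hS w N h₀ R Zz)
    ((net Z u w hN hε).reg (uM hN \ I1 u w N l) (uM hN \ J1 u w N l))
    (fun s => (net Z u w hN hε).gw (uM hN) (uM hN) (paint (SU u ε ω) (bk hS h3 s)) ≠ 0)
    (rst (zs (rc0 hS) om (zc hS id))
      (Ft (SU u ε ω) (et N) (ly u N).W (oT u w N) (nT u w N) l))

/-- the balls around the regions of the tiles are in `UU u` -/
theorem dz_near (hN : u.n + 4 ≤ N) {l : ℕ} {z : ℂ} (hz : z ∈ DZ u w N l) {v : ℂ}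
    (hv : ‖v - z‖ ≤ et N) : v ∈ UU u := by
  have h0 := et_pos N
  have h1 := et_h N
  have hm : (mN u N : ℝ) * RigPx854.hN N = u.s := mN_hN (by omega)
  have hle := h_le (ly_spec hN) hm
  have h2 := WndXx829.QX_Sq3 (fp hN) hz
  have h3 : v ∈ Metric.thickening (2 * et N) (WndXx829.Sq3 (RigPx854.hN N) (ly u N).W
      (al (ly u N).A (ly u N).e w + ((nT u w N - 1 - l : ℕ) : ℤ))) := by
    refine Metric.mem_thickening_iff.2 ⟨z, h2, ?_⟩
    rw [dist_eq_norm]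
    linarith
  have h4 : Metric.infDist v u.P ≤ 5 * RigPx854.hN N := by
    have hr : 2 * et N ≤ RigPx854.hN N / 2 := by linarith
    rcases WndXx829.mem_thick3.1 h3 with h | h | h
    · exact WndIx416.Sqr_P (ly_spec hN) hm hr h
    · exact WndIx416.Sqr_P (ly_spec hN) hm hr h
    · exact WndIx416.Sqr_P (ly_spec hN) hm hr h
  obtain ⟨y, hy, he⟩ := (MeasPx609.isCompact_P u).exists_infDist_eq_dist (MeasPx609.P_nonempty u) v
  rw [he, dist_eq_norm] at h4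
  have h5 := P_norm u hy
  have h6 := norm_add_le (v - y) y
  rw [sub_add_cancel] at h6
  rw [mem_UU]
  linarith

/-- **hypothesis `hQ` of `quen_u`** -/
theorem Sx.q (X : Sx w Z hN hε hS h3 h₀ R Zz) (C : CorEnv u ε √ε K1 c2 ρ0 ω)
    (hd : 100 * √ε ≤ et N) (hm : 40 ≤ mN u N) (hε2 : ε ≤ 2 * RigPx854.hN N)
    (hA : ∫⁻ ω, (Z.tpl N hε).A (PP0x831.cfg ε ω) ∂sampleLaw ≠ 0)
    (hi : ∀ c, Inj ε (toPos ω) c)
    (T : ∀ l < nT u w N, TileI w Z hN hε hS h3 h₀ R Zz l) (d₀ : D0 (SU u ε ω)) :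
    ∑ l ∈ Finset.range (nT u w N), av (SU u ε ω).powerset (fun σ =>
      gW Z u w hN hε (clr (SU u ε ω) σ) * av (SU u ε ω).powerset fun τ =>
        ‖WdI hS h3 w N h₀ R Zz d₀ l σ τ‖ ^ 2) ≤ Qz Z u w N ε ω := by
  have h0 := et_pos N
  have h1 := et_h N
  have hm' : (mN u N : ℝ) * RigPx854.hN N = u.s := mN_hN (by omega)
  have hle := h_le (ly_spec hN) hm'
  have hs := Real.sqrt_nonneg ε
  have C' := C.mono (d' := et N) (by linarith) (by linarith)
  have eF : Ft (SU u ε ω) (et N) (ly u N).W (oT u w N) (nT u w N) =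
      Sptx832.FQ (SU u ε ω) (nT u w N) (DZ u w N) := by
    unfold Ft DZ
    rw [h1]
  have key := DryQx829.hQ_env hS h3 (d₀ := d₀) (k := w + 1) (m := nT u w N)
    (wndZ Z (w := w) hN hε hm hε2 hA) hi (coe_SU hε)
    (fun v hv h => inn_CW Z hN hε C hv h) (g := gW Z u w hN hε)
    (fun β _ => gW_nonneg Z hN hε _) (fun β _ => (gW_gw Z hN hε).le) h0
    (fun l _ => C'.hol.mono fun z hz => dz_near hN hz (v := z) (by simp [h0.le]))
    (fun l _ z hz v hv => C.inn (dz_near hN hz hv.le)) X.Y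
    (fun l hl => by
      have := T l hl
      unfold TileI at this
      rw [eF] at this
      exact this)
  rw [Qz_eq Z hN hε]
  rw [← eF] at key
  exact key

end q

end Crest.Agent.R143.QuenIx597
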