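import Crest.Agent.R143.CorrB_831
import Crest.Agent.R143.CorV_169
import Crest.Agent.R143.ColX_829

/-!
# Row 143 (S0194), RIG, composition CorrI, part C (helper831): a fixed set of sites

`S` sites, `hS : GP S`, `s : Cs hS → ZMod 2` colours of the cells of `rc0 hS`, `X` a configuration with
the sites `S` and the colours `s` (`Col`), for example `Xc hS h3 s` of 829.
* `Col.eq` : after `subst`, `s = rcol ..`
* **`hx_S`** : 166's `Hx` for `s` and the values `Vs = VX` (order of time)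
* **`hx_VT`** : the values as 169's `VT`
-/

set_option autoImplicit false
set_option linter.all false

noncomputable section

open scoped Classical

namespace Crest.Agent.R143.CorrIx831

open Set
open Crest.Agent.R143.B0x346 Crest.Agent.R143.DelGx806 Crest.Agent.R143.DelRx806
  Crest.Agent.R143.JColx54
open Crest.Agent.R143.Frame1x395 Crest.Agent.R143.Frame2x395 Crest.Agent.R143.Frame3x395
  Crest.Agent.R143.Frame4x395 Crest.Agent.R143.Frame8x395 Crest.Agent.R143.Frame9x395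
  Crest.Agent.R143.Frame10x395 Crest.Agent.R143.Frame11x395
open Crest.Agent.R143.Frame5x395 (sd mem_sd th th_spec)
open Crest.Agent.R143.Locx922
open Crest.Agent.R143.Splx117 Crest.Agent.R143.WLocx713
open Crest.Agent.R143.Blkx838 (DE)
open Crest.Agent.R143.Neckx921 (Neck NeckD Tile)
open Crest.Agent.R143.RingDx117 (RD DRing StC StR)
open Crest.Agent.R143.CorrDx117 (DCorr)
open Crest.Agent.R143.TileRx228 Crest.Agent.R143.PathDx503 Crest.Agent.R143.PathGx503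
open Crest.Agent.R143.RingPx503 Crest.Agent.R143.DCorGx713 Crest.Agent.R143.DCorFx713
open Crest.Agent.R143.CorHx713
open Crest.Agent.R143.Sptx169 Crest.Agent.R143.Sptx832 Crest.Agent.R143.Spt2x832
  Crest.Agent.R143.SpRx169
open Crest.Agent.R143.StrBx117 (Str)
open Crest.Agent.R143.NonXx592 (P Rc)
open Crest.Agent.R143.Gntx535 (wl wr)
open Crest.Agent.R143.Extx358 (Ad Ext Sep Zc)
open Crest.Agent.R143.OutSx358 (zc Sys)
open Crest.Agent.R143.StGluex867 (pick pick_eq)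
open Crest.Agent.R143.FinCx811 (Cs rc0 cs rcol cs_surj)
open Crest.Agent.R143.Uniqx323 (Zn Strd)
open Crest.Agent.R143.EvGx117 (Rd)
open Crest.Agent.R143.SysAx168 (EvA sysA evA_uniq)
open Crest.Agent.R143.SysCx166 (Hv Hx Vs)

/-- the configuration `X` has the sites `S` and the colours `s` of the cells -/
structure Col {S : Finset ℂ} (hS : GP (S : Set ℂ)) (X : Set (ℂ × Bool)) (s : Cs hS → ZMod 2) :
    Prop where
  e : sX X = S
  c : ∀ (h3 : 3 ≤ S.card) (v : ℂ) (hv : v ∈ S), s (cs hS h3 ⟨v, hv⟩) = cX X v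

theorem col_Xc {S : Finset ℂ} (hS : GP (S : Set ℂ)) (h3 : 3 ≤ S.card) (s : Cs hS → ZMod 2) :
    Col hS (ColXx829.Xc hS h3 s) s :=
  ⟨ColXx829.sX_Xc, fun _ v hv => (ColXx829.cX_Xc hv).symm⟩

theorem col_eq {X : Set (ℂ × Bool)} {hS : GP (sX X : Set ℂ)} (hh : HullC (sX X) (cX X))
    {s : Cs hS → ZMod 2} (h3 : 3 ≤ (sX X).card) (C : Col hS X s) : s = rcol hS (cX X) hh := by
  funext c
  obtain ⟨v, rfl⟩ := cs_surj hS h3 c
  rw [C.c h3 v.1 v.2]
  rfl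

section

variable {S : Finset ℂ} {hS : GP (S : Set ℂ)} {X : Set (ℂ × Bool)} {U : Set ℂ} {M : ℕ}
  {W : ℤ → ℤ × ℤ} {η d : ℝ} {o : ℤ} {n : ℕ} {s : Cs hS → ZMod 2}

/-- the strand of the corridor on the fixed set of sites -/
def SDS (hS : GP (S : Set ℂ)) (s : Cs hS → ZMod 2) (η : ℝ) (W : ℤ → ℤ × ℤ) (o : ℤ) (n : ℕ)
    (p : ℕ → D0 S) (q : D0 S) (N : ℕ) (T : ℕ → ℕ) : Prop :=
  Str (rc0 hS) (cfg (rc0 hS) s) n (RD S (Rts η W o n)) (fun k => p (n - k))
    (fun k => RD S (Bk η W o (n - 1 - k))) q N T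

/-- **the out strand on a fixed set of sites** -/
theorem hx_S (H : CorH X U M W η d o n) (h3 : 3 ≤ S.card) (C : Col hS X s) {r : ℕ} (hr : 2 ≤ r)
    (hrn : r + 2 < n) (hs : ∀ j, o + r - 2 ≤ j → j ≤ o + r + 2 → ge W (j + 1) = ge W j)
    {p : ℕ → D0 S} (hp : ∀ k : ℕ, (p k).1 = (yy η W X (o + k), xx η W X (o + k)))
    {Z : Zn (rc0 hS)} (hZ : Z.R = RcTx422.RC hS (Rts η W o n)) {Rw : Set (Cs hS)}
    {h₀ : Cs hS}
    (hE : ∀ d ∈ RD S (Bk η W o (n - 1)), ∀ c, (c = (rc0 hS).cell d ∨ c = Rc (rc0 hS) d) →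
      c ∉ Z.R → c ∈ Z.E)
    (hW : ∀ d ∈ RD S (Bk η W o 0), ∀ c, (c = (rc0 hS).cell d ∨ c = Rc (rc0 hS) d) →
      c ∉ Z.R → c ∈ Z.W)
    (hcol : ∃ k, 0 < k ∧ k < n ∧ ∃ t ∈ Z.T, K33x137.Lk (rc0 hS)
      ({c | c ∈ Z.K ∧ s c = 0} ∪ Z.T) (Rc (rc0 hS) (p k)) t)
    (hsep : ∀ q N T, SDS hS s η W o n p q N T →
      Sep (rc0 hS) {h₀} (zc (rc0 hS) Rw q (T n) s) (wl (rc0 hS) (cfg (rc0 hS) s) q (T n)))
    (hlnk : ∀ q N T, SDS hS s η W o n p q N T →
      ∃ c₀ ∈ (wr (rc0 hS) (cfg (rc0 hS) s) q (T n) : Set (Cs hS)), ∃ e₀,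
        Ext (rc0 hS) {h₀} (zc (rc0 hS) Rw q (T n) s) e₀ ∧ Ad (rc0 hS) e₀ c₀) :
    ∃ (q : D0 S) (N : ℕ) (T : ℕ → ℕ), SDS hS s η W o n p q N T ∧
      Hv (rc0 hS) (fun (i : D0 S × ℕ) _ => i.1) (fun i _ => i.2)
        (EvA (rc0 hS) {h₀} Rw (RD S (Bk η W o (r - 1))) Z) n n (Ft S η W o n)
        (tlt hS η W o n) s ((q, T n), T) ∧
      ∀ {f : ℂ × ℂ × ℂ → ℂ} {w : D0 S → ℂ}, (∀ k, k < n → ∀ e : D0 S,
          e.1.2 ∈ Bk η W o k → th S e.1 ∈ Bk η W o k →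
            w e = f (e.1.2, th S e.1, e.1.1)) →
        ∀ l, 2 ≤ l → l + 2 < n →
          Vs (rc0 hS) (fun (i : D0 S × ℕ) _ => i.1) (fun i _ => i.2)
            (EvA (rc0 hS) {h₀} Rw (RD S (Bk η W o (r - 1))) Z) w (Ft S η W o n) l s =
              VX f n (Bk η W o) (QX (100 * η) W o n) (Stk η W o) (n - 1 - l) X := by
  obtain rfl : sX X = S := C.e
  obtain rfl := col_eq H.hull h3 C
  have hpe : p = H.p := by
    funext k
    exact Subtype.ext (hp k)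
  subst hpe
  have hRd : Rd (rc0 H.gp) Z.R = RD (sX X) (Rts η W o n) := by
    rw [hZ]
    exact RcTx422.rs2_rc (inn_Rts H)
  obtain ⟨q, N, T, h1, h2, h4⟩ := hx_of H hr hrn hs hZ (Rw := Rw) (h₀ := h₀) hE hW hcol
    (fun q N T h => hsep q N T (by
      unfold EvGx168.SD at h
      rw [hRd] at h
      exact h))
    (fun q N T h => hlnk q N T (by
      unfold EvGx168.SD at h
      rw [hRd] at h
      exact h))
  refine ⟨q, N, T, ?_, h2, fun {f w} hw l h5 h6 => ?_⟩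
  · unfold EvGx168.SD at h1
    rw [hRd] at h1
    exact h1
  · rw [← h4 hw l h5 h6]
    have hu : ∀ (i j : D0 (sX X) × ℕ) (σ : Cs hS → ZMod 2),
        EvA (rc0 hS) {h₀} Rw (RD (sX X) (Bk η W o (r - 1))) Z i σ →
        EvA (rc0 hS) {h₀} Rw (RD (sX X) (Bk η W o (r - 1))) Z j σ →
        KS (rc0 hS) (cfg (rc0 hS) σ) i.1 (rst w (Ft (sX X) η W o n l)) 0 i.2 =
          KS (rc0 hS) (cfg (rc0 hS) σ) j.1 (rst w (Ft (sX X) η W o n l)) 0 j.2 := by
      intro i j σ hi hj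
      rw [evA_uniq hi hj]
    have e := pick_eq (x0 := (0 : ℂ)) hu h2.1
    exact e


end

end Crest.Agent.R143.CorrIx831
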