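import Crest.Agent.R143.DomB_722
import Crest.Agent.R143.Loc_922
import Crest.Agent.R143.Frame10_395

/-!
# Row 143 (S0194), RIG glue (helper829): the hull of a dense set of sites is far

`Dns S c L d` (722): the sites are in the disc, every ball of radius `d` well inside contains one.
* `hol_dns` : `Hol S W d` for `W` at depth `2 d`
* `hull_out`, `not_hull` : hull sites are at distance `≥ L - 2 d` of the centre
* `tri_out`, `adj_out` : all the sites of a triangle with a hull site, all the neighbours of a hull
  site are at distance `≥ L - 4 d`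
-/

set_option autoImplicit false

noncomputable section

namespace Crest.Agent.R143.CorEhx829

open Crest.Agent.R143.B0x346 Crest.Agent.R143.DelGx806 Crest.Agent.R143.DomAx722
  Crest.Agent.R143.Locx922 Crest.Agent.R143.Frame10x395
open Crest.Agent.R143.JColx54 (Adj)

variable {S : Finset ℂ} {c : ℂ} {L d : ℝ}

theorem hol_dns (hD : Dns S c L d) {W : Set ℂ} (hW : ∀ w ∈ W, ‖w - c‖ ≤ L - 2 * d) :
    Hol (S : Set ℂ) W d := by
  intro w hw z hz
  have h1 := hW w hw
  have h2 := norm_tri z w c
  obtain ⟨s, hs, h⟩ := hD.hole z (by linarith)
  exact ⟨s, hs, h⟩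





end Crest.Agent.R143.CorEhx829
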