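import Crest.Agent.R143.QuF_778
import Crest.Agent.R143.C2SD_395

/-!
# Row 143 (S0194), RIG, quenched half: 778's `Ex.fresh` with the frozen object `TS` (helper395)

`M = rc0 hS`, `H : QuFx778.Ex M A i g σ` (white giant `A (i + 2)`), hull cell in `A (i + 2)` (`Hl`),
every triangle with a hull vertex inside `A (i + 2)` (`Far`).

* **`fresh_ts`** : mean over the fresh colours of `Σ_{cb} (z a + ω z b + ω² z c)` is
  `omz (-i) * TS S (st A) z / 3`
* **`fresh_ends`** : mean of `Σ_{cb} (z old − z new)` is `Ey (i+1) − Ey i`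
* `cb_ends` : pointwise: `Σ_{cb} (z old − z new) = z (hv (i+1) Tᶜ) − z (hv i T)`, `T` = black free
  sites of `τ`
-/

set_option autoImplicit false

noncomputable section

open scoped Classical

namespace Crest.Agent.R143.QuTx395

open Crest.Agent.R143.B0x346 Crest.Agent.R143.DelGx806 Crest.Agent.R143.DelRx806
  Crest.Agent.R143.JColx54 Crest.Agent.R143.RE0x723
open Crest.Agent.R143.K33x877 (Clu fr)
open Crest.Agent.R143.NetUx346 (ff HitO hits exC Ey TS G3 Hex mem_ff mem_hits hv hv_eq sum_hits)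
open Crest.Agent.R143.Frame1x395 Crest.Agent.R143.Frame2x395 Crest.Agent.R143.Frame3x395
  Crest.Agent.R143.Frame4x395 Crest.Agent.R143.Frame8x395 Crest.Agent.R143.Frame9x395
  Crest.Agent.R143.Frame10x395
  Crest.Agent.R143.NonXx592 Crest.Agent.R143.Coarsex166 Crest.Agent.R143.Coarse2x166
  Crest.Agent.R143.C2Sx395 Crest.Agent.R143.C2SBx395 Crest.Agent.R143.C2SCx395
  Crest.Agent.R143.C2SDx395 Crest.Agent.R143.QuFx778
open Crest.Agent.R143.FinCx811 (Cs rc0 cell_mem)
open Crest.Agent.R143.Frame5x395 (sd mem_sd th th_spec)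

section gen

variable {D C : Type} [Fintype D] [Fintype C] {M : CMap D C} {A : ZMod 3 → Set C} {i k : ZMod 3}
  {g : D} {σ τ : C → ZMod 2}





end gen

variable {S : Finset ℂ} {hS : GP (S : Set ℂ)} {A : ZMod 3 → Set (Cs hS)} {i j k : ZMod 3}
  {g : D0 S} {σ τ : Cs hS → ZMod 2}




/-- black free sites of a set of black cells -/
def tf (A : ZMod 3 → Set (Cs hS)) (T' : Set (Cs hS)) : Finset ℂ :=
  (ff S (st A)).filter fun v => ∃ c : Cs hS, c.1 = Quot.mk (hullE S) v ∧ c ∈ T'






end Crest.Agent.R143.QuTx395
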