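import Crest.Agent.R143.Frame8_395

/-!
# Row 143 (S0194): blocks are simple circuits (helper395, after helper493)

A gap `k` of the even configuration `x` : the walker with the gap on his left changes his left cell
from `M.cell (M.rho k)` (old cell) to `M.cell k` (new cell).

* `old_inj`, `new_inj` : a block leaves / enters every cell at most once
* `Gen M c` : genuine cell (its darts are one orbit of the rotation around the cell, all live)
* `Nx M x k g` : `g` is the first return to the old cell of `k`
* `noncross` : **planarity** (from exactness only)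
* `nx_rel` : `Nx k g → Rel k g`
* `telescope` : `∑ g ∈ β, (Z (old g) - Z (new g)) = 0`
-/

set_option autoImplicit false

noncomputable section

open scoped Classical

namespace Crest.Agent.R143.Frame9x395

open Crest.Agent.R143.Frame1x395 Crest.Agent.R143.Frame2x395 Crest.Agent.R143.Frame3x395
  Crest.Agent.R143.Frame4x395 Crest.Agent.R143.Frame8x395

variable {D C : Type} {M : CMap D C} {x : D → ZMod 2}

theorem cell_out (h : IsC M ∅ x) {g : D} (hg : Gp M x g) : M.cell (out M g) = M.cell g := by
  unfold out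
  rw [M.cell_iota _ (h.lv (hg.two h)), M.rho3]

/-- **a block leaves every cell at most once** -/
theorem old_inj {g k : D} (H : Rel M x g k)
    (e : M.cell (M.rho g) = M.cell (M.rho k)) : g = k := by
  rcases H (M.cell (M.rho g)) with h1 | ⟨n, h1, h2⟩ | ⟨n, h1, h2⟩
  · exact h1
  · exact absurd (by rw [h1, e]) (h2 n le_rfl)
  · exact absurd (by rw [h1]) (h2 n le_rfl)

/-- **a block enters every cell at most once** -/
theorem new_inj (h : IsC M ∅ x) {g k : D} (hg : Gp M x g) (hk : Gp M x k) (H : Rel M x g k)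
    (e : M.cell g = M.cell k) : g = k := by
  rcases H (M.cell g) with h1 | ⟨n, h1, h2⟩ | ⟨n, h1, h2⟩
  · exact h1
  · exact absurd (cell_out h hg) (h2 0 (Nat.zero_le _))
  · refine absurd ?_ (h2 0 (Nat.zero_le _))
    show M.cell (out M k) = M.cell g
    rw [cell_out h hk, e]

/-- rotation around a cell -/
def phi (M : CMap D C) (d : D) : D := M.iota (M.rho (M.rho d))

/-- genuine cells -/
structure Gen (M : CMap D C) (c : C) : Prop where
  lv : ∀ a, M.cell a = c → M.rho (M.rho a) ∈ M.live
  orb : ∀ a b, M.cell a = c → M.cell b = c → ∃ n, (phi M)^[n] a = b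
  ne : ∀ a, M.cell a = c → M.cell (M.rho (M.rho a)) ≠ c

theorem Gen.cell_phi {c : C} (H : Gen M c) {a : D} (ha : M.cell a = c) :
    M.cell (phi M a) = c := by
  unfold phi
  rw [M.cell_iota _ (H.lv a ha), M.rho3, ha]

theorem Gen.cell_it {c : C} (H : Gen M c) {a : D} (ha : M.cell a = c) (n : ℕ) :
    M.cell ((phi M)^[n] a) = c := by
  induction n with
  | zero => exact ha
  | succ n ih =>
    rw [Function.iterate_succ_apply']
    exact H.cell_phi ih

/-- the edge of a dart -/
def ed (M : CMap D C) (d e : D) : ZMod 2 :=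
  (if e = d then 1 else 0) + (if e = M.iota d then 1 else 0)

theorem ed_iota (d e : D) : ed M d (M.iota e) = ed M d e := by
  unfold ed
  have e1 : M.iota e = d ↔ e = M.iota d := by
    constructor
    · rintro rfl; rw [M.iota2]
    · rintro rfl; rw [M.iota2]
  have e2 : M.iota e = M.iota d ↔ e = d := ⟨fun h => iota_inj M h, fun h => by rw [h]⟩
  rw [add_comm]
  congr 1
  · exact if_congr e2 rfl rfl
  · exact if_congr e1 rfl rfl

theorem sum_ind (d e : D) :
    (if e = d then (1 : ZMod 2) else 0) + (if M.rho e = d then 1 else 0) +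
      (if M.rho (M.rho e) = d then 1 else 0) = if d ∈ Fa M e then 1 else 0 := by
  have n1 := M.rho_ne e
  have n2 := rho2_ne M e
  have n3 : M.rho (M.rho e) ≠ M.rho e := M.rho_ne (M.rho e)
  by_cases h1 : e = d
  · subst h1
    rw [if_pos rfl, if_neg n1, if_neg n2, if_pos (fa0 M e)]; decide
  · by_cases h2 : M.rho e = d
    · subst h2
      rw [if_neg h1, if_pos rfl, if_neg n3, if_pos (fa1 M e)]; decide
    · by_cases h3 : M.rho (M.rho e) = d
      · subst h3
        rw [if_neg h1, if_neg h2, if_pos rfl, if_pos (fa2 M e)]; decide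
      · rw [if_neg h1, if_neg h2, if_neg h3, if_neg]
        · decide
        · rintro (h | h | h)
          · exact h1 h.symm
          · exact h2 h.symm
          · exact h3 h.symm

/-- piece of the boundary of a cell -/
def bp (M : CMap D C) (a : D) (n : ℕ) (e : D) : ZMod 2 :=
  ∑ i ∈ Finset.range n, ed M ((phi M)^[i + 1] a) e

theorem fa_symm' {g h : D} : h ∈ Fa M g ↔ g ∈ Fa M h := by
  constructor
  · intro h1
    by_contra h2
    exact fa_symm h2 h1
  · intro h1
    by_contra h2
    exact fa_symm h2 h1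

theorem bp_par (a : D) (n : ℕ) (e : D) :
    bp M a n e + bp M a n (M.rho e) + bp M a n (M.rho (M.rho e)) =
      (if (phi M)^[n] a ∈ Fa M e then 1 else 0) + (if a ∈ Fa M e then 1 else 0) := by
  induction n with
  | zero =>
    unfold bp
    simp only [Finset.range_zero, Finset.sum_empty, add_zero]
    exact (z_self (if a ∈ Fa M e then (1 : ZMod 2) else 0)).symm
  | succ n ih =>
    have e0 : ∀ e, bp M a (n + 1) e = bp M a n e + ed M ((phi M)^[n + 1] a) e := fun e => by
      unfold bp
      rw [Finset.sum_range_succ]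
    rw [e0, e0, e0]
    set d := (phi M)^[n + 1] a with hd
    have hd' : M.iota d = M.rho (M.rho ((phi M)^[n] a)) := by
      rw [hd, Function.iterate_succ_apply']
      unfold phi
      rw [M.iota2]
    have s1 := sum_ind (M := M) d e
    have s2 := sum_ind (M := M) (M.iota d) e
    have e1 : (if M.iota d ∈ Fa M e then (1 : ZMod 2) else 0) =
        if (phi M)^[n] a ∈ Fa M e then 1 else 0 := by
      apply if_congr _ rfl rfl
      rw [hd', fa_inv M e, fa_inv M e]
    rw [e1] at s2
    unfold ed
    linear_combination ih + s1 + s2 +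
      z_self (if (phi M)^[n] a ∈ Fa M e then (1 : ZMod 2) else 0)

theorem bp_iota (a : D) (n : ℕ) (e : D) : bp M a n (M.iota e) = bp M a n e := by
  unfold bp
  exact Finset.sum_congr rfl fun i _ => ed_iota _ _

theorem Gen.lv' {c : C} (H : Gen M c) {a : D} (ha : M.cell a = c) (n : ℕ) :
    (phi M)^[n + 1] a ∈ M.live := by
  rw [Function.iterate_succ_apply']
  exact M.iota_live _ (H.lv _ (H.cell_it ha n))

theorem Gen.bp_off {c : C} (H : Gen M c) {a : D} (ha : M.cell a = c) (n : ℕ) {e : D}
    (h1 : M.cell e ≠ c) (h2 : M.cell (M.rho e) ≠ c) : bp M a n e = 0 := by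
  unfold bp
  refine Finset.sum_eq_zero fun i _ => ?_
  unfold ed
  have hc := H.cell_it ha (i + 1)
  have hl := H.lv' ha i
  rw [if_neg, if_neg]
  · decide
  · intro he
    apply h2
    rw [he, cell_rho_iota M hl, hc]
  · intro he
    apply h1
    rw [he, hc]

theorem Gen.bp_dead {c : C} (H : Gen M c) {a : D} (ha : M.cell a = c) (n : ℕ) {e : D}
    (h1 : e ∉ M.live) : bp M a n e = 0 := by
  unfold bp
  refine Finset.sum_eq_zero fun i _ => ?_
  unfold ed
  have hl := H.lv' ha i
  rw [if_neg, if_neg]
  · decide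
  · intro he
    exact h1 (he ▸ M.iota_live _ hl)
  · intro he
    exact h1 (he ▸ hl)

/-- `g` is the first return to the old cell of `k` -/
def Nx (M : CMap D C) (x : D → ZMod 2) (k g : D) : Prop :=
  M.cell g = M.cell (M.rho k) ∧ Av M x (M.cell (M.rho k)) (out M k) (M.rho g)


theorem nx_inj (h : IsC M ∅ x) {k k' g : D} (hk : Gp M x k) (hk' : Gp M x k')
    (H : Nx M x k g) (H' : Nx M x k' g) : k = k' := by
  have e : M.cell (M.rho k) = M.cell (M.rho k') := H.1.symm.trans H'.1
  have H2 := H'.2
  rw [← e] at H2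
  rcases av_join h hk hk' H.2 H2 with h1 | ⟨n, h1, h2⟩ | ⟨n, h1, h2⟩
  · exact h1
  · exact absurd (by rw [h1, e]) (h2 n le_rfl)
  · exact absurd (by rw [h1]) (h2 n le_rfl)

/-- the first return exists -/
theorem nx_exists [Finite D] (h : IsC M ∅ x) {k : D} (hk : Gp M x k)
    (hne : M.cell k ≠ M.cell (M.rho k)) : ∃ g, Gp M x g ∧ Nx M x k g := by
  set c := M.cell (M.rho k) with hc
  obtain ⟨N, hN, eN⟩ := periodic h hk.2
  have ex : ∃ n, M.cell ((stp M x)^[n] (out M k)) = c := by
    refine ⟨N - 1, ?_⟩
    have : (stp M x)^[N - 1] (out M k) = M.rho k := by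
      rw [← hk.stp h, ← Function.iterate_succ_apply, show (N - 1).succ = N by omega, eN]
    rw [this]
  set n := Nat.find ex with hn
  have e1 : M.cell ((stp M x)^[n] (out M k)) = c := Nat.find_spec ex
  have e2 : ∀ j < n, M.cell ((stp M x)^[j] (out M k)) ≠ c := fun j hj => Nat.find_min ex hj
  have n0 : n ≠ 0 := by
    intro h0
    rw [h0] at e1
    change M.cell (out M k) = c at e1
    rw [cell_out h hk] at e1
    exact hne e1
  obtain ⟨m, hm⟩ := Nat.exists_eq_succ_of_ne_zero n0
  rw [hm, Nat.succ_eq_add_one] at e1 e2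
  set p := (stp M x)^[m] (out M k) with hp
  rw [Function.iterate_succ_apply', ← hp] at e1
  have xp : x p = 1 := occ_it h (hk.out h) m
  have hpc : M.cell p ≠ c := e2 m (by omega)
  rcases stp_cases h xp (Set.notMem_empty _) with ⟨a1, a2, a3⟩ | ⟨a1, a2, a3⟩
  · refine ⟨M.rho (M.rho p), ⟨a2, by rw [M.rho3]; exact xp⟩, ?_, ⟨m, ?_, ?_⟩⟩
    · rw [a3, M.cell_iota _ (h.lv a1)] at e1
      exact e1
    · rw [M.rho3]
    · intro j hj
      exact e2 j (by omega)
  · exfalso
    rw [a3, M.cell_iota _ (h.lv a2), M.rho3] at e1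
    exact hpc e1

/-- **planarity**: the arc from the gap `k` (leaving the genuine cell `c`) to its first return `g`
and the rest of the loop have no left cell in common, except `c` -/
theorem noncross (h : IsC M ∅ x) {k g : D} (hk : Gp M x k) (hg : Gp M x g) (hne : k ≠ g)
    {c : C} (hc : M.cell (M.rho k) = c) (hc' : M.cell g = c) (G : Gen M c)
    (ha : M.rho g ∈ Tr M x (BB M k g) (out M k))
    (hav : ∀ p, p ∈ Tr M x (BB M k g) (out M k) → M.cell p ≠ c)
    {p : D} (hp : p ∈ Tr M x (BB M k g) (out M k)) {n : ℕ} {q : D}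
    (hq : (stp M x)^[n] (out M k) = q) (hqc : M.cell q ≠ c)
    (hqn : q ∉ Tr M x (BB M k g) (out M k)) : M.cell p ≠ M.cell q := by
  have hgk : g ∉ Fa M k := gp_fa h hk hg hne
  have hinv := bb_inv M k g
  have hob : (∅ : Set D) ⊆ BB M k g := Set.empty_subset _
  have hxk : x (out M k) = 1 := hk.out h
  have hio : M.iota (out M k) = M.rho (M.rho k) := M.iota2 _
  have hip : M.iota (out M k) ∈ BB M k g := by rw [hio]; exact memg2 M k g
  set B := BB M k g with hB
  -- colours
  obtain ⟨ψ, hψ⟩ := M.ex x h.dead h.iot (fun d => by rw [h.par d, if_neg (Set.notMem_empty d)])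
  have hψ0 : ∀ d, x d = 0 → ψ (M.cell d) = ψ (M.cell (M.rho d)) := by
    intro d hd
    rw [hψ d] at hd
    revert hd
    generalize ψ (M.cell d) = a
    generalize ψ (M.cell (M.rho d)) = b
    revert a b; decide
  have lc : ∀ n, ψ (M.cell ((stp M x)^[n] (out M k))) = ψ c := by
    intro n
    rw [it_col h hxk hψ0 n, cell_out h hk, ← hc]
    exact hψ0 _ hk.1
  have rc : ∀ n, ψ (M.cell (M.rho ((stp M x)^[n] (out M k)))) ≠ ψ c := by
    intro n e
    have h1 := occ_it h hxk n
    rw [hψ, lc n, e, z_self] at h1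
    exact absurd h1 (by decide)
  have rne : ∀ n, M.cell (M.rho ((stp M x)^[n] (out M k))) ≠ c := fun n e => rc n (by rw [e])
  -- the piece of the boundary of `c`
  obtain ⟨m, hm⟩ := G.orb (M.rho k) g hc hc'
  set z : D → ZMod 2 := fun d => arc M x B (out M k) d + bp M (M.rho k) m d with hz
  have arck : arc M x B (out M k) k = 0 := arc_le h hob hxk hk.1
  have arcg : arc M x B (out M k) g = 0 := arc_le h hob hxk hg.1
  have s1 : ∀ d, d ∈ B → arc M x B (out M k) d = if d = M.rho g ∨ d = M.rho (M.rho k) then 1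
      else 0 := by
    intro d hd
    have := arc_stop h hob hinv hxk ha (memh1 M k g) hd
    rwa [hio] at this
  have n3 : M.rho (M.rho k) ≠ M.rho k := M.rho_ne (M.rho k)
  have m3 : M.rho (M.rho g) ≠ M.rho g := M.rho_ne (M.rho g)
  have k1g1 := ne_of_fa hgk (fa1 M k) (fa1 M g)
  have k2g1 := ne_of_fa hgk (fa2 M k) (fa1 M g)
  have k2g2 := ne_of_fa hgk (fa2 M k) (fa2 M g)
  have arck1 : arc M x B (out M k) (M.rho k) = 0 := by
    rw [s1 _ (memg1 M k g), if_neg]; tauto
  have arck2 : arc M x B (out M k) (M.rho (M.rho k)) = 1 := by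
    rw [s1 _ (memg2 M k g), if_pos]; tauto
  have arcg1 : arc M x B (out M k) (M.rho g) = 1 := by
    rw [s1 _ (memh1 M k g), if_pos]; tauto
  have arcg2 : arc M x B (out M k) (M.rho (M.rho g)) = 0 := by
    rw [s1 _ (memh2 M k g), if_neg]; tauto
  obtain ⟨χ, hχ⟩ := M.ex z
    (fun d hd => by
      show arc M x B (out M k) d + bp M (M.rho k) m d = 0
      rw [arc_le h hob hxk (h.dead d hd), G.bp_dead hc m hd]; decide)
    (fun d => by
      show arc M x B (out M k) (M.iota d) + bp M (M.rho k) m (M.iota d) = _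
      rw [arc_iot, bp_iota])
    (fun d => by
      have h1 := bp_par (M := M) (M.rho k) m d
      rw [hm] at h1
      have h2 : (if M.rho k ∈ Fa M d then (1 : ZMod 2) else 0) = if k ∈ Fa M d then 1 else 0 :=
        if_congr (fa_inv M d k) rfl rfl
      rw [h2] at h1
      have h3 : arc M x B (out M k) d + arc M x B (out M k) (M.rho d) +
          arc M x B (out M k) (M.rho (M.rho d)) =
          (if g ∈ Fa M d then 1 else 0) + (if k ∈ Fa M d then 1 else 0) := by
        by_cases hd : d ∈ B
        · rcases hd with hd | hd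
          · have c1 : k ∈ Fa M d := fa_symm'.1 hd
            have c2 : g ∉ Fa M d := fun hc => ne_of_fa hgk hd (fa_symm'.1 hc) rfl
            rw [if_pos c1, if_neg c2]
            rcases hd with rfl | rfl | rfl
            · rw [arck, arck1, arck2]; decide
            · rw [sum_rot, arck, arck1, arck2]; decide
            · rw [sum_rot, sum_rot, arck, arck1, arck2]; decide
          · have c1 : g ∈ Fa M d := fa_symm'.1 hd
            have c2 : k ∉ Fa M d := fun hc => ne_of_fa hgk (fa_symm'.1 hc) hd rfl
            rw [if_pos c1, if_neg c2]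
            rcases hd with rfl | rfl | rfl
            · rw [arcg, arcg1, arcg2]; decide
            · rw [sum_rot, arcg, arcg1, arcg2]; decide
            · rw [sum_rot, sum_rot, arcg, arcg1, arcg2]; decide
        · rw [arc_off h hob hinv hxk hip hd]
          have c1 : k ∉ Fa M d := fun hc => hd (Or.inl (fa_symm'.1 hc))
          have c2 : g ∉ Fa M d := fun hc => hd (Or.inr (fa_symm'.1 hc))
          rw [if_neg c1, if_neg c2]; decide
      show arc M x B (out M k) d + bp M (M.rho k) m d +
        (arc M x B (out M k) (M.rho d) + bp M (M.rho k) m (M.rho d)) +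
        (arc M x B (out M k) (M.rho (M.rho d)) + bp M (M.rho k) m (M.rho (M.rho d))) = 0
      linear_combination h1 + h3 + z_self (if g ∈ Fa M d then (1 : ZMod 2) else 0) +
        z_self (if k ∈ Fa M d then (1 : ZMod 2) else 0))
  -- the right cells
  have hright : ∀ n, χ (M.cell (M.rho ((stp M x)^[n] (out M k)))) =
      χ (M.cell (M.rho (out M k))) := by
    intro n
    induction n with
    | zero => rfl
    | succ n ih =>
      rw [← ih]
      have r1 := rne n
      have r2 := rne (n + 1)
      rw [Function.iterate_succ_apply'] at r2 ⊢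
      set p := (stp M x)^[n] (out M k) with hp
      have xp : x p = 1 := occ_it h hxk n
      rcases stp_cases h xp (Set.notMem_empty _) with ⟨a1, a2, a3⟩ | ⟨a1, a2, a3⟩
      · rw [a3, cell_rho_iota M (h.lv a1)]
      · rw [a3, cell_rho_iota M (h.lv a2)] at r2 ⊢
        have h1 := hχ (M.rho p)
        have h2 : z (M.rho p) = 0 := by
          show arc M x B (out M k) (M.rho p) + bp M (M.rho k) m (M.rho p) = 0
          rw [arc_le h hob hxk a1, G.bp_off hc m r1 r2]; decide
        rw [h2] at h1
        revert h1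
        generalize χ (M.cell (M.rho p)) = a
        generalize χ (M.cell (M.rho (M.rho p))) = b
        revert a b; decide
  have hleft : ∀ n, M.cell ((stp M x)^[n] (out M k)) ≠ c →
      χ (M.cell ((stp M x)^[n] (out M k))) = χ (M.cell (M.rho (out M k))) +
        arc M x B (out M k) ((stp M x)^[n] (out M k)) := by
    intro n hn
    have h1 := hχ ((stp M x)^[n] (out M k))
    have h2 : z ((stp M x)^[n] (out M k)) = arc M x B (out M k) ((stp M x)^[n] (out M k)) := by
      show arc M x B (out M k) _ + bp M (M.rho k) m _ = _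
      rw [G.bp_off hc m hn (rne n), add_zero]
    rw [h2, hright n] at h1
    rw [h1]
    generalize χ (M.cell ((stp M x)^[n] (out M k))) = a
    generalize χ (M.cell (M.rho (out M k))) = b
    revert a b; decide
  obtain ⟨j, hj, -⟩ := id hp
  have hpc := hav p hp
  have e1 := hleft j (by rw [hj]; exact hpc)
  have e2 := hleft n (by rw [hq]; exact hqc)
  rw [hj] at e1
  rw [hq] at e2
  have ap : arc M x B (out M k) p = 1 := if_pos (Or.inl hp)
  have aq : arc M x B (out M k) q = 0 := by
    unfold arc
    rw [if_neg]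
    rintro (hc1 | hc1)
    · exact hqn hc1
    · obtain ⟨i, hi, -⟩ := hc1
      have h1 := lc i
      rw [hi] at h1
      have hql : q ∈ M.live := by
        rw [← hq]; exact h.lv (occ_it h hxk n)
      rw [M.cell_iota _ hql] at h1
      have h2 := rc n
      rw [hq] at h2
      exact h2 h1
  rw [ap] at e1
  rw [aq, add_zero] at e2
  intro e
  rw [e, e2] at e1
  revert e1
  generalize χ (M.cell (M.rho (out M k))) = b
  revert b; decide

/-- **the first return is in the same block** -/
theorem nx_rel [Finite D] (h : IsC M ∅ x) {k g : D} (hk : Gp M x k) (hg : Gp M x g)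
    (hne : k ≠ g) (G : Gen M (M.cell (M.rho k))) (H : Nx M x k g) : Rel M x k g := by
  intro e
  set c := M.cell (M.rho k) with hc
  obtain ⟨m, hm, hav⟩ := H.2
  by_cases hec : e = c
  · rw [hec]; exact Or.inr (Or.inl H.2)
  by_cases h1 : ∀ j ≤ m, M.cell ((stp M x)^[j] (out M k)) ≠ e
  · exact Or.inr (Or.inl ⟨m, hm, h1⟩)
  push Not at h1
  obtain ⟨i, hi, hie⟩ := h1
  right; right
  -- colours
  obtain ⟨ψ, hψ⟩ := M.ex x h.dead h.iot (fun d => by rw [h.par d, if_neg (Set.notMem_empty d)])
  have hψ0 : ∀ d, x d = 0 → ψ (M.cell d) = ψ (M.cell (M.rho d)) := by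
    intro d hd
    rw [hψ d] at hd
    revert hd
    generalize ψ (M.cell d) = a
    generalize ψ (M.cell (M.rho d)) = b
    revert a b; decide
  have hψ1 : ∀ d, x d = 1 → ψ (M.cell d) ≠ ψ (M.cell (M.rho d)) := by
    intro d hd
    rw [hψ d] at hd
    revert hd
    generalize ψ (M.cell d) = a
    generalize ψ (M.cell (M.rho d)) = b
    revert a b; decide
  have hxk : x (out M k) = 1 := hk.out h
  have lc : ∀ n, ψ (M.cell ((stp M x)^[n] (out M k))) = ψ c := by
    intro n
    rw [it_col h hxk hψ0 n, cell_out h hk]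
    exact hψ0 _ hk.1
  -- the arc
  have nb : ∀ j < m, (stp M x)^[j] (out M k) ∉ BB M k g := by
    intro j hj hB
    have xo := occ_it h hxk j
    rcases hB with (hB | hB | hB) | (hB | hB | hB)
    · rw [hB, hk.1] at xo; exact absurd xo (by decide)
    · exact hav j hj.le (by rw [hB])
    · have h2 := lc j
      rw [hB] at h2
      exact hψ1 _ hk.2 h2.symm
    · rw [hB, hg.1] at xo; exact absurd xo (by decide)
    · refine hav (j + 1) (by omega) ?_
      rw [Function.iterate_succ_apply', hB, hg.stp h, cell_out h hg, H.1]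
    · have h2 := lc j
      rw [hB] at h2
      have h3 := lc m
      rw [hm] at h3
      exact hψ1 _ hg.2 (h3.trans h2.symm)
  have hTr : M.rho g ∈ Tr M x (BB M k g) (out M k) := ⟨m, hm, nb⟩
  have hTr2 : ∀ p, p ∈ Tr M x (BB M k g) (out M k) ↔ ∃ j ≤ m, (stp M x)^[j] (out M k) = p := by
    intro p
    constructor
    · rintro ⟨j, hj, hj'⟩
      refine ⟨j, ?_, hj⟩
      by_contra hc
      push Not at hc
      apply hj' m hc
      show (stp M x)^[m] (out M k) ∈ BB M k g
      rw [hm]; exact memh1 M k g
    · rintro ⟨j, hj, rfl⟩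
      exact ⟨j, rfl, fun i hi => nb i (by omega)⟩
  have hav' : ∀ p, p ∈ Tr M x (BB M k g) (out M k) → M.cell p ≠ c := by
    intro p hp
    obtain ⟨j, hj, rfl⟩ := (hTr2 p).1 hp
    exact hav j hj
  -- the way back
  have E2 := come_back h hk hg hm
  set n := Nat.find E2 with hn
  have en : (stp M x)^[n] (out M g) = M.rho k := Nat.find_spec E2
  have mn : ∀ j, (stp M x)^[j] (out M g) = M.rho k → n ≤ j := fun j hj => Nat.find_min' E2 hj
  refine ⟨n, en, fun j hj hje => ?_⟩
  have eg : (stp M x)^[m + 1] (out M k) = out M g := by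
    rw [Function.iterate_succ_apply', hm, hg.stp h]
  set q := (stp M x)^[j] (out M g) with hq
  have hq' : (stp M x)^[j + (m + 1)] (out M k) = q := by
    rw [Function.iterate_add_apply, eg]
  refine noncross h hk hg hne hc.symm H.1 G hTr hav' (p := (stp M x)^[i] (out M k))
    ((hTr2 _).2 ⟨i, hi, rfl⟩) hq' (by rw [hje]; exact hec) ?_ (hie.trans hje.symm)
  intro hqT
  obtain ⟨i', hi', hi'q⟩ := (hTr2 q).1 hqT
  rcases le_or_gt (n - j) (m - i') with hl | hl
  · refine hav (i' + (n - j)) (by omega) ?_
    have e3 : (stp M x)^[i' + (n - j)] (out M k) = M.rho k := by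
      rw [add_comm, Function.iterate_add_apply, hi'q, hq, ← Function.iterate_add_apply,
        show n - j + j = n by omega, en]
    rw [e3]
  · have e3 : (stp M x)^[m - i'] q = M.rho g := by
      rw [← hi'q, ← Function.iterate_add_apply, show m - i' + i' = m by omega, hm]
    have e4 : (stp M x)^[m - i' + 1 + j] (out M g) = out M g := by
      rw [Function.iterate_add_apply, ← hq, Function.iterate_succ_apply', e3, hg.stp h]
    have e5 : (stp M x)^[n - (m - i' + 1 + j)] (out M g) = M.rho k := by
      rw [← en]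
      conv_rhs => rw [show n = n - (m - i' + 1 + j) + (m - i' + 1 + j) by omega]
      rw [Function.iterate_add_apply, e4]
    have := mn _ e5
    omega

/-- **telescoping along a block** -/
theorem telescope [Fintype D] (h : IsC M ∅ x) {g0 : D} (hg0 : Gp M x g0)
    (G : ∀ k ∈ blk M x g0, Gen M (M.cell (M.rho k)))
    {A : Type} [AddCommGroup A] (Z : C → A) :
    ∑ k ∈ blk M x g0, Z (M.cell (M.rho k)) = ∑ k ∈ blk M x g0, Z (M.cell k) := by
  have ne : ∀ k ∈ blk M x g0, M.cell k ≠ M.cell (M.rho k) := by
    intro k hk e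
    have := (G k hk).ne (M.rho k) rfl
    rw [M.rho3] at this
    exact this e
  have ex : ∀ k, ∃ g, k ∈ blk M x g0 → Gp M x g ∧ Nx M x k g := by
    intro k
    by_cases hk : k ∈ blk M x g0
    · obtain ⟨g, hg⟩ := nx_exists h (mem_blk.1 hk).1 (ne k hk)
      exact ⟨g, fun _ => hg⟩
    · exact ⟨k, fun h => absurd h hk⟩
  choose π hπ using ex
  have hmap : ∀ k ∈ blk M x g0, π k ∈ blk M x g0 := by
    intro k hk
    obtain ⟨h1, h2⟩ := hπ k hk
    obtain ⟨h3, h4⟩ := mem_blk.1 hk
    refine mem_blk.2 ⟨h1, ?_⟩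
    by_cases hkg : k = π k
    · rw [← hkg]; exact h4
    · exact rel_trans h hg0 h3 h1 h4 (nx_rel h h3 h1 hkg (G k hk) h2)
  have hinj : ∀ k ∈ blk M x g0, ∀ k' ∈ blk M x g0, π k = π k' → k = k' := by
    intro k hk k' hk' e
    have h1 := (hπ k hk).2
    have h2 := (hπ k' hk').2
    rw [← e] at h2
    exact nx_inj h (mem_blk.1 hk).1 (mem_blk.1 hk').1 h1 h2
  have himg : (blk M x g0).image π = blk M x g0 := by
    apply Finset.eq_of_subset_of_card_le
    · intro g hg
      obtain ⟨k, hk, rfl⟩ := Finset.mem_image.1 hg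
      exact hmap k hk
    · rw [Finset.card_image_of_injOn fun k hk k' hk' e => hinj k hk k' hk' e]
  calc ∑ k ∈ blk M x g0, Z (M.cell (M.rho k))
      = ∑ k ∈ blk M x g0, Z (M.cell (π k)) := by
        refine Finset.sum_congr rfl fun k hk => ?_
        rw [(hπ k hk).2.1]
    _ = ∑ k ∈ (blk M x g0).image π, Z (M.cell k) := by
        rw [Finset.sum_image fun k hk k' hk' e => hinj k hk k' hk' e]
    _ = _ := by rw [himg]

end Crest.Agent.R143.Frame9x395
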