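import Crest.Agent.R143.MassC_304
import Crest.Agent.R143.FinM_609
import Crest.Agent.R143.Mass5_302
import Crest.Agent.R143.DefsN_346
import Crest.Agent.R143.Frame8_395
import Crest.Agent.R143.FinC_811
import Crest.Agent.R143.Resa_778
import Crest.Agent.R143.Dbl2_609
import Crest.Agent.R143.Coarse2_166

-- ▼ part R143/MassM_304
section

/-!
# Row 143 (S0194): measurability of the energy of the macroscopic blocks (helper304)

* `fme_obj` : criterion for sums over the objects (loop, block) of `Mass1_302`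
* `meas_PsC`, `meas_Ps` : `ω ↦ PsC κ U (cfg ε ω)` and `ω ↦ fam.Ps κ U (cfg ε ω)` are measurable
  (`U` bounded, `{t | circumdisc t ⊆ U}` Borel: open, closed, half open rectangles)
* `prob_Ps`, `prob_PsC` : convergence in probability
-/

set_option autoImplicit false

noncomputable section

open scoped Classical

namespace Crest.Agent.R143.MassMx304

open MeasureTheory Set Filter Topology
open Crest.ProbabilityR.Voronoi
open Crest.Agent.R143.B0x346 Crest.Agent.R143.SumScx302 Crest.Agent.R143.PP0x831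
  Crest.Agent.R143.ColSumx304 Crest.Agent.R143.MassCx304 Crest.Agent.R143.Poisx304
  Crest.Agent.R143.Janx304 Crest.Agent.R143.Prodx609 Crest.Agent.R143.FinMx609
open Crest.Agent.R143.Mass1x302 hiding ps
open scoped ENNReal

/-! ### finite sets of index triples -/

abbrev I3 (n : ℕ) : Type := Fin n × Fin n × Fin n

variable {n : ℕ}

def tr3 (v : Fin n → ℂ) (q : I3 n) : T3 := (v q.1, v q.2.1, v q.2.2)

def imv (v : Fin n → ℂ) (L : Finset (I3 n)) : Finset T3 := L.image (tr3 v)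

def fs (z : Fin n → ℂ × Bool) (i : Fin n) : ℂ := (z i).1

def Rp (z : Fin n → ℂ × Bool) (L : Finset (I3 n)) : Prop :=
  ∀ q ∈ L, rep z q.1 ∧ rep z q.2.1 ∧ rep z q.2.2

/-- all sites of the triples of `l` are in `P` -/
def InP (P : Set ℂ) (l : Finset T3) : Prop := ∀ t ∈ l, t.1 ∈ P ∧ t.2.1 ∈ P ∧ t.2.2 ∈ P

theorem tr3_inj {z : Fin n → ℂ × Bool} {q q' : I3 n}
    (h : rep z q.1 ∧ rep z q.2.1 ∧ rep z q.2.2) (h' : rep z q'.1 ∧ rep z q'.2.1 ∧ rep z q'.2.2)
    (e : tr3 (fs z) q = tr3 (fs z) q') : q = q' := by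
  simp only [tr3, fs, Prod.mk.injEq] at e
  exact Prod.ext (rep_inj h.1 h'.1 e.1)
    (Prod.ext (rep_inj h.2.1 h'.2.1 e.2.1) (rep_inj h.2.2 h'.2.2 e.2.2))

theorem imv_inj {z : Fin n → ℂ × Bool} {L L' : Finset (I3 n)} (h : Rp z L) (h' : Rp z L')
    (e : imv (fs z) L = imv (fs z) L') : L = L' := by
  have key : ∀ {L L' : Finset (I3 n)}, Rp z L → Rp z L' → imv (fs z) L = imv (fs z) L' →
      L ⊆ L' := by
    intro L L' h h' e q hq
    have h1 : tr3 (fs z) q ∈ imv (fs z) L' := by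
      rw [← e]; exact Finset.mem_image_of_mem _ hq
    obtain ⟨q', hq', e'⟩ := Finset.mem_image.1 h1
    rwa [tr3_inj (h q hq) (h' q' hq') e'.symm]
  exact (key h h' e).antisymm (key h' h e.symm)

theorem exists_Rp (z : Fin n → ℂ × Bool) {l : Finset T3} (hl : InP (ps (range z)) l) :
    ∃ L, Rp z L ∧ imv (fs z) L = l := by
  refine ⟨Finset.univ.filter fun q => (rep z q.1 ∧ rep z q.2.1 ∧ rep z q.2.2) ∧
    tr3 (fs z) q ∈ l, fun q hq => (Finset.mem_filter.1 hq).2.1, ?_⟩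
  ext t
  constructor
  · intro ht
    obtain ⟨q, hq, rfl⟩ := Finset.mem_image.1 ht
    exact (Finset.mem_filter.1 hq).2.2
  · intro ht
    obtain ⟨h1, h2, h3⟩ := hl t ht
    obtain ⟨i, hi⟩ := mem_ps_range.1 h1
    obtain ⟨j, hj⟩ := mem_ps_range.1 h2
    obtain ⟨k, hk⟩ := mem_ps_range.1 h3
    obtain ⟨i', hi1, hi2⟩ := exists_rep z i
    obtain ⟨j', hj1, hj2⟩ := exists_rep z j
    obtain ⟨k', hk1, hk2⟩ := exists_rep z k
    have et : tr3 (fs z) (i', j', k') = t := by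
      unfold tr3 fs
      simp only
      rw [hi2, hj2, hk2, hi, hj, hk]
    exact Finset.mem_image.2 ⟨(i', j', k'), Finset.mem_filter.2 ⟨Finset.mem_univ _,
      ⟨hi1, hj1, hk1⟩, by rw [et]; exact ht⟩, et⟩

theorem Rp_meas (L : Finset (I3 n)) : MeasurableSet {z : Fin n → ℂ × Bool | Rp z L} := by
  have e : {z : Fin n → ℂ × Bool | Rp z L} =
      ⋂ q ∈ L, ({z | rep z q.1} ∩ ({z | rep z q.2.1} ∩ {z | rep z q.2.2})) := by
    ext z
    simp [Rp]
  rw [e]
  exact Finset.measurableSet_biInter _ fun q _ =>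
    (rep_meas n q.1).inter ((rep_meas n q.2.1).inter (rep_meas n q.2.2))

theorem obj_sum (z : Fin n → ℂ × Bool) {f : Obj → ℝ≥0∞}
    (hf : ∀ o, f o ≠ 0 → InP (ps (range z)) o.1 ∧ InP (ps (range z)) o.2) :
    ∑' o, f o = ∑ p : Finset (I3 n) × Finset (I3 n),
      if Rp z p.1 ∧ Rp z p.2 then f (imv (fs z) p.1, imv (fs z) p.2) else 0 := by
  rw [← Finset.sum_filter]
  set A : Finset (Finset (I3 n) × Finset (I3 n)) :=
    Finset.univ.filter fun p => Rp z p.1 ∧ Rp z p.2 with hA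
  let g : Finset (I3 n) × Finset (I3 n) → Obj := fun p => (imv (fs z) p.1, imv (fs z) p.2)
  have hinj : Set.InjOn g A := by
    rintro ⟨L, B⟩ h ⟨L', B'⟩ h' e
    have h1 := (Finset.mem_filter.1 (Finset.mem_coe.1 h)).2
    have h2 := (Finset.mem_filter.1 (Finset.mem_coe.1 h')).2
    simp only [g, Prod.mk.injEq] at e
    exact Prod.ext (imv_inj h1.1 h2.1 e.1) (imv_inj h1.2 h2.2 e.2)
  have h0 : ∀ o ∉ A.image g, f o = 0 := by
    intro o ho
    by_contra hne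
    obtain ⟨h1, h2⟩ := hf o hne
    obtain ⟨L, hL, eL⟩ := exists_Rp z h1
    obtain ⟨B, hB, eB⟩ := exists_Rp z h2
    exact ho (Finset.mem_image.2 ⟨(L, B), Finset.mem_filter.2 ⟨Finset.mem_univ _, hL, hB⟩,
      Prod.ext eL eB⟩)
  rw [tsum_eq_sum h0, Finset.sum_image hinj]

/-- **criterion** -/
theorem fme_obj {G : Set (ℂ × Bool) → Obj → Prop} {W : Obj → ℝ≥0∞}
    (hs : ∀ X o, G X o → InP (ps X) o.1 ∧ InP (ps X) o.2)
    (hG : ∀ (n : ℕ) (L B : Finset (I3 n)),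
      MeasurableSet {z : Fin n → ℂ × Bool | G (range z) (imv (fs z) L, imv (fs z) B)})
    (hW : ∀ (n : ℕ) (L B : Finset (I3 n)), Measurable fun z : Fin n → ℂ × Bool =>
      if Rp z L ∧ Rp z B then W (imv (fs z) L, imv (fs z) B) else 0) :
    FMe fun X => ∑' o, if G X o then W o else 0 := by
  intro n
  have e : (fun z : Fin n → ℂ × Bool => ∑' o, if G (range z) o then W o else 0) =
      fun z => ∑ p : Finset (I3 n) × Finset (I3 n),
        if G (range z) (imv (fs z) p.1, imv (fs z) p.2) then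
          (if Rp z p.1 ∧ Rp z p.2 then W (imv (fs z) p.1, imv (fs z) p.2) else 0) else 0 := by
    funext z
    rw [obj_sum z (f := fun o => if G (range z) o then W o else 0) fun o ho => by
      by_cases h : G (range z) o
      · exact hs _ _ h
      · exact absurd (if_neg h) ho]
    refine Finset.sum_congr rfl fun p _ => ?_
    by_cases h1 : Rp z p.1 ∧ Rp z p.2
    · rw [if_pos h1]
      by_cases h2 : G (range z) (imv (fs z) p.1, imv (fs z) p.2)
      · rw [if_pos h2, if_pos h2, if_pos h1]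
      · rw [if_neg h2, if_neg h2]
    · rw [if_neg h1]
      by_cases h2 : G (range z) (imv (fs z) p.1, imv (fs z) p.2)
      · rw [if_pos h2, if_neg h1]
      · rw [if_neg h2]
  rw [e]
  exact Finset.measurable_fun_sum _ fun p _ =>
    Measurable.ite (hG n p.1 p.2) (hW n p.1 p.2) measurable_const

/-! ### the weights -/

theorem NN_imv {z : Fin n → ℂ × Bool} {B : Finset (I3 n)} (h : Rp z B) :
    NN (imv (fs z) B) = ∑ q ∈ B, Nn (tr3 (fs z) q) := by
  unfold NN imv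
  rw [Finset.sum_image]
  intro q hq q' hq' e
  exact tr3_inj (h q hq) (h q' hq') e

theorem meas_tr3 (q : I3 n) : Measurable fun z : Fin n → ℂ × Bool => tr3 (fs z) q :=
  meas_tri n q.1 q.2.1 q.2.2

theorem meas_Nn : Measurable Nn := by
  have hc : Measurable (starRingEnd ℂ) := Complex.continuous_conj.measurable
  have h1 : Measurable fun t : T3 => (starRingEnd ℂ) t.2.1 := hc.comp (by fun_prop)
  have h2 : Measurable fun t : T3 => (starRingEnd ℂ) t.1 := hc.comp (by fun_prop)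
  have h3 : Measurable fun t : T3 => (starRingEnd ℂ) t.2.2 := hc.comp (by fun_prop)
  exact (h1.add (h2.const_mul om)).add (h3.const_mul (om ^ 2))

theorem hW_PsC (n : ℕ) (L B : Finset (I3 n)) : Measurable fun z : Fin n → ℂ × Bool =>
    if Rp z L ∧ Rp z B then ENNReal.ofReal (‖NN (imv (fs z) B)‖ ^ 2) else 0 := by
  have e : (fun z : Fin n → ℂ × Bool =>
      if Rp z L ∧ Rp z B then ENNReal.ofReal (‖NN (imv (fs z) B)‖ ^ 2) else 0) =
      fun z => if Rp z L ∧ Rp z B then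
        ENNReal.ofReal (‖∑ q ∈ B, Nn (tr3 (fs z) q)‖ ^ 2) else 0 := by
    funext z
    by_cases h : Rp z L ∧ Rp z B
    · rw [if_pos h, if_pos h, NN_imv h.2]
    · rw [if_neg h, if_neg h]
  rw [e]
  refine Measurable.ite ((Rp_meas L).inter (Rp_meas B)) ?_ measurable_const
  exact ENNReal.measurable_ofReal.comp
    ((Finset.measurable_fun_sum B fun q _ => meas_Nn.comp (meas_tr3 q)).norm.pow_const 2)

theorem card_imv {z : Fin n → ℂ × Bool} {L : Finset (I3 n)} (h : Rp z L) :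
    (lf (imv (fs z) L) ∪ rt (imv (fs z) L)).card =
      (L.image (fun q => q.1) ∪ L.image fun q => q.2.1).card := by
  have e : lf (imv (fs z) L) ∪ rt (imv (fs z) L) =
      (L.image (fun q => q.1) ∪ L.image fun q => q.2.1).image (fs z) := by
    unfold lf rt imv
    rw [Finset.image_union, Finset.image_image, Finset.image_image, Finset.image_image,
      Finset.image_image]
    rfl
  rw [e, Finset.card_image_of_injOn]
  have hr : ∀ i ∈ L.image (fun q => q.1) ∪ L.image fun q => q.2.1, rep z i := by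
    intro i hi
    rcases Finset.mem_union.1 hi with hi | hi
    · obtain ⟨q, hq, rfl⟩ := Finset.mem_image.1 hi
      exact (h q hq).1
    · obtain ⟨q, hq, rfl⟩ := Finset.mem_image.1 hi
      exact (h q hq).2.1
  intro i hi j hj e
  exact rep_inj (hr i hi) (hr j hj) e

theorem hW_Ps (n : ℕ) (L B : Finset (I3 n)) : Measurable fun z : Fin n → ℂ × Bool =>
    if Rp z L ∧ Rp z B then wgt (imv (fs z) L, imv (fs z) B) else 0 := by
  have e : (fun z : Fin n → ℂ × Bool =>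
      if Rp z L ∧ Rp z B then wgt (imv (fs z) L, imv (fs z) B) else 0) =
      fun z => (if Rp z L ∧ Rp z B then ENNReal.ofReal (‖NN (imv (fs z) B)‖ ^ 2) else 0) *
        (2 / 2 ^ (L.image (fun q => q.1) ∪ L.image fun q => q.2.1).card) := by
    funext z
    by_cases h : Rp z L ∧ Rp z B
    · rw [if_pos h, if_pos h, wgt_eq, card_imv h.1]
    · rw [if_neg h, if_neg h, zero_mul]
  rw [e]
  exact (hW_PsC n L B).mul_const _

/-! ### transport of the objects -/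

theorem ext_perm {e : ℂ → ℂ} {P P' : Set ℂ} (hP : P.Finite) (h : BijOn e P P') :
    ∃ g : ℂ ≃ ℂ, ∀ x ∈ P, g x = e x := by
  have hlt : Cardinal.mk P < Cardinal.mk ℂ := by
    have h1 : Cardinal.mk P < Cardinal.aleph0 := Cardinal.lt_aleph0_iff_set_finite.2 hP
    exact h1.trans_le (Cardinal.aleph0_le_mk ℂ)
  obtain ⟨g, hg⟩ := Cardinal.extend_function_of_lt
    (⟨fun x : P => e x, fun x y hxy => Subtype.ext (h.injOn x.2 y.2 hxy)⟩ : P ↪ ℂ) hlt
    ⟨Equiv.refl ℂ⟩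
  exact ⟨g, fun x hx => hg ⟨x, hx⟩⟩

theorem IsOb_tr {e : ℂ ≃ ℂ} {P P' : Set ℂ} (hd : ∀ x ∈ P, ∀ y ∈ P, ∀ w ∈ P,
    Del P x y w → Del P' (e x) (e y) (e w)) {o : Obj} (ho : IsOb P o) : IsOb P' (mo e o) := by
  obtain ⟨l, β⟩ := o
  obtain ⟨h, s, hs, h1, h2⟩ := ho
  change IsLp P l at h
  change s ∈ l at hs
  change s.2.2 ∈ lf l at h1
  change β = bl l s at h2
  show IsLp P' (mp e l) ∧ ∃ s ∈ mp e l, s.2.2 ∈ lf (mp e l) ∧ mp e β = bl (mp e l) s
  refine ⟨⟨?_, ?_, ?_, ?_, ?_⟩, mt e s, (mem_mp e).2 hs, ?_, ?_⟩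
  · obtain ⟨t, ht⟩ := h.ne
    exact ⟨mt e t, (mem_mp e).2 ht⟩
  · intro t ht
    obtain ⟨s, hs, rfl⟩ := (mem_mp' e).1 ht
    have h3 := h.del s hs
    exact hd _ h3.1 _ h3.2.1 _ h3.2.2.1 h3
  · rw [lf_mp, rt_mp, Finset.disjoint_image e.injective]
    exact h.dj
  · intro s hs
    obtain ⟨s, hs', rfl⟩ := (mem_mp' e).1 hs
    obtain ⟨t, ht, h1⟩ := h.nx s hs'
    exact ⟨mt e t, (mem_mp e).2 ht, (St_map e).2 h1⟩
  · intro s hs t ht
    obtain ⟨s, hs', rfl⟩ := (mem_mp' e).1 hs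
    obtain ⟨t, ht', rfl⟩ := (mem_mp' e).1 ht
    refine rtg_map (mt e) ?_ (h.orb s hs' t ht')
    rintro u v ⟨a1, a2⟩
    exact ⟨(mem_mp e).2 a1, (St_map e).2 a2⟩
  · rw [lf_mp]
    exact (mem_image_e e).2 h1
  · rw [h2, bl_map]

theorem imv_comp (e : ℂ ≃ ℂ) (v : Fin n → ℂ) (L : Finset (I3 n)) :
    imv (e ∘ v) L = mp e (imv v L) := by
  ext t
  constructor
  · intro ht
    obtain ⟨q, hq, rfl⟩ := Finset.mem_image.1 ht
    exact (mem_mp' e).2 ⟨tr3 v q, Finset.mem_image_of_mem _ hq, rfl⟩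
  · intro ht
    obtain ⟨s, hs, rfl⟩ := (mem_mp' e).1 ht
    obtain ⟨q, hq, rfl⟩ := Finset.mem_image.1 hs
    exact Finset.mem_image.2 ⟨q, hq, rfl⟩

/-- the combinatorial part of the conditions -/
def Gc (c : Bool) (X : Set (ℂ × Bool)) (o : Obj) : Prop :=
  IsOb (ps X) o ∧ (c = true → Rz X (lf o.1) (rt o.1))

theorem Gc_InP {c : Bool} {X : Set (ℂ × Bool)} {o : Obj} (h : Gc c X o) :
    InP (ps X) o.1 ∧ InP (ps X) o.2 := by
  obtain ⟨⟨h1, s, hs, -, hβ⟩, -⟩ := h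
  have h2 : InP (ps X) o.1 := fun t ht => by
    obtain ⟨a, b, c, -⟩ := h1.del t ht
    exact ⟨a, b, c⟩
  refine ⟨h2, fun t ht => ?_⟩
  rw [hβ] at ht
  exact h2 t (Finset.mem_filter.1 ht).1

theorem Gc_tr {ι κ : Type} [Finite ι] [Finite κ] {U : ι → Set ℂ} {R : κ → ℂ × ℂ × ℂ → Prop}
    {X X' : Set (ℂ × Bool)} {g : ℂ → ℂ} {c : Bool} (hX : X.Finite) (h : PIso U R X X' g)
    (v : Fin n → ℂ) (hv : ∀ a, v a ∈ ps X) (L B : Finset (I3 n)) (ho : Gc c X (imv v L, imv v B)) :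
    Gc c X' (imv (g ∘ v) L, imv (g ∘ v) B) := by
  obtain ⟨e, he⟩ := ext_perm (hX.image Prod.fst) h.bij
  have ev : g ∘ v = e ∘ v := by
    funext a
    exact (he _ (hv a)).symm
  rw [ev, imv_comp, imv_comp]
  obtain ⟨h1, h2⟩ := ho
  constructor
  · refine IsOb_tr (fun x hx y hy w hw hd => ?_) h1
    rw [he x hx, he y hy, he w hw]
    exact (h.del x hx y hy w hw).1 hd
  · intro hc
    obtain ⟨b, h3, h4⟩ := h2 hc
    refine ⟨b, ?_, ?_⟩
    · show ∀ z ∈ lf (mp e (imv v L)), (z, b) ∈ X'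
      rw [lf_mp]
      intro z hz
      obtain ⟨w, hw, rfl⟩ := Finset.mem_image.1 hz
      have hw' := h3 w hw
      have hp : w ∈ ps X := ⟨_, hw', rfl⟩
      rw [he w hp]
      exact (h.col w hp b).1 hw'
    · show ∀ z ∈ rt (mp e (imv v L)), (z, !b) ∈ X'
      rw [rt_mp]
      intro z hz
      obtain ⟨w, hw, rfl⟩ := Finset.mem_image.1 hz
      have hw' := h4 w hw
      have hp : w ∈ ps X := ⟨_, hw', rfl⟩
      rw [he w hp]
      exact (h.col w hp _).1 hw'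

theorem Gc_meas (c : Bool) (n : ℕ) (L B : Finset (I3 n)) :
    MeasurableSet {z : Fin n → ℂ × Bool | Gc c (range z) (imv (fs z) L, imv (fs z) B)} := by
  refine measurableSet_setOfPred.2 ?_
  refine meas_mark (ι := Empty) (κ := Empty) (U := fun a => a.elim) (R := fun a => a.elim)
    (fun a => a.elim) (fun a => a.elim) (μ := Fin n)
    (F := fun X v => Gc c X (imv v L, imv v B)) ?_ n id
  intro X X' hX hX' e he v hv
  refine propext ⟨fun h => Gc_tr hX he v hv L B h, fun h => ?_⟩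
  have h2 := Gc_tr hX' he.symm (e ∘ v) (fun a => he.bij.mapsTo (hv a)) L B h
  have e2 : Function.invFunOn e (ps X) ∘ (e ∘ v) = v := by
    funext a
    exact he.bij.invOn_invFunOn.1 (hv a)
  rwa [e2] at h2

/-! ### discs -/

theorem cdisc_eq {P : Set ℂ} {t : T3} (h : Del P t.1 t.2.1 t.2.2) :
    cdisc t = Metric.closedBall (cen3 t) (rad3 t) := by
  obtain ⟨-, -, -, hc, -⟩ := h
  ext z
  rw [Metric.mem_closedBall, dist_eq_norm]
  constructor
  · rintro ⟨o, h1, h2, h3⟩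
    obtain rfl := (cen3_iff hc).1 ⟨h1, h2⟩
    exact h3
  · intro h
    obtain ⟨h1, h2⟩ := (cen3_iff hc).2 rfl
    exact ⟨_, h1, h2, h⟩

/-- the size condition -/
def Sm (κ : ℝ) (l : Finset T3) : Prop :=
  ∀ s ∈ l, ∀ t ∈ l, (cen3 s).re + rad3 s - ((cen3 t).re - rad3 t) < κ ∧
    (cen3 s).im + rad3 s - ((cen3 t).im - rad3 t) < κ

theorem small_iff {P : Set ℂ} {l : Finset T3} (hl : IsLp P l) (κ : ℝ) :
    (∃ z, (⋃ t ∈ l, cdisc t) ⊆ sq z κ) ↔ Sm κ l := by
  have hc : ∀ t ∈ l, cdisc t = Metric.closedBall (cen3 t) (rad3 t) := fun t ht =>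
    cdisc_eq (hl.del t ht)
  have hr : ∀ t : T3, 0 ≤ rad3 t := fun t => norm_nonneg _
  constructor
  · rintro ⟨z, hz⟩ s hs t ht
    have key : ∀ u ∈ l, ∀ w : ℂ, ‖w - cen3 u‖ ≤ rad3 u → w ∈ sq z κ := by
      intro u hu w hw
      refine hz (mem_iUnion₂.2 ⟨u, hu, ?_⟩)
      rw [hc u hu, Metric.mem_closedBall, dist_eq_norm]
      exact hw
    have a1 := key s hs (cen3 s + (rad3 s : ℂ)) (by
      rw [add_sub_cancel_left, Complex.norm_real, Real.norm_of_nonneg (hr s)])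
    have a2 := key t ht (cen3 t - (rad3 t : ℂ)) (by
      rw [sub_sub_cancel_left, norm_neg, Complex.norm_real, Real.norm_of_nonneg (hr t)])
    have a3 := key s hs (cen3 s + (rad3 s : ℂ) * Complex.I) (by
      rw [add_sub_cancel_left, norm_mul, Complex.norm_I, mul_one, Complex.norm_real,
        Real.norm_of_nonneg (hr s)])
    have a4 := key t ht (cen3 t - (rad3 t : ℂ) * Complex.I) (by
      rw [sub_sub_cancel_left, norm_neg, norm_mul, Complex.norm_I, mul_one, Complex.norm_real,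
        Real.norm_of_nonneg (hr t)])
    have b1 := a1.2.1
    have b2 := a2.1
    have b3 := a3.2.2.2
    have b4 := a4.2.2.1
    simp only [Complex.add_re, Complex.ofReal_re] at b1
    simp only [Complex.sub_re, Complex.ofReal_re] at b2
    simp only [Complex.add_im, Complex.mul_im, Complex.ofReal_re, Complex.I_im, Complex.ofReal_im,
      Complex.I_re, mul_one, mul_zero, add_zero] at b3
    simp only [Complex.sub_im, Complex.mul_im, Complex.ofReal_re, Complex.I_im, Complex.ofReal_im,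
      Complex.I_re, mul_one, mul_zero, add_zero] at b4
    exact ⟨by linarith, by linarith⟩
  · intro h
    obtain ⟨t1, ht1, h1⟩ := Finset.exists_min_image l (fun t => (cen3 t).re - rad3 t) hl.ne
    obtain ⟨t2, ht2, h2⟩ := Finset.exists_min_image l (fun t => (cen3 t).im - rad3 t) hl.ne
    refine ⟨⟨(cen3 t1).re - rad3 t1, (cen3 t2).im - rad3 t2⟩, ?_⟩
    intro w hw
    obtain ⟨s, hs, hw⟩ := mem_iUnion₂.1 hw
    rw [hc s hs, Metric.mem_closedBall, dist_eq_norm] at hw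
    have r1 := (abs_le.1 ((Complex.abs_re_le_norm (w - cen3 s)).trans hw))
    have r2 := (abs_le.1 ((Complex.abs_im_le_norm (w - cen3 s)).trans hw))
    rw [Complex.sub_re] at r1
    rw [Complex.sub_im] at r2
    have k1 := (h s hs t1 ht1).1
    have k2 := (h s hs t2 ht2).2
    have m1 := h1 s hs
    have m2 := h2 s hs
    refine ⟨?_, ?_, ?_, ?_⟩ <;> simp only <;> linarith [r1.1, r1.2, r2.1, r2.2]

/-- all conditions -/
def Gm (c : Bool) (κ : ℝ) (U : Set ℂ) (X : Set (ℂ × Bool)) (o : Obj) : Prop :=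
  Gc c X o ∧ (∀ t ∈ o.1, Metric.closedBall (cen3 t) (rad3 t) ⊆ U) ∧ ¬ Sm κ o.1

theorem Gm_iff {c : Bool} {κ : ℝ} {U : Set ℂ} {X : Set (ℂ × Bool)} {o : Obj} :
    Gm c κ U X o ↔ Gc c X o ∧ spt o ⊆ U ∧ ∀ z, ¬ spt o ⊆ sq z κ := by
  unfold Gm
  refine and_congr_right fun h => ?_
  have hl : IsLp (ps X) o.1 := h.1.1
  refine and_congr ?_ ?_
  · unfold spt
    rw [iUnion₂_subset_iff]
    refine forall₂_congr fun t ht => ?_
    rw [cdisc_eq (hl.del t ht)]
  · rw [← small_iff hl κ, not_exists]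
    rfl

theorem Gm_meas (c : Bool) (κ : ℝ) {U : Set ℂ}
    (hU : MeasurableSet {t : ℂ × ℂ × ℂ | Metric.closedBall (cen3 t) (rad3 t) ⊆ U}) (n : ℕ)
    (L B : Finset (I3 n)) :
    MeasurableSet {z : Fin n → ℂ × Bool | Gm c κ U (range z) (imv (fs z) L, imv (fs z) B)} := by
  have e : {z : Fin n → ℂ × Bool | Gm c κ U (range z) (imv (fs z) L, imv (fs z) B)} =
      {z | Gc c (range z) (imv (fs z) L, imv (fs z) B)} ∩
      ((⋂ q ∈ L, {z | Metric.closedBall (cen3 (tr3 (fs z) q)) (rad3 (tr3 (fs z) q)) ⊆ U}) ∩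
      (⋂ q ∈ L, ⋂ q' ∈ L, ({z | (cen3 (tr3 (fs z) q)).re + rad3 (tr3 (fs z) q) -
          ((cen3 (tr3 (fs z) q')).re - rad3 (tr3 (fs z) q')) < κ} ∩
        {z | (cen3 (tr3 (fs z) q)).im + rad3 (tr3 (fs z) q) -
          ((cen3 (tr3 (fs z) q')).im - rad3 (tr3 (fs z) q')) < κ}))ᶜ) := by
    ext z
    simp only [Gm, Sm, imv, Finset.forall_mem_image, mem_ofPred_eq, mem_inter_iff, mem_compl_iff,
      mem_iInter]
  rw [e]
  have m1 : ∀ q : I3 n, Measurable fun z : Fin n → ℂ × Bool => cen3 (tr3 (fs z) q) :=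
    fun q => meas_cen3.comp (meas_tr3 q)
  have m2 : ∀ q : I3 n, Measurable fun z : Fin n → ℂ × Bool => rad3 (tr3 (fs z) q) :=
    fun q => meas_rad3.comp (meas_tr3 q)
  have r1 : ∀ q : I3 n, Measurable fun z : Fin n → ℂ × Bool => (cen3 (tr3 (fs z) q)).re :=
    fun q => Complex.measurable_re.comp (m1 q)
  have r2 : ∀ q : I3 n, Measurable fun z : Fin n → ℂ × Bool => (cen3 (tr3 (fs z) q)).im :=
    fun q => Complex.measurable_im.comp (m1 q)
  refine (Gc_meas c n L B).inter ((Finset.measurableSet_biInter _ fun q _ =>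
    (meas_tr3 q) hU).inter (MeasurableSet.compl (Finset.measurableSet_biInter _ fun q _ =>
      Finset.measurableSet_biInter _ fun q' _ => ?_)))
  exact (measurableSet_lt (((r1 q).add (m2 q)).sub ((r1 q').sub (m2 q'))) measurable_const).inter
    (measurableSet_lt (((r2 q).add (m2 q)).sub ((r2 q').sub (m2 q'))) measurable_const)

theorem fme_gen {c : Bool} (κ : ℝ) {U : Set ℂ}
    (hU : MeasurableSet {t : ℂ × ℂ × ℂ | Metric.closedBall (cen3 t) (rad3 t) ⊆ U})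
    {W : Obj → ℝ≥0∞} (hW : ∀ (n : ℕ) (L B : Finset (I3 n)), Measurable fun z : Fin n → ℂ × Bool =>
      if Rp z L ∧ Rp z B then W (imv (fs z) L, imv (fs z) B) else 0) :
    FMe fun X => ∑' o, if Gm c κ U X o then W o else 0 :=
  fme_obj (fun X o h => Gc_InP h.1) (fun n L B => Gm_meas c κ hU n L B) hW


theorem fme_Ps (κ : ℝ) {U : Set ℂ}
    (hU : MeasurableSet {t : ℂ × ℂ × ℂ | Metric.closedBall (cen3 t) (rad3 t) ⊆ U}) :
    FMe (fam.Ps κ U) := by
  have h := fme_gen (c := false) κ hU (W := wgt) fun n L B => hW_Ps n L B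
  have e : (fun X => ∑' o : Obj, if Gm false κ U X o then wgt o else 0) = fam.Ps κ U := by
    funext X
    unfold Fam.Ps
    refine tsum_congr fun o => if_congr ?_ rfl rfl
    rw [Gm_iff]
    unfold Gc
    simp only [Bool.false_eq_true, false_imp_iff, and_true]
    exact Iff.rfl
  rwa [e] at h

/-! ### locality -/

theorem del_loc {P B : Set ℂ} {t : T3} (hB : cdisc t ⊆ B) :
    Del (P ∩ B) t.1 t.2.1 t.2.2 ↔ Del P t.1 t.2.1 t.2.2 := by
  constructor
  · rintro ⟨h1, h2, h3, h4, o, h5, h6, h7⟩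
    refine ⟨h1.1, h2.1, h3.1, h4, o, h5, h6, fun s hs => ?_⟩
    by_cases hsB : s ∈ B
    · exact h7 s ⟨hs, hsB⟩
    · by_contra hcon
      exact hsB (hB ⟨o, h5, h6, (not_le.1 hcon).le⟩)
  · rintro ⟨h1, h2, h3, h4, o, h5, h6, h7⟩
    refine ⟨⟨h1, hB ⟨o, h5, h6, le_rfl⟩⟩, ⟨h2, hB ⟨o, h5, h6, h5.le⟩⟩,
      ⟨h3, hB ⟨o, h5, h6, h6.le⟩⟩, h4, o, h5, h6, fun s hs => h7 s hs.1⟩

theorem IsOb_loc {P B : Set ℂ} {o : Obj} (hB : spt o ⊆ B) : IsOb (P ∩ B) o ↔ IsOb P o := by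
  have hB' : ∀ t ∈ o.1, cdisc t ⊆ B := fun t ht => (subset_iUnion₂ t ht).trans hB
  unfold IsOb
  refine and_congr_left fun _ => ?_
  constructor
  · intro h
    exact ⟨h.ne, fun t ht => (del_loc (hB' t ht)).1 (h.del t ht), h.dj, h.nx, h.orb⟩
  · intro h
    exact ⟨h.ne, fun t ht => (del_loc (hB' t ht)).2 (h.del t ht), h.dj, h.nx, h.orb⟩

theorem ps_ovr (X : Set (ℂ × Bool)) (B : Set ℂ) : ps (X ∩ ovr B) = ps X ∩ B := by
  ext z
  constructor
  · rintro ⟨p, ⟨hp, hB⟩, rfl⟩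
    exact ⟨⟨p, hp, rfl⟩, hB⟩
  · rintro ⟨⟨p, hp, rfl⟩, hB⟩
    exact ⟨p, ⟨hp, hB⟩, rfl⟩

theorem Gc_loc {c : Bool} {X : Set (ℂ × Bool)} {B : Set ℂ} {o : Obj} (hB : spt o ⊆ B) :
    Gc c (X ∩ ovr B) o ↔ Gc c X o := by
  unfold Gc
  rw [ps_ovr, IsOb_loc hB]
  refine and_congr_right fun ho => imp_congr_right fun _ => ?_
  have hs : ∀ z ∈ lf o.1 ∪ rt o.1, z ∈ B := by
    intro z hz
    rcases Finset.mem_union.1 hz with hz | hz
    · obtain ⟨t, ht, rfl⟩ := Finset.mem_image.1 hz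
      obtain ⟨-, -, -, -, q, h5, h6, -⟩ := ho.1.del t ht
      exact hB (mem_iUnion₂.2 ⟨t, ht, q, h5, h6, le_rfl⟩)
    · obtain ⟨t, ht, rfl⟩ := Finset.mem_image.1 hz
      obtain ⟨-, -, -, -, q, h5, h6, -⟩ := ho.1.del t ht
      exact hB (mem_iUnion₂.2 ⟨t, ht, q, h5, h6, h5.le⟩)
  unfold Rz
  refine exists_congr fun b => and_congr ?_ ?_
  · refine forall₂_congr fun z hz => ?_
    exact ⟨fun h => h.1, fun h => ⟨h, hs z (Finset.mem_union_left _ hz)⟩⟩
  · refine forall₂_congr fun z hz => ?_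
    exact ⟨fun h => h.1, fun h => ⟨h, hs z (Finset.mem_union_right _ hz)⟩⟩


theorem Ps_loc (κ : ℝ) {U B : Set ℂ} (hUB : U ⊆ B) (X : Set (ℂ × Bool)) :
    fam.Ps κ U (X ∩ ovr B) = fam.Ps κ U X := by
  unfold Fam.Ps
  refine tsum_congr fun o => if_congr ?_ rfl rfl
  constructor
  · rintro ⟨h1, h2, h3⟩
    have h := (Gc_loc (c := false) (X := X) (B := B) (o := o) (h2.trans hUB)).1
      ⟨h1, fun h => absurd h (by decide)⟩
    exact ⟨h.1, h2, h3⟩
  · rintro ⟨h1, h2, h3⟩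
    have h := (Gc_loc (c := false) (X := X) (B := B) (o := o) (h2.trans hUB)).2
      ⟨h1, fun h => absurd h (by decide)⟩
    exact ⟨h.1, h2, h3⟩


/-- **measurability**, position version -/
theorem meas_Ps (κ : ℝ) {U : Set ℂ} (hb : Bornology.IsBounded U)
    (hU : MeasurableSet {t : ℂ × ℂ × ℂ | Metric.closedBall (cen3 t) (rad3 t) ⊆ U})
    {ε : ℝ} (hε : 0 < ε) : Measurable fun ω : Sample => fam.Ps κ U (cfg ε ω) := by
  obtain ⟨r, hr⟩ := hb.subset_closedBall 0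
  have h := meas_cfg hε (B := Metric.closedBall 0 r) measurableSet_closedBall
    Metric.isBounded_closedBall (fme_Ps κ hU)
  simpa only [Ps_loc κ hr] using h

/-- Markov -/
theorem markov {F : ℝ → Sample → ℝ≥0∞} (hF : ∀ ε, 0 < ε → Measurable (F ε))
    (h : Tendsto (fun ε : ℝ => ∫⁻ ω, F ε ω ∂sampleLaw) (𝓝[>] 0) (𝓝 0)) {t : ℝ≥0∞} (ht : t ≠ 0)
    (ht' : t ≠ ∞) :
    Tendsto (fun ε : ℝ => sampleLaw {ω | t ≤ F ε ω}) (𝓝[>] 0) (𝓝 0) := by
  have h2 : Tendsto (fun ε : ℝ => (∫⁻ ω, F ε ω ∂sampleLaw) / t) (𝓝[>] 0) (𝓝 0) := by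
    have := ENNReal.Tendsto.div_const h (Or.inr ht)
    rwa [ENNReal.zero_div] at this
  refine tendsto_of_tendsto_of_tendsto_of_le_of_le' tendsto_const_nhds h2
    (Eventually.of_forall fun _ => zero_le) ?_
  filter_upwards [self_mem_nhdsWithin] with ε hε
  rw [ENNReal.le_div_iff_mul_le (Or.inl ht) (Or.inl ht'), mul_comm]
  exact mul_meas_ge_le_lintegral (hF ε hε) t

end Crest.Agent.R143.MassMx304
end
end

-- ▼ part R143/MassP_304
section

/-!
# Row 143 (S0194): the sum rule with a measurable error, and in probability (helper304)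

* `massC` : `∫ PsC κ U (cfg ε ·) → 0` (coloured loops of the sample)
* `prob_PsC`, `prob_Ps` : in probability (every bounded `U`, no measurability of `U`)
* `sum_rule_meas` : 302's sum rule with a measurable error function
* `prob_block` : the probability that some macroscopic block of an interface loop of the sample has
  charge `≥ t` tends to `0`
-/

set_option autoImplicit false

noncomputable section

open scoped Classical

namespace Crest.Agent.R143.MassPx304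

open MeasureTheory Set Filter Topology
open Crest.ProbabilityR.Voronoi
open Crest.Agent.R143.B0x346 Crest.Agent.R143.SumScx302 Crest.Agent.R143.PP0x831
  Crest.Agent.R143.ColSumx304 Crest.Agent.R143.MassCx304 Crest.Agent.R143.MassMx304
  Crest.Agent.R143.FinMx609 Crest.Agent.R143.Mass2x302 Crest.Agent.R143.Mass5x302
open Crest.Agent.R143.Mass1x302 hiding ps
open Crest.Agent.R143.Frame1x395 Crest.Agent.R143.Frame2x395 Crest.Agent.R143.Frame3x395
  Crest.Agent.R143.Frame4x395 Crest.Agent.R143.Frame8x395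
open scoped ENNReal

variable {κ : ℝ} {U : Set ℂ}



theorem disc_ball (r : ℝ) : MeasurableSet {t : ℂ × ℂ × ℂ |
    Metric.closedBall (cen3 t) (rad3 t) ⊆ Metric.closedBall (0 : ℂ) r} :=
  meas_disc_closed Metric.isClosed_closedBall




/-- **302's sum rule with a measurable error** -/
theorem sum_rule_meas {k : ℝ} (hk : 0 < k) (hU : Bornology.IsBounded U) :
    ∃ E : ℝ → Sample → ℝ≥0∞, (∀ ε, 0 < ε → Measurable (E ε)) ∧
      Tendsto (fun ε : ℝ => ∫⁻ ω, E ε ω ∂sampleLaw) (𝓝[>] 0) (𝓝 0) ∧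
      (∀ t : ℝ≥0∞, t ≠ 0 → t ≠ ∞ →
        Tendsto (fun ε : ℝ => sampleLaw {ω | t ≤ E ε ω}) (𝓝[>] 0) (𝓝 0)) ∧
      ∀ (ε : ℝ) (ω : Sample) (D C : Type) [Fintype D] (M : CMap D C) (δ : ℂ → ℂ → D)
        (κ : ℂ → C), Agr (points ε ω) U M δ κ → ∀ a : D → ℂ,
        (∀ t : T3, Fc (points ε ω) U t.1 t.2.1 t.2.2 → a (gd δ t) = Nn t) →
        ∑ x ∈ ev M, ∑ β ∈ bigB (points ε ω) U M δ k x, ENNReal.ofReal (‖∑ g ∈ β, a g‖ ^ 2) ≤
          ((ev M).card : ℝ≥0∞) * E ε ω := by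
  obtain ⟨r, hr⟩ := hU.subset_closedBall 0
  refine ⟨fun ε ω => fam.Ps k (Metric.closedBall 0 r) (cfg ε ω),
    fun ε hε => meas_Ps k Metric.isBounded_closedBall (disc_ball r) hε,
    mass0 hk Metric.isBounded_closedBall,
    fun t ht ht' => markov (F := fun ε ω => fam.Ps k (Metric.closedBall 0 r) (cfg ε ω))
      (fun ε hε => meas_Ps k Metric.isBounded_closedBall (disc_ball r) hε)
      (mass0 hk Metric.isBounded_closedBall) ht ht', ?_⟩
  intro ε ω D C _ M δ κ A a ha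
  refine (blocks_mass A (MassCx304.ps_cfg ε ω) k ha).trans ?_
  gcongr
  exact fam.Ps_mono hr le_rfl _

end Crest.Agent.R143.MassPx304
end
end

-- ▼ part R143/MassQ_304
section

/-!
# Row 143 (S0194), box R7 of the master table (helper304): the closed block carries no charge

* `blk_L2` : for a family `i ↦ (x i, s i)` of even configurations with distinguished gaps, `x i`
  equidistributed, the loop of `s i` inside `U` and macroscopic whenever `g i ≠ 0` :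
  `∑ g i * ‖block sum‖² ≤ #I * E`;  `blk_L1` : `∑ g i * ‖block sum‖ ≤ #I * E^(1/2)`
* `closed_dE` : in the closed map `cm0 hS` the steps of a block inside `U` add up to zero
* `bs_PE` : the big and the small field have the same modulus on such a block
* `R7` : the statement with measurable error functions
-/

set_option autoImplicit false

noncomputable section

open scoped Classical

namespace Crest.Agent.R143.MassQx304

open MeasureTheory Set Filter Topology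
open Crest.ProbabilityR.Voronoi
open Crest.Agent.R143.B0x346 Crest.Agent.R143.SumScx302 Crest.Agent.R143.PP0x831
  Crest.Agent.R143.MassMx304 Crest.Agent.R143.MassPx304 Crest.Agent.R143.FinMx609
  Crest.Agent.R143.DelGx806 Crest.Agent.R143.DelRx806
  Crest.Agent.R143.Mass2x302 Crest.Agent.R143.Mass3x302 Crest.Agent.R143.Mass4x302
  Crest.Agent.R143.Mass5x302 Crest.Agent.R143.JColx54
open Crest.Agent.R143.Mass1x302 hiding ps
open Crest.Agent.R143.Frame1x395 Crest.Agent.R143.Frame2x395 Crest.Agent.R143.Frame3x395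
  Crest.Agent.R143.Frame4x395 Crest.Agent.R143.Frame8x395 Crest.Agent.R143.Frame9x395
  Crest.Agent.R143.Frame10x395
open Crest.Agent.R143.Frame5x395 (sd mem_sd th th_spec)
open scoped ENNReal

variable {D C : Type} {M : CMap D C} {P U : Set ℂ} {δ : ℂ → ℂ → D} {κ : ℂ → C}

/-! ### families of configurations -/

section family

variable [Fintype D] {I : Type} [Fintype I]

/-- equidistribution over the even configurations -/
structure Eqd (M : CMap D C) (x : I → D → ZMod 2) : Prop where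
  ev : ∀ i, x i ∈ ev M
  fib : ∀ y ∈ Frame8x395.ev M,
    (Finset.univ.filter fun i => x i = y).card * (Frame8x395.ev M).card ≤ Fintype.card I

theorem Eqd.sum_le {x : I → D → ZMod 2} (h : Eqd M x) (F : (D → ZMod 2) → ℝ≥0∞) :
    ((Frame8x395.ev M).card : ℝ≥0∞) * ∑ i, F (x i) ≤
      (Fintype.card I : ℝ≥0∞) * ∑ y ∈ Frame8x395.ev M, F y := by
  have e1 : ∑ i, F (x i) = ∑ y ∈ Frame8x395.ev M,
      ((Finset.univ.filter fun i => x i = y).card : ℝ≥0∞) * F y := by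
    rw [← Finset.sum_fiberwise_of_maps_to (s := Finset.univ) (t := Frame8x395.ev M) (g := x)
      fun i _ => h.ev i]
    refine Finset.sum_congr rfl fun y _ => ?_
    rw [Finset.sum_congr rfl fun i hi => by rw [(Finset.mem_filter.1 hi).2], Finset.sum_const,
      nsmul_eq_mul]
  rw [e1, Finset.mul_sum, Finset.mul_sum]
  refine Finset.sum_le_sum fun y hy => ?_
  rw [← mul_assoc]
  gcongr
  rw [mul_comm]
  exact_mod_cast h.fib y hy

/-- **L2 form** -/
theorem blk_L2 {x : I → D → ZMod 2} (hx : Eqd M x) {s : I → D} {g : I → ℝ}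
    (hg : ∀ i, g i ≤ 1) {k : ℝ}
    (hs : ∀ i, 0 < g i → blk M (x i) (s i) ∈ bigB P U M δ k (x i)) {a : D → ℂ} {E : ℝ≥0∞}
    (hE : ∑ y ∈ ev M, ∑ β ∈ bigB P U M δ k y, ENNReal.ofReal (‖∑ t ∈ β, a t‖ ^ 2) ≤
      ((ev M).card : ℝ≥0∞) * E) :
    ∑ i, ENNReal.ofReal (g i * ‖∑ t ∈ blk M (x i) (s i), a t‖ ^ 2) ≤
      (Fintype.card I : ℝ≥0∞) * E := by
  rcases isEmpty_or_nonempty I with h0 | ⟨⟨i0⟩⟩
  · simp
  have hev : (ev M).Nonempty := ⟨x i0, hx.ev i0⟩
  have hc0 : ((ev M).card : ℝ≥0∞) ≠ 0 := by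
    exact_mod_cast (Finset.card_pos.2 hev).ne'
  have hct : ((ev M).card : ℝ≥0∞) ≠ ∞ := ENNReal.natCast_ne_top _
  have h1 : ∑ i, ENNReal.ofReal (g i * ‖∑ t ∈ blk M (x i) (s i), a t‖ ^ 2) ≤
      ∑ i, ∑ β ∈ bigB P U M δ k (x i), ENNReal.ofReal (‖∑ t ∈ β, a t‖ ^ 2) := by
    refine Finset.sum_le_sum fun i _ => ?_
    by_cases hi : 0 < g i
    · refine le_trans (ENNReal.ofReal_le_ofReal ?_)
        (Finset.single_le_sum (f := fun β => ENNReal.ofReal (‖∑ t ∈ β, a t‖ ^ 2))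
          (fun _ _ => zero_le) (hs i hi))
      exact mul_le_of_le_one_left (by positivity) (hg i)
    · rw [ENNReal.ofReal_of_nonpos]
      · exact zero_le
      · exact mul_nonpos_of_nonpos_of_nonneg (not_lt.1 hi) (by positivity)
  have h2 := hx.sum_le fun y => ∑ β ∈ bigB P U M δ k y, ENNReal.ofReal (‖∑ t ∈ β, a t‖ ^ 2)
  have h3 : ((ev M).card : ℝ≥0∞) * ∑ i, ENNReal.ofReal (g i *
      ‖∑ t ∈ blk M (x i) (s i), a t‖ ^ 2) ≤
      ((ev M).card : ℝ≥0∞) * ((Fintype.card I : ℝ≥0∞) * E) := by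
    calc _ ≤ ((ev M).card : ℝ≥0∞) *
          ∑ i, ∑ β ∈ bigB P U M δ k (x i), ENNReal.ofReal (‖∑ t ∈ β, a t‖ ^ 2) := by gcongr
      _ ≤ _ := h2
      _ ≤ (Fintype.card I : ℝ≥0∞) * (((ev M).card : ℝ≥0∞) * E) := by gcongr
      _ = _ := by ring
  exact (ENNReal.mul_le_mul_iff_right hc0 hct).1 h3

/-- Cauchy–Schwarz for finite sums with weights in `[0, 1]` -/
theorem cs_fin {g v : I → ℝ} (h0 : ∀ i, 0 ≤ g i) (h1 : ∀ i, g i ≤ 1) (hv : ∀ i, 0 ≤ v i)
    {E : ℝ≥0∞} (h : ∑ i, ENNReal.ofReal (g i * v i ^ 2) ≤ (Fintype.card I : ℝ≥0∞) * E) :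
    ∑ i, ENNReal.ofReal (g i * v i) ≤ (Fintype.card I : ℝ≥0∞) * E ^ (1 / 2 : ℝ) := by
  rcases isEmpty_or_nonempty I with hI | hI
  · simp
  have hn : (0 : ℝ) < Fintype.card I := by exact_mod_cast Fintype.card_pos
  by_cases hE : E = ∞
  · rw [hE, ENNReal.top_rpow_of_pos (by norm_num), ENNReal.mul_top]
    · exact le_top
    · exact_mod_cast Fintype.card_ne_zero
  obtain ⟨e, rfl⟩ : ∃ e : NNReal, E = e := ⟨E.toNNReal, (ENNReal.coe_toNNReal hE).symm⟩
  have h' : ∑ i, g i * v i ^ 2 ≤ Fintype.card I * (e : ℝ) := by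
    rw [← ENNReal.ofReal_sum_of_nonneg fun i _ => mul_nonneg (h0 i) (by positivity)] at h
    have e1 : (Fintype.card I : ℝ≥0∞) * (e : ℝ≥0∞) =
        ENNReal.ofReal (Fintype.card I * (e : ℝ)) := by
      rw [ENNReal.ofReal_mul (by positivity), ENNReal.ofReal_natCast, ENNReal.ofReal_coe_nnreal]
    rw [e1] at h
    exact (ENNReal.ofReal_le_ofReal_iff (by positivity)).1 h
  have h2 : (∑ i, g i * v i) ^ 2 ≤ (Fintype.card I * Real.sqrt e) ^ 2 := by
    have cs := Finset.sum_mul_sq_le_sq_mul_sq Finset.univ (fun i => Real.sqrt (g i))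
      fun i => Real.sqrt (g i) * v i
    have e2 : ∀ i, Real.sqrt (g i) * (Real.sqrt (g i) * v i) = g i * v i := fun i => by
      rw [← mul_assoc, Real.mul_self_sqrt (h0 i)]
    have e3 : ∀ i, Real.sqrt (g i) ^ 2 = g i := fun i => Real.sq_sqrt (h0 i)
    have e4 : ∀ i, (Real.sqrt (g i) * v i) ^ 2 = g i * v i ^ 2 := fun i => by
      rw [mul_pow, e3]
    simp only [e2, e3, e4] at cs
    have h3 : ∑ i, g i ≤ Fintype.card I := by
      calc ∑ i, g i ≤ ∑ _i : I, (1 : ℝ) := Finset.sum_le_sum fun i _ => h1 i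
        _ = _ := by simp
    calc (∑ i, g i * v i) ^ 2 ≤ (∑ i, g i) * ∑ i, g i * v i ^ 2 := cs
      _ ≤ Fintype.card I * (Fintype.card I * (e : ℝ)) := by
          have h4 : 0 ≤ ∑ i, g i * v i ^ 2 :=
            Finset.sum_nonneg fun i _ => mul_nonneg (h0 i) (by positivity)
          gcongr
      _ = _ := by rw [mul_pow, Real.sq_sqrt (by positivity)]; ring
  have h3 : ∑ i, g i * v i ≤ Fintype.card I * Real.sqrt e :=
    le_of_sq_le_sq h2 (by positivity)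
  rw [← ENNReal.ofReal_sum_of_nonneg fun i _ => mul_nonneg (h0 i) (hv i)]
  refine (ENNReal.ofReal_le_ofReal h3).trans (le_of_eq ?_)
  rw [ENNReal.ofReal_mul (by positivity), ENNReal.ofReal_natCast, Real.sqrt_eq_rpow,
    ← ENNReal.ofReal_rpow_of_nonneg (by positivity) (by norm_num), ENNReal.ofReal_coe_nnreal]

/-- **L1 form** -/
theorem blk_L1 {x : I → D → ZMod 2} (hx : Eqd M x) {s : I → D} {g : I → ℝ}
    (hg0 : ∀ i, 0 ≤ g i) (hg : ∀ i, g i ≤ 1) {k : ℝ}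
    (hs : ∀ i, 0 < g i → blk M (x i) (s i) ∈ bigB P U M δ k (x i)) {a : D → ℂ} {E : ℝ≥0∞}
    (hE : ∑ y ∈ ev M, ∑ β ∈ bigB P U M δ k y, ENNReal.ofReal (‖∑ t ∈ β, a t‖ ^ 2) ≤
      ((ev M).card : ℝ≥0∞) * E) :
    ∑ i, ENNReal.ofReal (g i * ‖∑ t ∈ blk M (x i) (s i), a t‖) ≤
      (Fintype.card I : ℝ≥0∞) * E ^ (1 / 2 : ℝ) :=
  cs_fin hg0 hg (fun _ => norm_nonneg _) (blk_L2 hx hg hs hE)

end family

/-! ### the square root of the error -/

theorem lint_sqrt {F : Sample → ℝ≥0∞} (hF : Measurable F) :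
    ∫⁻ ω, F ω ^ (1 / 2 : ℝ) ∂sampleLaw ≤ (∫⁻ ω, F ω ∂sampleLaw) ^ (1 / 2 : ℝ) := by
  have h := ENNReal.lintegral_mul_le_Lp_mul_Lq sampleLaw (p := 2) (q := 2)
    Real.HolderConjugate.two_two (f := fun ω => F ω ^ (1 / 2 : ℝ)) (g := fun _ => 1)
    (hF.pow_const _).aemeasurable aemeasurable_const
  simp only [Pi.mul_apply, mul_one, ENNReal.one_rpow, lintegral_const, measure_univ] at h
  refine h.trans (le_of_eq ?_)
  congr 1
  refine lintegral_congr fun ω => ?_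
  rw [← ENNReal.rpow_mul]
  norm_num

theorem sqrt_tendsto {E : ℝ → Sample → ℝ≥0∞} (hE : ∀ ε, 0 < ε → Measurable (E ε))
    (h : Tendsto (fun ε : ℝ => ∫⁻ ω, E ε ω ∂sampleLaw) (𝓝[>] 0) (𝓝 0)) :
    Tendsto (fun ε : ℝ => ∫⁻ ω, E ε ω ^ (1 / 2 : ℝ) ∂sampleLaw) (𝓝[>] 0) (𝓝 0) := by
  have h2 : Tendsto (fun ε : ℝ => (∫⁻ ω, E ε ω ∂sampleLaw) ^ (1 / 2 : ℝ)) (𝓝[>] 0) (𝓝 0) := by
    have h3 := (ENNReal.continuous_rpow_const (y := 1 / 2)).tendsto 0
    rw [ENNReal.zero_rpow_of_pos (by norm_num)] at h3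
    exact h3.comp h
  refine tendsto_of_tendsto_of_tendsto_of_le_of_le' tendsto_const_nhds h2
    (Eventually.of_forall fun _ => zero_le) ?_
  filter_upwards [self_mem_nhdsWithin] with ε hε
  exact lint_sqrt (hE ε hε)

/-! ### the second field -/

section second

variable {S : Finset ℂ} {x : D → ZMod 2}

/-- the big field of the left gap after the state `(a, b, c)` : dart `(c, a)`, third cell `b` -/
def Pn (t : T3) : ℂ := t.2.1 + om * t.1 + om ^ 2 * t.2.2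

theorem Pn_sub (t : T3) : Pn t - (starRingEnd ℂ) (Nn t) = (om - om ^ 2) * (t.1 - t.2.2) := by
  have h1 : (starRingEnd ℂ) om = om ^ 2 := om_conj
  have h3 : om ^ 3 = 1 := Mass4x302.om3
  unfold Pn Nn
  simp only [map_add, map_mul, map_pow, Complex.conj_conj, h1]
  linear_combination (-(om * t.2.2)) * h3

/-- the darts of a block inside `U` -/
theorem blk_gd [Fintype D] (A : Agr P U M δ κ) {x : D → ZMod 2} (hx : IsC M ∅ x) {g : D}
    (hg : Gp M x g) (hU : InU P U M δ x g) {d : D} (hd : d ∈ blk M x g) :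
    ∃ t : T3, Fc P U t.1 t.2.1 t.2.2 ∧ gd δ t = d := by
  obtain ⟨l, s, hl, hs, h1, hc, h2, ml⟩ := exists_lp A hx hg hU
  have h3 := A.blk_img hx hl hc hs h1
  rw [h2] at h3
  rw [h3] at hd
  obtain ⟨t, ht, e⟩ := Finset.mem_image.1 hd
  exact ⟨t, hl.fc (Finset.mem_filter.1 ht).1, e⟩

/-- position of a cell of `cm0` -/
def Zc (S : Finset ℂ) (c : Quot (hullE S)) : ℂ :=
  if h : ∃ v, ¬ OnHull S v ∧ (Quot.mk (hullE S) v) = c then h.choose else 0

theorem Zc_inner (hS : GP (S : Set ℂ)) {v : ℂ} (hv : ¬ OnHull S v) :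
    Zc S (Quot.mk _ v) = v := by
  have h : ∃ w, ¬ OnHull S w ∧ (Quot.mk (hullE S) w) = Quot.mk (hullE S) v := ⟨v, hv, rfl⟩
  unfold Zc
  rw [dif_pos h]
  exact quot_inner hS hv h.choose_spec.2.symm

/-- **the steps of a closed block add up to zero** -/
theorem closed_dE (hP : GP P) (hS : GP (S : Set ℂ)) (hPS : ∀ z ∈ U, z ∈ P ↔ z ∈ (S : Set ℂ))
    (hin : ∀ v ∈ S, v ∈ U → ¬ OnHull S v) (e0 : D0 S) {x : D0 S → ZMod 2}
    (hx : IsC (cm0 hS) ∅ x) {g : D0 S} (hg : Gp (cm0 hS) x g)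
    (hU : InU P U (cm0 hS) (dl e0) x g) :
    ∑ d ∈ blk (cm0 hS) x g, (d.1.2 - d.1.1) = 0 := by
  have A := agr0 hP hS hPS hin e0
  have key : ∀ d ∈ blk (cm0 hS) x g, ¬ OnHull S d.1.1 ∧ ¬ OnHull S d.1.2 := by
    intro d hd
    obtain ⟨⟨a, b, c⟩, ht, e⟩ := blk_gd A hx hg hU hd
    change Fc P U a b c at ht
    have hd' : (c, a) ∈ sd S := mem_sd.2 ⟨_, mem_delT.2 (fc_congr hPS ht.rot.rot).1⟩
    have e' : (⟨(c, a), hd'⟩ : D0 S) = d := by
      rw [← e]
      exact (dl_eq hd').symm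
    rw [← e']
    have ha : a ∈ S := (hPS a (fc_memU ht)).1 ht.1.1
    have hc : c ∈ S := (hPS c (fc_memU ht.rot.rot)).1 ht.rot.rot.1.1
    exact ⟨hin c hc (fc_memU ht.rot.rot), hin a ha (fc_memU ht)⟩
  have h := telescope hx hg (fun d hd => gen_inner hS (key d hd).2) (Zc S)
  have e1 : ∑ d ∈ blk (cm0 hS) x g, Zc S ((cm0 hS).cell ((cm0 hS).rho d)) =
      ∑ d ∈ blk (cm0 hS) x g, d.1.2 :=
    Finset.sum_congr rfl fun d hd => Zc_inner hS (key d hd).2
  have e2 : ∑ d ∈ blk (cm0 hS) x g, Zc S ((cm0 hS).cell d) =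
      ∑ d ∈ blk (cm0 hS) x g, d.1.1 :=
    Finset.sum_congr rfl fun d hd => Zc_inner hS (key d hd).1
  rw [Finset.sum_sub_distrib, ← e1, ← e2, h, sub_self]

/-- the four charges: small field, big field and their conjugates -/
def Fld (P U : Set ℂ) (δ : ℂ → ℂ → D) (a : D → ℂ) : Prop :=
  (∀ t : T3, Fc P U t.1 t.2.1 t.2.2 → a (gd δ t) = Nn t) ∨
  (∀ t : T3, Fc P U t.1 t.2.1 t.2.2 → a (gd δ t) = (starRingEnd ℂ) (Nn t)) ∨
  (∀ t : T3, Fc P U t.1 t.2.1 t.2.2 → a (gd δ t) = Pn t) ∨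
  (∀ t : T3, Fc P U t.1 t.2.1 t.2.2 → a (gd δ t) = (starRingEnd ℂ) (Pn t))

/-- **all four fields have the same modulus on a closed block** -/
theorem fld_norm (hP : GP P) (hS : GP (S : Set ℂ)) (hPS : ∀ z ∈ U, z ∈ P ↔ z ∈ (S : Set ℂ))
    (hin : ∀ v ∈ S, v ∈ U → ¬ OnHull S v) (e0 : D0 S) {x : D0 S → ZMod 2}
    (hx : IsC (cm0 hS) ∅ x) {g : D0 S} (hg : Gp (cm0 hS) x g)
    (hU : InU P U (cm0 hS) (dl e0) x g) {a : D0 S → ℂ} (ha : Fld P U (dl e0) a) :
    ‖∑ d ∈ blk (cm0 hS) x g, a d‖ = ‖∑ d ∈ blk (cm0 hS) x g, ch P U S d‖ := by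
  have A := agr0 hP hS hPS hin e0
  have hz := closed_dE hP hS hPS hin e0 hx hg hU
  have key : ∀ d ∈ blk (cm0 hS) x g, ∃ t : T3, Fc P U t.1 t.2.1 t.2.2 ∧ gd (dl e0) t = d ∧
      d.1.2 - d.1.1 = t.1 - t.2.2 := by
    intro d hd
    obtain ⟨⟨a, b, c⟩, ht, e⟩ := blk_gd A hx hg hU hd
    refine ⟨(a, b, c), ht, e, ?_⟩
    change Fc P U a b c at ht
    have hd' : (c, a) ∈ sd S := mem_sd.2 ⟨_, mem_delT.2 (fc_congr hPS ht.rot.rot).1⟩
    have e' : (⟨(c, a), hd'⟩ : D0 S) = d := by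
      rw [← e]
      exact (dl_eq hd').symm
    rw [← e']
  have hch : ∀ t : T3, Fc P U t.1 t.2.1 t.2.2 → ch P U S (gd (dl e0) t) = Nn t :=
    fun t ht => ch_gd hS hPS e0 ht
  have hPn : ∀ t : T3, Pn t = (starRingEnd ℂ) (Nn t) + (om - om ^ 2) * (t.1 - t.2.2) := fun t => by
    rw [← Pn_sub t]; ring
  have sP : ∀ b : D0 S → ℂ, (∀ t : T3, Fc P U t.1 t.2.1 t.2.2 → b (gd (dl e0) t) = Pn t) →
      ∑ d ∈ blk (cm0 hS) x g, b d =
        (starRingEnd ℂ) (∑ d ∈ blk (cm0 hS) x g, ch P U S d) := by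
    intro b hb
    have e1 : ∑ d ∈ blk (cm0 hS) x g, b d =
        ∑ d ∈ blk (cm0 hS) x g, ((starRingEnd ℂ) (ch P U S d) +
          (om - om ^ 2) * (d.1.2 - d.1.1)) := by
      refine Finset.sum_congr rfl fun d hd => ?_
      obtain ⟨t, ht, e, e2⟩ := key d hd
      rw [e2, ← e, hb t ht, hch t ht, hPn]
    rw [e1, Finset.sum_add_distrib, ← Finset.mul_sum, hz, mul_zero, add_zero, map_sum]
  rcases ha with ha | ha | ha | ha
  · congr 1
    refine Finset.sum_congr rfl fun d hd => ?_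
    obtain ⟨t, ht, e, -⟩ := key d hd
    rw [← e, ha t ht, hch t ht]
  · rw [← Complex.norm_conj (∑ d ∈ blk (cm0 hS) x g, ch P U S d), map_sum]
    congr 1
    refine Finset.sum_congr rfl fun d hd => ?_
    obtain ⟨t, ht, e, -⟩ := key d hd
    rw [← e, ha t ht, hch t ht]
  · rw [sP a ha, Complex.norm_conj]
  · have h1 := sP (fun d => (starRingEnd ℂ) (a d)) fun t ht => by
      rw [ha t ht, Complex.conj_conj]
    rw [← Complex.norm_conj, map_sum, h1, Complex.norm_conj]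

theorem mem_bigB [Fintype D] {x : D → ZMod 2} {s : D} (hs : Gp M x s) (hU : InU P U M δ x s)
    {k : ℝ} (hB : Big P U M δ x k s) : blk M x s ∈ bigB P U M δ k x := by
  unfold bigB
  rw [Finset.mem_filter]
  refine ⟨Finset.mem_image_of_mem _ (mem_gaps.2 hs), s, mem_blk.2 ⟨hs, rel_refl s⟩, hU, hB⟩

/-- the energy of the macroscopic blocks, any of the four fields -/
theorem bigB_fld (hP : GP P) (hS : GP (S : Set ℂ)) (hPS : ∀ z ∈ U, z ∈ P ↔ z ∈ (S : Set ℂ))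
    (hin : ∀ v ∈ S, v ∈ U → ¬ OnHull S v) (e0 : D0 S) {a : D0 S → ℂ}
    (ha : Fld P U (dl e0) a) {k : ℝ} {x : D0 S → ZMod 2} (hx : IsC (cm0 hS) ∅ x) :
    ∑ β ∈ bigB P U (cm0 hS) (dl e0) k x, ENNReal.ofReal (‖∑ t ∈ β, a t‖ ^ 2) =
      ∑ β ∈ bigB P U (cm0 hS) (dl e0) k x, ENNReal.ofReal (‖∑ t ∈ β, ch P U S t‖ ^ 2) := by
  refine Finset.sum_congr rfl fun β hβ => ?_
  obtain ⟨hβ, g, hgβ, hU, -⟩ := Finset.mem_filter.1 hβ
  obtain ⟨hg, rfl⟩ := mem_blks hx hβ hgβ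
  rw [fld_norm hP hS hPS hin e0 hx hg hU ha]

end second

/-- **BOX R7.** For every `k > 0` and every bounded `U` there is a measurable error `E ε ω` with
`∫ E → 0`, `∫ √E → 0`, `P(t ≤ E) → 0`, which bounds, for every environment, the closed net `cm0` of
any finite set of sites which agrees with the environment in `U`, any of the four fields, any
equidistributed family of configurations and any weights in `[0, 1]`, the mean of `g * |V|²` and the
square of the mean of `g * |V|`, `V` = sum of the field over the block of a gap whose loop is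
inside `U` and in no square of side `k`. -/
theorem R7 {k : ℝ} (hk : 0 < k) (hU : Bornology.IsBounded U) :
    ∃ E : ℝ → Sample → ℝ≥0∞, (∀ ε, 0 < ε → Measurable (E ε)) ∧
      Tendsto (fun ε : ℝ => ∫⁻ ω, E ε ω ∂sampleLaw) (𝓝[>] 0) (𝓝 0) ∧
      Tendsto (fun ε : ℝ => ∫⁻ ω, E ε ω ^ (1 / 2 : ℝ) ∂sampleLaw) (𝓝[>] 0) (𝓝 0) ∧
      (∀ t : ℝ≥0∞, t ≠ 0 → t ≠ ∞ →
        Tendsto (fun ε : ℝ => sampleLaw {ω | t ≤ E ε ω}) (𝓝[>] 0) (𝓝 0)) ∧
      ∀ (ε : ℝ) (ω : Sample) (S : Finset ℂ) (hS : GP (S : Set ℂ)), GP (points ε ω) →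
        (∀ z ∈ U, z ∈ points ε ω ↔ z ∈ (S : Set ℂ)) → (∀ v ∈ S, v ∈ U → ¬ OnHull S v) →
        ∀ (e0 : D0 S) (a : D0 S → ℂ), Fld (points ε ω) U (dl e0) a →
        ∀ (I : Type) [Fintype I] (x : I → D0 S → ZMod 2), Eqd (cm0 hS) x →
        ∀ (s : I → D0 S) (g : I → ℝ), (∀ i, 0 ≤ g i) → (∀ i, g i ≤ 1) →
        (∀ i, 0 < g i → blk (cm0 hS) (x i) (s i) ∈
          bigB (points ε ω) U (cm0 hS) (dl e0) k (x i)) →
        ∑ i, ENNReal.ofReal (g i * ‖∑ t ∈ blk (cm0 hS) (x i) (s i), a t‖ ^ 2) ≤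
            (Fintype.card I : ℝ≥0∞) * E ε ω ∧
        ∑ i, ENNReal.ofReal (g i * ‖∑ t ∈ blk (cm0 hS) (x i) (s i), a t‖) ≤
            (Fintype.card I : ℝ≥0∞) * E ε ω ^ (1 / 2 : ℝ) := by
  obtain ⟨E, h1, h2, h3, h4⟩ := sum_rule_meas hk hU
  refine ⟨E, h1, h2, sqrt_tendsto h1 h2, h3, ?_⟩
  intro ε ω S hS hP hPS hin e0 a ha I _ x hx s g hg0 hg1 hs
  have A := agr0 hP hS hPS hin e0
  have hE : ∑ y ∈ ev (cm0 hS), ∑ β ∈ bigB (points ε ω) U (cm0 hS) (dl e0) k y,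
      ENNReal.ofReal (‖∑ t ∈ β, a t‖ ^ 2) ≤ ((ev (cm0 hS)).card : ℝ≥0∞) * E ε ω := by
    refine le_trans (le_of_eq (Finset.sum_congr rfl fun y hy => ?_))
      (h4 ε ω _ _ (cm0 hS) _ _ A (ch (points ε ω) U S) fun t ht => ch_gd hS hPS e0 ht)
    exact bigB_fld hP hS hPS hin e0 ha (mem_ev.1 hy)
  exact ⟨blk_L2 hx hg1 hs hE, blk_L1 hx hg0 hg1 hs hE⟩

end Crest.Agent.R143.MassQx304
end
end

-- ▼ part R143/Giants_421
section

/-!
# Row 143 (S0194): conditional frame with giants of known colours (helper421)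

`M : CMap D C` (Frame1_395), `blks M (cfg M χ)` = blocks of the colouring `χ : C → ZMod 2` (Frame8_395).

* `frame_ev` : `∑ x even, ∑ β, ‖∑ g ∈ β, a g‖² ≤ #even * (1/4) * ∑ g, ‖a g‖²` (no hypothesis on the cells)
* `frame_all` : the same for the sum over all the colourings (`2 ^ #C * (1/4) * ∑ ‖a g‖²`; since
  `‖a ·‖` is constant on the faces the right side is `2 ^ #C * (3/4) * ∑ faces ‖a‖²`)
* `frame_set` : for an arbitrary set `E` of colourings
* `giants` : colours prescribed on `F` : factor `2 ^ #F`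
* `giants_dens` : after a further event of conditional density at least `c`
* `root_set`, `root_giants`, `root_dens` : the same for the block of one gap chosen as a function of
  the colouring
-/

set_option autoImplicit false

noncomputable section

open scoped Classical

namespace Crest.Agent.R143.Giantsx421

open Crest.Agent.R143.Frame1x395 Crest.Agent.R143.Frame2x395 Crest.Agent.R143.Frame3x395
  Crest.Agent.R143.Frame4x395 Crest.Agent.R143.Frame8x395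

variable {D C : Type} [Fintype D] {M : CMap D C}




/-- number of colourings = `nK * nE` -/
theorem card_col [Fintype C] : nK M * nE M = 2 ^ Fintype.card C := by
  have h1 := sum_cfg (M := M) (A := ℕ) (fun _ => 1)
  simp only [Finset.sum_const, Finset.card_univ, smul_eq_mul, mul_one] at h1
  have h2 : (ev M).card = nE M := rfl
  rw [h2] at h1
  rw [← h1, Fintype.card_fun, ZMod.card]









/-! ### the block of one gap -/





end Crest.Agent.R143.Giantsx421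
end
end

-- ▼ part R143/EqdM_811
section

/-!
# Row 143 (S0194), block RIG, box R7 (helper811): the resampled configuration is equidistributed

`Eqd` = equidistribution over the even configurations (304's `MassQ_304`).
* `eqd_col` : the configuration of a uniform colouring (finitely many cells)
* `eqd_mix` : `(σ, τ) ↦ cfg M (mix O σ τ)` for every stopping set `O` (778)
* `eqd_restr` : `Eqd (restr M) x → Eqd M x`
* `eqd_cm0`, `eqd_cm0_mix` : the plane map, colourings of its finitely many cells `Cs hS`; so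
  `MassQx304.R7` applies with `I` = (pairs of) colourings
-/

set_option autoImplicit false

noncomputable section

open scoped Classical

namespace Crest.Agent.R143.EqdMx811

open Crest.Agent.R143.Mass3x302 Crest.Agent.R143.FinCx811 Crest.Agent.R143.Resax778
  Crest.Agent.R143.MassQx304 Crest.Agent.R143.B0x346
open Crest.Agent.R143.Frame1x395 Crest.Agent.R143.Frame2x395 Crest.Agent.R143.Frame3x395
  Crest.Agent.R143.Frame4x395 Crest.Agent.R143.Frame8x395 Crest.Agent.R143.Frame10x395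

variable {D C : Type} [Fintype D] {M : CMap D C}

/-- number of colourings of an even configuration -/
theorem card_fib [Fintype C] {y : D → ZMod 2} (hy : y ∈ ev M) :
    (∑ χ : C → ZMod 2, if cfg M χ = y then 1 else 0 : ℕ) = nK M := by
  rw [sum_cfg (M := M) (A := ℕ) fun x => if x = y then 1 else 0, Finset.sum_ite_eq', if_pos hy,
    smul_eq_mul, mul_one]


/-- **the resampled configuration is equidistributed** -/
theorem eqd_mix [Fintype C] (M : CMap D C) {O : (C → ZMod 2) → Finset C} (hO : StopSet O) :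
    Eqd M fun p : (C → ZMod 2) × (C → ZMod 2) => cfg M (mix O p.1 p.2) := by
  refine ⟨fun χ => mem_ev.2 (cfg_isC _), fun y hy => le_of_eq ?_⟩
  have h2 := Giantsx421.card_col (M := M)
  have h3 : (ev M).card = nE M := rfl
  rw [Finset.card_filter, Fintype.sum_prod_type,
    sum_mix hO (M := ℕ) fun μ => if cfg M μ = y then 1 else 0, card_fib hy, h3, smul_eq_mul,
    mul_assoc, h2, Fintype.card_prod, Fintype.card_fun, ZMod.card]

theorem eqd_restr {I : Type} [Fintype I] {x : I → D → ZMod 2} (h : Eqd (restr M) x) :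
    Eqd M x := by
  refine ⟨fun i => ?_, fun y hy => ?_⟩
  · rw [← ev_restr]; exact h.ev i
  · rw [← ev_restr] at hy ⊢; exact h.fib y hy

variable {S : Finset ℂ}


/-- **the plane map, resampled colouring of the cells** -/
theorem eqd_cm0_mix (hS : GP (S : Set ℂ)) {O : (Cs hS → ZMod 2) → Finset (Cs hS)}
    (hO : StopSet O) :
    Eqd (cm0 hS) fun p : (Cs hS → ZMod 2) × (Cs hS → ZMod 2) =>
      cfg (rc0 hS) (mix O p.1 p.2) := eqd_restr (eqd_mix (rc0 hS) hO)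

end Crest.Agent.R143.EqdMx811
end
end

-- ▼ part R143/MixF_304
section

/-!
# Row 143 (S0194), box R7 for the resampled configuration (helper304)

* `R7m` : box R7 for pairs `(σ, τ)` and the mixed configuration on 811's finite cells of `cm0 hS`:
  all four fields, L2 and L1 form
-/

set_option autoImplicit false

noncomputable section

open scoped Classical

namespace Crest.Agent.R143.MixFx304

open MeasureTheory Set Filter Topology
open Crest.ProbabilityR.Voronoi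
open Crest.Agent.R143.B0x346 Crest.Agent.R143.SumScx302 Crest.Agent.R143.PP0x831
  Crest.Agent.R143.MassPx304 Crest.Agent.R143.MassQx304 Crest.Agent.R143.Mass2x302
  Crest.Agent.R143.Mass3x302 Crest.Agent.R143.Mass4x302 Crest.Agent.R143.Mass5x302
  Crest.Agent.R143.DelGx806 Crest.Agent.R143.DelRx806 Crest.Agent.R143.JColx54
  Crest.Agent.R143.FinCx811 Crest.Agent.R143.EqdMx811 Crest.Agent.R143.Resax778
open Crest.Agent.R143.Mass1x302 hiding ps
open Crest.Agent.R143.Frame1x395 Crest.Agent.R143.Frame2x395 Crest.Agent.R143.Frame3x395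
  Crest.Agent.R143.Frame4x395 Crest.Agent.R143.Frame8x395 Crest.Agent.R143.Frame10x395
open Crest.Agent.R143.Frame5x395 (sd mem_sd th th_spec)
open scoped ENNReal

/-- **box R7, resampled configuration, all four fields, L2 and L1 form** -/
theorem R7m {k : ℝ} (hk : 0 < k) {U : Set ℂ} (hU : Bornology.IsBounded U) :
    ∃ E : ℝ → Sample → ℝ≥0∞, (∀ ε, 0 < ε → Measurable (E ε)) ∧
      Tendsto (fun ε : ℝ => ∫⁻ ω, E ε ω ∂sampleLaw) (𝓝[>] 0) (𝓝 0) ∧
      Tendsto (fun ε : ℝ => ∫⁻ ω, E ε ω ^ (1 / 2 : ℝ) ∂sampleLaw) (𝓝[>] 0) (𝓝 0) ∧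
      (∀ t : ℝ≥0∞, t ≠ 0 → t ≠ ∞ →
        Tendsto (fun ε : ℝ => sampleLaw {ω | t ≤ E ε ω}) (𝓝[>] 0) (𝓝 0)) ∧
      ∀ (ε : ℝ) (ω : Sample) (S : Finset ℂ) (hS : GP (S : Set ℂ)), GP (points ε ω) →
        (∀ z ∈ U, z ∈ points ε ω ↔ z ∈ (S : Set ℂ)) → (∀ v ∈ S, v ∈ U → ¬ OnHull S v) →
        ∀ (e0 : D0 S) (a : D0 S → ℂ), Fld (points ε ω) U (dl e0) a →
        ∀ (O : (Cs hS → ZMod 2) → Finset (Cs hS)), StopSet O →
        ∀ (g : (Cs hS → ZMod 2) → (Cs hS → ZMod 2) → ℝ)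
          (s0 : (Cs hS → ZMod 2) → (Cs hS → ZMod 2) → D0 S),
        (∀ σ τ, 0 ≤ g σ τ) → (∀ σ τ, g σ τ ≤ 1) →
        (∀ σ τ, 0 < g σ τ →
          Gp (cm0 hS) (cfg (rc0 hS) (mix O σ τ)) (s0 σ τ) ∧
          InU (points ε ω) U (cm0 hS) (dl e0) (cfg (rc0 hS) (mix O σ τ)) (s0 σ τ) ∧
          Big (points ε ω) U (cm0 hS) (dl e0) (cfg (rc0 hS) (mix O σ τ)) k (s0 σ τ)) →
        ∑ σ, ∑ τ, ENNReal.ofReal (g σ τ *
          ‖∑ t ∈ blk (cm0 hS) (cfg (rc0 hS) (mix O σ τ)) (s0 σ τ), a t‖ ^ 2) ≤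
            (2 ^ Fintype.card (Cs hS)) ^ 2 * E ε ω ∧
        ∑ σ, ∑ τ, ENNReal.ofReal (g σ τ *
          ‖∑ t ∈ blk (cm0 hS) (cfg (rc0 hS) (mix O σ τ)) (s0 σ τ), a t‖) ≤
            (2 ^ Fintype.card (Cs hS)) ^ 2 * E ε ω ^ (1 / 2 : ℝ) := by
  obtain ⟨E, h1, h2, h3, h4, h5⟩ := R7 hk hU
  refine ⟨E, h1, h2, h3, h4, ?_⟩
  intro ε ω S hS hP hPS hin e0 a ha O hO g s0 hg0 hg1 hs
  have h := h5 ε ω S hS hP hPS hin e0 a ha ((Cs hS → ZMod 2) × (Cs hS → ZMod 2)) _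
    (eqd_cm0_mix hS hO) (fun p => s0 p.1 p.2) (fun p => g p.1 p.2) (fun p => hg0 _ _)
    (fun p => hg1 _ _) fun p hp => by
      obtain ⟨a1, a2, a3⟩ := hs p.1 p.2 hp
      exact mem_bigB a1 a2 a3
  have hc : (Fintype.card ((Cs hS → ZMod 2) × (Cs hS → ZMod 2)) : ℝ≥0∞) =
      (2 ^ Fintype.card (Cs hS)) ^ 2 := by
    rw [Fintype.card_prod, Fintype.card_fun, ZMod.card, pow_two (2 ^ Fintype.card (Cs hS))]
    push_cast
    rfl
  rw [hc, Fintype.sum_prod_type, Fintype.sum_prod_type] at h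
  exact h

end Crest.Agent.R143.MixFx304
end
end

-- ▼ part R143/SmallA_304

/-!
# Row 143 (S0194), block RIG, field `small` of 970's `Cor`, annealed (helper304)

`dcf ε ω` (609) = the sample with two independent colourings of the same points.

* `chiS hS h3 β` : the colouring of 811's cells `Cs hS` of `cm0 hS` given by the set `β` of the black
  sites (the colour of a cell is the colour of a representative; `chiS_inner` : for inner sites it
  is the colour of the site); `sum_chiS`, `avg_pair` : uniform subsets give uniform colourings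
* `BdL1`, `BdL2` : the quenched hypothesis on a functional `Φ` of the double configuration in `B`
* `small` : `∫ Φ (dcf ε ω ∩ B) ≤ e ε → 0`, `e` depends on `k`, `U` only
* `fldU_zs`, `fldU_zs_conj` : 166's field `zs om z`, `z` = (conjugate) position, is admissible
* `small_nu` : Bochner form with respect to the weighted law
-/

set_option autoImplicit false

noncomputable section

open scoped Classical

namespace Crest.Agent.R143.SmallAx304

open MeasureTheory Set Filter Topology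
open Crest.ProbabilityR.Voronoi
open Crest.Agent.R143.B0x346 Crest.Agent.R143.SumScx302 Crest.Agent.R143.PP0x831
  Crest.Agent.R143.ColSumx304 Crest.Agent.R143.MassQx304 Crest.Agent.R143.Mass2x302
  Crest.Agent.R143.Mass3x302 Crest.Agent.R143.Mass4x302 Crest.Agent.R143.Mass5x302
  Crest.Agent.R143.DelGx806 Crest.Agent.R143.DelRx806 Crest.Agent.R143.JColx54
  Crest.Agent.R143.FinCx811 Crest.Agent.R143.Resax778 Crest.Agent.R143.MixFx304
  Crest.Agent.R143.Dblx609 Crest.Agent.R143.Dbl2x609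
open Crest.Agent.R143.Mass1x302 hiding ps
open Crest.Agent.R143.Frame1x395 Crest.Agent.R143.Frame2x395 Crest.Agent.R143.Frame3x395
  Crest.Agent.R143.Frame4x395 Crest.Agent.R143.Frame8x395 Crest.Agent.R143.Frame10x395
open Crest.Agent.R143.Frame5x395 (sd mem_sd th th_spec)
open scoped ENNReal

/-! ### colourings of the cells given by sets of sites -/

section cells

variable {S : Finset ℂ} (hS : GP (S : Set ℂ)) (h3 : 3 ≤ S.card)

/-- representative site of a cell -/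
def rp (c : Cs hS) : {v // v ∈ S} := (cs_surj hS h3 c).choose

theorem cs_rp (c : Cs hS) : cs hS h3 (rp hS h3 c) = c := (cs_surj hS h3 c).choose_spec

theorem rp_inj : Function.Injective (rp hS h3) := fun c c' h => by
  rw [← cs_rp hS h3 c, ← cs_rp hS h3 c', h]

theorem rp_inner {v : {v // v ∈ S}} (hv : ¬ OnHull S v.1) : rp hS h3 (cs hS h3 v) = v :=
  cs_inj hS h3 hv (cs_rp hS h3 (cs hS h3 v)).symm

/-- colouring of the cells given by the set of the black sites -/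
def chiS (β : Finset ℂ) (c : Cs hS) : ZMod 2 := if (rp hS h3 c).1 ∈ β then 1 else 0

theorem chiS_inner (β : Finset ℂ) {v : {v // v ∈ S}} (hv : ¬ OnHull S v.1) :
    chiS hS h3 β (cs hS h3 v) = if v.1 ∈ β then 1 else 0 := by
  unfold chiS
  rw [rp_inner hS h3 hv]

include h3 in
theorem card_Cs_le : Fintype.card (Cs hS) ≤ S.card := by
  have h := Fintype.card_le_of_injective _ (rp_inj hS h3)
  rwa [Fintype.card_coe] at h

/-- sets of sites and colourings of the sites -/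
theorem sum_pow {A : Type*} [AddCommMonoid A] (S : Finset ℂ) (F : ({v // v ∈ S} → ZMod 2) → A) :
    ∑ β ∈ S.powerset, F (fun v => if v.1 ∈ β then 1 else 0) = ∑ σ, F σ := by
  refine Finset.sum_bij' (fun β _ => fun v : {v // v ∈ S} => if v.1 ∈ β then (1 : ZMod 2) else 0)
    (fun σ _ => (Finset.univ.filter fun v : {v // v ∈ S} => σ v = 1).map
      (Function.Embedding.subtype _)) (fun β _ => Finset.mem_univ _) ?_ ?_ ?_ ?_
  · intro σ _
    rw [Finset.mem_powerset]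
    intro v hv
    obtain ⟨w, -, rfl⟩ := Finset.mem_map.1 hv
    exact w.2
  · intro β hβ
    ext v
    constructor
    · intro hv
      obtain ⟨w, hw, rfl⟩ := Finset.mem_map.1 hv
      have h1 : (if w.1 ∈ β then (1 : ZMod 2) else 0) = 1 := (Finset.mem_filter.1 hw).2
      by_contra hv'
      have h2 : ¬ (w.1 ∈ β) := hv'
      rw [if_neg h2] at h1
      exact absurd h1 (by decide)
    · intro hv
      exact Finset.mem_map.2 ⟨⟨v, Finset.mem_powerset.1 hβ hv⟩,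
        Finset.mem_filter.2 ⟨Finset.mem_univ _, if_pos hv⟩, rfl⟩
  · intro σ _
    funext v
    have e : v.1 ∈ (Finset.univ.filter fun v : {v // v ∈ S} => σ v = 1).map
        (Function.Embedding.subtype _) ↔ σ v = 1 := by
      simp
    by_cases h : σ v = 1
    · rw [if_pos (e.2 h), h]
    · rw [if_neg fun h' => h (e.1 h')]
      revert h
      generalize σ v = a
      revert a; decide
  · intro β _
    rfl

theorem sum_chiS {A : Type*} [AddCommMonoid A] (F : (Cs hS → ZMod 2) → A) :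
    ∑ β ∈ S.powerset, F (chiS hS h3 β) = (2 ^ (S.card - Fintype.card (Cs hS))) • ∑ χ, F χ := by
  have h1 := sum_comp_inj (B := ZMod 2) (rp_inj hS h3) F
  rw [ZMod.card, Fintype.card_coe] at h1
  have h2 := sum_pow S fun σ => F fun c => σ (rp hS h3 c)
  have h3' : ∑ σ : {v // v ∈ S} → ZMod 2, F (fun c => σ (rp hS h3 c)) =
      (2 ^ (S.card - Fintype.card (Cs hS))) • ∑ χ, F χ := by
    convert h1
  exact h2.trans h3'

theorem avg_one (F : (Cs hS → ZMod 2) → ℝ≥0∞) :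
    ((2 : ℝ≥0∞) ^ S.card)⁻¹ * ∑ β ∈ S.powerset, F (chiS hS h3 β) =
      ((2 : ℝ≥0∞) ^ Fintype.card (Cs hS))⁻¹ * ∑ χ, F χ := by
  rw [sum_chiS, nsmul_eq_mul, ← mul_assoc]
  congr 1
  push_cast
  have h := card_Cs_le hS h3
  have e : (2 : ℝ≥0∞) ^ S.card = 2 ^ Fintype.card (Cs hS) * 2 ^ (S.card - Fintype.card (Cs hS)) := by
    rw [← pow_add, Nat.add_sub_cancel' h]
  have t1 : ∀ m : ℕ, (2 : ℝ≥0∞) ^ m ≠ 0 := fun m => by positivity
  have t2 : ∀ m : ℕ, (2 : ℝ≥0∞) ^ m ≠ ∞ := fun m => ENNReal.pow_ne_top (by norm_num)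
  rw [e, ENNReal.mul_inv (Or.inl (t1 _)) (Or.inl (t2 _)), mul_assoc,
    ENNReal.inv_mul_cancel (t1 _) (t2 _), mul_one]

/-- uniform pairs of sets of sites give uniform pairs of colourings of the cells -/
theorem avg_pair (F : (Cs hS → ZMod 2) → (Cs hS → ZMod 2) → ℝ≥0∞) :
    ((4 : ℝ≥0∞) ^ S.card)⁻¹ * ∑ β ∈ S.powerset, ∑ β' ∈ S.powerset,
        F (chiS hS h3 β) (chiS hS h3 β') =
      ((2 ^ Fintype.card (Cs hS)) ^ 2)⁻¹ * ∑ σ, ∑ τ, F σ τ := by
  have t1 : ∀ m : ℕ, (2 : ℝ≥0∞) ^ m ≠ 0 := fun m => by positivity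
  have t2 : ∀ m : ℕ, (2 : ℝ≥0∞) ^ m ≠ ∞ := fun m => ENNReal.pow_ne_top (by norm_num)
  have e4 : ((4 : ℝ≥0∞) ^ S.card)⁻¹ = ((2 : ℝ≥0∞) ^ S.card)⁻¹ * ((2 : ℝ≥0∞) ^ S.card)⁻¹ := by
    rw [← ENNReal.mul_inv (Or.inl (t1 _)) (Or.inl (t2 _)), ← mul_pow]
    norm_num
  have e2 : ((2 ^ Fintype.card (Cs hS)) ^ 2 : ℝ≥0∞)⁻¹ =
      ((2 : ℝ≥0∞) ^ Fintype.card (Cs hS))⁻¹ * ((2 : ℝ≥0∞) ^ Fintype.card (Cs hS))⁻¹ := by
    rw [pow_two, ENNReal.mul_inv (Or.inl (t1 _)) (Or.inl (t2 _))]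
  have h1 : ∀ σ, ((2 : ℝ≥0∞) ^ S.card)⁻¹ * ∑ β' ∈ S.powerset, F σ (chiS hS h3 β') =
      ((2 : ℝ≥0∞) ^ Fintype.card (Cs hS))⁻¹ * ∑ τ, F σ τ := fun σ => avg_one hS h3 (F σ)
  have h2 := avg_one hS h3 fun σ => ((2 : ℝ≥0∞) ^ Fintype.card (Cs hS))⁻¹ * ∑ τ, F σ τ
  rw [e4, e2, mul_assoc, mul_assoc, Finset.mul_sum (a := ((2 : ℝ≥0∞) ^ S.card)⁻¹),
    Finset.mul_sum (a := ((2 : ℝ≥0∞) ^ Fintype.card (Cs hS))⁻¹)]
  rw [← h2]
  congr 1
  refine Finset.sum_congr rfl fun β _ => ?_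
  rw [h1]

end cells

/-! ### fields up to a unimodular constant -/

/-- the four fields up to a unimodular constant -/
def FldU {D : Type} (P U : Set ℂ) (δ : ℂ → ℂ → D) (a : D → ℂ) : Prop :=
  ∃ u : ℂ, ‖u‖ = 1 ∧ Fld P U δ fun d => u * a d


theorem norm_om1 : ‖om‖ = 1 := by
  unfold om
  rw [Complex.norm_exp_ofReal_mul_I]

section zsf

variable {S : Finset ℂ} {P U : Set ℂ}

theorem zs_gd (hS : GP (S : Set ℂ)) (hPS : ∀ z ∈ U, z ∈ P ↔ z ∈ (S : Set ℂ)) (e0 : D0 S)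
    {f : ℂ → ℂ} {z : Cs hS → ℂ} (hz : ∀ d : D0 S, d.1.1 ∈ U → z ((rc0 hS).cell d) = f d.1.1)
    {t : T3} (ht : Fc P U t.1 t.2.1 t.2.2) :
    Coarse2x166.zs (rc0 hS) om z (gd (dl e0) t) =
      f t.2.2 + om * f t.1 + om ^ 2 * f t.2.1 := by
  obtain ⟨a, b, c⟩ := t
  change Fc P U a b c at ht
  have h3 : (c, a, b) ∈ delT S := mem_delT.2 (fc_congr hPS ht.rot.rot).1
  have hs : (c, a) ∈ sd S := mem_sd.2 ⟨b, h3⟩
  have hd : gd (dl e0) (a, b, c) = ⟨(c, a), hs⟩ := dl_eq hs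
  rw [hd]
  have e1 : z ((rc0 hS).cell ⟨(c, a), hs⟩) = f c := hz _ (fc_memU ht.rot.rot)
  have e2 : z ((rc0 hS).cell ((rc0 hS).rho ⟨(c, a), hs⟩)) = f a := hz _ (fc_memU ht)
  have e3 : z ((rc0 hS).cell ((rc0 hS).rho ((rc0 hS).rho ⟨(c, a), hs⟩))) = f b := by
    have hb : ((rc0 hS).rho ((rc0 hS).rho ⟨(c, a), hs⟩)).1.1 = b := th0 hS h3
    rw [hz _ (by rw [hb]; exact fc_memU ht.rot), hb]
  unfold Coarse2x166.zs
  rw [e1, e2, e3]

/-- the field of `T` (positions) -/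
theorem fldU_zs (hS : GP (S : Set ℂ)) (hPS : ∀ z ∈ U, z ∈ P ↔ z ∈ (S : Set ℂ)) (e0 : D0 S)
    {z : Cs hS → ℂ} (hz : ∀ d : D0 S, d.1.1 ∈ U → z ((rc0 hS).cell d) = d.1.1) :
    FldU P U (dl e0) (Coarse2x166.zs (rc0 hS) om z) := by
  refine ⟨om, norm_om1, Or.inr (Or.inl fun t ht => ?_)⟩
  show om * Coarse2x166.zs (rc0 hS) om z (gd (dl e0) t) = (starRingEnd ℂ) (Nn t)
  rw [zs_gd hS hPS e0 (f := id) hz ht]
  have h1 : (starRingEnd ℂ) om = om ^ 2 := Mass4x302.om_conj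
  have h3 : om ^ 3 = 1 := Mass4x302.om3
  unfold Nn
  simp only [map_add, map_mul, map_pow, Complex.conj_conj, h1, id]
  linear_combination (t.2.1 - om * t.2.2) * h3


end zsf

/-! ### the annealed statement -/

/-- block sum of the field `a` over the block of `s0` in the resampled configuration -/
def Vm {S : Finset ℂ} (hS : GP (S : Set ℂ)) (O : (Cs hS → ZMod 2) → Finset (Cs hS))
    (s0 : (Cs hS → ZMod 2) → (Cs hS → ZMod 2) → D0 S) (a : D0 S → ℂ) (σ τ : Cs hS → ZMod 2) : ℂ :=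
  ∑ t ∈ blk (cm0 hS) (cfg (rc0 hS) (mix O σ τ)) (s0 σ τ), a t

/-- the quenched hypothesis at the set `A` of the points in `B`, power `m` (`m = 1`: L1 form,
`m = 2`: L2 form) -/
def Qh (m : ℕ) (k : ℝ) (U P : Set ℂ) (A : Finset ℂ) (Φ : Set (ℂ × (Bool × Bool)) → ℝ≥0∞) : Prop :=
  (∀ β ∈ A.powerset, ∀ β' ∈ A.powerset, Φ (paint2 A β β') = 0) ∨
  ∃ (hS : GP (A : Set ℂ)) (h3 : 3 ≤ A.card), (∀ v ∈ A, v ∈ U → ¬ OnHull A v) ∧
    ∃ (e0 : D0 A) (a : D0 A → ℂ), FldU P U (dl e0) a ∧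
    ∃ (O : (Cs hS → ZMod 2) → Finset (Cs hS)), StopSet O ∧
    ∃ (g : (Cs hS → ZMod 2) → (Cs hS → ZMod 2) → ℝ)
      (s0 : (Cs hS → ZMod 2) → (Cs hS → ZMod 2) → D0 A),
      (∀ σ τ, 0 ≤ g σ τ) ∧ (∀ σ τ, g σ τ ≤ 1) ∧
      (∀ σ τ, 0 < g σ τ →
        Gp (cm0 hS) (cfg (rc0 hS) (mix O σ τ)) (s0 σ τ) ∧
        InU P U (cm0 hS) (dl e0) (cfg (rc0 hS) (mix O σ τ)) (s0 σ τ) ∧
        Big P U (cm0 hS) (dl e0) (cfg (rc0 hS) (mix O σ τ)) k (s0 σ τ)) ∧
      ∀ β ∈ A.powerset, ∀ β' ∈ A.powerset, Φ (paint2 A β β') ≤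
        ENNReal.ofReal (g (chiS hS h3 β) (chiS hS h3 β') *
          ‖Vm hS O s0 a (chiS hS h3 β) (chiS hS h3 β')‖ ^ m)

/-- **FIELD `small`, annealed.** `e1 ε → 0` and `e2 ε → 0` depend only on `k` and `U`; for every
bounded `B ⊇ U` and every functional `Φ` of the double configuration in `B` (no measurability)
which is bounded, for a.e. environment, by `g * |V|` (resp. `g * |V|²`), `V` = sum of one of the
four fields over a macroscopic block with loop in `U` of the resampled configuration: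
`∫ Φ ≤ e1 ε` (resp. `e2 ε`). -/
theorem small {k : ℝ} (hk : 0 < k) {U : Set ℂ} (hU : Bornology.IsBounded U) :
    ∃ e1 e2 : ℝ → ℝ≥0∞, Tendsto e1 (𝓝[>] 0) (𝓝 0) ∧ Tendsto e2 (𝓝[>] 0) (𝓝 0) ∧
      ∀ ε : ℝ, 0 < ε → ∀ B : Set ℂ, Bornology.IsBounded B → U ⊆ B →
      ∀ Φ : Set (ℂ × (Bool × Bool)) → ℝ≥0∞,
      ((∀ᵐ ω ∂sampleLaw, Qh 1 k U (points ε ω) (Ap ε B ω) Φ) →
        ∫⁻ ω, Φ (dcf ε ω ∩ ovM (Bool × Bool) B) ∂sampleLaw ≤ e1 ε) ∧
      ((∀ᵐ ω ∂sampleLaw, Qh 2 k U (points ε ω) (Ap ε B ω) Φ) →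
        ∫⁻ ω, Φ (dcf ε ω ∩ ovM (Bool × Bool) B) ∂sampleLaw ≤ e2 ε) := by
  obtain ⟨E, h1, h2, h3, h4, h5⟩ := R7m hk hU
  refine ⟨fun ε => ∫⁻ ω, E ε ω ^ (1 / 2 : ℝ) ∂sampleLaw, fun ε => ∫⁻ ω, E ε ω ∂sampleLaw,
    h3, h2, ?_⟩
  intro ε hε B hB hUB Φ
  have hGP : ∀ᵐ ω ∂sampleLaw, GP (points ε ω) := by
    filter_upwards [PoisM3x930.m3a ε hε] with ω h using h.1
  have key : ∀ m : ℕ, ∀ F : Sample → ℝ≥0∞,
      (∀ᵐ ω ∂sampleLaw, Qh m k U (points ε ω) (Ap ε B ω) Φ) →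
      (∀ ω, GP (points ε ω) → ∀ (hS : GP ((Ap ε B ω : Finset ℂ) : Set ℂ)),
        (∀ v ∈ Ap ε B ω, v ∈ U → ¬ OnHull (Ap ε B ω) v) →
        ∀ (e0 : D0 (Ap ε B ω)) (a : D0 (Ap ε B ω) → ℂ), FldU (points ε ω) U (dl e0) a →
        ∀ (O : (Cs hS → ZMod 2) → Finset (Cs hS)), StopSet O →
        ∀ (g : (Cs hS → ZMod 2) → (Cs hS → ZMod 2) → ℝ)
          (s0 : (Cs hS → ZMod 2) → (Cs hS → ZMod 2) → D0 (Ap ε B ω)),
        (∀ σ τ, 0 ≤ g σ τ) → (∀ σ τ, g σ τ ≤ 1) →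
        (∀ σ τ, 0 < g σ τ →
          Gp (cm0 hS) (cfg (rc0 hS) (mix O σ τ)) (s0 σ τ) ∧
          InU (points ε ω) U (cm0 hS) (dl e0) (cfg (rc0 hS) (mix O σ τ)) (s0 σ τ) ∧
          Big (points ε ω) U (cm0 hS) (dl e0) (cfg (rc0 hS) (mix O σ τ)) k (s0 σ τ)) →
        ∑ σ, ∑ τ, ENNReal.ofReal (g σ τ * ‖Vm hS O s0 a σ τ‖ ^ m) ≤
          (2 ^ Fintype.card (Cs hS)) ^ 2 * F ω) →
      ∫⁻ ω, Φ (dcf ε ω ∩ ovM (Bool × Bool) B) ∂sampleLaw ≤ ∫⁻ ω, F ω ∂sampleLaw := by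
    intro m F hQ hF
    refine (lint_le_qav (d := dd) ε B Φ).trans (lintegral_mono_ae ?_)
    filter_upwards [ae_injω hε, hGP, hQ] with ω hi hP hq
    have hA := coe_Ap hε hB ω
    rw [qav_dd hi hA]
    rcases hq with hq | ⟨hS, h3, hin, e0, a, ha, O, hO, g, s0, g0, g1, hs, hΦ⟩
    · rw [Finset.sum_eq_zero fun β hβ => Finset.sum_eq_zero fun β' hβ' => hq β hβ β' hβ',
        mul_zero]
      exact zero_le
    · have b1 : ∑ β ∈ (Ap ε B ω).powerset, ∑ β' ∈ (Ap ε B ω).powerset,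
          Φ (paint2 (Ap ε B ω) β β') ≤
          ∑ β ∈ (Ap ε B ω).powerset, ∑ β' ∈ (Ap ε B ω).powerset,
          ENNReal.ofReal (g (chiS hS h3 β) (chiS hS h3 β') *
            ‖Vm hS O s0 a (chiS hS h3 β) (chiS hS h3 β')‖ ^ m) :=
        Finset.sum_le_sum fun β hβ => Finset.sum_le_sum fun β' hβ' => hΦ β hβ β' hβ'
      have b2 := avg_pair hS h3 fun σ τ => ENNReal.ofReal (g σ τ * ‖Vm hS O s0 a σ τ‖ ^ m)
      have b3 := hF ω hP hS hin e0 a ha O hO g s0 g0 g1 hs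
      have t1 : ((2 ^ Fintype.card (Cs hS)) ^ 2 : ℝ≥0∞) ≠ 0 := by positivity
      have t2 : ((2 ^ Fintype.card (Cs hS)) ^ 2 : ℝ≥0∞) ≠ ∞ :=
        ENNReal.pow_ne_top (ENNReal.pow_ne_top (by norm_num))
      calc _ ≤ ((4 : ℝ≥0∞) ^ (Ap ε B ω).card)⁻¹ * ∑ β ∈ (Ap ε B ω).powerset,
            ∑ β' ∈ (Ap ε B ω).powerset,
            ENNReal.ofReal (g (chiS hS h3 β) (chiS hS h3 β') *
              ‖Vm hS O s0 a (chiS hS h3 β) (chiS hS h3 β')‖ ^ m) := by gcongr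
        _ = ((2 ^ Fintype.card (Cs hS)) ^ 2)⁻¹ *
            ∑ σ, ∑ τ, ENNReal.ofReal (g σ τ * ‖Vm hS O s0 a σ τ‖ ^ m) := b2
        _ ≤ ((2 ^ Fintype.card (Cs hS)) ^ 2)⁻¹ * ((2 ^ Fintype.card (Cs hS)) ^ 2 * F ω) := by
            gcongr
        _ = F ω := by rw [← mul_assoc, ENNReal.inv_mul_cancel t1 t2, one_mul]
  have hPS : ∀ ω, ∀ z ∈ U, z ∈ points ε ω ↔ z ∈ ((Ap ε B ω : Finset ℂ) : Set ℂ) := by
    intro ω z hz
    rw [coe_Ap hε hB ω]
    exact ⟨fun h => ⟨h, hUB hz⟩, fun h => h.1⟩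
  have hnorm : ∀ {A : Finset ℂ} (hS : GP (A : Set ℂ)) (O : (Cs hS → ZMod 2) → Finset (Cs hS))
      (s0 : (Cs hS → ZMod 2) → (Cs hS → ZMod 2) → D0 A) (a : D0 A → ℂ) (u : ℂ), ‖u‖ = 1 →
      ∀ σ τ, ‖Vm hS O s0 a σ τ‖ = ‖∑ t ∈ blk (cm0 hS) (cfg (rc0 hS) (mix O σ τ)) (s0 σ τ),
        u * a t‖ := by
    intro A hS O s0 a u hu σ τ
    rw [← Finset.mul_sum, norm_mul, hu, one_mul]
    rfl
  constructor
  · intro hQ
    refine key 1 (fun ω => E ε ω ^ (1 / 2 : ℝ)) hQ ?_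
    intro ω hP hS hin e0 a ⟨u, hu, ha⟩ O hO g s0 g0 g1 hs
    have := (h5 ε ω (Ap ε B ω) hS hP (hPS ω) hin e0 _ ha O hO g s0 g0 g1 hs).2
    simp only [pow_one, hnorm hS O s0 a u hu]
    exact this
  · intro hQ
    refine key 2 (fun ω => E ε ω) hQ ?_
    intro ω hP hS hin e0 a ⟨u, hu, ha⟩ O hO g s0 g0 g1 hs
    simp only [hnorm hS O s0 a u hu]
    exact (h5 ε ω (Ap ε B ω) hS hP (hPS ω) hin e0 _ ha O hO g s0 g0 g1 hs).1


end Crest.Agent.R143.SmallAx304
end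
namespace Crest.Agent.R143.SmallAx304.Fld
end Crest.Agent.R143.SmallAx304.Fld
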