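import Crest.Agent.R143.ColX_829
import Crest.Agent.R143.SmallA_304
import Crest.Agent.R143.RigD_654
import Crest.Agent.R143.QuT_395
import Crest.Agent.R143.WLoc10_713

/-!
# Row 143 (S0194), RIG glue (helper597; 831's GWX): black sites `β ∈ S.powerset` (654's `Quen`) and
colourings of the cells `Cs hS` (829's `Xc`, 304's `chiS`, 829's `scol`)

* `Xc_chiS` : `Xc (chiS β) ∩ ovr T = clr S β ∩ ovr T` on regions without hull sites
* `loc_chiS`, `loc_scol` : `F (Xc (chiS β)) = F (clr S β)` for `F` local on such a region; `pos_chiS`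
* `av_chiS`, `av_chiS2` : means over the sets of black sites of functions of the colouring
  (no condition: hull cells included)
* `QuenC` : 654's `Quen` in colourings of the cells; **`QuenC.quen`** : `QuenC → Quen`
* `fresh_av`, `fresh_pow` : 395's `fresh_ts` as means, `t = omz (-i)`, `TK = TS S (st A) z / 3`;
  `fresh_sys` : the same for 166's `Vg` and 358's giants `gA`
* `local_sum`, `local_zero` : sums of local functions; `hullOff_mono`
-/

set_option autoImplicit false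
set_option linter.unusedSectionVars false

noncomputable section

open scoped Classical

namespace Crest.Agent.R143.GWXx597

open Set MeasureTheory
open Crest.ProbabilityR.Voronoi
open Crest.Agent.R143.B0x346 Crest.Agent.R143.FinCx811 Crest.Agent.R143.Resax778
  Crest.Agent.R143.Frame10x395 Crest.Agent.R143.DelGx806 Crest.Agent.R143.Freshx829
  Crest.Agent.R143.Frame1x395 Crest.Agent.R143.ColXx829
open Crest.Agent.R143.PP0x831 Crest.Agent.R143.Poisx304 Crest.Agent.R143.Janx304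
  Crest.Agent.R143.FinMx609 Crest.Agent.R143.WLocx713 Crest.Agent.R143.IndLoc3x279
open Crest.Agent.R143.CorMx970 (av far)
open Crest.Agent.R143.SmallAx304 (chiS chiS_inner sum_chiS card_Cs_le)
open Crest.Agent.R143.RigDx654 (Quen)

variable {S : Finset ℂ} {hS : GP (S : Set ℂ)} {h3 : 3 ≤ S.card}

/-! ### local functions of the coloured sites -/

section loc

variable {β : Finset ℂ} {T : Set ℂ} {E : Type*} {F : Set (ℂ × Bool) → E}

/-- 304's colouring on a region without hull sites -/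
theorem Xc_chiS (hT : ∀ v ∈ S, v ∈ T → ¬ OnHull S v) :
    Xc hS h3 (chiS hS h3 β) ∩ ovr T = clr S β ∩ ovr T := by
  refine clr_inter_congr (fun _ _ => Iff.rfl) fun v hvT hv => ?_
  rw [mem_bs hv, chiS_inner hS h3 β (v := ⟨v, hv⟩) (hT v hv hvT)]
  by_cases h : v ∈ β
  · rw [if_pos h]
    exact ⟨fun _ => h, fun _ => rfl⟩
  · rw [if_neg h]
    exact ⟨fun h' => absurd h' (by decide), fun h' => absurd h' h⟩


/-- **local functions** -/
theorem loc_chiS (hF : LocalOn T F) (hT : ∀ v ∈ S, v ∈ T → ¬ OnHull S v) :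
    F (Xc hS h3 (chiS hS h3 β)) = F (clr S β) := by
  rw [hF (clr S β), hF (Xc hS h3 (chiS hS h3 β))]
  exact congrArg F (Xc_chiS (T := T) hT)






end loc

/-! ### means -/

section means

variable {E : Type*} [AddCommGroup E] [Module ℝ E]

theorem card_col {fi : Fintype (Cs hS → ZMod 2)} :
    (Fintype.card (Cs hS → ZMod 2) : ℝ) = 2 ^ Fintype.card (Cs hS) := by
  rw [card_two hS]
  push_cast
  rfl

/-- **mean over the sets of black sites** of any function of the colouring of the cells -/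
theorem av_chiS {fi : Fintype (Cs hS → ZMod 2)} (F : (Cs hS → ZMod 2) → E) :
    av S.powerset (fun β => F (chiS hS h3 β)) =
      av (Finset.univ : Finset (Cs hS → ZMod 2)) F := by
  have h := sum_chiS hS h3 F
  have h' : ∑ β ∈ S.powerset, F (chiS hS h3 β) =
      (2 ^ (S.card - Fintype.card (Cs hS))) • ∑ χ : Cs hS → ZMod 2, F χ := by
    rw [h]
    congr 1
    exact Finset.sum_congr (by ext; simp) fun _ _ => rfl
  unfold av
  rw [h', Finset.card_powerset, Finset.card_univ, card_col, ← Nat.cast_smul_eq_nsmul ℝ, smul_smul]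
  congr 1
  push_cast
  have h4 := card_Cs_le hS h3
  have e : (2 : ℝ) ^ S.card =
      2 ^ Fintype.card (Cs hS) * 2 ^ (S.card - Fintype.card (Cs hS)) := by
    rw [← pow_add, Nat.add_sub_cancel' h4]
  rw [e, mul_inv, mul_assoc, inv_mul_cancel₀ (by positivity), mul_one]


end means

/-! ### the record `Quen` in colourings of the cells -/

section quen

open CorMx970

/-- **654's `Quen` in colourings of the cells** -/
structure QuenC (hS : GP (S : Set ℂ)) (h3 : 3 ≤ S.card) [fi : Fintype (Cs hS → ZMod 2)]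
    (n r c : ℕ) (g : Set (ℂ × Bool) → ℝ)
    (V : ℕ → Set (ℂ × Bool) → ℂ) (a b : Set (ℂ × Bool) → ℕ) (t T : ℂ) (E1 a2 θ Q : ℝ)
    (Vβ Vγ : (Cs hS → ZMod 2) → (Cs hS → ZMod 2) → ℂ) (TK : (Cs hS → ZMod 2) → ℂ)
    (W : ℕ → (Cs hS → ZMod 2) → (Cs hS → ZMod 2) → ℂ)
    (ka kb : (Cs hS → ZMod 2) → (Cs hS → ZMod 2) → ℕ) : Prop where
  hb' : ∀ τ, b (Xc hS h3 τ) ≤ n
  hkb : ∀ σ, 0 < g (Xc hS h3 σ) → ∀ τ, kb σ τ ≤ n
  hWV : ∀ σ, 0 < g (Xc hS h3 σ) → ∀ τ, ∀ l < n,
    ka σ τ + c ≤ l → l + c < kb σ τ → W l σ τ = V l (Xc hS h3 σ)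
  hW0 : ∀ σ, 0 < g (Xc hS h3 σ) → ∀ τ, ∀ l < n,
    l + c < ka σ τ ∨ kb σ τ + c ≤ l → W l σ τ = 0
  close : ∀ σ, 0 < g (Xc hS h3 σ) → ∀ τ,
    Vβ σ τ = Vγ σ τ + ∑ l ∈ Finset.range n, W l σ τ
  fresh : ∀ σ, 0 < g (Xc hS h3 σ) → av Finset.univ (Vγ σ) = t * TK σ
  small : av Finset.univ (fun σ => g (Xc hS h3 σ) * av Finset.univ fun τ => ‖Vβ σ τ‖) ≤ E1
  cont : ∀ σ, 0 < g (Xc hS h3 σ) → ‖TK σ - T‖ ≤ a2
  hθ : ∀ σ, 0 < g (Xc hS h3 σ) → av Finset.univ
    (far r ka kb (fun τ => a (Xc hS h3 τ)) (fun τ => b (Xc hS h3 τ)) σ) ≤ θ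
  hQ : ∑ l ∈ Finset.range n,
    av Finset.univ (fun σ => g (Xc hS h3 σ) * av Finset.univ fun τ => ‖W l σ τ‖ ^ 2) ≤ Q

variable {fi : Fintype (Cs hS → ZMod 2)} {n r c : ℕ} {g : Set (ℂ × Bool) → ℝ}
  {V : ℕ → Set (ℂ × Bool) → ℂ} {a b : Set (ℂ × Bool) → ℕ} {t T : ℂ} {E1 a2 θ Q : ℝ}
  {Vβ Vγ : (Cs hS → ZMod 2) → (Cs hS → ZMod 2) → ℂ} {TK : (Cs hS → ZMod 2) → ℂ}
  {W : ℕ → (Cs hS → ZMod 2) → (Cs hS → ZMod 2) → ℂ}
  {ka kb : (Cs hS → ZMod 2) → (Cs hS → ZMod 2) → ℕ}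

/-- **from colourings of the cells to sets of black sites**: the weight, the tile charges and the
touches of the polygon are local on regions without hull sites -/
theorem QuenC.quen (h : QuenC hS h3 n r c g V a b t T E1 a2 θ Q Vβ Vγ TK W ka kb)
    {R Ra Rb : Set ℂ} {RV : ℕ → Set ℂ} (hg : LocalOn R g) (hV : ∀ l < n, LocalOn (RV l) (V l))
    (ha : LocalOn Ra a) (hb : LocalOn Rb b)
    (oR : ∀ v ∈ S, v ∈ R → ¬ OnHull S v) (oV : ∀ l < n, ∀ v ∈ S, v ∈ RV l → ¬ OnHull S v)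
    (oa : ∀ v ∈ S, v ∈ Ra → ¬ OnHull S v) (ob : ∀ v ∈ S, v ∈ Rb → ¬ OnHull S v) :
    Quen n r c S g V a b t T E1 a2 θ Q (fun β β' => Vβ (chiS hS h3 β) (chiS hS h3 β'))
      (fun β β' => Vγ (chiS hS h3 β) (chiS hS h3 β')) (fun β => TK (chiS hS h3 β))
      (fun l β β' => W l (chiS hS h3 β) (chiS hS h3 β'))
      (fun β β' => ka (chiS hS h3 β) (chiS hS h3 β'))
      (fun β β' => kb (chiS hS h3 β) (chiS hS h3 β')) := by
  have eg : ∀ β : Finset ℂ, g (clr S β) = g (Xc hS h3 (chiS hS h3 β)) :=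
    fun β => (loc_chiS hg oR).symm
  have ea : ∀ β : Finset ℂ, a (clr S β) = a (Xc hS h3 (chiS hS h3 β)) :=
    fun β => (loc_chiS ha oa).symm
  have eb : ∀ β : Finset ℂ, b (clr S β) = b (Xc hS h3 (chiS hS h3 β)) :=
    fun β => (loc_chiS hb ob).symm
  refine ⟨?_, ?_, ?_, ?_, ?_, ?_, ?_, ?_, ?_, ?_⟩
  · intro τ _
    rw [eb]
    exact h.hb' _
  · intro σ _ h0 τ _
    rw [eg] at h0
    exact h.hkb _ h0 _
  · intro σ _ h0 τ _ l hl h1 h2
    rw [eg] at h0
    rw [h.hWV _ h0 _ l hl h1 h2, loc_chiS (hV l hl) (oV l hl)]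
  · intro σ _ h0 τ _ l hl h1
    rw [eg] at h0
    exact h.hW0 _ h0 _ l hl h1
  · intro σ _ h0 τ _
    rw [eg] at h0
    exact h.close _ h0 _
  · intro σ _ h0
    rw [eg] at h0
    rw [← h.fresh _ h0]
    exact av_chiS (h3 := h3) (Vγ (chiS hS h3 σ))
  · refine le_trans (le_of_eq ?_) h.small
    rw [← av_chiS (h3 := h3)]
    refine av_congr fun β _ => ?_
    rw [eg, av_chiS (h3 := h3) fun τ => ‖Vβ (chiS hS h3 β) τ‖]
  · intro σ _ h0
    rw [eg] at h0
    exact h.cont _ h0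
  · intro σ _ h0
    rw [eg] at h0
    refine le_trans (le_of_eq ?_) (h.hθ _ h0)
    rw [← av_chiS (h3 := h3), show (fun τ : Finset ℂ => a (clr S τ)) =
      fun β => a (Xc hS h3 (chiS hS h3 β)) from funext ea,
      show (fun τ : Finset ℂ => b (clr S τ)) =
      fun β => b (Xc hS h3 (chiS hS h3 β)) from funext eb]
    rfl
  · refine le_trans (le_of_eq ?_) h.hQ
    refine Finset.sum_congr rfl fun l _ => ?_
    rw [← av_chiS (h3 := h3)]
    refine av_congr fun β _ => ?_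
    rw [eg, av_chiS (h3 := h3) fun τ => ‖W l (chiS hS h3 β) τ‖ ^ 2]

end quen

/-! ### fresh -/

section fresh

open Crest.Agent.R143.Frame2x395 Crest.Agent.R143.Frame3x395
  Crest.Agent.R143.Frame4x395 Crest.Agent.R143.Frame8x395 Crest.Agent.R143.Frame9x395
  Crest.Agent.R143.C2Sx395 Crest.Agent.R143.C2SBx395 Crest.Agent.R143.C2SCx395
  Crest.Agent.R143.C2SDx395 Crest.Agent.R143.QuFx778
open Crest.Agent.R143.NetUx346 (TS)
open CorMx970

variable {fi : Fintype (Cs hS → ZMod 2)} {A : ZMod 3 → Set (Cs hS)} {i : ZMod 3} {g : D0 S}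
  {σ : Cs hS → ZMod 2}



end fresh

end Crest.Agent.R143.GWXx597
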