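import Crest.Agent.R143.Part_778

/-!
# Row 143: locality of a block, dead explored cells, stopping sets (helper778; note 3363, W-MIX)

* `Ad`, `Rch M W A` : the cells joined to `A` by adjacencies avoiding `W`;
* `walk_loc`, `blk_loc` : **LOCALITY**: colours `1` = black (left), `0` = white (right). If `χ = χ'`
  on `Rch M W A ∪ W` and `χ = 0` on `W`, then the walk from a state with left cell in `Rch`, the gaps
  of its loop and the block of such a gap are the same for `χ` and `χ'`;
* `sum_dead` : prescribed colours on cells which are not seen do not matter;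
* `mean_dead`, `card_dead` : **mean over the fresh colours, with dead explored cells** (166's
  `Expl.mean` / `Expl.card` with a set `Dd` of dead explored cells outside `Rch`);
* `StopSet.union`, `stop_walk`, `stop_cl` : stopping sets of walks and of cluster explorations.
-/

set_option autoImplicit false
set_option linter.unusedSectionVars false

noncomputable section

open scoped Classical

namespace Crest.Agent.R143.Reachx778

open Crest.Agent.R143.Frame1x395 Crest.Agent.R143.Frame2x395 Crest.Agent.R143.Frame3x395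
  Crest.Agent.R143.Frame4x395 Crest.Agent.R143.Frame8x395 Crest.Agent.R143.NonXx592
  Crest.Agent.R143.Coarsex166 Crest.Agent.R143.Giantx46 Crest.Agent.R143.Resax778
  Crest.Agent.R143.Partx778

section loc

variable {D C : Type} [Fintype D] {M : CMap D C}

/-- adjacent cells -/
def Ad (M : CMap D C) (u v : C) : Prop :=
  ∃ d, (M.cell d = u ∧ M.cell (M.rho d) = v) ∨ (M.cell d = v ∧ M.cell (M.rho d) = u)

theorem Ad.symm {u v : C} (h : Ad M u v) : Ad M v u := by
  obtain ⟨d, h1 | h1⟩ := h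
  · exact ⟨d, Or.inr h1⟩
  · exact ⟨d, Or.inl h1⟩

/-- cells joined to `A` avoiding `W` -/
def Rch (M : CMap D C) (W A : Set C) : Set C :=
  {c | ∃ a ∈ A, Relation.ReflTransGen (fun u v => v ∉ W ∧ Ad M u v) a c}

variable {W A : Set C} {χ χ' : C → ZMod 2}

theorem rch_self {a : C} (h : a ∈ A) : a ∈ Rch M W A := ⟨a, h, Relation.ReflTransGen.refl⟩

theorem rch_step {u v : C} (hu : u ∈ Rch M W A) (h : Ad M u v) (hv : v ∉ W) :
    v ∈ Rch M W A := by
  obtain ⟨a, ha, hr⟩ := hu
  exact ⟨a, ha, hr.tail ⟨hv, h⟩⟩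

theorem rch_or {u v : C} (hu : u ∈ Rch M W A) (h : Ad M u v) : v ∈ Rch M W A ∪ W := by
  by_cases hv : v ∈ W
  · exact Or.inr hv
  · exact Or.inl (rch_step hu h hv)

/-- a good state: black left cell in `Rch`, white right cell -/
structure GS (M : CMap D C) (W A : Set C) (χ : C → ZMod 2) (p : D) : Prop where
  l : χ (M.cell p) = 1
  r : χ (M.cell (M.rho p)) = 0
  m : M.cell p ∈ Rch M W A

theorem GS.occ {p : D} (h : GS M W A χ p) : cfg M χ p = 1 := by
  unfold cfg
  rw [h.l, h.r]; rfl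

theorem GS.third {p : D} (h : GS M W A χ p) : M.cell (M.rho (M.rho p)) ∈ Rch M W A ∪ W :=
  rch_or h.m ⟨M.rho (M.rho p), Or.inr ⟨rfl, by rw [M.rho3]⟩⟩

theorem GS.right {p : D} (h : GS M W A χ p) : M.cell (M.rho p) ∈ Rch M W A ∪ W :=
  rch_or h.m ⟨p, Or.inl ⟨rfl, rfl⟩⟩

theorem GS.congr {p : D} (h : GS M W A χ p) (e : ∀ c ∈ Rch M W A ∪ W, χ' c = χ c) :
    GS M W A χ' p :=
  ⟨by rw [e _ (Or.inl h.m), h.l], by rw [e _ h.right, h.r], h.m⟩

/-- the three sides of the face of a good state -/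
theorem GS.face {p : D} (h : GS M W A χ p) (e : ∀ c ∈ Rch M W A ∪ W, χ' c = χ c) :
    cfg M χ' p = cfg M χ p ∧ cfg M χ' (M.rho p) = cfg M χ (M.rho p) ∧
      cfg M χ' (M.rho (M.rho p)) = cfg M χ (M.rho (M.rho p)) := by
  have e1 := e _ (Or.inl h.m)
  have e2 := e _ h.right
  have e3 := e _ h.third
  unfold cfg
  refine ⟨by rw [e1, e2], by rw [e2, e3], ?_⟩
  rw [M.rho3, e3, e1]

theorem GS.stp_eq {p : D} (h : GS M W A χ p) (e : ∀ c ∈ Rch M W A ∪ W, χ' c = χ c) :
    stp M (cfg M χ') p = stp M (cfg M χ) p := by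
  unfold stp
  rw [(h.face e).2.1]

theorem GS.step {p : D} (hW : ∀ c ∈ W, χ c = 0) (h : GS M W A χ p) :
    GS M W A χ (stp M (cfg M χ) p) := by
  have hx := cfg_isC (M := M) χ
  rcases stp_cases hx h.occ (Set.notMem_empty _) with ⟨h1, h2, e⟩ | ⟨h1, h2, e⟩
  · have hl := hx.lv h1
    have c3 : χ (M.cell (M.rho (M.rho p))) = 1 := by
      unfold cfg at h1
      rw [h.r, zero_add] at h1
      exact h1
    rw [e]
    refine ⟨?_, ?_, ?_⟩
    · rw [M.cell_iota _ hl]; exact c3
    · rw [cell_rho_iota M hl]; exact h.r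
    · rw [M.cell_iota _ hl]
      refine rch_step h.m ⟨M.rho (M.rho p), Or.inr ⟨rfl, by rw [M.rho3]⟩⟩ fun hw => ?_
      rw [hW _ hw] at c3
      exact absurd c3 (by decide)
  · have hl := hx.lv h2
    have c3 : χ (M.cell (M.rho (M.rho p))) = 0 := by
      unfold cfg at h1
      rw [h.r, zero_add] at h1
      exact h1
    rw [e]
    refine ⟨?_, ?_, ?_⟩
    · rw [M.cell_iota _ hl, M.rho3]; exact h.l
    · rw [cell_rho_iota M hl]; exact c3
    · rw [M.cell_iota _ hl, M.rho3]; exact h.m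

/-- **the walk is local** -/
theorem walk_loc {p : D} (hW : ∀ c ∈ W, χ c = 0) (h : GS M W A χ p)
    (e : ∀ c ∈ Rch M W A ∪ W, χ' c = χ c) (n : ℕ) :
    P M (cfg M χ') p n = P M (cfg M χ) p n ∧ GS M W A χ (P M (cfg M χ) p n) := by
  induction n with
  | zero => exact ⟨rfl, h⟩
  | succ n ih =>
    rw [P_succ, P_succ, ih.1]
    exact ⟨ih.2.stp_eq e, ih.2.step hW⟩

/-- the state before a gap and the state after it -/
theorem gs_out {g : D} (hW : ∀ c ∈ W, χ c = 0) (hg : Gp M (cfg M χ) g)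
    (h : GS M W A χ (M.rho g)) : GS M W A χ (out M g) := by
  rw [← hg.stp (cfg_isC χ)]
  exact h.step hW

theorem gp_loc {g : D} (hg : Gp M (cfg M χ) g) (h : GS M W A χ (M.rho g))
    (e : ∀ c ∈ Rch M W A ∪ W, χ' c = χ c) : Gp M (cfg M χ') g := by
  have f := h.face e
  rw [M.rho3] at f
  exact ⟨by rw [f.2.2]; exact hg.1, by rw [f.1]; exact hg.2⟩

theorem on_loop {x : D → ZMod 2} (hx : IsC M ∅ x) {g h : D} (hg : Gp M x g) (hh : Gp M x h)
    (R : Rel M x g h) : ∃ n, P M x (out M g) n = M.rho h := by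
  rcases R (M.cell g) with e | ⟨n, e, -⟩ | ⟨n, e, -⟩
  · subst e
    obtain ⟨N, N0, per, -, last⟩ := exists_period hx hg
    exact ⟨N - 1, last.symm⟩
  · exact ⟨n, e⟩
  · exact come_back hx hh hg e

theorem blk_sub {g : D} (hW : ∀ c ∈ W, χ c = 0) (hg : Gp M (cfg M χ) g)
    (h : GS M W A χ (M.rho g)) (e : ∀ c ∈ Rch M W A ∪ W, χ' c = χ c) :
    blk M (cfg M χ) g ⊆ blk M (cfg M χ') g := by
  intro k hk
  obtain ⟨hk1, hk2⟩ := mem_blk.1 hk
  have go := gs_out hW hg h
  obtain ⟨n, hn⟩ := on_loop (cfg_isC χ) hg hk1 hk2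
  have gk : GS M W A χ (M.rho k) := by
    rw [← hn]; exact (walk_loc hW go e n).2
  refine mem_blk.2 ⟨gp_loc hk1 gk e, fun c => ?_⟩
  have tr : ∀ {p q : D}, GS M W A χ p → Av M (cfg M χ) c p q → Av M (cfg M χ') c p q := by
    rintro p q hp ⟨m, h1, h2⟩
    refine ⟨m, ?_, fun k hk => ?_⟩
    · rw [← h1]; exact (walk_loc hW hp e m).1
    · have h3 := (walk_loc hW hp e k).1
      intro h4
      refine h2 k hk ?_
      rw [← h4]
      exact congrArg M.cell h3.symm
  rcases hk2 c with h1 | h1 | h1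
  · exact Or.inl h1
  · exact Or.inr (Or.inl (tr go h1))
  · exact Or.inr (Or.inr (tr (gs_out hW hk1 gk) h1))

/-- **the block is local** -/
theorem blk_loc {g : D} (hW : ∀ c ∈ W, χ c = 0) (hg : Gp M (cfg M χ) g)
    (h : GS M W A χ (M.rho g)) (e : ∀ c ∈ Rch M W A ∪ W, χ' c = χ c) :
    blk M (cfg M χ') g = blk M (cfg M χ) g := by
  refine subset_antisymm ?_ (blk_sub hW hg h e)
  refine blk_sub (fun c hc => by rw [e c (Or.inr hc), hW c hc]) (gp_loc hg h e) (h.congr e)
    fun c hc => (e c hc).symm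

end loc

/-! ### dead explored cells -/

section dead

variable {C : Type} [Fintype C]


end dead

section mean

variable {D C C' : Type} [Fintype D] [Fintype C] [Fintype C'] {M : CMap D C} {π : C → C'}
  {hπ : ClsCon M π}





end mean

/-! ### stopping sets -/

section stop

variable {S B : Type*} [Fintype S] [Fintype B]

theorem _root_.Crest.Agent.R143.Resax778.StopSet.union {O O' : (S → B) → Finset S}
    (h : StopSet O) (h' : StopSet O') : StopSet fun σ => O σ ∪ O' σ := by
  intro σ τ e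
  show O τ ∪ O' τ = O σ ∪ O' σ
  rw [h σ τ fun s hs => e s (Finset.mem_union_left _ hs),
    h' σ τ fun s hs => e s (Finset.mem_union_right _ hs)]


/-- exploration of the clusters of the seeds `A` with the colours in `K`, inside `V`: revealed
cells = seeds, cells of the clusters and their neighbours (in `V`) -/
def cl (nb : S → S → Prop) (V : Finset S) (A : Finset S) (κ : B) (σ : S → B) : Finset S :=
  Finset.univ.filter fun s => s ∈ A ∨ (s ∈ V ∧ ∃ a ∈ A, ∃ b, σ a = κ ∧
    Relation.ReflTransGen (fun u v => nb u v ∧ v ∈ V ∧ σ v = κ) a b ∧ nb b s)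


end stop

section walk

variable {D C : Type} [Fintype D] [Fintype C] {M : CMap D C}

/-- the walk from `p`, stopped at the first entrance in `T` (or after `m` steps) -/
def wn (M : CMap D C) (T : Set D) (m : ℕ) (p : D) (χ : C → ZMod 2) : ℕ :=
  if h : ∃ n, n ≤ m ∧ P M (cfg M χ) p n ∈ T then Nat.find h else m

/-- its revealed cells -/
def wc (M : CMap D C) (T : Set D) (m : ℕ) (p : D) (χ : C → ZMod 2) : Finset C :=
  Finset.univ.filter fun c => ∃ n ≤ wn M T m p χ, M.cell (P M (cfg M χ) p n) = c ∨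
    M.cell (M.rho (P M (cfg M χ) p n)) = c






end walk

end Crest.Agent.R143.Reachx778
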