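import Crest.Agent.R143.Frame11_395
import Crest.Agent.R143.NonX_592

-- ▼ part R143/Spl1_117
section

/-!
# Row 143 (S0194), part B without E3: splitting of a block at cut states (helper117)

A loop `Lp M x p N` : states `P i = stp^[i] p`, `i < N`, left cells `lc i`, time of a gap = time of the
state which enters its face: `gp i = rho (rho (P i))`.

* `sep` : `c` is a left cell at the times `u < v`; left cells at a time between and at a time outside
  are not joined by a chain (of unoccupied darts) which avoids `c`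
* `two_arcs` : common left cells of two arcs, one of which has joined ends, away from `c`
* `InK A B i` : gap of the time `i` in the arc `[A, B]` such that no left cell occurs before and after
* `ink_add`, `rel_ink`, `ink_exists`
-/

set_option autoImplicit false

noncomputable section

open scoped Classical

namespace Crest.Agent.R143.Splx117

open Crest.Agent.R143.Frame1x395 Crest.Agent.R143.Frame2x395 Crest.Agent.R143.Frame3x395
  Crest.Agent.R143.Frame4x395 Crest.Agent.R143.Frame8x395 Crest.Agent.R143.Frame9x395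
  Crest.Agent.R143.Frame11x395

variable {D C : Type} {M : CMap D C} {x : D → ZMod 2} {p : D} {N : ℕ} {c : C}

/-- left cell at the time `i` -/
def lc (M : CMap D C) (x : D → ZMod 2) (p : D) (i : ℕ) : C := M.cell ((stp M x)^[i] p)

/-- the dart of the face entered at the time `i`, on the left -/
def gp (M : CMap D C) (x : D → ZMod 2) (p : D) (i : ℕ) : D := M.rho (M.rho ((stp M x)^[i] p))

/-- a loop with its period -/
structure Lp (M : CMap D C) (x : D → ZMod 2) (p : D) (N : ℕ) : Prop where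
  even : IsC M ∅ x
  occ : x p = 1
  pos : 0 < N
  per : (stp M x)^[N] p = p
  inj : ∀ i j, i < j → j < N → (stp M x)^[i] p ≠ (stp M x)^[j] p

theorem rho_gp (i : ℕ) : M.rho (gp M x p i) = (stp M x)^[i] p := M.rho3 _

theorem Lp.st (L : Lp M x p N) (i : ℕ) : x ((stp M x)^[i] p) = 1 := occ_it L.even L.occ i

theorem Lp.add (L : Lp M x p N) (i : ℕ) : (stp M x)^[i + N] p = (stp M x)^[i] p := by
  rw [Function.iterate_add_apply, L.per]

theorem Lp.lc_add (L : Lp M x p N) (i : ℕ) : lc M x p (i + N) = lc M x p i := by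
  unfold lc
  rw [L.add]

theorem Lp.gp_add (L : Lp M x p N) (i : ℕ) : gp M x p (i + N) = gp M x p i := by
  unfold gp
  rw [L.add]

/-- states at different times of one period are different -/
theorem Lp.ne (L : Lp M x p N) {i j : ℕ} (h1 : i < j) (h2 : j < i + N) :
    (stp M x)^[i] p ≠ (stp M x)^[j] p := by
  intro e
  have e1 : p = (stp M x)^[j - i] p := by
    apply it_inj L.even L.occ (L.st _) i
    rw [← Function.iterate_add_apply, show i + (j - i) = j by omega, e]
  exact L.inj 0 (j - i) (by omega) (by omega) e1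

theorem Lp.mod (L : Lp M x p N) (i : ℕ) : (stp M x)^[i] p = (stp M x)^[i % N] p := by
  induction i using Nat.strong_induction_on with
  | _ i ih =>
    rcases Nat.lt_or_ge i N with h1 | h1
    · rw [Nat.mod_eq_of_lt h1]
    · rw [Nat.mod_eq_sub_mod h1, ← ih (i - N) (by have := L.pos; omega)]
      conv_lhs => rw [show i = (i - N) + N by omega, L.add]

theorem Lp.gp_ne (L : Lp M x p N) {i j : ℕ} (h1 : i < j) (h2 : j < i + N) :
    gp M x p i ≠ gp M x p j := by
  intro e
  apply L.ne h1 h2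
  rw [← rho_gp, e, rho_gp]

/-- existence of the period -/
theorem lp_exists [Finite D] (h : IsC M ∅ x) (hp : x p = 1) : ∃ N, Lp M x p N := by
  have ex := periodic h hp
  set N := Nat.find ex with hN
  obtain ⟨h1, h2⟩ := Nat.find_spec ex
  refine ⟨N, h, hp, h1, h2, fun i j hij hj e => ?_⟩
  have e1 : p = (stp M x)^[j - i] p := by
    apply it_inj h hp (occ_it h hp _) i
    rw [← Function.iterate_add_apply, show i + (j - i) = j by omega, e]
  exact Nat.find_min ex (show j - i < Nat.find ex by omega) ⟨by omega, e1.symm⟩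

/-! ### gaps and times -/

/-- an occupied third side: the left cell stays -/
theorem Lp.stay (L : Lp M x p N) {i : ℕ} (h : x (gp M x p i) = 1) :
    lc M x p (i + 1) = lc M x p i := by
  have h1 := L.st i
  rcases stp_cases L.even h1 (Set.notMem_empty _) with ⟨-, h2, -⟩ | ⟨-, h2, e⟩
  · unfold gp at h
    rw [h2] at h
    exact absurd h (by decide)
  · unfold lc
    rw [Function.iterate_succ_apply', e, M.cell_iota _ (L.even.lv h2), M.rho3]

/-- a gap -/
theorem Lp.gap (L : Lp M x p N) {i : ℕ} (h : x (gp M x p i) = 0) : Gp M x (gp M x p i) :=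
  ⟨h, by rw [rho_gp]; exact L.st i⟩

theorem Lp.out_eq (L : Lp M x p N) {i : ℕ} (h : x (gp M x p i) = 0) :
    out M (gp M x p i) = (stp M x)^[i + 1] p := by
  rw [Function.iterate_succ_apply', ← rho_gp (M := M), (L.gap h).stp L.even]

theorem Lp.new (L : Lp M x p N) {i : ℕ} (h : x (gp M x p i) = 0) :
    M.cell (gp M x p i) = lc M x p (i + 1) := by
  unfold lc
  rw [← L.out_eq h, cell_out L.even (L.gap h)]

theorem old (i : ℕ) : M.cell (M.rho (gp M x p i)) = lc M x p i := by
  rw [rho_gp]; rfl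

/-- the left cell changes only at gaps -/
theorem Lp.gap_of_ne (L : Lp M x p N) {i : ℕ} (h : lc M x p (i + 1) ≠ lc M x p i) :
    x (gp M x p i) = 0 := by
  rcases z01 (x (gp M x p i)) with h1 | h1
  · exact h1
  · exact absurd (L.stay h1) h

/-- a gap whose state is on the loop -/
theorem Lp.eq_gp (_L : Lp M x p N) {g : D} {i : ℕ} (h : (stp M x)^[i] p = M.rho g) :
    g = gp M x p i := by
  unfold gp
  rw [h, M.rho3]

/-! ### arithmetic of times -/

theorem last_time {Q : ℕ → Prop} {u m : ℕ} (h1 : u < m) (hu : Q u) (hm : ¬ Q m) :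
    ∃ i, u ≤ i ∧ i < m ∧ Q i ∧ ∀ j, i < j → j ≤ m → ¬ Q j := by
  induction m with
  | zero => omega
  | succ m ih =>
    by_cases hq : Q m
    · exact ⟨m, by omega, by omega, hq, fun j h2 h3 => by
        rw [show j = m + 1 by omega]; exact hm⟩
    · rcases Nat.lt_or_ge u m with h2 | h2
      · obtain ⟨i, a1, a2, a3, a4⟩ := ih h2 hq
        refine ⟨i, a1, by omega, a3, fun j h3 h4 => ?_⟩
        rcases Nat.lt_or_ge m j with h5 | h5
        · rw [show j = m + 1 by omega]; exact hm
        · exact a4 j h3 h5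
      · rw [show m = u by omega] at hq
        exact absurd hu hq

theorem first_time {Q : ℕ → Prop} {m v : ℕ} (h1 : m < v) (hv : Q v) (hm : ¬ Q m) :
    ∃ j, m < j ∧ j ≤ v ∧ Q j ∧ ∀ l, m ≤ l → l < j → ¬ Q l := by
  have ex : ∃ j, m < j ∧ Q j := ⟨v, h1, hv⟩
  obtain ⟨h2, h3⟩ := Nat.find_spec ex
  refine ⟨Nat.find ex, h2, Nat.find_min' ex ⟨h1, hv⟩, h3, fun l h4 h5 hl => ?_⟩
  rcases h4.lt_or_eq with h6 | rfl
  · exact Nat.find_min ex h5 ⟨h6, hl⟩
  · exact hm hl

/-! ### separation -/

/-- one step of a chain which avoids `c` -/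
def StA (M : CMap D C) (x : D → ZMod 2) (c a b : C) : Prop :=
  a ≠ c ∧ b ≠ c ∧ ∃ d, x d = 0 ∧
    ((M.cell d = a ∧ M.cell (M.rho d) = b) ∨ (M.cell d = b ∧ M.cell (M.rho d) = a))

/-- `a` and `b` are joined by a chain of one colour which avoids `c` -/
def ConA (M : CMap D C) (x : D → ZMod 2) (c a b : C) : Prop :=
  a ≠ c ∧ b ≠ c ∧ Relation.ReflTransGen (StA M x c) a b

theorem StA.symm {a b : C} (h : StA M x c a b) : StA M x c b a := by
  obtain ⟨h1, h2, d, h3, h4⟩ := h
  exact ⟨h2, h1, d, h3, h4.symm⟩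

theorem rtg_symm {α : Type} {r : α → α → Prop} (hr : ∀ a b, r a b → r b a) {a b : α}
    (h : Relation.ReflTransGen r a b) : Relation.ReflTransGen r b a := by
  induction h with
  | refl => exact .refl
  | tail _ h2 ih => exact (Relation.ReflTransGen.single (hr _ _ h2)).trans ih

theorem ConA.symm {a b : C} (h : ConA M x c a b) : ConA M x c b a :=
  ⟨h.2.1, h.1, rtg_symm (fun _ _ h => h.symm) h.2.2⟩

theorem ConA.trans {a b e : C} (h : ConA M x c a b) (h' : ConA M x c b e) : ConA M x c a e :=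
  ⟨h.1, h'.2.1, h.2.2.trans h'.2.2⟩

theorem ConA.const {A : Type} {χ : C → A} (hχ : ∀ d, x d = 0 → M.cell d ≠ c →
    M.cell (M.rho d) ≠ c → χ (M.cell d) = χ (M.cell (M.rho d))) {a b : C}
    (h : ConA M x c a b) : χ a = χ b := by
  obtain ⟨-, -, h⟩ := h
  induction h with
  | refl => rfl
  | tail _ h1 ih =>
    obtain ⟨h2, h3, d, h4, ⟨h5, h6⟩ | ⟨h5, h6⟩⟩ := h1
    · rw [ih, ← h5, ← h6]
      exact hχ d h4 (h5 ▸ h2) (h6 ▸ h3)
    · rw [ih, ← h5, ← h6]
      exact (hχ d h4 (h5 ▸ h3) (h6 ▸ h2)).symm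

/-- **separation** -/
theorem sep (L : Lp M x p N) (G : Gen M c) {u m v m' : ℕ} (h1 : u < m) (h2 : m < v)
    (h3 : v < m') (h4 : m' < u + N) (cu : lc M x p u = c) (cv : lc M x p v = c) :
    ¬ ConA M x c (lc M x p m) (lc M x p m') := by
  intro hcon
  have h := L.even
  obtain ⟨i, hi1, hi2, hi3, hi4⟩ := last_time (Q := fun i => lc M x p i = c) h1 cu hcon.1
  obtain ⟨j, hj1, hj2, hj3, hj4⟩ := first_time (Q := fun i => lc M x p i = c) h2 cv hcon.1
  obtain ⟨j, rfl⟩ : ∃ j', j = j' + 1 := ⟨j - 1, by omega⟩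
  have hav : ∀ l, i < l → l ≤ j → lc M x p l ≠ c := by
    intro l hl1 hl2
    rcases Nat.lt_or_ge m l with hl | hl
    · exact hj4 l hl.le (by omega)
    · exact hi4 l hl1 hl
  have xk : x (gp M x p i) = 0 := L.gap_of_ne (by
    rw [hi3]; exact hi4 (i + 1) (by omega) (by omega))
  have xg : x (gp M x p j) = 0 := L.gap_of_ne (by
    rw [hj3]; exact (hav j (by omega) le_rfl).symm)
  set k := gp M x p i with hk0
  set g := gp M x p j with hg0
  have hk : Gp M x k := L.gap xk
  have hg : Gp M x g := L.gap xg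
  have hkc : M.cell (M.rho k) = c := by rw [hk0, old, hi3]
  have hgc : M.cell g = c := by rw [hg0, L.new xg, hj3]
  have hne : k ≠ g := L.gp_ne (by omega) (by omega)
  have ho : out M k = (stp M x)^[i + 1] p := L.out_eq xk
  have hit : ∀ n, (stp M x)^[n] (out M k) = (stp M x)^[n + (i + 1)] p := by
    intro n
    rw [ho, ← Function.iterate_add_apply]
  -- the right cells
  obtain ⟨ψ, hψ⟩ := M.ex x h.dead h.iot (fun d => by rw [h.par d, if_neg (Set.notMem_empty d)])
  have hψ0 : ∀ d, x d = 0 → ψ (M.cell d) = ψ (M.cell (M.rho d)) := by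
    intro d hd
    rw [hψ d] at hd
    revert hd
    generalize ψ (M.cell d) = a
    generalize ψ (M.cell (M.rho d)) = b
    revert a b; decide
  have hψ1 : ∀ d, x d = 1 → ψ (M.cell d) ≠ ψ (M.cell (M.rho d)) := by
    intro d hd
    rw [hψ d] at hd
    revert hd
    generalize ψ (M.cell d) = a
    generalize ψ (M.cell (M.rho d)) = b
    revert a b; decide
  have lcψ : ∀ n, ψ (lc M x p n) = ψ (M.cell p) := fun n => it_col h L.occ hψ0 n
  have nr : ∀ n {g : D}, Gp M x g → ψ (M.cell g) = ψ (M.cell p) →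
      (stp M x)^[n] p ≠ M.rho (M.rho g) := by
    intro n g hg hgc e
    have h5 := lcψ n
    unfold lc at h5
    rw [e] at h5
    have h6 := hψ0 _ hg.1
    exact hψ1 _ hg.2 (h6.symm.trans (hgc.trans h5.symm))
  have nb : ∀ n, n + (i + 1) < j → (stp M x)^[n] (out M k) ∉ BB M k g := by
    intro n hn hB
    rw [hit] at hB
    have xo := L.st (n + (i + 1))
    rcases hB with (hB | hB | hB) | (hB | hB | hB)
    · rw [hB, xk] at xo; exact absurd xo (by decide)
    · rw [hk0, rho_gp] at hB
      exact L.ne (show i < n + (i + 1) by omega) (by omega) hB.symm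
    · exact nr _ hk (by rw [hk0, L.new xk, lcψ]) hB
    · rw [hB, xg] at xo; exact absurd xo (by decide)
    · rw [hg0, rho_gp] at hB
      exact L.ne (show n + (i + 1) < j by omega) (by omega) hB
    · exact nr _ hg (by rw [hg0, L.new xg, lcψ]) hB
  have hend : (stp M x)^[j - (i + 1)] (out M k) = M.rho g := by
    rw [hit, show j - (i + 1) + (i + 1) = j by omega, hg0, rho_gp]
  have hTr : M.rho g ∈ Tr M x (BB M k g) (out M k) :=
    ⟨j - (i + 1), hend, fun n hn => nb n (by omega)⟩
  obtain ⟨χ, ν, X1, X2, X3⟩ := chi_arc h hk hg hne hkc hgc G hTr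
  have e1 : χ (lc M x p m) = ν + 1 := by
    have h5 := X2 (m - (i + 1)) (by
      rw [hit, show m - (i + 1) + (i + 1) = m by omega]; exact hcon.1)
      ⟨m - (i + 1), rfl, fun n hn => nb n (by omega)⟩
    rw [hit, show m - (i + 1) + (i + 1) = m by omega] at h5
    exact h5
  have e2 : χ (lc M x p m') = ν := by
    have h5 := X3 (m' - (i + 1)) (by
      rw [hit, show m' - (i + 1) + (i + 1) = m' by omega]; exact hcon.2.1) (by
      rintro ⟨n, hn1, hn2⟩
      have hnj : n ≤ j - (i + 1) := by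
        by_contra hc
        push Not at hc
        refine hn2 _ hc ?_
        show (stp M x)^[j - (i + 1)] (out M k) ∈ BB M k g
        rw [hend]
        exact memh1 M k g
      rw [hit, hit, show m' - (i + 1) + (i + 1) = m' by omega] at hn1
      exact L.ne (show n + (i + 1) < m' by omega) (by omega) hn1)
    rw [hit, show m' - (i + 1) + (i + 1) = m' by omega] at h5
    exact h5
  have e3 := hcon.const X1
  rw [e1, e2] at e3
  revert e3
  generalize ν = b
  revert b; decide

/-- **two arcs** : `[A, B]` and `[A', B']` with `B ≤ A'`, `B' ≤ A + N` have the common left cell `c` :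
the ends of none of them are joined away from `c` -/
theorem two_arcs (L : Lp M x p N) (G : Gen M c) {A B A' B' u v : ℕ} (h1 : A ≤ u)
    (h2 : u ≤ B) (h3 : B ≤ A') (h4 : A' ≤ v) (h5 : v ≤ B') (h6 : B' ≤ A + N)
    (cu : lc M x p u = c) (cv : lc M x p v = c) :
    ¬ ConA M x c (lc M x p A) (lc M x p B) ∧ ¬ ConA M x c (lc M x p A') (lc M x p B') := by
  have q : ∀ {a b : ℕ}, lc M x p a = c → lc M x p b ≠ c → a ≠ b := by
    rintro a b h1 h2 rfl
    exact h2 h1
  constructor
  · intro hcon
    have hA : lc M x p (A + N) ≠ c := by rw [L.lc_add]; exact hcon.1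
    have k1 := q cu hcon.1
    have k2 := q cu hcon.2.1
    have k3 := q cv hcon.2.1
    have k4 := q cv hA
    apply sep L G (u := u) (m := B) (v := v) (m' := A + N) (by omega) (by omega) (by omega)
      (by omega) cu cv
    rw [L.lc_add]
    exact hcon.symm
  · intro hcon
    have hu : lc M x p (u + N) = c := by rw [L.lc_add]; exact cu
    have k1 := q cu hcon.1
    have k2 := q cv hcon.1
    have k3 := q cv hcon.2.1
    have k4 := q hu hcon.2.1
    exact sep L G (u := u) (m := A') (v := v) (m' := B') (by omega) (by omega) (by omega)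
      (by omega) cu cv hcon

end Crest.Agent.R143.Splx117
end
end

-- ▼ part R143/Spl2_117

/-!
# Row 143 (S0194), part B without E3: splitting of a block at cut states, file 2 (helper117)

* `InK M x p A B i` : the gap `gp i` is on the block path of the arc `[A, B]` : no left cell occurs
  both at a time in `[A, i]` and at a time in `(i, B]`
* `ink_add` : additivity along an arc
* `ink_exists` : the block path of an arc with different end cells is not empty
* `Lp.rel_iff` : the relation of two gaps of a loop in terms of times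
* `blk_two` : a loop cut at two times `0`, `m` : the block is the union of the two block paths
* `ink_sum`, `ring_blk`, `ring_sum` : several cuts
* `cut_of_links` : the hypothesis from links (chains between consecutive cut cells)
-/

set_option autoImplicit false

noncomputable section

open scoped Classical

namespace Crest.Agent.R143.Splx117

open Crest.Agent.R143.Frame1x395 Crest.Agent.R143.Frame2x395 Crest.Agent.R143.Frame3x395
  Crest.Agent.R143.Frame4x395 Crest.Agent.R143.Frame8x395 Crest.Agent.R143.Frame9x395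
  Crest.Agent.R143.Frame11x395

variable {D C : Type} {M : CMap D C} {x : D → ZMod 2} {p : D} {N : ℕ} {c : C}

/-- the gap of the time `i` is on the block path of the arc `[A, B]` -/
structure InK (M : CMap D C) (x : D → ZMod 2) (p : D) (A B i : ℕ) : Prop where
  lo : A ≤ i
  hi : i < B
  gap : x (gp M x p i) = 0
  sep : ∀ j l, A ≤ j → j ≤ i → i < l → l ≤ B → lc M x p j ≠ lc M x p l

/-- **additivity along an arc** -/
theorem ink_add {A m B i : ℕ} (h1 : A ≤ m) (h2 : m ≤ B)
    (hc : ∀ j l, A ≤ j → j ≤ m → m ≤ l → l ≤ B → lc M x p j = lc M x p l →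
      lc M x p j = lc M x p m) :
    InK M x p A B i ↔ InK M x p A m i ∨ InK M x p m B i := by
  constructor
  · intro h
    rcases Nat.lt_or_ge i m with hi | hi
    · exact Or.inl ⟨h.lo, hi, h.gap, fun j l a1 a2 a3 a4 => h.sep j l a1 a2 a3 (a4.trans h2)⟩
    · exact Or.inr ⟨hi, h.hi, h.gap, fun j l a1 a2 a3 a4 => h.sep j l (h1.trans a1) a2 a3 a4⟩
  · rintro (h | h)
    · refine ⟨h.lo, h.hi.trans_le h2, h.gap, fun j l a1 a2 a3 a4 e => ?_⟩
      have hi := h.hi
      rcases Nat.lt_or_ge m l with hl | hl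
      · have e1 := hc j l a1 (by omega) hl.le a4 e
        exact h.sep j m a1 a2 hi le_rfl e1
      · exact h.sep j l a1 a2 a3 hl e
    · refine ⟨h1.trans h.lo, h.hi, h.gap, fun j l a1 a2 a3 a4 e => ?_⟩
      have hi := h.lo
      rcases Nat.lt_or_ge j m with hl | hl
      · have e1 := hc j l a1 hl.le (by omega) a4 e
        exact h.sep m l le_rfl hi a3 a4 (e1.symm.trans e)
      · exact h.sep j l hl a2 a3 a4 e

/-- **the block path is not empty** -/
theorem ink_exists [Finite D] (L : Lp M x p N) {A B : ℕ} (h1 : A ≤ B) (h2 : B < A + N)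
    (hne : lc M x p A ≠ lc M x p B) : ∃ i, InK M x p A B i := by
  have hlt : A < B := by
    rcases h1.lt_or_eq with h | h
    · exact h
    · exact absurd (by rw [h]) hne
  obtain ⟨i, a1, a2, a3, a4⟩ := last_time (Q := fun i => lc M x p i = lc M x p A) hlt rfl
    (fun e => hne e.symm)
  refine ⟨i, a1, a2, L.gap_of_ne ?_, fun j l b1 b2 b3 b4 e => ?_⟩
  · rw [a3]
    exact a4 (i + 1) (by omega) (by omega)
  · have c1 : lc M x p l ≠ lc M x p A := a4 l b3 b4
    have c2 : lc M x p j ≠ lc M x p A := by rw [e]; exact c1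
    have c3 : j ≠ A := by rintro rfl; exact c2 rfl
    have c4 : j ≠ i := by rintro rfl; exact c2 a3
    have hit : ∀ n, (stp M x)^[n] ((stp M x)^[A] p) = (stp M x)^[n + A] p := fun n => by
      rw [← Function.iterate_add_apply]
    apply c2
    have := NonXx592.noncross L.even (p := (stp M x)^[A] p) (L.st A) (k := j - A) (j := i - A)
      (l := l - A) (by omega) (by omega) (by omega) (fun a b hab hb => by
        show (stp M x)^[a] _ ≠ (stp M x)^[b] _
        rw [hit, hit]
        exact L.ne (by omega) (by omega))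
      (by
        show M.cell ((stp M x)^[i - A] _) = _
        rw [hit, show i - A + A = i by omega]
        exact a3)
      (by
        show M.cell ((stp M x)^[j - A] _) = M.cell ((stp M x)^[l - A] _)
        rw [hit, hit, show j - A + A = j by omega, show l - A + A = l by omega]
        exact e)
    change M.cell ((stp M x)^[j - A] _) = _ at this
    rw [hit, show j - A + A = j by omega] at this
    exact this

/-! ### the relation in terms of times -/

theorem Lp.av_iff (L : Lp M x p N) {i j : ℕ} (hi : x (gp M x p i) = 0) (h1 : i < j)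
    (h2 : j ≤ i + N) :
    Av M x c (out M (gp M x p i)) (M.rho (gp M x p j)) ↔
      ∀ l, i < l → l ≤ j → lc M x p l ≠ c := by
  have hit : ∀ n, (stp M x)^[n] (out M (gp M x p i)) = (stp M x)^[n + (i + 1)] p := by
    intro n
    rw [L.out_eq hi, ← Function.iterate_add_apply]
  constructor
  · rintro ⟨n, h3, h4⟩ l h5 h6
    rw [hit, rho_gp] at h3
    have hn : j ≤ n + (i + 1) := by
      by_contra hc
      push Not at hc
      exact L.ne hc (by omega) h3
    have h7 := h4 (l - (i + 1)) (by omega)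
    rw [hit, show l - (i + 1) + (i + 1) = l by omega] at h7
    exact h7
  · intro h
    refine ⟨j - (i + 1), ?_, fun k hk => ?_⟩
    · rw [hit, rho_gp, show j - (i + 1) + (i + 1) = j by omega]
    · rw [hit]
      exact h _ (by omega) (by omega)

theorem Lp.rel_iff (L : Lp M x p N) {i j : ℕ} (hi : x (gp M x p i) = 0)
    (hj : x (gp M x p j) = 0) (h1 : i < j) (h2 : j < i + N) :
    Rel M x (gp M x p i) (gp M x p j) ↔
      ∀ l l', i < l → l ≤ j → j < l' → l' ≤ i + N → lc M x p l ≠ lc M x p l' := by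
  have hne := L.gp_ne h1 h2
  have hgN : M.rho (gp M x p i) = M.rho (gp M x p (i + N)) := by rw [L.gp_add]
  constructor
  · intro H l l' a1 a2 a3 a4 e
    rcases H (lc M x p l) with h3 | h3 | h3
    · exact hne h3
    · exact (L.av_iff hi h1 h2.le).1 h3 l a1 a2 rfl
    · rw [hgN] at h3
      exact (L.av_iff hj h2 (by omega)).1 h3 l' a3 a4 e.symm
  · intro H c
    by_cases hc : ∀ l, i < l → l ≤ j → lc M x p l ≠ c
    · exact Or.inr (Or.inl ((L.av_iff hi h1 h2.le).2 hc))
    · push Not at hc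
      obtain ⟨l, a1, a2, rfl⟩ := hc
      refine Or.inr (Or.inr ?_)
      rw [hgN]
      exact (L.av_iff hj h2 (by omega)).2 fun l' a3 a4 e => H l l' a1 a2 a3 a4 e.symm

/-- gaps related to a gap of the loop are on the loop -/
theorem Lp.rel_time [Finite D] (L : Lp M x p N) {i : ℕ} (hi : x (gp M x p i) = 0) {t : D}
    (ht : Gp M x t) (H : Rel M x (gp M x p i) t) : ∃ j, j < N ∧ t = gp M x p j := by
  have key : ∃ n, (stp M x)^[n] (out M (gp M x p i)) = M.rho t ∨ t = gp M x p i := by
    rcases H (M.cell t) with h1 | ⟨n, h1, -⟩ | ⟨n, h1, -⟩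
    · exact ⟨0, Or.inr h1.symm⟩
    · exact ⟨n, Or.inl h1⟩
    · obtain ⟨m, hm⟩ := come_back L.even ht (L.gap hi) h1
      exact ⟨m, Or.inl hm⟩
  obtain ⟨n, h1 | h1⟩ := key
  · rw [L.out_eq hi, ← Function.iterate_add_apply, L.mod] at h1
    exact ⟨_, Nat.mod_lt _ L.pos, L.eq_gp h1⟩
  · refine ⟨i % N, Nat.mod_lt _ L.pos, ?_⟩
    rw [h1]
    unfold gp
    rw [← L.mod]

/-! ### a loop cut at two times -/

/-- **a loop cut at the times `0` and `m`** -/
theorem rel_two (L : Lp M x p N) {m : ℕ} (hm : m ≤ N)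
    (hc : ∀ j l, j ≤ m → m ≤ l → l ≤ N → lc M x p j = lc M x p l →
      lc M x p j = lc M x p 0 ∨ lc M x p j = lc M x p m) {i j : ℕ}
    (hi : InK M x p 0 m i ∨ InK M x p m N i) (hj : x (gp M x p j) = 0) (hjN : j < N) :
    Rel M x (gp M x p i) (gp M x p j) ↔ InK M x p 0 m j ∨ InK M x p m N j := by
  -- consequences
  have cs : ∀ {i : ℕ}, InK M x p 0 m i ∨ InK M x p m N i →
      i < N ∧ x (gp M x p i) = 0 ∧
      (∀ a b, a ≤ i → i < b → b ≤ m → lc M x p a ≠ lc M x p b) ∧
      (∀ a b, m ≤ a → a ≤ i → i < b → b ≤ N → lc M x p a ≠ lc M x p b) := by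
    rintro i (h | h)
    · have h1 := h.hi
      exact ⟨by omega, h.gap, fun a b a1 a2 a3 => h.sep a b (Nat.zero_le _) a1 a2 a3,
        fun a b a1 a2 => by omega⟩
    · have h1 := h.lo
      exact ⟨h.hi, h.gap, fun a b a1 a2 => by omega, fun a b a1 a2 a3 a4 => h.sep a b a1 a2 a3 a4⟩
  have l0 : lc M x p N = lc M x p 0 := by
    have := L.lc_add 0
    rwa [zero_add] at this
  have fwd : ∀ {i j : ℕ}, i < j → InK M x p 0 m i ∨ InK M x p m N i →
      InK M x p 0 m j ∨ InK M x p m N j → Rel M x (gp M x p i) (gp M x p j) := by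
    intro i j hij hi hj
    obtain ⟨i1, i2, i3, i4⟩ := cs hi
    obtain ⟨j1, j2, j3, j4⟩ := cs hj
    refine (L.rel_iff i2 j2 hij (by omega)).2 fun l l' a1 a2 a3 a4 e => ?_
    rcases Nat.lt_or_ge N l' with hl' | hl'
    · -- the second cell is before `i`
      obtain ⟨r, rfl⟩ : ∃ r, l' = r + N := ⟨l' - N, by omega⟩
      rw [L.lc_add] at e
      rcases Nat.lt_or_ge m l with hl | hl
      · rcases Nat.lt_or_ge r m with hr | hr
        · rcases hc r l hr.le hl.le (by omega) e.symm with h5 | h5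
          · exact j4 l N hl.le a2 (by omega) le_rfl (by rw [l0, e, h5])
          · rcases Nat.lt_or_ge i m with him | him
            · exact i3 r m (by omega) him le_rfl h5
            · exact i4 m l le_rfl him a1 (by omega) (by rw [e, h5])
        · exact i4 r l hr (by omega) a1 (by omega) e.symm
      · exact i3 r l (by omega) a1 hl e.symm
    · rcases Nat.lt_or_ge m l with hl | hl
      · exact j4 l l' hl.le a2 a3 hl' e
      · rcases Nat.lt_or_ge m l' with hm' | hm'
        · rcases hc l l' hl hm'.le hl' e with h5 | h5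
          · exact i3 0 l (Nat.zero_le _) a1 hl h5.symm
          · rcases Nat.lt_or_ge j m with hjm | hjm
            · exact j3 l m a2 hjm le_rfl h5
            · exact j4 m l' le_rfl hjm a3 hl' (by rw [← h5, e])
        · exact j3 l l' a2 a3 hm' e
  have bwd : ∀ {i j : ℕ}, j < N → x (gp M x p j) = 0 → InK M x p 0 m i ∨ InK M x p m N i →
      i ≠ j → Rel M x (gp M x p i) (gp M x p j) → ∀ a b, a ≤ j → j < b → b ≤ N →
      (b ≤ m ∨ m ≤ a) → lc M x p a ≠ lc M x p b := by
    intro i j hjN hj hi hne H a b a1 a2 a3 a4 e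
    obtain ⟨i1, i2, i3, i4⟩ := cs hi
    rcases Nat.lt_or_ge i a with h5 | h5
    · exact (L.rel_iff i2 hj (by omega) (by omega)).1 H a b h5 a1 a2 (by omega) e
    · rcases Nat.lt_or_ge i b with h6 | h6
      · rcases a4 with h7 | h7
        · exact i3 a b h5 h6 h7 e
        · exact i4 a b h7 h5 h6 a3 e
      · refine (L.rel_iff hj i2 (by omega) (by omega)).1 (fun c => (H c).symm) b (a + N) a2 h6
          (by omega) (by omega) ?_
        rw [L.lc_add, e]
  constructor
  · intro H
    by_cases hij : i = j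
    · rw [← hij]; exact hi
    · rcases Nat.lt_or_ge j m with hjm | hjm
      · exact Or.inl ⟨Nat.zero_le _, hjm, hj, fun a b _ a1 a2 a3 =>
          bwd hjN hj hi hij H a b a1 a2 (a3.trans hm) (Or.inl a3)⟩
      · exact Or.inr ⟨hjm, hjN, hj, fun a b a0 a1 a2 a3 =>
          bwd hjN hj hi hij H a b a1 a2 a3 (Or.inr a0)⟩
  · intro hj'
    rcases lt_trichotomy i j with h | rfl | h
    · exact fwd h hi hj'
    · exact fun _ => Or.inl rfl
    · exact fun c => (fwd h hj' hi c).symm

/-- the block of a loop cut at two times -/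
theorem blk_two [Fintype D] (L : Lp M x p N) {m : ℕ} (hm : m ≤ N)
    (hc : ∀ j l, j ≤ m → m ≤ l → l ≤ N → lc M x p j = lc M x p l →
      lc M x p j = lc M x p 0 ∨ lc M x p j = lc M x p m) {i : ℕ}
    (hi : InK M x p 0 m i ∨ InK M x p m N i) (t : D) :
    t ∈ blk M x (gp M x p i) ↔ ∃ j, (InK M x p 0 m j ∨ InK M x p m N j) ∧ t = gp M x p j := by
  have hig : x (gp M x p i) = 0 := by
    rcases hi with h | h
    · exact h.gap
    · exact h.gap
  rw [mem_blk]
  constructor
  · rintro ⟨h1, h2⟩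
    obtain ⟨j, h3, rfl⟩ := L.rel_time hig h1 h2
    exact ⟨j, (rel_two L hm hc hi h1.1 h3).1 h2, rfl⟩
  · rintro ⟨j, h1, rfl⟩
    have hj : j < N ∧ x (gp M x p j) = 0 := by
      rcases h1 with h | h
      · exact ⟨h.hi.trans_le hm, h.gap⟩
      · exact ⟨h.hi, h.gap⟩
    exact ⟨L.gap hj.2, (rel_two L hm hc hi hj.2 hj.1).2 h1⟩

/-! ### several cuts -/

/-- the cut hypothesis for the arcs `a ≤ k < b` : common left cells are common end cells -/
def Cut (M : CMap D C) (x : D → ZMod 2) (p : D) (T : ℕ → ℕ) (a b : ℕ) : Prop :=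
  ∀ k k', a ≤ k → k < k' → k' < b → ∀ u v, T k ≤ u → u ≤ T (k + 1) → T k' ≤ v →
    v ≤ T (k' + 1) → lc M x p u = lc M x p v → k' = k + 1 ∧ lc M x p u = lc M x p (T k')

theorem mono_of {T : ℕ → ℕ} {a b : ℕ} (h : ∀ k, a ≤ k → k < b → T k ≤ T (k + 1)) {k l : ℕ}
    (h1 : a ≤ k) (h2 : k ≤ l) (h3 : l ≤ b) : T k ≤ T l := by
  induction l with
  | zero => rw [Nat.le_zero.1 h2]
  | succ l ih =>
    rcases h2.lt_or_eq with h4 | h4
    · exact (ih (by omega) (by omega)).trans (h l (by omega) (by omega))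
    · rw [h4]

/-- the arc of a time -/
theorem arc_of {T : ℕ → ℕ} {a b u : ℕ} (hab : a < b) (h1 : T a ≤ u) (h2 : u ≤ T b) :
    ∃ k, a ≤ k ∧ k < b ∧ T k ≤ u ∧ u ≤ T (k + 1) := by
  induction b with
  | zero => omega
  | succ b ih =>
    rcases Nat.lt_or_ge u (T b) with h3 | h3
    · rcases Nat.lt_or_ge a b with h4 | h4
      · obtain ⟨k, a1, a2, a3, a4⟩ := ih h4 h3.le
        exact ⟨k, a1, by omega, a3, a4⟩
      · rw [show b = a by omega] at h3
        omega
    · exact ⟨b, by omega, by omega, h3, h2⟩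

/-- **additivity along several arcs** -/
theorem ink_sum {T : ℕ → ℕ} {a b : ℕ} (hab : a < b)
    (hmono : ∀ k, a ≤ k → k < b → T k ≤ T (k + 1)) (hcut : Cut M x p T a b) {i : ℕ} :
    InK M x p (T a) (T b) i ↔ ∃ k, a ≤ k ∧ k < b ∧ InK M x p (T k) (T (k + 1)) i := by
  induction b with
  | zero => omega
  | succ b ih =>
    rcases Nat.lt_or_ge a b with h1 | h1
    · have ih' := ih h1 (fun k h2 h3 => hmono k h2 (by omega))
        (fun k k' a1 a2 a3 => hcut k k' a1 a2 (by omega))
      rw [ink_add (m := T b) (mono_of hmono le_rfl h1.le (by omega)) (hmono b h1.le (by omega))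
        (fun j l a1 a2 a3 a4 e => by
          obtain ⟨k, b1, b2, b3, b4⟩ := arc_of h1 a1 a2
          exact (hcut k b b1 b2 (by omega) j l b3 b4 a3 a4 e).2), ih']
      constructor
      · rintro (⟨k, a1, a2, a3⟩ | h)
        · exact ⟨k, a1, by omega, a3⟩
        · exact ⟨b, h1.le, by omega, h⟩
      · rintro ⟨k, a1, a2, a3⟩
        rcases Nat.lt_or_ge k b with h2 | h2
        · exact Or.inl ⟨k, a1, h2, a3⟩
        · rw [show k = b by omega] at a3
          exact Or.inr a3
    · rw [show b = a by omega]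
      constructor
      · intro h
        exact ⟨a, le_rfl, by omega, h⟩
      · rintro ⟨k, a1, a2, a3⟩
        rw [show k = a by omega] at a3
        exact a3

/-- the cut hypothesis for a closed loop -/
def CutC (M : CMap D C) (x : D → ZMod 2) (p : D) (T : ℕ → ℕ) (n : ℕ) : Prop :=
  ∀ k k', k < k' → k' < n → ∀ u v, T k ≤ u → u ≤ T (k + 1) → T k' ≤ v →
    v ≤ T (k' + 1) → lc M x p u = lc M x p v →
    (k' = k + 1 ∧ lc M x p u = lc M x p (T k')) ∨ (k = 0 ∧ k' + 1 = n ∧ lc M x p u = lc M x p 0)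

/-- **the block of a ring** -/
theorem ring_blk [Fintype D] (L : Lp M x p N) {n : ℕ} (hn : 2 ≤ n) {T : ℕ → ℕ} (T0 : T 0 = 0)
    (Tn : T n = N) (hmono : ∀ k, k < n → T k ≤ T (k + 1)) (hcut : CutC M x p T n) {k0 i0 : ℕ}
    (hk0 : k0 < n) (hi0 : InK M x p (T k0) (T (k0 + 1)) i0) (t : D) :
    t ∈ blk M x (gp M x p i0) ↔ ∃ k, k < n ∧ ∃ i, InK M x p (T k) (T (k + 1)) i ∧
      t = gp M x p i := by
  have hm : T 1 ≤ N := by
    rw [← Tn]
    exact mono_of (a := 0) (b := n) (fun k _ hk => hmono k hk) (Nat.zero_le _) (by omega) le_rfl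
  have hc : ∀ j l, j ≤ T 1 → T 1 ≤ l → l ≤ N → lc M x p j = lc M x p l →
      lc M x p j = lc M x p 0 ∨ lc M x p j = lc M x p (T 1) := by
    intro j l a1 a2 a3 e
    obtain ⟨k, b1, b2, b3, b4⟩ := arc_of (T := T) (a := 1) (b := n) (by omega) a2
      (by rw [Tn]; exact a3)
    rcases hcut 0 k (by omega) b2 j l (by rw [T0]; exact Nat.zero_le _) a1 b3 b4 e with h | h
    · right
      rw [h.2, h.1]
    · exact Or.inl h.2.2
  have hcut' : Cut M x p T 1 n := by
    intro k k' a1 a2 a3 u v b1 b2 b3 b4 e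
    rcases hcut k k' a2 a3 u v b1 b2 b3 b4 e with h | h
    · exact h
    · omega
  have key : ∀ i, InK M x p 0 (T 1) i ∨ InK M x p (T 1) N i ↔
      ∃ k, k < n ∧ InK M x p (T k) (T (k + 1)) i := by
    intro i
    have h1 := ink_sum (M := M) (x := x) (p := p) (T := T) (a := 1) (b := n) (by omega)
      (fun k _ hk => hmono k hk) hcut' (i := i)
    rw [Tn] at h1
    rw [h1]
    constructor
    · rintro (h | ⟨k, a1, a2, a3⟩)
      · exact ⟨0, by omega, by rw [T0]; exact h⟩
      · exact ⟨k, a2, a3⟩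
    · rintro ⟨k, a1, a2⟩
      rcases Nat.eq_zero_or_pos k with rfl | hk
      · left
        rw [T0] at a2
        exact a2
      · exact Or.inr ⟨k, hk, a1, a2⟩
  rw [blk_two L hm hc ((key i0).2 ⟨k0, hk0, hi0⟩) t]
  constructor
  · rintro ⟨j, h1, h2⟩
    obtain ⟨k, h3, h4⟩ := (key j).1 h1
    exact ⟨k, h3, j, h4, h2⟩
  · rintro ⟨k, h1, j, h2, h3⟩
    exact ⟨j, (key j).2 ⟨k, h1, h2⟩, h3⟩

/-- charge of the block path of an arc -/
def KS {A : Type} [AddCommMonoid A] (M : CMap D C) (x : D → ZMod 2) (p : D) (w : D → A)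
    (a b : ℕ) : A :=
  ∑ i ∈ (Finset.Ico a b).filter (InK M x p a b), w (gp M x p i)

/-- **additivity of the charge along an arc** -/
theorem ks_add {A : Type} [AddCommMonoid A] {w : D → A} {a m b : ℕ} (h1 : a ≤ m) (h2 : m ≤ b)
    (hc : ∀ j l, a ≤ j → j ≤ m → m ≤ l → l ≤ b → lc M x p j = lc M x p l →
      lc M x p j = lc M x p m) :
    KS M x p w a b = KS M x p w a m + KS M x p w m b := by
  unfold KS
  rw [← Finset.sum_union]
  · refine Finset.sum_congr ?_ fun _ _ => rfl
    ext i
    simp only [Finset.mem_filter, Finset.mem_union, Finset.mem_Ico]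
    constructor
    · rintro ⟨-, h⟩
      rcases (ink_add h1 h2 hc).1 h with h | h
      · exact Or.inl ⟨⟨h.lo, h.hi⟩, h⟩
      · exact Or.inr ⟨⟨h.lo, h.hi⟩, h⟩
    · rintro (⟨-, h⟩ | ⟨-, h⟩)
      · have := (ink_add h1 h2 hc).2 (Or.inl h)
        exact ⟨⟨this.lo, this.hi⟩, this⟩
      · have := (ink_add h1 h2 hc).2 (Or.inr h)
        exact ⟨⟨this.lo, this.hi⟩, this⟩
  · rw [Finset.disjoint_left]
    intro i hi hi'
    rw [Finset.mem_filter, Finset.mem_Ico] at hi hi'
    omega

/-- **additivity of the charge along several arcs** -/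
theorem ks_sum {A : Type} [AddCommMonoid A] {w : D → A} {T : ℕ → ℕ} {a b : ℕ} (hab : a < b)
    (hmono : ∀ k, a ≤ k → k < b → T k ≤ T (k + 1)) (hcut : Cut M x p T a b) :
    KS M x p w (T a) (T b) = ∑ k ∈ Finset.Ico a b, KS M x p w (T k) (T (k + 1)) := by
  induction b with
  | zero => omega
  | succ b ih =>
    rcases Nat.lt_or_ge a b with h1 | h1
    · have ih' := ih h1 (fun k h2 h3 => hmono k h2 (by omega))
        (fun k k' a1 a2 a3 => hcut k k' a1 a2 (by omega))
      rw [ks_add (m := T b) (mono_of hmono le_rfl h1.le (by omega)) (hmono b h1.le (by omega))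
        (fun j l a1 a2 a3 a4 e => by
          obtain ⟨k, b1, b2, b3, b4⟩ := arc_of h1 a1 a2
          exact (hcut k b b1 b2 (by omega) j l b3 b4 a3 a4 e).2), ih',
        Finset.sum_Ico_succ_top h1.le]
    · rw [show b = a by omega]
      simp

/-- **the charge of the block of a ring** -/
theorem ring_sum [Fintype D] (L : Lp M x p N) {n : ℕ} (hn : 2 ≤ n) {T : ℕ → ℕ} (T0 : T 0 = 0)
    (Tn : T n = N) (hmono : ∀ k, k < n → T k ≤ T (k + 1)) (hcut : CutC M x p T n) {k0 i0 : ℕ}
    (hk0 : k0 < n) (hi0 : InK M x p (T k0) (T (k0 + 1)) i0) {A : Type} [AddCommMonoid A]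
    (w : D → A) :
    ∑ t ∈ blk M x (gp M x p i0), w t = ∑ k ∈ Finset.range n, KS M x p w (T k) (T (k + 1)) := by
  have hT : ∀ {k l : ℕ}, k ≤ l → l ≤ n → T k ≤ T l := fun h1 h2 =>
    mono_of (a := 0) (b := n) (fun k _ hk => hmono k hk) (Nat.zero_le _) h1 h2
  have e : blk M x (gp M x p i0) = ((Finset.range n).sigma fun k =>
      (Finset.Ico (T k) (T (k + 1))).filter (InK M x p (T k) (T (k + 1)))).image
      fun s => gp M x p s.2 := by
    ext t
    rw [ring_blk L hn T0 Tn hmono hcut hk0 hi0 t, Finset.mem_image]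
    constructor
    · rintro ⟨k, h1, i, h2, rfl⟩
      exact ⟨⟨k, i⟩, Finset.mem_sigma.2 ⟨Finset.mem_range.2 h1, Finset.mem_filter.2
        ⟨Finset.mem_Ico.2 ⟨h2.lo, h2.hi⟩, h2⟩⟩, rfl⟩
    · rintro ⟨⟨k, i⟩, h1, rfl⟩
      obtain ⟨h2, h3⟩ := Finset.mem_sigma.1 h1
      exact ⟨k, Finset.mem_range.1 h2, i, (Finset.mem_filter.1 h3).2, rfl⟩
  rw [e, Finset.sum_image]
  · rw [Finset.sum_sigma]
    rfl
  · rintro ⟨k, i⟩ h1 ⟨k', i'⟩ h1' h2
    obtain ⟨a1, a2⟩ := Finset.mem_sigma.1 (Finset.mem_coe.1 h1)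
    obtain ⟨b1, b2⟩ := Finset.mem_sigma.1 (Finset.mem_coe.1 h1')
    simp only [Finset.mem_range] at a1 b1
    have a3 := (Finset.mem_filter.1 a2).2
    have b3 := (Finset.mem_filter.1 b2).2
    have a4 := hT (show k + 1 ≤ n by omega) le_rfl
    have b4 := hT (show k' + 1 ≤ n by omega) le_rfl
    rw [Tn] at a4 b4
    have a5 := a3.hi
    have b5 := b3.hi
    have a6 := a3.lo
    have b6 := b3.lo
    simp only at h2 a5 b5 a6 b6
    have hii : i = i' := by
      rcases lt_trichotomy i i' with h | h | h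
      · exact absurd h2 (L.gp_ne h (by omega))
      · exact h
      · exact absurd h2.symm (L.gp_ne h (by omega))
    subst hii
    have hkk : k = k' := by
      rcases lt_trichotomy k k' with h | h | h
      · have := hT (show k + 1 ≤ k' by omega) (by omega)
        omega
      · exact h
      · have := hT (show k' + 1 ≤ k by omega) (by omega)
        omega
    subst hkk
    rfl

/-! ### links -/

/-- **the cut hypothesis from links** -/
theorem cut_of_links (L : Lp M x p N) (G : ∀ i, Gen M (lc M x p i)) {n : ℕ} {T : ℕ → ℕ}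
    (Tn : T n ≤ N) (hmono : ∀ k, k < n → T k ≤ T (k + 1))
    (hl : ∀ k k' c, k < k' → k' < n → (k' = k + 1 ∧ c = lc M x p (T k')) ∨
      (k = 0 ∧ k' + 1 = n ∧ c = lc M x p 0) ∨ ConA M x c (lc M x p (T k)) (lc M x p (T (k + 1))) ∨
      ConA M x c (lc M x p (T k')) (lc M x p (T (k' + 1)))) : CutC M x p T n := by
  intro k k' h1 h2 u v a1 a2 a3 a4 e
  have hT : ∀ {k l : ℕ}, k ≤ l → l ≤ n → T k ≤ T l := fun h1 h2 =>
    mono_of (a := 0) (b := n) (fun k _ hk => hmono k hk) (Nat.zero_le _) h1 h2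
  have e1 := hT (show k + 1 ≤ k' by omega) (by omega)
  have e2 := hT (show k' + 1 ≤ n by omega) le_rfl
  obtain ⟨h3, h4⟩ := two_arcs L (G u) (c := lc M x p u) (A := T k) (B := T (k + 1)) (A' := T k')
    (B' := T (k' + 1)) a1 a2 e1 a3 a4 (by omega) rfl e.symm
  rcases hl k k' (lc M x p u) h1 h2 with h | h | h | h
  · exact Or.inl h
  · exact Or.inr h
  · exact absurd h h3
  · exact absurd h h4


end Crest.Agent.R143.Splx117
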