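import Crest.Agent.R143.Ext_358
import Crest.Agent.R143.R5q_166
import Crest.Agent.R143.StGlue_867

/-!
# Row 143 (S0194), RIG: ONE revealed set from a family of strands (helper358)

A family of arcs (strands) `ι` : first state `pa i σ`, length `na i σ`, cells
`ac M (pa i σ) (na i σ) σ` = left and right cells of the states `0 .. na`; event `Ev i σ`;
`Oc i σ` = revealed set of `Ext_358` of the arc `i`.

* `Sys` : the arc is decided by its cells, the event by `Oc i σ`, uniqueness (323); on the event: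
  black left cells, `Ext` connected, `Sep`, link, length `< ` period, a block gap whose state is in
  the fixed set `Q` (window of the inner gate)
* `Sys.fam`, **`Sys.stop`** : 867's `Fam`, 778's `StopSet` of `OO = StGluex867.out Oc Ev`
* `rr M x p n Q` : the first block gap time with state in `Q`; **`Sys.ex`** : 166's `Ex` for
  `W = Ww M H R (pa i σ) (na i σ) σ`, `r = rr`; **`Sys.oo_eq`** : `OO σ = EE` = left cells and `W`
* `Sys.dec` : everything (arc, states, `W`, `r`, giants `AA`, root gap) is decided by the colours on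
  `Oc i σ`; `gA`, `gR`, `gA_adp`, `gR_adp` : giants and root gap as adapted functions of `σ`
-/

set_option autoImplicit false
set_option linter.unusedSectionVars false

noncomputable section

open scoped Classical

namespace Crest.Agent.R143.OutSx358

open Crest.Agent.R143.Frame1x395 Crest.Agent.R143.Frame2x395 Crest.Agent.R143.Frame3x395
  Crest.Agent.R143.Frame4x395 Crest.Agent.R143.Frame8x395 Crest.Agent.R143.Frame9x395
  Crest.Agent.R143.NonXx592 Crest.Agent.R143.CFramex358 Crest.Agent.R143.Gntx535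
  Crest.Agent.R143.R5bx166 Crest.Agent.R143.R5qx166 Crest.Agent.R143.Extx358

open Splx117 (Lp InK gp)
open StGluex867 (Fam out pick pick_eq pick_adp)
open Resax778 (StopSet)

variable {D C ι : Type} [Fintype D] [Fintype C] {M : CMap D C} {H R : Set C} {Q : Set D}
  {σ τ : C → ZMod 2}

/-- the cells of the arc `0 .. n` from `p` -/
def ac (M : CMap D C) (p : D) (n : ℕ) (σ : C → ZMod 2) : Finset C :=
  wl M (cfg M σ) p n ∪ wr M (cfg M σ) p n

/-- the blocking set of the arc -/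
abbrev zc (M : CMap D C) (R : Set C) (p : D) (n : ℕ) (σ : C → ZMod 2) : Set C :=
  Zc (wl M (cfg M σ) p n) (wr M (cfg M σ) p n) R σ

/-- the revealed set of the arc -/
def oc (M : CMap D C) (H R : Set C) (pa : (C → ZMod 2) → D) (na : (C → ZMod 2) → ℕ)
    (σ : C → ZMod 2) : Finset C :=
  outF M H R (fun σ => ac M (pa σ) (na σ) σ) σ

variable {p : D} {n : ℕ}

theorem coe_ac : (ac M p n σ : Set C) = (wl M (cfg M σ) p n : Set C) ∪ wr M (cfg M σ) p n := by
  unfold ac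
  rw [Finset.coe_union]

/-- the arc is decided by its cells -/
theorem ac_congr (hp : cfg M σ p = 1) (h : ∀ c ∈ ac M p n σ, τ c = σ c) :
    cfg M τ p = 1 ∧ (∀ j ≤ n, P M (cfg M τ) p j = P M (cfg M σ) p j) ∧
      wl M (cfg M τ) p n = wl M (cfg M σ) p n ∧ wr M (cfg M τ) p n = wr M (cfg M σ) p n := by
  obtain ⟨h1, h2⟩ := walk_agree hp h
  refine ⟨h1, h2, ?_, ?_⟩
  · ext c
    rw [mem_wl, mem_wl]
    exact ⟨fun ⟨j, hj, e⟩ => ⟨j, hj, by rw [← h2 j hj]; exact e⟩,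
      fun ⟨j, hj, e⟩ => ⟨j, hj, by rw [h2 j hj]; exact e⟩⟩
  · ext c
    rw [mem_wr, mem_wr]
    exact ⟨fun ⟨j, hj, e⟩ => ⟨j, hj, by rw [← h2 j hj]; exact e⟩,
      fun ⟨j, hj, e⟩ => ⟨j, hj, by rw [h2 j hj]; exact e⟩⟩

/-- the first block gap time of the arc with its state in `Q` -/
def rr (M : CMap D C) (x : D → ZMod 2) (p : D) (n : ℕ) (Q : Set D) : ℕ :=
  if h : ∃ r, P M x p r ∈ Q ∧ InK M x p 0 n r then Nat.find h else 0

theorem rr_spec {x : D → ZMod 2} (h : ∃ r, P M x p r ∈ Q ∧ InK M x p 0 n r) :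
    P M x p (rr M x p n Q) ∈ Q ∧ InK M x p 0 n (rr M x p n Q) := by
  unfold rr
  rw [dif_pos h]
  exact Nat.find_spec h

theorem rr_congr {x y : D → ZMod 2} {q : D} {m : ℕ}
    (h : ∀ r, (P M x p r ∈ Q ∧ InK M x p 0 n r) ↔ (P M y q r ∈ Q ∧ InK M y q 0 m r)) :
    rr M x p n Q = rr M y q m Q := by
  unfold rr
  have e : (∃ r, P M x p r ∈ Q ∧ InK M x p 0 n r) ↔ ∃ r, P M y q r ∈ Q ∧ InK M y q 0 m r :=
    exists_congr h
  by_cases h1 : ∃ r, P M x p r ∈ Q ∧ InK M x p 0 n r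
  · rw [dif_pos h1, dif_pos (e.1 h1)]
    exact Nat.find_congr' (fun {r} => h r)
  · rw [dif_neg h1, dif_neg fun h2 => h1 (e.2 h2)]

/-- **the data of the family of strands** -/
structure Sys (M : CMap D C) (H R : Set C) (Q : Set D) (pa : ι → (C → ZMod 2) → D)
    (na : ι → (C → ZMod 2) → ℕ) (Ev : ι → (C → ZMod 2) → Prop) : Prop where
  /-- the hull cells are not in the strips -/
  hR : ∀ c ∈ H, c ∉ R
  /-- the arc is decided by its cells -/
  st : ∀ i σ τ, Ev i σ → (∀ c ∈ ac M (pa i σ) (na i σ) σ, τ c = σ c) →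
    pa i τ = pa i σ ∧ na i τ = na i σ
  /-- the event is decided by the revealed cells -/
  ev : ∀ i σ τ, Ev i σ → (∀ c ∈ oc M H R (pa i) (na i) σ, τ c = σ c) → Ev i τ
  /-- uniqueness -/
  uni : ∀ i j σ, Ev i σ → Ev j σ → pa i σ = pa j σ ∧ na i σ = na j σ
  occ : ∀ i σ, Ev i σ → cfg M σ (pa i σ) = 1
  col : ∀ i σ, Ev i σ → σ (M.cell (pa i σ)) = 1
  lt : ∀ i σ, Ev i σ → na i σ < per M (cfg M σ) (pa i σ)
  /-- a block gap in the inner window -/
  ink : ∀ i σ, Ev i σ → ∃ r, P M (cfg M σ) (pa i σ) r ∈ Q ∧ InK M (cfg M σ) (pa i σ) 0 (na i σ) r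
  /-- connected exterior -/
  con : ∀ i σ, Ev i σ → CCon M {c | Ext M H (zc M R (pa i σ) (na i σ) σ) c}
  /-- planar input -/
  sep : ∀ i σ, Ev i σ → Sep M H (zc M R (pa i σ) (na i σ) σ) (wl M (cfg M σ) (pa i σ) (na i σ))
  /-- a right cell of the arc next to the exterior -/
  lnk : ∀ i σ, Ev i σ → ∃ c₀ ∈ (wr M (cfg M σ) (pa i σ) (na i σ) : Set C), ∃ e₀,
    Ext M H (zc M R (pa i σ) (na i σ) σ) e₀ ∧ Ad M e₀ c₀

variable {pa : ι → (C → ZMod 2) → D} {na : ι → (C → ZMod 2) → ℕ}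
  {Ev : ι → (C → ZMod 2) → Prop} {i : ι}

/-- the white giant -/
abbrev wg (M : CMap D C) (H R : Set C) (pa : ι → (C → ZMod 2) → D)
    (na : ι → (C → ZMod 2) → ℕ) (i : ι) (σ : C → ZMod 2) : Set C :=
  Extx358.Ww M H R (pa i σ) (na i σ) σ

/-- the time of the root gap -/
abbrev rt (M : CMap D C) (Q : Set D) (pa : ι → (C → ZMod 2) → D)
    (na : ι → (C → ZMod 2) → ℕ) (i : ι) (σ : C → ZMod 2) : ℕ :=
  rr M (cfg M σ) (pa i σ) (na i σ) Q

theorem zs_eq : Zs (fun σ => (ac M (pa i σ) (na i σ) σ : Set C)) R σ =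
    zc M R (pa i σ) (na i σ) σ := by
  unfold Zs zc Zc
  beta_reduce
  rw [coe_ac]

/-- the cells of the arc are revealed -/
theorem ac_sub : ∀ c ∈ ac M (pa i σ) (na i σ) σ, c ∈ oc M H R (pa i) (na i) σ := fun _ hc =>
  (mem_outF (Set.toFinite H)).2 (out_arc (Finset.mem_coe.2 hc))

/-- **the revealed set is left cells and white giant** -/
theorem oc_eq : (oc M H R (pa i) (na i) σ : Set C) =
    EE M (cfg M σ) (pa i σ) (na i σ) (wg M H R pa na i σ) := by
  unfold oc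
  rw [coe_outF (Set.toFinite H)]
  unfold Out
  rw [zs_eq]
  show (ac M (pa i σ) (na i σ) σ : Set C) ∪ _ = _
  rw [coe_ac, out_eq']
  unfold EE
  congr 1
  ext c
  exact mem_wl'

/-- **166's hypotheses** -/
theorem Sys.ex (S : Sys M H R Q pa na Ev) (h : Ev i σ) :
    Ex M σ (pa i σ) (per M (cfg M σ) (pa i σ)) (na i σ) (rt M Q pa na i σ)
      (wg M H R pa na i σ) := by
  obtain ⟨-, h2, h3, h4, h5⟩ := walker_n (S.col i σ h) (S.occ i σ h) (Set.toFinite H)
    (S.con i σ h) (S.sep i σ h) (S.lnk i σ h)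
  refine ⟨lp_per (cfg_isC σ) (S.occ i σ h), S.lt i σ h, (rr_spec (S.ink i σ h)).2, S.col i σ h,
    h2, h3, h4, fun d hd hd' => ?_⟩
  by_cases hl : d ∈ M.live
  · exact h5 _ hd _ hd' ⟨d, hl, rfl, rfl⟩
  · exact absurd (M.dead d hl ▸ hd) hd'

/-- **everything is decided by the revealed colours** -/
theorem Sys.dec (S : Sys M H R Q pa na Ev) (h : Ev i σ)
    (ha : ∀ c ∈ oc M H R (pa i) (na i) σ, τ c = σ c) :
    pa i τ = pa i σ ∧ na i τ = na i σ ∧
    (∀ j ≤ na i σ, P M (cfg M τ) (pa i σ) j = P M (cfg M σ) (pa i σ) j) ∧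
    wg M H R pa na i τ = wg M H R pa na i σ ∧
    oc M H R (pa i) (na i) τ = oc M H R (pa i) (na i) σ ∧
    rt M Q pa na i τ = rt M Q pa na i σ := by
  obtain ⟨e1, e2⟩ := S.st i σ τ h fun c hc => ha c (ac_sub c hc)
  obtain ⟨-, e3, e4, e5⟩ := ac_congr (S.occ i σ h) fun c hc => ha c (ac_sub c hc)
  have e6 : ac M (pa i τ) (na i τ) τ = ac M (pa i σ) (na i σ) σ := by
    rw [e1, e2]
    unfold ac
    rw [e4, e5]
  obtain ⟨-, g2, g3, g4⟩ := stop_at (M := M) (A := fun σ => (ac M (pa i σ) (na i σ) σ : Set C))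
    (σ := σ) (τ := τ) S.hR (by show (_ : Set C) = _; rw [e6])
    fun c hc => ha c ((mem_outF (Set.toFinite H)).2 hc)
  rw [zs_eq, zs_eq] at g2 g3
  have e7 : wg M H R pa na i τ = wg M H R pa na i σ := by
    show {c | Ext M H (zc M R (pa i τ) (na i τ) τ) c} ∪ Bd M H (zc M R (pa i τ) (na i τ) τ) ∪
      (wr M (cfg M τ) (pa i τ) (na i τ) : Set C) = {c | Ext M H (zc M R (pa i σ) (na i σ) σ) c} ∪
      Bd M H (zc M R (pa i σ) (na i σ) σ) ∪ (wr M (cfg M σ) (pa i σ) (na i σ) : Set C)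
    rw [g3]
    congr 1
    · congr 1
      ext c
      exact g2 c
    · rw [e1, e2, e5]
  have e8 : oc M H R (pa i) (na i) τ = oc M H R (pa i) (na i) σ := by
    apply Finset.coe_injective
    unfold oc
    rw [coe_outF (Set.toFinite H), coe_outF (Set.toFinite H)]
    exact g4
  have hE : ∀ c ∈ EE M (cfg M σ) (pa i σ) (na i σ) (wg M H R pa na i σ), τ c = σ c :=
    fun c hc => ha c (by rw [← Finset.mem_coe, oc_eq]; exact hc)
  refine ⟨e1, e2, e3, e7, e8, ?_⟩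
  show rr M (cfg M τ) (pa i τ) (na i τ) Q = rr M (cfg M σ) (pa i σ) (na i σ) Q
  rw [e1, e2]
  refine rr_congr fun r => ?_
  rw [(S.ex h).ink hE]
  constructor
  · rintro ⟨h1, h2⟩
    refine ⟨?_, h2⟩
    rw [← e3 r h2.hi.le]
    exact h1
  · rintro ⟨h1, h2⟩
    refine ⟨?_, h2⟩
    rw [e3 r h2.hi.le]
    exact h1

/-- **867's family** -/
theorem Sys.fam (S : Sys M H R Q pa na Ev) : Fam (fun i => oc M H R (pa i) (na i)) Ev where
  stp i σ τ h ha := ⟨S.ev i σ τ h ha, (S.dec h ha).2.2.2.2.1⟩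
  uni i j σ h h' := by
    obtain ⟨e1, e2⟩ := S.uni i j σ h h'
    apply Finset.coe_injective
    rw [oc_eq, oc_eq]
    show EE M (cfg M σ) (pa i σ) (na i σ) (Extx358.Ww M H R (pa i σ) (na i σ) σ) =
      EE M (cfg M σ) (pa j σ) (na j σ) (Extx358.Ww M H R (pa j σ) (na j σ) σ)
    rw [e1, e2]

/-- the revealed set -/
def OO (M : CMap D C) (H R : Set C) (pa : ι → (C → ZMod 2) → D) (na : ι → (C → ZMod 2) → ℕ)
    (Ev : ι → (C → ZMod 2) → Prop) : (C → ZMod 2) → Finset C :=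
  out (fun i => oc M H R (pa i) (na i)) Ev

/-- **ONE stopping set** -/
theorem Sys.stop (S : Sys M H R Q pa na Ev) : StopSet (OO M H R pa na Ev) :=
  StGluex867.stop S.fam

theorem Sys.oo (S : Sys M H R Q pa na Ev) (h : Ev i σ) :
    OO M H R pa na Ev σ = oc M H R (pa i) (na i) σ := StGluex867.out_eq S.fam h

/-- **the revealed set is left cells and white giant** -/
theorem Sys.oo_eq (S : Sys M H R Q pa na Ev) (h : Ev i σ) :
    (OO M H R pa na Ev σ : Set C) =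
      EE M (cfg M σ) (pa i σ) (na i σ) (wg M H R pa na i σ) := by
  rw [S.oo h, oc_eq]

/-! ### giants and root gap as adapted functions -/

/-- the giants -/
abbrev ga (M : CMap D C) (H R : Set C) (Q : Set D) (pa : ι → (C → ZMod 2) → D)
    (na : ι → (C → ZMod 2) → ℕ) (k : ZMod 3) (i : ι) (σ : C → ZMod 2) : ZMod 3 → Set C :=
  AA M σ (pa i σ) (na i σ) (rt M Q pa na i σ) (wg M H R pa na i σ) k

/-- the root gap -/
abbrev gr (M : CMap D C) (Q : Set D) (pa : ι → (C → ZMod 2) → D)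
    (na : ι → (C → ZMod 2) → ℕ) (i : ι) (σ : C → ZMod 2) : D :=
  gp M (cfg M σ) (pa i σ) (rt M Q pa na i σ)



/-- **the giants, as an adapted function** -/
def gA (M : CMap D C) (H R : Set C) (Q : Set D) (pa : ι → (C → ZMod 2) → D)
    (na : ι → (C → ZMod 2) → ℕ) (Ev : ι → (C → ZMod 2) → Prop) (k : ZMod 3) :
    (C → ZMod 2) → ZMod 3 → Set C :=
  pick Ev (ga M H R Q pa na k) fun _ => ∅

/-- **the root gap, as an adapted function** -/
def gR (M : CMap D C) (Q : Set D) (pa : ι → (C → ZMod 2) → D)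
    (na : ι → (C → ZMod 2) → ℕ) (Ev : ι → (C → ZMod 2) → Prop) (d₀ : D) : (C → ZMod 2) → D :=
  pick Ev (gr M Q pa na) d₀

theorem Sys.uni_ga (S : Sys M H R Q pa na Ev) (k : ZMod 3) (i j : ι) (σ : C → ZMod 2)
    (h : Ev i σ) (h' : Ev j σ) : ga M H R Q pa na k i σ = ga M H R Q pa na k j σ := by
  obtain ⟨e1, e2⟩ := S.uni i j σ h h'
  show AA M σ (pa i σ) (na i σ) (rr M (cfg M σ) (pa i σ) (na i σ) Q)
      (Extx358.Ww M H R (pa i σ) (na i σ) σ) k =
    AA M σ (pa j σ) (na j σ) (rr M (cfg M σ) (pa j σ) (na j σ) Q)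
      (Extx358.Ww M H R (pa j σ) (na j σ) σ) k
  rw [e1, e2]

theorem Sys.uni_gr (S : Sys M H R Q pa na Ev) (i j : ι) (σ : C → ZMod 2)
    (h : Ev i σ) (h' : Ev j σ) : gr M Q pa na i σ = gr M Q pa na j σ := by
  obtain ⟨e1, e2⟩ := S.uni i j σ h h'
  show gp M (cfg M σ) (pa i σ) (rr M (cfg M σ) (pa i σ) (na i σ) Q) =
    gp M (cfg M σ) (pa j σ) (rr M (cfg M σ) (pa j σ) (na j σ) Q)
  rw [e1, e2]

theorem Sys.gA_eq (S : Sys M H R Q pa na Ev) (k : ZMod 3) (h : Ev i σ) :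
    gA M H R Q pa na Ev k σ = ga M H R Q pa na k i σ := pick_eq (S.uni_ga k) h

theorem Sys.gR_eq (S : Sys M H R Q pa na Ev) (d₀ : D) (h : Ev i σ) :
    gR M Q pa na Ev d₀ σ = gr M Q pa na i σ := pick_eq S.uni_gr h




/-- **summary for 778**: giants, root gap, colours, boundary of the white giant, revealed set -/
theorem Sys.main (S : Sys M H R Q pa na Ev) (d₀ : D) (k : ZMod 3) (h : ∃ i, Ev i σ) :
    C2SBx395.Gi M (gA M H R Q pa na Ev k σ) ∧
    C2SBx395.Root M (gA M H R Q pa na Ev k σ) k (gR M Q pa na Ev d₀ σ) ∧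
    (∀ c ∈ gA M H R Q pa na Ev k σ (k + 1), σ c = 1) ∧
    (∀ c ∈ gA M H R Q pa na Ev k σ k, σ c = 1) ∧
    (∀ c ∈ gA M H R Q pa na Ev k σ (k + 2), ∀ c' ∉ gA M H R Q pa na Ev k σ (k + 2),
      Reachx778.Ad M c c' → σ c = 0) ∧
    (∀ c, c ∈ OO M H R pa na Ev σ ↔ ¬ C2SBx395.Free (gA M H R Q pa na Ev k σ) c) := by
  obtain ⟨i, hi⟩ := h
  have X := S.ex hi
  rw [S.gA_eq k hi, S.gR_eq d₀ hi]
  refine ⟨X.gi, X.root, X.colA.1, X.colA.2, fun c hc c' hc' ha => X.bdAd hc ha hc', fun c => ?_⟩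
  rw [X.not_free, ← S.oo_eq hi, Finset.mem_coe]

end Crest.Agent.R143.OutSx358
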