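import Crest.Agent.R143.Gnt_535

/-!
# Row 143 (S0194), CORE-C, box R4: the maximal strand inside a fixed set of cells (helper535)

(note 3765 of helper323: the necks of the end gates are not decided by `Out`; the arc is the maximal
strand of the walker inside the fixed set `Rt`)

* `tm`, `Rg`, `Rg_stp` : walker with a general stopping condition `St n q`; stopping rule
* `fc M Rt q` : the three cells of the face of `q` are in `Rt`
* `Rch` : reachable through faces inside `Rt`; `Str` : on the same strand (`str_symm`, `str_trans`,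
  `Rch.rev`)
* `Sd M d Rt χ` : the revealed cells of the strand of `d`, both directions; `mem_Sd` : they are the left
  and the right cells of the states of the strand; `Sd_stp` : **stopping rule**; `str_agree` : the
  strand is decided; `Sd_eq` : two states of one strand have the same revealed cells
* `str_list` : a strand which leaves `Rt` is an arc `P e 0, .., P e n`
* `sl_con`, `sr_con`, `sl_col`, `sr_col` : left / right cells are connected and have one colour
* `glue_stp` : **gluing of stopping rules**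
-/

set_option autoImplicit false

noncomputable section

open scoped Classical

namespace Crest.Agent.R143.Strandx535

open Crest.Agent.R143.Frame1x395 Crest.Agent.R143.Frame2x395 Crest.Agent.R143.Frame3x395
  Crest.Agent.R143.Frame4x395 Crest.Agent.R143.Frame8x395 Crest.Agent.R143.NonXx592
  Crest.Agent.R143.Coarsex166 Crest.Agent.R143.CFramex358 Crest.Agent.R143.Runx535
  Crest.Agent.R143.Gntx535

variable {D C : Type} {M : CMap D C} {x : D → ZMod 2}

/-! ### a walker with a general stopping condition -/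

/-- first time with `St n (P n)` (`0` if there is none) -/
def tm (M : CMap D C) (x : D → ZMod 2) (p : D) (St : ℕ → D → Prop) : ℕ :=
  if h : ∃ n, St n (P M x p n) then Nat.find h else 0

theorem tm_spec {p : D} {St : ℕ → D → Prop} (h : ∃ n, St n (P M x p n)) :
    St (tm M x p St) (P M x p (tm M x p St)) := by
  unfold tm
  rw [dif_pos h]
  exact Nat.find_spec h

theorem tm_min {p : D} {St : ℕ → D → Prop} {n : ℕ} (hn : n < tm M x p St) :
    ¬ St n (P M x p n) := by
  unfold tm at hn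
  split_ifs at hn with h
  · exact Nat.find_min h hn
  · exact absurd hn (Nat.not_lt_zero _)

theorem tm_eq {p : D} {St : ℕ → D → Prop} {n : ℕ} (h2 : St n (P M x p n))
    (h3 : ∀ j < n, ¬ St j (P M x p j)) : tm M x p St = n := by
  have h : ∃ n, St n (P M x p n) := ⟨n, h2⟩
  rcases lt_trichotomy (tm M x p St) n with hl | hl | hl
  · exact absurd (tm_spec h) (h3 _ hl)
  · exact hl
  · exact absurd h2 (tm_min hl)

/-- the revealed cells -/
def Rg (M : CMap D C) (p : D) (St : ℕ → D → Prop) (χ : C → ZMod 2) : Finset C :=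
  if cfg M χ p = 1 then
    wl M (cfg M χ) p (tm M (cfg M χ) p St) ∪ wr M (cfg M χ) p (tm M (cfg M χ) p St)
  else {M.cell p, M.cell (M.rho p)}

theorem tm_agree [Fintype D] {χ χ' : C → ZMod 2} {p : D} {St : ℕ → D → Prop}
    (hex : ∃ n, St n (P M (cfg M χ) p n)) (hp : cfg M χ p = 1)
    (ha : ∀ c ∈ Rg M p St χ, χ' c = χ c) :
    cfg M χ' p = 1 ∧ tm M (cfg M χ') p St = tm M (cfg M χ) p St ∧
      ∀ j ≤ tm M (cfg M χ) p St, P M (cfg M χ') p j = P M (cfg M χ) p j := by
  unfold Rg at ha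
  rw [if_pos hp] at ha
  obtain ⟨h1, h2⟩ := walk_agree hp ha
  refine ⟨h1, tm_eq ?_ fun j hj => ?_, h2⟩
  · rw [h2 _ le_rfl]; exact tm_spec hex
  · rw [h2 _ hj.le]; exact tm_min hj


/-! ### strands -/

variable {Rt : Set C}

/-- the three cells of the face of `q` are in `Rt` -/
def fc (M : CMap D C) (Rt : Set C) (q : D) : Prop :=
  M.cell q ∈ Rt ∧ M.cell (M.rho q) ∈ Rt ∧ M.cell (M.rho (M.rho q)) ∈ Rt

theorem fc_rho {q : D} : fc M Rt (M.rho q) ↔ fc M Rt q := by
  unfold fc
  rw [M.rho3]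
  tauto

theorem fc_rev (h : IsC M ∅ x) {q : D} (hq : x q = 1) :
    fc M Rt (M.iota (stp M x q)) ↔ fc M Rt q := by
  rcases stp_cases h hq (Set.notMem_empty _) with ⟨-, -, e⟩ | ⟨-, -, e⟩
  · rw [e, M.iota2, fc_rho]
  · rw [e, M.iota2, fc_rho, fc_rho]

/-- `q` is reachable from `d` through faces inside `Rt` -/
def Rch (M : CMap D C) (x : D → ZMod 2) (Rt : Set C) (d q : D) : Prop :=
  ∃ j, (∀ i < j, fc M Rt (P M x d i)) ∧ P M x d j = q

theorem Rch.refl (d : D) : Rch M x Rt d d := ⟨0, fun i hi => absurd hi (Nat.not_lt_zero i), rfl⟩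

theorem Rch.trans {d q r : D} (h1 : Rch M x Rt d q) (h2 : Rch M x Rt q r) : Rch M x Rt d r := by
  obtain ⟨j, a1, rfl⟩ := h1
  obtain ⟨k, b1, rfl⟩ := h2
  refine ⟨k + j, fun i hi => ?_, P_add _ _ _⟩
  rcases lt_or_ge i j with h | h
  · exact a1 i h
  · have := b1 (i - j) (by omega)
    rwa [← P_add, show i - j + j = i by omega] at this

/-- two states which are reachable from `d` are comparable -/
theorem Rch.cmp {d q r : D} (h1 : Rch M x Rt d q) (h2 : Rch M x Rt d r) :
    Rch M x Rt q r ∨ Rch M x Rt r q := by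
  obtain ⟨j, a1, rfl⟩ := h1
  obtain ⟨k, b1, rfl⟩ := h2
  have key : ∀ j k : ℕ, j ≤ k → (∀ i < k, fc M Rt (P M x d i)) →
      Rch M x Rt (P M x d j) (P M x d k) := by
    intro j k hjk hb
    refine ⟨k - j, fun i hi => ?_, ?_⟩
    · rw [← P_add]; exact hb _ (by omega)
    · rw [← P_add, show k - j + j = k by omega]
  rcases le_total j k with h | h
  · exact Or.inl (key j k h b1)
  · exact Or.inr (key k j h a1)

theorem Rch.occ (h : IsC M ∅ x) {d q : D} (hd : x d = 1) (H : Rch M x Rt d q) : x q = 1 := by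
  obtain ⟨j, -, rfl⟩ := H
  exact P_occ h hd j

/-- **reversal** -/
theorem Rch.rev (h : IsC M ∅ x) {d q : D} (hd : x d = 1) (H : Rch M x Rt d q) :
    Rch M x Rt (M.iota q) (M.iota d) := by
  obtain ⟨j, a1, rfl⟩ := H
  refine ⟨j, fun i hi => ?_, ?_⟩
  · rw [P_rev h hd hi.le, show j - i = (j - i - 1) + 1 by omega, P_succ,
      fc_rev h (P_occ h hd _)]
    exact a1 _ (by omega)
  · rw [P_rev h hd le_rfl, Nat.sub_self]
    rfl

theorem Rch.rev' (h : IsC M ∅ x) {d q : D} (hd : x d = 1)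
    (H : Rch M x Rt (M.iota d) (M.iota q)) : Rch M x Rt q d := by
  have h1 := H.rev h (by rw [h.iot]; exact hd)
  rwa [M.iota2, M.iota2] at h1

/-- on the same strand inside `Rt` (`d` occupied) -/
def Str (M : CMap D C) (x : D → ZMod 2) (Rt : Set C) (d q : D) : Prop :=
  Rch M x Rt d q ∨ Rch M x Rt (M.iota d) (M.iota q)

theorem str_refl (d : D) : Str M x Rt d d := Or.inl (Rch.refl d)

theorem str_occ (h : IsC M ∅ x) {d q : D} (hd : x d = 1) (H : Str M x Rt d q) : x q = 1 := by
  rcases H with H | H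
  · exact H.occ h hd
  · have h1 := H.occ h (by rw [h.iot]; exact hd)
    rwa [h.iot] at h1

theorem str_symm (h : IsC M ∅ x) {d q : D} (hd : x d = 1) (H : Str M x Rt d q) :
    Str M x Rt q d := by
  rcases H with H | H
  · exact Or.inr (H.rev h hd)
  · exact Or.inl (H.rev' h hd)

theorem str_trans (h : IsC M ∅ x) {d q r : D} (hd : x d = 1) (h1 : Str M x Rt d q)
    (h2 : Str M x Rt q r) : Str M x Rt d r := by
  have hq := str_occ h hd h1
  have hr := str_occ h hq h2
  rcases h1 with h1 | h1 <;> rcases h2 with h2 | h2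
  · exact Or.inl (h1.trans h2)
  · rcases (h1.rev h hd).cmp h2 with h3 | h3
    · exact Or.inr h3
    · exact Or.inl (h3.rev' h hr)
  · rcases (h1.rev' h hd).cmp h2 with h3 | h3
    · exact Or.inl h3
    · exact Or.inr (h3.rev h hr)
  · exact Or.inr (h1.trans h2)

/-! ### the revealed cells of a strand -/

/-- stopping condition of the strand -/
def SC (M : CMap D C) (Rt : Set C) (d : D) (n : ℕ) (q : D) : Prop :=
  ¬ fc M Rt q ∨ (1 ≤ n ∧ q = d)

/-- length of the forward part of the strand -/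
def tf (M : CMap D C) (x : D → ZMod 2) (Rt : Set C) (d : D) : ℕ := tm M x d (SC M Rt d)

theorem sc_ex [Finite D] (h : IsC M ∅ x) {d : D} (hd : x d = 1) :
    ∃ n, SC M Rt d n (P M x d n) := by
  obtain ⟨N, hN, e⟩ := periodic h hd
  exact ⟨N, Or.inr ⟨hN, e⟩⟩

theorem fc_lt {d : D} {j : ℕ} (hj : j < tf M x Rt d) : fc M Rt (P M x d j) := by
  by_contra hc
  exact tm_min hj (Or.inl hc)

theorem rch_iff [Finite D] (h : IsC M ∅ x) {d q : D} (hd : x d = 1) :
    Rch M x Rt d q ↔ ∃ j ≤ tf M x Rt d, P M x d j = q := by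
  constructor
  · rintro ⟨j, a1, rfl⟩
    rcases le_or_gt j (tf M x Rt d) with hl | hl
    · exact ⟨j, hl, rfl⟩
    · rcases tm_spec (sc_ex (Rt := Rt) h hd) with h1 | ⟨h1, h2⟩
      · exact absurd (a1 _ hl) h1
      · refine ⟨j % tf M x Rt d, (Nat.mod_lt _ h1).le, ?_⟩
        have e1 := per_mul (M := M) (x := x) (p := d) (N := tf M x Rt d) h2 (j / tf M x Rt d)
        conv_rhs => rw [← Nat.mod_add_div j (tf M x Rt d), mul_comm]
        rw [P_add]
        show _ = P M x ((stp M x)^[j / tf M x Rt d * tf M x Rt d] d) _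
        rw [e1]
  · rintro ⟨j, hj, rfl⟩
    exact ⟨j, fun i hi => fc_lt (lt_of_lt_of_le hi hj), rfl⟩

/-- the revealed cells of the strand of `d` inside `Rt` -/
def Sd (M : CMap D C) (d : D) (Rt : Set C) (χ : C → ZMod 2) : Finset C :=
  Rg M d (SC M Rt d) χ ∪ Rg M (M.iota d) (SC M Rt (M.iota d)) χ

theorem mem_Rg [Finite D] {χ : C → ZMod 2} (h : IsC M ∅ (cfg M χ)) {d : D}
    (hd : cfg M χ d = 1) {c : C} : c ∈ Rg M d (SC M Rt d) χ ↔
      ∃ q, Rch M (cfg M χ) Rt d q ∧ (c = M.cell q ∨ c = Rc M q) := by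
  unfold Rg
  rw [if_pos hd, Finset.mem_union, mem_wl, mem_wr]
  constructor
  · rintro (⟨j, hj, rfl⟩ | ⟨j, hj, rfl⟩)
    · exact ⟨_, (rch_iff h hd).2 ⟨j, hj, rfl⟩, Or.inl rfl⟩
    · exact ⟨_, (rch_iff h hd).2 ⟨j, hj, rfl⟩, Or.inr rfl⟩
  · rintro ⟨q, hq, e⟩
    obtain ⟨j, hj, rfl⟩ := (rch_iff h hd).1 hq
    rcases e with rfl | rfl
    · exact Or.inl ⟨j, hj, rfl⟩
    · exact Or.inr ⟨j, hj, rfl⟩

/-- **the revealed cells are the left and right cells of the states of the strand** -/
theorem mem_Sd [Fintype D] {χ : C → ZMod 2} {d : D} (hd : cfg M χ d = 1) {c : C} :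
    c ∈ Sd M d Rt χ ↔
      ∃ q, Str M (cfg M χ) Rt d q ∧ (c = M.cell q ∨ c = Rc M q) := by
  have h := cfg_isC (M := M) χ
  have hd' : cfg M χ (M.iota d) = 1 := by rw [h.iot]; exact hd
  unfold Sd
  rw [Finset.mem_union, mem_Rg h hd, mem_Rg h hd']
  constructor
  · rintro (⟨q, hq, e⟩ | ⟨q, hq, e⟩)
    · exact ⟨q, Or.inl hq, e⟩
    · have hqo := hq.occ h hd'
      refine ⟨M.iota q, Or.inr (by rw [M.iota2]; exact hq), ?_⟩
      rw [cell_iota' h hqo, rc_iota h hqo]
      exact e.symm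
  · rintro ⟨q, hq | hq, e⟩
    · exact Or.inl ⟨q, hq, e⟩
    · right
      have hqo := str_occ h hd (Or.inr hq)
      refine ⟨M.iota q, hq, ?_⟩
      rw [cell_iota' h hqo, rc_iota h hqo]
      exact e.symm


/-- **the strand is decided by its revealed cells** -/
theorem str_agree [Fintype D] {χ χ' : C → ZMod 2} {d : D} (hd : cfg M χ d = 1)
    (ha : ∀ c ∈ Sd M d Rt χ, χ' c = χ c) :
    cfg M χ' d = 1 ∧ ∀ q, Str M (cfg M χ') Rt d q ↔ Str M (cfg M χ) Rt d q := by
  have h := cfg_isC (M := M) χ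
  have h' := cfg_isC (M := M) χ'
  have hd2 : cfg M χ (M.iota d) = 1 := by rw [h.iot]; exact hd
  unfold Sd at ha
  obtain ⟨a1, a2, a3⟩ := tm_agree (sc_ex (Rt := Rt) h hd) hd
    fun c hc => ha c (Finset.mem_union.2 (Or.inl hc))
  obtain ⟨b1, b2, b3⟩ := tm_agree (sc_ex (Rt := Rt) h hd2) hd2
    fun c hc => ha c (Finset.mem_union.2 (Or.inr hc))
  refine ⟨a1, fun q => ?_⟩
  have key : ∀ {p : D}, cfg M χ p = 1 → cfg M χ' p = 1 →
      tm M (cfg M χ') p (SC M Rt p) = tm M (cfg M χ) p (SC M Rt p) →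
      (∀ j ≤ tm M (cfg M χ) p (SC M Rt p), P M (cfg M χ') p j = P M (cfg M χ) p j) →
      ∀ r, Rch M (cfg M χ') Rt p r ↔ Rch M (cfg M χ) Rt p r := by
    intro p hp hp' e1 e2 r
    rw [rch_iff h' hp', rch_iff h hp]
    unfold tf
    rw [e1]
    constructor
    · rintro ⟨j, hj, e⟩
      exact ⟨j, hj, by rw [← e2 j hj]; exact e⟩
    · rintro ⟨j, hj, e⟩
      exact ⟨j, hj, by rw [e2 j hj]; exact e⟩
  unfold Str
  rw [key hd a1 a2 a3, key hd2 b1 b2 b3]


/-- **a strand which leaves `Rt` is an arc** -/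
theorem str_list [Finite D] (h : IsC M ∅ x) {d : D} (hd : x d = 1)
    (ho : ∃ q, Str M x Rt d q ∧ ¬ fc M Rt q) :
    ∃ (e : D) (n : ℕ), x e = 1 ∧ (∀ q, Str M x Rt d q ↔ ∃ j ≤ n, P M x e j = q) ∧
      (∀ j < n, fc M Rt (P M x e j)) ∧ ¬ fc M Rt (P M x e n) ∧ ¬ fc M Rt (M.iota e) ∧
      ∀ i j, i < j → j ≤ n → P M x e i ≠ P M x e j := by
  have hd2 : x (M.iota d) = 1 := by rw [h.iot]; exact hd
  -- the forward part ends at the boundary of `Rt`
  have hclosed : ∀ {p : D} {k : ℕ}, 1 ≤ k → P M x p k = p → (∀ j < k, fc M Rt (P M x p j)) →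
      ∀ j, fc M Rt (P M x p j) := by
    intro p k hk e hf j
    have e1 := per_mul (M := M) (x := x) (p := p) (N := k) e (j / k)
    have e2 : P M x p j = P M x p (j % k) := by
      conv_lhs => rw [← Nat.mod_add_div j k, mul_comm]
      rw [P_add]
      show P M x ((stp M x)^[j / k * k] p) _ = _
      rw [e1]
    rw [e2]
    exact hf _ (Nat.mod_lt _ hk)
  have hend : ¬ fc M Rt (P M x d (tf M x Rt d)) := by
    obtain ⟨q, hq, hnq⟩ := ho
    rcases tm_spec (sc_ex (Rt := Rt) h hd) with h1 | ⟨h1, h2⟩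
    · exact h1
    · exfalso
      have hall := hclosed (p := d) h1 h2 fun j hj => fc_lt hj
      rcases hq with hq | hq
      · obtain ⟨j, -, rfl⟩ := hq
        exact hnq (hall j)
      · obtain ⟨j, a1, e⟩ := hq.rev' h hd
        rcases Nat.eq_zero_or_pos j with rfl | hj
        · exact hnq (by
            have : q = d := e
            rw [this]; exact hall 0)
        · exact hnq (a1 0 hj)
  set tb := tf M x Rt (M.iota d) with htb
  set e := M.iota (P M x (M.iota d) tb) with he
  have hPe : ∀ j ≤ tb, P M x e j = M.iota (P M x (M.iota d) (tb - j)) := fun j hj =>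
    P_rev h hd2 hj
  have hPd : P M x e tb = d := by
    rw [hPe tb le_rfl, Nat.sub_self]
    exact M.iota2 d
  have hPk : ∀ k, P M x e (k + tb) = P M x d k := fun k => by rw [P_add, hPd]
  have hfc : ∀ j < tb + tf M x Rt d, fc M Rt (P M x e j) := by
    intro j hj
    rcases lt_or_ge j tb with hl | hl
    · rw [hPe j hl.le, show tb - j = (tb - j - 1) + 1 by omega, P_succ,
        fc_rev h (P_occ h hd2 _)]
      exact fc_lt (by omega)
    · rw [show j = (j - tb) + tb by omega, hPk]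
      exact fc_lt (by omega)
  have hen : ¬ fc M Rt (P M x e (tb + tf M x Rt d)) := by
    rw [add_comm, hPk]; exact hend
  refine ⟨e, tb + tf M x Rt d, ?_, ?_, hfc, hen, ?_, ?_⟩
  · rw [he, h.iot]; exact P_occ h hd2 _
  · intro q
    constructor
    · rintro (hq | hq)
      · obtain ⟨j, hj, rfl⟩ := (rch_iff h hd).1 hq
        exact ⟨j + tb, by omega, hPk j⟩
      · obtain ⟨j, hj, ej⟩ := (rch_iff h hd2).1 hq
        have hj' : j ≤ tb := hj
        refine ⟨tb - j, by omega, ?_⟩
        rw [hPe _ (by omega), show tb - (tb - j) = j by omega, ej, M.iota2]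
    · rintro ⟨j, hj, rfl⟩
      rcases lt_or_ge j tb with hl | hl
      · right
        rw [hPe j hl.le, M.iota2]
        exact (rch_iff h hd2).2 ⟨tb - j, by omega, rfl⟩
      · left
        rw [show j = (j - tb) + tb by omega, hPk]
        exact (rch_iff h hd).2 ⟨j - tb, by omega, rfl⟩
  · rw [he, M.iota2]
    rcases tm_spec (sc_ex (Rt := Rt) h hd2) with h1 | ⟨h1, h2⟩
    · exact h1
    · exfalso
      have h1' : 1 ≤ tb := h1
      have h2' : P M x (M.iota d) tb = M.iota d := h2
      have hee : e = d := by rw [he, h2', M.iota2]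
      have h3 : P M x e tb = e := by rw [hPd, hee]
      exact hen (hclosed h1' h3 (fun j hj => hfc j (by omega)) _)
  · intro i j hij hj heq
    have h1 : P M x (P M x e i) (j - i) = P M x e i := by
      rw [← P_add, show j - i + i = j by omega, ← heq]
    have h2 := hclosed (p := P M x e i) (k := j - i) (by omega) h1 fun k hk => by
      rw [← P_add]
      exact hfc _ (by omega)
    apply hen
    have h3 := h2 (tb + tf M x Rt d - i)
    rwa [← P_add, show tb + tf M x Rt d - i + i = tb + tf M x Rt d by omega] at h3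

/-- the revealed cells as left and right cells of the arc -/
theorem Sd_list [Fintype D] {χ : C → ZMod 2} {d e : D} {n : ℕ} (hd : cfg M χ d = 1)
    (hl : ∀ q, Str M (cfg M χ) Rt d q ↔ ∃ j ≤ n, P M (cfg M χ) e j = q) :
    Sd M d Rt χ = wl M (cfg M χ) e n ∪ wr M (cfg M χ) e n := by
  ext c
  rw [mem_Sd hd, Finset.mem_union, mem_wl, mem_wr]
  constructor
  · rintro ⟨q, hq, e1⟩
    obtain ⟨j, hj, rfl⟩ := (hl q).1 hq
    rcases e1 with rfl | rfl
    · exact Or.inl ⟨j, hj, rfl⟩
    · exact Or.inr ⟨j, hj, rfl⟩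
  · rintro (⟨j, hj, rfl⟩ | ⟨j, hj, rfl⟩)
    · exact ⟨_, (hl _).2 ⟨j, hj, rfl⟩, Or.inl rfl⟩
    · exact ⟨_, (hl _).2 ⟨j, hj, rfl⟩, Or.inr rfl⟩

/-- the revealed cells are in `Rt` if the two cells of `d` are in `Rt` -/
theorem Sd_sub [Fintype D] {χ : C → ZMod 2} {d : D} (hd : cfg M χ d = 1)
    (h1 : M.cell d ∈ Rt) (h2 : Rc M d ∈ Rt) {c : C} (hc : c ∈ Sd M d Rt χ) : c ∈ Rt := by
  have h := cfg_isC (M := M) χ
  have key : ∀ {p : D}, cfg M χ p = 1 → M.cell p ∈ Rt → Rc M p ∈ Rt → ∀ {q},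
      Rch M (cfg M χ) Rt p q → M.cell q ∈ Rt ∧ Rc M q ∈ Rt := by
    intro p hp g1 g2 q hq
    obtain ⟨j, a1, rfl⟩ := hq
    rcases Nat.eq_zero_or_pos j with rfl | hj
    · exact ⟨g1, g2⟩
    · have hf := a1 (j - 1) (by omega)
      have ho := P_occ h hp (j - 1)
      rw [show j = (j - 1) + 1 by omega, P_succ]
      rcases stp_cases h ho (Set.notMem_empty _) with ⟨e1, -, e⟩ | ⟨-, e1, e⟩
      · rw [e]
        constructor
        · rw [M.cell_iota _ (h.lv e1)]; exact hf.2.2
        · show M.cell (M.rho (M.iota _)) ∈ Rt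
          rw [cell_rho_iota M (h.lv e1)]; exact hf.2.1
      · rw [e]
        constructor
        · rw [M.cell_iota _ (h.lv e1), M.rho3]; exact hf.1
        · show M.cell (M.rho (M.iota _)) ∈ Rt
          rw [cell_rho_iota M (h.lv e1)]; exact hf.2.2
  have hd2 : cfg M χ (M.iota d) = 1 := by rw [h.iot]; exact hd
  obtain ⟨q, hq, e⟩ := (mem_Sd hd).1 hc
  have hqo := str_occ h hd hq
  rcases hq with hq | hq
  · have h3 := key hd h1 h2 hq
    rcases e with rfl | rfl
    · exact h3.1
    · exact h3.2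
  · have h3 := key hd2 (by rw [cell_iota' h hd]; exact h2) (by rw [rc_iota h hd]; exact h1) hq
    rw [cell_iota' h hqo, rc_iota h hqo] at h3
    rcases e with rfl | rfl
    · exact h3.2
    · exact h3.1

/-! ### gluing of stopping rules -/



end Crest.Agent.R143.Strandx535
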