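import Crest.Agent.R143.FinC_811
import Crest.Agent.R143.Sep3_686
import Crest.Agent.R143.StrB_117
import Crest.Agent.R143.OutS_358
import Crest.Agent.R143.Strand_535
import Crest.Agent.R143.QuF_778

/-!
# Row 143 (S0194), RIG, CorrI (d): transport sites <-> cells (helper422)

Part 1: `restr M` (the same map with finitely many cells): states, times, block gaps, charges, cuts,
strands, `Ext`, `Sep` are the same: `P_restr`, `lc_iff`, `lp_restr`, `per_restr`, `ink_restr`,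
`ks_restr`, `zz_restr`, `cut_restr`, `str_restr`, `fc_restr`, `strand_restr`, `mem_wl_restr`,
`mem_wr_restr`, `ad_restr`, `ext_restr`, `sep_restr`.

Part 2: strands: `Rs2 M Rt` = states with both cells in `Rt`; `fc_iff_stp`; `list_of_str` : the data
`Str` of 117 (`Rs = Rs2 M Rt`) are the list of 535; `sd_of_str` : the revealed cells of 535 are the
left and right cells of 117's strand.

Part 3: `cm0 hS`, `rc0 hS` and sites: `cfg_rc`, `scol`, `rcol_scol`, `rcol_congr`, cells of the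
states, `Hc hS = {h0}` the hull cell, `RC hS B` = cells of the inner sites of `B`, `ad_rc`,
`fc_rc`, `mem_wl_LS`, `mem_wr_RS`.

Part 4: **`sep_of_offz`**, **`sep_rc`** : 358's `Sep` for `rc0 hS` from 686's `sep_ext`;
`notExt_of_offz` : sites of `K` are not in `Ext`.
-/

set_option autoImplicit false
set_option linter.unusedSectionVars false

noncomputable section

open scoped Classical

namespace Crest.Agent.R143.RcTx422

open Crest.Agent.R143.B0x346 Crest.Agent.R143.DelGx806 Crest.Agent.R143.DelRx806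
open Crest.Agent.R143.Frame1x395 Crest.Agent.R143.Frame2x395 Crest.Agent.R143.Frame3x395
  Crest.Agent.R143.Frame4x395 Crest.Agent.R143.Frame8x395 Crest.Agent.R143.Frame9x395
  Crest.Agent.R143.Frame10x395 Crest.Agent.R143.Frame11x395
open Crest.Agent.R143.Frame5x395 (sd mem_sd th th_spec)
open Crest.Agent.R143.Mass3x302 (restr)
open Crest.Agent.R143.NonXx592 (P Rc)
open Crest.Agent.R143.Splx117 (Lp lc gp InK KS FA ft ZZ Cut)
open Crest.Agent.R143.R5qx166 (per lp_per)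
open Crest.Agent.R143.Gntx535 (wl wr mem_wl mem_wr hit)
open Crest.Agent.R143.Strandx535 (fc)
open Crest.Agent.R143.Extx358 (Ad Ext Sep Zc)

/-! ### the map with finitely many cells -/

section restr

variable {D C : Type} {M : CMap D C} {x : D → ZMod 2} {p : D}




theorem lc_iff {i j : ℕ} : lc (restr M) x p i = lc (restr M) x p j ↔ lc M x p i = lc M x p j :=
  Subtype.ext_iff

theorem lp_restr {N : ℕ} : Lp (restr M) x p N ↔ Lp M x p N :=
  ⟨fun h => ⟨Mass3x302.isC_restr.1 h.even, h.occ, h.pos, h.per, h.inj⟩,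
    fun h => ⟨Mass3x302.isC_restr.2 h.even, h.occ, h.pos, h.per, h.inj⟩⟩


theorem ink_restr {A B i : ℕ} : InK (restr M) x p A B i ↔ InK M x p A B i :=
  ⟨fun h => ⟨h.lo, h.hi, h.gap, fun j l h1 h2 h3 h4 e => h.sep j l h1 h2 h3 h4 (lc_iff.2 e)⟩,
    fun h => ⟨h.lo, h.hi, h.gap, fun j l h1 h2 h3 h4 e => h.sep j l h1 h2 h3 h4 (lc_iff.1 e)⟩⟩

theorem ks_restr {E : Type} [AddCommMonoid E] {w : D → E} {a b : ℕ} :
    KS (restr M) x p w a b = KS M x p w a b := by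
  unfold Splx117.KS
  refine Finset.sum_congr (Finset.filter_congr fun i _ => ink_restr) fun _ _ => rfl

theorem fa_restr {R : Set D} {a b : D} : FA (restr M) x R a b ↔ FA M x R a b := Iff.rfl


theorem zz_restr {E : Type} [AddCommMonoid E] {w : D → E} {R : Set D} {a b : D} :
    ZZ (restr M) x w R a b = ZZ M x w R a b := by
  unfold Splx117.ZZ
  rw [ks_restr, ks_restr]
  rfl

theorem cut_restr {T : ℕ → ℕ} {a b : ℕ} : Cut (restr M) x p T a b ↔ Cut M x p T a b := by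
  constructor
  · intro h k k' h0 h1 h2 u v a1 a2 a3 a4 a5
    obtain ⟨c1, c2⟩ := h k k' h0 h1 h2 u v a1 a2 a3 a4 (lc_iff.2 a5)
    exact ⟨c1, lc_iff.1 c2⟩
  · intro h k k' h0 h1 h2 u v a1 a2 a3 a4 a5
    obtain ⟨c1, c2⟩ := h k k' h0 h1 h2 u v a1 a2 a3 a4 (lc_iff.1 a5)
    exact ⟨c1, lc_iff.2 c2⟩

theorem str_restr {n : ℕ} {Rs : Set D} {pp : ℕ → D} {R : ℕ → Set D} {q : D} {N : ℕ} {T : ℕ → ℕ} :
    StrBx117.Str (restr M) x n Rs pp R q N T ↔ StrBx117.Str M x n Rs pp R q N T :=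
  ⟨fun h => { h with lp := lp_restr.1 h.lp, cut := cut_restr.1 h.cut },
    fun h => { h with lp := lp_restr.2 h.lp, cut := cut_restr.2 h.cut }⟩







theorem ad_restr {a b : Set.range M.cell} : Ad (restr M) a b ↔ Ad M a.1 b.1 := by
  constructor
  · rintro ⟨d, hd, e1, e2⟩
    exact ⟨d, hd, congrArg Subtype.val e1, congrArg Subtype.val e2⟩
  · rintro ⟨d, hd, e1, e2⟩
    exact ⟨d, hd, Subtype.ext e1, Subtype.ext e2⟩

theorem ext_restr {H Z : Set C} {c : Set.range M.cell} :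
    Ext (restr M) (Subtype.val ⁻¹' H) (Subtype.val ⁻¹' Z) c ↔ Ext M H Z c.1 := by
  constructor
  · intro h
    induction h with
    | hull h1 h2 => exact Ext.hull h1 h2
    | step h1 h2 h3 ih => exact Ext.step ih (ad_restr.1 h2) h3
  · intro h
    obtain ⟨c, hc⟩ := c
    simp only at h
    induction h with
    | hull h1 h2 => exact Ext.hull h1 h2
    | @step a b h1 h2 h3 ih =>
      obtain ⟨d, hd, e1, e2⟩ := h2
      have ha : a ∈ Set.range M.cell := ⟨d, e1⟩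
      refine Ext.step (c := ⟨a, ha⟩) (ih ha) ?_ h3
      exact ⟨d, hd, Subtype.ext e1, Subtype.ext e2⟩


/-- every set of cells is a preimage -/
theorem pre_image (Z : Set (Set.range M.cell)) :
    Subtype.val ⁻¹' (Subtype.val '' Z : Set C) = Z :=
  Set.preimage_image_eq _ Subtype.val_injective

end restr

/-! ### strands: 117 and 535 -/

section strands

variable {D C : Type} {M : CMap D C} {x : D → ZMod 2} {Rt : Set C}

/-- states with both cells in `Rt` -/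
def Rs2 (M : CMap D C) (Rt : Set C) : Set D := {d | M.cell d ∈ Rt ∧ M.cell (M.rho d) ∈ Rt}



variable {n : ℕ} {p : ℕ → D} {R : ℕ → Set D} {q : D} {N : ℕ} {T : ℕ → ℕ}




end strands

/-! ### sites -/

section sites

open Crest.Agent.R143.FinCx811 (Cs rc0 cs rcol cell_mem cs_inj cs_surj)
open Crest.Agent.R143.WLocx713 (HullC nx lift xc it_eq)
open Crest.Agent.R143.Blkx838 (DE Loop)
open Crest.Agent.R143.Sepx686 (AdjC OffZ LS RS dart_mem sep_hull)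
open Crest.Agent.R143.RingDx117 (RD)
open Crest.Agent.R143.R5bx166 (CCon Nb)

variable {S : Finset ℂ} {hS : GP (S : Set ℂ)} {χ χ' : ℂ → ZMod 2} {hχ : HullC S χ}







theorem rcol_cs (h3 : 3 ≤ S.card) (v : {v // v ∈ S}) : rcol hS χ hχ (cs hS h3 v) = χ v.1 := rfl

theorem rcol_val {c : Cs hS} {v : ℂ} (h : c.1 = Quot.mk _ v) : rcol hS χ hχ c = χ v := by
  unfold FinCx811.rcol
  rw [h]

/-! cells of the states -/

theorem cell_val (d : D0 S) : ((rc0 hS).cell d).1 = Quot.mk (hullE S) d.1.1 := rfl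

theorem cell_rho_val (d : D0 S) :
    ((rc0 hS).cell ((rc0 hS).rho d)).1 = Quot.mk (hullE S) d.1.2 := rfl

theorem cell_rho2_val (d : D0 S) :
    ((rc0 hS).cell ((rc0 hS).rho ((rc0 hS).rho d))).1 = Quot.mk (hullE S) (th S d.1) := rfl


theorem cell_rho_cs (h3 : 3 ≤ S.card) (d : D0 S) :
    (rc0 hS).cell ((rc0 hS).rho d) = cs hS h3 ⟨d.1.2, (dart_mem d).2⟩ := rfl


theorem card3 {a b c : ℂ} (hS : GP (S : Set ℂ)) (h : (a, b, c) ∈ delT S) : 3 ≤ S.card := by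
  have t2 := JColx54.delT_rot hS h
  have t3 := JColx54.delT_rot hS t2
  have n1 := (g1 S hS).2.2 _ _ _ h
  have n2 := (g1 S hS).2.2 _ _ _ t2
  have n3 := (g1 S hS).2.2 _ _ _ t3
  obtain ⟨m1, m2, m3, -⟩ := mem_delT.1 h
  have : ({a, b, c} : Finset ℂ) ⊆ S := by
    intro x hx
    simp only [Finset.mem_insert, Finset.mem_singleton] at hx
    rcases hx with rfl | rfl | rfl
    · exact m1
    · exact m2
    · exact m3
  have h2 := Finset.card_le_card this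
  rwa [Finset.card_eq_three.2 ⟨a, b, c, n1, n3.symm, n2, rfl⟩] at h2

theorem dart3 (hS : GP (S : Set ℂ)) (d : D0 S) : 3 ≤ S.card := card3 hS (th_spec d.2)

/-- the planar states -/
theorem st_rc {p : D0 S} (hp : xc hS hχ p = 1) (n : ℕ) :
    (P (rc0 hS) (xc hS hχ) p n).1 = (nx S χ)^[n] p.1 := it_eq hS hχ hp n

/-- left cells = cells of the left sites -/
theorem mem_wl_LS {p : D0 S} (hp : xc hS hχ p = 1) {n : ℕ} {c : Cs hS} :
    c ∈ wl (rc0 hS) (xc hS hχ) p n ↔ ∃ s ∈ LS S χ p.1 n, c.1 = Quot.mk _ s := by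
  rw [mem_wl]
  constructor
  · rintro ⟨j, hj, rfl⟩
    exact ⟨_, ⟨j, hj, rfl⟩, by rw [cell_val, st_rc hp]⟩
  · rintro ⟨_, ⟨j, hj, rfl⟩, e⟩
    exact ⟨j, hj, Subtype.ext (by rw [e]; rw [cell_val, st_rc hp])⟩

/-- right cells = cells of the right sites -/
theorem mem_wr_RS {p : D0 S} (hp : xc hS hχ p = 1) {n : ℕ} {c : Cs hS} :
    c ∈ wr (rc0 hS) (xc hS hχ) p n ↔ ∃ s ∈ RS S χ p.1 n, c.1 = Quot.mk _ s := by
  rw [mem_wr]
  have e0 : ∀ j, (Rc (rc0 hS) (P (rc0 hS) (xc hS hχ) p j)).1 =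
      Quot.mk (hullE S) ((nx S χ)^[j] p.1).2 := by
    intro j
    rw [← st_rc hp j]
    exact cell_rho_val _
  constructor
  · rintro ⟨j, hj, rfl⟩
    exact ⟨_, ⟨j, hj, rfl⟩, e0 j⟩
  · rintro ⟨_, ⟨j, hj, rfl⟩, e⟩
    exact ⟨j, hj, Subtype.ext (by rw [e0, e])⟩

/-! the hull cell -/

/-- **the sites of the hull are one cell** -/
theorem hull_one (hS : GP (S : Set ℂ)) {v w : ℂ} (hv : OnHull S v) (hw : OnHull S w) :
    (Quot.mk (hullE S) v : Quot (hullE S)) = Quot.mk _ w := by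
  obtain ⟨a, ha⟩ := hv
  obtain ⟨b, hb⟩ := hw
  have h3 : 3 ≤ S.card := by
    obtain ⟨c, hc⟩ := ha.1
    exact card3 hS hc
  obtain ⟨n, u, H⟩ := hull_cycle hS h3
  have key : ∀ i : ℤ, (Quot.mk (hullE S) (u i) : Quot (hullE S)) = Quot.mk _ (u 0) := by
    intro i
    induction i using Int.induction_on with
    | zero => rfl
    | succ i ih => rw [← ih]; exact (Quot.sound (H.edge i)).symm
    | pred i ih =>
      rw [← ih]
      have := Quot.sound (r := hullE S) (H.edge (-(i : ℤ) - 1))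
      rwa [sub_add_cancel] at this
  obtain ⟨i, -, -, -, rfl⟩ := H.all a v ha
  obtain ⟨j, -, -, -, rfl⟩ := H.all b w hb
  rw [key, key (j + 1)]

/-- the hull cells -/
def Hc (hS : GP (S : Set ℂ)) : Set (Cs hS) := {c | ∃ v, OnHull S v ∧ c.1 = Quot.mk _ v}

theorem Hc_one {c c' : Cs hS} (h : c ∈ Hc hS) (h' : c' ∈ Hc hS) : c = c' := by
  obtain ⟨v, hv, e⟩ := h
  obtain ⟨w, hw, e'⟩ := h'
  exact Subtype.ext (by rw [e, e', hull_one hS hv hw])

theorem Hc_eq {h₀ : Cs hS} (h : h₀ ∈ Hc hS) : Hc hS = {h₀} := by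
  ext c
  rw [Set.mem_singleton_iff]
  exact ⟨fun hc => Hc_one hc h, fun hc => hc ▸ h⟩

theorem cs_Hc (h3 : 3 ≤ S.card) {v : {v // v ∈ S}} (hv : OnHull S v.1) : cs hS h3 v ∈ Hc hS :=
  ⟨v.1, hv, rfl⟩


theorem hull_mem {v : ℂ} (hv : OnHull S v) : v ∈ S := by
  obtain ⟨a, c, hc⟩ := hv.imp fun _ h => h.1
  exact (mem_delT.1 hc).2.1

theorem exists_Hc (hS : GP (S : Set ℂ)) (h3 : 3 ≤ S.card) : ∃ h₀, h₀ ∈ Hc hS := by
  obtain ⟨a, b, h⟩ := exists_hull hS h3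
  exact ⟨cs hS h3 ⟨b, hull_mem ⟨a, h⟩⟩, cs_Hc h3 ⟨a, h⟩⟩

/-- **field `con` of `Sys`** -/
theorem con_rc {Z : Set (Cs hS)} : CCon (rc0 hS) {c | Ext (rc0 hS) (Hc hS) Z c} :=
  Extx358.ext_con fun c hc c' hc' _ _ => by
    rw [Hc_one hc hc']
    exact Relation.EqvGen.refl _

/-! regions -/

/-- the cells of the inner sites of `B` -/
def RC (hS : GP (S : Set ℂ)) (B : Set ℂ) : Set (Cs hS) :=
  {c | ∃ v ∈ S, v ∈ B ∧ ¬ OnHull S v ∧ c.1 = Quot.mk _ v}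

variable {B : Set ℂ}

theorem RC_mono {B' : Set ℂ} (h : B ⊆ B') : RC hS B ⊆ RC hS B' :=
  fun _ ⟨v, h1, h2, h3⟩ => ⟨v, h1, h h2, h3⟩

/-- **field `hR` of `Sys`** -/
theorem Hc_RC {c : Cs hS} (h : c ∈ Hc hS) : c ∉ RC hS B := by
  rintro ⟨v, -, -, hv, e⟩
  obtain ⟨w, hw, e'⟩ := h
  rw [e] at e'
  exact hv (quot_inner hS hv e' ▸ hw)

theorem val_RC {c : Cs hS} {v : ℂ} (hv : ¬ OnHull S v) (e : c.1 = Quot.mk _ v) :
    c ∈ RC hS B ↔ v ∈ S ∧ v ∈ B := by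
  constructor
  · rintro ⟨w, h1, h2, -, e'⟩
    rw [e] at e'
    have : w = v := quot_inner hS hv e'
    exact this ▸ ⟨h1, h2⟩
  · rintro ⟨h1, h2⟩
    exact ⟨v, h1, h2, hv, e⟩

theorem mem_RC (h3 : 3 ≤ S.card) {v : {v // v ∈ S}} (hv : ¬ OnHull S v.1) :
    cs hS h3 v ∈ RC hS B ↔ v.1 ∈ B := by
  rw [val_RC hv rfl]
  exact ⟨fun h => h.2, fun h => ⟨v.2, h⟩⟩

/-- cell of a dart, region of inner sites -/
theorem cell_RC (hin : ∀ v ∈ S, v ∈ B → ¬ OnHull S v) {c : Cs hS} {v : ℂ} (hvS : v ∈ S)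
    (e : c.1 = Quot.mk _ v) : c ∈ RC hS B ↔ v ∈ B := by
  constructor
  · rintro ⟨w, h1, h2, hw, e'⟩
    rw [e] at e'
    have : v = w := quot_inner hS hw e'.symm
    exact this ▸ h2
  · intro h
    exact ⟨v, hvS, h, hin v hvS h, e⟩


/-- states with both cells in `RC hS B` -/
theorem rs2_rc (hin : ∀ v ∈ S, v ∈ B → ¬ OnHull S v) : Rs2 (rc0 hS) (RC hS B) = RD S B := by
  ext d
  show _ ∈ RC hS B ∧ _ ∈ RC hS B ↔ d.1.1 ∈ B ∧ d.1.2 ∈ B
  rw [cell_RC hin (dart_mem d).1 (cell_val d), cell_RC hin (dart_mem d).2 (cell_rho_val d)]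

/-! adjacency -/

theorem ad_adjc {a b : Cs hS} (h : Ad (rc0 hS) a b) : AdjC (cm0 hS) a.1 b.1 := by
  obtain ⟨d, -, e1, e2⟩ := h
  exact ⟨d, Or.inl ⟨congrArg Subtype.val e1, congrArg Subtype.val e2⟩⟩

theorem ad_of_tri (h3 : 3 ≤ S.card) {u w c : ℂ} (h : (u, w, c) ∈ delT S)
    (hi : ¬ hullE S u w) (hu : u ∈ S) (hw : w ∈ S) :
    Ad (rc0 hS) (cs hS h3 ⟨u, hu⟩) (cs hS h3 ⟨w, hw⟩) := by
  have hd : ((u, w) : ℂ × ℂ) ∈ sd S := mem_sd.2 ⟨c, h⟩
  refine ⟨⟨(u, w), hd⟩, ?_, rfl, rfl⟩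
  by_contra hc
  exact hi (hull_of_dead (e := ⟨(u, w), hd⟩) hc)

/-- **a Delaunay side is a step of cells** -/
theorem step_rc (h3 : 3 ≤ S.card) {u w : {v // v ∈ S}} (h : DE S u.1 w.1) :
    cs hS h3 u = cs hS h3 w ∨ Ad (rc0 hS) (cs hS h3 u) (cs hS h3 w) := by
  rcases h with ⟨c, hc⟩ | ⟨c, hc⟩
  · by_cases hh : hullE S u.1 w.1
    · exact Or.inl (FinCx811.cs_hull hS h3 hh)
    · exact Or.inr (ad_of_tri h3 hc hh u.2 w.2)
  · by_cases hh : hullE S w.1 u.1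
    · exact Or.inl (FinCx811.cs_hull hS h3 hh).symm
    · exact Or.inr (ad_of_tri h3 hc hh w.2 u.2).symm

theorem de_mem {u w : ℂ} (h : DE S u w) : u ∈ S ∧ w ∈ S := by
  rcases h with ⟨c, hc⟩ | ⟨c, hc⟩
  · exact ⟨(mem_delT.1 hc).1, (mem_delT.1 hc).2.1⟩
  · exact ⟨(mem_delT.1 hc).2.1, (mem_delT.1 hc).1⟩


/-- **a chain of Delaunay sides is a path of cells** -/
theorem rtg_rc (h3 : 3 ≤ S.card) {Q : ℂ → Prop} {Q' : Cs hS → Prop}
    (hQ : ∀ v : {v // v ∈ S}, Q v.1 → Q' (cs hS h3 v)) {u w : {v // v ∈ S}}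
    (h : Relation.ReflTransGen (fun a b => DE S a b ∧ Q b) u.1 w.1) :
    Relation.ReflTransGen (fun a b => Ad (rc0 hS) a b ∧ Q' b) (cs hS h3 u) (cs hS h3 w) := by
  obtain ⟨w, hw⟩ := w
  simp only at h
  induction h with
  | refl => exact Relation.ReflTransGen.refl
  | @tail a b _ h1 ih =>
    have ha := (de_mem h1.1).1
    have h2 := ih ha
    rcases step_rc (hS := hS) h3 (u := ⟨a, ha⟩) (w := ⟨b, hw⟩) h1.1 with e | e
    · rw [← e]; exact h2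
    · exact h2.tail ⟨e, hQ ⟨b, hw⟩ h1.2⟩

/-! ### separation -/

/-- a path off `Cw` in the cells of `rc0` is a path off `Cw` in the cells of `cm0` -/
theorem offz_of_path {Cw : Set (Quot (hullE S))} {c h : Cs hS} (hc : c.1 ∉ Cw)
    (H : Extx358.Rch (rc0 hS) (Subtype.val ⁻¹' Cw) c h) : OffZ (cm0 hS) Cw c.1 h.1 := by
  have key : OffZ (cm0 hS) Cw c.1 h.1 ∧ h.1 ∉ Cw := by
    induction H with
    | refl => exact ⟨Relation.ReflTransGen.refl, hc⟩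
    | tail _ h1 ih => exact ⟨ih.1.tail ⟨ad_adjc h1.1, ih.2, h1.2⟩, h1.2⟩
  exact key.1

variable {Cw : Set (Quot (hullE S))} {Z AL : Set (Cs hS)}

/-- **358's `Sep` from the site form** (686's `sep_ext`) -/
theorem sep_of_offz (hZ : ∀ c : Cs hS, c.1 ∈ Cw → c ∈ Z) (hAL : ∀ c ∈ AL, c.1 ∉ Cw)
    (h : ∀ c ∈ AL, ∀ w, OnHull S w → ¬ OffZ (cm0 hS) Cw c.1 (Quot.mk _ w)) :
    Sep (rc0 hS) (Hc hS) Z AL :=
  Extx358.sep_of_path (Cw := Subtype.val ⁻¹' Cw) (fun c hc => hZ c hc)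
    fun c hc h₀ hh H => by
      obtain ⟨w, hw, e⟩ := hh
      refine h c hc w hw ?_
      rw [← e]
      exact offz_of_path (hAL c hc) H

/-- **sites which are separated from the hull are not in `Ext`** -/
theorem notExt_of_offz (hZ : ∀ c : Cs hS, c.1 ∈ Cw → c ∈ Z) {c : Cs hS}
    (h : ∀ w, OnHull S w → ¬ OffZ (cm0 hS) Cw c.1 (Quot.mk _ w)) :
    ¬ Ext (rc0 hS) (Hc hS) Z c := by
  intro hE
  obtain ⟨h₀, ⟨w, hw, e⟩, -, H⟩ := Extx358.ext_path hE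
  refine h w hw ?_
  rw [← e]
  exact offz_of_path (fun h1 => hE.off (hZ c h1)) (H.mono fun a ha => hZ a ha)

/-- the cells of the sites of a list -/
def QL (S : Finset ℂ) (cw : List ℂ) : Set (Quot (hullE S)) := {q | ∃ s ∈ cw, q = Quot.mk _ s}

theorem offz_cw (hS : GP (S : Set ℂ)) {cw : List ℂ} (hl : Loop S cw) (hcS : ∀ s ∈ cw, s ∈ S)
    {v w : ℂ} (hv : ¬ OnHull S v) (h0 : Crest.Agent.R143.ToolWx838.asum v cw ≠ 0)
    (hw : OnHull S w) : ¬ OffZ (cm0 hS) (QL S cw) (Quot.mk _ v) (Quot.mk _ w) :=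
  sep_hull hS hl hcS (Z := QL S cw) (fun s hs => ⟨s, hs, rfl⟩) hv h0 hw

variable {q : D0 S} {m : ℕ} {R : Set (Cs hS)} {cw : List ℂ}

/-- the closed white chain is in the blocking set -/
theorem cw_sub (hq : xc hS hχ q = 1) (hcw : ∀ s ∈ cw, χ s = 0)
    (hm : ∀ s ∈ cw, s ∈ RS S χ q.1 m ∨ ∃ c ∈ R, c.1 = Quot.mk _ s) (c : Cs hS)
    (hc : c.1 ∈ QL S cw) :
    c ∈ Zc (wl (rc0 hS) (xc hS hχ) q m : Set (Cs hS)) (wr (rc0 hS) (xc hS hχ) q m) R
      (rcol hS χ hχ) := by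
  obtain ⟨s, hs, e⟩ := hc
  rcases hm s hs with h | ⟨c', h, e'⟩
  · exact Or.inl (Or.inr (Finset.mem_coe.2 ((mem_wr_RS hq).2 ⟨s, h, e⟩)))
  · have : c = c' := Subtype.ext (by rw [e, e'])
    rw [this]
    refine Or.inr ⟨h, ?_⟩
    rw [rcol_val e']
    exact hcw s hs

/-- **`Sep` for the strand `q, m`** from a closed white chain around the left sites -/
theorem sep_rc (hq : xc hS hχ q = 1) (hb : χ q.1.1 = 1) (hl : Loop S cw)
    (hcS : ∀ s ∈ cw, s ∈ S) (hcw : ∀ s ∈ cw, χ s = 0)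
    (hm : ∀ s ∈ cw, s ∈ RS S χ q.1 m ∨ ∃ c ∈ R, c.1 = Quot.mk _ s)
    (hi : ∀ s ∈ LS S χ q.1 m, ¬ OnHull S s)
    (hx : ∀ s ∈ LS S χ q.1 m, Crest.Agent.R143.ToolWx838.asum s cw ≠ 0) :
    Sep (rc0 hS) (Hc hS) (Zc (wl (rc0 hS) (xc hS hχ) q m : Set (Cs hS))
      (wr (rc0 hS) (xc hS hχ) q m) R (rcol hS χ hχ)) (wl (rc0 hS) (xc hS hχ) q m) := by
  refine sep_of_offz (Cw := QL S cw) (fun c hc => cw_sub hq hcw hm c hc) ?_ ?_
  · rintro c hc ⟨s, hs, e⟩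
    have h1 : rcol hS χ hχ c = 1 := by
      rw [Gntx535.wl_col (M := rc0 hS) (χ := rcol hS χ hχ) hq (Finset.mem_coe.1 hc)]
      exact hb
    rw [rcol_val e, hcw s hs] at h1
    exact absurd h1 (by decide)
  · intro c hc w hw
    obtain ⟨s, hs, e⟩ := (mem_wl_LS hq).1 (Finset.mem_coe.1 hc)
    rw [e]
    exact offz_cw hS hl hcS (hi s hs) (hx s hs) hw

/-- **sites of nonzero index are not in `Ext`** -/
theorem notExt_rc (hq : xc hS hχ q = 1) (hl : Loop S cw)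
    (hcS : ∀ s ∈ cw, s ∈ S) (hcw : ∀ s ∈ cw, χ s = 0)
    (hm : ∀ s ∈ cw, s ∈ RS S χ q.1 m ∨ ∃ c ∈ R, c.1 = Quot.mk _ s) {v : ℂ} {c : Cs hS}
    (e : c.1 = Quot.mk _ v) (hi : ¬ OnHull S v)
    (hx : Crest.Agent.R143.ToolWx838.asum v cw ≠ 0) :
    ¬ Ext (rc0 hS) (Hc hS) (Zc (wl (rc0 hS) (xc hS hχ) q m : Set (Cs hS))
      (wr (rc0 hS) (xc hS hχ) q m) R (rcol hS χ hχ)) c := by
  refine notExt_of_offz (Cw := QL S cw) (fun c hc => cw_sub hq hcw hm c hc) ?_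
  intro w hw
  rw [e]
  exact offz_cw hS hl hcS hi hx hw

end sites

end Crest.Agent.R143.RcTx422
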