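import Crest.Agent.R143.LnkG_927
import Crest.Agent.R143.CorH_713
import Crest.Agent.R143.RcT_422

/-!
# Row 143 (S0194), R4 (3d) of note 3646: the link of the out strand to the exterior (helper927)

Under 713's `CorH`, with 422's `Fine` path `W` of the polygon cells `F`:
* `Col η W X g` : white sites of the upper column of the gate `g`
* `col_path` : chain from `xx g` inside `Col` to a site `t₀` at height `≥ 10 η`
* **`top_path`** : `t₀` is joined to every far site by sites off ALL enlarged strips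
  `RR A' B' (100 η) W c` (`A' + d < 10 η`), for a gate `g` of a straight run
* `lnk_path` : chain from `xx g` to the far site
* `col_off` : the column of an inner gate is off the closing strips
* **`lnk_rc`** : field `lnk` of `SysSx358.Good` on `rc0 hS`
* `hull_far`, `exists_far` : hull sites are far sites (`Dns`)
-/

set_option autoImplicit false
set_option linter.unusedVariables false

noncomputable section

open scoped Classical

namespace Crest.Agent.R143.LnkLx927

open Set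
open Crest.Agent.R158.Sp896 (V Con)
open Crest.Agent.R143.B0x346 Crest.Agent.R143.DelGx806 Crest.Agent.R143.DelRx806
open Crest.Agent.R143.RE0x723 (Pth)
open Crest.Agent.R143.Frame1x395 Crest.Agent.R143.Frame8x395 Crest.Agent.R143.Frame9x395
  Crest.Agent.R143.Frame10x395 Crest.Agent.R143.Frame11x395
open Crest.Agent.R143.Frame5x395 (sd mem_sd th th_spec)
open Crest.Agent.R143.ToolWx838 (prs prs_nil prs_one prs_cons prs_append)
open Crest.Agent.R143.Blkx838 (DE)
open Crest.Agent.R143.Neckx921 (Neck NeckD)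
open Crest.Agent.R143.FinMx609 Crest.Agent.R143.WLocx713
open Crest.Agent.R143.TileRx228
open Crest.Agent.R143.Finex422 (Fine)
open Crest.Agent.R143.OutCx571 (Far)
open Crest.Agent.R143.CorHx713 Crest.Agent.R143.RingPx503
open Crest.Agent.R143.FinCx811 (Cs rc0 cs rcol)
open Crest.Agent.R143.RcTx422
open Crest.Agent.R143.Sepx686 (dart_mem)
open Crest.Agent.R143.DCorGx713 (bX_iff)
open Crest.Agent.R143.Gntx535 (wl wr mem_wl mem_wr)
open Crest.Agent.R143.Extx358 (Ad Ext Zc)

/-- a chain read backward -/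
theorem chain_back {S : Finset ℂ} {P : ℂ → Prop} : ∀ (l : List ℂ) (hl : l ≠ []),
    (∀ p ∈ prs l, DE S p.1 p.2) → (∀ s ∈ l, P s) →
    Relation.ReflTransGen (fun a b => DE S a b ∧ P b) (l.getLast hl) (l.head hl)
  | [], hl, _, _ => absurd rfl hl
  | [a], _, _, _ => Relation.ReflTransGen.refl
  | a :: b :: l, _, h1, h2 => by
    have ih := chain_back (b :: l) (by simp) (fun p hp => h1 p (by rw [prs_cons]; simp [hp]))
      (fun s hs => h2 s (List.mem_cons_of_mem _ hs))
    exact ih.tail ⟨(h1 (a, b) (by rw [prs_cons]; simp)).symm, h2 a (by simp)⟩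

/-- the pairs of an initial part -/
theorem prs_init {up dn : List ℂ} {y : ℂ} (hu : up ≠ []) {p : ℂ × ℂ} (hp : p ∈ prs up) :
    p ∈ prs (up ++ y :: dn) := by
  have e : up ++ y :: dn = up.dropLast ++ up.getLast hu :: (y :: dn) := by
    conv_lhs => rw [← List.dropLast_append_getLast hu]
    simp
  rw [e, prs_append, List.dropLast_append_getLast hu]
  exact List.mem_append_left _ hp

variable {X : Set (ℂ × Bool)} {U : Set ℂ} {M : ℕ} {W : ℤ → ℤ × ℤ} {η d : ℝ} {o : ℤ} {n : ℕ}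

/-- the white sites of the upper column of the gate `g` -/
def Col (η : ℝ) (W : ℤ → ℤ × ℤ) (X : Set (ℂ × Bool)) (g : ℤ) : Set ℂ :=
  {s | (s ∈ sX X ∧ s ∉ bX X) ∧ |Gatex838.X (gz (100 * η) W g) (ge W g) s| < η ∧
    -(9 * η) < Gatex838.Y (gz (100 * η) W g) (ge W g) s ∧
    Gatex838.Y (gz (100 * η) W g) (ge W g) s ≤ 11 * η}

/-- **the column of a gate** -/
theorem col_path (H : CorH X U M W η d o n) (g : ℤ) : xx η W X g ∈ Col η W X g ∧
    ∃ t₀ ∈ Col η W X g, 10 * η ≤ Gatex838.Y (gz (100 * η) W g) (ge W g) t₀ ∧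
      Relation.ReflTransGen (fun a b => DE (sX X) a b ∧ b ∈ Col η W X g) (xx η W X g) t₀ := by
  obtain ⟨up, dn, h, hx⟩ := H.neck g
  have hcol : ∀ s ∈ up, s ∈ Col η W X g := by
    intro s hs
    have h1 := h.win s (List.mem_append_left _ hs)
    refine ⟨h.cu s hs, ?_, h.upb s hs, ?_⟩
    · rw [abs_lt]; exact h1.1
    · have := h1.2.2
      linarith
  have h1 := chain_back (S := sX X) (P := fun s => s ∈ Col η W X g) up h.nu
    (fun p hp => h.adj p (prs_init h.nu hp)) hcol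
  rw [hx] at h1
  refine ⟨?_, _, hcol _ (List.head_mem h.nu), h.top, h1⟩
  rw [← hx]
  exact hcol _ (List.getLast_mem h.nu)

variable {F : Set V} {nn m : ℕ} {p : ℤ → V} {A : ℤ → ℤ} {A' B' : ℝ} {k g : ℤ} {h₀ t₀ : ℂ}

theorem card3' (H : CorH X U M W η d o n) : 3 ≤ (sX X).card := by
  obtain ⟨c, hc⟩ := mem_sd.1 (H.sd 0)
  exact card3 H.gp hc

/-- **the top of the column is joined to the far sites off all strips** -/
theorem top_path (H : CorH X U M W η d o n) (hF : Fine F nn (m : ℤ) p M W A)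
    (hFc : ∀ q ∉ F, ∀ q' ∉ F, Con Fᶜ q q') (m3 : 3 ≤ m) (hA0 : 0 ≤ A') (hB : 0 ≤ B')
    (hA : A' + d < 10 * η) (hBh : B' ≤ 100 * η) (g1 : A k + 4 ≤ g) (g2 : g + 3 ≤ A (k + 1))
    (hh : h₀ ∈ sX X) (hf : h₀ ∈ Far (m * (100 * η)) (100 * η + A' + d) F)
    (ht : t₀ ∈ Col η W X g) (hY : 10 * η ≤ Gatex838.Y (gz (100 * η) W g) (ge W g) t₀) :
    Pth (sX X) {v | v ∈ sX X ∧ ∀ c : ℤ, v ∉ RR A' B' (100 * η) W c} t₀ h₀ := by
  have e0 := H.e0
  have d0 := H.d0
  have m3' : (3 : ℝ) ≤ m := by exact_mod_cast m3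
  have hm : 3 * (100 * η) ≤ m * (100 * η) := mul_le_mul_of_nonneg_right m3' (by linarith)
  refine LnkGx927.gate_out hF hFc (by linarith) hB hBh (by linarith) (by linarith)
    (LnkGx927.sml_of_hol H.d0 (H.holS.mono ?_)) H.gp (card3' H) g1 g2 ht.1.1 hh ?_ ?_ ?_ hf
  · exact iUnion_subset fun c => H.sub_U (by linarith) (by linarith) c
  · have := ht.2.1
    linarith
  · linarith
  · have := ht.2.2.2
    have e : ((m : ℝ) - 2) * (100 * η) = m * (100 * η) - 200 * η := by ring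
    rw [e]
    linarith

/-- **the path from the gate to a far site** -/
theorem lnk_path (H : CorH X U M W η d o n) (hF : Fine F nn (m : ℤ) p M W A)
    (hFc : ∀ q ∉ F, ∀ q' ∉ F, Con Fᶜ q q') (m3 : 3 ≤ m) (hA0 : 0 ≤ A') (hB : 0 ≤ B')
    (hA : A' + d < 10 * η) (hBh : B' ≤ 100 * η) (g1 : A k + 4 ≤ g) (g2 : g + 3 ≤ A (k + 1))
    (hh : h₀ ∈ sX X) (hf : h₀ ∈ Far (m * (100 * η)) (100 * η + A' + d) F) :
    Relation.ReflTransGen (fun a b => DE (sX X) a b ∧ (b ∈ Col η W X g ∨
      ∀ c : ℤ, b ∉ RR A' B' (100 * η) W c)) (xx η W X g) h₀ := by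
  obtain ⟨-, t₀, h1, h2, h3⟩ := col_path H g
  have h4 := top_path H hF hFc m3 hA0 hB hA hBh g1 g2 hh hf h1 h2
  exact (Relation.ReflTransGen.mono (fun _ _ h => ⟨h.1, Or.inl h.2⟩) _ _ h3).trans
    (Relation.ReflTransGen.mono (fun _ _ h => ⟨h.1, Or.inr h.2.2⟩) _ _ h4.2)



/-- all strips (enlarged) -/
def All (η : ℝ) (W : ℤ → ℤ × ℤ) : Set ℂ :=
  {s | ∃ a : ℤ, s ∈ RR (19 / 2 * η) (103 / 2 * η) (100 * η) W a}


/-! ### hull sites -/

/-- **all hull sites are far sites** in a dense environment -/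
theorem hull_far {S : Finset ℂ} {c : ℂ} {L e r δ ρ : ℝ} (hD : DomAx722.Dns S c L e)
    (hP : Tenx416.Pg δ F ⊆ Metric.closedBall c r) (hr : r + 2 * ρ < L - 2 * e) {v : ℂ}
    (hv : OnHull S v) : v ∈ Far δ ρ F := by
  obtain ⟨a, ha⟩ := hv
  exact LnkGx927.hull_far hP hr (LnkGx927.hull_dist hD ha).2


end Crest.Agent.R143.LnkLx927
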