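import Crest.Agent.R143.CorV_169
import Crest.Agent.R143.CorL_765
import Crest.Agent.R143.LimS_133
import Crest.Agent.R143.C2SD_395

/-!
# Row 143 (S0194), CORE-C: the tile charges of the corridor of a label, field `mean` (helper169)

* `fP` : the spin one field of the positions, `fP_meas`, `fP_mo` (factor = rotation), `fP_zf` (395's `zf`)
* `VL D P r f α N l` : `VT` of the tile `α + l` if `2 ≤ l`, `l + 2 < N`, otherwise `0`
* `VL_fm`, `VL_local` (region of the corridor), `VL_cov`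
* `kap` : reference number / `h`; **`VL_mean`** : field `mean` of `CorMx970.Env` with 133's weight `gR`
* `CorH.vl` : `VL` is 832's `VX`, `VZ` on 713's corridor
-/

set_option autoImplicit false
set_option linter.all false

noncomputable section

open scoped Classical

namespace Crest.Agent.R143.SpMx169

open Set MeasureTheory
open Crest.ProbabilityR.Voronoi
open Crest.Agent.R143.B0x346 Crest.Agent.R143.DelGx806 Crest.Agent.R143.DelRx806
  Crest.Agent.R143.JColx54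
open Crest.Agent.R143.Frame1x395 Crest.Agent.R143.Frame2x395 Crest.Agent.R143.Frame3x395
  Crest.Agent.R143.Frame4x395 Crest.Agent.R143.Frame8x395 Crest.Agent.R143.Frame9x395
  Crest.Agent.R143.Frame10x395 Crest.Agent.R143.Frame11x395
open Crest.Agent.R143.Frame5x395 (sd mem_sd th th_spec)
open Crest.Agent.R143.PP0x831 Crest.Agent.R143.Poisx304
open Crest.Agent.R143.Janx304 (ovr)
open Crest.Agent.R143.IndLocx279
open Crest.Agent.R143.CovBx126 (Mo)
open Crest.Agent.R143.WLocx713 Crest.Agent.R143.PWx978 Crest.Agent.R143.Tplx978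
open Crest.Agent.R143.TileRx228 Crest.Agent.R143.PthFx765 Crest.Agent.R143.TplIx204
open Crest.Agent.R143.Layx416 Crest.Agent.R143.CorNx765
open Crest.Agent.R143.SpRx169 Crest.Agent.R143.Sptx832 Crest.Agent.R143.Sptx169
  Crest.Agent.R143.SpVx169 Crest.Agent.R143.CorVx169 Crest.Agent.R143.CorHx713
open scoped ENNReal

/-! ### the field of the positions -/

/-- the spin one field of the positions; for the face of the dart `e`:
`e.1 + om e.2 + om ^ 2 (third site)` -/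
def fP (t : ℂ × ℂ × ℂ) : ℂ := t.2.2 + om * t.1 + om ^ 2 * t.2.1

theorem fP_meas : Measurable fP := by
  unfold fP
  fun_prop

theorem om_sum : 1 + om + om ^ 2 = 0 := Mass1x302.om_rel

/-- the factor is the rotation -/
theorem fP_mo {φ : ℂ ≃ ℂ} {c : ℂ} (h : Mo φ c) (t : ℂ × ℂ × ℂ) :
    fP (φ t.1, φ t.2.1, φ t.2.2) = c * fP t := by
  have e : ∀ z, φ z = c * z + φ 0 := by
    intro z
    have := h.sub z 0
    rw [sub_zero] at this
    linear_combination this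
  unfold fP
  simp only
  rw [e t.1, e t.2.1, e t.2.2]
  linear_combination φ 0 * om_sum


/-- relation with 302's charge -/
theorem fP_Nn (t : ℂ × ℂ × ℂ) : om * fP t = (starRingEnd ℂ) (Mass1x302.Nn t) := by
  have h1 : (starRingEnd ℂ) om = om ^ 2 := Mass4x302.om_conj
  have h3 : om ^ 3 = 1 := Mass4x302.om3
  unfold fP Mass1x302.Nn
  simp only [map_add, map_mul, map_pow, Complex.conj_conj, h1]
  linear_combination (t.2.1 - om * t.2.2) * h3

theorem norm_om : ‖om‖ = 1 := by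
  have h : ‖om‖ ^ 3 = 1 := by rw [← norm_pow, Mass4x302.om3, norm_one]
  exact (pow_eq_one_iff_of_nonneg (norm_nonneg _) (by norm_num)).1 h


/-! ### the tile charges of a corridor -/

variable {M : ℕ} {W : ℤ → ℤ × ℤ} (D : DT) (P : FPath M W) (r : ℝ)

/-- charge of the tile `α + l` of the corridor `α, .., α + N - 1` -/
def VL (f : ℂ × ℂ × ℂ → ℂ) (α : ℤ) (N l : ℕ) (X : Cf) : ℂ :=
  if 2 ≤ l ∧ l + 2 < N then VT D P r f (α + l - 1) X else 0

theorem VL_of {f : ℂ × ℂ × ℂ → ℂ} {α : ℤ} {N l : ℕ} (h0 : 2 ≤ l) (h1 : l + 2 < N) :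
    VL D P r f α N l = VT D P r f (α + l - 1) := by
  funext X
  exact if_pos ⟨h0, h1⟩

theorem VL_not {f : ℂ × ℂ × ℂ → ℂ} {α : ℤ} {N l : ℕ} (h : ¬ (2 ≤ l ∧ l + 2 < N)) :
    VL D P r f α N l = fun _ => 0 := by
  funext X
  exact if_neg h

/-- **measurable** -/
theorem VL_fm {f : ℂ × ℂ × ℂ → ℂ} (hf : Measurable f) (α : ℤ) (N l : ℕ) :
    FinMeas (VL D P r f α N l) := by
  by_cases h : 2 ≤ l ∧ l + 2 < N
  · rw [VL_of D P r h.1 h.2]
    exact VT_fm D P r hf _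
  · rw [VL_not D P r h]
    exact fun n => measurable_const

theorem reg3_Rall (a : ℤ) : reg3 D W a ⊆ Rall D.A' D.B' D.h W := by
  intro s hs
  obtain ⟨j, -, hs⟩ := mem_iUnion₂.1 hs
  exact mem_iUnion.2 ⟨_, hs⟩

/-- **local on the union of the tiles** -/
theorem VL_Rall (f : ℂ × ℂ × ℂ → ℂ) (α : ℤ) (N l : ℕ) :
    LocalOn (Rall D.A' D.B' D.h W) (VL D P r f α N l) := by
  by_cases h : 2 ≤ l ∧ l + 2 < N
  · rw [VL_of D P r h.1 h.2]
    exact IndLocx279.LocalOn.mono (reg3_Rall D _) (VT_local3 D P r f _)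
  · rw [VL_not D P r h]
    exact fun _ => rfl

/-- **local on the region of the net** -/
theorem VL_local {ε : ℝ} {T : Tpl ε (Tn × Bool)} [DecidableEq (ZMod M)] [Fintype (ZMod M)]
    (Hs : Std T D.A' D.B' D.h Prod.fst) (Ac e : ℤ → ℤ) (i : ZMod 3) (f : ℂ × ℂ × ℂ → ℂ) (α : ℤ)
    (N l : ℕ) :
    LocalOn ((cpth P Hs Ac e i).net.reg Finset.univ Finset.univ) (VL D P r f α N l) := by
  rw [reg_eq]
  exact VL_Rall D P r f α N l

/-! ### the mean -/

/-- **the number**: mean of the reference window divided by the side of a tile -/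
def kap {ε : ℝ} {T : Tpl ε (Tn × Bool)} (Hs : Std T D.A' D.B' D.h Prod.fst)
    (f : ℂ × ℂ × ℂ → ℂ) : ℂ := (rf Hs).m (VT D line r f 0) / D.h

include P in
/-- displacement of a straight tile -/
theorem gz_S {a : ℤ} (h : tn W a = Tn.S) (hh : ℝ) :
    gz hh W (a + 1) - gz hh W a = hh * ge W a := by
  have h1 := ge_succ P a
  rw [h, rot, mul_one] at h1
  rw [gz_succ, h1]
  ring

/-- **field `mean`** (978's weight) -/
theorem VL_mean' {ε : ℝ} {T : Tpl ε (Tn × Bool)} (Hs : Std T D.A' D.B' D.h Prod.fst)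
    {Ac e : ℤ → ℤ} {i : ZMod 3} [Fintype (ZMod M)] (hM : nn Ac e i < M) (hM3 : Pr M 3)
    (hA0 : ∫⁻ ω, T.A (cfg ε ω) ∂sampleLaw ≠ 0) (hh : D.h ≠ 0) {f : ℂ × ℂ × ℂ → ℂ}
    (hfm : Measurable f)
    (hf : ∀ (φ : ℂ ≃ ℂ) (c : ℂ), Mo φ c → ∀ t, f (φ t.1, φ t.2.1, φ t.2.2) = c * f t)
    {l : ℕ} (hl : l ∈ SJ W Ac e i) (h6 : 2 ≤ l) (h7 : l + 2 < nn Ac e i) :
    ∫ ω, (((cpth P Hs Ac e i).net.gw Finset.univ Finset.univ (cfg ε ω)).toReal : ℂ) *
        VL D P r f (al Ac e i) (nn Ac e i) l (cfg ε ω) ∂sampleLaw =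
      ((∫⁻ ω, (cpth P Hs Ac e i).net.gw Finset.univ Finset.univ (cfg ε ω) ∂sampleLaw).toReal : ℂ) *
        (kap D r Hs f * (gz D.h W (al Ac e i + l + 1) - gz D.h W (al Ac e i + l))) := by
  obtain ⟨h1, h2, h3, h4, h5⟩ := mem_SJ.1 hl
  have hg : TileRx228.ge lineW 0 = 1 := by
    unfold TileRx228.ge cz lineW
    apply Complex.ext <;> simp
  have h := VT_mean D line r Hs P (line_typ (t := (Tn.S, true)) rfl)
    (cty_typ (Ac := Ac) (e := e) i) (Or.inl rfl) hM3 0 (al Ac e i + l - 1)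
    (τ := fun _ => (Tn.S, true)) (fun _ _ => rfl) (SJ_ty P hM hl) hA0
    (I := Finset.univ) (J := Finset.univ) (Finset.subset_univ _) (Finset.subset_univ _)
    (fun _ _ => ⟨Finset.mem_univ _, Finset.mem_univ _⟩) hfm (k := TileRx228.ge W
      (al Ac e i + l - 1) / TileRx228.ge lineW 0) (fun φ hφ t => hf φ _ hφ t)
  rw [hg, div_one] at h
  rw [VL_of D P r h6 h7]
  refine h.trans ?_
  have e1 : ge W (al Ac e i + l) = ge W (al Ac e i + l - 1) := by
    have := ge_succ P (al Ac e i + l - 1)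
    rw [sub_add_cancel, h3, rot, mul_one] at this
    exact this
  rw [gz_S P h4, e1]
  unfold kap
  have e2 : (rf Hs).m (VT D line r f 0) =
      (win line Hs (line_typ (t := (Tn.S, true)) rfl) (Or.inl rfl) 0
        (τ := fun _ => (Tn.S, true)) (n := 3) (fun _ _ => rfl)).m (VT D line r f 0) := rfl
  rw [e2]
  have hhc : (D.h : ℂ) ≠ 0 := by exact_mod_cast hh
  congr 1
  field_simp

/-- **FIELD `mean` of `CorMx970.Env`**, 133's real weight -/
theorem VL_mean {ε : ℝ} {T : Tpl ε (Tn × Bool)} (Hs : Std T D.A' D.B' D.h Prod.fst)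
    {Ac e : ℤ → ℤ} {i : ZMod 3} [Fintype (ZMod M)] (hM : nn Ac e i < M) (hM3 : Pr M 3)
    (hA0 : ∫⁻ ω, T.A (cfg ε ω) ∂sampleLaw ≠ 0) (hh : D.h ≠ 0) {f : ℂ × ℂ × ℂ → ℂ}
    (hfm : Measurable f)
    (hf : ∀ (φ : ℂ ≃ ℂ) (c : ℂ), Mo φ c → ∀ t, f (φ t.1, φ t.2.1, φ t.2.2) = c * f t)
    {l : ℕ} (hl : l ∈ SJ W Ac e i) (h6 : 2 ≤ l) (h7 : l + 2 < nn Ac e i) :
    ∫ ω, ((LimSx133.gR (cpth P Hs Ac e i).net Finset.univ Finset.univ (cfg ε ω) : ℝ) : ℂ) *
        VL D P r f (al Ac e i) (nn Ac e i) l (cfg ε ω) ∂sampleLaw =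
      ((∫ ω, LimSx133.gR (cpth P Hs Ac e i).net Finset.univ Finset.univ (cfg ε ω) ∂sampleLaw : ℝ)
          : ℂ) *
        (kap D r Hs f * (gz D.h W (al Ac e i + l + 1) - gz D.h W (al Ac e i + l))) := by
  have hN : ∀ k ∈ (Finset.univ : Finset (ZMod M)), (cpth P Hs Ac e i).net.N k ⊆ Finset.univ :=
    fun _ _ => Finset.subset_univ _
  rw [LimSx133.int_gR _ hN, ← VL_mean' D P r Hs hM hM3 hA0 hh hfm hf hl h6 h7]
  refine integral_congr_ae (ae_of_all _ fun ω => ?_)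
  show ((LimSx133.gR (cpth P Hs Ac e i).net Finset.univ Finset.univ (cfg ε ω) : ℝ) : ℂ) * _ = _
  rw [LimSx133.gR_cfg _ hN ω]

/-- `mean` for the positions, in 58's gates `gt` (`z l = gt (l + 1) - gt l`) -/
theorem VL_mean_gt {ε : ℝ} {T : Tpl ε (Tn × Bool)} (Hs : Std T D.A' D.B' D.h Prod.fst)
    {Ac e : ℤ → ℤ} {i : ZMod 3} [Fintype (ZMod M)] (hM : nn Ac e i < M) (hM3 : Pr M 3)
    (hA0 : ∫⁻ ω, T.A (cfg ε ω) ∂sampleLaw ≠ 0) (hh : D.h ≠ 0) {l : ℕ} (hl : l ∈ SJ W Ac e i)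
    (h6 : 2 ≤ l) (h7 : l + 2 < nn Ac e i) :
    ∫ ω, ((LimSx133.gR (cpth P Hs Ac e i).net Finset.univ Finset.univ (cfg ε ω) : ℝ) : ℂ) *
        VL D P r fP (al Ac e i) (nn Ac e i) l (cfg ε ω) ∂sampleLaw =
      ((∫ ω, LimSx133.gR (cpth P Hs Ac e i).net Finset.univ Finset.univ (cfg ε ω) ∂sampleLaw : ℝ)
          : ℂ) *
        (kap D r Hs fP * (gz D.h W (al Ac e i + ((l + 1 : ℕ) : ℤ)) -
          gz D.h W (al Ac e i + (l : ℤ)))) := by
  have h := VL_mean D P r Hs hM hM3 hA0 hh fP_meas (fun φ c h t => fP_mo h t) hl h6 h7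
  have e1 : al Ac e i + ((l + 1 : ℕ) : ℤ) = al Ac e i + l + 1 := by push_cast; ring
  rw [e1]
  exact h

/-! ### the bound of the number -/



/-! ### 713's corridor -/

variable {η d : ℝ} {X : Set (ℂ × Bool)} {U : Set ℂ} {o : ℤ} {n : ℕ} {D}

/-- 832's functional is `VL` on the full tiles -/
theorem _root_.Crest.Agent.R143.CorHx713.CorH.vx_vl (H : CorH X U M W η d o n) (s : IsS D η)
    {l : ℕ} (h0 : 2 ≤ l) (h1 : l + 2 < n) (f : ℂ × ℂ × ℂ → ℂ) :
    VX f n (fun k => RR (19 / 2 * η) (103 / 2 * η) (100 * η) W (o + k)) (QX (100 * η) W o n)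
      (fun k => LG (gA η W (o + k)) (QA η W (o + k))) l X =
      VL D H.path (η / 2) f o n l X := by
  rw [VL_of D H.path (η / 2) h0 h1]
  exact H.vx_vt s (by omega) (by omega) f


end Crest.Agent.R143.SpMx169
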