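import Crest.Agent.R143.TileR0_228

/-!
# Row 143 (S0194), CORE-C, box R1c: tile regions along a simple closed lattice path (helper228)

Parameters: half width `A`, length `B`, mesh `h`; `A ≤ B`, `B ≤ h`, ...
* `gap` : tiles which are not neighbours are at distance `≥ g` (`A + B + g ≤ h`, `2 B + g < 2 h`)
* `left_X`, `left_Y`, `right_X`, `right_Y` : the tiles `a`, `a + 1` in the frame of the gate `a + 1`
* `window` : `RR a ∩ RR (a + 1)` is inside the window of the gate `a + 1`
* `win_left`, `win_right` : the window of a gate is inside both tiles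
* `near_path` : the region is near the path
* `frame_S`, `frame_L`, `frame_R` : 921's regions in the frame of the gate `a`
-/

set_option autoImplicit false

noncomputable section

open scoped Classical

namespace Crest.Agent.R143.TileRx228

open Crest.Agent.R143.Gatex838 (X Y)

/-! ### coordinates -/

theorem U4.cases {P : ℤ × ℤ → Prop} {u : ℤ × ℤ} (h : U4 u) (h1 : P (1, 0)) (h2 : P (0, 1))
    (h3 : P (-1, 0)) (h4 : P (0, -1)) : P u := by
  rcases h with rfl | rfl | rfl | rfl <;> assumption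

theorem U4.neg {u : ℤ × ℤ} (h : U4 u) : U4 (-u) := by
  rcases h with rfl | rfl | rfl | rfl <;> simp [U4]

theorem cz_add (u v : ℤ × ℤ) : cz (u + v) = cz u + cz v := by
  apply Complex.ext <;> simp [cz]

theorem cz_sub (u v : ℤ × ℤ) : cz (u - v) = cz u - cz v := by
  apply Complex.ext <;> simp [cz]

theorem cz_neg (u : ℤ × ℤ) : cz (-u) = -cz u := by
  apply Complex.ext <;> simp [cz]

theorem X_cz {u : ℤ × ℤ} (hu : U4 u) (c s : ℂ) :
    X c (cz u) s = u.1 * (s - c).re + u.2 * (s - c).im := by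
  rcases hu with rfl | rfl | rfl | rfl <;> simp [X, cz, Complex.div_re, Complex.normSq_apply]

theorem Y_cz {u : ℤ × ℤ} (hu : U4 u) (c s : ℂ) :
    Y c (cz u) s = u.1 * (s - c).im - u.2 * (s - c).re := by
  rcases hu with rfl | rfl | rfl | rfl <;> simp [Y, cz, Complex.div_im, Complex.normSq_apply]

theorem norm_cz {u : ℤ × ℤ} (hu : U4 u) : ‖cz u‖ = 1 := by
  rcases hu with rfl | rfl | rfl | rfl <;>
    simp [cz, Complex.norm_def, Complex.normSq_apply]

theorem cz_ne {u : ℤ × ℤ} (hu : U4 u) : cz u ≠ 0 := by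
  intro h
  have := norm_cz hu
  rw [h] at this
  simp at this

variable {A B h g : ℝ} {M : ℕ} {W : ℤ → ℤ × ℤ} {a b : ℤ} {c s t : ℂ} {u v : ℤ × ℤ}

theorem mem_arm (hu : U4 u) : s ∈ Arm A B c (cz u) ↔
    (-A < u.1 * (s - c).re + u.2 * (s - c).im ∧ u.1 * (s - c).re + u.2 * (s - c).im < B) ∧
      |u.1 * (s - c).im - u.2 * (s - c).re| < A := by
  unfold Arm
  rw [Set.mem_ofPred_eq, X_cz hu, Y_cz hu]

/-- an arm in coordinates -/
theorem arm_coord (hu : U4 u) (hAB : A ≤ B) (h : s ∈ Arm A B c (cz u)) :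
    |(s - c).re| < B ∧ |(s - c).im| < B ∧ (A ≤ |(s - c).re| → |(s - c).im| < A) ∧
      (A ≤ (s - c).re → u = (1, 0)) ∧ ((s - c).re ≤ -A → u = (-1, 0)) ∧
      (A ≤ (s - c).im → u = (0, 1)) ∧ ((s - c).im ≤ -A → u = (0, -1)) := by
  rw [mem_arm hu] at h
  set x := (s - c).re
  set y := (s - c).im
  obtain ⟨⟨h1, h2⟩, h3⟩ := h
  rcases hu with rfl | rfl | rfl | rfl
  · simp only [Int.cast_one, Int.cast_zero, one_mul, zero_mul, add_zero, sub_zero] at h1 h2 h3
    obtain ⟨h4, h5⟩ := abs_lt.1 h3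
    refine ⟨abs_lt.2 ⟨by linarith, by linarith⟩, abs_lt.2 ⟨by linarith, by linarith⟩,
      fun _ => h3, fun _ => rfl, fun h => ?_, fun h => ?_, fun h => ?_⟩ <;> linarith
  · simp only [Int.cast_one, Int.cast_zero, one_mul, zero_mul, zero_add, zero_sub, abs_neg]
      at h1 h2 h3
    obtain ⟨h4, h5⟩ := abs_lt.1 h3
    refine ⟨abs_lt.2 ⟨by linarith, by linarith⟩, abs_lt.2 ⟨by linarith, by linarith⟩,
      fun h => ?_, fun h => ?_, fun h => ?_, fun _ => rfl, fun h => ?_⟩ <;> linarith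
  · simp only [Int.cast_neg, Int.cast_one, Int.cast_zero, neg_mul, one_mul, zero_mul, add_zero,
      sub_zero, abs_neg] at h1 h2 h3
    obtain ⟨h4, h5⟩ := abs_lt.1 h3
    refine ⟨abs_lt.2 ⟨by linarith, by linarith⟩, abs_lt.2 ⟨by linarith, by linarith⟩,
      fun _ => h3, fun h => ?_, fun _ => rfl, fun h => ?_, fun h => ?_⟩ <;> linarith
  · simp only [Int.cast_neg, Int.cast_one, Int.cast_zero, neg_mul, one_mul, zero_mul, zero_add,
      zero_sub, neg_neg] at h1 h2 h3
    obtain ⟨h4, h5⟩ := abs_lt.1 h3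
    refine ⟨abs_lt.2 ⟨by linarith, by linarith⟩, abs_lt.2 ⟨by linarith, by linarith⟩,
      fun h => ?_, fun h => ?_, fun h => ?_, fun h => ?_, fun _ => rfl⟩ <;> linarith

/-- an arm in the frame of another direction -/
theorem arm_frame (hu : U4 u) (hv : U4 v) (huv : v ≠ u) (h : s ∈ Arm A B c (cz v)) :
    X c (cz u) s < A := by
  rw [mem_arm hv] at h
  rw [X_cz hu]
  set x := (s - c).re
  set y := (s - c).im
  obtain ⟨⟨h1, h2⟩, h3⟩ := h
  rcases hu with rfl | rfl | rfl | rfl <;> rcases hv with rfl | rfl | rfl | rfl <;>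
    first
    | exact absurd rfl huv
    | (simp only [Int.cast_neg, Int.cast_one, Int.cast_zero, neg_mul, one_mul, zero_mul, zero_add,
        add_zero, sub_zero, zero_sub, neg_neg, abs_neg] at h1 h2 h3 ⊢
       obtain ⟨h4, h5⟩ := abs_lt.1 h3
       linarith)

/-! ### the path -/

theorem FPath.step' (P : FPath M W) (a : ℤ) : U4 (W (a - 1) - W a) := by
  have h := (P.step (a - 1)).neg
  rw [sub_add_cancel, neg_sub] at h
  exact h

theorem FPath.ne (P : FPath M W) (a : ℤ) : W (a - 1) - W a ≠ W (a + 1) - W a := by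
  intro h
  have h1 : W (a - 1) = W (a + 1) := sub_left_injective h
  apply P.turn (a - 1)
  rw [show a - 1 + 2 = a + 1 by ring]
  exact h1.symm

theorem mem_RR (P : FPath M W) (hs : s ∈ RR A B h W a) :
    ∃ v, U4 v ∧ (v = W (a - 1) - W a ∨ v = W (a + 1) - W a) ∧ s ∈ Arm A B (cen h W a) (cz v) := by
  rcases hs with h | h
  · exact ⟨_, P.step' a, Or.inl rfl, h⟩
  · exact ⟨_, P.step a, Or.inr rfl, h⟩

theorem cen_sub (h : ℝ) (W : ℤ → ℤ × ℤ) (a b : ℤ) :
    (cen h W b - cen h W a).re = h * (((W b).1 - (W a).1 : ℤ) : ℝ) ∧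
      (cen h W b - cen h W a).im = h * (((W b).2 - (W a).2 : ℤ) : ℝ) := by
  unfold cen cz
  constructor
  · simp only [Complex.sub_re, Complex.mul_re, Complex.ofReal_re, Complex.ofReal_im, zero_mul,
      sub_zero]
    push_cast
    ring
  · simp only [Complex.sub_im, Complex.mul_im, Complex.ofReal_re, Complex.ofReal_im, zero_mul,
      add_zero]
    push_cast
    ring

/-- **tiles which are not neighbours are far from each other** -/
theorem gap (P : FPath M W) (hA : 0 < A) (hAB : A ≤ B) (hg : 0 ≤ g) (hh : A + B + g ≤ h)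
    (h0 : ¬ (M : ℤ) ∣ b - a) (h1 : ¬ (M : ℤ) ∣ b - (a + 1)) (h2 : ¬ (M : ℤ) ∣ b - (a - 1))
    (hs : s ∈ RR A B h W a) (ht : t ∈ RR A B h W b) : g ≤ ‖s - t‖ := by
  by_contra hcon
  push Not at hcon
  have hr := (Complex.abs_re_le_norm (s - t)).trans_lt hcon
  have hi := (Complex.abs_im_le_norm (s - t)).trans_lt hcon
  obtain ⟨v, hv, hva, hs⟩ := mem_RR P hs
  obtain ⟨v', hv', -, ht⟩ := mem_RR P ht
  obtain ⟨s1, s2, s3, s4, s5, s6, s7⟩ := arm_coord hv hAB hs
  obtain ⟨t1, t2, t3, -⟩ := arm_coord hv' hAB ht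
  obtain ⟨e1, e2⟩ := cen_sub h W a b
  obtain ⟨k, hk⟩ : ∃ k : ℤ, k = (W b).1 - (W a).1 := ⟨_, rfl⟩
  obtain ⟨l, hl⟩ : ∃ l : ℤ, l = (W b).2 - (W a).2 := ⟨_, rfl⟩
  rw [← hk] at e1
  rw [← hl] at e2
  have f1 : h * (k : ℝ) = (s - cen h W a).re - (t - cen h W b).re - (s - t).re := by
    rw [← e1]
    simp only [Complex.sub_re]
    ring
  have f2 : h * (l : ℝ) = (s - cen h W a).im - (t - cen h W b).im - (s - t).im := by
    rw [← e2]
    simp only [Complex.sub_im]
    ring
  set x := (s - cen h W a).re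
  set y := (s - cen h W a).im
  set x' := (t - cen h W b).re
  set y' := (t - cen h W b).im
  set p := (s - t).re
  set q := (s - t).im
  have hh0 : 0 < h := by linarith
  obtain ⟨a1, a2⟩ := abs_lt.1 s1
  obtain ⟨a3, a4⟩ := abs_lt.1 s2
  obtain ⟨b1, b2⟩ := abs_lt.1 t1
  obtain ⟨b3, b4⟩ := abs_lt.1 t2
  obtain ⟨c1, c2⟩ := abs_lt.1 hr
  obtain ⟨c3, c4⟩ := abs_lt.1 hi
  have k1 : -2 < k := by
    have : h * (-2 : ℝ) < h * (k : ℝ) := by linarith
    have := lt_of_mul_lt_mul_left this hh0.le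
    exact_mod_cast this
  have k2 : k < 2 := by
    have : h * (k : ℝ) < h * (2 : ℝ) := by linarith
    have := lt_of_mul_lt_mul_left this hh0.le
    exact_mod_cast this
  have l1 : -2 < l := by
    have : h * (-2 : ℝ) < h * (l : ℝ) := by linarith
    have := lt_of_mul_lt_mul_left this hh0.le
    exact_mod_cast this
  have l2 : l < 2 := by
    have : h * (l : ℝ) < h * (2 : ℝ) := by linarith
    have := lt_of_mul_lt_mul_left this hh0.le
    exact_mod_cast this
  have fin : (k, l) = v → False := by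
    intro e
    have hb : W b = W a + v := by
      rw [← e]
      ext
      · simp [hk]
      · simp [hl]
    rcases hva with hva | hva
    · rw [hva, add_sub_cancel] at hb
      exact h2 (P.simple _ _ hb.symm)
    · rw [hva, add_sub_cancel] at hb
      exact h1 (P.simple _ _ hb.symm)
  have corner : A ≤ |x| → A ≤ |y| → False := fun h3 h4 => by
    have := s3 h3
    linarith
  clear_value x y x' y' p q
  interval_cases k <;> interval_cases l <;> norm_num at f1 f2
  · exact corner (by rw [abs_of_neg (by linarith)]; linarith)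
      (by rw [abs_of_neg (by linarith)]; linarith)
  · exact fin (s5 (by linarith)).symm
  · exact corner (by rw [abs_of_neg (by linarith)]; linarith)
      (by rw [abs_of_pos (by linarith)]; linarith)
  · exact fin (s7 (by linarith)).symm
  · apply h0
    apply P.simple
    ext
    · linarith
    · linarith
  · exact fin (s6 (by linarith)).symm
  · exact corner (by rw [abs_of_pos (by linarith)]; linarith)
      (by rw [abs_of_neg (by linarith)]; linarith)
  · exact fin (s4 (by linarith)).symm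
  · exact corner (by rw [abs_of_pos (by linarith)]; linarith)
      (by rw [abs_of_pos (by linarith)]; linarith)

theorem disj (P : FPath M W) (hA : 0 < A) (hAB : A ≤ B) (hh : A + B < h)
    (h0 : ¬ (M : ℤ) ∣ b - a) (h1 : ¬ (M : ℤ) ∣ b - (a + 1)) (h2 : ¬ (M : ℤ) ∣ b - (a - 1)) :
    Disjoint (RR A B h W a) (RR A B h W b) := by
  rw [Set.disjoint_left]
  intro s hs ht
  have := gap (g := h - A - B) P hA hAB (by linarith) (by linarith) h0 h1 h2 hs ht
  rw [sub_self, norm_zero] at this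
  linarith

/-! ### frames -/

theorem U4.sq (hu : U4 u) : (u.1 : ℝ) * u.1 + (u.2 : ℝ) * u.2 = 1 := by
  rcases hu with rfl | rfl | rfl | rfl <;> simp

/-- the frame of the gate `a` and the vertex `W a` -/
theorem XY_in (P : FPath M W) (h : ℝ) (a : ℤ) (s : ℂ) :
    X (gz h W a) (ge W a) s = X (cen h W a) (ge W a) s + h / 2 ∧
      Y (gz h W a) (ge W a) s = Y (cen h W a) (ge W a) s := by
  have hu : U4 (W a - W (a - 1)) := by
    have := P.step (a - 1)
    rwa [sub_add_cancel] at this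
  unfold ge
  rw [X_cz hu, X_cz hu, Y_cz hu, Y_cz hu]
  have e := hu.sq
  have r1 : (s - gz h W a).re = (s - cen h W a).re + h / 2 * ((W a - W (a - 1)).1 : ℤ) := by
    simp [gz, cen, cz]
    ring
  have r2 : (s - gz h W a).im = (s - cen h W a).im + h / 2 * ((W a - W (a - 1)).2 : ℤ) := by
    simp [gz, cen, cz]
    ring
  rw [r1, r2]
  constructor
  · linear_combination (h / 2) * e
  · ring

/-- the frame of the gate `a + 1` and the vertex `W a` -/
theorem XY_out (P : FPath M W) (h : ℝ) (a : ℤ) (s : ℂ) :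
    X (gz h W (a + 1)) (ge W (a + 1)) s = X (cen h W a) (ge W (a + 1)) s - h / 2 ∧
      Y (gz h W (a + 1)) (ge W (a + 1)) s = Y (cen h W a) (ge W (a + 1)) s := by
  have hu : U4 (W (a + 1) - W (a + 1 - 1)) := by
    have := P.step a
    rwa [add_sub_cancel_right]
  unfold ge
  rw [X_cz hu, X_cz hu, Y_cz hu, Y_cz hu]
  have e := hu.sq
  rw [add_sub_cancel_right] at e ⊢
  have r1 : (s - gz h W (a + 1)).re =
      (s - cen h W a).re - h / 2 * ((W (a + 1) - W a).1 : ℤ) := by
    simp [gz, cen, cz]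
    ring
  have r2 : (s - gz h W (a + 1)).im =
      (s - cen h W a).im - h / 2 * ((W (a + 1) - W a).2 : ℤ) := by
    simp [gz, cen, cz]
    ring
  rw [r1, r2]
  constructor
  · linear_combination (-h / 2) * e
  · ring

theorem XY_neg (c : ℂ) (u s : ℂ) : X c (-u) s = -X c u s ∧ Y c (-u) s = -Y c u s := by
  unfold X Y
  rw [div_neg, Complex.neg_re, Complex.neg_im]
  exact ⟨rfl, rfl⟩

theorem U4_ge (P : FPath M W) (a : ℤ) : U4 (W a - W (a - 1)) := by
  have := P.step (a - 1)
  rwa [sub_add_cancel] at this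

/-- the tile `a` in the frame of the gate `a + 1` -/
theorem left (P : FPath M W) (hAB : A ≤ B) (hs : s ∈ RR A B h W a) :
    X (gz h W (a + 1)) (ge W (a + 1)) s < B - h / 2 ∧
      (A - h / 2 ≤ X (gz h W (a + 1)) (ge W (a + 1)) s →
        |Y (gz h W (a + 1)) (ge W (a + 1)) s| < A) := by
  obtain ⟨e1, e2⟩ := XY_out P h a s
  have e3 : ge W (a + 1) = cz (W (a + 1) - W a) := by
    unfold ge
    rw [add_sub_cancel_right]
  rw [e1, e2, e3]
  rcases hs with hs | hs
  · have := arm_frame (P.step a) (P.step' a) (P.ne a) hs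
    exact ⟨by linarith, fun h => by linarith⟩
  · exact ⟨by linarith [hs.1.2], fun _ => hs.2⟩

/-- the tile `a` in the frame of the gate `a` -/
theorem right (P : FPath M W) (hAB : A ≤ B) (hs : s ∈ RR A B h W a) :
    h / 2 - B < X (gz h W a) (ge W a) s ∧
      (X (gz h W a) (ge W a) s ≤ h / 2 - A → |Y (gz h W a) (ge W a) s| < A) := by
  obtain ⟨e1, e2⟩ := XY_in P h a s
  have e3 : ge W a = -cz (W (a - 1) - W a) := by
    unfold ge
    rw [← cz_neg, neg_sub]
  rw [e1, e2, e3, (XY_neg _ _ _).1, (XY_neg _ _ _).2, abs_neg]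
  rcases hs with hs | hs
  · exact ⟨by linarith [hs.1.2], fun _ => hs.2⟩
  · have := arm_frame (P.step' a) (P.step a) (P.ne a).symm hs
    exact ⟨by linarith, fun h => by linarith⟩

/-- **neighbouring tiles meet only in the window of the gate** -/
theorem window (P : FPath M W) (hAB : A ≤ B) (hh : A + B ≤ h) (hs : s ∈ RR A B h W a)
    (ht : s ∈ RR A B h W (a + 1)) : |X (gz h W (a + 1)) (ge W (a + 1)) s| < B - h / 2 ∧
      |Y (gz h W (a + 1)) (ge W (a + 1)) s| < A := by
  obtain ⟨h1, h2⟩ := left P hAB hs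
  obtain ⟨h3, h4⟩ := right P hAB ht
  exact ⟨abs_lt.2 ⟨by linarith, h1⟩, h2 (by linarith)⟩

/-- the window of the gate `a + 1` is inside the tile `a` -/
theorem win_left (P : FPath M W) (hA : 0 < A) (hB : B ≤ h)
    (h1 : |X (gz h W (a + 1)) (ge W (a + 1)) s| < B - h / 2)
    (h2 : |Y (gz h W (a + 1)) (ge W (a + 1)) s| < A) : s ∈ RR A B h W a := by
  obtain ⟨e1, e2⟩ := XY_out P h a s
  have e3 : ge W (a + 1) = cz (W (a + 1) - W a) := by
    unfold ge
    rw [add_sub_cancel_right]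
  rw [e1, abs_lt] at h1
  rw [e2] at h2
  rw [e3] at h1 h2
  exact Or.inr ⟨⟨by linarith [h1.1], by linarith [h1.2]⟩, h2⟩

/-- the window of the gate `a` is inside the tile `a` -/
theorem win_right (P : FPath M W) (hA : 0 < A) (hB : B ≤ h)
    (h1 : |X (gz h W a) (ge W a) s| < B - h / 2)
    (h2 : |Y (gz h W a) (ge W a) s| < A) : s ∈ RR A B h W a := by
  obtain ⟨e1, e2⟩ := XY_in P h a s
  have e3 : ge W a = -cz (W (a - 1) - W a) := by
    unfold ge
    rw [← cz_neg, neg_sub]
  rw [e1, e3, (XY_neg _ _ _).1, abs_lt] at h1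
  rw [e2, e3, (XY_neg _ _ _).2, abs_neg] at h2
  exact Or.inl ⟨⟨by linarith [h1.2], by linarith [h1.1]⟩, h2⟩

/-! ### the period, `far` -/

theorem FPath.par (P : FPath M W) (a : ℤ) (n : ℕ) :
    ((W (a + n)).1 + (W (a + n)).2 - (W a).1 - (W a).2 - n) % 2 = 0 := by
  induction n with
  | zero => simp
  | succ n ih =>
    have h := P.step (a + n)
    rw [show a + ((n + 1 : ℕ) : ℤ) = a + n + 1 by push_cast; ring]
    obtain ⟨x, hx⟩ : ∃ x, x = W (a + n) := ⟨_, rfl⟩
    obtain ⟨y, hy⟩ : ∃ y, y = W (a + n + 1) := ⟨_, rfl⟩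
    rw [← hx] at ih h
    rw [← hy] at h ⊢
    unfold U4 at h
    simp only [Prod.ext_iff, Prod.fst_sub, Prod.snd_sub] at h
    push_cast
    omega

theorem FPath.even_M (P : FPath M W) : M % 2 = 0 := by
  have h := P.par 0 M
  rw [P.per] at h
  omega

theorem FPath.M_cases (P : FPath M W) : M = 0 ∨ 4 ≤ M := by
  have h := P.even_M
  by_contra hc
  push Not at hc
  have : M = 2 := by omega
  subst this
  exact P.turn 0 (P.per 0)

theorem FPath.not3 (P : FPath M W) : ¬ (M : ℤ) ∣ 3 := by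
  rintro ⟨k, hk⟩
  obtain ⟨m, hm⟩ : ∃ m, M = 2 * m := ⟨M / 2, by have := P.even_M; omega⟩
  rw [hm] at hk
  push_cast at hk
  have : (3 : ℤ) = 2 * (m * k) := by rw [hk]; ring
  omega

/-- points of a window are far from the other tiles -/
theorem win_gap (P : FPath M W) (hA : 0 < A) (hAB : A ≤ B) (hg : 0 ≤ g) (hh : A + B + g ≤ h)
    (h0 : ¬ (M : ℤ) ∣ b - a) (h1 : ¬ (M : ℤ) ∣ b - (a + 1)) (hs : s ∈ RR A B h W (b - 1))
    (hs' : s ∈ RR A B h W b) (ht : t ∈ RR A B h W a) : g ≤ ‖s - t‖ := by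
  rw [norm_sub_rev]
  by_cases h2 : (M : ℤ) ∣ b - (a - 1)
  · refine gap P hA hAB hg hh ?_ ?_ ?_ ht hs
    · intro h3
      apply h1
      rwa [show b - (a + 1) = b - 1 - a by ring]
    · intro h3
      apply P.not3
      have := dvd_sub h2 h3
      rwa [show b - (a - 1) - (b - 1 - (a + 1)) = 3 by ring] at this
    · intro h3
      apply h0
      rwa [show b - a = b - 1 - (a - 1) by ring]
  · exact gap P hA hAB hg hh h0 h1 h2 ht hs'

/-- **far**: a point of the window of the gate `b` is in the tiles `b - 1`, `b` only -/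
theorem far (P : FPath M W) (hA : 0 < A) (hAB : A ≤ B) (hh : A + B < h)
    (h0 : ¬ (M : ℤ) ∣ b - a) (h1 : ¬ (M : ℤ) ∣ b - (a + 1)) (hs : s ∈ RR A B h W (b - 1))
    (hs' : s ∈ RR A B h W b) : s ∉ RR A B h W a := by
  intro ht
  have := win_gap (g := h - A - B) P hA hAB (by linarith) (by linarith) h0 h1 hs hs' ht
  rw [sub_self, norm_zero] at this
  linarith

/-! ### size -/

theorem arm_mono {A' B' : ℝ} (h1 : A ≤ A') (h2 : B ≤ B') (c u : ℂ) :
    Arm A B c u ⊆ Arm A' B' c u := fun _ hs =>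
  ⟨⟨by linarith [hs.1.1], by linarith [hs.1.2]⟩, by linarith [hs.2]⟩

theorem RR_mono {A' B' : ℝ} (h1 : A ≤ A') (h2 : B ≤ B') (h : ℝ) (W : ℤ → ℤ × ℤ) (a : ℤ) :
    RR A B h W a ⊆ RR A' B' h W a :=
  Set.union_subset_union (arm_mono h1 h2 _ _) (arm_mono h1 h2 _ _)

theorem RR_per (P : FPath M W) (A B h : ℝ) (a : ℤ) : RR A B h W (a + M) = RR A B h W a := by
  unfold RR cen
  rw [P.per, show a + (M : ℤ) - 1 = a - 1 + M by ring, P.per,
    show a + (M : ℤ) + 1 = a + 1 + M by ring, P.per]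

/-- the tile is inside the sup ball of radius `B` around the vertex -/
theorem ball (P : FPath M W) (hAB : A ≤ B) (hs : s ∈ RR A B h W a) :
    |(s - cen h W a).re| < B ∧ |(s - cen h W a).im| < B := by
  obtain ⟨v, hv, -, hs⟩ := mem_RR P hs
  obtain ⟨h1, h2, -⟩ := arm_coord hv hAB hs
  exact ⟨h1, h2⟩

theorem arm_near (hu : U4 u) (hA : 0 < A) (hB : B ≤ h) (hs : s ∈ Arm A B c (cz u)) :
    ∃ q ∈ segment ℝ c (c + h * cz u), |(s - q).re| < A ∧ |(s - q).im| < A := by
  rw [mem_arm hu] at hs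
  obtain ⟨⟨h1, h2⟩, h3⟩ := hs
  set x := (s - c).re with hx
  set y := (s - c).im with hy
  set r : ℝ := u.1 * x + u.2 * y with hr
  rcases le_or_gt r 0 with h4 | h4
  · refine ⟨c, left_mem_segment _ _ _, ?_⟩
    rw [← hx, ← hy]
    rw [hr] at h1 h4
    rcases hu with rfl | rfl | rfl | rfl <;>
      simp only [Int.cast_neg, Int.cast_one, Int.cast_zero, neg_mul, one_mul, zero_mul, zero_add,
        add_zero, sub_zero, zero_sub, neg_neg, abs_neg] at h1 h3 h4 ⊢ <;>
      refine ⟨?_, ?_⟩ <;> first | exact h3 | exact abs_lt.2 ⟨by linarith, by linarith⟩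
  · have hh : 0 < h := by linarith
    refine ⟨c + r * cz u, ?_, ?_⟩
    · rw [segment_eq_image']
      refine ⟨r / h, ⟨by positivity, by rw [div_le_one hh]; linarith⟩, ?_⟩
      have hhc : (h : ℂ) ≠ 0 := by exact_mod_cast hh.ne'
      simp only [add_sub_cancel_left, Complex.real_smul]
      push_cast
      field_simp
    · have e1 : (s - (c + r * cz u)).re = x - r * u.1 := by
        rw [hx]
        simp [cz]
        ring
      have e2 : (s - (c + r * cz u)).im = y - r * u.2 := by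
        rw [hy]
        simp [cz]
        ring
      rw [e1, e2]
      rw [hr] at h4 ⊢
      rcases hu with rfl | rfl | rfl | rfl <;>
        simp only [Int.cast_neg, Int.cast_one, Int.cast_zero, neg_mul, one_mul, zero_mul,
          zero_add, add_zero, sub_zero, zero_sub, neg_neg, abs_neg, mul_one, mul_zero, sub_self,
          abs_zero, mul_neg] at h3 ⊢ <;>
        refine ⟨?_, ?_⟩ <;> first | exact h3 | exact hA


end Crest.Agent.R143.TileRx228
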