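import Crest.Agent.R143.CorrC_831
import Crest.Agent.R143.SpM_169
import Crest.Agent.R143.GWX_597
import Crest.Agent.R143.RegE_523
import Crest.Agent.R143.SmallE_304
import Crest.Agent.R143.R5q_166
import Crest.Agent.R143.RcT_422
import Crest.Agent.R143.Xc_372
import Crest.Agent.R143.CorEh_829
import Crest.Agent.R143.SysA_168
import Crest.Agent.R143.FinM_609
import Crest.Agent.R143.RcT2_422
import Crest.Agent.R143.TileR1_228
import Crest.Agent.R143.CorH_713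
import Crest.Agent.R143.QuenS_654
import Crest.Agent.R143.SysD_166
import Crest.Agent.R143.CorE_133
import Crest.Agent.R143.LnkG_372
import Crest.Agent.R143.LnkL_927
import Crest.Agent.R143.PLT_535
import Crest.Agent.R143.QuS2_176
import Crest.Agent.R143.QuA_66
import Crest.Agent.R143.RigZ_609
import Crest.Agent.R143.GoodA_654
import Crest.Agent.R143.GPosC_348

-- ▼ part R143/HV_832
section

/-!
# Row 143 (S0194), RIG: the hypothesis `hV` of 166's `quen_n` (helper832)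

* `zs_face`, `zs_cor`, **`zs_corS`** : 166's field `zs om z` is 169's `fP` of the face, on the faces with
  two sites in an enlarged strip of the corridor
* **`vs_of`** : 166's `Vs` of the strand (831's output, uniqueness) = 169's `VL`
* `VL_clr` : `VL` at the colouring of the cells and at the coloured sites
* **`hV_S`** : `V j (clr S b) = Vs .. (n - 1 - j) (chiS b)`, `V j = VL D P (η / 2) fP o n j`;
  **`hV_C`** : from the last output of 831's `hx_S`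
-/

set_option autoImplicit false
set_option linter.all false

noncomputable section

open scoped Classical

namespace Crest.Agent.R143.HVx832

open Set MeasureTheory
open Crest.Agent.R143.B0x346 Crest.Agent.R143.DelGx806 Crest.Agent.R143.DelRx806
  Crest.Agent.R143.JColx54
open Crest.Agent.R143.Frame1x395 Crest.Agent.R143.Frame2x395 Crest.Agent.R143.Frame3x395
  Crest.Agent.R143.Frame4x395 Crest.Agent.R143.Frame8x395 Crest.Agent.R143.Frame9x395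
  Crest.Agent.R143.Frame10x395 Crest.Agent.R143.Frame11x395
open Crest.Agent.R143.Frame5x395 (sd mem_sd th th_spec)
open Crest.Agent.R143.Locx922
open Crest.Agent.R143.Splx117 Crest.Agent.R143.WLocx713
open Crest.Agent.R143.PP0x831 Crest.Agent.R143.FinMx609 Crest.Agent.R143.PWx978
  Crest.Agent.R143.Tplx978
open Crest.Agent.R143.Janx304 (ovr)
open Crest.Agent.R143.TileRx228 Crest.Agent.R143.PthFx765 Crest.Agent.R143.TplIx204
open Crest.Agent.R143.CorHx713 Crest.Agent.R143.Sptx169 Crest.Agent.R143.Sptx832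
  Crest.Agent.R143.SpRx169 Crest.Agent.R143.SpVx169 Crest.Agent.R143.CorVx169
  Crest.Agent.R143.Spt2x832 Crest.Agent.R143.Rstx832 Crest.Agent.R143.SpMx169
open Crest.Agent.R143.RingDx117 (RD)
open Crest.Agent.R143.OutSx358 (Sys)
open Crest.Agent.R143.SysCx166 (Vs Hv Hx)
open Crest.Agent.R143.Coarse2x166 (zs)
open Crest.Agent.R143.FinCx811 Crest.Agent.R143.ColXx829 Crest.Agent.R143.SmallAx304
open Crest.Agent.R143.CorrIx831 (Ft Bk Stk bst tlt)
open Crest.Agent.R143.IndLoc3x279 (clr)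
open Crest.Agent.R143.IndLocx279

/-! ### the field -/

/-- **the field is a function of the face** -/
theorem zs_face {S : Finset ℂ} (hS : GP (S : Set ℂ)) {z : Cs hS → ℂ}
    (hz : ∀ d : D0 S, ¬ OnHull S d.1.1 → z ((rc0 hS).cell d) = d.1.1) {e : D0 S}
    (h1 : ¬ OnHull S e.1.1) (h2 : ¬ OnHull S e.1.2) (h3 : ¬ OnHull S (th S e.1)) :
    zs (rc0 hS) om z e = fP (e.1.2, th S e.1, e.1.1) := by
  have e3 : ((rc0 hS).rho ((rc0 hS).rho e)).1.1 = th S e.1 := th0 hS (th_spec e.2)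
  have a1 : z ((rc0 hS).cell e) = e.1.1 := hz _ h1
  have a2 : z ((rc0 hS).cell ((rc0 hS).rho e)) = e.1.2 := hz _ h2
  have a3 : z ((rc0 hS).cell ((rc0 hS).rho ((rc0 hS).rho e))) = th S e.1 := by
    rw [hz _ (by rw [e3]; exact h3), e3]
  unfold zs fP
  rw [a1, a2, a3]

/-- the positions of the inner sites -/
theorem hz_zc {S : Finset ℂ} (hS : GP (S : Set ℂ)) (d : D0 S) (h : ¬ OnHull S d.1.1) :
    C2SDx395.zc hS id ((rc0 hS).cell d) = d.1.1 := C2SDx395.zc_eq (z := id) h rfl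

section cor

variable {D : DT} {M : ℕ} {W : ℤ → ℤ × ℤ} {η d : ℝ} {X : Set (ℂ × Bool)} {U : Set ℂ} {o : ℤ}
  {n : ℕ}

/-- a face with two sites in an enlarged strip has its three sites in `U` -/
theorem face_U (H : CorH X U M W η d o n) {k : ℕ} {e : D0 (sX X)}
    (h2 : e.1.2 ∈ Bk η W o k) (h3 : th (sX X) e.1 ∈ Bk η W o k) :
    e.1.1 ∈ U ∧ e.1.2 ∈ U ∧ th (sX X) e.1 ∈ U := by
  have e1 := H.e0
  have e2 := H.d0
  have e3 := H.de
  have u2 : e.1.2 ∈ U := H.sub_U (by linarith) (by linarith) (o + k) h2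
  have u3 : th (sX X) e.1 ∈ U := H.sub_U (by linarith) (by linarith) (o + k) h3
  refine ⟨?_, u2, u3⟩
  have h : ((e.1.1, e.1.2, th (sX X) e.1) : ℂ × ℂ × ℂ) ∈ delT (sX X) := th_spec e.2
  have hne : Crest.Agent.R143.Blkx838.DE (sX X) e.1.2 e.1.1 := Or.inr ⟨th (sX X) e.1, h⟩
  have h4 := H.step u2 hne
  have h5 := RegEx523.RR_thick (A := 19 / 2 * η) (B := 103 / 2 * η) H.path h2 h4.le
  exact H.sub_U (by linarith) (by linarith) (o + k) h5

/-- **166's field on the faces of the corridor** -/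
theorem zs_cor (H : CorH X U M W η d o n) {z : Cs H.gp → ℂ}
    (hz : ∀ d : D0 (sX X), ¬ OnHull (sX X) d.1.1 → z ((rc0 H.gp).cell d) = d.1.1) {k : ℕ}
    {e : D0 (sX X)} (h2 : e.1.2 ∈ Bk η W o k) (h3 : th (sX X) e.1 ∈ Bk η W o k) :
    zs (rc0 H.gp) om z e = fP (e.1.2, th (sX X) e.1, e.1.1) := by
  obtain ⟨u1, u2, u3⟩ := face_U H h2 h3
  exact zs_face H.gp hz (H.inn u1) (H.inn u2) (H.inn u3)

/-- the same, sites `S` -/
theorem zs_corS {S : Finset ℂ} (hS : GP (S : Set ℂ)) (eS : sX X = S) (H : CorH X U M W η d o n)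
    {z : Cs hS → ℂ} (hz : ∀ d : D0 S, ¬ OnHull S d.1.1 → z ((rc0 hS).cell d) = d.1.1) (k : ℕ)
    (e : D0 S) (h2 : e.1.2 ∈ Bk η W o k) (h3 : th S e.1 ∈ Bk η W o k) :
    zs (rc0 hS) om z e = fP (e.1.2, th S e.1, e.1.1) := by
  subst eS
  exact zs_cor H hz h2 h3

/-- no hull site in the three tiles of `VT` -/
theorem reg3_inn {S : Finset ℂ} (eS : sX X = S) (H : CorH X U M W η d o n) (s : IsS D η) (a : ℤ) :
    ∀ v ∈ S, v ∈ reg3 D W a → ¬ OnHull S v := by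
  subst eS
  have e1 := H.e0
  intro v _ hv
  obtain ⟨j, -, hj⟩ := mem_iUnion₂.1 hv
  rw [s.A', s.B', s.h] at hj
  exact H.inn (H.sub_U (by linarith) (by linarith) _ hj)

/-- **the charge at the colouring of the cells and at the coloured sites** -/
theorem VL_clr {S : Finset ℂ} {hS : GP (S : Set ℂ)} {h3 : 3 ≤ S.card} {b : Finset ℂ}
    (hin : ∀ a, ∀ v ∈ S, v ∈ reg3 D W a → ¬ OnHull S v) (P : FPath M W) (r : ℝ)
    (f : ℂ × ℂ × ℂ → ℂ) (N l : ℕ) :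
    VL D P r f o N l (Xc hS h3 (chiS hS h3 b)) = VL D P r f o N l (clr S b) := by
  by_cases h : 2 ≤ l ∧ l + 2 < N
  · rw [VL_of D P r h.1 h.2]
    exact GWXx597.loc_chiS (VT_local3 D P r f _) (hin _)
  · rw [VL_not D P r h]

section vs

variable {ι : Type}



/-- the same from the last output of `CorrIx831.hx_S` -/
theorem hV_C {S : Finset ℂ} {hS : GP (S : Set ℂ)} {h3 : 3 ≤ S.card} {b : Finset ℂ}
    (H : CorH (Xc hS h3 (chiS hS h3 b)) U M W η d o n) (s : IsS D η)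
    {pa : ι → (Cs hS → ZMod 2) → D0 S} {na : ι → (Cs hS → ZMod 2) → ℕ}
    {Ev : ι → (Cs hS → ZMod 2) → Prop} {F : ℕ → Set (D0 S)} {z : Cs hS → ℂ}
    (hz : ∀ d : D0 S, ¬ OnHull S d.1.1 → z ((rc0 hS).cell d) = d.1.1)
    (hv : ∀ {f : ℂ × ℂ × ℂ → ℂ} {w : D0 S → ℂ}, (∀ k, k < n → ∀ e : D0 S,
        e.1.2 ∈ Bk η W o k → th S e.1 ∈ Bk η W o k → w e = f (e.1.2, th S e.1, e.1.1)) →
      ∀ l, 2 ≤ l → l + 2 < n → Vs (rc0 hS) pa na Ev w F l (chiS hS h3 b) =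
        VX f n (Bk η W o) (QX (100 * η) W o n) (Stk η W o) (n - 1 - l)
          (Xc hS h3 (chiS hS h3 b))) {j : ℕ} (j2 : 2 ≤ j) (jn : j + 2 < n) :
    VL D H.path (η / 2) fP o n j (clr S b) =
      Vs (rc0 hS) pa na Ev (zs (rc0 hS) om z) F (n - 1 - j) (chiS hS h3 b) := by
  rw [hv (f := fP) (w := zs (rc0 hS) om z) (fun k _ e a1 a2 =>
    zs_corS hS sX_Xc H hz k e a1 a2) (n - 1 - j) (by omega) (by omega),
    show n - 1 - (n - 1 - j) = j by omega]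
  refine Eq.trans ?_ (H.vx_vl s (by omega) (by omega) fP).symm
  exact (VL_clr (hS := hS) (h3 := h3) (fun a => reg3_inn sX_Xc H s a) H.path (η / 2) fP n j).symm

end vs

end cor

end Crest.Agent.R143.HVx832
end
end

-- ▼ part R143/InB_304
section

/-!
# Row 143 (S0194), block RIG, field `small`: the root loop is inside `U` and macroscopic (helper304)

`X : Ex (rc0 hS) σ p N n r W` (166), `μ = σ` on the revealed cells `EE`.
* `state`, `left_off` : every state of the loop of the root gap has its left cell off `W`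
* `InU_ex` : if the circumdiscs of the darts with cell off `W` are inside `U`, then `InU`
* `Big_ex` : two states of the revealed arc with sites at distance `≥ k` in one coordinate: `Big`
* **`small_ex`** : `SmallEx304.small_env` for 166's hypotheses
-/

set_option autoImplicit false

noncomputable section

open scoped Classical

namespace Crest.Agent.R143.InBx304

open MeasureTheory Set Filter Topology
open Crest.ProbabilityR.Voronoi
open Crest.Agent.R143.B0x346 Crest.Agent.R143.SumScx302 Crest.Agent.R143.PP0x831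
  Crest.Agent.R143.ColSumx304 Crest.Agent.R143.MassQx304 Crest.Agent.R143.Mass2x302
  Crest.Agent.R143.Mass3x302 Crest.Agent.R143.Mass4x302 Crest.Agent.R143.Mass5x302
  Crest.Agent.R143.DelGx806 Crest.Agent.R143.DelRx806 Crest.Agent.R143.JColx54
  Crest.Agent.R143.FinCx811 Crest.Agent.R143.Resax778 Crest.Agent.R143.MixFx304
  Crest.Agent.R143.Dblx609 Crest.Agent.R143.Dbl2x609 Crest.Agent.R143.SmallAx304
open Crest.Agent.R143.Mass1x302 hiding ps
open Crest.Agent.R143.Frame1x395 Crest.Agent.R143.Frame2x395 Crest.Agent.R143.Frame3x395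
  Crest.Agent.R143.Frame4x395 Crest.Agent.R143.Frame8x395 Crest.Agent.R143.Frame10x395
open Crest.Agent.R143.Frame5x395 (sd mem_sd th th_spec)
open Crest.Agent.R143.CorMx970 (av)
open Crest.Agent.R143.R5qx166 (Ex EE per)
open Crest.Agent.R143.Splx117 (Lp InK gp)
open scoped ENNReal

section gen

variable {D C : Type} {M : CMap D C} {σ μ : C → ZMod 2} {p : D} {N n r : ℕ} {W : Set C}

variable [Fintype D]

theorem state (X : Ex M σ p N n r W) (hE : ∀ c ∈ EE M (cfg M σ) p n W, μ c = σ c) (m : ℕ) :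
    (stp M (cfg M μ))^[m] (M.rho (gp M (cfg M σ) p r)) = (stp M (cfg M μ))^[r + m] p := by
  obtain ⟨-, T⟩ := X.arc hE
  rw [T.rg, add_comm, Function.iterate_add_apply]

/-- every state of the loop is a state after the root gap -/
theorem state' (X : Ex M σ p N n r W) (hE : ∀ c ∈ EE M (cfg M σ) p n W, μ c = σ c) (u : ℕ) :
    ∃ m, (stp M (cfg M μ))^[m] (M.rho (gp M (cfg M σ) p r)) = (stp M (cfg M μ))^[u] p := by
  obtain ⟨L, T⟩ := X.arc hE
  set N' := per M (cfg M μ) p with hN'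
  have hper : ∀ k, (stp M (cfg M μ))^[k * N'] p = p := by
    intro k
    induction k with
    | zero => simp
    | succ k ih =>
      rw [Nat.succ_mul, add_comm, Function.iterate_add_apply, ih]
      exact L.per
  have h0 : 1 ≤ N' := L.pos
  have hr : r ≤ r * N' := Nat.le_mul_of_pos_right r h0
  refine ⟨u + (r * N' - r), ?_⟩
  rw [state X hE, show r + (u + (r * N' - r)) = u + r * N' by omega, Function.iterate_add_apply,
    hper]

theorem left_off (X : Ex M σ p N n r W) (hE : ∀ c ∈ EE M (cfg M σ) p n W, μ c = σ c) (m : ℕ) :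
    M.cell ((stp M (cfg M μ))^[m] (M.rho (gp M (cfg M σ) p r))) ∉ W := by
  rw [state X hE]
  exact X.rch (X.gsP hE (r + m)).m

end gen

section cm

variable {S : Finset ℂ} (hS : GP (S : Set ℂ)) {P₀ U : Set ℂ} {σ μ : Cs hS → ZMod 2} {p : D0 S}
  {N n r : ℕ} {W : Set (Cs hS)}

/-- a dart whose circumdisc is in `U` -/
theorem fc_dart (hPS : ∀ z ∈ U, z ∈ P₀ ↔ z ∈ (S : Set ℂ)) (e0 d : D0 S)
    (hd : cdisc (d.1.1, d.1.2, th S d.1) ⊆ U) :
    Fc P₀ U d.1.1 d.1.2 (th S d.1) ∧ d = dl e0 d.1.1 d.1.2 := by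
  have h1 : (d.1.1, d.1.2, th S d.1) ∈ delT S := th_spec d.2
  refine ⟨fc_congr (P := (S : Set ℂ)) (fun z hz => (hPS z hz).symm) ⟨mem_delT.1 h1, hd⟩, ?_⟩
  rw [dl_eq (e0 := e0) (show (d.1.1, d.1.2) ∈ sd S from d.2)]

theorem InU_ex (hPS : ∀ z ∈ U, z ∈ P₀ ↔ z ∈ (S : Set ℂ)) (e0 : D0 S)
    (X : Ex (rc0 hS) σ p N n r W)
    (hE : ∀ c ∈ EE (rc0 hS) (cfg (rc0 hS) σ) p n W, μ c = σ c)
    (hd : ∀ d : D0 S, (rc0 hS).cell d ∉ W → cdisc (d.1.1, d.1.2, th S d.1) ⊆ U) :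
    InU P₀ U (cm0 hS) (dl e0) (cfg (rc0 hS) μ) (gp (rc0 hS) (cfg (rc0 hS) σ) p r) := by
  intro m
  have h1 := left_off X hE m
  obtain ⟨h2, h3⟩ := fc_dart hPS e0 _ (hd _ h1)
  exact ⟨_, _, _, h2, h3⟩

theorem Big_ex {k : ℝ} (hPS : ∀ z ∈ U, z ∈ P₀ ↔ z ∈ (S : Set ℂ)) (e0 : D0 S)
    (X : Ex (rc0 hS) σ p N n r W)
    (hE : ∀ c ∈ EE (rc0 hS) (cfg (rc0 hS) σ) p n W, μ c = σ c)
    (hd : ∀ d : D0 S, (rc0 hS).cell d ∉ W → cdisc (d.1.1, d.1.2, th S d.1) ⊆ U)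
    {u v : ℕ} (hu : u ≤ n) (hv : v ≤ n)
    (huv : k ≤ |(((stp (rc0 hS) (cfg (rc0 hS) σ))^[u] p).1.1 -
        ((stp (rc0 hS) (cfg (rc0 hS) σ))^[v] p).1.1).re| ∨
      k ≤ |(((stp (rc0 hS) (cfg (rc0 hS) σ))^[u] p).1.1 -
        ((stp (rc0 hS) (cfg (rc0 hS) σ))^[v] p).1.1).im|) :
    Big P₀ U (cm0 hS) (dl e0) (cfg (rc0 hS) μ) k (gp (rc0 hS) (cfg (rc0 hS) σ) p r) := by
  intro z
  have key : ∀ w, w ≤ n → ∃ m, (stp (cm0 hS) (cfg (rc0 hS) μ))^[m]
      ((cm0 hS).rho (gp (rc0 hS) (cfg (rc0 hS) σ) p r)) =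
        (stp (rc0 hS) (cfg (rc0 hS) σ))^[w] p ∧
      Fc P₀ U ((stp (rc0 hS) (cfg (rc0 hS) σ))^[w] p).1.1
        ((stp (rc0 hS) (cfg (rc0 hS) σ))^[w] p).1.2
        (th S ((stp (rc0 hS) (cfg (rc0 hS) σ))^[w] p).1) ∧
      (stp (rc0 hS) (cfg (rc0 hS) σ))^[w] p = dl e0 ((stp (rc0 hS) (cfg (rc0 hS) σ))^[w] p).1.1
        ((stp (rc0 hS) (cfg (rc0 hS) σ))^[w] p).1.2 := by
    intro w hw
    obtain ⟨m, hm⟩ := state' X hE w
    have h1 : (stp (rc0 hS) (cfg (rc0 hS) μ))^[w] p = (stp (rc0 hS) (cfg (rc0 hS) σ))^[w] p :=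
      X.walk hE hw
    refine ⟨m, hm.trans h1, ?_⟩
    have h2 : (rc0 hS).cell ((stp (rc0 hS) (cfg (rc0 hS) σ))^[w] p) ∉ W := X.dis w hw
    exact fc_dart hPS e0 _ (hd _ h2)
  obtain ⟨m1, e1, f1, g1⟩ := key u hu
  obtain ⟨m2, e2, f2, g2⟩ := key v hv
  set a := (stp (rc0 hS) (cfg (rc0 hS) σ))^[u] p
  set b := (stp (rc0 hS) (cfg (rc0 hS) σ))^[v] p
  by_cases h1 : cdisc (a.1.1, a.1.2, th S a.1) ⊆ sq z k
  · refine ⟨m2, _, _, _, f2, e2.trans g2, fun h2 => ?_⟩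
    have ma : a.1.1 ∈ sq z k := by
      obtain ⟨⟨-, -, -, -, o, q1, q2, -⟩, -⟩ := f1
      exact h1 ⟨o, q1, q2, le_rfl⟩
    have mb : b.1.1 ∈ sq z k := by
      obtain ⟨⟨-, -, -, -, o, q1, q2, -⟩, -⟩ := f2
      exact h2 ⟨o, q1, q2, le_rfl⟩
    obtain ⟨a1, a2, a3, a4⟩ := ma
    obtain ⟨b1, b2, b3, b4⟩ := mb
    rcases huv with h | h
    · rw [Complex.sub_re] at h
      have : |a.1.1.re - b.1.1.re| < k := abs_lt.2 ⟨by linarith, by linarith⟩
      linarith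
    · rw [Complex.sub_im] at h
      have : |a.1.1.im - b.1.1.im| < k := abs_lt.2 ⟨by linarith, by linarith⟩
      linarith
  · exact ⟨m1, _, _, _, f1, e1.trans g1, h1⟩

/-- the root gap is a gap of the mixed colouring -/
theorem Gp_ex (X : Ex (rc0 hS) σ p N n r W)
    (hE : ∀ c ∈ EE (rc0 hS) (cfg (rc0 hS) σ) p n W, μ c = σ c) :
    Gp (cm0 hS) (cfg (rc0 hS) μ) (gp (rc0 hS) (cfg (rc0 hS) σ) p r) :=
  (X.arc hE).2.gp

end cm


end Crest.Agent.R143.InBx304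
end
end

-- ▼ part R143/ExtU_387
section

/-!
# Row 143 (S0194), RIG, field `small`: the sites off the exterior lie near the polygon (helper387)

`S` dense in the disc (`Dns S c L d`), `F` = coarse squares of the polygon (478's `cells U`), coarse
side `m h`, origin `o`.  `Nr o H F r` = points at sup distance `≤ r` from the squares of `F`
(complement of 372's `FaS`), `NrS` = at sup distance `< r` (complement of `Fa`).
* `ext_pth` : a path of sites with cells off `Z` to a hull site ==> the cell is in `Ext`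
* `ext_far` : `Z ⊆ RC hS B`, `B ⊆ NrS (k h - 2 d)`, `2 k + 1 ≤ m` ==> the cell of every site at sup
  distance `> k h` is in `Ext (rc0 hS) (Hc hS) Z`; `near_of_off`
* **`off_near`** : a dart whose cell is off `Ww` (358's white giant) starts in `Nr (k h)`
* **`cdisc_near`**, **`off_disc`** : and its closed circumdisc is inside `Nr (k h + 2 d)`
  (304's hypothesis `hd` of `InU_ex`, `Big_ex`, `small_ex`)
* `off_disc_brick` (bricks), `off_disc_strd` (358's blocking set `zc` of 323's strand `Strd`, zones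
  inside `RC hS B`), `Nr_bdd`, `nr_inner` : `Nr` is bounded, no hull sites in it
-/

set_option autoImplicit false
set_option linter.unusedSectionVars false

noncomputable section

open scoped Classical

namespace Crest.Agent.R143.ExtUx387

open Crest.ProbabilityR.Voronoi
open Crest.Agent.R143.B0x346 Crest.Agent.R143.DelGx806 Crest.Agent.R143.DelRx806
  Crest.Agent.R143.DomAx722 Crest.Agent.R143.JColx54 Crest.Agent.R143.RE0x723
  Crest.Agent.R143.Locx922 Crest.Agent.R143.Mass1x302 Crest.Agent.R143.Mass5x302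
  Crest.Agent.R143.FinCx811 Crest.Agent.R143.Xcx372
open Crest.Agent.R143.Frame1x395 Crest.Agent.R143.Frame3x395
  Crest.Agent.R143.Frame4x395 Crest.Agent.R143.Frame8x395 Crest.Agent.R143.Frame9x395
  Crest.Agent.R143.Frame10x395
open Crest.Agent.R143.Frame5x395 (sd mem_sd th th_spec)
open Crest.Agent.R143.Extx358 (Ad Ext Sep Zc Bd)
open Crest.Agent.R143.RcTx422 (Hc cs_Hc RC step_rc)
open Crest.Agent.R158.Sp896 (V Con)

variable {S : Finset ℂ} {hS : GP (S : Set ℂ)}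

/-! ### paths of sites -/

/-- a path of sites whose cells are off `Z`, ending at a hull site -/
theorem ext_pth (h3 : 3 ≤ S.card) {Z : Set (Cs hS)} {W : Set ℂ}
    (hW : ∀ x (hx : x ∈ S), x ∈ W → cs hS h3 ⟨x, hx⟩ ∉ Z) {s a : ℂ}
    (h : RE0x723.Pth S W s a) (hs : s ∈ S) (ha : OnHull S a) :
    Ext (rc0 hS) (Hc hS) Z (cs hS h3 ⟨s, hs⟩) := by
  have hp := h.symm
  have haS : a ∈ S := RcTx422.hull_mem ha
  refine RE0x723.Pth.ind (P := fun x => ∀ hx : x ∈ S,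
    Ext (rc0 hS) (Hc hS) Z (cs hS h3 ⟨x, hx⟩)) hp ?_ ?_ hs
  · intro hx
    exact Ext.hull (cs_Hc h3 ha) (hW a hx hp.1)
  · intro x y hxV hyV hxy ih hy
    have hx := (Adj.mem hxy).1
    rcases step_rc (hS := hS) h3 (u := ⟨x, hx⟩) (w := ⟨y, hy⟩) hxy with e | e
    · rw [← e]; exact ih hx
    · exact Ext.step (ih hx) e (hW y hy hyV)

/-! ### neighbourhoods of the polygon -/

/-- points at sup distance `≤ r` from the squares of `F` -/
def Nr (o : ℂ) (H : ℝ) (F : Set V) (r : ℝ) : Set ℂ :=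
  {z | ∃ q ∈ F, o.re + H * q.1 - r ≤ z.re ∧ z.re ≤ o.re + H * (q.1 + 1) + r ∧
    o.im + H * q.2 - r ≤ z.im ∧ z.im ≤ o.im + H * (q.2 + 1) + r}

/-- points at sup distance `< r` from the squares of `F` -/
def NrS (o : ℂ) (H : ℝ) (F : Set V) (r : ℝ) : Set ℂ :=
  {z | ∃ q ∈ F, o.re + H * q.1 - r < z.re ∧ z.re < o.re + H * (q.1 + 1) + r ∧
    o.im + H * q.2 - r < z.im ∧ z.im < o.im + H * (q.2 + 1) + r}

variable {o : ℂ} {H r e : ℝ} {F : Set V}

theorem mem_FaS {z : ℂ} : z ∈ FaS o H F r ↔ z ∉ Nr o H F r := by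
  unfold FaS Nr
  simp only [Set.mem_ofPred_eq, not_exists, not_and]

theorem mem_Fa {z : ℂ} : z ∈ Fa o H F r ↔ z ∉ NrS o H F r := by
  unfold Fa NrS
  simp only [Set.mem_ofPred_eq, not_exists, not_and]




/-- a point near a near point -/
theorem Nr_near {x z : ℂ} (hz : z ∈ Nr o H F r) (hx : ‖x - z‖ ≤ e) : x ∈ Nr o H F (r + e) := by
  obtain ⟨q, hq, h1, h2, h3, h4⟩ := hz
  have g1 := (Complex.abs_re_le_norm (x - z)).trans hx
  have g2 := (Complex.abs_im_le_norm (x - z)).trans hx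
  rw [Complex.sub_re, abs_le] at g1
  rw [Complex.sub_im, abs_le] at g2
  exact ⟨q, hq, by linarith [g1.1], by linarith [g1.2], by linarith [g2.1], by linarith [g2.2]⟩

/-! ### far sites are in `Ext` -/

section far

variable {c : ℂ} {L d h : ℝ} {m k : ℤ} {B : Set ℂ} {Z : Set (Cs hS)}

/-- **far sites are in `Ext`** -/
theorem ext_far (hD : Dns S c L d) (h3 : 3 ≤ S.card) (hh : 0 < h) (hk : 0 ≤ k)
    (hm : 2 * k + 1 ≤ m) (hF : ∀ q ∉ F, ∀ q' ∉ F, Con Fᶜ q q')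
    (hin : ∀ z ∈ Nr o (m * h) F (k * h), ‖z - c‖ < L / 2)
    (hB : B ⊆ NrS o (m * h) F (k * h - 2 * d)) (hZ : Z ⊆ RC hS B) {s : ℂ} (hs : s ∈ S)
    (hf : s ∉ Nr o (m * h) F (k * h)) : Ext (rc0 hS) (Hc hS) Z (cs hS h3 ⟨s, hs⟩) := by
  obtain ⟨a, b, hab⟩ := exists_hull hS h3
  have hin' : ∀ z, L / 2 ≤ ‖z - c‖ → z ∈ FaS o (m * h) F (k * h) := fun z hz =>
    mem_FaS.2 fun h => absurd (hin z h) (not_lt.2 hz)
  refine ext_pth h3 ?_ (xc hD hh hk hm hF hin' hs (mem_FaS.2 hf) hab).2 hs ⟨a, hab⟩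
  rintro x hx ⟨-, hxF⟩ hxZ
  obtain ⟨w, hwS, hwB, hw, e⟩ := hZ hxZ
  have e' : (Quot.mk (hullE S) x : Quot (hullE S)) = Quot.mk _ w := e
  have hxw : x = w := quot_inner hS hw e'.symm
  exact mem_Fa.1 hxF (hxw ▸ hB hwB)

/-- sites whose cell is not in `Ext` are near -/
theorem near_of_off (hD : Dns S c L d) (h3 : 3 ≤ S.card) (hh : 0 < h) (hk : 0 ≤ k)
    (hm : 2 * k + 1 ≤ m) (hF : ∀ q ∉ F, ∀ q' ∉ F, Con Fᶜ q q')
    (hin : ∀ z ∈ Nr o (m * h) F (k * h), ‖z - c‖ < L / 2)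
    (hB : B ⊆ NrS o (m * h) F (k * h - 2 * d)) (hZ : Z ⊆ RC hS B) {s : ℂ} (hs : s ∈ S)
    (hf : ¬ Ext (rc0 hS) (Hc hS) Z (cs hS h3 ⟨s, hs⟩)) : s ∈ Nr o (m * h) F (k * h) := by
  by_contra hc
  exact hf (ext_far hD h3 hh hk hm hF hin hB hZ hs hc)

/-- **the closed circumdisc of a triangle at a near site** -/
theorem cdisc_near (hD : Dns S c L d) {a b x : ℂ} (ht : (a, b, x) ∈ delT S)
    (ha : a ∈ Nr o H F r) (hac : ‖a - c‖ + 2 * d ≤ L) :
    cdisc (a, b, x) ⊆ Nr o H F (r + 2 * d) := by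
  have ht' := mem_delT.1 ht
  have hH : Hol (S : Set ℂ) {a} d := CorEhx829.hol_dns hD (by
    rintro v rfl
    linarith)
  obtain ⟨q, h1, h2, -, -, h5, -⟩ := del_small hD.dpos hH (Set.mem_singleton a) (inD_self a b x) ht'
  rintro z ⟨o', g1, g2, g3⟩
  have hpos := ht'.2.2.2.1
  have e1 := (FinMx609.cen3_iff hpos).1 ⟨g1, g2⟩
  have e2 := (FinMx609.cen3_iff hpos).1 ⟨h1, h2⟩
  have e3 : o' = q := e1.trans e2.symm
  subst e3
  refine Nr_near ha ?_
  have h6 : ‖z - a‖ ≤ ‖z - o'‖ + ‖a - o'‖ := by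
    have : z - a = (z - o') - (a - o') := by ring
    rw [this]
    exact norm_sub_le _ _
  have g3' : ‖z - o'‖ ≤ ‖a - o'‖ := g3
  linarith

/-- the cell of a dart is the cell of its first site -/
theorem cell_eq (h3 : 3 ≤ S.card) (d0 : D0 S) :
    ∃ ha : d0.1.1 ∈ S, (rc0 hS).cell d0 = cs hS h3 ⟨d0.1.1, ha⟩ :=
  ⟨(mem_delT.1 (th_spec d0.2)).1, rfl⟩

variable {W : Set (Cs hS)}

/-- **a dart with its cell off `W` starts near the polygon** -/
theorem off_near (hD : Dns S c L d) (h3 : 3 ≤ S.card) (hh : 0 < h) (hk : 0 ≤ k)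
    (hm : 2 * k + 1 ≤ m) (hF : ∀ q ∉ F, ∀ q' ∉ F, Con Fᶜ q q')
    (hin : ∀ z ∈ Nr o (m * h) F (k * h), ‖z - c‖ < L / 2)
    (hB : B ⊆ NrS o (m * h) F (k * h - 2 * d)) (hZ : Z ⊆ RC hS B)
    (hW : ∀ c, Ext (rc0 hS) (Hc hS) Z c → c ∈ W) (d0 : D0 S) (hd : (rc0 hS).cell d0 ∉ W) :
    d0.1.1 ∈ Nr o (m * h) F (k * h) := by
  obtain ⟨ha, e⟩ := cell_eq (hS := hS) h3 d0
  exact near_of_off hD h3 hh hk hm hF hin hB hZ ha fun h' => hd (hW _ (e ▸ h'))

/-- **304's `hd`**: the closed circumdisc of a dart with its cell off `W` is near the polygon -/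
theorem off_disc (hD : Dns S c L d) (h3 : 3 ≤ S.card) (hh : 0 < h) (hk : 0 ≤ k)
    (hm : 2 * k + 1 ≤ m) (hF : ∀ q ∉ F, ∀ q' ∉ F, Con Fᶜ q q')
    (hin : ∀ z ∈ Nr o (m * h) F (k * h), ‖z - c‖ < L / 2)
    (hB : B ⊆ NrS o (m * h) F (k * h - 2 * d)) (hZ : Z ⊆ RC hS B)
    (hW : ∀ c, Ext (rc0 hS) (Hc hS) Z c → c ∈ W) {U : Set ℂ}
    (hU : Nr o (m * h) F (k * h + 2 * d) ⊆ U) (d0 : D0 S) (hd : (rc0 hS).cell d0 ∉ W) :
    cdisc (d0.1.1, d0.1.2, th S d0.1) ⊆ U := by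
  have h1 := off_near hD h3 hh hk hm hF hin hB hZ hW d0 hd
  have h2 := hin _ h1
  have h4 := hD.dL
  have h5 := hD.dpos
  exact (cdisc_near hD (th_spec d0.2) h1 (by linarith)).trans hU



end far

/-! ### bricks, strands -/

section strd

variable {c : ℂ} {L d h : ℝ} {m k : ℤ} {B : Set ℂ}

/-- complement of the cells of a set of bricks with connected complement -/
theorem conF {U : Set Brkx478.Bk} (hU : Brkx478.Conn Uᶜ) :
    ∀ q ∉ Brkx478.cells U, ∀ q' ∉ Brkx478.cells U, Con (Brkx478.cells U)ᶜ q q' := by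
  intro q hq q' hq'
  rw [← Brkx478.cells_compl]
  exact Brkx478.con_cells hU q hq q' hq'

variable {R : Set (Cs hS)} {Zz : Uniqx323.Zn (rc0 hS)} {σ : Cs hS → ZMod 2} {q : D0 S} {n : ℕ}

/-- the cells of `Ext` of the blocking set of the arc are in the white giant -/
theorem ext_Ww {cc : Cs hS} (h' : Ext (rc0 hS) (Hc hS) (OutSx358.zc (rc0 hS) R q n σ) cc) :
    cc ∈ Extx358.Ww (rc0 hS) (Hc hS) R q n σ := Or.inl (Or.inl h')

/-- **304's `hd` for 323's strands**: `W` = 358's white giant, zones inside `RC hS B` -/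
theorem off_disc_strd (hD : Dns S c L d) (hh : 0 < h) (hk : 0 ≤ k) (hm : 2 * k + 1 ≤ m)
    {U : Set Brkx478.Bk} (hU : Brkx478.Conn Uᶜ)
    (hin : ∀ z ∈ Nr o (m * h) (Brkx478.cells U) (k * h), ‖z - c‖ < L / 2)
    (hB : B ⊆ NrS o (m * h) (Brkx478.cells U) (k * h - 2 * d)) (hZR : Zz.R ⊆ RC hS B)
    (hR : R ⊆ RC hS B) (hst : Uniqx323.Strd (rc0 hS) Zz 1 σ q n) {U' : Set ℂ}
    (hU' : Nr o (m * h) (Brkx478.cells U) (k * h + 2 * d) ⊆ U') (d0 : D0 S)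
    (hd : (rc0 hS).cell d0 ∉ Extx358.Ww (rc0 hS) (Hc hS) R q n σ) :
    cdisc (d0.1.1, d0.1.2, th S d0.1) ⊆ U' :=
  off_disc hD hD.card hh hk hm (conF hU) hin hB
    ((SysAx168.zc_sub hst).trans (Set.union_subset hZR hR)) (fun _ h' => ext_Ww h') hU' d0 hd



end strd

end Crest.Agent.R143.ExtUx387
end
end

-- ▼ part R143/BigU_749
section

/-!
# Row 143 (S0194), block RIG, field `small`: the out strand is macroscopic (helper749)

The two far arc states of 304's `InBx304.small_ex` : the first state (next to the zone `Z.E`, tile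
`o + n - 1`) and the last state (next to the zone `Z.W`, tile `o`).

* `first_near`, `last_near` : the left sites of the first and of the last state are neighbours of a
  site of `Z.E`, `Z.W`
* **`far_arc`** : zones inside two sets of distance `≥ g`, short edges there ⟹ two arc states with
  sites at distance `≥ k` in `re` or `im`, `2 k + 4 d ≤ g`
* **`far_corH`** : the same on `CorH`, for any zones inside the fattened tiles `o`, `o + n - 1`
  (`k = 18 η`)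
-/

set_option autoImplicit false
set_option linter.unusedSectionVars false

noncomputable section

open scoped Classical

namespace Crest.Agent.R143.BigUx749

open Crest.Agent.R143.B0x346 Crest.Agent.R143.DelGx806 Crest.Agent.R143.DelRx806
open Crest.Agent.R143.Frame1x395 Crest.Agent.R143.Frame2x395 Crest.Agent.R143.Frame3x395
  Crest.Agent.R143.Frame4x395 Crest.Agent.R143.Frame8x395 Crest.Agent.R143.Frame9x395
  Crest.Agent.R143.Frame10x395 Crest.Agent.R143.Frame11x395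
open Crest.Agent.R143.Frame5x395 (sd mem_sd th th_spec)
open Crest.Agent.R143.NonXx592 (P Rc)
open Crest.Agent.R143.FinCx811 (Cs rc0 cs rcol cell_mem cs_inj cs_surj)
open Crest.Agent.R143.WLocx713 (HullC nx lift xc it_eq sX)
open Crest.Agent.R143.Blkx838 (DE)
open Crest.Agent.R143.Sepx686 (LS RS dart_mem)
open Crest.Agent.R143.RcTx422 Crest.Agent.R143.Uniqx323
open Crest.Agent.R143.TileRx228 Crest.Agent.R143.PP0x831
open Crest.Agent.R143.CorHx713 (CorH)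

variable {S : Finset ℂ} {hS : GP (S : Set ℂ)} {σ : Cs hS → ZMod 2} {Z : Zn (rc0 hS)} {b : ZMod 2}
  {q : D0 S} {n : ℕ} {F G : Set ℂ}

/-- the cells of the sites of `F` (903's `clR`) -/
def ClR (hS : GP (S : Set ℂ)) (F : Set ℂ) : Set (Cs hS) :=
  {c | ∃ s ∈ S, s ∈ F ∧ c.1 = Quot.mk (hullE S) s}

/-- the site of a cell of `ClR` is in the set, if the sites of the set are inner -/
theorem site_of (hin : ∀ s ∈ S, s ∈ F → ¬ OnHull S s) {c : Cs hS} {v : ℂ} (hc : c ∈ ClR hS F)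
    (e : c.1 = Quot.mk (hullE S) v) : v ∈ F := by
  obtain ⟨s, hs, hF, e'⟩ := hc
  rw [e] at e'
  have : v = s := quot_inner hS (hin s hs hF) e'.symm
  exact this ▸ hF

/-- **the first state is next to `Z.E`** -/
theorem first_near (h : Strd (rc0 hS) Z b σ q n) (hE : Z.E ⊆ ClR hS F)
    (hin : ∀ s ∈ S, s ∈ F → ¬ OnHull S s) : ∃ f ∈ F, DE S f q.1.1 := by
  have hq : cfg (rc0 hS) σ q = 1 := h.occ
  have hl : (q.1.2, q.1.1) ∈ sd S := (cfg_isC (M := rc0 hS) σ).lv hq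
  have e1 : ((rc0 hS).cell ((rc0 hS).rho ((rc0 hS).rho ((rc0 hS).iota q)))).1 =
      Quot.mk (hullE S) (th S (q.1.2, q.1.1)) := by
    rw [cell_rho2_val]
    show Quot.mk (hullE S) (th S (io0 q).1) = _
    rw [io0_live hl]
  have h1 : th S (q.1.2, q.1.1) ∈ F := site_of hin (hE h.ent) e1
  have h2 : (q.1.2, q.1.1, th S (q.1.2, q.1.1)) ∈ delT S := th_spec hl
  exact ⟨_, h1, Or.inr ⟨_, JColx54.delT_rot hS h2⟩⟩

/-- **the last state is next to `Z.W`** -/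
theorem last_near (h : Strd (rc0 hS) Z b σ q n) (hW : Z.W ⊆ ClR hS G)
    (hin : ∀ s ∈ S, s ∈ G → ¬ OnHull S s) :
    ∃ g ∈ G, DE S g (P (rc0 hS) (cfg (rc0 hS) σ) q n).1.1 := by
  have h1 : th S (P (rc0 hS) (cfg (rc0 hS) σ) q n).1 ∈ G :=
    site_of hin (hW h.ext) (cell_rho2_val _)
  have h2 := th_spec (P (rc0 hS) (cfg (rc0 hS) σ) q n).2
  exact ⟨_, h1, Or.inl ⟨_, JColx54.delT_rot hS (JColx54.delT_rot hS h2)⟩⟩

/-- **the two far states of the arc** -/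
theorem far_arc {g d k : ℝ} (h : Strd (rc0 hS) Z b σ q n) (hE : Z.E ⊆ ClR hS F)
    (hW : Z.W ⊆ ClR hS G) (hF : ∀ s ∈ S, s ∈ F → ¬ OnHull S s)
    (hG : ∀ s ∈ S, s ∈ G → ¬ OnHull S s)
    (hde : ∀ u v, u ∈ F ∨ u ∈ G → DE S u v → ‖v - u‖ < 2 * d)
    (hfg : ∀ f ∈ F, ∀ g' ∈ G, g ≤ ‖f - g'‖) (hk : 2 * k + 4 * d ≤ g) :
    ∃ u v, u ≤ n ∧ v ≤ n ∧
      (k ≤ |(((stp (rc0 hS) (cfg (rc0 hS) σ))^[u] q).1.1 -
          ((stp (rc0 hS) (cfg (rc0 hS) σ))^[v] q).1.1).re| ∨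
        k ≤ |(((stp (rc0 hS) (cfg (rc0 hS) σ))^[u] q).1.1 -
          ((stp (rc0 hS) (cfg (rc0 hS) σ))^[v] q).1.1).im|) := by
  obtain ⟨f, hf, h1⟩ := first_near h hE hF
  obtain ⟨f', hf', h2⟩ := last_near h hW hG
  refine ⟨0, n, Nat.zero_le _, le_rfl, ?_⟩
  show k ≤ |(q.1.1 - (P (rc0 hS) (cfg (rc0 hS) σ) q n).1.1).re| ∨
    k ≤ |(q.1.1 - (P (rc0 hS) (cfg (rc0 hS) σ) q n).1.1).im|
  set a := q.1.1
  set c := (P (rc0 hS) (cfg (rc0 hS) σ) q n).1.1
  have h3 := hde _ _ (Or.inl hf) h1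
  have h4 := hde _ _ (Or.inr hf') h2
  have h5 := hfg f hf f' hf'
  have h6 : ‖f - f'‖ ≤ ‖a - f‖ + ‖a - c‖ + ‖c - f'‖ := by
    have e : f - f' = -(a - f) + (a - c) + (c - f') := by ring
    calc ‖f - f'‖ = ‖-(a - f) + (a - c) + (c - f')‖ := by rw [← e]
      _ ≤ ‖-(a - f) + (a - c)‖ + ‖c - f'‖ := norm_add_le _ _
      _ ≤ ‖a - f‖ + ‖a - c‖ + ‖c - f'‖ := by
        have := norm_add_le (-(a - f)) (a - c)
        rw [norm_neg] at this
        linarith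
  have h7 := Complex.norm_le_abs_re_add_abs_im (a - c)
  by_contra hcon
  push Not at hcon
  obtain ⟨h8, h9⟩ := hcon
  linarith

/-! ### on the corridor hypothesis -/

section cor

variable {X : Set (ℂ × Bool)} {U : Set ℂ} {M : ℕ} {W : ℤ → ℤ × ℤ} {η d : ℝ} {o : ℤ} {N : ℕ}

/-- the tiles `o + N - 1` and `o` are far -/
theorem tiles_far (H : CorH X U M W η d o N) (h3 : 3 ≤ N) {s t : ℂ}
    (hs : s ∈ RR (10 * η) (52 * η) (100 * η) W (o + N - 1))
    (ht : t ∈ RR (10 * η) (52 * η) (100 * η) W o) : 38 * η ≤ ‖s - t‖ := by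
  have h1 := H.e0
  have h2 := H.nM
  have key : ∀ j : ℤ, j ≠ 0 → -(M : ℤ) < j → j < M → ¬ (M : ℤ) ∣ j := by
    rintro _ h0 h1 h2 ⟨k, rfl⟩
    have hM : (0 : ℤ) < M := by omega
    have hk1 : k < 1 := by
      by_contra hc
      push Not at hc
      nlinarith
    have hk2 : -1 < k := by
      by_contra hc
      push Not at hc
      nlinarith
    have : k = 0 := by omega
    rw [this, mul_zero] at h0
    exact h0 rfl
  refine gap H.path (by linarith) (by linarith) (by linarith) (by linarith) ?_ ?_ ?_ hs ht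
  · exact key _ (by omega) (by omega) (by omega)
  · exact key _ (by omega) (by omega) (by omega)
  · exact key _ (by omega) (by omega) (by omega)

/-- **the two far states on the corridor** (`k ≤ 18 η`): zones inside the fattened end tiles -/
theorem far_corH (H : CorH X U M W η d o N) (h3 : 3 ≤ N) {σ : Cs H.gp → ZMod 2}
    {Z : Zn (rc0 H.gp)} {b : ZMod 2} {q : D0 (sX X)} {n : ℕ} (h : Strd (rc0 H.gp) Z b σ q n)
    (hE : Z.E ⊆ ClR H.gp (RR (10 * η) (52 * η) (100 * η) W (o + N - 1)))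
    (hW : Z.W ⊆ ClR H.gp (RR (10 * η) (52 * η) (100 * η) W o)) {k : ℝ} (hk : k ≤ 18 * η) :
    ∃ u v, u ≤ n ∧ v ≤ n ∧
      (k ≤ |(((stp (rc0 H.gp) (cfg (rc0 H.gp) σ))^[u] q).1.1 -
          ((stp (rc0 H.gp) (cfg (rc0 H.gp) σ))^[v] q).1.1).re| ∨
        k ≤ |(((stp (rc0 H.gp) (cfg (rc0 H.gp) σ))^[u] q).1.1 -
          ((stp (rc0 H.gp) (cfg (rc0 H.gp) σ))^[v] q).1.1).im|) := by
  have h1 := H.e0
  have h4 := H.d0
  have h5 := H.de
  have hU : ∀ a : ℤ, RR (10 * η) (52 * η) (100 * η) W a ⊆ U := fun a =>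
    H.sub_U (by linarith) (by linarith) a
  refine far_arc h hE hW (fun s _ hs => H.inn (hU _ hs)) (fun s _ hs => H.inn (hU _ hs))
    (g := 38 * η) (d := d) (fun u v hu huv => H.step (hu.elim (fun h => hU _ h) fun h => hU _ h)
      huv) (fun f hf g' hg' => tiles_far H h3 hf hg') (by linarith)

end cor

end Crest.Agent.R143.BigUx749
end
end

-- ▼ part R143/SmI_304
section

/-!
# Row 143 (S0194), CORE-C, RIG: field `small` of 654's `Quen` for 358's `Sys` (helper304)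

* **`small_sys`** : `SmE` (one environment) ⟹ the hypothesis `small` of 166's `quen_of`, if on
  `g > 0` there is a strand whose complement of the white giant is in `U` and which has two far
  states
* `far_S` : 749's far states on a fixed environment
* **`small_cor`** : the same for 168's family of all strands under `CorH`
-/

set_option autoImplicit false
set_option linter.unusedSectionVars false

noncomputable section

open scoped Classical

namespace Crest.Agent.R143.SmIx304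

open MeasureTheory Set Filter Topology
open Crest.ProbabilityR.Voronoi
open Crest.Agent.R143.B0x346 Crest.Agent.R143.DelGx806 Crest.Agent.R143.DelRx806
  Crest.Agent.R143.FinCx811 Crest.Agent.R143.Resax778 Crest.Agent.R143.SmallAx304
  Crest.Agent.R143.ColXx829 Crest.Agent.R143.QuenSx654 Crest.Agent.R143.SysDx166
  Crest.Agent.R143.SysCx166 Crest.Agent.R143.InBx304
open Crest.Agent.R143.Frame1x395 Crest.Agent.R143.Frame2x395 Crest.Agent.R143.Frame3x395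
  Crest.Agent.R143.Frame4x395 Crest.Agent.R143.Frame8x395 Crest.Agent.R143.Frame9x395
  Crest.Agent.R143.Frame10x395
open Crest.Agent.R143.Frame5x395 (sd mem_sd th th_spec)
open Crest.Agent.R143.Coarse2x166 (zs)
open Crest.Agent.R143.C2SDx395 (zc)
open Crest.Agent.R143.Mass1x302 (cdisc)
open Crest.Agent.R143.OutSx358 (Sys OO wg rt gr)
open Crest.Agent.R143.R5qx166 (Ex EE per)
open Crest.Agent.R143.Splx117 (gp)
open Crest.Agent.R143.CorMx970 (av)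
open Crest.Agent.R143.IndLoc3x279 (clr)

variable {S : Finset ℂ} {hS : GP (S : Set ℂ)}

/-- **field `small`** from 358's `Sys` -/
theorem small_sys {ε : ℝ} {ω : Sample} {U : Set ℂ} {k e : ℝ} (h : SmE ε ω U k e)
    (h3 : 3 ≤ S.card) (hU : ∀ z ∈ U, z ∈ points ε ω ↔ z ∈ (S : Set ℂ))
    (hin : ∀ v ∈ S, v ∈ U → ¬ OnHull S v) {H R : Set (Cs hS)} {Q : Set (D0 S)} {ι : Type}
    {pa : ι → (Cs hS → ZMod 2) → D0 S} {na : ι → (Cs hS → ZMod 2) → ℕ}
    {Ev : ι → (Cs hS → ZMod 2) → Prop} (Y : Sys (rc0 hS) H R Q pa na Ev) (d₀ : D0 S)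
    {g : Set (ℂ × Bool) → ℝ} (g0 : ∀ X, 0 ≤ g X) (g1 : ∀ X, g X ≤ 1)
    (hg : ∀ β ∈ S.powerset, g (clr S β) = g (Xc hS h3 (chiS hS h3 β)))
    (hx : ∀ σ, 0 < g (Xc hS h3 σ) → ∃ i, Ev i σ ∧
      (∀ d : D0 S, (rc0 hS).cell d ∉ wg (rc0 hS) H R pa na i σ →
        cdisc (d.1.1, d.1.2, th S d.1) ⊆ U) ∧
      ∃ u v, u ≤ na i σ ∧ v ≤ na i σ ∧
        (k ≤ |(((stp (rc0 hS) (cfg (rc0 hS) σ))^[u] (pa i σ)).1.1 -
            ((stp (rc0 hS) (cfg (rc0 hS) σ))^[v] (pa i σ)).1.1).re| ∨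
          k ≤ |(((stp (rc0 hS) (cfg (rc0 hS) σ))^[u] (pa i σ)).1.1 -
            ((stp (rc0 hS) (cfg (rc0 hS) σ))^[v] (pa i σ)).1.1).im|)) :
    av S.powerset (fun σ => g (clr S σ) * av S.powerset fun τ =>
      ‖Vb (rc0 hS) H R Q pa na Ev d₀ (zs (rc0 hS) om (zc hS id)) (chiS hS h3 σ)
        (chiS hS h3 τ)‖) ≤ e := by
  refine le_trans (le_of_eq ?_) (small_of h h3 hU hin d₀ (O := OO (rc0 hS) H R pa na Ev) Y.stop
    (s0 := fun σ _ => OutSx358.gR (rc0 hS) Q pa na Ev d₀ σ) g0 g1 hg fun σ τ hσ => ?_)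
  · refine CorMx970.av_congr fun β _ => ?_
    congr 1
    refine CorMx970.av_congr fun β' _ => ?_
    rw [vb_vm]
  · obtain ⟨i, hi, hd, u, v, hu, hv, huv⟩ := hx σ hσ
    have X := Y.ex hi
    have e1 : OutSx358.gR (rc0 hS) Q pa na Ev d₀ σ =
        gp (rc0 hS) (cfg (rc0 hS) σ) (pa i σ) (rt (rc0 hS) Q pa na i σ) := Y.gR_eq d₀ hi
    rw [e1]
    have hE : ∀ c ∈ EE (rc0 hS) (cfg (rc0 hS) σ) (pa i σ) (na i σ) (wg (rc0 hS) H R pa na i σ),
        mix (OO (rc0 hS) H R pa na Ev) σ τ c = σ c := by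
      intro c hc
      rw [← Y.oo_eq hi] at hc
      exact mix_on hc
    exact ⟨Gp_ex hS X hE, InU_ex hS hU d₀ X hE hd, Big_ex hS hU d₀ X hE hd hu hv huv⟩

end Crest.Agent.R143.SmIx304
end
end

-- ▼ part R143/SmJ_304
section

/-!
# Row 143 (S0194), CORE-C, RIG: field `small` for the family of all out strands (helper304)

168's family on `rc0 hS`, `S = SU u ε ω` (133), window of `SmE` = `UU u`, `k ≤ 18 η`.
* `nr_UU`, `all_NrS` : `Nr 0 (m h) (cells u.U) r ⊆ UU u`, strips inside `NrS .. (2 h - 2 d)`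
* `hd_U` : circumdiscs of the darts off the white giant are in `UU u`
* `far_S` : 749's far states on a fixed environment
* **`small_U`** : `SmE` + zones + `CorH` and `EvA` on `g > 0` ⟹ hypothesis `small` of 654's `goodI`
-/

set_option autoImplicit false
set_option linter.unusedSectionVars false

noncomputable section

open scoped Classical

namespace Crest.Agent.R143.SmJx304

open MeasureTheory Set Filter Topology
open Crest.ProbabilityR.Voronoi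
open Crest.Agent.R143.B0x346 Crest.Agent.R143.DelGx806 Crest.Agent.R143.DelRx806
  Crest.Agent.R143.FinCx811 Crest.Agent.R143.Resax778 Crest.Agent.R143.SmallAx304
  Crest.Agent.R143.ColXx829 Crest.Agent.R143.QuenSx654 Crest.Agent.R143.SysCx166
open Crest.Agent.R143.Frame1x395 Crest.Agent.R143.Frame2x395 Crest.Agent.R143.Frame3x395
  Crest.Agent.R143.Frame4x395 Crest.Agent.R143.Frame8x395 Crest.Agent.R143.Frame9x395
  Crest.Agent.R143.Frame10x395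
open Crest.Agent.R143.Frame5x395 (sd mem_sd th th_spec)
open Crest.Agent.R143.Coarse2x166 (zs)
open Crest.Agent.R143.C2SDx395 (zc)
open Crest.Agent.R143.Mass1x302 (cdisc)
open Crest.Agent.R143.OutSx358 (Sys OO wg rt gr)
open Crest.Agent.R143.SysAx168 (EvA)
open Crest.Agent.R143.Uniqx323 (Zn Strd)
open Crest.Agent.R143.RcTx422 (Hc RC RC_mono Hc_eq)
open Crest.Agent.R143.CorMx970 (av)
open Crest.Agent.R143.IndLoc3x279 (clr)
open Crest.Agent.R143.PP0x831 (LocalOn)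
open Crest.Agent.R143.CorEx133 Crest.Agent.R143.PolyUx346 Crest.Agent.R143.LayUx416
open Crest.Agent.R143.ExtUx387 (Nr NrS mem_FaS off_disc_strd)
open Crest.Agent.R143.BigUx749 (ClR far_corH)
open Crest.Agent.R143.WLocx713 (sX)
open Crest.Agent.R143.CorHx713 (CorH)
open Crest.Agent.R143.TileRx228 (RR)
open Crest.Agent.R143.Brkx478 (Bk cells)
open Crest.Agent.R143.LnkLx927 (All)

/-! ### geometry -/

section geo

variable {u : Poly} {m M : ℕ} {p W : ℤ → ℤ × ℤ} {A e : ℤ → ℤ} {η d : ℝ}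

/-- neighbourhoods of the polygon are in `UU` -/
theorem nr_norm {r : ℝ} (hr : r ≤ 1) {z : ℂ} (hz : z ∈ Nr 0 u.s (cells (u.U : Set Bk)) r) :
    ‖z‖ < Rp u + 4 := by
  by_contra hc
  exact mem_FaS.1 (fas hr (not_lt.1 hc)) hz

theorem nr_UU {r : ℝ} (hr : r ≤ 1) : Nr 0 u.s (cells (u.U : Set Bk)) r ⊆ UU u := fun _ hz =>
  mem_UU.2 (nr_norm hr hz).le

/-- the strips are near the polygon -/
theorem all_NrS (L : LayU u m M p W A e) (hh : (m : ℝ) * (100 * η) = u.s)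
    (hde : 100 * d ≤ η) :
    All η W ⊆ NrS 0 u.s (cells (u.U : Set Bk)) (2 * (100 * η) - 2 * d) := by
  have h0 := L.h_pos hh
  have hm := L.m_pos
  rintro s ⟨b, hs⟩
  have hf := L.fine
  obtain ⟨x, hx, x1, x2⟩ := LnkGx372.RR_sharp (h := 100 * η) hf h0
    (by have := hm; omega) (A' := 19 / 2 * η) (B' := 103 / 2 * η) (by linarith) (by linarith) hs
  obtain ⟨q, hq, hx⟩ := mem_iUnion₂.1 hx
  obtain ⟨y1, y2, y3, y4⟩ := hx
  have e1 : ((m : ℤ) : ℝ) * (100 * η) = u.s := by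
    rw [← hh]
    push_cast
    ring
  rw [e1] at y1 y2 y3 y4
  obtain ⟨a1, a2⟩ := abs_lt.1 x1
  obtain ⟨a3, a4⟩ := abs_lt.1 x2
  refine ⟨q, hq, ?_, ?_, ?_, ?_⟩
  · rw [Complex.zero_re]; linarith
  · rw [Complex.zero_re]; linarith
  · rw [Complex.zero_im]; linarith
  · rw [Complex.zero_im]; linarith

end geo

/-- 749's far states on a fixed environment -/
theorem far_S {X : Set (ℂ × Bool)} {U : Set ℂ} {M : ℕ} {W : ℤ → ℤ × ℤ} {η d : ℝ} {o : ℤ}
    {N : ℕ} (H : CorH X U M W η d o N) (h3 : 3 ≤ N) {S : Finset ℂ} {hS : GP (S : Set ℂ)}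
    (e : sX X = S) {σ : Cs hS → ZMod 2} {Z : Zn (rc0 hS)} {b : ZMod 2} {q : D0 S} {n : ℕ}
    (h : Strd (rc0 hS) Z b σ q n)
    (hE : Z.E ⊆ ClR hS (RR (10 * η) (52 * η) (100 * η) W (o + N - 1)))
    (hW : Z.W ⊆ ClR hS (RR (10 * η) (52 * η) (100 * η) W o)) {k : ℝ} (hk : k ≤ 18 * η) :
    ∃ u v, u ≤ n ∧ v ≤ n ∧
      (k ≤ |(((stp (rc0 hS) (cfg (rc0 hS) σ))^[u] q).1.1 -
          ((stp (rc0 hS) (cfg (rc0 hS) σ))^[v] q).1.1).re| ∨
        k ≤ |(((stp (rc0 hS) (cfg (rc0 hS) σ))^[u] q).1.1 -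
          ((stp (rc0 hS) (cfg (rc0 hS) σ))^[v] q).1.1).im|) := by
  subst e
  exact far_corH H h3 h hE hW hk

section env

variable {u : Poly} {ε d K1 c2 ρ0 : ℝ} {ω : Sample} {m M : ℕ} {p W : ℤ → ℤ × ℤ} {A e : ℤ → ℤ}
  {η : ℝ} {hS : GP (SU u ε ω : Set ℂ)}

/-- cells of sites of a set inside `UU` -/
theorem clR_RC (C : CorEnv u ε d K1 c2 ρ0 ω) {F : Set ℂ} (hF : F ⊆ UU u) :
    ClR hS F ⊆ RC hS F := by
  rintro c ⟨s, h1, h2, h3⟩
  exact ⟨s, h1, h2, C.inn (hF h2), h3⟩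

/-- **304's `hd` on the environment of `u`** -/
theorem hd_U (C : CorEnv u ε d K1 c2 ρ0 ω) (L : LayU u m M p W A e)
    (hh : (m : ℝ) * (100 * η) = u.s) (hde : 100 * d ≤ η) {R : Set (Cs hS)} {Z : Zn (rc0 hS)}
    {σ : Cs hS → ZMod 2} {q : D0 (SU u ε ω)} {n : ℕ} (hZR : Z.R ⊆ RC hS (All η W))
    (hR : R ⊆ RC hS (All η W)) (hst : Strd (rc0 hS) Z 1 σ q n) (d0 : D0 (SU u ε ω))
    (hd0 : (rc0 hS).cell d0 ∉ Extx358.Ww (rc0 hS) (Hc hS) R q n σ) :
    cdisc (d0.1.1, d0.1.2, th (SU u ε ω) d0.1) ⊆ UU u := by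
  have h0 := L.h_pos hh
  have hm := L.m_pos
  have hle := h_le L hh
  have hd := C.d0
  have e1 : ((m : ℤ) : ℝ) * (100 * η) = u.s := by
    rw [← hh]
    push_cast
    ring
  have e2 : ((2 : ℤ) : ℝ) * (100 * η) = 2 * (100 * η) := by
    push_cast
    ring
  refine off_disc_strd (c := 0) (L := RU u) (d := d) (h := 100 * η) (m := (m : ℤ)) (k := 2)
    (o := 0) (B := All η W) C.dns h0 (by norm_num) (by omega) (U := (u.U : Set Bk)) u.con' ?_ ?_
    hZR hR hst ?_ d0 hd0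
  · rw [e1, e2]
    intro z hz
    rw [sub_zero]
    have := nr_norm (u := u) (by linarith) hz
    unfold RU
    linarith
  · rw [e1, e2]
    exact all_NrS L hh hde
  · rw [e1, e2]
    exact nr_UU (by linarith)

/-- **field `small` for the family of all out strands** -/
theorem small_U (C : CorEnv u ε d K1 c2 ρ0 ω) {k e1 : ℝ} (h : SmE ε ω (UU u) k e1)
    (L : LayU u m M p W A e) (hh : (m : ℝ) * (100 * η) = u.s) (hde : 100 * d ≤ η)
    (hk : k ≤ 18 * η) (h3 : 3 ≤ (SU u ε ω).card) {h₀ : Cs hS} (hh₀ : h₀ ∈ Hc hS)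
    {R : Set (Cs hS)} {Q : Set (D0 (SU u ε ω))} {Z : Zn (rc0 hS)} {o : ℤ} {n : ℕ} (hn : 3 ≤ n)
    (hZR : Z.R ⊆ RC hS (All η W)) (hR : R ⊆ RC hS (All η W))
    (hE : Z.E ⊆ ClR hS (RR (10 * η) (52 * η) (100 * η) W (o + n - 1)))
    (hW : Z.W ⊆ ClR hS (RR (10 * η) (52 * η) (100 * η) W o))
    (Y : Sys (rc0 hS) {h₀} R Q (fun (i : D0 (SU u ε ω) × ℕ) _ => i.1) (fun i _ => i.2)
      (EvA (rc0 hS) {h₀} R Q Z)) (d₀ : D0 (SU u ε ω))
    {g : Set (ℂ × Bool) → ℝ} (g0 : ∀ X, 0 ≤ g X) (g1 : ∀ X, g X ≤ 1)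
    (hg : ∀ β ∈ (SU u ε ω).powerset, g (clr (SU u ε ω) β) = g (Xc hS h3 (chiS hS h3 β)))
    (hx : ∀ σ, 0 < g (Xc hS h3 σ) → CorH (Xc hS h3 σ) (UU u) M W η d o n ∧
      ∃ i, EvA (rc0 hS) {h₀} R Q Z i σ) :
    av (SU u ε ω).powerset (fun σ => g (clr (SU u ε ω) σ) * av (SU u ε ω).powerset fun τ =>
      ‖Vb (rc0 hS) {h₀} R Q (fun (i : D0 (SU u ε ω) × ℕ) _ => i.1) (fun i _ => i.2)
        (EvA (rc0 hS) {h₀} R Q Z) d₀ (zs (rc0 hS) om (zc hS id)) (chiS hS h3 σ)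
        (chiS hS h3 τ)‖) ≤ e1 := by
  have hε := C.e0
  refine SmIx304.small_sys h h3 ?_ ?_ Y d₀ g0 g1 hg ?_
  · intro z hz
    rw [Finset.mem_coe, mem_SU hε]
    refine ⟨fun h' => ⟨h', ?_⟩, fun h' => h'.1⟩
    have h1 := mem_UU.1 hz
    have h2 := one_le_Rp u
    unfold RU
    linarith
  · intro v _ hv
    exact C.inn hv
  · intro σ hσ
    obtain ⟨H, i, hi⟩ := hx σ hσ
    refine ⟨i, hi, fun d1 hd1 => ?_, ?_⟩
    · refine hd_U C L hh hde hZR hR hi.1 d1 ?_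
      rw [Hc_eq hh₀]
      exact hd1
    · exact far_S H hn sX_Xc hi.1 hE hW hk

/-- the same with a weight local in a region without hull sites -/
theorem small_U' (C : CorEnv u ε d K1 c2 ρ0 ω) {k e1 : ℝ} (h : SmE ε ω (UU u) k e1)
    (L : LayU u m M p W A e) (hh : (m : ℝ) * (100 * η) = u.s) (hde : 100 * d ≤ η)
    (hk : k ≤ 18 * η) (h3 : 3 ≤ (SU u ε ω).card) {h₀ : Cs hS} (hh₀ : h₀ ∈ Hc hS)
    {R : Set (Cs hS)} {Q : Set (D0 (SU u ε ω))} {Z : Zn (rc0 hS)} {o : ℤ} {n : ℕ} (hn : 3 ≤ n)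
    (hZR : Z.R ⊆ RC hS (All η W)) (hR : R ⊆ RC hS (All η W))
    (hE : Z.E ⊆ ClR hS (RR (10 * η) (52 * η) (100 * η) W (o + n - 1)))
    (hW : Z.W ⊆ ClR hS (RR (10 * η) (52 * η) (100 * η) W o))
    (Y : Sys (rc0 hS) {h₀} R Q (fun (i : D0 (SU u ε ω) × ℕ) _ => i.1) (fun i _ => i.2)
      (EvA (rc0 hS) {h₀} R Q Z)) (d₀ : D0 (SU u ε ω))
    {g : Set (ℂ × Bool) → ℝ} {G : Set ℂ} (gl : LocalOn G g) (hG : G ⊆ UU u)
    (g0 : ∀ X, 0 ≤ g X) (g1 : ∀ X, g X ≤ 1)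
    (hx : ∀ σ, 0 < g (Xc hS h3 σ) → CorH (Xc hS h3 σ) (UU u) M W η d o n ∧
      ∃ i, EvA (rc0 hS) {h₀} R Q Z i σ) :
    av (SU u ε ω).powerset (fun σ => g (clr (SU u ε ω) σ) * av (SU u ε ω).powerset fun τ =>
      ‖Vb (rc0 hS) {h₀} R Q (fun (i : D0 (SU u ε ω) × ℕ) _ => i.1) (fun i _ => i.2)
        (EvA (rc0 hS) {h₀} R Q Z) d₀ (zs (rc0 hS) om (zc hS id)) (chiS hS h3 σ)
        (chiS hS h3 τ)‖) ≤ e1 :=
  small_U C h L hh hde hk h3 hh₀ hn hZR hR hE hW Y d₀ g0 g1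
    (fun _ _ => (GWXx597.loc_chiS gl fun _ _ hv => C.inn (hG hv)).symm) hx

end env

end Crest.Agent.R143.SmJx304
end
end

-- ▼ part R143/DryQ_829
section

/-!
# Row 143 (S0194), box Q2, dry run (helper829): the landed pieces compose to the field `hQ` of
`SysDx166.quen_of` (= 654's `Quen.hQ`)

* `Lc hS h3 U` : the cells of the sites in `U`; `loc_Lc` : a weight local on `U` is a function of
  their colours (hypothesis `hgL` of 535's `wr_sys`)
* `wd_wr` : 166's `Wd` is the charge `Wr` for every `Tm` with `Tm 0 = 0`, `Tm nn = na`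
* `TileD` : **what the geometry must supply for ONE tile**: zones, window cells, `Fix`, support,
  `Sb` where the whole weight is not zero
* `cell_le` : 535's `wr_sys` for `Wd`, constant 48
* **`hQ_env`** : field `hQ` of `quen_of` at one environment, `Qq = Qt .. (9 * 48) ω`
-/

set_option autoImplicit false
set_option linter.unusedSectionVars false

noncomputable section

open scoped Classical

namespace Crest.Agent.R143.DryQx829

open MeasureTheory Set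
open Crest.ProbabilityR.Voronoi
open Crest.Agent.R143.PP0x831 Crest.Agent.R143.Poisx304 Crest.Agent.R143.Janx304
open Crest.Agent.R143.ColSumx304 Crest.Agent.R143.Lawx831 Crest.Agent.R143.Dbl2x609
open Crest.Agent.R143.IndLocx279 Crest.Agent.R143.IndLoc3x279 Crest.Agent.R143.PWx978
  Crest.Agent.R143.TilePx176 Crest.Agent.R143.TileQx176 Crest.Agent.R143.TileRx176
  Crest.Agent.R143.Hqx304
open Crest.Agent.R143.B0x346 Crest.Agent.R143.DelGx806 Crest.Agent.R143.FinCx811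
  Crest.Agent.R143.Engx490 Crest.Agent.R143.SmallAx304
open Crest.Agent.R143.Frame1x395 Crest.Agent.R143.Frame2x395 Crest.Agent.R143.Frame3x395
  Crest.Agent.R143.Frame4x395
open Crest.Agent.R143.Frame8x395 hiding cfg
open Crest.Agent.R143.Frame10x395
open Crest.Agent.R143.Resax778 (mix mix_on mix_off)
open Crest.Agent.R143.OutSx358 Crest.Agent.R143.SysCx166 Crest.Agent.R143.QuSx166
open Crest.Agent.R143.CorMx970 (av)
open Sptx169 (rst)
open Sptx832 (FQ)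
open scoped ENNReal

variable {S : Finset ℂ}

/-! ### the cells of a region -/

section loc

variable (hS : GP (S : Set ℂ)) (h3 : 3 ≤ S.card)

/-- the cells of the sites of a region -/
def Lc (U : Set ℂ) : Finset (Cs hS) :=
  Finset.univ.filter fun c => ∃ v, ∃ hv : v ∈ S, v ∈ U ∧ cs hS h3 ⟨v, hv⟩ = c

theorem mem_Lc {U : Set ℂ} {c : Cs hS} :
    c ∈ Lc hS h3 U ↔ ∃ v, ∃ hv : v ∈ S, v ∈ U ∧ cs hS h3 ⟨v, hv⟩ = c := by
  unfold Lc
  rw [Finset.mem_filter]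
  exact ⟨fun h => h.2, fun h => ⟨Finset.mem_univ _, h⟩⟩

/-- **a local weight is a function of the colours of the cells of its region** -/
theorem loc_Lc {E : Type*} {Φ : Set (ℂ × Bool) → E} {U : Set ℂ} (hΦ : LocalOn U Φ)
    {σ τ : Cs hS → ZMod 2} (h : ∀ c ∈ Lc hS h3 U, τ c = σ c) :
    Φ (paint S (bk hS h3 τ)) = Φ (paint S (bk hS h3 σ)) := by
  rw [hΦ (paint S (bk hS h3 τ)), hΦ (paint S (bk hS h3 σ))]
  congr 1
  ext ⟨v, t⟩
  have key : v ∈ S → v ∈ U → (v ∈ bk hS h3 τ ↔ v ∈ bk hS h3 σ) := by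
    intro hv hU
    rw [mem_bk hv, mem_bk hv, h _ ((mem_Lc hS h3).2 ⟨v, hv, hU, rfl⟩)]
  constructor
  · rintro ⟨⟨h1, h2⟩, h4⟩
    exact ⟨⟨h1, h2.trans (key h1 h4)⟩, h4⟩
  · rintro ⟨⟨h1, h2⟩, h4⟩
    exact ⟨⟨h1, h2.trans (key h1 h4).symm⟩, h4⟩

end loc

/-! ### 166's `Wd` is `Wr` -/

section wd

variable {D C ι : Type} [Fintype D] [Fintype C] {M : CMap D C} {H R : Set C} {Q : Set D}
  {pa : ι → (C → ZMod 2) → D} {na : ι → (C → ZMod 2) → ℕ} {Ev : ι → (C → ZMod 2) → Prop}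
  {σ τ : C → ZMod 2} {i : ι} {k : ZMod 3} {nn : ℕ} {Tm : ℕ → ℕ} {F : ℕ → Set D} {w : D → ℂ}
  {d₀ : D} {l : ℕ}

theorem wd_wr (Y : Sys M H R Q pa na Ev) (h : Ev i σ) (h0 : Tm 0 = 0) (hn : Tm nn = na i σ) :
    Wd M H R Q pa na Ev k d₀ w F l σ τ =
      Wr M σ (mix (OO M H R pa na Ev) σ τ) (pa i σ) (na i σ) (rt M Q pa na i σ) Tm nn w F l := by
  obtain ⟨h1, h2⟩ := Y.hE (τ := τ) h
  unfold Wd
  rw [Y.vg (k := k) h, (Y.ex h).wr_eq (QuFx778.cq ((Y.ex h).gi (i := k))) h0 hn h1 w l]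
  unfold Vb
  rw [Y.gR_eq d₀ h]

end wd

/-! ### one tile -/

section tile

variable (hS : GP (S : Set ℂ)) (h3 : 3 ≤ S.card) {ι : Type} (H R : Set (Cs hS))
  (pa : ι → (Cs hS → ZMod 2) → D0 S) (na : ι → (Cs hS → ZMod 2) → ℕ)
  (Ev : ι → (Cs hS → ZMod 2) → Prop)

/-- **what the geometry must supply for one tile**: `U` = region of the weight off the window, `G` =
"the whole weight is not zero", `a` = cut field of the tile -/
def TileD (U : Set ℂ) (G : (Cs hS → ZMod 2) → Prop) (a : D0 S → ℂ) : Prop :=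
  ∃ (κ : Type) (_ : Fintype κ) (Z : κ → Uniqx323.Zn (rc0 hS)) (T : Set (Cs hS)),
    Fintype.card κ ≤ 2 ∧ PLx535.Fix (rc0 hS) H R T Z ∧
    (∀ h, a h ≠ 0 → ∀ k, ¬ ((rc0 hS).cell h ∈ (Z k).R ∧
      (rc0 hS).cell ((rc0 hS).rho h) ∈ (Z k).R ∧
      (rc0 hS).cell ((rc0 hS).rho ((rc0 hS).rho h)) ∈ (Z k).R)) ∧
    ∀ σ, G σ → ∃ i, Ev i σ ∧ ∃ q : κ → D0 S × ℕ,
      PLSx535.Sb (rc0 hS) H R T Z (Lc hS h3 U) (pa i σ) (na i σ) σ q

variable {H R pa na Ev} {Q : Set (D0 S)} {d₀ : D0 S} {k : ZMod 3} {F : ℕ → Set (D0 S)}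
  {z : D0 S → ℂ} {l : ℕ}

/-- 535's inequality for 166's `Wd` -/
theorem cell_le (Y : Sys (rc0 hS) H R Q pa na Ev) {w₀ : ℂ} (w3 : w₀ ^ 3 = 1) (w1 : w₀ ≠ 1)
    (wc : (starRingEnd ℂ) w₀ = w₀ ^ 2) (ha : Spin (rc0 hS) w₀ (rst z (F l)))
    {g0 : Set (ℂ × Bool) → ℝ≥0∞} {U : Set ℂ} (hg : LocalOn U g0)
    {G G' : (Cs hS → ZMod 2) → Prop}
    (hGG : ∀ σ, G' σ → (g0 (paint S (bk hS h3 σ))).toReal ≠ 0 → G σ)
    (T : TileD hS h3 H R pa na Ev U G (rst z (F l))) :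
    ∑ σ, ∑ τ, (if G' σ then
        (g0 (paint S (bk hS h3 σ))).toReal *
          ‖Wd (rc0 hS) H R Q pa na Ev k d₀ z F l σ τ‖ ^ 2 else 0) ≤
      48 * Fintype.card (Cs hS → ZMod 2) *
        ∑ σ : Cs hS → ZMod 2, (g0 (paint S (bk hS h3 σ))).toReal *
          ∑ k, ‖rst z (F l) k‖ ^ 2 := by
  obtain ⟨κ, iκ, Z, T, hκ, hF, sup, hW⟩ := T
  have key := PLTx535.wr_sys Y hF w3 w1 wc (G := G')
    (g' := fun σ => (g0 (paint S (bk hS h3 σ))).toReal) (L := Lc hS h3 U)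
    (fun σ => ENNReal.toReal_nonneg)
    (fun σ τ h => congrArg ENNReal.toReal (loc_Lc hS h3 hg h)) ha sup d₀
    (Y := fun σ τ => Wd (rc0 hS) H R Q pa na Ev k d₀ z F l σ τ)
    (fun σ h1 h2 => by
      obtain ⟨i, h4, q, h5⟩ := hW σ (hGG σ h1 h2)
      exact ⟨i, h4, ⟨q, h5⟩, 1, fun j => j * na i σ, by simp, by simp,
        fun τ => wd_wr Y h4 (by simp) (by simp)⟩)
  refine key.trans ?_
  have h7 : (2 : ℝ) ^ (2 * Fintype.card κ + 1) ≤ 2 ^ 5 :=
    pow_le_pow_right₀ (by norm_num) (by omega)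
  have h8 : 0 ≤ ∑ σ : Cs hS → ZMod 2, (g0 (paint S (bk hS h3 σ))).toReal *
      ∑ k, ‖rst z (F l) k‖ ^ 2 :=
    Finset.sum_nonneg fun σ _ => mul_nonneg ENNReal.toReal_nonneg
      (Finset.sum_nonneg fun _ _ => by positivity)
  refine mul_le_mul_of_nonneg_right (mul_le_mul_of_nonneg_right ?_ (Nat.cast_nonneg _)) h8
  linarith

end tile

/-! ### the field `hQ` -/

section env

variable {ε : ℝ} {ι₁ κ₁ ι : Type} [DecidableEq ι₁] [DecidableEq κ₁] {M : Net ε ι₁ κ₁}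
  {I : Finset ι₁} {J : Finset κ₁} {n : ℕ} {I₁ : ℕ → Finset ι₁} {J₁ : ℕ → Finset κ₁}
  {d s : ℝ} {B : Set ℂ} {m0 : ℝ≥0∞}
variable (hS : GP (S : Set ℂ)) (h3 : 3 ≤ S.card) {H R : Set (Cs hS)} {Q : Set (D0 S)}
  {pa : ι → (Cs hS → ZMod 2) → D0 S} {na : ι → (Cs hS → ZMod 2) → ℕ}
  {Ev : ι → (Cs hS → ZMod 2) → Prop} {d₀ : D0 S} {k : ZMod 3} {m : ℕ} {Qr : ℕ → Set ℂ}

/-- **FIELD `hQ` OF `quen_of` at one environment**, from the landed pieces and `TileD` for every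
tile -/
theorem hQ_env (hW : Wnd M I J n I₁ J₁ Qr d s B m0) {ω : Sample}
    (hi : ∀ c, Inj ε (toPos ω) c) (hA : (S : Set ℂ) = points ε ω ∩ B)
    (hin : ∀ v ∈ S, v ∈ M.reg I J → ¬ OnHull S v) {g : Set (ℂ × Bool) → ℝ}
    (hg0 : ∀ β ∈ S.powerset, 0 ≤ g (clr S β))
    (hg : ∀ β ∈ S.powerset, g (clr S β) ≤ (M.gw I J (paint S β)).toReal)
    (hd : 0 < d) (hH : ∀ l < n, Locx922.Hol (S : Set ℂ) (Qr l) d)
    (hoff : ∀ l < n, ∀ z ∈ Qr l, ∀ v, ‖v - z‖ < d → ¬ OnHull S v)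
    (Y : Sys (rc0 hS) H R Q pa na Ev)
    (T : ∀ l < n, TileD hS h3 H R pa na Ev (M.reg (I \ I₁ l) (J \ J₁ l))
      (fun σ => M.gw I J (paint S (bk hS h3 σ)) ≠ 0)
      (rst (Coarse2x166.zs (rc0 hS) om (C2SDx395.zc hS id)) (FQ S m Qr l))) :
    ∑ l ∈ Finset.range n, av S.powerset (fun β => g (clr S β) * av S.powerset fun β' =>
      ‖Wd (rc0 hS) H R Q pa na Ev k d₀ (Coarse2x166.zs (rc0 hS) om (C2SDx395.zc hS id))
        (FQ S m Qr) l (chiS hS h3 β) (chiS hS h3 β')‖ ^ 2) ≤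
      Qt M I J n I₁ J₁ Qr d B (9 * 48) ω := by
  obtain ⟨w3, w1, wc⟩ := QuAx66.om2_adm
  refine QuS2x176.hQ_cells hS h3 (M := M) (c := 48) hW hi hA hin hg0 hg
    (a := fun l => rst (Coarse2x166.zs (rc0 hS) om (C2SDx395.zc hS id)) (FQ S m Qr l))
    (fun l hl => (QuAx66.fldZ hS hd (hH l hl) (hoff l hl)).2.1)
    (fun l hl => (QuAx66.fldZ hS hd (hH l hl) (hoff l hl)).2.2)
    (X := fun l σ τ => ‖Wd (rc0 hS) H R Q pa na Ev k d₀
      (Coarse2x166.zs (rc0 hS) om (C2SDx395.zc hS id)) (FQ S m Qr) l σ τ‖ ^ 2)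
    (fun l _ σ τ => by positivity)
    (G := fun _ σ => M.gw I J (paint S (bk hS h3 σ)) ≠ 0) (by norm_num)
    (fun l _ σ h => h) fun l hl => ?_
  exact cell_le hS h3 Y w3 w1 wc (QuAx66.fldZ hS hd (hH l hl) (hoff l hl)).1
    (M.gw_local (hW.hN₁ l hl)) (fun σ h _ => h) (T l hl)

end env

end Crest.Agent.R143.DryQx829
end
end

-- ▼ part R143/QuenI_597

/-!
# Row 143 (S0194), RIG: `QuenX` at one environment (helper597)

Objects of 609's `RigZd_609`, one polygon `u : Poly`, white label `w`, scale `N` (`u.n + 4 ≤ N`), mesh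
`ε`, one environment `ω` with 133's `CorEnv u ε √ε ..`; sites `SU u ε ω`, tiles `nT u w N`, first tile
`oT u w N`, unit `et N`, tile of the root `rT u w N`.

* `CW_UU`, `inn_CW` : the corridor is inside `UU u`, no hull sites; `gW_xc`
* **`Sx`** : the system of the out strands of one environment (831's `CorrD`)
* `Sx.hx`, `Sx.hV`, `Sx.small` : hypotheses of 654's `quenI`
* **`quen_u`** : `QuenX` from `Sx`, `SmE`, `hC` (930), `hθ` (737 / 139 / 798), `hQ` (810 / 829)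
-/

set_option autoImplicit false
set_option linter.unusedSectionVars false
set_option linter.style.haveILetI false

noncomputable section

open scoped Classical

namespace Crest.Agent.R143.QuenIx597

open MeasureTheory Set Filter Topology
open scoped ENNReal
open Crest.ProbabilityR.Voronoi
open Crest.Agent.R143.PP0x831 Crest.Agent.R143.Janx304 Crest.Agent.R143.Dbl2x609
open Crest.Agent.R143.B0x346 Crest.Agent.R143.DelGx806 Crest.Agent.R143.DelRx806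
  Crest.Agent.R143.FinCx811 Crest.Agent.R143.Resax778 Crest.Agent.R143.SmallAx304
open Crest.Agent.R143.Frame1x395 Crest.Agent.R143.Frame2x395 Crest.Agent.R143.Frame3x395
  Crest.Agent.R143.Frame4x395
open Crest.Agent.R143.Frame8x395 hiding cfg
open Crest.Agent.R143.Frame9x395 Crest.Agent.R143.Frame10x395
open Crest.Agent.R143.Frame5x395 (th)
open Crest.Agent.R143.Coarse2x166 (zs)
open Crest.Agent.R143.C2SDx395 (zc)
open Crest.Agent.R143.C2SBx395 Crest.Agent.R143.C2SCx395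
open Crest.Agent.R143.NetUx346 Crest.Agent.R143.NetVx346
open Crest.Agent.R143.CorMx970 (av far)
open Crest.Agent.R143.IndLoc3x279 (clr)
open Crest.Agent.R143.OutSx358 (Sys gA ac)
open Crest.Agent.R143.SysAx168 (EvA)
open Crest.Agent.R143.Uniqx323 (Zn Strd)
open Crest.Agent.R143.SysCx166 Crest.Agent.R143.SysDx166 Crest.Agent.R143.RigDx654
  Crest.Agent.R143.QuenSx654
open Crest.Agent.R143.ColXx829 (Xc)
open Crest.Agent.R143.RcTx422 (Hc RC Hc_eq)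
open Crest.Agent.R143.BigUx749 (ClR)
open Crest.Agent.R143.LnkLx927 (All)
open Crest.Agent.R143.RingDx117 (RD)
open Crest.Agent.R143.PolyUx346 (Poly)
open Crest.Agent.R143.CorEx133
open Crest.Agent.R143.RigPx854 (ly ly_spec mN mN_hN mN_10 hN hN_pos nT)
open Crest.Agent.R143.RigZdx609 Crest.Agent.R143.LayUx416 Crest.Agent.R143.Layx416
open Crest.Agent.R143.RigZx609 (QuenX)
open Crest.Agent.R143.TileRx228
open Crest.Agent.R143.CorHx713 (CorH xx yy)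
open Crest.Agent.R143.CorrIx831 (Ft tlt Bk Stk SDS)
open Crest.Agent.R143.SpRx169 (QX)
open Crest.Agent.R143.Sptx832 (VX)
open Crest.Agent.R143.SpMx169 (fP)
open Crest.Agent.R143.R10Px923 (Cpl)

variable {N : ℕ} {ε : ℝ} {u : Poly} {w : ZMod 3}

/-- the first tile of the corridor -/
abbrev oT (u : Poly) (w : ZMod 3) (N : ℕ) : ℤ := al (ly u N).A (ly u N).e w

/-- gate of the root -/
abbrev rT (u : Poly) (w : ZMod 3) (N : ℕ) : ℕ := rr (ly u N).A (ly u N).e w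

/-! ### the corridor and the discs -/

section geo

variable (Z : TData) (hN : u.n + 4 ≤ N) (hε : 0 < ε)

theorem mh (hN : u.n + 4 ≤ N) : (mN u N : ℝ) * (100 * et N) = u.s := by
  rw [et_h]
  exact mN_hN (by omega)

/-- the corridor is inside `UU u` -/
theorem CW_UU : CW Z u w hN hε ⊆ UU u := by
  have h1 := Z.num N ε
  have h2 := et_pos N
  rw [CW_eq]
  exact DisIx749.sub_UU (ly_spec hN) (mNh Z hN ε) (by rw [h1.A', h1.h]; linarith)
    (by rw [h1.A', h1.B']; linarith) (by rw [h1.B']; linarith) (by rw [h1.B', h1.h]; linarith)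

theorem gW_nonneg (X : Set (ℂ × Bool)) : 0 ≤ gW Z u w hN hε X := LimSx133.gR_nonneg _ _ _ _

theorem gW_le_one (X : Set (ℂ × Bool)) : gW Z u w hN hε X ≤ 1 := LimSx133.gR_le_one _ _ _ _

theorem gW_local : LocalOn (CW Z u w hN hε) (gW Z u w hN hε) :=
  LimSx133.gR_local (net Z u w hN hε) (hNu Z hN hε)

theorem gW_gw {S β : Finset ℂ} : gW Z u w hN hε (clr S β) =
    ((net Z u w hN hε).gw (uM hN) (uM hN) (paint S β)).toReal :=
  LimSx133.gR_fin (net Z u w hN hε) (hNu Z hN hε) ColXx829.clr_fin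

variable {ω : Sample} {d K1 c2 ρ0 : ℝ}

/-- no hull site in the corridor -/
theorem inn_CW (C : CorEnv u ε d K1 c2 ρ0 ω) {v : ℂ} (_ : v ∈ SU u ε ω)
    (h : v ∈ CW Z u w hN hε) : ¬ OnHull (SU u ε ω) v := C.inn (CW_UU Z hN hε h)

/-- the weight in colourings of the cells -/
theorem gW_xc (C : CorEnv u ε d K1 c2 ρ0 ω) {hS : GP (SU u ε ω : Set ℂ)}
    {h3 : 3 ≤ (SU u ε ω).card} {β : Finset ℂ} :
    gW Z u w hN hε (Xc hS h3 (chiS hS h3 β)) = gW Z u w hN hε (clr (SU u ε ω) β) :=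
  GWXx597.loc_chiS (gW_local Z hN hε) fun _ hv h => inn_CW Z hN hε C hv h

end geo

/-! ### the system of the out strands -/

section sys

variable (Z : TData) (w) (hN : u.n + 4 ≤ N) (hε : 0 < ε) {ω : Sample}
  (hS : GP (SU u ε ω : Set ℂ)) (h3 : 3 ≤ (SU u ε ω).card)

/-- states of the tile of the root -/
abbrev Qs (w : ZMod 3) (N : ℕ) : Set (D0 (SU u ε ω)) :=
  RD (SU u ε ω) (Bk (et N) (ly u N).W (oT u w N) (rT u w N - 1))

/-- first state -/
abbrev paI : D0 (SU u ε ω) × ℕ → (Cs hS → ZMod 2) → D0 (SU u ε ω) := fun i _ => i.1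

/-- length -/
abbrev naI : D0 (SU u ε ω) × ℕ → (Cs hS → ZMod 2) → ℕ := fun i _ => i.2

/-- the events -/
abbrev EvI (w : ZMod 3) (N : ℕ) (h₀ : Cs hS) (R : Set (Cs hS)) (Zz : Zn (rc0 hS)) :
    D0 (SU u ε ω) × ℕ → (Cs hS → ZMod 2) → Prop := EvA (rc0 hS) {h₀} R (Qs w N) Zz

/-- **one environment**: the system of the out strands (831's `CorrD`) -/
structure Sx (h₀ : Cs hS) (R : Set (Cs hS)) (Zz : Zn (rc0 hS)) : Prop where
  h0 : h₀ ∈ Hc hS
  Y : Sys (rc0 hS) {h₀} R (Qs w N) (paI hS) (naI hS) (EvI hS w N h₀ R Zz)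
  nac : ∀ j σ, EvI hS w N h₀ R Zz j σ → h₀ ∉ ac (rc0 hS) j.1 j.2 σ
  zR : Zz.R ⊆ RC hS (All (et N) (ly u N).W)
  rR : R ⊆ RC hS (All (et N) (ly u N).W)
  zE : Zz.E ⊆ ClR hS (RR (10 * et N) (52 * et N) (100 * et N) (ly u N).W
    (oT u w N + nT u w N - 1))
  zW : Zz.W ⊆ ClR hS (RR (10 * et N) (52 * et N) (100 * et N) (ly u N).W (oT u w N))
  cor : ∀ s, 0 < gW Z u w hN hε (Xc hS h3 s) →
    CorH (Xc hS h3 s) (UU u) (ly u N).M (ly u N).W (et N) √ε (oT u w N) (nT u w N)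
  out : ∀ s, 0 < gW Z u w hN hε (Xc hS h3 s) → ∃ (p : ℕ → D0 (SU u ε ω)) (q : D0 (SU u ε ω))
    (k : ℕ) (T : ℕ → ℕ), (∀ j : ℕ, (p j).1 =
      (yy (et N) (ly u N).W (Xc hS h3 s) (oT u w N + j),
        xx (et N) (ly u N).W (Xc hS h3 s) (oT u w N + j))) ∧
    SDS hS s (et N) (ly u N).W (oT u w N) (nT u w N) p q k T ∧
    Hv (rc0 hS) (paI hS) (naI hS) (EvI hS w N h₀ R Zz) (nT u w N) (nT u w N)
      (Ft (SU u ε ω) (et N) (ly u N).W (oT u w N) (nT u w N))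
      (tlt hS (et N) (ly u N).W (oT u w N) (nT u w N)) s ((q, T (nT u w N)), T)
  vs : ∀ s, 0 < gW Z u w hN hε (Xc hS h3 s) → ∀ {f : ℂ × ℂ × ℂ → ℂ} {v : D0 (SU u ε ω) → ℂ},
    (∀ k, k < nT u w N → ∀ e : D0 (SU u ε ω), e.1.2 ∈ Bk (et N) (ly u N).W (oT u w N) k →
      th (SU u ε ω) e.1 ∈ Bk (et N) (ly u N).W (oT u w N) k →
        v e = f (e.1.2, th (SU u ε ω) e.1, e.1.1)) →
    ∀ l, 2 ≤ l → l + 2 < nT u w N →
      Vs (rc0 hS) (paI hS) (naI hS) (EvI hS w N h₀ R Zz) v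
        (Ft (SU u ε ω) (et N) (ly u N).W (oT u w N) (nT u w N)) l s =
        VX f (nT u w N) (Bk (et N) (ly u N).W (oT u w N))
          (QX (100 * et N) (ly u N).W (oT u w N) (nT u w N))
          (Stk (et N) (ly u N).W (oT u w N)) (nT u w N - 1 - l) (Xc hS h3 s)

variable {Z w hN hε hS h3} {h₀ : Cs hS} {R : Set (Cs hS)} {Zz : Zn (rc0 hS)}
  {K1 c2 ρ0 : ℝ}

namespace Sx

theorem hv (X : Sx w Z hN hε hS h3 h₀ R Zz) (s : Cs hS → ZMod 2)
    (h : 0 < gW Z u w hN hε (Xc hS h3 s)) : Hx (rc0 hS) (paI hS) (naI hS)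
    (EvI hS w N h₀ R Zz) (nT u w N) (nT u w N)
    (Ft (SU u ε ω) (et N) (ly u N).W (oT u w N) (nT u w N))
    (tlt hS (et N) (ly u N).W (oT u w N) (nT u w N)) s := by
  obtain ⟨p, q, k, T, -, -, h1⟩ := X.out s h
  exact ⟨_, h1⟩

/-- the hull cell -/
theorem hH (X : Sx w Z hN hε hS h3 h₀ R Zz) (c : Cs hS) (v : ℂ) (hv : OnHull (SU u ε ω) v)
    (e : c.1 = Quot.mk (hullE (SU u ε ω)) v) : c ∈ ({h₀} : Set (Cs hS)) := by
  rw [← Hc_eq X.h0]
  exact ⟨v, hv, e⟩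

theorem hZ (X : Sx w Z hN hε hS h3 h₀ R Zz) (j : D0 (SU u ε ω) × ℕ) (σ : Cs hS → ZMod 2)
    (h : EvI hS w N h₀ R Zz j σ) (c : Cs hS) (hc : c ∈ ({h₀} : Set (Cs hS))) :
    c ∉ ac (rc0 hS) (paI hS j σ) (naI hS j σ) σ := by
  rw [show c = h₀ from hc]
  exact X.nac j σ h

/-- hypothesis `hx` of 654's `quenI` -/
theorem hx (X : Sx w Z hN hε hS h3 h₀ R Zz) (C : CorEnv u ε √ε K1 c2 ρ0 ω) (σ : Finset ℂ)
    (h : 0 < gW Z u w hN hε (clr (SU u ε ω) σ)) : Hx (rc0 hS) (paI hS) (naI hS)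
    (EvI hS w N h₀ R Zz) (nT u w N) (nT u w N)
    (Ft (SU u ε ω) (et N) (ly u N).W (oT u w N) (nT u w N))
    (tlt hS (et N) (ly u N).W (oT u w N) (nT u w N)) (chiS hS h3 σ) := by
  rw [← gW_xc (hS := hS) (h3 := h3) Z hN hε C] at h
  exact X.hv _ h

/-- hypothesis `hV` of 654's `quenI` -/
theorem hV (X : Sx w Z hN hε hS h3 h₀ R Zz) (C : CorEnv u ε √ε K1 c2 ρ0 ω) (σ : Finset ℂ)
    (h : 0 < gW Z u w hN hε (clr (SU u ε ω) σ)) (l : ℕ) (h1 : 2 ≤ l) (h2 : l + 2 < nT u w N) :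
    VL Z fP u w ε hN (nT u w N - 1 - l) (clr (SU u ε ω) σ) =
      Vs (rc0 hS) (paI hS) (naI hS) (EvI hS w N h₀ R Zz) (zs (rc0 hS) om (zc hS id))
        (Ft (SU u ε ω) (et N) (ly u N).W (oT u w N) (nT u w N)) l (chiS hS h3 σ) := by
  rw [← gW_xc (hS := hS) (h3 := h3) Z hN hε C] at h
  have key := HVx832.hV_C (X.cor _ h) (Z.isS N ε) (z := zc hS id) (HVx832.hz_zc hS)
    (fun {f v} => X.vs _ h (f := f) (v := v)) (j := nT u w N - 1 - l) (by omega) (by omega)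
  rw [show nT u w N - 1 - (nT u w N - 1 - l) = l by omega] at key
  exact key

/-- hypothesis `small` of 654's `quenI` -/
theorem small (X : Sx w Z hN hε hS h3 h₀ R Zz) (C : CorEnv u ε √ε K1 c2 ρ0 ω)
    (hd : 100 * √ε ≤ et N) (hn : 3 ≤ nT u w N) {E : ℝ} (hE : SmE ε ω (UU u) (18 * et N) E)
    (d₀ : D0 (SU u ε ω)) :
    av (SU u ε ω).powerset (fun σ => gW Z u w hN hε (clr (SU u ε ω) σ) *
      av (SU u ε ω).powerset fun τ =>
      ‖Vb (rc0 hS) {h₀} R (Qs w N) (paI hS) (naI hS) (EvI hS w N h₀ R Zz) d₀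
        (zs (rc0 hS) om (zc hS id)) (chiS hS h3 σ) (chiS hS h3 τ)‖) ≤ E :=
  SmJx304.small_U' C hE (ly_spec hN) (mh hN) hd le_rfl h3 X.h0 hn X.zR X.rR X.zE X.zW X.Y d₀
    (gW_local Z hN hε) (CW_UU Z hN hε) (gW_nonneg Z hN hε) (gW_le_one Z hN hε)
    fun σ hσ => ⟨X.cor σ hσ, by
      obtain ⟨x, hx⟩ := X.hv σ hσ
      exact ⟨x.1, hx.1⟩⟩

end Sx

/-- the giants of the label `w` for the black sites `σ` -/
abbrev GI (hS : GP (SU u ε ω : Set ℂ)) (h3 : 3 ≤ (SU u ε ω).card) (w : ZMod 3) (N : ℕ)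
    (h₀ : Cs hS) (R : Set (Cs hS)) (Zz : Zn (rc0 hS)) (σ : Finset ℂ) : ZMod 3 → Set ℂ :=
  st (gA (rc0 hS) {h₀} R (Qs w N) (paI hS) (naI hS) (EvI hS w N h₀ R Zz) (w + 1)
    (chiS hS h3 σ))

/-- tile of the touch on `w + 1`, order of time -/
abbrev kaI (hS : GP (SU u ε ω : Set ℂ)) (h3 : 3 ≤ (SU u ε ω).card) (w : ZMod 3) (N : ℕ)
    (h₀ : Cs hS) (R : Set (Cs hS)) (Zz : Zn (rc0 hS)) (σ τ : Finset ℂ) : ℕ :=
  ka (rc0 hS) {h₀} R (Qs w N) (paI hS) (naI hS) (EvI hS w N h₀ R Zz) (nT u w N) (nT u w N)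
    (Ft (SU u ε ω) (et N) (ly u N).W (oT u w N) (nT u w N))
    (tlt hS (et N) (ly u N).W (oT u w N) (nT u w N)) (chiS hS h3 σ) (chiS hS h3 τ)

/-- tile of the touch on `w + 2`, order of time -/
abbrev kbI (hS : GP (SU u ε ω : Set ℂ)) (h3 : 3 ≤ (SU u ε ω).card) (w : ZMod 3) (N : ℕ)
    (h₀ : Cs hS) (R : Set (Cs hS)) (Zz : Zn (rc0 hS)) (σ τ : Finset ℂ) : ℕ :=
  kb (rc0 hS) {h₀} R (Qs w N) (paI hS) (naI hS) (EvI hS w N h₀ R Zz) (nT u w N) (nT u w N)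
    (Ft (SU u ε ω) (et N) (ly u N).W (oT u w N) (nT u w N))
    (tlt hS (et N) (ly u N).W (oT u w N) (nT u w N)) (chiS hS h3 σ) (chiS hS h3 τ)

/-- charges of the tiles between the touches, order of time -/
abbrev WdI (hS : GP (SU u ε ω : Set ℂ)) (h3 : 3 ≤ (SU u ε ω).card) (w : ZMod 3) (N : ℕ)
    (h₀ : Cs hS) (R : Set (Cs hS)) (Zz : Zn (rc0 hS)) (d₀ : D0 (SU u ε ω)) (l : ℕ)
    (σ τ : Finset ℂ) : ℂ :=
  Wd (rc0 hS) {h₀} R (Qs w N) (paI hS) (naI hS) (EvI hS w N h₀ R Zz) (w + 1) d₀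
    (zs (rc0 hS) om (zc hS id))
    (Ft (SU u ε ω) (et N) (ly u N).W (oT u w N) (nT u w N)) l (chiS hS h3 σ) (chiS hS h3 τ)

/-- **`QuenX` at one environment** (654's `quenI` for the concrete objects) -/
theorem quen_u (X : Sx w Z hN hε hS h3 h₀ R Zz) (C : CorEnv u ε √ε K1 c2 ρ0 ω)
    (hd : 100 * √ε ≤ et N) {E : ℝ} (hE : SmE ε ω (UU u) (18 * et N) E) (d₀ : D0 (SU u ε ω))
    {η θ0 θ Qq : ℝ} {r : ℕ} (hη : 0 ≤ η)
    (hC : ∀ σ ∈ (SU u ε ω).powerset, 0 < gW Z u w hN hε (clr (SU u ε ω) σ) →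
      Vin (SU u ε ω) u.P √ε ⊆ ff (SU u ε ω) (GI hS h3 w N h₀ R Zz σ) ∧
      Cpl (SU u ε ω) (GI hS h3 w N h₀ R Zz σ) (Vin (SU u ε ω) u.P √ε)
        (Bl (SU u ε ω) (Vin (SU u ε ω) u.P √ε) u.Lab) η θ0)
    (hθ : ∀ σ ∈ (SU u ε ω).powerset, 0 < gW Z u w hN hε (clr (SU u ε ω) σ) →
      av (SU u ε ω).powerset (far r (kaI hS h3 w N h₀ R Zz) (kbI hS h3 w N h₀ R Zz)
        (fun τ => nT u w N - tB u w N ε (clr (SU u ε ω) τ))
        (fun τ => nT u w N - tA u w N ε (clr (SU u ε ω) τ)) σ) ≤ θ)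
    (hQ : ∑ l ∈ Finset.range (nT u w N), av (SU u ε ω).powerset (fun σ =>
      gW Z u w hN hε (clr (SU u ε ω) σ) * av (SU u ε ω).powerset fun τ =>
        ‖WdI hS h3 w N h₀ R Zz d₀ l σ τ‖ ^ 2) ≤ Qq) :
    QuenX (nT u w N) (r + 1) 3 (SU u ε ω) (gW Z u w hN hε) (VL Z fP u w ε hN) (tA u w N ε)
      (tB u w N ε) om (RigCx654.tI (InpJx609.mv u ε ω) (w + 1)) E (3 * (η + 2 * RU u * θ0)) θ
      Qq := by
  have L := (ly_spec hN).lay
  have hr1 := L.rr_pos w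
  have hr2 := L.rr_lt w
  have hn : 16 ≤ nT u w N := by
    show 16 ≤ nn (ly u N).A (ly u N).e w
    omega
  have hR := RU_ge u
  refine ⟨_, _, _, _, _, _, GoodAx654.quenI (hS := hS) (h3 := h3) (g := gW Z u w hN hε)
    (V := VL Z fP u w ε hN) (ta := tA u w N ε) (tb := tB u w N ε) (ω := ω) (u := u) (b := RU u)
    X.Y (by omega) X.hH X.hZ (fun σ _ h => X.hx C σ h) (fun σ _ h l h1 h2 => X.hV C σ h l h1 h2)
    (fun τ _ => TlAx58.ta_le_nn _ _ _ _ _ _ L) (fun τ _ => TlAx58.tb_le _ _ _ _ _ _ L)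
    (X.small C hd (by omega) hE d₀) hε ?_ ?_ (by linarith) ?_ hη hC hθ hQ⟩
  · exact C.hol.mono ((LocUx700.deep_sub (Real.sqrt_nonneg ε)).trans (P_sub_UU u))
  · intro x hx
    rw [mem_SU hε]
    exact ⟨fun h => h.1, fun h => ⟨h, by
      have h1 := P_norm u hx
      have h2 := one_le_Rp u
      unfold RU
      linarith⟩⟩
  · intro v hv
    rw [mem_SU hε] at hv
    exact hv.2

end sys

end Crest.Agent.R143.QuenIx597
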