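import Crest.Agent.R143.ZnG_903
import Crest.Agent.R143.SysA_168
import Crest.Agent.R143.FinC_811
import Crest.Agent.R143.CorH_713

/-!
# Row 143 (S0194), RIG, 831's CorrI: the zones of the out strand (helper903)

Instance of 323's `Zn` for the corridor of tiles `o, .., o + n - 1` of 228's path `W`,
`A = 19/2 η`, `B = 103/2 η`, `h = 100 η`.

* `clR hS F` : cells of the sites in `F`; `comp M A e` : component of `e` in `A`, connected
* `BB`, `FB` : region of a tile, enlarged by `d`; `F0`, `F1` : end tiles off the cut line,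
  `GT` : sites off all strips
* **`zn`** : the zones; `zone_W`, `zone_E` : the cells of the end tiles off the region of the strand
* `t_ext` : the top zone is in the exterior; `zT_of_pth` : membership in the top zone; `k_off`
* `col_of` : the white column of the inner gate `o + r` (field `col` of `Strd`)
-/

set_option autoImplicit false
set_option linter.unusedVariables false

noncomputable section

open scoped Classical

namespace Crest.Agent.R143.ZnLx903

open Crest.ProbabilityR.Voronoi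
open Crest.Agent.R143.B0x346 Crest.Agent.R143.DelGx806 Crest.Agent.R143.DelRx806
open Crest.Agent.R143.TileRx228 Crest.Agent.R143.ZnGx903
open Crest.Agent.R143.Gatex838 (X Y)
open Crest.Agent.R143.RE0x723 (Pth)
open Crest.Agent.R143.Frame1x395 Crest.Agent.R143.Frame2x395 Crest.Agent.R143.Frame3x395
  Crest.Agent.R143.Frame8x395 Crest.Agent.R143.NonXx592
open Crest.Agent.R143.Frame10x395
open Crest.Agent.R143.Frame5x395 (sd mem_sd)
open Crest.Agent.R143.FinCx811 Crest.Agent.R143.K33x137 Crest.Agent.R143.Uniqx323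
open Crest.Agent.R143.Extx358 Crest.Agent.R143.SysAx168
open Crest.Agent.R143.Blkx838 (DE)
open Crest.Agent.R143.Neckx921 (Neck NeckD)
open Crest.Agent.R143.RingDx117 (RD)
open Crest.Agent.R143.Locx922 (Hol)
open Crest.Agent.R143.CorHx713 Crest.Agent.R143.WLocx713

/-! ### components -/

section comp

variable {D C : Type} {M : CMap D C}

/-- the component of `e` in `A` -/
def comp (M : CMap D C) (A : Set C) (e : C) : Set C := {c | c ∈ A ∧ Lk M A c e}

theorem comp_sub {A : Set C} {e : C} : comp M A e ⊆ A := fun _ h => h.1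

theorem comp_lk {A : Set C} {e c c' : C} (h : Lk M A c c') :
    (c ∈ comp M A e ↔ c' ∈ comp M A e) ∧ (c ∈ comp M A e → Lk M (comp M A e) c c') := by
  induction h with
  | rel u v h =>
    have h1 : u ∈ comp M A e → v ∈ comp M A e := fun hu =>
      ⟨h.2.1, Lk.trans' (Relation.EqvGen.symm _ _ (Lk.edge h.1 h.2.1 h.2.2)) hu.2⟩
    have h2 : v ∈ comp M A e → u ∈ comp M A e := fun hv =>
      ⟨h.1, Lk.trans' (Lk.edge h.1 h.2.1 h.2.2) hv.2⟩
    exact ⟨⟨h1, h2⟩, fun hu => Lk.edge hu (h1 hu) h.2.2⟩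
  | refl u => exact ⟨Iff.rfl, fun _ => Relation.EqvGen.refl _⟩
  | symm u v _ ih => exact ⟨ih.1.symm, fun hv => Relation.EqvGen.symm _ _ (ih.2 (ih.1.2 hv))⟩
  | trans u v w _ _ ih1 ih2 =>
    exact ⟨ih1.1.trans ih2.1, fun hu => (ih1.2 hu).trans' (ih2.2 (ih1.1.1 hu))⟩

theorem comp_con {A : Set C} {e : C} : Cn M (comp M A e) := fun _ hc _ hc' =>
  (comp_lk (hc.2.trans' (Relation.EqvGen.symm _ _ hc'.2))).2 hc


end comp

/-! ### cells of the sites of a region -/

variable {S : Finset ℂ} {hS : GP (S : Set ℂ)} {F G V : Set ℂ} {s t : ℂ}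

/-- the cells of the sites in `F` -/
def clR (hS : GP (S : Set ℂ)) (F : Set ℂ) : Set (Cs hS) :=
  {c | ∃ s ∈ S, s ∈ F ∧ c.1 = Quot.mk (hullE S) s}

theorem clR_mono (h : F ⊆ G) : clR hS F ⊆ clR hS G := by
  rintro c ⟨s, h1, h2, h3⟩
  exact ⟨s, h1, h h2, h3⟩

/-- inner sites: the cell determines the site -/
theorem clR_disj (h : ∀ s ∈ S, s ∈ F → s ∉ G) (hi : ∀ s ∈ S, s ∈ F → ¬ OnHull S s) :
    Disjoint (clR hS F) (clR hS G) := by
  rw [Set.disjoint_left]
  rintro c ⟨s, h1, h2, h3⟩ ⟨t, h4, h5, h6⟩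
  have e : t = s := quot_inner hS (hi s h1 h2) (by rw [← h3, h6])
  rw [e] at h5
  exact h s h1 h2 h5

theorem cell_val (e : D0 S) : ((rc0 hS).cell e).1 = Quot.mk (hullE S) e.1.1 := rfl

theorem rc_val (e : D0 S) : ((rc0 hS).cell ((rc0 hS).rho e)).1 = Quot.mk (hullE S) e.1.2 := rfl

/-- an edge of the triangulation is an edge of the map -/
theorem ed_of_adj {x y : ℂ} (h : Crest.Agent.R143.JColx54.Adj S x y) {c c' : Cs hS}
    (hc : c.1 = Quot.mk (hullE S) x) (hc' : c'.1 = Quot.mk (hullE S) y) : Ed (rc0 hS) c c' := by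
  rcases h with ⟨z, hz⟩ | ⟨z, hz⟩
  · refine ⟨⟨(x, y), mem_sd.2 ⟨z, hz⟩⟩, Subtype.ext ?_, Subtype.ext ?_⟩
    · rw [cell_val, hc]
    · rw [rc_val, hc']
  · refine Ed.symm ⟨⟨(y, x), mem_sd.2 ⟨z, hz⟩⟩, Subtype.ext ?_, Subtype.ext ?_⟩
    · rw [cell_val, hc']
    · rw [rc_val, hc]

theorem mem_of_adj {x y : ℂ} (h : Crest.Agent.R143.JColx54.Adj S x y) : x ∈ S ∧ y ∈ S := by
  rcases h with ⟨z, hz⟩ | ⟨z, hz⟩
  · have := mem_delT.1 hz
    exact ⟨this.1, this.2.1⟩
  · have := mem_delT.1 hz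
    exact ⟨this.2.1, this.1⟩

/-- the cell of a site of a triangle -/
def cv (hS : GP (S : Set ℂ)) (h3 : 3 ≤ S.card) (s : ℂ) (hs : s ∈ S) : Cs hS := cs hS h3 ⟨s, hs⟩


/-- a chain of sites in `V` gives a chain of cells in `clR V` -/
theorem lk_of_pth (h3 : 3 ≤ S.card) (h : Pth S V s t) (hs : s ∈ S) {c c' : Cs hS}
    (hc : c.1 = Quot.mk (hullE S) s) (hc' : c'.1 = Quot.mk (hullE S) t) :
    Lk (rc0 hS) (clR hS V) c c' := by
  obtain ⟨hsV, h⟩ := h
  induction h generalizing c' with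
  | refl =>
    have : c = c' := Subtype.ext (hc.trans hc'.symm)
    rw [this]
    exact Relation.EqvGen.refl _
  | @tail u v h1 h2 ih =>
    obtain ⟨hu, hv⟩ := mem_of_adj h2.1
    have huV : u ∈ V := by
      rcases Relation.ReflTransGen.cases_tail h1 with h3 | ⟨w, -, h3⟩
      · rw [h3]; exact hsV
      · exact h3.2
    refine Lk.trans' (ih (c' := cv hS h3 u hu) rfl) (Lk.edge ⟨u, hu, huV, rfl⟩ ⟨v, hv, h2.2, hc'⟩ ?_)
    exact ed_of_adj h2.1 rfl hc'

/-! ### the regions -/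

/-- enlarged strip of the tile `a` -/
abbrev BB (η : ℝ) (W : ℤ → ℤ × ℤ) (a : ℤ) : Set ℂ := RR (19 / 2 * η) (103 / 2 * η) (100 * η) W a

/-- enlarged once more by `d` -/
abbrev FB (η d : ℝ) (W : ℤ → ℤ × ℤ) (a : ℤ) : Set ℂ :=
  RR (19 / 2 * η + d) (103 / 2 * η + d) (100 * η) W a

/-- the region of the strand: the out tiles without the first and the last one -/
def RtS (η : ℝ) (W : ℤ → ℤ × ℤ) (o : ℤ) (n : ℕ) : Set ℂ :=
  {q | ∃ k : ℕ, 0 < k ∧ k + 1 < n ∧ q ∈ BB η W (o + k)}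

/-- the tile `a` behind the cut line of the gate `a + 1` -/
def F0 (η d : ℝ) (W : ℤ → ℤ × ℤ) (a : ℤ) : Set ℂ :=
  {q | q ∈ FB η d W a ∧ X (gz (100 * η) W (a + 1)) (ge W (a + 1)) q ≤ 100 * η / 2 - 103 / 2 * η}

/-- the tile `a` behind the cut line of the gate `a` -/
def F1 (η d : ℝ) (W : ℤ → ℤ × ℤ) (a : ℤ) : Set ℂ :=
  {q | q ∈ FB η d W a ∧ 103 / 2 * η - 100 * η / 2 ≤ X (gz (100 * η) W a) (ge W a) q}

/-- off all the strips, off the tiles of `J` enlarged -/
def GT (η d : ℝ) (W : ℤ → ℤ × ℤ) (J : Set ℤ) : Set ℂ :=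
  {q | (∀ a, q ∉ BB η W a) ∧ ∀ a ∈ J, q ∉ FB η d W a}

/-- the window of the gate `a` in the strip -/
def KS (η : ℝ) (W : ℤ → ℤ × ℤ) (a : ℤ) : Set ℂ :=
  {q | |X (gz (100 * η) W a) (ge W a) q| < η ∧ |Y (gz (100 * η) W a) (ge W a) q| < 19 / 2 * η}

section geo

variable {Xs : Set (ℂ × Bool)} {U : Set ℂ} {M : ℕ} {W : ℤ → ℤ × ℤ} {η d : ℝ} {o : ℤ} {n r : ℕ}
  {J : Set ℤ} {a b : ℤ} {q : ℂ}

theorem ndvd {k : ℤ} (h0 : 0 < k) (h1 : k < M) : ¬ (M : ℤ) ∣ k := fun h => by
  have := Int.le_of_dvd h0 h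
  omega

theorem BB_FB (hd : 0 ≤ d) : BB η W a ⊆ FB η d W a := RR_mono (by linarith) (by linarith) _ _ _

/-- tiles which are not neighbours are disjoint, also enlarged -/
theorem fat_disj (H : CorH Xs U M W η d o n) (h0 : ¬ (M : ℤ) ∣ b - a) (h1 : ¬ (M : ℤ) ∣ b - (a + 1))
    (h2 : ¬ (M : ℤ) ∣ b - (a - 1)) : Disjoint (FB η d W a) (FB η d W b) := by
  have h3 := H.e0
  have h4 := H.d0
  have h5 := H.de
  exact disj H.path (by linarith) (by linarith) (by linarith) h0 h1 h2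

theorem F0_BB (H : CorH Xs U M W η d o n) (hq : q ∈ F0 η d W a) : q ∉ BB η W (a + 1) := by
  intro h
  have h3 := H.e0
  have h1 := (right H.path (by linarith) h).1
  linarith [hq.2]

theorem F1_BB (H : CorH Xs U M W η d o n) (hq : q ∈ F1 η d W a) : q ∉ BB η W (a - 1) := by
  intro h
  have h3 := H.e0
  have h1 := (left H.path (by linarith) h).1
  rw [sub_add_cancel] at h1
  linarith [hq.2]

/-- the end tile `o` off the cut line is off the region of the strand -/
theorem F0_Rt (H : CorH Xs U M W η d o n) (hq : q ∈ F0 η d W o) : q ∉ RtS η W o n := by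
  rintro ⟨k, h1, h2, h3⟩
  have hM := H.nM
  rcases Nat.lt_or_ge 1 k with h | h
  · exact Set.disjoint_left.1 (fat_disj H (a := o) (b := o + k) (ndvd (by omega) (by omega))
      (ndvd (by omega) (by omega)) (ndvd (by omega) (by omega))) hq.1 (BB_FB H.d0.le h3)
  · obtain rfl : k = 1 := by omega
    exact F0_BB H hq h3

theorem F1_Rt (H : CorH Xs U M W η d o n) (hq : q ∈ F1 η d W (o + n - 1)) : q ∉ RtS η W o n := by
  rintro ⟨k, h1, h2, h3⟩
  have hM := H.nM
  rcases Nat.lt_or_ge (k + 2) n with h | h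
  · exact Set.disjoint_left.1 (fat_disj H (a := o + k) (b := o + n - 1)
      (ndvd (by omega) (by omega)) (ndvd (by omega) (by omega)) (ndvd (by omega) (by omega)))
      (BB_FB H.d0.le h3) hq.1
  · refine F1_BB H hq ?_
    rwa [show o + (n : ℤ) - 1 - 1 = o + k by omega]

/-- the two end tiles are disjoint -/
theorem F0_F1 (H : CorH Xs U M W η d o n) (hn : 3 ≤ n) (hq : q ∈ F0 η d W o) :
    q ∉ F1 η d W (o + n - 1) := fun h => by
  have hM := H.nM
  exact Set.disjoint_left.1 (fat_disj H (a := o) (b := o + n - 1)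
    (ndvd (by omega) (by omega)) (ndvd (by omega) (by omega)) (ndvd (by omega) (by omega)))
    hq.1 h.1

/-- a site of the tile `o` off the region of the strand is behind the cut line -/
theorem cut_W (H : CorH Xs U M W η d o n) (hn : 3 ≤ n) (hq : q ∈ BB η W o)
    (h : q ∉ RtS η W o n) :
    X (gz (100 * η) W (o + 1)) (ge W (o + 1)) q ≤ 100 * η / 2 - 103 / 2 * η := by
  by_contra hc
  push Not at hc
  have h3 := H.e0
  obtain ⟨h1, h2⟩ := left H.path (by linarith) hq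
  refine h ⟨1, one_pos, by omega, ?_⟩
  have h4 := h2 (by linarith)
  exact win_right H.path (by linarith) (by linarith) (abs_lt.2 ⟨by push_cast; linarith, by push_cast; linarith⟩)
    (by push_cast; exact h4)

theorem cut_E (H : CorH Xs U M W η d o n) (hn : 3 ≤ n) (hq : q ∈ BB η W (o + n - 1))
    (h : q ∉ RtS η W o n) :
    103 / 2 * η - 100 * η / 2 ≤ X (gz (100 * η) W (o + n - 1)) (ge W (o + n - 1)) q := by
  by_contra hc
  push Not at hc
  have h3 := H.e0
  obtain ⟨h1, h2⟩ := right H.path (by linarith) hq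
  have h4 := h2 (by linarith)
  refine h ⟨n - 2, by omega, by omega, ?_⟩
  have e : o + (n : ℤ) - 1 = o + ((n - 2 : ℕ) : ℤ) + 1 := by omega
  rw [e] at h1 hc h4
  exact win_left H.path (by linarith) (by linarith) (abs_lt.2 ⟨by linarith, by linarith⟩) h4

/-- the window of an inner gate is in the region of the strand -/
theorem KS_Rt (H : CorH Xs U M W η d o n) (h0 : 0 < r) (h1 : r + 1 < n) :
    KS η W (o + r) ⊆ RtS η W o n := by
  have h3 := H.e0
  rintro q ⟨h4, h5⟩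
  exact ⟨r, h0, h1, win_right H.path (by linarith) (by linarith) (by linarith) h5⟩

/-- the window of the gate `a` is off the tiles which are not its neighbours -/
theorem KS_off (H : CorH Xs U M W η d o n) (h0 : ¬ (M : ℤ) ∣ a - b) (h1 : ¬ (M : ℤ) ∣ a - (b + 1))
    (hq : q ∈ KS η W a) : q ∉ BB η W b := by
  have h3 := H.e0
  have h4 : q ∈ BB η W (a - 1) := by
    have h5 := hq.1
    have h6 := hq.2
    refine win_left H.path (by linarith) (by linarith) ?_ ?_
    · rw [sub_add_cancel]; linarith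
    · rw [sub_add_cancel]; exact h6
  have h5 : q ∈ BB η W a := win_right H.path (by linarith) (by linarith) (by linarith [hq.1]) hq.2
  exact far H.path (by linarith) (by linarith) (by linarith) h0 h1 h4 h5

/-! ### inner sites -/

theorem FB_U (H : CorH Xs U M W η d o n) (a : ℤ) : FB η d W a ⊆ U := by
  have h1 := H.e0
  have h2 := H.d0
  have h3 := H.de
  exact H.sub_U (by linarith) (by linarith) a

theorem BB_U (H : CorH Xs U M W η d o n) (a : ℤ) : BB η W a ⊆ U :=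
  (BB_FB H.d0.le).trans (FB_U H a)


theorem hole (H : CorH Xs U M W η d o n) {z : ℂ} (hz : z ∈ U) : ∃ t ∈ sX Xs, ‖z - t‖ < d := by
  obtain ⟨t, ht, h⟩ := H.holS z hz z (by rw [sub_self, norm_zero]; exact H.d0.le)
  exact ⟨t, Finset.mem_coe.1 ht, by rw [norm_sub_rev]; exact h⟩

theorem card3 (H : CorH Xs U M W η d o n) : 3 ≤ (sX Xs).card :=
  Crest.Agent.R143.Locx922.three_le H.d0 H.holS (BB_U H o (by
    have h1 := H.e0
    have h2 := RR_mono (A := 9 * η) (B := 51 * η) (A' := 19 / 2 * η) (B' := 103 / 2 * η)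
      (by linarith) (by linarith) (100 * η) W o
    exact h2 (H.cen_mem o)))

/-- the site of the centre of the tile `a` -/
theorem ex_core (H : CorH Xs U M W η d o n) (a : ℤ) :
    ∃ s ∈ sX Xs, cen (100 * η) W a ∈ voronoiCell (sX Xs : Set ℂ) s :=
  Crest.Agent.R143.G6Wx723.exists_cell (Finset.card_pos.1 (by have := card3 H; omega)) _

def coreS (H : CorH Xs U M W η d o n) (a : ℤ) : ℂ := (ex_core H a).choose

theorem coreS_mem (H : CorH Xs U M W η d o n) (a : ℤ) : coreS H a ∈ sX Xs :=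
  (ex_core H a).choose_spec.1

theorem coreS_cell (H : CorH Xs U M W η d o n) (a : ℤ) :
    cen (100 * η) W a ∈ voronoiCell (sX Xs : Set ℂ) (coreS H a) := (ex_core H a).choose_spec.2

/-- the cell of the site of the centre -/
def core (H : CorH Xs U M W η d o n) (a : ℤ) : Cs H.gp :=
  cv H.gp (card3 H) (coreS H a) (coreS_mem H a)

/-! ### the zones -/

/-- region of the strand -/
def zR (H : CorH Xs U M W η d o n) : Set (Cs H.gp) := clR H.gp (RtS η W o n)

/-- window of the gate `o + r` -/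
def zK (H : CorH Xs U M W η d o n) (r : ℕ) : Set (Cs H.gp) := clR H.gp (KS η W (o + r))

/-- exit zone -/
def zW (H : CorH Xs U M W η d o n) : Set (Cs H.gp) :=
  comp (rc0 H.gp) (clR H.gp (F0 η d W o)) (core H o)

/-- entrance zone -/
def zE (H : CorH Xs U M W η d o n) : Set (Cs H.gp) :=
  comp (rc0 H.gp) (clR H.gp (F1 η d W (o + n - 1))) (core H (o + n - 1))

/-- top zone -/
def zT (H : CorH Xs U M W η d o n) (J : Set ℤ) (h0 : Cs H.gp) : Set (Cs H.gp) :=
  comp (rc0 H.gp) (clR H.gp (GT η d W J)) h0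



/-! ### the cells of the end tiles -/

theorem site_W (H : CorH Xs U M W η d o n) (hn : 3 ≤ n) {s : ℂ} (hs : s ∈ sX Xs)
    (hB : s ∈ BB η W o) (hR : s ∉ RtS η W o n) {c : Cs H.gp} (hc : c.1 = Quot.mk _ s) :
    c ∈ zW H := by
  have h1 := H.e0
  have h2 := H.d0
  have h3 := H.de
  have hcut := cut_W H hn hB hR
  refine ⟨⟨s, hs, ⟨BB_FB h2.le hB, hcut⟩, hc⟩, ?_⟩
  have key := core_out H.path H.gp (card3 H) h2 (A := 19 / 2 * η) (B := 103 / 2 * η)
    (by linarith) (by linarith) (B₁ := 103 / 2 * η) (by linarith)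
    (fun z hz => hole H (BB_U H _ hz)) hs hB hcut (coreS_mem H o) (coreS_cell H o)
  refine (lk_of_pth (hS := H.gp) (card3 H) key hs hc (c' := core H o) rfl).mono (clR_mono ?_)
  rintro q ⟨-, g1, g2⟩
  exact ⟨g1, g2⟩

theorem site_E (H : CorH Xs U M W η d o n) (hn : 3 ≤ n) {s : ℂ} (hs : s ∈ sX Xs)
    (hB : s ∈ BB η W (o + n - 1)) (hR : s ∉ RtS η W o n) {c : Cs H.gp}
    (hc : c.1 = Quot.mk _ s) : c ∈ zE H := by
  have h1 := H.e0
  have h2 := H.d0
  have h3 := H.de
  have hcut := cut_E H hn hB hR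
  refine ⟨⟨s, hs, ⟨BB_FB h2.le hB, hcut⟩, hc⟩, ?_⟩
  have key := core_in H.path H.gp (card3 H) h2 (A := 19 / 2 * η) (B := 103 / 2 * η)
    (by linarith) (by linarith) (B₁ := 103 / 2 * η) (by linarith)
    (fun z hz => hole H (BB_U H _ hz)) hs hB hcut (coreS_mem H _) (coreS_cell H _)
  refine (lk_of_pth (hS := H.gp) (card3 H) key hs hc (c' := core H (o + n - 1)) rfl).mono
    (clR_mono ?_)
  rintro q ⟨-, g1, g2⟩
  exact ⟨g1, g2⟩

theorem dart_S (H : CorH Xs U M W η d o n) (e : D0 (sX Xs)) : e.1.1 ∈ sX Xs ∧ e.1.2 ∈ sX Xs := by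
  obtain ⟨c, hc⟩ := mem_sd.1 e.2
  have := mem_delT.1 hc
  exact ⟨this.1, this.2.1⟩

/-- the cells of a dart of a region -/
theorem dart_site (H : CorH Xs U M W η d o n) {B : Set ℂ} {e : D0 (sX Xs)} (he : e ∈ RD (sX Xs) B)
    {c : Cs H.gp} (hc : c = (rc0 H.gp).cell e ∨ c = (rc0 H.gp).cell ((rc0 H.gp).rho e)) :
    ∃ s ∈ sX Xs, s ∈ B ∧ c.1 = Quot.mk _ s := by
  obtain ⟨h1, h2⟩ := dart_S H e
  rcases hc with rfl | rfl
  · exact ⟨e.1.1, h1, he.1, rfl⟩
  · exact ⟨e.1.2, h2, he.2, rfl⟩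

/-- **the cells of the last arc off the region of the strand are in the exit zone** -/
theorem zone_W (H : CorH Xs U M W η d o n) (hn : 3 ≤ n) {e : D0 (sX Xs)}
    (he : e ∈ RD (sX Xs) (BB η W o)) {c : Cs H.gp}
    (hc : c = (rc0 H.gp).cell e ∨ c = Rc (rc0 H.gp) e) (hR : c ∉ zR H) : c ∈ zW H := by
  obtain ⟨s, h1, h2, h3⟩ := dart_site H he hc
  exact site_W H hn h1 h2 (fun h => hR ⟨s, h1, h, h3⟩) h3

/-- **the cells of the first arc off the region of the strand are in the entrance zone** -/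
theorem zone_E (H : CorH Xs U M W η d o n) (hn : 3 ≤ n) {e : D0 (sX Xs)}
    (he : e ∈ RD (sX Xs) (BB η W (o + n - 1))) {c : Cs H.gp}
    (hc : c = (rc0 H.gp).cell e ∨ c = Rc (rc0 H.gp) e) (hR : c ∉ zR H) : c ∈ zE H := by
  obtain ⟨s, h1, h2, h3⟩ := dart_site H he hc
  exact site_E H hn h1 h2 (fun h => hR ⟨s, h1, h, h3⟩) h3

/-! ### the top zone -/




/-! ### the column -/

/-- a chain of sites with their cells in `A` -/
theorem lk_list {S : Finset ℂ} {hS : GP (S : Set ℂ)} (h3 : 3 ≤ S.card) {A : Set (Cs hS)} :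
    ∀ (l : List ℂ) (hl : l ≠ []), (∀ p ∈ ToolWx838.prs l, DE S p.1 p.2) → (∀ s ∈ l, s ∈ S) →
      (∀ s ∈ l, ∀ c : Cs hS, c.1 = Quot.mk _ s → c ∈ A) → ∀ c c' : Cs hS,
      c.1 = Quot.mk _ (l.head hl) → c'.1 = Quot.mk _ (l.getLast hl) → Lk (rc0 hS) A c c' := by
  intro l
  induction l with
  | nil => intro hl; exact absurd rfl hl
  | cons u l ih =>
    intro hl hadj hmem hA c c' hc hc'
    cases l with
    | nil =>
      have : c = c' := Subtype.ext (hc.trans hc'.symm)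
      rw [this]
      exact Relation.EqvGen.refl _
    | cons v l =>
      have hu : u ∈ S := hmem u (by simp)
      have hv : v ∈ S := hmem v (by simp)
      have h1 : DE S u v := hadj (u, v) (by simp [ToolWx838.prs])
      have h2 : Lk (rc0 hS) A (cv hS h3 v hv) c' := by
        refine ih (by simp) (fun p hp => hadj p ?_) (fun s hs => hmem s ?_) (fun s hs => hA s ?_)
          _ _ rfl ?_
        · simp only [ToolWx838.prs] at hp ⊢
          exact List.mem_cons_of_mem _ hp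
        · exact List.mem_cons_of_mem _ hs
        · exact List.mem_cons_of_mem _ hs
        · rw [hc']
          simp
      refine Lk.trans' (Lk.edge (hA u (by simp) c hc) (hA v (by simp) _ rfl) ?_) h2
      exact ed_of_adj (hS := hS) h1 hc rfl

/-- **the white column of the inner gate `o + r`** -/
theorem col_of (H : CorH Xs U M W η d o n) {r : ℕ} {c0 : Cs H.gp} {χ : Cs H.gp → ZMod 2}
    {b : ZMod 2} (hχ : ∀ s ∈ sX Xs, s ∉ bX Xs → ∀ c : Cs H.gp, c.1 = Quot.mk _ s → χ c = b)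
    (htop : ∀ s ∈ sX Xs, |X (gz (100 * η) W (o + r)) (ge W (o + r)) s| < η →
      19 / 2 * η ≤ Y (gz (100 * η) W (o + r)) (ge W (o + r)) s →
      Y (gz (100 * η) W (o + r)) (ge W (o + r)) s ≤ 11 * η →
      ∀ c : Cs H.gp, c.1 = Quot.mk _ s → c ∈ zT H J c0)
    {c : Cs H.gp} (hc : c.1 = Quot.mk _ (xx η W Xs (o + r))) :
    ∃ t ∈ zT H J c0, Lk (rc0 H.gp) ({c | c ∈ zK H r ∧ χ c = b} ∪ zT H J c0) c t := by
  obtain ⟨up, dn, N, hx⟩ := H.neck (o + r)
  have he := H.e0
  -- the sites of the column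
  have hup : ∀ s ∈ up, s ∈ sX Xs ∧ s ∉ bX Xs := N.cu
  have hwin : ∀ s ∈ up, |X (gz (100 * η) W (o + r)) (ge W (o + r)) s| < η ∧
      -(9 * η) < Y (gz (100 * η) W (o + r)) (ge W (o + r)) s ∧
      Y (gz (100 * η) W (o + r)) (ge W (o + r)) s ≤ 11 * η := by
    intro s hs
    obtain ⟨⟨g1, g2⟩, g3, g4⟩ := N.win s (List.mem_append_left _ hs)
    exact ⟨abs_lt.2 ⟨g1, g2⟩, N.upb s hs, by linarith⟩
  have hA : ∀ s ∈ up, ∀ c : Cs H.gp, c.1 = Quot.mk _ s →
      c ∈ ({c | c ∈ zK H r ∧ χ c = b} ∪ zT H J c0 : Set (Cs H.gp)) := by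
    intro s hs c hc
    obtain ⟨g1, g2⟩ := hup s hs
    obtain ⟨g3, g4, g5⟩ := hwin s hs
    rcases lt_or_ge (Y (gz (100 * η) W (o + r)) (ge W (o + r)) s) (19 / 2 * η) with h | h
    · exact Or.inl ⟨⟨s, g1, ⟨g3, abs_lt.2 ⟨by linarith, h⟩⟩, hc⟩, hχ s g1 g2 c hc⟩
    · exact Or.inr (htop s g1 g3 h g5 c hc)
  have hhd : up.head N.nu ∈ up := List.head_mem _
  have hh := hwin _ hhd
  have ht := N.top
  refine ⟨cv H.gp (card3 H) (up.head N.nu) (hup _ hhd).1,
    htop _ (hup _ hhd).1 hh.1 (by linarith) hh.2.2 _ rfl, ?_⟩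
  refine Relation.EqvGen.symm _ _ (lk_list (hS := H.gp) (card3 H) up N.nu (fun p hp => ?_)
    (fun s hs => (hup s hs).1) hA _ _ rfl ?_)
  · have h1 := N.adj
    rw [← ToolWx838.isChain_iff_prs, List.isChain_append] at h1
    exact (ToolWx838.isChain_iff_prs _).1 h1.1 p hp
  · rw [hc, ← hx]

end geo

end Crest.Agent.R143.ZnLx903
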