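import Crest.Agent.R143.SepU_697
import Crest.Agent.R143.EvG_168
import Crest.Agent.R143.ZnL_903
import Crest.Agent.R143.RcT_422
import Crest.Agent.R143.CorrC_831
import Crest.Agent.R143.LnkM_927
import Crest.Agent.R143.CorE_133
import Crest.Agent.R143.OutP_571
import Crest.Agent.R143.QuenI_597
import Crest.Agent.R143.RigZ_609
import Crest.Agent.R143.HTop_903

-- ▼ part R143/SepS_697
section

/-!
# Row 143 (S0194), RIG, CorrI (b): the hypothesis `hsep` of `EvGx168.evA_of` (helper697)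

* `sth_of_sd` : 168's `SD` for `CorH` is the strand `StH`
* **`sep_sd`** : `hsep` literally; `notExt_sd` : sites of `K0 (100 η) (10 η) u ⊇ u.P` and the gates
  are not in `Ext`
-/

set_option autoImplicit false

noncomputable section

open scoped Classical

namespace Crest.Agent.R143.SepSx697

open Crest.Agent.R143.B0x346 Crest.Agent.R143.DelGx806 Crest.Agent.R143.DelRx806
open Crest.Agent.R143.Frame1x395 Crest.Agent.R143.Frame2x395
  Crest.Agent.R143.Frame4x395 Crest.Agent.R143.Frame10x395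
open Crest.Agent.R143.Frame8x395 (cfg)
open Crest.Agent.R143.Splx117 Crest.Agent.R143.WLocx713 Crest.Agent.R143.RingDx117
open Crest.Agent.R143.TileRx228
open Crest.Agent.R143.CorHx713
open Crest.Agent.R143.RcTx422
open Crest.Agent.R143.FinCx811 (rc0 Cs rcol cs)
open Crest.Agent.R143.OutSx358 (zc)
open Crest.Agent.R143.Gntx535 (wl wr)
open Crest.Agent.R143.PolyUx346 Crest.Agent.R143.Layx416 Crest.Agent.R143.LayUx416
open Crest.Agent.R143.RegSx523 (K0)
open Crest.Agent.R143.EvGx168 (SD)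
open Crest.Agent.R143.SepHx697 Crest.Agent.R143.SepUx697

variable {X : Set (ℂ × Bool)} {U : Set ℂ} {M n : ℕ} {W : ℤ → ℤ × ℤ} {η d : ℝ} {o : ℤ}

/-- the strand on `cm0` -/
theorem sth_of_sd {H : CorH X U M W η d o n} {Rs : Set (D0 (sX X))} {q : D0 (sX X)} {N : ℕ}
    {T : ℕ → ℕ} (St : SD H.gp H.hull n Rs H.p
      (fun k : ℕ => RR (19 / 2 * η) (103 / 2 * η) (100 * η) W (o + k)) q N T) : StH H Rs q N T :=
  str_restr.1 St

variable {u : Poly} {mm : ℕ} {p : ℤ → ℤ × ℤ} {aa e : ℤ → ℤ} {i : ZMod 3}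

/-- **`hsep`** -/
theorem sep_sd (L : LayU u mm M p W aa e) (hh : (mm : ℝ) * (100 * η) = u.s)
    (H : CorH X U M W η d (al aa e i) (nn aa e i)) {Rs : Set (D0 (sX X))} {Rw : Set (Cs H.gp)}
    (hRw : ∀ s ∈ sX X, s ∈ BR η W M (al aa e i) (nn aa e i) → ∃ c ∈ Rw, c.1 = Quot.mk _ s)
    {hc : Cs H.gp} (hhc : hc ∈ Hc H.gp) (q : D0 (sX X)) (N : ℕ) (T : ℕ → ℕ)
    (St : SD H.gp H.hull (nn aa e i) Rs H.p
      (fun k : ℕ => RR (19 / 2 * η) (103 / 2 * η) (100 * η) W (al aa e i + k)) q N T) :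
    Extx358.Sep (rc0 H.gp) {hc} (zc (rc0 H.gp) Rw q (T (nn aa e i)) (rcol H.gp (cX X) H.hull))
      (wl (rc0 H.gp) (cfg (rc0 H.gp) (rcol H.gp (cX X) H.hull)) q (T (nn aa e i))) := by
  have h := (sepU L hh (sth_of_sd St) hRw).1
  rw [Hc_eq hhc] at h
  exact h

/-- the polygon and the gates are not in `Ext` -/
theorem notExt_sd (L : LayU u mm M p W aa e) (hh : (mm : ℝ) * (100 * η) = u.s)
    (H : CorH X U M W η d (al aa e i) (nn aa e i)) {Rs : Set (D0 (sX X))} {Rw : Set (Cs H.gp)}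
    (hRw : ∀ s ∈ sX X, s ∈ BR η W M (al aa e i) (nn aa e i) → ∃ c ∈ Rw, c.1 = Quot.mk _ s)
    {hc : Cs H.gp} (hhc : hc ∈ Hc H.gp) {q : D0 (sX X)} {N : ℕ} {T : ℕ → ℕ}
    (St : SD H.gp H.hull (nn aa e i) Rs H.p
      (fun k : ℕ => RR (19 / 2 * η) (103 / 2 * η) (100 * η) W (al aa e i + k)) q N T) :
    (∀ v ∈ K0 (100 * η) (10 * η) u, ∀ c : Cs H.gp, c.1 = Quot.mk _ v →
      ¬ Extx358.Ext (rc0 H.gp) {hc}
        (zc (rc0 H.gp) Rw q (T (nn aa e i)) (rcol H.gp (cX X) H.hull)) c) ∧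
    (∀ v ∈ u.P, ∀ c : Cs H.gp, c.1 = Quot.mk _ v →
      ¬ Extx358.Ext (rc0 H.gp) {hc}
        (zc (rc0 H.gp) Rw q (T (nn aa e i)) (rcol H.gp (cX X) H.hull)) c) ∧
    (∀ k : ℕ, k ≤ nn aa e i → ∀ c : Cs H.gp, c.1 = Quot.mk _ (yy η W X (al aa e i + k)) →
      ¬ Extx358.Ext (rc0 H.gp) {hc}
        (zc (rc0 H.gp) Rw q (T (nn aa e i)) (rcol H.gp (cX X) H.hull)) c) := by
  have h := (sepU L hh (sth_of_sd St) hRw).2
  rw [Hc_eq hhc] at h
  exact h

end Crest.Agent.R143.SepSx697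
end
end

-- ▼ part R143/ZEnv_168
section

/-!
# Row 143 (S0194), RIG, CorrI: 903's zones on a FIXED environment (helper168)

903's `ZnLx903.zn H` (`H : CorH X ..`) lives on `rc0 H.gp`; here the same sets for a fixed set `S` of
sites, without any colouring.
* `EnvZ` : fine path, numbers, no hull site in the enlarged strips
* `coreS'`, `cmp` : site of the centre of a tile, component of a site
* **`znE`** : `Zn (rc0 hS)`; `znE_R`, .. (fields), `k_envz` (`hK` of `sysA`), `t_envz` (`hT`), `R_envz`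
  (`Z.R = RC hS ..`)
* `zE_eq`, `zW_eq`, `zT_eq` : the sets are 903's for every `H : CorH X ..` with `sX X = S`
-/

set_option autoImplicit false
set_option linter.all false

noncomputable section

open scoped Classical

namespace Crest.Agent.R143.ZEnvx168

open Crest.ProbabilityR.Voronoi
open Crest.Agent.R143.B0x346 Crest.Agent.R143.DelGx806 Crest.Agent.R143.DelRx806
open Crest.Agent.R143.TileRx228 Crest.Agent.R143.ZnGx903
open Crest.Agent.R143.Gatex838 (X Y)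
open Crest.Agent.R143.RE0x723 (Pth)
open Crest.Agent.R143.Frame1x395 Crest.Agent.R143.Frame2x395 Crest.Agent.R143.Frame3x395
  Crest.Agent.R143.Frame8x395 Crest.Agent.R143.NonXx592
open Crest.Agent.R143.Frame10x395
open Crest.Agent.R143.FinCx811 Crest.Agent.R143.K33x137 Crest.Agent.R143.Uniqx323
open Crest.Agent.R143.Extx358 Crest.Agent.R143.SysAx168
open Crest.Agent.R143.CorHx713 Crest.Agent.R143.WLocx713 Crest.Agent.R143.ZnLx903

variable {S : Finset ℂ} {hS : GP (S : Set ℂ)} {M n r : ℕ} {W : ℤ → ℤ × ℤ} {η d : ℝ} {o : ℤ}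
  {J : Set ℤ} {a b : ℤ} {q : ℂ} {F G : Set ℂ} {t : ℂ}

/-- fine path, numbers, no hull site in the enlarged strips -/
structure EnvZ (S : Finset ℂ) (M : ℕ) (W : ℤ → ℤ × ℤ) (η d : ℝ) (o : ℤ) (n : ℕ) : Prop where
  path : FPath M W
  e0 : 0 < η
  d0 : 0 < d
  de : 100 * d ≤ η
  nM : n + 4 ≤ M
  inn : ∀ a : ℤ, ∀ s ∈ S, s ∈ FB η d W a → ¬ OnHull S s

/-! ### component of a site -/

/-- the site of the centre of the tile `a` -/
def coreS' (S : Finset ℂ) (η : ℝ) (W : ℤ → ℤ × ℤ) (a : ℤ) : ℂ :=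
  if h : ∃ s ∈ S, cen (100 * η) W a ∈ voronoiCell (S : Set ℂ) s then h.choose else 0

/-- the component of the cell of the site `t` in the cells of `F` -/
def cmp (hS : GP (S : Set ℂ)) (F : Set ℂ) (t : ℂ) : Set (Cs hS) :=
  {c | c ∈ clR hS F ∧ ∃ c' : Cs hS, c'.1 = Quot.mk (hullE S) t ∧
    Lk (rc0 hS) (clR hS F) c c'}

theorem comp_cmp {c' : Cs hS} (h : c'.1 = Quot.mk (hullE S) t) :
    comp (rc0 hS) (clR hS F) c' = cmp hS F t := by
  ext c
  constructor
  · rintro ⟨h1, h2⟩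
    exact ⟨h1, c', h, h2⟩
  · rintro ⟨h1, c'', h2, h3⟩
    have e : c'' = c' := Subtype.ext (h2.trans h.symm)
    exact ⟨h1, e ▸ h3⟩

theorem cmp_sub : cmp hS F t ⊆ clR hS F := fun _ h => h.1

theorem cmp_con : Cn (rc0 hS) (cmp hS F t) := by
  intro c hc e he
  obtain ⟨-, c', h1, -⟩ := id hc
  rw [← comp_cmp h1] at hc he ⊢
  exact comp_con c hc e he

/-! ### geometry -/

theorem fat_disj (H : EnvZ S M W η d o n) (h0 : ¬ (M : ℤ) ∣ b - a) (h1 : ¬ (M : ℤ) ∣ b - (a + 1))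
    (h2 : ¬ (M : ℤ) ∣ b - (a - 1)) : Disjoint (FB η d W a) (FB η d W b) := by
  have h3 := H.e0
  have h4 := H.d0
  have h5 := H.de
  exact disj H.path (by linarith) (by linarith) (by linarith) h0 h1 h2

theorem F0_BB (H : EnvZ S M W η d o n) (hq : q ∈ F0 η d W a) : q ∉ BB η W (a + 1) := by
  intro h
  have h3 := H.e0
  have h1 := (right H.path (by linarith) h).1
  linarith [hq.2]

theorem F1_BB (H : EnvZ S M W η d o n) (hq : q ∈ F1 η d W a) : q ∉ BB η W (a - 1) := by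
  intro h
  have h3 := H.e0
  have h1 := (left H.path (by linarith) h).1
  rw [sub_add_cancel] at h1
  linarith [hq.2]

theorem F0_Rt (H : EnvZ S M W η d o n) (hq : q ∈ F0 η d W o) : q ∉ RtS η W o n := by
  rintro ⟨k, h1, h2, h3⟩
  have hM := H.nM
  rcases Nat.lt_or_ge 1 k with h | h
  · exact Set.disjoint_left.1 (fat_disj H (a := o) (b := o + k) (ndvd (by omega) (by omega))
      (ndvd (by omega) (by omega)) (ndvd (by omega) (by omega))) hq.1 (BB_FB H.d0.le h3)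
  · obtain rfl : k = 1 := by omega
    exact F0_BB H hq h3

theorem F1_Rt (H : EnvZ S M W η d o n) (hq : q ∈ F1 η d W (o + n - 1)) : q ∉ RtS η W o n := by
  rintro ⟨k, h1, h2, h3⟩
  have hM := H.nM
  rcases Nat.lt_or_ge (k + 2) n with h | h
  · exact Set.disjoint_left.1 (fat_disj H (a := o + k) (b := o + n - 1)
      (ndvd (by omega) (by omega)) (ndvd (by omega) (by omega)) (ndvd (by omega) (by omega)))
      (BB_FB H.d0.le h3) hq.1
  · refine F1_BB H hq ?_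
    rwa [show o + (n : ℤ) - 1 - 1 = o + k by omega]

theorem F0_F1 (H : EnvZ S M W η d o n) (hn : 3 ≤ n) (hq : q ∈ F0 η d W o) :
    q ∉ F1 η d W (o + n - 1) := fun h => by
  have hM := H.nM
  exact Set.disjoint_left.1 (fat_disj H (a := o) (b := o + n - 1)
    (ndvd (by omega) (by omega)) (ndvd (by omega) (by omega)) (ndvd (by omega) (by omega)))
    hq.1 h.1

theorem KS_BB (H : EnvZ S M W η d o n) (hq : q ∈ KS η W a) : q ∈ BB η W a := by
  have h3 := H.e0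
  exact win_right H.path (by linarith) (by linarith) (by linarith [hq.1]) hq.2

theorem KS_Rt (H : EnvZ S M W η d o n) (h0 : 0 < r) (h1 : r + 1 < n) :
    KS η W (o + r) ⊆ RtS η W o n := fun _ hq => ⟨r, h0, h1, KS_BB H hq⟩

/-- the window of the gate `a` is off the tiles which are not its neighbours -/
theorem KS_off (H : EnvZ S M W η d o n) (h0 : ¬ (M : ℤ) ∣ a - b) (h1 : ¬ (M : ℤ) ∣ a - (b + 1))
    (hq : q ∈ KS η W a) : q ∉ BB η W b := by
  have h3 := H.e0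
  have h4 : q ∈ BB η W (a - 1) := by
    have h5 := hq.1
    have h6 := hq.2
    refine win_left H.path (by linarith) (by linarith) ?_ ?_
    · rw [sub_add_cancel]; linarith
    · rw [sub_add_cancel]; exact h6
  exact far H.path (by linarith) (by linarith) (by linarith) h0 h1 h4 (KS_BB H hq)

theorem innB (H : EnvZ S M W η d o n) : ∀ s ∈ S, s ∈ BB η W a → ¬ OnHull S s :=
  fun s hs h => H.inn a s hs (BB_FB H.d0.le h)

theorem innR (H : EnvZ S M W η d o n) : ∀ s ∈ S, s ∈ RtS η W o n → ¬ OnHull S s := by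
  rintro s hs ⟨k, -, -, h⟩
  exact innB H s hs h

/-! ### the zones -/

/-- **903's zones on the sites `S`** -/
def znE (hS : GP (S : Set ℂ)) (H : EnvZ S M W η d o n) (hn : 3 ≤ n) (h0 : 0 < r) (h1 : r + 1 < n)
    (hJ : o ∈ J) (hJ' : o + n - 1 ∈ J) (c0 : Cs hS) : Zn (rc0 hS) where
  R := clR hS (RtS η W o n)
  K := clR hS (KS η W (o + r))
  E := cmp hS (F1 η d W (o + n - 1)) (coreS' S η W (o + n - 1))
  W := cmp hS (F0 η d W o) (coreS' S η W o)
  T := comp (rc0 hS) (clR hS (GT η d W J)) c0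
  KR := clR_mono (KS_Rt H h0 h1)
  cE := cmp_con
  cW := cmp_con
  cT := comp_con
  RE := (clR_disj (fun s _ h h' => F1_Rt H h' h) (innR H)).mono_right cmp_sub
  RW := (clR_disj (fun s _ h h' => F0_Rt H h' h) (innR H)).mono_right cmp_sub
  RT := (clR_disj (fun s _ h h' => by
    obtain ⟨k, -, -, h⟩ := h
    exact h'.1 _ h) (innR H)).mono_right comp_sub
  EW := ((clR_disj (fun s _ h h' => F0_F1 H hn h h')
    (fun s hs h => H.inn _ s hs h.1)).mono cmp_sub cmp_sub).symm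
  ET := (clR_disj (fun s _ h h' => h'.2 _ hJ' h.1)
    (fun s hs h => H.inn _ s hs h.1)).mono cmp_sub comp_sub
  WT := (clR_disj (fun s _ h h' => h'.2 _ hJ h.1)
    (fun s hs h => H.inn _ s hs h.1)).mono cmp_sub comp_sub

theorem clR_RC (h : ∀ s ∈ S, s ∈ F → ¬ OnHull S s) : clR hS F = RcTx422.RC hS F := by
  ext c
  constructor
  · rintro ⟨s, h1, h2, h3⟩
    exact ⟨s, h1, h2, h s h1 h2, h3⟩
  · rintro ⟨s, h1, h2, -, h3⟩
    exact ⟨s, h1, h2, h3⟩

/-- the region of the strand, in 422's form -/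
theorem R_envz (H : EnvZ S M W η d o n) : clR hS (RtS η W o n) = RcTx422.RC hS (RtS η W o n) :=
  clR_RC (innR H)

/-- the white strips: closing tiles and the two end tiles -/
def RwS (η : ℝ) (W : ℤ → ℤ × ℤ) (o : ℤ) (n M : ℕ) : Set ℂ :=
  {s | ∃ a : ℤ, o + n - 1 ≤ a ∧ a ≤ o + M ∧ s ∈ BB η W a}

/-- **input `hK` of `sysA`** -/
theorem k_envz (H : EnvZ S M W η d o n) (hr : 2 ≤ r) (hrn : r + 1 < n) {c : Cs hS}
    (hc : c ∈ clR hS (KS η W (o + r))) : c ∉ clR hS (RwS η W o n M) := by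
  have hM := H.nM
  intro hc'
  obtain ⟨s, h1, h2, h3⟩ := hc
  obtain ⟨v, h4, ⟨a, h5, h6, h7⟩, h8⟩ := hc'
  have e : s = v := quot_inner hS (innB H v h4 h7) (by rw [← h3, h8])
  subst e
  refine KS_off H (a := o + r) (b := a) ?_ ?_ h2 h7
  · intro h
    have h' : (M : ℤ) ∣ a - (o + r) := by
      have := (dvd_neg (α := ℤ)).2 h
      rwa [neg_sub] at this
    rcases lt_or_ge (a - (o + r)) M with h9 | h9
    · exact ndvd (by omega) h9 h'
    · omega
  · intro h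
    have h' : (M : ℤ) ∣ (a + 1) - (o + r) := by
      have := (dvd_neg (α := ℤ)).2 h
      rwa [neg_sub] at this
    rcases lt_or_ge ((a + 1) - (o + r)) M with h9 | h9
    · exact ndvd (by omega) h9 h'
    · omega

/-- **input `hT` of `sysA`** -/
theorem t_envz (H : EnvZ S M W η d o n) {c0 : Cs hS} {x : ℂ} (hx : OnHull S x)
    (h0 : c0.1 = Quot.mk _ x) {Rw : Set (Cs hS)} (hR : Rw ⊆ clR hS {q | ∃ a, q ∈ BB η W a})
    {t : Cs hS} (ht : t ∈ comp (rc0 hS) (clR hS (GT η d W J)) c0) :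
    Ext (rc0 hS) {c0} (clR hS (RtS η W o n) ∪ Rw) t := by
  have hsub : clR hS (RtS η W o n) ∪ Rw ⊆ clR hS {q | ∃ a, q ∈ BB η W a} := by
    rintro c (⟨s, g1, ⟨k, -, -, g2⟩, g3⟩ | hc)
    · exact ⟨s, g1, ⟨_, g2⟩, g3⟩
    · exact hR hc
  have hinn : ∀ s ∈ S, s ∈ {q : ℂ | ∃ a, q ∈ BB η W a} → ¬ OnHull S s := by
    rintro s hs ⟨a, h⟩
    exact innB H s hs h
  have hoff : ∀ c ∈ clR hS (GT η d W J), c ∉ clR hS (RtS η W o n) ∪ Rw := fun c hc hc' =>
    Set.disjoint_left.1 (clR_disj (hS := hS) (F := {q | ∃ a, q ∈ BB η W a}) (G := GT η d W J)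
      (fun s _ ⟨a, h⟩ h' => h'.1 a h) hinn) (hsub hc') hc
  have h00 : c0 ∉ clR hS (RtS η W o n) ∪ Rw := by
    intro h
    obtain ⟨s, g1, g2, g3⟩ := hsub h
    have : x = s := quot_inner hS (hinn s g1 g2) (by rw [← g3, h0])
    rw [this] at hx
    exact hinn s g1 g2 hx
  have base : Ext (rc0 hS) {c0} (clR hS (RtS η W o n) ∪ Rw) c0 := Ext.hull rfl h00
  have key : ∀ u v, Lk (rc0 hS) (clR hS (GT η d W J)) u v →
      (Ext (rc0 hS) {c0} (clR hS (RtS η W o n) ∪ Rw) u ↔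
        Ext (rc0 hS) {c0} (clR hS (RtS η W o n) ∪ Rw) v) := by
    intro u v huv
    have step : ∀ u v, v ∈ clR hS (GT η d W J) → Ed (rc0 hS) u v →
        Ext (rc0 hS) {c0} (clR hS (RtS η W o n) ∪ Rw) u →
        Ext (rc0 hS) {c0} (clR hS (RtS η W o n) ∪ Rw) v := by
      intro u v hv he hu
      rcases ed_ad he with rfl | had
      · exact hu
      · exact Ext.step hu had (hoff v hv)
    induction huv with
    | rel u v h => exact ⟨step u v h.2.1 h.2.2, step v u h.1 h.2.2.symm⟩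
    | refl u => exact Iff.rfl
    | symm u v _ ih => exact ih.symm
    | trans u v w _ _ ih1 ih2 => exact ih1.trans ih2
  exact (key _ _ ht.2).2 base

/-- the hull cell is not the cell of an inner site -/
theorem hull_off {c0 : Cs hS} {x : ℂ} (hx : OnHull S x) (h0 : c0.1 = Quot.mk _ x)
    (h : ∀ s ∈ S, s ∈ F → ¬ OnHull S s) : c0 ∉ clR hS F := by
  rintro ⟨s, g1, g2, g3⟩
  have : x = s := quot_inner hS (h s g1 g2) (by rw [← g3, h0])
  rw [this] at hx
  exact h s g1 g2 hx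

/-! ### comparison with 903's zones -/

section cor

variable {Xs : Set (ℂ × Bool)} {U : Set ℂ}

theorem envz (H : CorH Xs U M W η d o n) : EnvZ (sX Xs) M W η d o n :=
  ⟨H.path, H.e0, H.d0, H.de, H.nM, fun a s _ h => H.inn (FB_U H a h)⟩

theorem coreS_eq (H : CorH Xs U M W η d o n) (a : ℤ) : coreS H a = coreS' (sX Xs) η W a := by
  unfold coreS'
  rw [dif_pos (ex_core H a)]
  rfl

theorem zE_eq (H : CorH Xs U M W η d o n) :
    zE H = cmp H.gp (F1 η d W (o + n - 1)) (coreS' (sX Xs) η W (o + n - 1)) := by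
  rw [← coreS_eq H]
  exact comp_cmp rfl

theorem zW_eq (H : CorH Xs U M W η d o n) :
    zW H = cmp H.gp (F0 η d W o) (coreS' (sX Xs) η W o) := by
  rw [← coreS_eq H]
  exact comp_cmp rfl

end cor

end Crest.Agent.R143.ZEnvx168
end
end

-- ▼ part R143/ZAll_168
section

/-!
# Row 143 (S0194), RIG, CorrI: the out strand on a FIXED environment, all inputs (helper168)

`L : LayU u mm M p W aa e`, label `i`, `o = al aa e i`, `n = nn aa e i`, `r = rr aa e i`, `S` fixed sites.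
* `Concl` : the conclusion of 831's `hx_S` (with the darts of the gates)
* `concl_of` : one colouring with `CorH` : all five inputs `hE hW hcol hsep hlnk` of `hx_S`
* **`zall`** : `Zn (rc0 hS)` = `znE` of `ZEnv_168` : inputs of `sysA`, `Sys`, and the conclusion of
  `hx_S` for every colouring with `CorH`
-/

set_option autoImplicit false
set_option linter.all false

noncomputable section

open scoped Classical

namespace Crest.Agent.R143.ZAllx168

open Crest.ProbabilityR.Voronoi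
open Crest.Agent.R158.Sp896 (V Con)
open Crest.Agent.R143.B0x346 Crest.Agent.R143.DelGx806 Crest.Agent.R143.DelRx806
  Crest.Agent.R143.JColx54
open Crest.Agent.R143.Frame1x395 Crest.Agent.R143.Frame2x395 Crest.Agent.R143.Frame3x395
  Crest.Agent.R143.Frame4x395 Crest.Agent.R143.Frame8x395 Crest.Agent.R143.Frame9x395
  Crest.Agent.R143.Frame10x395 Crest.Agent.R143.Frame11x395
open Crest.Agent.R143.Frame5x395 (sd mem_sd th th_spec)
open Crest.Agent.R143.Splx117 Crest.Agent.R143.WLocx713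
open Crest.Agent.R143.RingDx117 (RD)
open Crest.Agent.R143.CorrDx117 (DCorr)
open Crest.Agent.R143.TileRx228 Crest.Agent.R143.PathDx503 Crest.Agent.R143.PathGx503
open Crest.Agent.R143.RingPx503 Crest.Agent.R143.DCorGx713 Crest.Agent.R143.DCorFx713
open Crest.Agent.R143.CorHx713
open Crest.Agent.R143.Sptx169 Crest.Agent.R143.Sptx832 Crest.Agent.R143.Spt2x832
  Crest.Agent.R143.SpRx169
open Crest.Agent.R143.StrBx117 (Str)
open Crest.Agent.R143.NonXx592 (P Rc)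
open Crest.Agent.R143.Gntx535 (wl wr)
open Crest.Agent.R143.Extx358 (Ad Ext Sep)
open Crest.Agent.R143.OutSx358 (zc Sys)
open Crest.Agent.R143.FinCx811 (Cs rc0 cs rcol)
open Crest.Agent.R143.Uniqx323 (Zn Strd)
open Crest.Agent.R143.EvGx117 (Rd)
open Crest.Agent.R143.SysAx168 (EvA sysA)
open Crest.Agent.R143.SysCx166 (Hv Hx Vs)
open Crest.Agent.R143.ZnLx903 (clR comp KS RtS GT F0 F1 zR zK zT)
open Crest.Agent.R143.CorrIx831 (bst Rts Rws Bk Ft tlt Stk SDS Col)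
open Crest.Agent.R143.RcTx422 (Hc RC)
open Crest.Agent.R143.EvGx168 (SD)
open Crest.Agent.R143.Finex422 (Fine)
open Crest.Agent.R143.OutCx571 (Far)
open Crest.Agent.R143.PolyUx346 Crest.Agent.R143.Layx416 Crest.Agent.R143.LayUx416
open Crest.Agent.R143.ZEnvx168

variable {u : Poly} {mm M : ℕ} {p W : ℤ → ℤ × ℤ} {aa e : ℤ → ℤ} {i : ZMod 3} {η d : ℝ} {U : Set ℂ}
  {J : Set ℤ}

/-- the conclusion of 831's `hx_S` -/
def Concl {S : Finset ℂ} (hS : GP (S : Set ℂ)) (W : ℤ → ℤ × ℤ) (η : ℝ) (o : ℤ) (n r : ℕ)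
    (Z : Zn (rc0 hS)) (Rw : Set (Cs hS)) (h₀ : Cs hS) (X : Set (ℂ × Bool))
    (s : Cs hS → ZMod 2) : Prop :=
  ∃ p : ℕ → D0 S, (∀ k : ℕ, (p k).1 = (yy η W X (o + k), xx η W X (o + k))) ∧
    ∃ (q : D0 S) (N : ℕ) (T : ℕ → ℕ), SDS hS s η W o n p q N T ∧
      Hv (rc0 hS) (fun (i : D0 S × ℕ) _ => i.1) (fun i _ => i.2)
        (EvA (rc0 hS) {h₀} Rw (RD S (Bk η W o (r - 1))) Z) n n (Ft S η W o n)
        (tlt hS η W o n) s ((q, T n), T) ∧
      ∀ {f : ℂ × ℂ × ℂ → ℂ} {w : D0 S → ℂ}, (∀ k, k < n → ∀ e : D0 S,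
          e.1.2 ∈ Bk η W o k → th S e.1 ∈ Bk η W o k →
            w e = f (e.1.2, th S e.1, e.1.1)) →
        ∀ l, 2 ≤ l → l + 2 < n →
          Vs (rc0 hS) (fun (i : D0 S × ℕ) _ => i.1) (fun i _ => i.2)
            (EvA (rc0 hS) {h₀} Rw (RD S (Bk η W o (r - 1))) Z) w (Ft S η W o n) l s =
              VX f n (Bk η W o) (QX (100 * η) W o n) (Stk η W o) (n - 1 - l) X

/-- the numbers of the corridor of the label `i` -/
theorem nums (L : LayU u mm M p W aa e) (i : ZMod 3) :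
    8 ≤ rr aa e i ∧ rr aa e i + 8 ≤ nn aa e i ∧ nn aa e i + 8 ≤ M ∧
      aa (e (jj i + 2)) + 4 ≤ al aa e i + rr aa e i ∧
      al aa e i + rr aa e i + 4 ≤ aa (e (jj i + 2) + 1) := by
  have q1 := L.lay.rr_pos i
  have q2 := L.lay.rr_lt i
  have q3 := L.lay.nn_lt i
  have q4 := L.lay.rr_eq i
  have q5 := (L.lay.g_mem (jj i + 2)).2.2
  have e1 : mi aa e i = g aa e (jj i + 2) := rfl
  refine ⟨q1, q2, q3, ?_, ?_⟩
  · rw [q4, e1]; exact q5.1
  · rw [q4, e1]; exact q5.2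

/-- **all inputs of `hx_S`**, one colouring -/
theorem concl_of (L : LayU u mm M p W aa e) (hh : (mm : ℝ) * (100 * η) = u.s)
    {X : Set (ℂ × Bool)} (H : CorH X U M W η d (al aa e i) (nn aa e i)) {c0 : Cs H.gp} {x : ℂ}
    (hx : OnHull (sX X) x) (h0 : c0.1 = Quot.mk _ x)
    (hf : x ∈ Far (mm * (100 * η)) (100 * η + 19 / 2 * η + d) (OutPx571.F u))
    (htop : ∀ s ∈ sX X,
      |Gatex838.X (gz (100 * η) W (al aa e i + rr aa e i)) (ge W (al aa e i + rr aa e i)) s| < η →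
      19 / 2 * η ≤
        Gatex838.Y (gz (100 * η) W (al aa e i + rr aa e i)) (ge W (al aa e i + rr aa e i)) s →
      Gatex838.Y (gz (100 * η) W (al aa e i + rr aa e i)) (ge W (al aa e i + rr aa e i)) s ≤
        11 * η →
      ∀ c : Cs H.gp, c.1 = Quot.mk _ s → c ∈ comp (rc0 H.gp) (clR H.gp (GT η d W J)) c0)
    {Z : Zn (rc0 H.gp)} (zR' : Z.R = clR H.gp (RtS η W (al aa e i) (nn aa e i)))
    (zK' : Z.K = clR H.gp (KS η W (al aa e i + rr aa e i)))
    (zE' : Z.E = cmp H.gp (F1 η d W (al aa e i + nn aa e i - 1))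
      (coreS' (sX X) η W (al aa e i + nn aa e i - 1)))
    (zW' : Z.W = cmp H.gp (F0 η d W (al aa e i)) (coreS' (sX X) η W (al aa e i)))
    (zT' : Z.T = comp (rc0 H.gp) (clR H.gp (GT η d W J)) c0) :
    Concl H.gp W η (al aa e i) (nn aa e i) (rr aa e i) Z
      (clR H.gp (RwS η W (al aa e i) (nn aa e i) M)) c0 X (rcol H.gp (cX X) H.hull) := by
  obtain ⟨q1, q2, q3, q4, q5⟩ := nums L i
  have e0 := H.e0
  have h3 : 3 ≤ (sX X).card := ZnLx903.card3 H
  have hC : Col H.gp X (rcol H.gp (cX X) H.hull) := ⟨rfl, fun _ _ _ => rfl⟩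
  have hZR : Z.R = RC H.gp (Rts η W (al aa e i) (nn aa e i)) := by
    rw [zR']
    exact R_envz (envz H)
  have hRd : Rd (rc0 H.gp) Z.R = RD (sX X) (Rts η W (al aa e i) (nn aa e i)) := by
    rw [hZR]
    exact RcTx422.rs2_rc (CorrIx831.inn_Rts H)
  have e1 : Bk η W (al aa e i) (nn aa e i - 1) = ZnLx903.BB η W (al aa e i + nn aa e i - 1) := by
    show bst η W (al aa e i + ((nn aa e i - 1 : ℕ) : ℤ)) = _
    rw [show al aa e i + ((nn aa e i - 1 : ℕ) : ℤ) = al aa e i + nn aa e i - 1 by omega]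
  have e2 : Bk η W (al aa e i) 0 = ZnLx903.BB η W (al aa e i) := by
    show bst η W (al aa e i + ((0 : ℕ) : ℤ)) = _
    simp
  have hmem : ∀ c : Cs H.gp, c ∈ Z.R ↔ c ∈ zR H := fun c => by rw [zR']; rfl
  have hc0 : c0 ∈ Hc H.gp := ⟨x, hx, h0⟩
  have hsd : ∀ q N T, SDS H.gp (rcol H.gp (cX X) H.hull) η W (al aa e i) (nn aa e i) H.p q N T →
      SD H.gp H.hull (nn aa e i) (Rd (rc0 H.gp) Z.R) H.p (Bk η W (al aa e i)) q N T := by
    intro q N T h
    rw [hRd]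
    exact h
  refine ⟨H.p, fun k => rfl, ?_⟩
  refine CorrIx831.hx_S H h3 hC (r := rr aa e i) (by omega) (by omega)
    (fun b hb1 hb2 => (L.lay.run_mi i (by have := L.lay.rr_eq i; omega)
      (by have := L.lay.rr_eq i; omega)).1) (p := H.p) (fun k => rfl) hZR
    (Rw := clR H.gp (RwS η W (al aa e i) (nn aa e i) M)) (h₀ := c0) ?_ ?_ ?_ ?_ ?_
  · rw [e1]
    intro e he c hc hcR
    have h1 := ZnLx903.zone_E H (by omega) he hc (fun h => hcR ((hmem c).2 h))
    rw [zE', ← zE_eq H]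
    exact h1
  · rw [e2]
    intro e he c hc hcR
    have h1 := ZnLx903.zone_W H (by omega) he hc (fun h => hcR ((hmem c).2 h))
    rw [zW', ← zW_eq H]
    exact h1
  · refine ⟨rr aa e i, by omega, by omega, ?_⟩
    have h1 := ZnLx903.col_of H (r := rr aa e i) (J := J) (c0 := c0)
      (χ := rcol H.gp (cX X) H.hull) (b := 0)
      (fun s h1 h2 c hc => by
        rw [RcTx422.rcol_val hc]
        have h3 : cX X s ≠ 1 := fun h => h2 ((bX_iff s h1).1 h)
        revert h3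
        generalize cX X s = a
        revert a
        decide)
      htop (c := Rc (rc0 H.gp) (H.p (rr aa e i))) rfl
    rw [zK', zT']
    exact h1
  · intro q N T St
    exact SepSx697.sep_sd L hh H (Rw := clR H.gp (RwS η W (al aa e i) (nn aa e i) M))
      (fun s h1 h2 => ⟨ZnLx903.cv H.gp (ZnLx903.card3 H) s h1,
      ⟨s, h1, h2, rfl⟩, rfl⟩) hc0 q N T (hsd q N T St)
  · intro q N T St
    refine LnkLx927.lnk_sd H L.fine (OutPx571.F_con' u) (by have := L.m_pos; omega) (by omega)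
      (by omega) q4 (by omega) hx hf (ZR := Z.R) (fun c hc => ?_) (fun c hc => ?_) hc0 q N T
      (hsd q N T St)
    · rw [zR'] at hc
      obtain ⟨s, h1, ⟨k, -, -, h2⟩, h3⟩ := hc
      exact ⟨s, h1, ⟨_, h2⟩, h3⟩
    · obtain ⟨s, h1, ⟨a, h2, h3, h4⟩, h5⟩ := hc
      exact ⟨s, h1, ⟨a, ⟨h2, h3⟩, h4⟩, h5⟩

/-- **the fixed environment** `S` : zones `znE`, inputs of `sysA`, 358's `Sys`, and the conclusion of
`hx_S` for every colouring with `CorH` -/
theorem zall (L : LayU u mm M p W aa e) (hh : (mm : ℝ) * (100 * η) = u.s) {S : Finset ℂ}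
    (hS : GP (S : Set ℂ)) (i : ZMod 3) (E : EnvZ S M W η d (al aa e i) (nn aa e i))
    (hn : 3 ≤ nn aa e i) (hr0 : 0 < rr aa e i) (hr1 : rr aa e i + 1 < nn aa e i)
    (hJ : al aa e i ∈ J) (hJ' : al aa e i + nn aa e i - 1 ∈ J) {c0 : Cs hS} {x : ℂ}
    (hx : OnHull S x) (h0 : c0.1 = Quot.mk _ x)
    (hf : x ∈ Far (mm * (100 * η)) (100 * η + 19 / 2 * η + d) (OutPx571.F u))
    (htop : ∀ s ∈ S,
      |Gatex838.X (gz (100 * η) W (al aa e i + rr aa e i)) (ge W (al aa e i + rr aa e i)) s| < η →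
      19 / 2 * η ≤
        Gatex838.Y (gz (100 * η) W (al aa e i + rr aa e i)) (ge W (al aa e i + rr aa e i)) s →
      Gatex838.Y (gz (100 * η) W (al aa e i + rr aa e i)) (ge W (al aa e i + rr aa e i)) s ≤
        11 * η →
      ∀ c : Cs hS, c.1 = Quot.mk _ s → c ∈ comp (rc0 hS) (clR hS (GT η d W J)) c0) :
    (∀ c ∈ (znE hS E hn hr0 hr1 hJ hJ' c0).K, c ∉ clR hS (RwS η W (al aa e i) (nn aa e i) M)) ∧
    (∀ t ∈ (znE hS E hn hr0 hr1 hJ hJ' c0).T, Ext (rc0 hS) {c0}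
      ((znE hS E hn hr0 hr1 hJ hJ' c0).R ∪ clR hS (RwS η W (al aa e i) (nn aa e i) M)) t) ∧
    c0 ∉ clR hS (RwS η W (al aa e i) (nn aa e i) M) ∧
    c0 ∉ (znE hS E hn hr0 hr1 hJ hJ' c0).R ∧
    (znE hS E hn hr0 hr1 hJ hJ' c0).R = RC hS (Rts η W (al aa e i) (nn aa e i)) ∧
    Sys (rc0 hS) {c0} (clR hS (RwS η W (al aa e i) (nn aa e i) M))
      (RD S (Bk η W (al aa e i) (rr aa e i - 1)))
      (fun (i : D0 S × ℕ) _ => i.1) (fun i _ => i.2)
      (EvA (rc0 hS) {c0} (clR hS (RwS η W (al aa e i) (nn aa e i) M))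
        (RD S (Bk η W (al aa e i) (rr aa e i - 1))) (znE hS E hn hr0 hr1 hJ hJ' c0)) ∧
    ∀ (X : Set (ℂ × Bool)) (s : Cs hS → ZMod 2), Col hS X s →
      CorH X U M W η d (al aa e i) (nn aa e i) →
        Concl hS W η (al aa e i) (nn aa e i) (rr aa e i) (znE hS E hn hr0 hr1 hJ hJ' c0)
          (clR hS (RwS η W (al aa e i) (nn aa e i) M)) c0 X s := by
  obtain ⟨q1, q2, q3, q4, q5⟩ := nums L i
  have hinn : ∀ s ∈ S, s ∈ RwS η W (al aa e i) (nn aa e i) M → ¬ OnHull S s := by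
    rintro s hs ⟨a, -, -, h⟩
    exact innB E s hs h
  have a1 : ∀ c ∈ (znE hS E hn hr0 hr1 hJ hJ' c0).K,
      c ∉ clR hS (RwS η W (al aa e i) (nn aa e i) M) := fun c hc => k_envz E (by omega) (by omega) hc
  have a2 : ∀ t ∈ (znE hS E hn hr0 hr1 hJ hJ' c0).T, Ext (rc0 hS) {c0}
      ((znE hS E hn hr0 hr1 hJ hJ' c0).R ∪ clR hS (RwS η W (al aa e i) (nn aa e i) M)) t :=
    fun t ht => t_envz E hx h0 (by
      rintro c ⟨s, g1, ⟨a, -, -, g4⟩, g5⟩
      exact ⟨s, g1, ⟨a, g4⟩, g5⟩) ht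
  have a3 : c0 ∉ clR hS (RwS η W (al aa e i) (nn aa e i) M) := hull_off hx h0 hinn
  refine ⟨a1, a2, a3, hull_off hx h0 (innR E), R_envz E, sysA ?_ a1 a2, ?_⟩
  · intro c hc
    rw [Set.mem_singleton_iff] at hc
    rw [hc]
    exact a3
  · intro X s hC H
    obtain rfl : sX X = S := hC.e
    obtain rfl := CorrIx831.col_eq H.hull (ZnLx903.card3 H) hC
    exact concl_of L hh H hx h0 hf htop rfl rfl rfl rfl rfl

end Crest.Agent.R143.ZAllx168
end
end

-- ▼ part R143/HullC_40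
section

/-!
# Row 143 (S0194), RIG, CorrD: facts of the hull cell (helper40)

`h₀ ∈ Hc hS` : `h₀` is the hull cell of `rc0 hS` (422).

* `one`, `one_iff`, `exists_h` : there is exactly one hull cell; `col_h` : its colour
* `clR_RC`, `nRC`, `nclR`, `hR_of`, `hR_cl` : the hull cell is not in a region of inner sites (fields
  `hR` of `Sys`), `not_in`: for every set of cells of inner sites
* `disj_h` : inner cells of disjoint regions
* `nac` (from `Strd`), `ac_sub`, `nac_sds` (from `SDS`): the hull cell is not a cell of the strand;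
  `nzc`, `ext0` : it is in the exterior; `con0` : the exterior is connected (`H = {h₀}`)
* `env_inn`, `env_RC`, `env_nRC`, `env_h` : the same for the sites `SU u ε ω` and `B ⊆ UU u`
* `cor_inn`, `cor_Rts`, `cor_Rws` : the same for `CorH`
-/

set_option autoImplicit false
set_option linter.all false

noncomputable section

open scoped Classical

namespace Crest.Agent.R143.HullCx40

open Set
open Crest.ProbabilityR.Voronoi
open Crest.Agent.R143.B0x346 Crest.Agent.R143.DelGx806 Crest.Agent.R143.DelRx806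
open Crest.Agent.R143.Frame1x395 Crest.Agent.R143.Frame2x395 Crest.Agent.R143.Frame3x395
  Crest.Agent.R143.Frame4x395 Crest.Agent.R143.Frame8x395 Crest.Agent.R143.Frame9x395
  Crest.Agent.R143.Frame10x395 Crest.Agent.R143.Frame11x395
open Crest.Agent.R143.Frame5x395 (sd mem_sd th th_spec)
open Crest.Agent.R143.RingDx117 (RD)
open Crest.Agent.R143.StrBx117 (Str)
open Crest.Agent.R143.NonXx592 (P Rc)
open Crest.Agent.R143.Gntx535 (wl wr mem_wl mem_wr)
open Crest.Agent.R143.Extx358 (Ad Ext Sep Zc)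
open Crest.Agent.R143.OutSx358 (zc ac coe_ac Sys)
open Crest.Agent.R143.FinCx811 (Cs rc0 cs rcol cs_surj)
open Crest.Agent.R143.Uniqx323 (Zn Strd)
open Crest.Agent.R143.R5bx166 (CCon)
open Crest.Agent.R143.WLocx713 (sX cX)
open Crest.Agent.R143.RcTx422 (Hc Hc_one Hc_eq Hc_RC exists_Hc hull_one RC con_rc)
open Crest.Agent.R143.ZnLx903 (clR)
open Crest.Agent.R143.CorHx713
open Crest.Agent.R143.CorrIx831 (SDS Bk Rts Rws)
open Crest.Agent.R143.CorEx133 (CorEnv SU UU)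
open Crest.Agent.R143.PolyUx346 (Poly)

variable {S : Finset ℂ} {hS : GP (S : Set ℂ)} {B B' : Set ℂ} {h₀ : Cs hS}

/-! ### the hull cell -/

/-- **one cell** -/
theorem one (h : h₀ ∈ Hc hS) {c : Cs hS} {v : ℂ} (hv : OnHull S v)
    (e : c.1 = Quot.mk (hullE S) v) : c = h₀ := Hc_one ⟨v, hv, e⟩ h


/-- **there is a hull cell** -/
theorem exists_h (hS : GP (S : Set ℂ)) (h3 : 3 ≤ S.card) : ∃ h₀ : Cs hS, h₀ ∈ Hc hS ∧
    Hc hS = {h₀} ∧ (∀ (c : Cs hS) (v : ℂ), OnHull S v → c.1 = Quot.mk (hullE S) v → c = h₀) ∧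
      ∀ B : Set ℂ, h₀ ∉ RC hS B := by
  obtain ⟨h₀, h⟩ := exists_Hc hS h3
  exact ⟨h₀, h, Hc_eq h, fun c v hv e => one h hv e, fun B => Hc_RC h⟩


/-! ### regions -/

/-- regions of inner sites: 903's cells and 422's cells -/
theorem clR_RC (hin : ∀ v ∈ S, v ∈ B → ¬ OnHull S v) : clR hS B = RC hS B := by
  ext c
  exact ⟨fun ⟨v, h1, h2, e⟩ => ⟨v, h1, h2, hin v h1 h2, e⟩, fun ⟨v, h1, h2, _, e⟩ => ⟨v, h1, h2, e⟩⟩


/-- **the hull cell is not in a region** -/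
theorem nRC (h : h₀ ∈ Hc hS) : h₀ ∉ RC hS B := Hc_RC h






/-! ### the strand -/

section strand

variable {Z : Zn (rc0 hS)} {b : ZMod 2} {σ : Cs hS → ZMod 2} {q : D0 S} {n : ℕ}











end strand

/-! ### 831's strand -/

section sds

variable {s : Cs hS → ZMod 2} {η : ℝ} {W : ℤ → ℤ × ℤ} {o : ℤ} {n : ℕ} {p : ℕ → D0 S} {q : D0 S}
  {N : ℕ} {T : ℕ → ℕ}




end sds

/-! ### `CorH` -/

section cor

variable {X : Set (ℂ × Bool)} {U : Set ℂ} {M : ℕ} {W : ℤ → ℤ × ℤ} {η d : ℝ} {o : ℤ} {n : ℕ}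





end cor

/-! ### the environment -/

section env

variable {u : Poly} {ε d K1 c2 ρ0 : ℝ} {ω : Sample}





end env

end Crest.Agent.R143.HullCx40
end
end

-- ▼ part R143/SxZ_832

/-!
# Row 143 (S0194), RIG: the system of the out strands of one environment (helper832)

Objects of 609's `RigZd_609`, sites `SU u ε ω`, `d = √ε`, 168's zones on the fixed sites.
* `envZ` : 168's `EnvZ`; `Rc`, **`Zq`** : white strips, zones (explicit, any `J` with the two end tiles)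
* `cor_ae` : almost surely, positive weight gives `CorH` (765, 348), all labels and colourings
* **`sxJ`** : `Sx` with the explicit zones; **`sx_of`** : `∃ h₀ R Zz, Sx ..` at a good environment
-/

set_option autoImplicit false
set_option linter.all false

noncomputable section

open scoped Classical

namespace Crest.Agent.R143.SxZx832

open MeasureTheory Set Filter Topology
open scoped ENNReal
open Crest.ProbabilityR.Voronoi
open Crest.Agent.R143.PP0x831 Crest.Agent.R143.Janx304 Crest.Agent.R143.Dbl2x609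
open Crest.Agent.R143.B0x346 Crest.Agent.R143.DelGx806 Crest.Agent.R143.DelRx806
  Crest.Agent.R143.FinCx811
open Crest.Agent.R143.Frame1x395 Crest.Agent.R143.Frame2x395 Crest.Agent.R143.Frame3x395
  Crest.Agent.R143.Frame4x395
open Crest.Agent.R143.Frame8x395 hiding cfg
open Crest.Agent.R143.Frame9x395 Crest.Agent.R143.Frame10x395
open Crest.Agent.R143.OutSx358 (Sys gA ac)
open Crest.Agent.R143.SysAx168 (EvA)
open Crest.Agent.R143.Uniqx323 (Zn Strd)
open Crest.Agent.R143.ColXx829 (Xc)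
open Crest.Agent.R143.RcTx422 (Hc RC Hc_eq)
open Crest.Agent.R143.BigUx749 (ClR)
open Crest.Agent.R143.LnkLx927 (All)
open Crest.Agent.R143.RingDx117 (RD)
open Crest.Agent.R143.PolyUx346 (Poly)
open Crest.Agent.R143.CorEx133
open Crest.Agent.R143.RigPx854 (ly ly_spec mN mN_hN mN_10 hN hN_pos nT)
open Crest.Agent.R143.RigZdx609 Crest.Agent.R143.LayUx416 Crest.Agent.R143.Layx416
open Crest.Agent.R143.TileRx228 Crest.Agent.R143.PthFx765 Crest.Agent.R143.TplIx204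
open Crest.Agent.R143.Tplx978
open Crest.Agent.R143.CorHx713 (CorH xx yy)
open Crest.Agent.R143.CorNx765
open Crest.Agent.R143.CorrIx831 (Ft tlt Bk Stk col_Xc)
open Crest.Agent.R143.ZnLx903 (clR comp KS RtS GT F0 F1 FB BB)
open Crest.Agent.R143.ZEnvx168 Crest.Agent.R143.ZAllx168
open Crest.Agent.R143.Locx922 (Hol)
open Crest.Agent.R143.QuenIx597

variable {N : ℕ} {ε : ℝ} {u : Poly} {w : ZMod 3} {ω : Sample} {K1 c2 ρ0 : ℝ}

/-! ### numbers -/

theorem n_nums (hN : u.n + 4 ≤ N) (w : ZMod 3) : 8 ≤ rT u w N ∧ rT u w N + 8 ≤ nT u w N ∧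
    nT u w N + 8 ≤ (ly u N).M ∧
    (ly u N).A ((ly u N).e (jj w + 2)) + 4 ≤ oT u w N + rT u w N ∧
    oT u w N + rT u w N + 4 ≤ (ly u N).A ((ly u N).e (jj w + 2) + 1) :=
  nums (ly_spec hN) w

theorem et_le (hN : u.n + 4 ≤ N) : 1000 * et N ≤ 1 := LawHx765.eta_le (ly_spec hN) (mh hN)

/-- enlarged strips are inside `UU u` -/
theorem RR_UU (hN : u.n + 4 ≤ N) {A B : ℝ} (h1 : A < 100 * et N) (h2 : A ≤ B) (h3 : 0 ≤ B)
    (h4 : B ≤ 100 * et N) (a : ℤ) : RR A B (100 * et N) (ly u N).W a ⊆ UU u :=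
  (subset_iUnion (fun a => RR A B (100 * et N) (ly u N).W a) a).trans
    (DisIx749.sub_UU (ly_spec hN) (mh hN) h1 h2 h3 h4)

/-- **168's hypotheses of the zones** -/
theorem envZ (hN : u.n + 4 ≤ N) (C : CorEnv u ε √ε K1 c2 ρ0 ω) (hd : 100 * √ε ≤ et N)
    (w : ZMod 3) :
    EnvZ (SU u ε ω) (ly u N).M (ly u N).W (et N) √ε (oT u w N) (nT u w N) where
  path := fp hN
  e0 := et_pos N
  d0 := C.d0
  de := hd
  nM := by
    have := (n_nums hN w).2.2.1
    omega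
  inn := fun a s _ h => by
    have e0 := et_pos N
    have e1 := C.d0
    exact C.inn (RR_UU hN (by linarith) (by linarith) (by linarith) (by linarith) a h)

/-- the white strips -/
abbrev Rc (hS : GP (SU u ε ω : Set ℂ)) (w : ZMod 3) (N : ℕ) : Set (Cs hS) :=
  clR hS (RwS (et N) (ly u N).W (oT u w N) (nT u w N) (ly u N).M)

/-- **the zones** -/
def Zq (hS : GP (SU u ε ω : Set ℂ)) (hN : u.n + 4 ≤ N) (C : CorEnv u ε √ε K1 c2 ρ0 ω)
    (hd : 100 * √ε ≤ et N) (w : ZMod 3) {J : Set ℤ} (hJ : oT u w N ∈ J)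
    (hJ' : oT u w N + nT u w N - 1 ∈ J) (h₀ : Cs hS) : Zn (rc0 hS) :=
  znE hS (envZ hN C hd w) (r := rT u w N) (by have := n_nums hN w; omega)
    (by have := n_nums hN w; omega) (by have := n_nums hN w; omega) hJ hJ' h₀

section zones

variable {hS : GP (SU u ε ω : Set ℂ)} (hN : u.n + 4 ≤ N) (C : CorEnv u ε √ε K1 c2 ρ0 ω)
  (hd : 100 * √ε ≤ et N) {J : Set ℤ} (hJ : oT u w N ∈ J) (hJ' : oT u w N + nT u w N - 1 ∈ J)
  {h₀ : Cs hS}






theorem FB_sub (hN : u.n + 4 ≤ N) (C : CorEnv u ε √ε K1 c2 ρ0 ω) (hd : 100 * √ε ≤ et N) (a : ℤ) :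
    FB (et N) √ε (ly u N).W a ⊆ RR (10 * et N) (52 * et N) (100 * et N) (ly u N).W a := by
  have h1 := et_pos N
  have h2 := C.d0
  exact RR_mono (by linarith) (by linarith) _ _ _

end zones

/-! ### law -/

/-- **positive weight gives the corridor**, almost surely, all labels, all colourings -/
theorem cor_ae (Z : TData) (hN : u.n + 4 ≤ N) (hε : 0 < ε) (hP : (Z.raw N hε).AePos)
    (hd : 100 * √ε ≤ et N) : ∀ᵐ ω ∂sampleLaw, Hol (SU u ε ω : Set ℂ) (UU u) √ε →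
      ∀ (hS : GP (SU u ε ω : Set ℂ)) (h3 : 3 ≤ (SU u ε ω).card) (s : Cs hS → ZMod 2) (w : ZMod 3),
        0 < gW Z u w hN hε (Xc hS h3 s) →
          CorH (Xc hS h3 s) (UU u) (ly u N).M (ly u N).W (et N) √ε (oT u w N) (nT u w N) := by
  haveI := neM hN
  have h := LawHx765.law_corU (ly_spec hN) (mh hN) (Z.num N ε) (Z.std N hε) hP (R := Rp u)
    (R' := RU u) (P_sub u) (by have := one_le_Rp u; unfold RU; linarith) (d := √ε)
    (Real.sqrt_pos.2 hε) hd
  filter_upwards [h] with ω hω hH hS h3 s w hg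
  exact hω hH hS h3 s w ((gW_pos Z hN hε ColXx829.fin_Xc).1 hg)

/-! ### the system -/

section sx

variable (Z : TData) (hN : u.n + 4 ≤ N) (hε : 0 < ε) {hS : GP (SU u ε ω : Set ℂ)}
  {h3 : 3 ≤ (SU u ε ω).card}

/-- **`Sx` with the explicit zones** -/
theorem sxJ (C : CorEnv u ε √ε K1 c2 ρ0 ω) (hd : 100 * √ε ≤ et N)
    (hcor : ∀ s, 0 < gW Z u w hN hε (Xc hS h3 s) →
      CorH (Xc hS h3 s) (UU u) (ly u N).M (ly u N).W (et N) √ε (oT u w N) (nT u w N))
    {J : Set ℤ} (hJ : oT u w N ∈ J) (hJ' : oT u w N + nT u w N - 1 ∈ J)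
    (hJr : ∀ b ∈ J, ¬ ((ly u N).M : ℤ) ∣ oT u w N + rT u w N - b ∧
      ¬ ((ly u N).M : ℤ) ∣ oT u w N + rT u w N - (b + 1)) {h₀ : Cs hS} (h0 : h₀ ∈ Hc hS) :
    Sx w Z hN hε hS h3 h₀ (Rc hS w N) (Zq hS hN C hd w hJ hJ' h₀) := by
  obtain ⟨x, hx, hx0⟩ := id h0
  obtain ⟨n1, n2, n3, n4, n5⟩ := n_nums hN w
  have L := ly_spec hN
  have E := envZ hN C hd w
  have he := et_pos N
  have hle := et_le hN
  have hd0 := C.d0
  have hf : x ∈ OutCx571.Far ((mN u N : ℝ) * (100 * et N)) (100 * et N + 19 / 2 * et N + √ε)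
      (OutPx571.F u) := by
    rw [mh hN]
    refine HTopx903.far_of (by linarith) ?_
    have r1 := one_le_Rp u
    have r2 := C.d1
    have r3 := C.hull_far hx
    unfold RU at r3
    linarith
  have htop := HTopx903.top_S (hS := hS) (J := J) C rfl L (mh hN) hd n4 n5 hJr hx hx0
  have m1 : 3 ≤ nT u w N := by omega
  have m2 : 0 < rT u w N := by omega
  have m3 : rT u w N + 1 < nT u w N := by omega
  obtain ⟨a1, a2, a3, a4, a5, a6, a7⟩ := zall (U := UU u) (J := J) L (mh hN) hS w E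
    m1 m2 m3 hJ hJ' (c0 := h₀) hx hx0 hf htop
  refine ⟨h0, a6, ?_, ?_, ?_, ?_, ?_, hcor, ?_, ?_⟩
  · intro j σ hj hc
    refine a4 ?_
    unfold ac at hc
    rcases Finset.mem_union.1 hc with h | h
    · exact hj.1.lR h
    · exact hj.1.rR h
  · rintro c ⟨s, g1, ⟨k, -, -, g2⟩, g3⟩
    exact ⟨s, g1, ⟨_, g2⟩, innB E s g1 g2, g3⟩
  · rintro c ⟨s, g1, ⟨a, -, -, g2⟩, g3⟩
    exact ⟨s, g1, ⟨_, g2⟩, innB E s g1 g2, g3⟩
  · rintro c ⟨⟨s, g1, g2, g3⟩, -⟩
    exact ⟨s, g1, FB_sub hN C hd _ g2.1, g3⟩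
  · rintro c ⟨⟨s, g1, g2, g3⟩, -⟩
    exact ⟨s, g1, FB_sub hN C hd _ g2.1, g3⟩
  · intro s hs
    obtain ⟨p, hp, q, k, T, b1, b2, -⟩ := a7 (Xc hS h3 s) s (col_Xc hS h3 s) (hcor s hs)
    exact ⟨p, q, k, T, hp, b1, b2⟩
  · intro s hs f v hv l l1 l2
    obtain ⟨p, hp, q, k, T, b1, b2, b3⟩ := a7 (Xc hS h3 s) s (col_Xc hS h3 s) (hcor s hs)
    exact b3 hv l l1 l2

/-- the two end tiles -/
def J2 (u : Poly) (w : ZMod 3) (N : ℕ) : Set ℤ := {oT u w N, oT u w N + nT u w N - 1}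

theorem J2_l : oT u w N ∈ J2 u w N := Or.inl rfl

theorem J2_r : oT u w N + nT u w N - 1 ∈ J2 u w N := Or.inr rfl

theorem J2_off (hN : u.n + 4 ≤ N) : ∀ b ∈ J2 u w N,
    ¬ ((ly u N).M : ℤ) ∣ oT u w N + rT u w N - b ∧
      ¬ ((ly u N).M : ℤ) ∣ oT u w N + rT u w N - (b + 1) := by
  obtain ⟨n1, n2, n3, -, -⟩ := n_nums hN w
  rintro b (rfl | rfl)
  · exact ⟨HTopx903.nd (by omega) (by omega) (by omega), HTopx903.nd (by omega) (by omega) (by omega)⟩
  · exact ⟨HTopx903.nd (by omega) (by omega) (by omega), HTopx903.nd (by omega) (by omega) (by omega)⟩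

/-- **the system of the out strands at a good environment** -/
theorem sx_of (C : CorEnv u ε √ε K1 c2 ρ0 ω) (hd : 100 * √ε ≤ et N)
    (hcor : ∀ s, 0 < gW Z u w hN hε (Xc hS h3 s) →
      CorH (Xc hS h3 s) (UU u) (ly u N).M (ly u N).W (et N) √ε (oT u w N) (nT u w N)) :
    ∃ (h₀ : Cs hS), h₀ ∈ Hc hS ∧
      Sx w Z hN hε hS h3 h₀ (Rc hS w N) (Zq hS hN C hd w J2_l J2_r h₀) := by
  obtain ⟨h₀, h0, -⟩ := HullCx40.exists_h hS h3
  exact ⟨h₀, h0, sxJ Z hN hε C hd hcor J2_l J2_r (J2_off hN) h0⟩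

/-- **almost surely, at every good environment** -/
theorem sx_ae (hP : (Z.raw N hε).AePos) (hd : 100 * √ε ≤ et N) : ∀ᵐ ω ∂sampleLaw,
    ∀ (K1 c2 ρ0 : ℝ) (C : CorEnv u ε √ε K1 c2 ρ0 ω) (hS : GP (SU u ε ω : Set ℂ))
      (h3 : 3 ≤ (SU u ε ω).card) (w : ZMod 3),
      (∀ s, 0 < gW Z u w hN hε (Xc hS h3 s) →
        CorH (Xc hS h3 s) (UU u) (ly u N).M (ly u N).W (et N) √ε (oT u w N) (nT u w N)) ∧
      ∃ (h₀ : Cs hS), h₀ ∈ Hc hS ∧
        Sx w Z hN hε hS h3 h₀ (Rc hS w N) (Zq hS hN C hd w J2_l J2_r h₀) := by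
  filter_upwards [cor_ae (u := u) Z hN hε hP hd] with ω hω K1 c2 ρ0 C hS h3 w
  have hc : ∀ s, 0 < gW Z u w hN hε (Xc hS h3 s) →
      CorH (Xc hS h3 s) (UU u) (ly u N).M (ly u N).W (et N) √ε (oT u w N) (nT u w N) :=
    fun s hs => hω C.hol hS h3 s w hs
  exact ⟨hc, sx_of Z hN hε C hd hc⟩

end sx

end Crest.Agent.R143.SxZx832
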