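import Crest.Agent.R143.Planar_54

/-!
# Row 143, leaves P1' and P4 (helper54)

* `ang x a b` : angle of the segment `a → b` seen from `x`
* `P1'` : the lifted rotation `K` is the same for the three legs
* `x_om : X_om`
-/

set_option autoImplicit false

noncomputable section

open scoped Classical

namespace Crest.Agent.R143.Planar2x54

open Crest.Agent.R143.B0x346 Crest.Agent.R143.DelGx806 Crest.Agent.R143.DelRx806
  Crest.Agent.R143.B0Dx346 Crest.Agent.R143.JColx54 Crest.Agent.R143.JCol2x54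
  Crest.Agent.R143.JWalkx872 Crest.Agent.R143.JCardx872 Crest.Agent.R143.Planarx54

/-! ### angles -/

/-- angle of `a → b` seen from `x` -/
def ang (x a b : ℂ) : ℝ := Complex.arg ((b - x) / (a - x))

theorem im_div (u v : ℂ) : (v / u).im = cr u v / Complex.normSq u := by
  rw [Complex.div_im]; unfold cr; ring

theorem arg_of_im_pos {z : ℂ} (h : 0 < z.im) : 0 < z.arg ∧ z.arg < Real.pi := by
  constructor
  · refine lt_of_le_of_ne (Complex.arg_nonneg_iff.2 h.le) fun e => ?_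
    have := (Complex.arg_eq_zero_iff.1 e.symm).2
    linarith
  · exact Complex.arg_lt_pi_iff.2 (Or.inr h.ne')

theorem ne_zero_of_cr {u v : ℂ} (h : cr u v ≠ 0) : u ≠ 0 ∧ v ≠ 0 := by
  constructor
  · rintro rfl
    apply h; unfold cr; simp
  · rintro rfl
    apply h; unfold cr; simp

theorem ang_pos {x a b : ℂ} (h : 0 < cr (a - x) (b - x)) :
    0 < ang x a b ∧ ang x a b < Real.pi := by
  apply arg_of_im_pos
  rw [im_div]
  exact div_pos h (Complex.normSq_pos.2 (ne_zero_of_cr h.ne').1)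


/-- `y` is in the half plane `d` seen from `x` -/
def HP (d x y : ℂ) : Prop := 0 < cr d (y - x)

/-- argument relative to `d` -/
def L (d x y : ℂ) : ℝ := Complex.arg ((y - x) / d)

theorem HP.arg {d x y : ℂ} (h : HP d x y) : 0 < L d x y ∧ L d x y < Real.pi := by
  apply arg_of_im_pos
  rw [im_div]
  exact div_pos h (Complex.normSq_pos.2 (ne_zero_of_cr (h.ne')).1)

theorem HP.ne {d x y : ℂ} (h : HP d x y) : y - x ≠ 0 := (ne_zero_of_cr (h.ne')).2

/-- **angles in a half plane are differences** -/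
theorem ang_hp {d x y y' : ℂ} (h : HP d x y) (h' : HP d x y') :
    ang x y y' = L d x y' - L d x y := by
  have hd : d ≠ 0 := (ne_zero_of_cr (h.ne')).1
  have h1 := h.arg
  have h2 := h'.arg
  have hy := h.ne
  have hy' := h'.ne
  have e : (y' - x) / (y - x) = ((y' - x) / d) * ((y - x) / d)⁻¹ := by
    rw [inv_div]
    field_simp
  unfold ang L at *
  rw [e]
  have e2 : Complex.arg ((y - x) / d)⁻¹ = - Complex.arg ((y - x) / d) := by
    rw [Complex.arg_inv, if_neg h1.2.ne]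
  rw [(Complex.arg_mul_eq_add_arg_iff (div_ne_zero hy' hd) (inv_ne_zero (div_ne_zero hy hd))).2, e2]
  · ring
  · rw [e2]
    constructor <;> linarith [Real.pi_pos]

theorem ang_hp_anti {d x y y' : ℂ} (h : HP d x y) (h' : HP d x y') :
    ang x y' y = - ang x y y' := by
  rw [ang_hp h h', ang_hp h' h]; ring

theorem HP.mid {d x : ℂ} {p : ℂ × ℂ} (h1 : HP d x p.1) (h2 : HP d x p.2) :
    HP d x (mid p) := by
  unfold HP at *
  have e : cr d (B0x346.mid p - x) = (cr d (p.1 - x) + cr d (p.2 - x)) / 2 := by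
    unfold cr B0x346.mid
    simp only [Complex.sub_re, Complex.sub_im, Complex.add_re, Complex.add_im, Complex.div_re,
      Complex.div_im]
    norm_num [Complex.normSq]
    ring
  rw [e]
  linarith

/-- the angle is a lifted argument -/
theorem ang_exp {x a b : ℂ} (ha : a - x ≠ 0) (hb : b - x ≠ 0) :
    ∃ r : ℝ, 0 < r ∧ b - x = (r : ℂ) * Complex.exp (ang x a b * Complex.I) * (a - x) := by
  refine ⟨‖(b - x) / (a - x)‖, norm_pos_iff.2 (div_ne_zero hb ha), ?_⟩
  unfold ang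
  rw [Complex.norm_mul_exp_arg_mul_I]
  field_simp

/-- `v` is `u` turned by `θ`, up to a positive factor -/
def Rot (θ : ℝ) (u v : ℂ) : Prop :=
  ∃ r : ℝ, 0 < r ∧ v = (r : ℂ) * Complex.exp (θ * Complex.I) * u

theorem Rot.trans {θ θ' : ℝ} {u v w : ℂ} (h : Rot θ u v) (h' : Rot θ' v w) :
    Rot (θ + θ') u w := by
  obtain ⟨r, hr, rfl⟩ := h
  obtain ⟨r', hr', rfl⟩ := h'
  refine ⟨r' * r, mul_pos hr' hr, ?_⟩
  push_cast
  rw [add_mul, Complex.exp_add]
  ring

theorem Rot.refl (u : ℂ) : Rot 0 u u := ⟨1, one_pos, by simp⟩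

/-- equal directions: the angles differ by a multiple of `2π` -/
theorem Rot.unique {θ θ' : ℝ} {u v : ℂ} (hu : u ≠ 0) (h : Rot θ u v) (h' : Rot θ' u v) :
    ∃ k : ℤ, θ' = θ + k * (2 * Real.pi) := by
  obtain ⟨r, hr, h⟩ := h
  obtain ⟨r', hr', h'⟩ := h'
  rw [h] at h'
  have h1 := mul_right_cancel₀ hu h'
  have h2 := congrArg norm h1
  rw [norm_mul, norm_mul, Complex.norm_exp_ofReal_mul_I, Complex.norm_exp_ofReal_mul_I,
    Complex.norm_real, Complex.norm_real, Real.norm_of_nonneg hr.le, Real.norm_of_nonneg hr'.le,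
    mul_one, mul_one] at h2
  rw [h2] at h1
  have h3 := mul_left_cancel₀ (Complex.ofReal_ne_zero.2 hr'.ne') h1
  obtain ⟨n, hn⟩ := Complex.exp_eq_exp_iff_exists_int.1 h3
  refine ⟨-n, ?_⟩
  have h4 : ((θ : ℂ) - (θ' + n * (2 * Real.pi) : ℝ)) * Complex.I = 0 := by
    push_cast
    linear_combination hn
  have h5 := (mul_eq_zero.1 h4).resolve_right Complex.I_ne_zero
  have h6 : θ = θ' + n * (2 * Real.pi) := by
    have := sub_eq_zero.1 h5
    exact_mod_cast this
  push_cast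
  linarith

theorem ang_rot {x a b : ℂ} (ha : a - x ≠ 0) (hb : b - x ≠ 0) :
    Rot (ang x a b) (a - x) (b - x) := ang_exp ha hb

/-! ### angles in the Delaunay complex -/

variable {S : Finset ℂ}

/-- `x` is in the open triangle `t` -/
def InO' (x : ℂ) (t : ℂ × ℂ × ℂ) : Prop := Lft x t.1 t.2.1 ∧ Lft x t.2.1 t.2.2 ∧ Lft x t.2.2 t.1

/-- a triangle which does not contain `x` is in a half plane -/
theorem tri_hp (hS : GP (S : Set ℂ)) {t : ℂ × ℂ × ℂ} (ht : t ∈ delT S) {x : ℂ} (hx : InO' x t)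
    {a b c : ℂ} (h : (a, b, c) ∈ delT S) (hn : (a, b, c) ∉ rots t) :
    ∃ d, HP d x a ∧ HP d x b ∧ HP d x c := by
  obtain ⟨o, ho⟩ := mem_delT_iff.1 h
  have ht' : (t.1, t.2.1, t.2.2) ∈ delT S := ht
  obtain ⟨o', ho'⟩ := mem_delT_iff.1 ht'
  have h1 : ¬ InT x a b c := fun h' => hn (disj hS ho' ho hx h')
  have hpos := ho.pos
  have e : ∀ u v y : ℂ, cr (v - u) (y - x) = cr (v - u) (y - u) - cr (v - u) (x - u) := by
    intro u v y; unfold cr; simp only [Complex.sub_re, Complex.sub_im]; ring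
  have hpos2 : cr (c - b) (a - b) = cr (b - a) (c - a) := by
    unfold cr; simp only [Complex.sub_re, Complex.sub_im]; ring
  have hpos3 : cr (a - c) (b - c) = cr (b - a) (c - a) := by
    unfold cr; simp only [Complex.sub_re, Complex.sub_im]; ring
  unfold InT at h1
  by_cases h2 : 0 ≤ cr (b - a) (x - a)
  · by_cases h3 : 0 ≤ cr (c - b) (x - b)
    · have h4 : cr (a - c) (x - c) < 0 := by
        by_contra h5
        push Not at h5
        exact h1 ⟨h2, h3, h5⟩
      refine ⟨a - c, ?_, ?_, ?_⟩ <;> unfold HP <;> rw [e]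
      · rw [cr_right]; linarith
      · rw [hpos3]; linarith
      · rw [cr_left]; linarith
    · push Not at h3
      refine ⟨c - b, ?_, ?_, ?_⟩ <;> unfold HP <;> rw [e]
      · rw [hpos2]; linarith
      · rw [cr_left]; linarith
      · rw [cr_right]; linarith
  · push Not at h2
    refine ⟨b - a, ?_, ?_, ?_⟩ <;> unfold HP <;> rw [e]
    · rw [cr_left]; linarith
    · rw [cr_right]; linarith
    · linarith

/-- an edge seen from the inside of its triangle -/
theorem side_cr {x a b : ℂ} (h : Lft x a b) : 0 < cr (a - x) (b - x) := by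
  unfold Lft at h
  have : cr (a - x) (b - x) = cr (b - a) (x - a) := by
    unfold cr; simp only [Complex.sub_re, Complex.sub_im]; ring
  rw [this]; exact h

/-- two points seen with a positive angle are in a half plane -/
theorem hp_of_cr {x a b : ℂ} (h : 0 < cr (a - x) (b - x)) : ∃ d, HP d x a ∧ HP d x b := by
  refine ⟨a - b, ?_, ?_⟩ <;> unfold HP
  · have : cr (a - b) (a - x) = cr (a - x) (b - x) := by
      unfold cr; simp only [Complex.sub_re, Complex.sub_im]; ring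
    rw [this]; exact h
  · have : cr (a - b) (b - x) = cr (a - x) (b - x) := by
      unfold cr; simp only [Complex.sub_re, Complex.sub_im]; ring
    rw [this]; exact h

theorem inO_rots {x : ℂ} {t : ℂ × ℂ × ℂ} (hx : InO' x t) {a b c : ℂ} (h : (a, b, c) ∈ rots t) :
    Lft x a b ∧ Lft x b c ∧ Lft x c a := by
  obtain ⟨h1, h2, h3⟩ := hx
  unfold rots at h
  simp only [Set.mem_insert_iff, Set.mem_singleton_iff, Prod.mk.injEq] at h
  rcases h with h | ⟨rfl, rfl, rfl⟩ | ⟨rfl, rfl, rfl⟩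
  · have : t = (a, b, c) := h.symm
    subst this
    exact ⟨h1, h2, h3⟩
  · exact ⟨h2, h3, h1⟩
  · exact ⟨h3, h1, h2⟩

/-- every Delaunay edge is in a half plane seen from `x` -/
theorem adj_hp (hS : GP (S : Set ℂ)) {t : ℂ × ℂ × ℂ} (ht : t ∈ delT S) {x : ℂ} (hx : InO' x t)
    {a b : ℂ} (h : Adj S a b) : ∃ d, HP d x a ∧ HP d x b := by
  have key : ∀ a b c, (a, b, c) ∈ delT S → ∃ d, HP d x a ∧ HP d x b := by
    intro a b c h
    by_cases hr : (a, b, c) ∈ rots t
    · exact hp_of_cr (side_cr (inO_rots hx hr).1)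
    · obtain ⟨d, h1, h2, -⟩ := tri_hp hS ht hx h hr
      exact ⟨d, h1, h2⟩
  rcases h with ⟨c, h⟩ | ⟨c, h⟩
  · exact key a b c h
  · obtain ⟨d, h1, h2⟩ := key b a c h
    exact ⟨d, h2, h1⟩

theorem adj_anti (hS : GP (S : Set ℂ)) {t : ℂ × ℂ × ℂ} (ht : t ∈ delT S) {x : ℂ} (hx : InO' x t)
    {a b : ℂ} (h : Adj S a b) : ang x b a = - ang x a b := by
  obtain ⟨d, h1, h2⟩ := adj_hp hS ht hx h
  exact ang_hp_anti h1 h2

/-- three positive angles around `x` -/
theorem ang_sum {x a b c : ℂ} (h1 : Lft x a b) (h2 : Lft x b c) (h3 : Lft x c a) :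
    ang x a b + ang x b c + ang x c a = 2 * Real.pi := by
  have k1 := ang_pos (side_cr h1)
  have k2 := ang_pos (side_cr h2)
  have k3 := ang_pos (side_cr h3)
  have n1 := ne_zero_of_cr (side_cr h1).ne'
  have n2 := ne_zero_of_cr (side_cr h2).ne'
  have hr := ((ang_rot n1.1 n1.2).trans (ang_rot n1.2 n2.2)).trans (ang_rot n2.2 n1.1)
  obtain ⟨k, hk⟩ := Rot.unique n1.1 (Rot.refl (a - x)) hr
  have hpi := Real.pi_pos
  have h4 : (0 : ℝ) < k := by
    by_contra hcon
    push Not at hcon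
    have := mul_nonpos_of_nonpos_of_nonneg hcon (by positivity : (0 : ℝ) ≤ 2 * Real.pi)
    linarith
  have h5 : (k : ℝ) < 2 := by
    by_contra hcon
    push Not at hcon
    nlinarith
  have h6 : k = 1 := by
    have h7 : (0 : ℤ) < k := by exact_mod_cast h4
    have h8 : k < 2 := by exact_mod_cast h5
    omega
  rw [h6] at hk
  rw [hk]
  push_cast
  ring

/-- the angle function is closed except at the triangle of `x` -/
theorem ang_tri (hS : GP (S : Set ℂ)) {t : ℂ × ℂ × ℂ} (ht : t ∈ delT S) {x : ℂ} (hx : InO' x t)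
    {a b c : ℂ} (h : (a, b, c) ∈ delT S) :
    ang x a b + ang x b c + ang x c a = if (a, b, c) ∈ rots t then 2 * Real.pi else 0 := by
  by_cases hr : (a, b, c) ∈ rots t
  · rw [if_pos hr]
    obtain ⟨h1, h2, h3⟩ := inO_rots hx hr
    exact ang_sum h1 h2 h3
  · rw [if_neg hr]
    obtain ⟨d, h1, h2, h3⟩ := tri_hp hS ht hx h hr
    rw [ang_hp h1 h2, ang_hp h2 h3, ang_hp h3 h1]
    ring

/-- `x` is strictly inside the hull -/
theorem hull_lft (hS : GP (S : Set ℂ)) {t : ℂ × ℂ × ℂ} (ht : t ∈ delT S) {x : ℂ}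
    (hx : InO' x t) {u v : ℂ} (h : hullE S u v) : Lft x u v := by
  have ht' : (t.1, t.2.1, t.2.2) ∈ delT S := ht
  obtain ⟨o, ho⟩ := mem_delT_iff.1 ht'
  obtain ⟨x1, x2, x3⟩ := hx
  have e : ∀ y : ℂ, cr (v - u) (y - u) = -((v.re - u.re) * u.im - (v.im - u.im) * u.re) +
      (-(v.im - u.im)) * y.re + (v.re - u.re) * y.im := by
    intro y; rw [cr_sub]; ring
  have hb := bary t.1 t.2.1 t.2.2 x (-((v.re - u.re) * u.im - (v.im - u.im) * u.re))
    (-(v.im - u.im)) (v.re - u.re)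
  rw [← e, ← e, ← e, ← e] at hb
  have g1 := hull_side h t.1 ho.ma
  have g2 := hull_side h t.2.1 ho.mb
  have g3 := hull_side h t.2.2 ho.mc
  unfold Lft at x1 x2 x3 ⊢
  have m1 := mul_nonneg x2.le g1
  have m2 := mul_nonneg x3.le g2
  have m3 := mul_nonneg x1.le g3
  by_contra hcon
  push Not at hcon
  have hpos := ho.pos
  have m4 := mul_nonpos_of_nonneg_of_nonpos hpos.le hcon
  have z1 : cr (v - u) (t.1 - u) = 0 := by
    have : cr (t.2.2 - t.2.1) (x - t.2.1) * cr (v - u) (t.1 - u) = 0 := by linarith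
    exact (mul_eq_zero.1 this).resolve_left x2.ne'
  have z2 : cr (v - u) (t.2.1 - u) = 0 := by
    have : cr (t.1 - t.2.2) (x - t.2.2) * cr (v - u) (t.2.1 - u) = 0 := by linarith
    exact (mul_eq_zero.1 this).resolve_left x3.ne'
  have z3 : cr (v - u) (t.2.2 - u) = 0 := by
    have : cr (t.2.1 - t.1) (x - t.1) * cr (v - u) (t.2.2 - u) = 0 := by linarith
    exact (mul_eq_zero.1 this).resolve_left x1.ne'
  have key : ∀ s ∈ S, cr (v - u) (s - u) = 0 → u = s ∨ v = s := by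
    intro s hs h0
    by_contra hcon'
    push Not at hcon'
    have := hull_side_lt hS h hs hcon'.1 hcon'.2
    linarith
  have q1 := key _ ho.ma z1
  have q2 := key _ ho.mb z2
  have q3 := key _ ho.mc z3
  have hne := ho.ne
  rcases q1 with q1 | q1 <;> rcases q2 with q2 | q2 <;> rcases q3 with q3 | q3
  · exact hne.1 (q1.symm.trans q2)
  · exact hne.1 (q1.symm.trans q2)
  · exact hne.2.2 (q1.symm.trans q3)
  · exact hne.2.1 (q2.symm.trans q3)
  · exact hne.2.1 (q2.symm.trans q3)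
  · exact hne.2.2 (q1.symm.trans q3)
  · exact hne.1 (q1.symm.trans q2)
  · exact hne.1 (q1.symm.trans q2)

/-! ### the angle of a walk -/

section walk

variable {G : Trg ℂ} {kl : Set (ℂ × ℂ)} {O : Set (ℂ × ℂ × ℂ)} {D : Set (ℂ × ℂ)}
  {J : Finset (ℂ × ℂ)}

/-- total angle of a walk around `x` -/
def Th (x : ℂ) (p : ℕ → ℂ × ℂ) (n : ℕ) : ℝ :=
  ∑ m ∈ Finset.range n, ang x (mid (p m)) (mid (p (m + 1)))

theorem Th_succ (x : ℂ) (p : ℕ → ℂ × ℂ) (n : ℕ) :
    Th x p (n + 1) = Th x p n + ang x (mid (p n)) (mid (p (n + 1))) := by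
  unfold Th; rw [Finset.sum_range_succ]

theorem Th_zero (x : ℂ) (p : ℕ → ℂ × ℂ) : Th x p 0 = 0 := by
  unfold Th; rw [Finset.sum_range_zero]

theorem leadsA_wk {x : ℂ} {n : ℕ} {p : ℕ → ℂ × ℂ} (hW : Wk G O D J n p) :
    LeadsA G O D J x (p 0) (p n) (Th x p n) := by
  induction n with
  | zero => rw [Th_zero]; exact LeadsA.refl _
  | succ n ih =>
    rw [Th_succ]
    exact LeadsA.tail _ _ _ _ (ih fun k hk => hW k (by omega)) (hW n (by omega))

theorem wk_of_leadsA {x : ℂ} {s e : ℂ × ℂ} {θ : ℝ} (h : LeadsA G O D J x s e θ) :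
    ∃ n p, Wk G O D J n p ∧ p 0 = s ∧ p n = e ∧ θ = Th x p n := by
  induction h with
  | refl => exact ⟨0, fun _ => s, fun k hk => absurd hk (Nat.not_lt_zero _), rfl, rfl,
      (Th_zero _ _).symm⟩
  | tail q r θ _ h2 ih =>
    obtain ⟨n, p, hp, h0, hn, hθ⟩ := ih
    refine ⟨n + 1, fun k => if k ≤ n then p k else r, fun k hk => ?_, ?_, ?_, ?_⟩
    · dsimp only
      rcases Nat.lt_or_ge k n with h | h
      · rw [if_pos h.le, if_pos (by omega)]
        exact hp k h
      · have : k = n := by omega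
        subst this
        rw [if_pos le_rfl, if_neg (by omega), hn]
        exact h2
    · dsimp only
      rw [if_pos (Nat.zero_le _)]
      exact h0
    · dsimp only
      rw [if_neg (by omega)]
    · rw [Th_succ]
      have e1 : Th x (fun k => if k ≤ n then p k else r) n = Th x p n := by
        unfold Th
        apply Finset.sum_congr rfl
        intro m hm
        rw [Finset.mem_range] at hm
        dsimp only
        rw [if_pos (by omega), if_pos (by omega)]
      rw [e1, hθ]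
      rw [if_pos le_rfl, if_neg (by omega), hn]
      rfl


/-- two complete walks with the same start are equal -/
theorem wk_uniq {n n' : ℕ} {p p' : ℕ → ℂ × ℂ} (hW : Wk G O D J n p) (hW' : Wk G O D J n' p')
    (h0 : p 0 = p' 0) (hn : ∀ q, ¬ Step G O D J (p n) q) (hn' : ∀ q, ¬ Step G O D J (p' n') q) :
    n = n' ∧ ∀ k, k ≤ n → p k = p' k := by
  have key : ∀ k, k ≤ n → k ≤ n' → p k = p' k := by
    intro k
    induction k with
    | zero => intro _ _; exact h0
    | succ k ih =>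
      intro h1 h2
      have h3 := ih (by omega) (by omega)
      have s1 := hW k (by omega)
      have s2 := hW' k (by omega)
      rw [h3] at s1
      exact step_det s1 s2
  have hnn : n = n' := by
    rcases lt_trichotomy n n' with h | h | h
    · exfalso
      have h1 := key n le_rfl h.le
      have h2 := hW' n h
      rw [← h1] at h2
      exact hn _ h2
    · exact h
    · exfalso
      have h1 := key n' h.le le_rfl
      have h2 := hW n' h
      rw [h1] at h2
      exact hn' _ h2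
  exact ⟨hnn, fun k hk => key k hk (by omega)⟩

/-- the end and the angle of a complete walk are unique -/
theorem leadsA_uniq {x : ℂ} {s e e' : ℂ × ℂ} {θ θ' : ℝ} (h : LeadsA G O D J x s e θ)
    (h' : LeadsA G O D J x s e' θ') (he : ∀ q, ¬ Step G O D J e q)
    (he' : ∀ q, ¬ Step G O D J e' q) : e = e' ∧ θ = θ' := by
  obtain ⟨n, p, hW, h0, hn, hθ⟩ := wk_of_leadsA h
  obtain ⟨n', p', hW', h0', hn', hθ'⟩ := wk_of_leadsA h'
  obtain ⟨hnn, hp⟩ := wk_uniq hW hW' (h0.trans h0'.symm) (by rw [hn]; exact he)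
    (by rw [hn']; exact he')
  subst hnn
  refine ⟨by rw [← hn, ← hn', hp n le_rfl], ?_⟩
  rw [hθ, hθ']
  unfold Th
  apply Finset.sum_congr rfl
  intro m hm
  rw [Finset.mem_range] at hm
  rw [hp m (by omega), hp (m + 1) (by omega)]

/-- a walker at a mark stops -/
theorem mark_stop {e : ℂ × ℂ} (he : (e.2, e.1) ∈ D) (q : ℂ × ℂ) : ¬ Step G O D J e q :=
  fun h => step_pre h he

variable {t : ℂ × ℂ × ℂ} {x : ℂ}

/-- one step, measured along the left hand and along the right hand -/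
theorem step_ang (hS : GP (S : Set ℂ)) (hG : G.T = delT S) (hD : HullM S D)
    (hJ : IsJoin G kl (rots t) D J) (ht : t ∈ delT S) (hx : InO' x t) {A : ℂ → ℝ}
    (hA : ∀ a b, Adj S a b → (a, b) ∉ J → (b, a) ∉ J → ang x a b = A b - A a) {p q : ℂ × ℂ}
    (hp : p ∈ J) (h : Step G (rots t) D J p q) :
    ang x (mid p) (mid q) = (A q.1 + ang x q.1 (mid q)) - (A p.1 + ang x p.1 (mid p)) ∧
      ang x (mid p) (mid q) = (A q.2 + ang x q.2 (mid q)) - (A p.2 + ang x p.2 (mid p)) := by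
  obtain ⟨c, hc, hcO, _, hq⟩ := h
  have hpar := hJ.par _ _ _ hc
  rw [if_neg hcO] at hpar
  have hp' : (p.1, p.2) ∈ J := hp
  rw [hG] at hc
  have hr := delT_rot hS hc
  have hr' := delT_rot hS hr
  obtain ⟨d, d1, d2, d3⟩ := tri_hp hS ht hx hc hcO
  have dp := HP.mid d1 d2
  rcases hq with ⟨h1, rfl⟩ | ⟨h1, h2, rfl⟩
  · have h3 : (c, p.1) ∉ J := by
      intro h'
      simp only [hp', h1, h', if_true] at hpar
      omega
    have h4 : ¬ ((c, p.1) ∈ J ∨ (p.1, c) ∈ J) := fun h => h3 ((occ_iff hG hD hJ hr').1 h)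
    push Not at h4
    have h5 := hA _ _ (adj_tri hr') h4.1 h4.2
    have dq := HP.mid (p := (c, p.2)) d3 d2
    rw [ang_hp d3 d1] at h5
    dsimp only
    rw [ang_hp dp dq, ang_hp d3 dq, ang_hp d1 dp, ang_hp d2 dq, ang_hp d2 dp]
    constructor <;> linarith
  · have h4 : ¬ ((p.2, c) ∈ J ∨ (c, p.2) ∈ J) := fun h => h2 ((occ_iff hG hD hJ hr).1 h)
    push Not at h4
    have h5 := hA _ _ (adj_tri hr) h4.1 h4.2
    have dq := HP.mid (p := (p.1, c)) d1 d3
    rw [ang_hp d2 d3] at h5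
    dsimp only
    rw [ang_hp dp dq, ang_hp d3 dq, ang_hp d1 dp, ang_hp d1 dq, ang_hp d2 dp]
    constructor <;> linarith

theorem wk_ang (hS : GP (S : Set ℂ)) (hG : G.T = delT S) (hD : HullM S D)
    (hJ : IsJoin G kl (rots t) D J) (ht : t ∈ delT S) (hx : InO' x t) {A : ℂ → ℝ}
    (hA : ∀ a b, Adj S a b → (a, b) ∉ J → (b, a) ∉ J → ang x a b = A b - A a) {n : ℕ}
    {p : ℕ → ℂ × ℂ} (hW : Wk G (rots t) D J n p) (h0 : ((p 0).2, (p 0).1) ∈ J)
    (h0D : p 0 ∉ D) : ∀ k, k ≤ n →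
    Th x p k = (A (p k).1 + ang x (p k).1 (mid (p k))) - (A (p 0).1 + ang x (p 0).1 (mid (p 0))) ∧
    Th x p k = (A (p k).2 + ang x (p k).2 (mid (p k))) -
      (A (p 0).2 + ang x (p 0).2 (mid (p 0))) := by
  intro k
  induction k with
  | zero => intro _; rw [Th_zero]; exact ⟨by ring, by ring⟩
  | succ k ih =>
    intro hk
    have h1 := ih (by omega)
    have h2 := step_ang hS hG hD hJ ht hx hA (hW.mem hJ h0 h0D k (by omega)) (hW k (by omega))
    rw [Th_succ]
    constructor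
    · linarith [h1.1, h2.1]
    · linarith [h1.2, h2.2]

variable {xm : ZMod 3 → ℂ × ℂ} {n : ZMod 3 → ℕ} {p : ZMod 3 → ℕ → ℂ × ℂ}

/-- lifted arguments of the sites, cut along the leg `k` -/
theorem cutArg (hS : GP (S : Set ℂ)) (hG : G.T = delT S) (hD : HullM S D) (ht : t ∈ delT S)
    (hx : InO' x t) (h : Legs G S D t J xm n p) (k : ZMod 3) :
    ∃ A : ℂ → ℝ, ∀ a b, Adj S a b →
      ang x a b - 2 * Real.pi * (Fl (n k) (p k) a b : ℝ) = A b - A a := by
  refine exact hS (A := ℝ) (f := fun a b => ang x a b - 2 * Real.pi * (Fl (n k) (p k) a b : ℝ))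
    ?_ ?_
  · intro a b hab
    rw [adj_anti hS ht hx hab, Fl_anti]
    push_cast
    ring
  · intro a b c habc
    have h1 := h.tri hS hG ht hD k habc
    have h2 := ang_tri hS ht hx habc
    have h3 : (Fl (n k) (p k) a b : ℝ) + Fl (n k) (p k) b c + Fl (n k) (p k) c a =
        if (a, b, c) ∈ rots t then 1 else 0 := by exact_mod_cast h1
    by_cases hr : (a, b, c) ∈ rots t
    · rw [if_pos hr] at h2 h3
      linear_combination h2 - 2 * Real.pi * h3
    · rw [if_neg hr] at h2 h3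
      linear_combination h2 - 2 * Real.pi * h3

/-- **the difference of the angles of two consecutive legs** -/
theorem Legs.ang_diff (hS : GP (S : Set ℂ)) (hG : G.T = delT S) (hD : HullM S D)
    (hJ : IsJoin G kl (rots t) D J) (ht : t ∈ delT S) (hx : InO' x t)
    (h : Legs G S D t J xm n p) {N : ℕ} {w : ℤ → ℂ} (hw : HullCyc S N w) {a : ZMod 3 → ℤ}
    (ha : ∀ i, 0 ≤ a i ∧ a i < N) (hxm : ∀ i, xm i = (w (a i), w (a i + 1)))
    {i j k : ZMod 3} (hij : i + 1 = j) (hcyc : Cyc (a i) (a j) (a k)) :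
    ∃ H : ℝ, 0 < H ∧ H < 2 * Real.pi ∧
      Th x (p j) (n j) - Th x (p i) (n i) =
        H - (ang x (mid (st t i)) (vt t j) + ang x (vt t j) (mid (st t j))) := by
  obtain ⟨A, hA⟩ := cutArg hS hG hD ht hx h k
  have hA' : ∀ a b, Adj S a b → (a, b) ∉ J → (b, a) ∉ J → ang x a b = A b - A a := by
    intro u v huv h1 h2
    have h3 := hA u v huv
    rw [Fl_unocc (h.wk k) (h.occ0 k) h1 h2] at h3
    push_cast at h3
    linarith
  have hi := (wk_ang hS hG hD hJ ht hx hA' (h.wk i) (h.occ0 i) (h.notD hS ht hD i) (n i)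
    le_rfl).1
  have hj := (wk_ang hS hG hD hJ ht hx hA' (h.wk j) (h.occ0 j) (h.notD hS ht hD j) (n j)
    le_rfl).2
  rw [h.en, h.st, hxm] at hi hj
  -- the hull
  have hedge : ∀ m : ℤ, Lft x (w m) (w (m + 1)) := fun m => hull_lft hS ht hx (hw.edge m)
  have hpos : ∀ m : ℤ, 0 < ang x (w m) (w (m + 1)) := fun m => (ang_pos (side_cr (hedge m))).1
  have hN : (0 : ℤ) < N := by exact_mod_cast hw.pos
  have hFl : ∀ m : ℤ, a k < m → m < a k + N → Fl (n k) (p k) (w m) (w (m + 1)) = 0 := by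
    intro m hm hm'
    rw [Fl_hull hG hJ (h.wk k) (h.occ0 k) (hw.edge m), h.en k, if_neg]
    intro he
    rw [Prod.mk.injEq, hxm k] at he
    exact ne_of_lt hw.pos hw.per hw.inj hm hm' he.2
  have hFk : Fl (n k) (p k) (w (a k)) (w (a k + 1)) = 1 := by
    rw [Fl_hull hG hJ (h.wk k) (h.occ0 k) (hw.edge _), h.en k, if_pos]
    rw [hxm k]
  have hinc : ∀ m : ℤ, a k < m → m < a k + N →
      A (w (m + 1)) = A (w m) + ang x (w m) (w (m + 1)) := by
    intro m hm hm'
    have h1 := hA (w m) (w (m + 1)) (Or.inl (hw.edge m).1)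
    rw [hFl m hm hm'] at h1
    push_cast at h1
    linarith
  have htot : A (w (a k + N)) - A (w (a k + 1)) < 2 * Real.pi := by
    have h1 := hA (w (a k)) (w (a k + 1)) (Or.inl (hw.edge _).1)
    rw [hFk] at h1
    rw [hw.per]
    have h2 := hpos (a k)
    push_cast at h1
    linarith
  have hmono : ∀ (r : ℕ) (m : ℤ), a k < m → m + r ≤ a k + N → A (w m) ≤ A (w (m + r)) := by
    intro r
    induction r with
    | zero => intro m _ _; simp
    | succ r ih =>
      intro m hm hm'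
      push_cast at hm'
      have h1 := ih m hm (by omega)
      have h2 := hinc (m + r) (by omega) (by omega)
      have h3 := hpos (m + r)
      have h4 : m + ((r + 1 : ℕ) : ℤ) = m + r + 1 := by push_cast; ring
      rw [h4, h2]
      linarith
  have hmono' : ∀ m m' : ℤ, a k < m → m ≤ m' → m' ≤ a k + N → A (w m) ≤ A (w m') := by
    intro m m' hm hmm hm'
    obtain ⟨r, hr⟩ := Int.eq_ofNat_of_zero_le (sub_nonneg.2 hmm)
    have : m' = m + r := by omega
    rw [this]
    exact hmono r m hm (by omega)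
  -- lifted positions
  obtain ⟨ai, aj, hai, haj, b1, b2, b3⟩ : ∃ ai aj : ℤ, (ai = a i ∨ ai = a i + N) ∧
      (aj = a j ∨ aj = a j + N) ∧ a k < ai ∧ ai < aj ∧ aj < a k + N := by
    have h1 := ha i
    have h2 := ha j
    have h3 := ha k
    rcases hcyc with ⟨c1, c2⟩ | ⟨c1, c2⟩ | ⟨c1, c2⟩
    · exact ⟨a i + N, a j + N, Or.inr rfl, Or.inr rfl, by omega, by omega, by omega⟩
    · exact ⟨a i, a j + N, Or.inl rfl, Or.inr rfl, by omega, by omega, by omega⟩
    · exact ⟨a i, a j, Or.inl rfl, Or.inl rfl, by omega, by omega, by omega⟩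
  have wi : w (a i) = w ai ∧ w (a i + 1) = w (ai + 1) := by
    rcases hai with rfl | rfl
    · exact ⟨rfl, rfl⟩
    · refine ⟨(hw.per _).symm, ?_⟩
      have : a i + N + 1 = a i + 1 + N := by ring
      rw [this, hw.per]
  have wj : w (a j) = w aj ∧ w (a j + 1) = w (aj + 1) := by
    rcases haj with rfl | rfl
    · exact ⟨rfl, rfl⟩
    · refine ⟨(hw.per _).symm, ?_⟩
      have : a j + N + 1 = a j + 1 + N := by ring
      rw [this, hw.per]
  rw [wi.1, wi.2] at hi
  rw [wj.1, wj.2] at hj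
  -- the marks on their hull edges
  have hmark : ∀ m : ℤ, ∃ u v : ℝ, 0 < u ∧ 0 < v ∧ ang x (w m) (w (m + 1)) = u + v ∧
      ang x (w m) (mid (w (m + 1), w m)) = u ∧ ang x (w (m + 1)) (mid (w (m + 1), w m)) = - v := by
    intro m
    have hc := side_cr (hedge m)
    obtain ⟨d, d1, d2⟩ := hp_of_cr hc
    have dm := HP.mid (p := (w (m + 1), w m)) d2 d1
    have e1 : cr (w m - x) (mid (w (m + 1), w m) - x) = cr (w m - x) (w (m + 1) - x) / 2 := by
      unfold cr mid
      simp only [Complex.sub_re, Complex.sub_im, Complex.add_re, Complex.add_im, Complex.div_re,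
        Complex.div_im]
      norm_num [Complex.normSq]
      ring
    have e2 : cr (mid (w (m + 1), w m) - x) (w (m + 1) - x) =
        cr (w m - x) (w (m + 1) - x) / 2 := by
      unfold cr mid
      simp only [Complex.sub_re, Complex.sub_im, Complex.add_re, Complex.add_im, Complex.div_re,
        Complex.div_im]
      norm_num [Complex.normSq]
      ring
    refine ⟨ang x (w m) (mid (w (m + 1), w m)), ang x (mid (w (m + 1), w m)) (w (m + 1)),
      (ang_pos (by rw [e1]; linarith)).1, (ang_pos (by rw [e2]; linarith)).1, ?_, rfl, ?_⟩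
    · rw [ang_hp d1 d2, ang_hp d1 dm, ang_hp dm d2]; ring
    · rw [ang_hp_anti dm d2]
  obtain ⟨ui, vi, ui0, vi0, ei1, ei2, ei3⟩ := hmark ai
  obtain ⟨uj, vj, uj0, vj0, ej1, ej2, ej3⟩ := hmark aj
  have hii := hinc ai b1 (by omega)
  have hjj := hinc aj (by omega) b3
  have hm1 := hmono' (ai + 1) aj (by omega) (by omega) (by omega)
  have hm2 := hmono' (a k + 1) ai (by omega) (by omega) (by omega)
  have hm3 := hmono' (aj + 1) (a k + N) (by omega) (by omega) (by omega)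
  refine ⟨vi + (A (w aj) - A (w (ai + 1))) + uj, ?_, ?_, ?_⟩
  · linarith
  · linarith
  · have e1 : (st t i).1 = vt t j := by unfold st; rw [hij]
    have e2 : (st t j).2 = vt t j := rfl
    rw [ei3, e1] at hi
    rw [ej2, e2] at hj
    have e3 : ang x (vt t j) (mid (st t i)) = - ang x (mid (st t i)) (vt t j) := by
      have hlf := inO_rots hx (rots_vt t i)
      obtain ⟨d, d1, d2⟩ := hp_of_cr (side_cr hlf.1)
      have dm := HP.mid (p := st t i) d2 d1
      rw [hij] at d2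
      rw [ang_hp_anti dm d2]
    rw [e3] at hi
    rw [hi, hj]
    ring

theorem step_rot (hS : GP (S : Set ℂ)) (hG : G.T = delT S) (ht : t ∈ delT S) (hx : InO' x t)
    {p q : ℂ × ℂ} (h : Step G (rots t) D J p q) :
    Rot (ang x (mid p) (mid q)) (mid p - x) (mid q - x) := by
  obtain ⟨c, hc, hcO, _, hq⟩ := h
  rw [hG] at hc
  obtain ⟨d, d1, d2, d3⟩ := tri_hp hS ht hx hc hcO
  have dp := HP.mid d1 d2
  rcases hq with ⟨_, rfl⟩ | ⟨_, _, rfl⟩
  · exact ang_rot dp.ne (HP.mid (p := (c, p.2)) d3 d2).ne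
  · exact ang_rot dp.ne (HP.mid (p := (p.1, c)) d1 d3).ne

theorem wk_rot (hS : GP (S : Set ℂ)) (hG : G.T = delT S) (ht : t ∈ delT S) (hx : InO' x t)
    {n : ℕ} {p : ℕ → ℂ × ℂ} (hW : Wk G (rots t) D J n p) :
    Rot (Th x p n) (mid (p 0) - x) (mid (p n) - x) := by
  induction n with
  | zero => rw [Th_zero]; exact Rot.refl _
  | succ n ih =>
    rw [Th_succ]
    exact (ih fun k hk => hW k (by omega)).trans (step_rot hS hG ht hx (hW n (by omega)))

end walk

/-! ### lifted sides -/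

/-- lifted directions of the middles of the sides of `t`, seen from `x` -/
structure SLift (t : ℂ × ℂ × ℂ) (x : ℂ) (sd : ℤ → ℝ) : Prop where
  mono : StrictMono sd
  per : ∀ k, sd (k + 3) = sd k + 2 * Real.pi
  dir : ∀ k : ℤ, ∃ r : ℝ, 0 < r ∧
    mid (st t (k : ZMod 3)) - x = (r : ℂ) * Complex.exp (sd k * Complex.I)

theorem per_mul {f : ℤ → ℝ} (h : ∀ k, f (k + 3) = f k + 2 * Real.pi) (k m : ℤ) :
    f (k + 3 * m) = f k + m * (2 * Real.pi) := by
  have key : ∀ (n : ℕ) (k : ℤ), f (k + 3 * n) = f k + n * (2 * Real.pi) := by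
    intro n
    induction n with
    | zero => intro k; simp
    | succ n ih =>
      intro k
      have e : k + 3 * ((n + 1 : ℕ) : ℤ) = (k + 3 * n) + 3 := by push_cast; ring
      rw [e, h, ih]
      push_cast
      ring
  rcases le_total 0 m with hm | hm
  · obtain ⟨n, rfl⟩ := Int.eq_ofNat_of_zero_le hm
    rw [key n k]
    push_cast
    ring
  · obtain ⟨n, hn⟩ := Int.eq_ofNat_of_zero_le (neg_nonneg.2 hm)
    have hmn : m = -(n : ℤ) := by omega
    have := key n (k + 3 * m)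
    have e : k + 3 * m + 3 * (n : ℤ) = k := by rw [hmn]; ring
    rw [e] at this
    rw [this, hmn]
    push_cast
    ring

/-- angle between the middles of two consecutive sides -/
def sang (t : ℂ × ℂ × ℂ) (x : ℂ) (i : ZMod 3) : ℝ :=
  ang x (mid (st t i)) (vt t (i + 1)) + ang x (vt t (i + 1)) (mid (st t (i + 1)))

theorem side_mid {x : ℂ} {a b : ℂ} (h : Lft x a b) :
    0 < cr (mid (b, a) - x) (b - x) ∧ 0 < cr (a - x) (mid (b, a) - x) := by
  have hc := side_cr h
  have e1 : cr (mid (b, a) - x) (b - x) = cr (a - x) (b - x) / 2 := by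
    unfold cr mid
    simp only [Complex.sub_re, Complex.sub_im, Complex.add_re, Complex.add_im, Complex.div_re,
      Complex.div_im]
    norm_num [Complex.normSq]
    ring
  have e2 : cr (a - x) (mid (b, a) - x) = cr (a - x) (b - x) / 2 := by
    unfold cr mid
    simp only [Complex.sub_re, Complex.sub_im, Complex.add_re, Complex.add_im, Complex.div_re,
      Complex.div_im]
    norm_num [Complex.normSq]
    ring
  rw [e1, e2]
  constructor <;> linarith

theorem sang_spec {t : ℂ × ℂ × ℂ} {x : ℂ} (hx : InO' x t) (i : ZMod 3) :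
    0 < sang t x i ∧ sang t x i < 2 * Real.pi ∧
      Rot (sang t x i) (mid (st t i) - x) (mid (st t (i + 1)) - x) := by
  have h1 := side_mid (inO_rots hx (rots_vt t i)).1
  have h2 := side_mid (inO_rots hx (rots_vt t (i + 1))).1
  have k1 := ang_pos h1.1
  have k2 := ang_pos h2.2
  have n1 := ne_zero_of_cr h1.1.ne'
  have n2 := ne_zero_of_cr h2.2.ne'
  unfold sang st
  refine ⟨by linarith [k1.1, k2.1], by linarith [k1.2, k2.2], ?_⟩
  exact (ang_rot n1.1 n1.2).trans (ang_rot n2.1 n2.2)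

theorem sang_sum {t : ℂ × ℂ × ℂ} {x : ℂ} (hx : InO' x t) :
    sang t x 0 + sang t x 1 + sang t x 2 = 2 * Real.pi := by
  have key : ∀ i : ZMod 3, ang x (vt t i) (mid (st t i)) + ang x (mid (st t i)) (vt t (i + 1)) =
      ang x (vt t i) (vt t (i + 1)) := by
    intro i
    have hl := (inO_rots hx (rots_vt t i)).1
    obtain ⟨d, d1, d2⟩ := hp_of_cr (side_cr hl)
    have dm := HP.mid (p := st t i) d2 d1
    rw [ang_hp d1 dm, ang_hp dm d2, ang_hp d1 d2]
    ring
  have h0 := key 0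
  have h1 := key 1
  have h2 := key 2
  have e1 : (0 : ZMod 3) + 1 = 1 := rfl
  have e2 : (1 : ZMod 3) + 1 = 2 := rfl
  have e3 : (2 : ZMod 3) + 1 = 0 := rfl
  unfold sang
  rw [e1, e2, e3]
  rw [e1] at h0
  rw [e2] at h1
  rw [e3] at h2
  have h3 := ang_sum hx.1 hx.2.1 hx.2.2
  rw [vt_zero, vt_one] at h0
  rw [vt_one, vt_two] at h1
  rw [vt_two, vt_zero] at h2
  rw [vt_zero, vt_one, vt_two]
  linarith

/-- lifted sides exist, with a prescribed first argument -/
theorem exists_slift {t : ℂ × ℂ × ℂ} {x : ℂ} (hx : InO' x t) {a0 : ℝ}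
    (ha0 : ∃ r : ℝ, 0 < r ∧ mid (t.1, t.2.1) - x = (r : ℂ) * Complex.exp (a0 * Complex.I)) :
    ∃ sd, SLift t x sd ∧ sd 0 = a0 := by
  have hs := sang_sum hx
  have p0 := sang_spec hx 0
  have p1 := sang_spec hx 1
  have p2 := sang_spec hx 2
  have e1 : (0 : ZMod 3) + 1 = 1 := rfl
  have e2 : (1 : ZMod 3) + 1 = 2 := rfl
  have e3 : (2 : ZMod 3) + 1 = 0 := rfl
  rw [e1] at p0
  rw [e2] at p1
  rw [e3] at p2
  set sd : ℤ → ℝ := fun k => a0 + (k / 3 : ℤ) * (2 * Real.pi) +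
    (if k % 3 = 0 then 0 else if k % 3 = 1 then sang t x 0 else sang t x 0 + sang t x 1) with hsd
  have hdiv : ∀ k : ℤ, k % 3 = 0 ∨ k % 3 = 1 ∨ k % 3 = 2 := by intro k; omega
  have d0 : ∃ r : ℝ, 0 < r ∧ mid (st t 0) - x = (r : ℂ) * Complex.exp (a0 * Complex.I) := by
    obtain ⟨r, hr, h⟩ := ha0
    refine ⟨r, hr, ?_⟩
    rw [← h]
    unfold st mid
    rw [e1, vt_zero, vt_one]
    dsimp only
    ring
  have d1 : ∃ r : ℝ, 0 < r ∧ mid (st t 1) - x =
      (r : ℂ) * Complex.exp ((a0 + sang t x 0 : ℝ) * Complex.I) := by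
    obtain ⟨r, hr, h⟩ := d0
    obtain ⟨r', hr', h'⟩ := p0.2.2
    refine ⟨r' * r, mul_pos hr' hr, ?_⟩
    rw [h', h]
    push_cast
    rw [add_mul, Complex.exp_add]
    ring
  have d2 : ∃ r : ℝ, 0 < r ∧ mid (st t 2) - x =
      (r : ℂ) * Complex.exp ((a0 + (sang t x 0 + sang t x 1) : ℝ) * Complex.I) := by
    obtain ⟨r, hr, h⟩ := d1
    obtain ⟨r', hr', h'⟩ := p1.2.2
    refine ⟨r' * r, mul_pos hr' hr, ?_⟩
    rw [h', h]
    push_cast
    rw [← add_assoc, add_mul _ (sang t x 1 : ℂ), Complex.exp_add]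
    ring
  have hexp : ∀ (y : ℝ) (m : ℤ), Complex.exp (((y + m * (2 * Real.pi) : ℝ) : ℂ) * Complex.I) =
      Complex.exp (y * Complex.I) := by
    intro y m
    have := Complex.exp_periodic.int_mul m (y * Complex.I)
    rw [← this]
    congr 1
    push_cast
    ring
  refine ⟨sd, ⟨?_, ?_, ?_⟩, ?_⟩
  · apply strictMono_int_of_lt_succ
    intro k
    rw [hsd]
    dsimp only
    rcases hdiv k with h | h | h
    · have h1 : (k + 1) / 3 = k / 3 := by omega
      have h2 : (k + 1) % 3 = 1 := by omega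
      rw [h1, h2, h]
      norm_num
      exact p0.1
    · have h1 : (k + 1) / 3 = k / 3 := by omega
      have h2 : (k + 1) % 3 = 2 := by omega
      rw [h1, h2, h]
      norm_num
      exact p1.1
    · have h1 : (k + 1) / 3 = k / 3 + 1 := by omega
      have h2 : (k + 1) % 3 = 0 := by omega
      rw [h1, h2, h]
      push_cast
      norm_num
      linarith [p2.1]
  · intro k
    rw [hsd]
    dsimp only
    have h1 : (k + 3) / 3 = k / 3 + 1 := by omega
    have h2 : (k + 3) % 3 = k % 3 := by omega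
    rw [h1, h2]
    push_cast
    ring
  · intro k
    rw [hsd]
    dsimp only
    have hk := Int.mul_ediv_add_emod k 3
    have h30 : (3 : ZMod 3) = 0 := rfl
    rcases hdiv k with h | h | h
    · have hc : ((k : ℤ) : ZMod 3) = 0 := by
        rw [← hk, h]; push_cast; rw [h30]; ring
      rw [hc, if_pos h]
      obtain ⟨r, hr, h'⟩ := d0
      refine ⟨r, hr, ?_⟩
      rw [h', add_zero, hexp]
    · have hc : ((k : ℤ) : ZMod 3) = 1 := by
        rw [← hk, h]; push_cast; rw [h30]; ring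
      rw [hc, if_neg (by omega), if_pos h]
      obtain ⟨r, hr, h'⟩ := d1
      refine ⟨r, hr, ?_⟩
      rw [h', ← hexp _ (k / 3)]
      congr 3
      push_cast
      ring
    · have hc : ((k : ℤ) : ZMod 3) = 2 := by
        rw [← hk, h]; push_cast; rw [h30]; ring
      rw [hc, if_neg (by omega), if_neg (by omega)]
      obtain ⟨r, hr, h'⟩ := d2
      refine ⟨r, hr, ?_⟩
      rw [h', ← hexp _ (k / 3)]
      congr 3
      push_cast
      ring
  · rw [hsd]
    simp

theorem rot_of_dir {u v : ℂ} {α β : ℝ}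
    (hu : ∃ r : ℝ, 0 < r ∧ u = (r : ℂ) * Complex.exp (α * Complex.I))
    (hv : ∃ r : ℝ, 0 < r ∧ v = (r : ℂ) * Complex.exp (β * Complex.I)) : Rot (β - α) u v := by
  obtain ⟨r, hr, rfl⟩ := hu
  obtain ⟨r', hr', rfl⟩ := hv
  refine ⟨r' / r, div_pos hr' hr, ?_⟩
  have hr0 : (r : ℂ) ≠ 0 := Complex.ofReal_ne_zero.2 hr.ne'
  have e : Complex.exp (((β - α : ℝ) : ℂ) * Complex.I) * Complex.exp (α * Complex.I) =
      Complex.exp (β * Complex.I) := by
    rw [← Complex.exp_add]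
    congr 1
    push_cast
    ring
  push_cast
  calc (r' : ℂ) * Complex.exp (β * Complex.I) =
      (r' / r * r) * (Complex.exp (((β - α : ℝ) : ℂ) * Complex.I) *
        Complex.exp (α * Complex.I)) := by rw [e, div_mul_cancel₀ _ hr0]
    _ = _ := by push_cast; ring

theorem rot_unique' {θ θ' : ℝ} {u v : ℂ} (hu : u ≠ 0) (h : Rot θ u v) (h' : Rot θ' u v)
    (h1 : 0 < θ) (h2 : θ < 2 * Real.pi) (h3 : 0 < θ') (h4 : θ' < 2 * Real.pi) : θ = θ' := by
  obtain ⟨k, hk⟩ := Rot.unique hu h h'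
  have hpi := Real.pi_pos
  have k1 : (k : ℝ) < 1 := by
    by_contra hcon
    push Not at hcon
    have := mul_le_mul_of_nonneg_right hcon (by positivity : (0 : ℝ) ≤ 2 * Real.pi)
    linarith
  have k2 : (-1 : ℝ) < k := by
    by_contra hcon
    push Not at hcon
    have := mul_le_mul_of_nonneg_right hcon (by positivity : (0 : ℝ) ≤ 2 * Real.pi)
    linarith
  have k3 : k = 0 := by
    have k4 : k < 1 := by exact_mod_cast k1
    have k5 : -1 < k := by exact_mod_cast k2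
    omega
  rw [k3] at hk
  push_cast at hk
  linarith

/-! ### P1' -/

section hnet

variable {N : Net ℂ} {t : ℂ × ℂ × ℂ} {x : ℂ} {lf sd : ℤ → ℝ}

theorem SLift.diff (hx : InO' x t) (hs : SLift t x sd) (i : ℤ) :
    sd (i + 1) - sd i = sang t x (i : ZMod 3) := by
  have h1 := sang_spec hx (i : ZMod 3)
  have h2 := rot_of_dir (hs.dir i) (hs.dir (i + 1))
  have e : (((i + 1 : ℤ)) : ZMod 3) = (i : ZMod 3) + 1 := by push_cast; ring
  rw [e] at h2
  have h3 := hs.mono (show i < i + 1 by omega)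
  have h4 := hs.mono (show i + 1 < i + 3 by omega)
  rw [hs.per] at h4
  have hne : mid (st t (i : ZMod 3)) - x ≠ 0 :=
    (ne_zero_of_cr (side_mid (inO_rots hx (rots_vt t (i : ZMod 3))).1).1.ne').1
  exact (rot_unique' hne h1.2.2 h2 h1.1 h1.2.1 (by linarith) (by linarith)).symm

/-- **P1'**: the lifted rotation is the same for the three legs -/
theorem P1' (H : HNet S N) (ht : t ∈ delT S) (hx : InO' x t) (hl : Lift N x lf)
    (hs : SLift t x sd) {J : Finset (ℂ × ℂ)} (hJ : J ∈ N.tj t) {κ : ZMod 3}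
    (h3 : N.Tri3 t κ J) :
    ∃ k : ℤ, (k : ZMod 3) = κ ∧ ∀ i : ℤ, LeadsA N.toTrg (rots t) N.exS J x (st t (i : ZMod 3))
      ((N.ex ((i + k : ℤ) : ZMod 3)).2, (N.ex ((i + k : ℤ) : ZMod 3)).1) (lf (i + k) - sd i) := by
  obtain ⟨hocc, hE⟩ := tri3_iff.1 h3
  obtain ⟨n, p, hL⟩ := HNet.legs (S := S) (π := fun i => i + κ) hocc hE
  obtain ⟨m, w, hw⟩ := hull_cycle H.gp (HNet.card H)
  obtain ⟨b, hb, hb', -⟩ := HNet.pos H hw
  have hJ' := mem_joins.1 hJ
  have hcyc := hL.cyc H.gp H.tri ht (HNet.hullM H) hJ' hw (a := fun i => b (i + κ))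
    (fun i => hb _) (fun i => hb' _)
  have hne : ∀ i : ZMod 3, mid (st t i) - x ≠ 0 := fun i =>
    (ne_zero_of_cr (side_mid (inO_rots hx (rots_vt t i)).1).1.ne').1
  -- the angle of the leg `i`
  set κ' : ℤ := (κ.val : ℤ) with hκ'
  have hκ : (κ' : ZMod 3) = κ := by
    rw [hκ']
    push_cast
    exact ZMod.natCast_zmod_val κ
  have hang : ∀ i : ℤ, ∃ μ : ℤ, Th x (p (i : ZMod 3)) (n (i : ZMod 3)) =
      lf (i + (κ' + 3 * μ)) - sd i := by
    intro i
    have h1 := wk_rot H.gp H.tri ht hx (hL.wk (i : ZMod 3))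
    rw [hL.st, hL.en] at h1
    have h2 := hl.dir (i + κ')
    have e1 : ((i + κ' : ℤ) : ZMod 3) = (i : ZMod 3) + κ := by push_cast; rw [hκ]
    rw [e1] at h2
    have e2 : mid ((N.ex ((i : ZMod 3) + κ)).2, (N.ex ((i : ZMod 3) + κ)).1) =
        mid (N.ex ((i : ZMod 3) + κ)) := by
      unfold mid; dsimp only; rw [add_comm]
    rw [e2] at h1
    have h4 := rot_of_dir (hs.dir i) h2
    obtain ⟨μ, hμ⟩ := Rot.unique (hne _) h4 h1
    refine ⟨μ, ?_⟩
    have e3 : i + (κ' + 3 * μ) = (i + κ') + 3 * μ := by ring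
    rw [hμ, e3, per_mul hl.per]
    ring
  obtain ⟨μ0, h0⟩ := hang 0
  obtain ⟨μ1, h1⟩ := hang 1
  obtain ⟨μ2, h2⟩ := hang 2
  have c0 : ((0 : ℤ) : ZMod 3) = 0 := rfl
  have c1 : ((1 : ℤ) : ZMod 3) = 1 := rfl
  have c2 : ((2 : ℤ) : ZMod 3) = 2 := rfl
  rw [c0] at h0
  rw [c1] at h1
  rw [c2] at h2
  obtain ⟨H1, p1, q1, r1⟩ := Legs.ang_diff H.gp H.tri (HNet.hullM H) hJ' ht hx hL hw
    (a := fun i => b (i + κ)) (fun i => hb _) (fun i => hb' _) (i := 0) (j := 1) (k := 2) rfl hcyc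
  have hcyc' : Cyc (b (1 + κ)) (b (2 + κ)) (b (0 + κ)) := by
    unfold Cyc at hcyc ⊢
    omega
  obtain ⟨H2, p2, q2, r2⟩ := Legs.ang_diff H.gp H.tri (HNet.hullM H) hJ' ht hx hL hw
    (a := fun i => b (i + κ)) (fun i => hb _) (fun i => hb' _) (i := 1) (j := 2) (k := 0) rfl hcyc'
  have s0 := hs.diff hx 0
  have s1 := hs.diff hx 1
  rw [c0] at s0
  rw [c1] at s1
  unfold sang at s0 s1
  have e1 : (0 : ZMod 3) + 1 = 1 := rfl
  have e2 : (1 : ZMod 3) + 1 = 2 := rfl
  have e3 : (0 : ℤ) + 1 = 1 := rfl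
  have e4 : (1 : ℤ) + 1 = 2 := rfl
  rw [e1, e3] at s0
  rw [e2, e4] at s1
  rw [h0, h1, ← s0] at r1
  rw [h1, h2, ← s1] at r2
  have t1 : lf (1 + (κ' + 3 * μ1)) - lf (0 + (κ' + 3 * μ0)) = H1 := by linarith
  have t2 : lf (2 + (κ' + 3 * μ2)) - lf (1 + (κ' + 3 * μ1)) = H2 := by linarith
  have u1 : 0 + (κ' + 3 * μ0) < 1 + (κ' + 3 * μ1) := hl.mono.lt_iff_lt.1 (by linarith)
  have u2 : 1 + (κ' + 3 * μ1) < 0 + (κ' + 3 * μ0) + 3 :=
    hl.mono.lt_iff_lt.1 (by rw [hl.per]; linarith)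
  have u3 : 1 + (κ' + 3 * μ1) < 2 + (κ' + 3 * μ2) := hl.mono.lt_iff_lt.1 (by linarith)
  have u4 : 2 + (κ' + 3 * μ2) < 1 + (κ' + 3 * μ1) + 3 :=
    hl.mono.lt_iff_lt.1 (by rw [hl.per]; linarith)
  have v1 : μ1 = μ0 := by omega
  have v2 : μ2 = μ0 := by omega
  have h30 : (3 : ZMod 3) = 0 := rfl
  refine ⟨κ' + 3 * μ0, by push_cast; rw [hκ, h30]; ring, fun i => ?_⟩
  -- reduction to `0, 1, 2`
  have hbase : ∀ r : ℤ, r = 0 ∨ r = 1 ∨ r = 2 → Th x (p (r : ZMod 3)) (n (r : ZMod 3)) =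
      lf (r + (κ' + 3 * μ0)) - sd r := by
    rintro r (rfl | rfl | rfl)
    · rw [c0]; exact h0
    · rw [c1, h1, v1]
    · rw [c2, h2, v2]
  have hk := Int.mul_ediv_add_emod i 3
  have hi3 : (i : ZMod 3) = ((i % 3 : ℤ) : ZMod 3) := by
    conv_lhs => rw [← hk]
    push_cast
    rw [h30]
    ring
  have h5 := hbase (i % 3) (by omega)
  rw [← hi3] at h5
  have h6 : lf (i + (κ' + 3 * μ0)) - sd i = lf (i % 3 + (κ' + 3 * μ0)) - sd (i % 3) := by
    have e5 : i + (κ' + 3 * μ0) = (i % 3 + (κ' + 3 * μ0)) + 3 * (i / 3) := by omega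
    have e6 : sd i = sd (i % 3 + 3 * (i / 3)) := by congr 1; omega
    rw [e5, e6, per_mul hl.per, per_mul hs.per]
    ring
  rw [h6, ← h5]
  have h7 := leadsA_wk (x := x) (hL.wk (i : ZMod 3))
  rw [hL.st, hL.en] at h7
  have e7 : ((i + (κ' + 3 * μ0) : ℤ) : ZMod 3) = (i : ZMod 3) + κ := by
    push_cast; rw [hκ, h30]; ring
  rw [e7]
  exact h7

/-! ### P4 -/

theorem triK_unique (hl : Lift N x lf) {a0 : ℝ} {J : Finset (ℂ × ℂ)} {k k' : ℤ}
    (h : N.TriK t x lf a0 k J) (h' : N.TriK t x lf a0 k' J) : k = k' := by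
  have h1 := leadsA_uniq h.2 h'.2 (mark_stop ⟨_, rfl⟩) (mark_stop ⟨_, rfl⟩)
  exact hl.mono.injective (by linarith [h1.2])

theorem triK_exists (H : HNet S N) (ht : t ∈ delT S) (hx : InO' x t) (hl : Lift N x lf) {a0 : ℝ}
    (ha0 : ∃ r : ℝ, 0 < r ∧ mid (t.1, t.2.1) - x = (r : ℂ) * Complex.exp (a0 * Complex.I))
    {J : Finset (ℂ × ℂ)} (hJ : J ∈ N.tj t) {κ : ZMod 3} (h3 : N.Tri3 t κ J) :
    ∃ k : ℤ, (k : ZMod 3) = κ ∧ N.TriK t x lf a0 k J := by
  obtain ⟨sd, hs, hs0⟩ := exists_slift hx ha0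
  obtain ⟨k, hk, h⟩ := P1' H ht hx hl hs hJ h3
  have h0 := h 0
  rw [hs0, zero_add] at h0
  exact ⟨k, hk, by rw [hk]; exact h3, h0⟩


/-- the type of rotation of a join -/
def rotK (N : Net ℂ) (t : ℂ × ℂ × ℂ) (x : ℂ) (lf : ℤ → ℝ) (a0 : ℝ) (J : Finset (ℂ × ℂ)) : ℤ :=
  if h : ∃ k, N.TriK t x lf a0 k J then h.choose else 0

theorem triK_iff (hl : Lift N x lf) {a0 : ℝ} {J : Finset (ℂ × ℂ)} (hk : ∃ k, N.TriK t x lf a0 k J)
    (k : ℤ) : N.TriK t x lf a0 k J ↔ k = rotK N t x lf a0 J := by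
  have h1 : N.TriK t x lf a0 (rotK N t x lf a0 J) J := by
    unfold rotK
    rw [dif_pos hk]
    exact hk.choose_spec
  constructor
  · intro h
    exact triK_unique hl h h1
  · rintro rfl
    exact h1

theorem ex_triK_iff (H : HNet S N) (ht : t ∈ delT S) (hx : InO' x t) (hl : Lift N x lf) {a0 : ℝ}
    (ha0 : ∃ r : ℝ, 0 < r ∧ mid (t.1, t.2.1) - x = (r : ℂ) * Complex.exp (a0 * Complex.I))
    {J : Finset (ℂ × ℂ)} (hJ : J ∈ N.tj t) :
    (∃ k, N.TriK t x lf a0 k J) ↔ ∃ κ, N.Tri3 t κ J := by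
  constructor
  · rintro ⟨k, hk⟩
    exact ⟨_, hk.1⟩
  · rintro ⟨κ, hκ⟩
    obtain ⟨k, -, hk⟩ := triK_exists H ht hx hl ha0 hJ hκ
    exact ⟨k, hk⟩

/-- the winding polynomial as a sum over joins -/
theorem X_eq (H : HNet S N) (ht : t ∈ delT S) (hx : InO' x t) (hl : Lift N x lf) {a0 : ℝ}
    (ha0 : ∃ r : ℝ, 0 < r ∧ mid (t.1, t.2.1) - x = (r : ℂ) * Complex.exp (a0 * Complex.I))
    (z : ℂ) : N.X t x lf a0 z =
      (∑ J ∈ (N.tj t).filter (fun J => ∃ κ, N.Tri3 t κ J), z ^ rotK N t x lf a0 J) /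
        ((N.tj t).card : ℂ) := by
  unfold Net.X
  congr 1
  have e1 : ∀ k : ℤ, ((N.cntK t x lf a0 k : ℕ) : ℂ) * z ^ k =
      ∑ J ∈ N.tj t, if N.TriK t x lf a0 k J then z ^ k else 0 := by
    intro k
    unfold Net.cntK
    rw [← Finset.sum_filter, Finset.sum_const, nsmul_eq_mul]
  have hfin : ∀ J ∈ N.tj t,
      (Function.support fun k : ℤ => if N.TriK t x lf a0 k J then z ^ k else 0).Finite := by
    intro J _
    apply Set.Finite.subset (Set.finite_singleton (rotK N t x lf a0 J))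
    intro k hk
    rw [Function.mem_support] at hk
    by_cases h : N.TriK t x lf a0 k J
    · exact (triK_iff hl ⟨k, h⟩ k).1 h
    · exact absurd (if_neg h) hk
  rw [finsum_congr e1, finsum_sum_comm _ _ hfin, Finset.sum_filter]
  apply Finset.sum_congr rfl
  intro J hJ
  by_cases h : ∃ k, N.TriK t x lf a0 k J
  · rw [if_pos ((ex_triK_iff H ht hx hl ha0 hJ).1 h)]
    rw [finsum_eq_single _ (rotK N t x lf a0 J)]
    · rw [if_pos ((triK_iff hl h _).2 rfl)]
    · intro k hk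
      rw [if_neg fun h' => hk ((triK_iff hl h k).1 h')]
  · rw [if_neg fun h' => h ((ex_triK_iff H ht hx hl ha0 hJ).2 h')]
    push Not at h
    have : ∀ k : ℤ, (if N.TriK t x lf a0 k J then z ^ k else 0) = 0 := fun k => if_neg (h k)
    rw [finsum_congr this, finsum_zero]




end hnet

end Crest.Agent.R143.Planar2x54
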