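import Crest.Agent.R143.XG_343
import Crest.Agent.R143.Planar2_54

/-!
# Row 143 (S0194), block X: jump of the total angle across an edge of a closed chain (helper697)

* `asum_jump` : the total angles of the closed chain `l` seen from the two triangles at the edge
  `(a, b)` differ by `2 π (count (a, b) - count (b, a))`
-/

set_option autoImplicit false

noncomputable section

open scoped Classical

namespace Crest.Agent.R143.Jumpx697

open Crest.Agent.R143.B0x346 Crest.Agent.R143.DelGx806 Crest.Agent.R143.DelRx806
open Crest.Agent.R143.ToolWx838 Crest.Agent.R143.Blkx838 Crest.Agent.R143.Planarx54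
open Crest.Agent.R143.XGx343

variable {S : Finset ℂ}

/-- the chain with a detour over `d` instead of the edge `{a, b}` -/
def det (a b d : ℂ) : List ℂ → List ℂ
  | [] => []
  | [u] => [u]
  | u :: v :: l => if (u = a ∧ v = b) ∨ (u = b ∧ v = a) then u :: d :: det a b d (v :: l)
      else u :: det a b d (v :: l)

theorem det_head (a b d : ℂ) (l : List ℂ) : (det a b d l).head? = l.head? := by
  match l with
  | [] => rfl
  | [u] => rfl
  | u :: v :: l =>
    unfold det
    split_ifs <;> rfl

theorem det_ne (a b d : ℂ) (u : ℂ) (l : List ℂ) : det a b d (u :: l) ≠ [] := by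
  intro h
  have := det_head a b d (u :: l)
  rw [h] at this
  simp at this

theorem det_last (a b d : ℂ) (l : List ℂ) : (det a b d l).getLast? = l.getLast? := by
  induction l with
  | nil => rfl
  | cons u l ih =>
    cases l with
    | nil => rfl
    | cons v l =>
      have hne := det_ne a b d v l
      obtain ⟨w, m, hm⟩ := List.exists_cons_of_ne_nil hne
      unfold det
      rw [hm] at ih ⊢
      split_ifs
      · simpa [List.getLast?_cons_cons] using ih
      · simpa [List.getLast?_cons_cons] using ih

/-- the detour starts like the chain -/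
theorem det_cons (a b d u : ℂ) (l : List ℂ) : ∃ m, det a b d (u :: l) = u :: m := by
  cases l with
  | nil => exact ⟨[], rfl⟩
  | cons v l =>
    unfold det
    split_ifs
    · exact ⟨_, rfl⟩
    · exact ⟨_, rfl⟩

theorem prs_cons2 (u v : ℂ) (l : List ℂ) : prs (u :: v :: l) = (u, v) :: prs (v :: l) := rfl

theorem asum_cons2 (x u v : ℂ) (l : List ℂ) :
    asum x (u :: v :: l) = ToolWx838.ang x u v + asum x (v :: l) := rfl

/-- edges of the detour -/
theorem det_prs (a b d : ℂ) (l : List ℂ) {p : ℂ × ℂ} (hp : p ∈ prs (det a b d l)) :
    (p ∈ prs l ∧ p ≠ (a, b) ∧ p ≠ (b, a)) ∨ p = (a, d) ∨ p = (b, d) ∨ p = (d, b) ∨ p = (d, a) := by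
  induction l with
  | nil => simp [det, prs] at hp
  | cons u l ih =>
    cases l with
    | nil => simp [det, prs] at hp
    | cons v l =>
      obtain ⟨m, hm⟩ := det_cons a b d v l
      have ih' := ih
      unfold det at hp
      rw [hm] at hp ih'
      split_ifs at hp with hc
      · rw [prs_cons2, prs_cons2] at hp
        rcases List.mem_cons.1 hp with h | hp
        · rcases hc with ⟨h1, h2⟩ | ⟨h1, h2⟩
          · right; left; rw [h, h1]
          · right; right; left; rw [h, h1]
        rcases List.mem_cons.1 hp with h | hp
        · rcases hc with ⟨h1, h2⟩ | ⟨h1, h2⟩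
          · right; right; right; left; rw [h, h2]
          · right; right; right; right; rw [h, h2]
        rcases ih' hp with h | h
        · left
          exact ⟨by rw [prs_cons2]; exact List.mem_cons_of_mem _ h.1, h.2⟩
        · right; exact h
      · rw [prs_cons2] at hp
        rcases List.mem_cons.1 hp with h | hp
        · left
          refine ⟨by rw [prs_cons2, h]; exact List.mem_cons_self, ?_, ?_⟩
          · intro h'
            rw [h] at h'
            exact hc (Or.inl ⟨congrArg Prod.fst h', congrArg Prod.snd h'⟩)
          · intro h'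
            rw [h] at h'
            exact hc (Or.inr ⟨congrArg Prod.fst h', congrArg Prod.snd h'⟩)
        rcases ih' hp with h | h
        · left
          exact ⟨by rw [prs_cons2]; exact List.mem_cons_of_mem _ h.1, h.2⟩
        · right; exact h

/-- total angle of the detour -/
theorem det_asum {a b d x : ℂ} (hab : a ≠ b) {δ δ' : ℝ}
    (h1 : ToolWx838.ang x a b - (ToolWx838.ang x a d + ToolWx838.ang x d b) = δ)
    (h2 : ToolWx838.ang x b a - (ToolWx838.ang x b d + ToolWx838.ang x d a) = δ') (l : List ℂ) :
    asum x l - asum x (det a b d l) =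
      ((prs l).count (a, b) : ℝ) * δ + ((prs l).count (b, a) : ℝ) * δ' := by
  induction l with
  | nil => simp [det, prs]
  | cons u l ih =>
    cases l with
    | nil => simp [det, prs]
    | cons v l =>
      obtain ⟨m, hm⟩ := det_cons a b d v l
      have ih' := ih
      unfold det
      rw [hm] at ih' ⊢
      split_ifs with hc
      · rw [asum_cons2, asum_cons2, asum_cons2, prs_cons2]
        rcases hc with ⟨rfl, rfl⟩ | ⟨rfl, rfl⟩
        · rw [List.count_cons_self, List.count_cons_of_ne (by
            intro h; exact hab (congrArg Prod.fst h))]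
          push_cast
          linarith
        · rw [List.count_cons_self, List.count_cons_of_ne (by
            intro h; exact hab (congrArg Prod.snd h))]
          push_cast
          linarith
      · rw [asum_cons2, asum_cons2, prs_cons2, List.count_cons_of_ne, List.count_cons_of_ne]
        · linarith
        · intro h
          exact hc (Or.inr ⟨congrArg Prod.fst h, congrArg Prod.snd h⟩)
        · intro h
          exact hc (Or.inl ⟨congrArg Prod.fst h, congrArg Prod.snd h⟩)

/-- a point to the left of `a → b` does not see the triangle on the right -/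
theorem ang_tri_out {a b d x : ℂ} (hx : Lft x a b) (hd : Lft d b a) :
    ToolWx838.ang x a b + ToolWx838.ang x b d + ToolWx838.ang x d a = 0 := by
  have h : asum x [a, b, d, a] = 0 := by
    refine asum_half_closed (u := -Complex.I * (b - a)) rfl ?_
    have hab : b - a ≠ 0 := by
      intro h0
      unfold Lft at hx
      rw [h0] at hx
      simp [cr] at hx
    have key : ∀ s : ℂ, cr (b - a) (s - a) ≤ 0 → 0 < ((s - x) / (-Complex.I * (b - a))).re := by
      intro s hs
      have h2 : cr (b - a) (s - x) < 0 := by
        have : cr (b - a) (s - x) = cr (b - a) (s - a) - cr (b - a) (x - a) := by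
          unfold cr; simp only [Complex.sub_re, Complex.sub_im]; ring
        unfold Lft at hx
        rw [this]; linarith
      have h3 : ((s - x) / (-Complex.I * (b - a))).re =
          -cr (b - a) (s - x) / Complex.normSq (b - a) := by
        rw [Complex.div_re, Complex.normSq_mul, Complex.normSq_neg, Complex.normSq_I, one_mul]
        simp only [Complex.mul_re, Complex.mul_im, Complex.neg_re, Complex.neg_im, Complex.I_re,
          Complex.I_im, zero_mul, one_mul]
        unfold cr
        ring
      rw [h3]
      exact div_pos (by linarith) (Complex.normSq_pos.2 hab)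
    intro s hs
    simp only [List.mem_cons, List.not_mem_nil, or_false] at hs
    rcases hs with rfl | rfl | rfl | rfl
    · exact key _ (by simp [cr])
    · exact key _ (by unfold cr; nlinarith)
    · refine key _ ?_
      unfold Lft at hd
      have : cr (b - a) (s - a) = -cr (a - b) (s - b) := by
        unfold cr; simp only [Complex.sub_re, Complex.sub_im]; ring
      rw [this]; linarith
    · exact key _ (by simp [cr])
  rw [asum_cons2, asum_cons2, asum_cons2] at h
  simp only [asum] at h
  linarith

/-- **jump across an edge** -/
theorem asum_jump (hS : GP (S : Set ℂ)) {l : List ℂ} (hl : Loop S l) {a b c d x y : ℂ}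
    (h : (a, b, c) ∈ delT S) (h' : (b, a, d) ∈ delT S) (hx : InO x a b c) (hy : InO y b a d) :
    asum x l - asum y l = 2 * Real.pi * (((prs l).count (a, b) : ℝ) - (prs l).count (b, a)) := by
  obtain ⟨o, T⟩ := mem_delT_iff.1 h
  obtain ⟨o', T'⟩ := mem_delT_iff.1 h'
  have hab : a ≠ b := T.ne.1
  have hdL : Lft d b a := T'.pos
  have hcL : Lft c a b := T.pos
  -- the detour over `d`
  have hl' : Loop S (det a b d l) := by
    refine ⟨by rw [det_head, det_last]; exact hl.closed, fun p hp => ?_⟩
    rcases det_prs a b d l hp with h1 | rfl | rfl | rfl | rfl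
    · exact hl.del p h1.1
    · exact Or.inl ⟨b, rot_mem h'⟩
    · exact Or.inr ⟨a, rot_mem (rot_mem h')⟩
    · exact Or.inl ⟨a, rot_mem (rot_mem h')⟩
    · exact Or.inr ⟨b, rot_mem h'⟩
  have had : a ≠ d := (T'.ne.2.1)
  have hbd : b ≠ d := T'.ne.2.2
  have hav : Avoid (det a b d l) (a, b) := by
    constructor
    · intro hp
      rcases det_prs a b d l hp with h1 | h1 | h1 | h1 | h1
      · exact h1.2.1 rfl
      · exact hbd (congrArg Prod.snd h1)
      · exact hab (congrArg Prod.fst h1)
      · exact had (congrArg Prod.fst h1)
      · exact had (congrArg Prod.fst h1)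
    · intro hp
      rcases det_prs a b d l hp with h1 | h1 | h1 | h1 | h1
      · exact h1.2.2 rfl
      · exact had (congrArg Prod.snd h1)
      · exact had (congrArg Prod.snd h1)
      · exact hbd (congrArg Prod.fst h1)
      · exact hbd (congrArg Prod.fst h1)
  have e1 : asum x (det a b d l) = asum (mid (a, b)) (det a b d l) :=
    asum_open_mid hS hl' h hx hav
  have e2 : asum y (det a b d l) = asum (mid (a, b)) (det a b d l) := by
    rw [asum_open_mid hS hl' h' hy hav.swap, mid_swap]
  have hxs : ∀ u v : ℂ, DE S u v → x ∉ segment ℝ u v := fun u v hd => edge_open hS h hx hd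
  have hys : ∀ u v : ℂ, DE S u v → y ∉ segment ℝ u v := fun u v hd => edge_open hS h' hy hd
  have dab : DE S a b := Or.inl ⟨c, h⟩
  have dad : DE S a d := Or.inl ⟨b, rot_mem h'⟩
  have ddb : DE S d b := Or.inl ⟨a, rot_mem (rot_mem h')⟩
  -- seen from `x`
  have X := ang_tri_out hx.1 hdL
  have Y := Planar2x54.ang_sum hy.1 hy.2.1 hy.2.2
  change ToolWx838.ang y b a + ToolWx838.ang y a d + ToolWx838.ang y d b = 2 * Real.pi at Y
  have xa := ang_comm (hxs a b dab)
  have xb := ang_comm (hxs a d dad)
  have xc := ang_comm (hxs d b ddb)
  have ya := ang_comm (hys a b dab)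
  have yb := ang_comm (hys a d dad)
  have yc := ang_comm (hys d b ddb)
  have k1 := det_asum (x := x) (d := d) hab (δ := 0) (δ' := 0) (by linarith) (by linarith) l
  have k2 := det_asum (x := y) (d := d) hab (δ := -(2 * Real.pi)) (δ' := 2 * Real.pi) (by linarith)
    (by linarith) l
  have : asum x l - asum y l = (asum x l - asum x (det a b d l)) -
      (asum y l - asum y (det a b d l)) := by rw [e1, e2]; ring
  rw [this, k1, k2]
  ring

end Crest.Agent.R143.Jumpx697
end
private theorem rz_bc0345f939 : type_of% @_root_.Crest.Agent.R143.Jumpx697.det.eq_def := @_root_.Crest.Agent.R143.Jumpx697.det.eq_def -- L26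
private theorem rz_635d52f29a : type_of% @_root_.Crest.Agent.R143.Jumpx697.det.eq_1 := @_root_.Crest.Agent.R143.Jumpx697.det.eq_1 -- L26
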