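import Crest.Agent.R143.RB0_838
import Crest.Agent.R143.RB2_54

/-!
# Row 143, RSW without E3 (RBE), interface (helper723)

* `Pth S V x y` : chain of Delaunay edges inside `V`
* `Qd` : combinatorial quad: four positions on the hull cycle, four disjoint connected classes
* `Pg` : combinatorial polygon: `m + 1` positions, classes `A 0, .., A m`
* `FRAME` (395), `EPQ` (54: crossing of a quad from FRAME), `EPk` (crossings of the quads of a
  strip: 306's idea, one quad for every bottom segment), `GEO3` (the polygon of a strip), `HUL` (its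
  hull), `EPG` (930: the arcs)
-/

set_option autoImplicit false

noncomputable section

open scoped Classical

namespace Crest.Agent.R143.RE0x723

open Set
open Crest.Agent.R143.B0x346 Crest.Agent.R143.DelGx806 Crest.Agent.R143.DelRx806
  Crest.Agent.R143.JColx54 Crest.Agent.R143.Crsx117
open Crest.Agent.R143.Harx315 (pr)
open Crest.Agent.R143.Famx930 (arc)
open Crest.Agent.R143.Circx63 (cT)
open Crest.Agent.R143.Scalx63 (dm)
open Crest.Agent.R143.RB2x54 (Vt)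
open Crest.Agent.R143.RB0x838 (LDns Mesh Cross)

/-- chain of Delaunay edges inside `V` -/
def Pth (S : Finset ℂ) (V : Set ℂ) (x y : ℂ) : Prop :=
  x ∈ V ∧ Relation.ReflTransGen (fun a b => Adj S a b ∧ b ∈ V) x y

section paths

variable {S : Finset ℂ} {V W : Set ℂ} {x y z : ℂ}

theorem Pth.refl (h : x ∈ V) : Pth S V x x := ⟨h, Relation.ReflTransGen.refl⟩

theorem Pth.snd (h : Pth S V x y) : y ∈ V := by
  rcases Relation.ReflTransGen.cases_tail h.2 with h1 | ⟨z, -, h1⟩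
  · rw [h1]; exact h.1
  · exact h1.2

theorem Pth.trans (h : Pth S V x y) (h' : Pth S V y z) : Pth S V x z :=
  ⟨h.1, h.2.trans h'.2⟩

theorem Pth.tail (h : Pth S V x y) (h1 : Adj S y z) (h2 : z ∈ V) : Pth S V x z :=
  ⟨h.1, h.2.tail ⟨h1, h2⟩⟩

theorem Pth.single (h : x ∈ V) (h1 : Adj S x y) (h2 : y ∈ V) : Pth S V x y :=
  (Pth.refl h).tail h1 h2

theorem Pth.symm (h : Pth S V x y) : Pth S V y x := by
  obtain ⟨hx, h⟩ := h
  induction h with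
  | refl => exact Pth.refl hx
  | tail h1 h2 ih => exact (Pth.single h2.2 h2.1.symm (Pth.snd ⟨hx, h1⟩)).trans ih

theorem Pth.mono (h : V ⊆ W) (h1 : Pth S V x y) : Pth S W x y := by
  refine ⟨h h1.1, Relation.ReflTransGen.mono ?_ _ _ h1.2⟩
  rintro a b ⟨h2, h3⟩
  exact ⟨h2, h h3⟩

/-- induction along a path -/
theorem Pth.ind {P : ℂ → Prop} (h : Pth S V x y) (h0 : P x)
    (hs : ∀ a b, a ∈ V → b ∈ V → Adj S a b → P a → P b) : P y := by
  obtain ⟨hx, h⟩ := h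
  induction h with
  | refl => exact h0
  | tail h1 h2 ih => exact hs _ _ (Pth.snd ⟨hx, h1⟩) h2.2 h2.1 ih

/-- every site of a path from `x` to `y` is joined to `y`: the path stays in the set of the sites
joined to `y` -/
theorem Pth.self (h : Pth S V x y) : Pth S {v | v ∈ V ∧ Pth S V v y} x y := by
  have h' := h.symm
  have : Pth S {v | v ∈ V ∧ Pth S V v y} y x := by
    clear h
    obtain ⟨hy, h1⟩ := h'
    induction h1 with
    | refl => exact Pth.refl ⟨hy, Pth.refl hy⟩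
    | @tail b c h2 h3 ih =>
      have hb : Pth S V b y := (show Pth S V y b from ⟨hy, h2⟩).symm
      have hc : Pth S V c y := (Pth.single h3.2 h3.1.symm hb.1).trans hb
      exact ih.tail h3.1 ⟨h3.2, hc⟩
  exact this.symm

/-- first exit: a path from a site of `Q` to a site off `Q` -/
theorem Pth.exit {Q : ℂ → Prop} (h : Pth S V x y) (h0 : Q x) (h1 : ¬ Q y) :
    ∃ u v, Pth S {w | w ∈ V ∧ Q w} x u ∧ Adj S u v ∧ v ∈ V ∧ ¬ Q v := by
  obtain ⟨hx, h⟩ := h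
  induction h with
  | refl => exact absurd h0 h1
  | @tail b c h2 h3 ih =>
    by_cases hb : Q b
    · -- the path up to `b` may have left `Q`
      by_cases hall : Pth S {w | w ∈ V ∧ Q w} x b
      · exact ⟨b, c, hall, h3.1, h3.2, h1⟩
      · -- there is an exit before
        clear ih h3 h1
        have : ∃ u v, Pth S {w | w ∈ V ∧ Q w} x u ∧ Adj S u v ∧ v ∈ V ∧ ¬ Q v := by
          have key : ∀ b, Relation.ReflTransGen (fun a b => Adj S a b ∧ b ∈ V) x b →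
              Pth S {w | w ∈ V ∧ Q w} x b ∨
              ∃ u v, Pth S {w | w ∈ V ∧ Q w} x u ∧ Adj S u v ∧ v ∈ V ∧ ¬ Q v := by
            intro b hb
            induction hb with
            | refl => exact Or.inl (Pth.refl ⟨hx, h0⟩)
            | @tail b' c' _ h5 ih =>
              rcases ih with ih | ih
              · by_cases hc : Q c'
                · exact Or.inl (ih.tail h5.1 ⟨h5.2, hc⟩)
                · exact Or.inr ⟨b', c', ih, h5.1, h5.2, hc⟩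
              · exact Or.inr ih
          rcases key b h2 with h | h
          · exact absurd h hall
          · exact h
        exact this
    · exact ih hb

end paths

/-- **combinatorial quad**: marks `hm w i0, hm w i1, hm w i2, hm w i3`, class `B k` = sites at the
arc between the marks `k` and `k + 1` -/
structure Qd (S : Finset ℂ) (n : ℕ) (w : ℤ → ℂ) (i0 i1 i2 i3 : ℤ) (B : ZMod 4 → Finset ℂ) :
    Prop where
  gp : GP (S : Set ℂ)
  m4 : M4 S n w i0 i1 i2 i3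
  sub : ∀ i, B i ⊆ S
  disj : ∀ i j, i ≠ j → Disjoint (B i) (B j)
  con : ∀ i, ∀ x ∈ B i, ∀ y ∈ B i, Pth S (B i) x y
  a0 : ∀ k, i0 < k → k ≤ i1 → w k ∈ B 0
  a1 : ∀ k, i1 < k → k ≤ i2 → w k ∈ B 1
  a2 : ∀ k, i2 < k → k ≤ i3 → w k ∈ B 2
  a3 : ∀ k, i3 < k → k ≤ i0 + n → w k ∈ B 3

/-- the free sites of a quad -/
def fre (S : Finset ℂ) (B : ZMod 4 → Finset ℂ) : Finset ℂ := S.filter fun v => ∀ i, v ∉ B i

/-- chain of sites of `T` from the class `i` to the class `i + 2` -/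
def Crq (S : Finset ℂ) (B : ZMod 4 → Finset ℂ) (i : ZMod 4) (T : Finset ℂ) : Prop :=
  ∃ x ∈ B i, ∃ y ∈ B (i + 2), Pth S {v | v ∈ T ∨ v ∈ B i ∨ v ∈ B (i + 2)} x y


/-- **EPQ** (54): circle arcs from `B 0` to `B 2`, radii `r .. R` with `log (R / r)` large -/
def EPQ : Prop := ∀ (S : Finset ℂ) (n : ℕ) (w : ℤ → ℂ) (i0 i1 i2 i3 : ℤ) (B : ZMod 4 → Finset ℂ),
  Qd S n w i0 i1 i2 i3 B → ∀ (x : ℂ) (φ ψ r R b C4 : ℝ), 0 < r → 2 * r ≤ R → R ≤ b →
  96 * C4 ≤ Real.log (R / r) →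
  (∀ ρ ∈ Icc r R, ∀ y ∈ arc x φ ψ ρ, ∃ t ∈ delT S, y ∈ cT t) →
  (∀ ρ ∈ Icc r R, ∀ t ∈ delT S, (cT t ∩ arc x φ ψ ρ).Nonempty →
    ∀ v, Vt t v → v ∈ B 0 ∨ v ∈ B 2 ∨ v ∈ fre S B) →
  (∀ ρ ∈ Icc r R, ∃ t ∈ delT S, (cT t ∩ arc x φ ψ ρ).Nonempty ∧ ∃ v, Vt t v ∧ v ∈ B 0) →
  (∀ ρ ∈ Icc r R, ∃ t ∈ delT S, (cT t ∩ arc x φ ψ ρ).Nonempty ∧ ∃ v, Vt t v ∧ v ∈ B 2) →
  (∀ b' ∈ Icc r b, ∑ t ∈ (delT S).filter (fun t => (cT t ∩ Metric.closedBall x b').Nonempty),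
    dm t ^ 2 ≤ C4 * b' ^ 2) →
  1 / 3 ≤ pr (fre S B) (Crq S B 0)

/-! ### polygons -/

/-- **combinatorial polygon**: positions `p 0 < .. < p m < p 0 + n` on the hull cycle, class
`A j` = sites at the arc between the marks `j` and `j + 1` -/
structure Pg (S : Finset ℂ) (n : ℕ) (w : ℤ → ℂ) (m : ℕ) (p : ℕ → ℤ) (A : ℕ → Finset ℂ) : Prop where
  gp : GP (S : Set ℂ)
  cyc : HullCyc S n w
  mono : ∀ j, j < m → p j < p (j + 1)
  last : p m < p 0 + n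
  sub : ∀ j, j ≤ m → A j ⊆ S
  disj : ∀ i j, i ≤ m → j ≤ m → i ≠ j → Disjoint (A i) (A j)
  con : ∀ j, j ≤ m → ∀ x ∈ A j, ∀ y ∈ A j, Pth S (A j) x y
  arc : ∀ j, j < m → ∀ k, p j < k → k ≤ p (j + 1) → w k ∈ A j
  arcl : ∀ k, p m < k → k ≤ p 0 + n → w k ∈ A m

/-- union of the classes `i ≤ j < l` -/
def un (A : ℕ → Finset ℂ) (i l : ℕ) : Finset ℂ := (Finset.Ico i l).biUnion A

/-- the inner sites of a polygon -/
def inr (S : Finset ℂ) (A : ℕ → Finset ℂ) (m : ℕ) : Finset ℂ := S \ un A 0 (m + 1)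

/-- the quad with the marks `0, i, j, l` : classes `A 0 .. A (i - 1)`, `A i .. A (j - 1)`,
`A j .. A (l - 1)`, `A l .. A m` -/
def qk (A : ℕ → Finset ℂ) (m i j l : ℕ) (c : ZMod 4) : Finset ℂ :=
  if c = 0 then un A 0 i else if c = 1 then un A i j else if c = 2 then un A j l
  else un A l (m + 1)

/-- `N` bottom segments `A 1 .. A N`, left `A 0`, right `A (N + 1)`, top `A (N + 2)`: for every
segment `i`, a black chain from `A 0 .. A (i - 1)` to `A (i + 1) .. A (N + 1)` -/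
def EPk (S : Finset ℂ) (A : ℕ → Finset ℂ) (N : ℕ) : Prop := ∀ i, 1 ≤ i → i ≤ N →
  1 / 3 ≤ pr (inr S A (N + 2)) (Crq S (qk A (N + 2) i (i + 1) (N + 2)) 0)

/-! ### geometry -/

/-- coordinates in the frame -/
def X (z0 u s : ℂ) : ℝ := ((s - z0) / u).re
/-- coordinates in the frame -/
def Y (z0 u s : ℂ) : ℝ := ((s - z0) / u).im

/-- radius of the big disc -/
def RR (k a b : ℝ) : ℝ := 8 * (1 + k) * (a + b)

/-- its centre -/
def cc (z0 u : ℂ) (k a b : ℝ) : ℂ := z0 + u * (((RR k a b - 3 * b / 4 : ℝ) : ℂ) * Complex.I)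

/-- the sites of the big disc -/
def SS (S : Finset ℂ) (z0 u : ℂ) (k a b : ℝ) : Finset ℂ :=
  S.filter fun s => ‖s - cc z0 u k a b‖ ≤ RR k a b

/-- radii up to `MM K h`, `MM K = 4 ^ K + 2` -/
def MM (K : ℕ) : ℕ := 4 ^ K + 2

/-- length of the intervals -/
def hh (K : ℕ) (b : ℝ) : ℝ := b / (8 * MM K)

/-- grid points `xj 1 = -(a + b / 4)`, step `h` -/
def xj (K : ℕ) (a b : ℝ) (j : ℕ) : ℝ := -(a + b / 4) + ((j : ℝ) - 1) * hh K b

/-- geometric labels of the outer sites: left, bottom segments, right, top -/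
def Lab (z0 u : ℂ) (a b : ℝ) (K N : ℕ) (j : ℕ) (s : ℂ) : Prop :=
  if j = 0 then X z0 u s ≤ xj K a b 1
  else if j = N + 1 then xj K a b (N + 1) < X z0 u s
  else if j = N + 2 then xj K a b 1 < X z0 u s ∧ X z0 u s ≤ xj K a b (N + 1) ∧ b / 2 ≤ Y z0 u s
  else xj K a b j < X z0 u s ∧ X z0 u s ≤ xj K a b (j + 1) ∧ Y z0 u s < -(b / 2)

/-- the number of the segments -/
structure Nok (a b k : ℝ) (K N : ℕ) : Prop where
  MN : MM K ≤ N
  Nle : (N : ℝ) ≤ 8 * MM K * (2 * k + 1) + 1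
  xl : a + b / 4 ≤ xj K a b (N + 1)
  xr : xj K a b (N + 1) ≤ a + b / 2

/-- the hull with the positions of the labels -/
structure Hul (S : Finset ℂ) (z0 u : ℂ) (a b k : ℝ) (K : ℕ) (n : ℕ) (w : ℤ → ℂ) (N : ℕ)
    (p : ℕ → ℤ) : Prop where
  cyc : HullCyc (SS S z0 u k a b) n w
  mono : ∀ j, j ≤ N + 1 → p j < p (j + 1)
  last : p (N + 2) < p 0 + n
  lab : ∀ j, j ≤ N + 1 → ∀ i, p j < i → i ≤ p (j + 1) → Lab z0 u a b K N j (w i)
  labl : ∀ i, p (N + 2) < i → i ≤ p 0 + n → Lab z0 u a b K N (N + 2) (w i)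

/-- **the polygon of the strip** -/
structure Geo (S : Finset ℂ) (z0 u : ℂ) (a b k : ℝ) (K : ℕ) (n : ℕ) (w : ℤ → ℂ) (N : ℕ)
    (p : ℕ → ℤ) (A : ℕ → Finset ℂ) : Prop where
  pg : Pg (SS S z0 u k a b) n w (N + 2) p A
  nok : Nok a b k K N
  /-- outer sites -/
  outer : ∀ s ∈ SS S z0 u k a b, (∃ j, j ≤ N + 2 ∧ s ∈ A j) ↔ X z0 u s ≤ xj K a b 1 ∨
    xj K a b (N + 1) < X z0 u s ∨ b / 2 ≤ Y z0 u s ∨ Y z0 u s < -(b / 2)
  loc0 : ∀ s ∈ A 0, X z0 u s ≤ xj K a b 1 + hh K b / 8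
  locN : ∀ s ∈ A (N + 1), xj K a b (N + 1) - hh K b / 8 ≤ X z0 u s
  locT : ∀ s ∈ A (N + 2), b / 2 ≤ Y z0 u s
  loc : ∀ j, 1 ≤ j → j ≤ N → ∀ s ∈ A j, xj K a b j - hh K b / 8 ≤ X z0 u s ∧
    X z0 u s ≤ xj K a b (j + 1) + hh K b / 8 ∧ Y z0 u s < -(b / 2)

/-- **HUL** (T3b): positions of the labels along the hull -/
def HUL : Prop := ∀ k : ℝ, 1 ≤ k → ∀ K : ℕ, 0 < K → ∃ c1 > 0, ∀ (S : Finset ℂ) (z0 u : ℂ)
  (a b d : ℝ) (N : ℕ), ‖u‖ = 1 → 0 < a → 0 < b → a ≤ k * b → b ≤ k * a →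
  LDns S z0 (20 * (1 + k) * (a + b)) d → d ≤ c1 * b → Nok a b k K N →
  ∃ n w p, Hul S z0 u a b k K n w N p

/-- **GEO3** (T3) -/
def GEO3 : Prop := ∀ k : ℝ, 1 ≤ k → ∀ K : ℕ, 0 < K → ∃ c1 > 0, ∀ (S : Finset ℂ) (z0 u : ℂ)
  (a b d : ℝ), ‖u‖ = 1 → 0 < a → 0 < b → a ≤ k * b → b ≤ k * a →
  LDns S z0 (20 * (1 + k) * (a + b)) d → d ≤ c1 * b →
  ∃ n w N p A, Geo S z0 u a b k K n w N p A

/-- **EPG** (T4, 930): the arcs centred at `(xj i, -b/2)`, radii `2 h .. 4 ^ K h`, angles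
`[-π/6, 7π/6]` -/
def EPG : Prop := ∀ (k C4 : ℝ), 1 ≤ k → 0 ≤ C4 → ∃ K : ℕ, 0 < K ∧ ∃ c1 > 0, ∃ c2 > 0, c2 ≤ 1 ∧
  ∀ (S : Finset ℂ) (z0 u : ℂ)
  (a b d : ℝ), ‖u‖ = 1 → 0 < a → 0 < b → a ≤ k * b → b ≤ k * a →
  LDns S z0 (20 * (1 + k) * (a + b)) d → d ≤ c1 * b →
  (∀ r, c2 * b ≤ r → r ≤ b → Mesh S z0 (20 * (1 + k) * (a + b)) r C4) →
  ∀ n w N p A, Geo S z0 u a b k K n w N p A → EPk (SS S z0 u k a b) A N

end Crest.Agent.R143.RE0x723
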