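import Crest.Agent.R143.Spt2_169
import Crest.Agent.R143.Spt_832
import Crest.Agent.R143.StrB_117

-- ▼ part R143/Spt2_832

/-!
# Row 143 (S0194), CORE-C, box R6: spatial charges of the revealed strand on `cm0 hS` (helper832)

117's strand (`StrBx117.Str`: partial arcs at the two ends) with 169's regions.

* `reg_str` : `Reg` of the strand
* **`strand_q`** : the strand of a corridor with regions `Q l`: `Str`, `Reg`, `KS = ZZ` (gates in the
  normal order) on full arcs, `Vl l = VZ .. (n - 1 - l)` for `2 ≤ l`, `l + 2 < n`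
* `sum_rev` : the sum over the full tiles in the normal order of the indices
* **`window_VX`** : a window of the strand = sum of 713's functionals `VX f n B Q St j X` over the tiles
  `j ∈ [n + 2 - kb, n - 2 - ka)` (normal order) + the two sums `Ma`, `Mb` of at most four partial charges
-/

set_option autoImplicit false
set_option linter.all false

noncomputable section

open scoped Classical

namespace Crest.Agent.R143.Spt2x832

open Crest.Agent.R143.B0x346 Crest.Agent.R143.DelGx806 Crest.Agent.R143.DelRx806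
  Crest.Agent.R143.JColx54
open Crest.Agent.R143.Frame1x395 Crest.Agent.R143.Frame2x395 Crest.Agent.R143.Frame3x395
  Crest.Agent.R143.Frame4x395 Crest.Agent.R143.Frame8x395 Crest.Agent.R143.Frame9x395
  Crest.Agent.R143.Frame10x395 Crest.Agent.R143.Frame11x395
open Crest.Agent.R143.Frame5x395 (sd mem_sd th th_spec)
open Crest.Agent.R143.Splx117 Crest.Agent.R143.WLocx713 Crest.Agent.R143.RingDx117
  Crest.Agent.R143.CorrDx117 Crest.Agent.R143.Sptx169 Crest.Agent.R143.Sptx832
open Crest.Agent.R143.StrBx117 (Str)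

variable {S : Finset ℂ} {χ : ℂ → ZMod 2} {n m : ℕ} {B Q : ℕ → Set ℂ} {hS : GP (S : Set ℂ)}
  {hχ : HullC S χ} {y z : ℕ → ℂ} {A : ℕ → Set ℂ} {p : ℕ → D0 S}

/-- **169's regions of the gap darts of a strand** -/
theorem reg_str (H : QReg S n m B Q) {Rs : Set (D0 S)} {p' : ℕ → D0 S} {q : D0 S} {N : ℕ}
    {T : ℕ → ℕ} (R : Str (cm0 hS) (xc hS hχ) n Rs p' (fun k => RD S (B k)) q N T) :
    Reg (cm0 hS) (xc hS hχ) q T n m (FQ S m Q) where
  mono := fun k _ hk => R.mono k hk
  cut := R.cut
  cov := fun i h1 h2 _ => by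
    have hn : 0 < n := by
      have := R.n3
      omega
    obtain ⟨k, -, hk, a1, a2⟩ := arc_of (T := T) hn h1 h2.le
    obtain ⟨l, b1, -, -, b2⟩ := H.st hS hk (R.arc k hk i a1 a2)
    exact ⟨l, b1, b2⟩
  dis := fun i _ _ _ l l' a b => H.dis l l' a.1 b.1 _ a.2 b.2
  near := fun k hk i h1 h2 _ l hl => by
    obtain ⟨l', b1, b2, b3, b4⟩ := H.st hS hk (R.arc k hk i h1 h2.le)
    have e : l = l' := H.dis l l' hl.1 b4.1 _ hl.2 b4.2
    rw [e]
    exact ⟨b2, b3⟩





end Crest.Agent.R143.Spt2x832
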