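import Crest.Agent.R143.WLoc4_713
import Crest.Agent.R143.FinM2_609
import Crest.Agent.R143.WLoc5_713
import Crest.Agent.R143.Spl3_117

-- ▼ part R143/WLoc6_713
section

/-!
# Row 143 (S0194), CORE-C block V, leaf V3 (helper713): gate darts

* `piso_restrict` : an isomorphism of configurations restricts to the configurations in `U a`
  (family `U` closed under intersections; `UC U0` : the closure of a finite family)
* `GInv U R G` : the property `G X (x, y)` of a dart is transported; `GInv.restrict`, `GInv.least`,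
  `GInv.sinv`, `GInv.tinv`
* `zK f W Q Q' G` : the stopped segment sum from the least gate dart of `X ∩ ovr Q` to the least gate
  dart of `X ∩ ovr Q'`; `zK_fme` : measurable; `zK_cut` : local; `zK_eq` : it is `Zst`
-/

set_option autoImplicit false
set_option linter.all false

noncomputable section

open scoped Classical

namespace Crest.Agent.R143.WLocx713

open Set MeasureTheory
open Crest.Agent.R143.B0x346 Crest.Agent.R143.DelGx806 Crest.Agent.R143.DelRx806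
  Crest.Agent.R143.JColx54
open Crest.Agent.R143.Frame10x395 Crest.Agent.R143.Locx922
open Crest.Agent.R143.Frame5x395 (sd mem_sd th th_spec)
open Crest.Agent.R143.PP0x831 Crest.Agent.R143.Poisx304 Crest.Agent.R143.Janx304
open Crest.Agent.R143.Prodx609 Crest.Agent.R143.FinMx609 Crest.Agent.R143.FinM2x609

/-! ### families closed under intersections -/

/-- finite intersections of the family `U0` -/
def UC {ι : Type*} (U0 : ι → Set ℂ) (s : Finset ι) : Set ℂ := ⋂ a ∈ s, U0 a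

theorem UC_single {ι : Type*} (U0 : ι → Set ℂ) (a : ι) : UC U0 {a} = U0 a := by simp [UC]

theorem UC_meas {ι : Type*} {U0 : ι → Set ℂ} (h : ∀ a, MeasurableSet (U0 a)) (s : Finset ι) :
    MeasurableSet (UC U0 s) := Finset.measurableSet_biInter s fun a _ => h a

/-- closed under intersections -/
def ICl {ι : Type*} (U : ι → Set ℂ) : Prop := ∀ a b, ∃ c, U c = U a ∩ U b

theorem UC_cl {ι : Type*} (U0 : ι → Set ℂ) : ICl (UC U0) := by
  intro s t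
  refine ⟨s ∪ t, ?_⟩
  ext v
  simp only [UC, mem_iInter, mem_inter_iff, Finset.mem_union]
  constructor
  · intro h
    exact ⟨fun a ha => h a (Or.inl ha), fun a ha => h a (Or.inr ha)⟩
  · rintro ⟨h1, h2⟩ a (ha | ha)
    · exact h1 a ha
    · exact h2 a ha

section

variable {ι κ : Type*} [Finite ι] [Finite κ] {U : ι → Set ℂ} {R : κ → ℂ × ℂ × ℂ → Prop}
  {X X' : Set (ℂ × Bool)} {e : ℂ → ℂ}

/-- **restriction of an isomorphism** -/
theorem piso_restrict (hcl : ICl U) (he : PIso U R X X' e) (a : ι) :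
    PIso U R (X ∩ ovr (U a)) (X' ∩ ovr (U a)) e := by
  have h1 : ps (X ∩ ovr (U a)) = ps X ∩ U a := ps_inter
  have h2 : ps (X' ∩ ovr (U a)) = ps X' ∩ U a := ps_inter
  refine ⟨⟨?_, ?_, ?_⟩, ?_, ?_, ?_, ?_, ?_⟩
  · intro x hx
    rw [h1] at hx
    rw [h2]
    exact ⟨he.bij.mapsTo hx.1, (he.loc x hx.1 a).1 hx.2⟩
  · rw [h1]
    exact he.bij.injOn.mono inter_subset_left
  · intro y hy
    rw [h2] at hy
    obtain ⟨x, hx, rfl⟩ := he.bij.surjOn hy.1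
    exact ⟨x, by rw [h1]; exact ⟨hx, (he.loc x hx a).2 hy.2⟩, rfl⟩
  · intro x hx b
    rw [h1] at hx
    constructor
    · rintro ⟨h3, h4⟩
      exact ⟨(he.col x hx.1 b).1 h3, (he.loc x hx.1 a).1 h4⟩
    · rintro ⟨h3, h4⟩
      exact ⟨(he.col x hx.1 b).2 h3, (he.loc x hx.1 a).2 h4⟩
  · intro x hx b
    rw [h1] at hx
    exact he.loc x hx.1 b
  · intro x hx y hy w hw
    rw [h1] at hx hy hw
    rw [h1, h2]
    exact he.delU x hx.1 y hy.1 w hw.1 a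
  · intro x hx y hy w hw b
    rw [h1] at hx hy hw
    rw [h1, h2]
    obtain ⟨c, hc⟩ := hcl a b
    rw [inter_assoc, inter_assoc, ← hc]
    exact he.delU x hx.1 y hy.1 w hw.1 c
  · intro x hx y hy w hw b
    rw [h1] at hx hy hw
    exact he.rel x hx.1 y hy.1 w hw.1 b

end

/-! ### properties of darts -/

/-- a property of darts which is transported -/
structure GInv {ι κ : Type*} (U : ι → Set ℂ) (R : κ → ℂ × ℂ × ℂ → Prop)
    (G : Set (ℂ × Bool) → ℂ × ℂ → Prop) : Prop where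
  mem : ∀ X p, G X p → p.1 ∈ ps X ∧ p.2 ∈ ps X
  tr : ∀ X X' : Set (ℂ × Bool), X.Finite → X'.Finite → ∀ e, PIso U R X X' e →
    ∀ p : ℂ × ℂ, G X p → G X' (mp e p)

section

variable {ι κ : Type*} [Finite ι] [Finite κ] {U : ι → Set ℂ} {R : κ → ℂ × ℂ × ℂ → Prop}
  {G : Set (ℂ × Bool) → ℂ × ℂ → Prop}

theorem GInv.iff (h : GInv U R G) {X X' : Set (ℂ × Bool)} (hX : X.Finite) (hX' : X'.Finite)
    {e : ℂ → ℂ} (he : PIso U R X X' e) {p : ℂ × ℂ} (h1 : p.1 ∈ ps X) (h2 : p.2 ∈ ps X) :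
    G X p ↔ G X' (mp e p) := by
  refine ⟨h.tr X X' hX hX' e he p, fun h3 => ?_⟩
  have h4 := h.tr X' X hX' hX _ he.symm _ h3
  have e1 : mp (Function.invFunOn e (ps X)) (mp e p) = p :=
    Prod.ext (he.bij.invOn_invFunOn.1 h1) (he.bij.invOn_invFunOn.1 h2)
  rwa [e1] at h4



theorem GInv.restrict (hcl : ICl U) (h : GInv U R G) (a : ι) :
    GInv U R fun X => G (X ∩ ovr (U a)) := by
  refine ⟨fun X p hp => ?_, fun X X' hX hX' e he p hp => ?_⟩
  · have h1 := h.mem _ _ hp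
    rw [ps_inter] at h1
    exact ⟨h1.1.1, h1.2.1⟩
  · exact h.tr _ _ (hX.subset inter_subset_left) (hX'.subset inter_subset_left) e
      (piso_restrict hcl he a) p hp


theorem GInv.and {G' : Set (ℂ × Bool) → ℂ × ℂ → Prop} (h : GInv U R G) (h' : GInv U R G') :
    GInv U R fun X p => G X p ∧ G' X p :=
  ⟨fun X p hp => h.mem X p hp.1, fun X X' hX hX' e he p hp =>
    ⟨h.tr X X' hX hX' e he p hp.1, h'.tr X X' hX hX' e he p hp.2⟩⟩

end

/-! ### the segment sum between two gates -/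

/-- the stopped segment sum from the least gate dart of `Q` to the least gate dart of `Q'` -/
def zK (f : ℂ × ℂ × ℂ → ℂ) (W Q Q' : Set ℂ) (G G' : Set (ℂ × Bool) → ℂ × ℂ → Prop)
    (X : Set (ℂ × Bool)) : ℂ :=
  zS f W (fun X => Least (G (X ∩ ovr Q))) (fun X => {q | Least (G' (X ∩ ovr Q')) q}) X




end Crest.Agent.R143.WLocx713
end
end

-- ▼ part R143/WLoc7_713

/-!
# Row 143 (S0194), CORE-C block V (helper713): 117's `ZZ` as a local measurable functional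

* `FAp S χ W p q` : the planar walk from `p` arrives in `q`, both sites of all states in `W`
* `fa_iff` : 117's `FA` on `cm0`
* `CB S χ W p q t` : the triangle `t` is a counted gap of the arc `p → q` (first arrival)
* `zzp` : charge of the block path between `p` and `q` in the direction in which it exists
* `zz_eq` : `ZZ (cm0 hS) x w R p q = zzp S χ F W p q`
* `zzp_loc` : locality
* `zB f W Q Q' G G' X` : the functional of the configuration; `zB_fme`, `zB_cut`, `zB_eq`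
-/

set_option autoImplicit false
set_option linter.all false

noncomputable section

open scoped Classical

namespace Crest.Agent.R143.WLocx713

open Set MeasureTheory
open Crest.Agent.R143.B0x346 Crest.Agent.R143.DelGx806 Crest.Agent.R143.DelRx806
  Crest.Agent.R143.JColx54
open Crest.Agent.R143.Frame1x395 Crest.Agent.R143.Frame3x395 Crest.Agent.R143.Frame8x395
  Crest.Agent.R143.Frame10x395 Crest.Agent.R143.Locx922
open Crest.Agent.R143.Frame5x395 (sd mem_sd th th_spec)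
open Crest.Agent.R143.Splx117
open Crest.Agent.R143.PP0x831 Crest.Agent.R143.Poisx304 Crest.Agent.R143.Janx304
open Crest.Agent.R143.Prodx609 Crest.Agent.R143.FinMx609 Crest.Agent.R143.FinM2x609

variable {S S' : Finset ℂ} {W : Set ℂ} {d : ℝ} {χ χ' : ℂ → ZMod 2}

/-- the state `e` is live and has its two sites in `W` -/
def InW (S : Finset ℂ) (W : Set ℂ) (e : ℂ × ℂ) : Prop := e ∈ sd S ∧ e.1 ∈ W ∧ e.2 ∈ W

/-- the walk from `p` arrives in `q` inside `W` -/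
def FAp (S : Finset ℂ) (χ : ℂ → ZMod 2) (W : Set ℂ) (p q : ℂ × ℂ) : Prop :=
  ∃ m, (nx S χ)^[m] p = q ∧ ∀ i ≤ m, InW S W ((nx S χ)^[i] p)

/-- first arrival in `q` at the time `m` inside `W` -/
def ArrB (S : Finset ℂ) (χ : ℂ → ZMod 2) (W : Set ℂ) (p q : ℂ × ℂ) (m : ℕ) : Prop :=
  (nx S χ)^[m] p = q ∧ (∀ i < m, (nx S χ)^[i] p ≠ q) ∧ ∀ i ≤ m, InW S W ((nx S χ)^[i] p)

theorem fap_iff {p q : ℂ × ℂ} : FAp S χ W p q ↔ ∃ m, ArrB S χ W p q m := by
  constructor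
  · rintro ⟨m, h1, h2⟩
    have ex : ∃ m, (nx S χ)^[m] p = q := ⟨m, h1⟩
    refine ⟨Nat.find ex, Nat.find_spec ex, fun i hi h => Nat.find_min ex hi h, fun i hi => ?_⟩
    exact h2 i (hi.trans (Nat.find_min' ex h1))
  · rintro ⟨m, h1, -, h2⟩
    exact ⟨m, h1, h2⟩

theorem ArrB.arr {p q : ℂ × ℂ} {m : ℕ} (h : ArrB S χ W p q m) : Arr S χ W {q} p m :=
  ⟨h.1, fun i hi => ⟨h.2.1 i hi, (h.2.2 i hi.le).2.1⟩⟩

/-- counted gap of the arc `p → q` -/
def CB (S : Finset ℂ) (χ : ℂ → ZMod 2) (W : Set ℂ) (p q : ℂ × ℂ) (t : ℂ × ℂ × ℂ) : Prop :=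
  ∃ m, ArrB S χ W p q m ∧ ∃ i < m, (nx S χ)^[i] p = (t.1, t.2.1) ∧ t.2.2 = th S (t.1, t.2.1) ∧
    lg S χ (t.1, t.2.1) ∧ Np S χ p m i

theorem CB.fap {p q : ℂ × ℂ} {t : ℂ × ℂ × ℂ} (h : CB S χ W p q t) : FAp S χ W p q := by
  obtain ⟨m, h1, -⟩ := h
  exact fap_iff.2 ⟨m, h1⟩

theorem CB.mem {p q : ℂ × ℂ} {t : ℂ × ℂ × ℂ} (h : CB S χ W p q t) : t ∈ delT S := by
  obtain ⟨n, hn, i, hi, h1, h2, -⟩ := h
  have h3 := (hn.2.2 i hi.le).1
  rw [h1] at h3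
  have h4 := th_spec h3
  rw [← h2] at h4
  exact h4

/-- counted gap between `p` and `q`, in the direction in which the arc exists -/
def CZ (S : Finset ℂ) (χ : ℂ → ZMod 2) (W : Set ℂ) (p q : ℂ × ℂ) (t : ℂ × ℂ × ℂ) : Prop :=
  CB S χ W p q t ∨ (¬ FAp S χ W p q ∧ CB S χ W q p t)

/-- charge of the block path between `p` and `q` -/
def zzp (S : Finset ℂ) (χ : ℂ → ZMod 2) (f : ℂ × ℂ × ℂ → ℂ) (W : Set ℂ) (p q : ℂ × ℂ) : ℂ :=
  ∑ t ∈ delT S, if CZ S χ W p q t then f t else 0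

/-! ### the bridge -/

theorem cnt_univ {p q : ℂ × ℂ} {m : ℕ} (h : ArrB S χ W p q m) (t : ℂ × ℂ × ℂ) :
    Cnt S χ univ {q} p t ↔ CB S χ W p q t := by
  have h0 : Arr S χ univ {q} p m := ⟨h.1, fun i hi => ⟨h.2.1 i hi, mem_univ _⟩⟩
  constructor
  · rintro ⟨n, hn, h1⟩
    have e := arr_uniq hn h0
    subst e
    exact ⟨n, h, h1⟩
  · rintro ⟨n, hn, h1⟩
    exact ⟨n, ⟨hn.1, fun i hi => ⟨hn.2.1 i hi, mem_univ _⟩⟩, h1⟩

/-- the segment sum of a first arrival as a sum over triangles -/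
theorem zw_sum (hS : GP (S : Set ℂ)) (hχ : HullC S χ) {p q : ℂ × ℂ} (hp : Occ S χ p) {m : ℕ}
    (h : ArrB S χ W p q m) (f : ℂ × ℂ × ℂ → ℂ) :
    Zw S χ (fun a b c => f (a, b, c)) p m = ∑ t ∈ delT S, if CB S χ W p q t then f t else 0 := by
  have h0 : Arr S χ univ {q} p m := ⟨h.1, fun i hi => ⟨h.2.1 i hi, mem_univ _⟩⟩
  have h1 : Zw S χ (fun a b c => f (a, b, c)) p m =
      Zst S χ (fun a b c => f (a, b, c)) univ {q} p := by
    unfold Zst
    rw [fst_eq _ h0]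
  rw [h1, zst_sum hS hχ _ hp]
  refine Finset.sum_congr rfl fun t _ => ?_
  have h2 := cnt_univ h t
  by_cases hc : CB S χ W p q t
  · rw [if_pos (h2.2 hc), if_pos hc]
  · rw [if_neg fun hh => hc (h2.1 hh), if_neg hc]

/-- the darts with both sites in `W` -/
def RW (S : Finset ℂ) (W : Set ℂ) : Set (D0 S) := {e | e.1.1 ∈ W ∧ e.1.2 ∈ W}

theorem fa_iff (hS : GP (S : Set ℂ)) (hχ : HullC S χ) {p q : D0 S} (hp : xc hS hχ p = 1) :
    FA (cm0 hS) (xc hS hχ) (RW S W) p q ↔ FAp S χ W p.1 q.1 := by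
  have hst := it_eq hS hχ hp
  constructor
  · rintro ⟨m, h1, h2⟩
    refine ⟨m, by rw [← hst, h1], fun i hi => ?_⟩
    rw [← hst]
    exact ⟨Subtype.prop _, (h2 i hi).1, (h2 i hi).2⟩
  · rintro ⟨m, h1, h2⟩
    refine ⟨m, Subtype.ext (by rw [hst, h1]), fun i hi => ?_⟩
    have h3 := h2 i hi
    rw [← hst] at h3
    exact ⟨h3.2.1, h3.2.2⟩

theorem arrB_ft (hS : GP (S : Set ℂ)) (hχ : HullC S χ) {p q : D0 S} (hp : xc hS hχ p = 1)
    (h : FA (cm0 hS) (xc hS hχ) (RW S W) p q) :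
    ArrB S χ W p.1 q.1 (ft (cm0 hS) (xc hS hχ) p q) := by
  have hst := it_eq hS hχ hp
  obtain ⟨m, h1, h2⟩ := h
  have ex : ∃ m, (stp (cm0 hS) (xc hS hχ))^[m] p = q := ⟨m, h1⟩
  have h3 := ft_spec ex
  refine ⟨by rw [← hst, h3], fun i hi hc => ?_, fun i hi => ?_⟩
  · rw [← hst] at hc
    have h4 := ft_min (Subtype.ext hc : (stp (cm0 hS) (xc hS hχ))^[i] p = q)
    omega
  · have h4 := ft_min h1
    rw [← hst]
    exact ⟨Subtype.prop _, (h2 i (by omega)).1, (h2 i (by omega)).2⟩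

/-- 117's forward charge -/
theorem ks_sumB (hS : GP (S : Set ℂ)) (hχ : HullC S χ) {p q : D0 S} (hp : xc hS hχ p = 1)
    (hW : ∀ v ∈ W, v ∈ S → ¬ OnHull S v) {f : ℂ × ℂ × ℂ → ℂ} {w : D0 S → ℂ}
    (hw : ∀ e : D0 S, w e = f (e.1.2, th S e.1, e.1.1))
    (h : FA (cm0 hS) (xc hS hχ) (RW S W) p q) :
    KS (cm0 hS) (xc hS hχ) p w 0 (ft (cm0 hS) (xc hS hχ) p q) =
      ∑ t ∈ delT S, if CB S χ W p.1 q.1 t then f t else 0 := by
  have hB := arrB_ft hS hχ hp h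
  have hst := it_eq hS hχ hp
  rw [ks_zw hS hχ hp (a := 0) (b := ft (cm0 hS) (xc hS hχ) p q)
    (F := fun a b c => f (a, b, c)) ?_ hw]
  · rw [Nat.sub_zero]
    exact zw_sum hS hχ (occ_of hS hχ hp) hB f
  · intro i _ hi
    have h1 := hB.2.2 i hi
    rw [← hst] at h1
    refine hW _ h1.2.1 ?_
    obtain ⟨c, hc⟩ := mem_sd.1 h1.1
    exact (mem_delT.1 hc).1

/-- **117's `ZZ` is the planar functional** -/
theorem zz_eq (hS : GP (S : Set ℂ)) (hχ : HullC S χ) {p q : D0 S} (hp : xc hS hχ p = 1)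
    (hq : xc hS hχ q = 1) (hW : ∀ v ∈ W, v ∈ S → ¬ OnHull S v) {f : ℂ × ℂ × ℂ → ℂ}
    {w : D0 S → ℂ} (hw : ∀ e : D0 S, w e = f (e.1.2, th S e.1, e.1.1)) :
    ZZ (cm0 hS) (xc hS hχ) w (RW S W) p q = zzp S χ f W p.1 q.1 := by
  unfold ZZ zzp
  have e1 := fa_iff (W := W) hS hχ (q := q) hp
  have e2 := fa_iff (W := W) hS hχ (q := p) hq
  by_cases h1 : FA (cm0 hS) (xc hS hχ) (RW S W) p q
  · rw [if_pos h1, ks_sumB hS hχ hp hW hw h1]
    refine Finset.sum_congr rfl fun t _ => ?_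
    have h2 : CZ S χ W p.1 q.1 t ↔ CB S χ W p.1 q.1 t := by
      unfold CZ
      have := e1.1 h1
      tauto
    by_cases hc : CB S χ W p.1 q.1 t
    · rw [if_pos hc, if_pos (h2.2 hc)]
    · rw [if_neg hc, if_neg fun hh => hc (h2.1 hh)]
  · have h1' : ¬ FAp S χ W p.1 q.1 := fun h => h1 (e1.2 h)
    have h2 : ∀ t, CZ S χ W p.1 q.1 t ↔ CB S χ W q.1 p.1 t := by
      intro t
      unfold CZ
      have := fun h : CB S χ W p.1 q.1 t => h1' h.fap
      tauto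
    rw [if_neg h1]
    by_cases h3 : FA (cm0 hS) (xc hS hχ) (RW S W) q p
    · rw [if_pos h3, ks_sumB hS hχ hq hW hw h3]
      refine Finset.sum_congr rfl fun t _ => ?_
      by_cases hc : CB S χ W q.1 p.1 t
      · rw [if_pos hc, if_pos ((h2 t).2 hc)]
      · rw [if_neg hc, if_neg fun hh => hc ((h2 t).1 hh)]
    · rw [if_neg h3]
      have h3' : ¬ FAp S χ W q.1 p.1 := fun h => h3 (e2.2 h)
      symm
      refine Finset.sum_eq_zero fun t _ => if_neg fun hh => h3' ((h2 t).1 hh).fap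

/-! ### locality -/

theorem arrB_loc (hS : GP (S : Set ℂ)) (hS' : GP (S' : Set ℂ)) (hχ : HullC S χ) (hd : 0 < d)
    (hH : Hol (S : Set ℂ) W d) (hA : Agr (S : Set ℂ) (S' : Set ℂ) W (2 * d))
    (hc : CAgr S χ χ' W (2 * d)) {p q : ℂ × ℂ} (hp : Occ S χ p) (m : ℕ) :
    ArrB S' χ' W p q m ↔ ArrB S χ W p q m := by
  constructor
  · intro h
    have h1 := (arr_loc hS hS' hχ hd hH hA hc hp m).1 h.arr
    have hW : ∀ i < m, ((nx S χ)^[i] p).1 ∈ W := fun i hi => (h1.2 i hi).2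
    have h2 := it_loc hS hS' hχ hd hH hA hc hp hW
    refine ⟨by rw [← h2 m le_rfl]; exact h.1, fun i hi => ?_, fun i hi => ?_⟩
    · rw [← h2 i hi.le]
      exact h.2.1 i hi
    · have h3 := h.2.2 i hi
      rw [h2 i hi] at h3
      exact ⟨(hp.it hS hχ i).1, h3.2⟩
  · intro h
    have hW : ∀ i < m, ((nx S χ)^[i] p).1 ∈ W := fun i hi => (h.2.2 i hi.le).2.1
    have h2 := it_loc hS hS' hχ hd hH hA hc hp hW
    refine ⟨by rw [h2 m le_rfl]; exact h.1, fun i hi => ?_, fun i hi => ?_⟩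
    · rw [h2 i hi.le]
      exact h.2.1 i hi
    · rw [h2 i hi]
      have h3 := h.2.2 i hi
      exact ⟨(th_loc hS' hd hH hA h3.1 (Or.inl h3.2.1)).1, h3.2⟩

theorem fap_loc (hS : GP (S : Set ℂ)) (hS' : GP (S' : Set ℂ)) (hχ : HullC S χ) (hd : 0 < d)
    (hH : Hol (S : Set ℂ) W d) (hA : Agr (S : Set ℂ) (S' : Set ℂ) W (2 * d))
    (hc : CAgr S χ χ' W (2 * d)) {p q : ℂ × ℂ} (hp : Occ S χ p) :
    FAp S' χ' W p q ↔ FAp S χ W p q := by
  rw [fap_iff, fap_iff]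
  exact exists_congr fun m => arrB_loc hS hS' hχ hd hH hA hc hp m

theorem cb_loc (hS : GP (S : Set ℂ)) (hS' : GP (S' : Set ℂ)) (hχ : HullC S χ) (hd : 0 < d)
    (hH : Hol (S : Set ℂ) W d) (hA : Agr (S : Set ℂ) (S' : Set ℂ) W (2 * d))
    (hc : CAgr S χ χ' W (2 * d)) {p q : ℂ × ℂ} (hp : Occ S χ p) (t : ℂ × ℂ × ℂ) :
    CB S' χ' W p q t ↔ CB S χ W p q t := by
  unfold CB
  refine exists_congr fun n => ?_
  rw [arrB_loc hS hS' hχ hd hH hA hc hp n]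
  refine and_congr_right fun hn => exists_congr fun i => and_congr_right fun hi => ?_
  have hW : ∀ i < n, ((nx S χ)^[i] p).1 ∈ W := fun i hi => (hn.2.2 i hi.le).2.1
  have h1 := it_loc hS hS' hχ hd hH hA hc hp hW i hi.le
  obtain ⟨-, h2, h3⟩ := nx_loc hS' hd hH hA hc (hp.it hS hχ i).1 (hW i hi)
  rw [h1, np_loc hS hS' hχ hd hH hA hc hp hW hi]
  constructor
  · rintro ⟨e1, e2, e3, e4⟩
    rw [e1] at h2 h3
    exact ⟨e1, by rw [e2, h3], h2.1 e3, e4⟩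
  · rintro ⟨e1, e2, e3, e4⟩
    rw [e1] at h2 h3
    exact ⟨e1, by rw [e2, h3], h2.2 e3, e4⟩

theorem cz_loc (hS : GP (S : Set ℂ)) (hS' : GP (S' : Set ℂ)) (hχ : HullC S χ) (hd : 0 < d)
    (hH : Hol (S : Set ℂ) W d) (hA : Agr (S : Set ℂ) (S' : Set ℂ) W (2 * d))
    (hc : CAgr S χ χ' W (2 * d)) {p q : ℂ × ℂ} (hp : Occ S χ p) (hq : Occ S χ q)
    (t : ℂ × ℂ × ℂ) : CZ S' χ' W p q t ↔ CZ S χ W p q t := by
  unfold CZ
  rw [cb_loc hS hS' hχ hd hH hA hc hp t, cb_loc hS hS' hχ hd hH hA hc hq t,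
    fap_loc hS hS' hχ hd hH hA hc hp]


/-! ### transport and measurability -/

section transport

variable {ι κ : Type*} [Finite ι] [Finite κ] {U : ι → Set ℂ} {R : κ → ℂ × ℂ × ℂ → Prop}
  {X X' : Set (ℂ × Bool)} {e : ℂ → ℂ}

theorem iso_inw (hX : X.Finite) (hX' : X'.Finite) (he : PIso U R X X' e) (h : U3 (sX X))
    {a : ι} {p : ℂ × ℂ} (hp : InW (sX X) (U a) p) : InW (sX X') (U a) (mp e p) := by
  obtain ⟨h1, h2⟩ := sd_ps hX hp.1
  exact ⟨(iso_th hX hX' he h hp.1).1, (he.loc _ h1 a).1 hp.2.1, (he.loc _ h2 a).1 hp.2.2⟩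

theorem iso_arrB (hX : X.Finite) (hX' : X'.Finite) (he : PIso U R X X' e) (h : U3 (sX X))
    {a : ι} {p q : ℂ × ℂ} (h1 : p.1 ∈ ps X) (h2 : p.2 ∈ ps X)
    {m : ℕ} (hm : ArrB (sX X) (cX X) (U a) p q m) :
    ArrB (sX X') (cX X') (U a) (mp e p) (mp e q) m := by
  have h3 := iso_it hX hX' he h h1 h2 (n := m) (fun i hi => (hm.2.2 i hi.le).1)
  refine ⟨?_, fun i hi => ?_, fun i hi => ?_⟩
  · rw [(h3 m le_rfl).1, hm.1]
  · rw [(h3 i hi.le).1]
    intro hc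
    obtain ⟨h4, h5⟩ := (h3 i hi.le).2
    have h6 := (h3 m le_rfl).2
    rw [hm.1] at h6
    exact hm.2.1 i hi (Prod.ext (he.bij.injOn h4 h6.1 (congrArg Prod.fst hc))
      (he.bij.injOn h5 h6.2 (congrArg Prod.snd hc)))
  · rw [(h3 i hi).1]
    exact iso_inw hX hX' he h (hm.2.2 i hi)

theorem iso_fap (hX : X.Finite) (hX' : X'.Finite) (he : PIso U R X X' e) (h : U3 (sX X))
    {a : ι} {p q : ℂ × ℂ} (h1 : p.1 ∈ ps X) (h2 : p.2 ∈ ps X)
    (hf : FAp (sX X) (cX X) (U a) p q) : FAp (sX X') (cX X') (U a) (mp e p) (mp e q) := by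
  obtain ⟨m, hm⟩ := fap_iff.1 hf
  exact fap_iff.2 ⟨m, iso_arrB hX hX' he h h1 h2 hm⟩

theorem inv_mp (he : PIso U R X X' e) {p : ℂ × ℂ} (h1 : p.1 ∈ ps X) (h2 : p.2 ∈ ps X) :
    mp (Function.invFunOn e (ps X)) (mp e p) = p :=
  Prod.ext (he.bij.invOn_invFunOn.1 h1) (he.bij.invOn_invFunOn.1 h2)

theorem mp_mem (he : PIso U R X X' e) {p : ℂ × ℂ} (h1 : p.1 ∈ ps X) (h2 : p.2 ∈ ps X) :
    (mp e p).1 ∈ ps X' ∧ (mp e p).2 ∈ ps X' := ⟨he.bij.mapsTo h1, he.bij.mapsTo h2⟩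

theorem iso_fap_iff (hX : X.Finite) (hX' : X'.Finite) (he : PIso U R X X' e) (h : U3 (sX X))
    {a : ι} {p q : ℂ × ℂ} (h1 : p.1 ∈ ps X) (h2 : p.2 ∈ ps X) (h3 : q.1 ∈ ps X)
    (h4 : q.2 ∈ ps X) :
    FAp (sX X) (cX X) (U a) p q ↔ FAp (sX X') (cX X') (U a) (mp e p) (mp e q) := by
  refine ⟨iso_fap hX hX' he h h1 h2, fun hf => ?_⟩
  obtain ⟨m1, m2⟩ := mp_mem he h1 h2
  have h5 := iso_fap hX' hX he.symm (iso_u3 hX hX' he h) m1 m2 hf
  rwa [inv_mp he h1 h2, inv_mp he h3 h4] at h5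

theorem iso_cb (hX : X.Finite) (hX' : X'.Finite) (he : PIso U R X X' e) (h : U3 (sX X))
    {a : ι} {p q : ℂ × ℂ} (h1 : p.1 ∈ ps X) (h2 : p.2 ∈ ps X) {t : ℂ × ℂ × ℂ}
    (ht : CB (sX X) (cX X) (U a) p q t) :
    CB (sX X') (cX X') (U a) (mp e p) (mp e q) (e t.1, e t.2.1, e t.2.2) := by
  obtain ⟨n, hn, i, hi, e1, e2, e3, e4⟩ := ht
  have hsd : ∀ i < n, (nx (sX X) (cX X))^[i] p ∈ sd (sX X) := fun i hi => (hn.2.2 i hi.le).1
  have h3 := iso_it hX hX' he h h1 h2 hsd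
  have h4 : (t.1, t.2.1) ∈ sd (sX X) := e1 ▸ hsd i hi
  obtain ⟨-, h5, -⟩ := iso_th hX hX' he h h4
  refine ⟨n, iso_arrB hX hX' he h h1 h2 hn, i, hi, ?_, ?_, ?_, iso_np hX hX' he h h1 h2 hsd hi e4⟩
  · rw [(h3 i hi.le).1, e1]
    rfl
  · show e t.2.2 = th (sX X') (mp e (t.1, t.2.1))
    rw [h5, e2]
  · exact (iso_lg hX hX' he h h4).2 e3

theorem iso_cz (hX : X.Finite) (hX' : X'.Finite) (he : PIso U R X X' e) (h : U3 (sX X))
    {a : ι} {p q : ℂ × ℂ} (h1 : p.1 ∈ ps X) (h2 : p.2 ∈ ps X) (h3 : q.1 ∈ ps X)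
    (h4 : q.2 ∈ ps X) {t : ℂ × ℂ × ℂ} (ht : CZ (sX X) (cX X) (U a) p q t) :
    CZ (sX X') (cX X') (U a) (mp e p) (mp e q) (e t.1, e t.2.1, e t.2.2) := by
  rcases ht with ht | ⟨h5, ht⟩
  · exact Or.inl (iso_cb hX hX' he h h1 h2 ht)
  · exact Or.inr ⟨fun hf => h5 ((iso_fap_iff hX hX' he h h1 h2 h3 h4).2 hf),
      iso_cb hX hX' he h h3 h4 ht⟩

end transport



theorem CZ.mem {p q : ℂ × ℂ} {t : ℂ × ℂ × ℂ} (h : CZ S χ W p q t) : t ∈ delT S := by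
  rcases h with h | ⟨-, h⟩ <;> exact h.mem





end Crest.Agent.R143.WLocx713
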