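import Crest.Agent.R143.GauA_749
import Crest.Agent.R143.Ex_395
import Crest.Agent.R143.Jump_697
import Crest.Agent.R143.RE0_723
import Crest.Agent.R143.Neck1_921
import Crest.Agent.R143.WLoc7_713
import Crest.Agent.R143.RingD_117
import Crest.Agent.R143.CorrD_117
import Crest.Agent.R143.CorP_503
import Crest.Agent.R143.TileR2_228
import Crest.Agent.R143.CorH_713
import Crest.Agent.R143.Spt2_832

-- ▼ part R143/GauB_749
section

/-!
# Row 143, leaf D3F, second part (helper749): the reference gauge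

* `killV G V` : network with the edges inside `V` killed
* `fan_in`, `fan_hull` : the triangles at a site `v ∉ V` are linked, or linked to a hull edge at `v`
* `Out S V a b` : connection by Delaunay edges between sites which are not in `V`
* `esc` : a triangle with a vertex connected outside `V` to a hull site is linked to a hull edge
* `gauge_of_conn` : gauge for the joins with marks on the hull and at the inner edge `(a, b)`
* `gauge_of_tri` : gauge for the joins with the odd triangle `t`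
* `gauge_hull` : gauge for the joins with marks on the hull
-/

set_option autoImplicit false

noncomputable section

open scoped Classical

namespace Crest.Agent.R143.GauBx749

open Crest.Agent.R143.B0x346 Crest.Agent.R143.DelGx806 Crest.Agent.R143.DelRx806
open Crest.Agent.R143.JColx54 Crest.Agent.R143.JCol2x54
open Crest.Agent.R143.Exx395 Crest.Agent.R143.GauAx749
open Crest.Agent.R143.Ex0x922 (LAdj Lk ExM)

variable {S : Finset ℂ} {G : Trg ℂ} {kl : Set (ℂ × ℂ)} {O : Set (ℂ × ℂ × ℂ)}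
  {D : Set (ℂ × ℂ)} {J J' : Finset (ℂ × ℂ)} {V : Finset ℂ}

/-- the edges inside `V` are killed -/
def killV (G : Trg ℂ) (V : Finset ℂ) : Net ℂ where
  T := G.T
  rot := G.rot
  uniq := G.uniq
  ne := G.ne
  kl := {p | p.1 ∈ V ∧ p.2 ∈ V}
  klsym := fun _ _ h => ⟨h.2, h.1⟩
  ex := fun _ => (0, 0)

/-- the triangles at a site which is not on the hull -/
theorem fan_in (hS : GP (S : Set ℂ)) (hG : G.T = delT S) {v : ℂ} (hvV : v ∉ V)
    (hv : ∀ a, ¬ hullE S a v) {a b a' b' : ℂ} (h : (v, a, b) ∈ delT S) (h' : (v, a', b') ∈ delT S) :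
    Lk (killV G V) (v, a, b) (v, a', b') := by
  obtain ⟨d, u, hR, -, hall⟩ := ring_exists hS (mem_nbs.2 ⟨b, h⟩) hv (G := (killV G V).toTrg) hG
  obtain ⟨i, hi, -⟩ := hall a b h
  obtain ⟨j, hj, -⟩ := hall a' b' h'
  exact lk_star (N := killV G V) hR (fun i hk => hvV hk.1) (by change _ ∈ G.T; rw [hG]; exact h)
    (by change _ ∈ G.T; rw [hG]; exact h') ⟨i, hi⟩ ⟨j, hj⟩

/-- the triangles at a hull site are linked to the incoming hull edge -/
theorem fan_hull (hS : GP (S : Set ℂ)) (hG : G.T = delT S) {v : ℂ} (hvV : v ∉ V)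
    (hv : ∃ a, hullE S a v) {a b : ℂ} (h : (v, a, b) ∈ delT S) :
    ∃ x y, hullE S x v ∧ (x, v, y) ∈ delT S ∧ Lk (killV G V) (v, a, b) (x, v, y) := by
  by_contra hcon
  push Not at hcon
  obtain ⟨w, hw⟩ := hv
  set Q : Finset ℂ := (nbs S v).filter fun x => Lk (killV G V) (v, a, b) (v, x, nxt S v x) with hQ
  have hmem : ∀ x, x ∈ Q ↔ x ∈ nbs S v ∧ Lk (killV G V) (v, a, b) (v, x, nxt S v x) := fun x => by
    rw [hQ, Finset.mem_filter]
  have rot := (g1 S hS).1
  have hT : ∀ x y z : ℂ, (x, y, z) ∈ delT S → (x, y, z) ∈ (killV G V).T := fun x y z h => by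
    change _ ∈ G.T; rw [hG]; exact h
  have hstep : ∀ x ∈ Q, nxt S v x ∈ Q := by
    intro x hx
    obtain ⟨h1, h2⟩ := (hmem x).1 hx
    have h3 := nxt_spec h1
    by_cases h4 : nxt S v x ∈ nbs S v
    · refine (hmem _).2 ⟨h4, h2.trans (Ex0x922.Lk.of_adj
        ⟨nxt S v x, v, x, nxt S v (nxt S v x), ?_, ?_, ?_, Ex0x922.mem_rots_self _, ?_⟩)⟩
      · exact hT _ _ _ (rot _ _ _ (rot _ _ _ h3))
      · exact hT _ _ _ (nxt_spec h4)
      · simp [rots]
      · exact fun hk => hvV hk.2
    · have h5 := rot _ _ _ (rot _ _ _ h3)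
      rw [mem_nbs] at h4
      push Not at h4
      refine absurd (h2.trans (Ex0x922.Lk.of_rots (t' := (nxt S v x, v, x)) ?_))
        (hcon (nxt S v x) x ⟨⟨x, h5⟩, h4⟩ h5)
      simp [rots]
  have hne : Q.Nonempty := ⟨a, (hmem a).2 ⟨mem_nbs.2 ⟨b, h⟩, by
    rw [nxt_eq hS h]; exact Ex0x922.Lk.refl _⟩⟩
  have hwv : w ≠ v := hullE.ne hw
  set e : ℂ := -Complex.I * (v - w) with he
  have he0 : e ≠ 0 := mul_ne_zero (neg_ne_zero.2 Complex.I_ne_zero) (sub_ne_zero.2 hwv.symm)
  obtain ⟨x, hx, h3, h4⟩ := sector hne (f := fun u => u - v) (nx := nxt S v) hstep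
    (fun x hx => (mem_delT.1 (nxt_spec ((hmem x).1 hx).1)).2.2.2.1) he0
  have hx1 := nxt_spec ((hmem x).1 hx).1
  obtain ⟨-, hxS, hx'S, hpos, -⟩ := mem_delT.1 hx1
  set x' := nxt S v x with hx'
  have k1 := hull_side hw x hxS
  have k2 := hull_side hw x' hx'S
  have k0 : cr (v - w) e < 0 := by
    have h5 : 0 < (v.re - w.re) ^ 2 + (v.im - w.im) ^ 2 := nsq_pos hwv
    rw [he]
    unfold cr
    simp
    nlinarith
  have key : cr (v - w) e * cr (x - v) (x' - v) =
      cr e (x' - v) * cr (v - w) (x - w) + cr (x - v) e * cr (v - w) (x' - w) := by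
    unfold cr
    simp
    ring
  have k5 := mul_nonneg h4.le k1
  have k6 := mul_nonneg h3 k2
  nlinarith [mul_pos (neg_pos.2 k0) hpos]




/-! ### the cochains -/









end Crest.Agent.R143.GauBx749
end
end

-- ▼ part R143/Side_40
section

/-!
# Row 143 (S0194), CONT leaf K1: the side function of a chain of sites (helper40)

* `uc l a b` : number of passages of the chain `l` through the edge `{a, b}`
* `wd l t` : winding number mod 2 of a closed chain around the triangle `t`; `wd_rot`, `wd_jump`,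
  `wd_hull`
* `star` : a function of the triangles without jumps at the edges at `v` is constant on the
  triangles at `v`
* `side` : **side function** of a chain of Delaunay edges between two hull sites, with its values
  at the hull edges (`SideF`)
* `SideF.star`, `SideF.cross`, `SideF.pth`, `SideF.low_site`, `SideF.high_site`, `SideF.nodup`
* `exists_chain` : `Pth S V x y` gives a simple list of sites of `V`
-/

set_option autoImplicit false

noncomputable section

open scoped Classical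

namespace Crest.Agent.R143.Sidex40

open Crest.Agent.R143.B0x346 Crest.Agent.R143.DelGx806 Crest.Agent.R143.DelRx806
open Crest.Agent.R143.ToolWx838 Crest.Agent.R143.Blkx838 Crest.Agent.R143.Planarx54
open Crest.Agent.R143.Jumpx697

variable {S : Finset ℂ}

/-- number of passages of the chain `l` through the edge `{a, b}` -/
def uc (l : List ℂ) (a b : ℂ) : ℕ := (prs l).count (a, b) + (prs l).count (b, a)

theorem uc_comm (l : List ℂ) (a b : ℂ) : uc l a b = uc l b a := Nat.add_comm _ _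

theorem uc_zero {l : List ℂ} {a b : ℂ} (h1 : (a, b) ∉ prs l) (h2 : (b, a) ∉ prs l) :
    uc l a b = 0 := by
  unfold uc
  rw [List.count_eq_zero_of_not_mem h1, List.count_eq_zero_of_not_mem h2]

theorem uc_left {l : List ℂ} {a b : ℂ} (h : a ∉ l) : uc l a b = 0 :=
  uc_zero (fun h' => h (mem_of_prs h').1) (fun h' => h (mem_of_prs h').2)

theorem uc_right {l : List ℂ} {a b : ℂ} (h : b ∉ l) : uc l a b = 0 := by
  rw [uc_comm]; exact uc_left h

/-- centre of a triangle -/
def cen (t : ℂ × ℂ × ℂ) : ℂ := (t.1 + t.2.1 + t.2.2) / 3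

theorem cen_rot (a b c : ℂ) : cen (b, c, a) = cen (a, b, c) := by
  unfold cen; ring

theorem cen_in {a b c : ℂ} (h : (a, b, c) ∈ delT S) : InO (cen (a, b, c)) a b c := by
  obtain ⟨o, T⟩ := mem_delT_iff.1 h
  have hp := T.pos
  have h0 : 0 < (b.re - a.re) * (c.im - a.im) - (b.im - a.im) * (c.re - a.re) := by
    have := hp
    unfold cr at this
    simpa using this
  have hre : (cen (a, b, c)).re = (a.re + b.re + c.re) / 3 := by
    unfold cen
    have : ((a, b, c).1 + (a, b, c).2.1 + (a, b, c).2.2) / 3 = ((1 / 3 : ℝ) : ℂ) * (a + b + c) := by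
      push_cast; ring
    rw [this, Complex.re_ofReal_mul]
    simp only [Complex.add_re]; ring
  have him : (cen (a, b, c)).im = (a.im + b.im + c.im) / 3 := by
    unfold cen
    have : ((a, b, c).1 + (a, b, c).2.1 + (a, b, c).2.2) / 3 = ((1 / 3 : ℝ) : ℂ) * (a + b + c) := by
      push_cast; ring
    rw [this, Complex.im_ofReal_mul]
    simp only [Complex.add_im]; ring
  refine ⟨?_, ?_, ?_⟩ <;>
  · unfold Lft cr
    simp only [Complex.sub_re, Complex.sub_im]
    rw [hre, him]
    linarith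

/-- winding number mod 2 of a closed chain around a triangle -/
def wd (l : List ℂ) (t : ℂ × ℂ × ℂ) : ZMod 2 :=
  ((round (asum (cen t) l / (2 * Real.pi)) : ℤ) : ZMod 2)

theorem wd_rot (l : List ℂ) (a b c : ℂ) : wd l (b, c, a) = wd l (a, b, c) := by
  unfold wd
  rw [cen_rot]

theorem loop_ne (hS : GP (S : Set ℂ)) {l : List ℂ} (hl : Loop S l) {a b c : ℂ}
    (h : (a, b, c) ∈ delT S) : ∃ k : ℤ, asum (cen (a, b, c)) l = 2 * Real.pi * k := by
  by_cases h2 : 2 ≤ l.length
  · exact asum_closed ((off_open hS hl h (cen_in h)).ne h2) hl.closed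
  · refine ⟨0, ?_⟩
    match l, h2 with
    | [], _ => simp
    | [a], _ => simp
    | a :: b :: l, h2 => simp at h2

theorem wd_eq {l : List ℂ} {t : ℂ × ℂ × ℂ} {k : ℤ} (h : asum (cen t) l = 2 * Real.pi * k) :
    wd l t = (k : ZMod 2) := by
  unfold wd
  have hp : (2 * Real.pi) ≠ 0 := by positivity
  rw [h, mul_div_cancel_left₀ _ hp, round_intCast]

/-- **jump** of the winding number mod 2 across an edge -/
theorem wd_jump (hS : GP (S : Set ℂ)) {l : List ℂ} (hl : Loop S l) {a b c d : ℂ}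
    (h : (a, b, c) ∈ delT S) (h' : (b, a, d) ∈ delT S) :
    wd l (a, b, c) + wd l (b, a, d) = (uc l a b : ZMod 2) := by
  obtain ⟨k, hk⟩ := loop_ne hS hl h
  obtain ⟨k', hk'⟩ := loop_ne hS hl h'
  rw [wd_eq hk, wd_eq hk']
  have h1 := asum_jump hS hl h h' (cen_in h) (cen_in h')
  rw [hk, hk'] at h1
  have hp : (0 : ℝ) < 2 * Real.pi := by positivity
  have h2 : (k : ℝ) - k' = ((prs l).count (a, b) : ℝ) - (prs l).count (b, a) := by
    have : 2 * Real.pi * ((k : ℝ) - k') =
        2 * Real.pi * (((prs l).count (a, b) : ℝ) - (prs l).count (b, a)) := by linarith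
    exact mul_left_cancel₀ hp.ne' this
  have h3 : k - k' = ((prs l).count (a, b) : ℤ) - ((prs l).count (b, a) : ℤ) := by
    exact_mod_cast h2
  have h4 : ((k - k' : ℤ) : ZMod 2) = ((((prs l).count (a, b) : ℤ) - ((prs l).count (b, a) : ℤ) : ℤ) :
      ZMod 2) := by rw [h3]
  push_cast at h4
  unfold uc
  push_cast
  have e : ∀ x y z w : ZMod 2, x - y = z - w → x + y = z + w := by decide
  exact e _ _ _ _ h4

/-- the winding number mod 2 at a hull edge -/
theorem wd_hull (hS : GP (S : Set ℂ)) {l : List ℂ} (hl : Loop S l) (hlS : ∀ s ∈ l, s ∈ S)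
    {a b c : ℂ} (h : (a, b, c) ∈ delT S) (hh : hullE S a b) :
    wd l (a, b, c) = (uc l a b : ZMod 2) := by
  obtain ⟨k, hk⟩ := loop_ne hS hl h
  rw [wd_eq hk]
  obtain ⟨o, T⟩ := mem_delT_iff.1 h
  have hab : a ≠ b := T.ne.1
  have hac : a ≠ c := T.ne.2.2
  have hbc : b ≠ c := T.ne.2.1
  have hx := cen_in h
  set x := cen (a, b, c) with hxd
  have hl' : Loop S (det a b c l) := by
    refine ⟨by rw [det_head, det_last]; exact hl.closed, fun p hp => ?_⟩
    rcases det_prs a b c l hp with h1 | rfl | rfl | rfl | rfl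
    · exact hl.del p h1.1
    · exact Or.inr ⟨b, rot_mem (rot_mem h)⟩
    · exact Or.inl ⟨a, rot_mem h⟩
    · exact Or.inr ⟨a, rot_mem h⟩
    · exact Or.inl ⟨b, rot_mem (rot_mem h)⟩
  have hav : Avoid (det a b c l) (a, b) := by
    constructor
    · intro hp
      rcases det_prs a b c l hp with h1 | h1 | h1 | h1 | h1
      · exact h1.2.1 rfl
      · exact hbc (congrArg Prod.snd h1)
      · exact hab (congrArg Prod.fst h1)
      · exact hac (congrArg Prod.fst h1)
      · exact hac (congrArg Prod.fst h1)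
    · intro hp
      rcases det_prs a b c l hp with h1 | h1 | h1 | h1 | h1
      · exact h1.2.2 rfl
      · exact hac (congrArg Prod.snd h1)
      · exact hac (congrArg Prod.snd h1)
      · exact hbc (congrArg Prod.fst h1)
      · exact hbc (congrArg Prod.fst h1)
  have hmem : ∀ s ∈ det a b c l, s ∈ S := by
    intro s hs
    have hd : ∀ m : List ℂ, (∀ s ∈ m, s ∈ S) → ∀ s ∈ det a b c m, s ∈ S := by
      have hcS : c ∈ S := (mem_delT.1 h).2.2.1
      intro m
      induction m with
      | nil => intro _ s hs; simp [det] at hs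
      | cons u m ih =>
        intro hm s hs
        cases m with
        | nil => exact hm s (by simpa [det] using hs)
        | cons v m =>
          have ih' := ih (fun s hs => hm s (List.mem_cons_of_mem _ hs))
          unfold det at hs
          split_ifs at hs
          · rcases List.mem_cons.1 hs with rfl | hs
            · exact hm _ List.mem_cons_self
            rcases List.mem_cons.1 hs with rfl | hs
            · exact hcS
            · exact ih' s hs
          · rcases List.mem_cons.1 hs with rfl | hs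
            · exact hm _ List.mem_cons_self
            · exact ih' s hs
    exact hd l hlS s hs
  have e1 : asum x (det a b c l) = 0 := by
    rw [asum_open_mid hS hl' h hx hav, asum_hull hS hl' hmem hh hav]
  have hxs : ∀ u v : ℂ, DE S u v → x ∉ segment ℝ u v := fun u v hd => edge_open hS h hx hd
  have dab : DE S a b := Or.inl ⟨c, h⟩
  have dac : DE S a c := Or.inr ⟨b, rot_mem (rot_mem h)⟩
  have dcb : DE S c b := Or.inr ⟨a, rot_mem h⟩
  have Y := Planar2x54.ang_sum hx.1 hx.2.1 hx.2.2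
  change ToolWx838.ang x a b + ToolWx838.ang x b c + ToolWx838.ang x c a = 2 * Real.pi at Y
  have xa := ang_comm (hxs a b dab)
  have xb := ang_comm (hxs a c dac)
  have xc := ang_comm (hxs c b dcb)
  have k1 := det_asum (x := x) (d := c) hab (δ := 2 * Real.pi) (δ' := -(2 * Real.pi)) (by linarith)
    (by linarith) l
  rw [e1, hk] at k1
  have hp : (0 : ℝ) < 2 * Real.pi := by positivity
  have h2 : (k : ℝ) = ((prs l).count (a, b) : ℝ) - (prs l).count (b, a) := by
    have : 2 * Real.pi * (k : ℝ) =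
        2 * Real.pi * (((prs l).count (a, b) : ℝ) - (prs l).count (b, a)) := by linarith
    exact mul_left_cancel₀ hp.ne' this
  have h3 : k = ((prs l).count (a, b) : ℤ) - ((prs l).count (b, a) : ℤ) := by
    exact_mod_cast h2
  rw [h3]
  unfold uc
  push_cast
  have e : ∀ z w : ZMod 2, z - w = z + w := by decide
  exact e _ _

/-! ### stars -/

/-- a function on the triangles without jumps at the edges at `v` is constant on the triangles at
`v` -/
theorem star (hS : GP (S : Set ℂ)) {s : ℂ × ℂ × ℂ → ZMod 2} (hr : ∀ a b c, s (b, c, a) = s (a, b, c))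
    {v : ℂ} (hj : ∀ u c d, (v, u, c) ∈ delT S → (u, v, d) ∈ delT S → s (v, u, c) = s (u, v, d))
    {a b a' b' : ℂ} (h : (v, a, b) ∈ delT S) (h' : (v, a', b') ∈ delT S) :
    s (v, a, b) = s (v, a', b') := by
  have rot := (g1 S hS).1
  set G : Trg ℂ := ⟨delT S, fun h => rot _ _ _ h, fun h h' => (g1 S hS).2.1 _ _ _ _ h h',
    fun h => (g1 S hS).2.2 _ _ _ h⟩ with hG
  have hGT : G.T = delT S := rfl
  set V : Finset ℂ := S.erase v with hV
  have hvV : v ∉ V := by rw [hV]; simp
  have hrots : ∀ t t' : ℂ × ℂ × ℂ, t' ∈ rots t → s t' = s t := by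
    rintro ⟨x, y, z⟩ t' h
    simp only [rots, Set.mem_insert_iff, Set.mem_singleton_iff] at h
    rcases h with rfl | rfl | rfl
    · rfl
    · exact hr _ _ _
    · rw [← hr z x y]
  have hlk : ∀ t t' : ℂ × ℂ × ℂ, Ex0x922.Lk (GauBx749.killV G V) t t' → s t = s t' := by
    intro t t' h
    induction h with
    | refl => rfl
    | tail _ h2 ih =>
      rw [ih]
      rcases h2 with h2 | h2
      · exact (hrots _ _ h2).symm
      · obtain ⟨x, y, z, z', k1, k2, k3, k4, k5⟩ := h2
        rw [← hrots _ _ k3, ← hrots _ _ k4]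
        have k1' : (x, y, z) ∈ delT S := k1
        have k2' : (y, x, z') ∈ delT S := k2
        have hx : x ∈ S := (mem_delT.1 k1').1
        have hy : y ∈ S := (mem_delT.1 k1').2.1
        have hk : ¬ (x ∈ V ∧ y ∈ V) := k5
        rw [hV, Finset.mem_erase, Finset.mem_erase] at hk
        rcases eq_or_ne x v with hxv | hxv
        · subst hxv
          exact hj _ _ _ k1' k2'
        · have hyv : y = v := by
            by_contra hne
            exact hk ⟨⟨hxv, hx⟩, ⟨hne, hy⟩⟩
          subst hyv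
          exact (hj _ _ _ k2' k1').symm
  by_cases hv : ∃ u, hullE S u v
  · obtain ⟨x, y, h1, h2, h3⟩ := GauBx749.fan_hull hS hGT hvV hv h
    obtain ⟨x', y', h1', h2', h3'⟩ := GauBx749.fan_hull hS hGT hvV hv h'
    have hxx : x = x' := hull_end_unique hS h1 h1'
    subst hxx
    have hyy : y = y' := (g1 S hS).2.1 _ _ _ _ h2 h2'
    subst hyy
    rw [hlk _ _ h3, hlk _ _ h3']
  · push Not at hv
    exact hlk _ _ (GauBx749.fan_in hS hGT hvV hv h h')

/-! ### lists -/

theorem prs_range (f : ℕ → ℂ) (m : ℕ) :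
    prs ((List.range (m + 1)).map f) = (List.range m).map fun k => (f k, f (k + 1)) := by
  induction m with
  | zero => rfl
  | succ m ih =>
    rw [List.range_succ, List.map_append, List.map_singleton]
    rw [List.range_succ (n := m), List.map_append, List.map_singleton, List.append_assoc,
      List.singleton_append, prs_append]
    have e1 : (List.range m).map f ++ [f m] = (List.range (m + 1)).map f := by
      rw [List.range_succ, List.map_append, List.map_singleton]
    rw [e1, ih, List.map_append]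
    rfl


/-! ### the side function -/

/-- hull arc -/
def arcL (w : ℤ → ℂ) (j : ℤ) (m : ℕ) : List ℂ := (List.range (m + 1)).map fun k : ℕ => w (j + k)

theorem prs_arcL (w : ℤ → ℂ) (j : ℤ) (m : ℕ) :
    prs (arcL w j m) = (List.range m).map fun k : ℕ => (w (j + k), w (j + k + 1)) := by
  unfold arcL
  rw [prs_range]
  refine List.map_congr_left fun k _ => ?_
  push_cast
  rw [add_assoc]

theorem hull_not_rev {a b : ℂ} (h : hullE S a b) : ¬ hullE S b a := fun h' => by
  obtain ⟨c, hc⟩ := h'.1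
  exact h.2 c hc

theorem count_arcL {n : ℕ} {w : ℤ → ℂ} (H : HullCyc S n w) {j : ℤ} {m : ℕ} (hm : m ≤ n) {k : ℤ}
    (h1 : j ≤ k) (h2 : k < j + n) :
    uc (arcL w j m) (w k) (w (k + 1)) = if k < j + m then 1 else 0 := by
  have hrev : (w (k + 1), w k) ∉ prs (arcL w j m) := by
    rw [prs_arcL]
    intro h
    obtain ⟨q, -, hq⟩ := List.mem_map.1 h
    have e1 := (Prod.mk.inj hq).1
    have e2 := (Prod.mk.inj hq).2
    have h3 := H.edge (j + q)
    rw [e1, e2] at h3
    exact hull_not_rev (H.edge k) h3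
  unfold uc
  rw [List.count_eq_zero_of_not_mem hrev, Nat.add_zero]
  split_ifs with h3
  · obtain ⟨q, hq⟩ := Int.eq_ofNat_of_zero_le (show 0 ≤ k - j by omega)
    have hkq : k = j + q := by omega
    refine List.count_eq_one_of_mem ?_ ?_
    · rw [prs_arcL]
      refine List.Nodup.map_on ?_ List.nodup_range
      intro x hx y hy hxy
      have hx' := List.mem_range.1 hx
      have hy' := List.mem_range.1 hy
      have e := (Prod.mk.inj hxy).1
      by_contra hne
      rcases lt_or_gt_of_ne hne with h | h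
      · exact ne_of_lt H.pos H.per H.inj (i := j + x) (j := j + y) (by omega) (by omega) e
      · exact ne_of_lt H.pos H.per H.inj (i := j + y) (j := j + x) (by omega) (by omega) e.symm
    · rw [prs_arcL]
      refine List.mem_map.2 ⟨q, List.mem_range.2 (by omega), ?_⟩
      rw [hkq]
  · refine List.count_eq_zero_of_not_mem ?_
    rw [prs_arcL]
    intro h
    obtain ⟨q, hq, hq2⟩ := List.mem_map.1 h
    have hq' := List.mem_range.1 hq
    have e := (Prod.mk.inj hq2).1
    exact ne_of_lt H.pos H.per H.inj (i := j + q) (j := k) (by omega) (by omega) e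

/-- `s` is a side function of the chain `l` of Delaunay edges from the hull site `w i` to the hull
site `w j` -/
structure SideF (S : Finset ℂ) (n : ℕ) (w : ℤ → ℂ) (l : List ℂ) (i j : ℤ)
    (s : ℂ × ℂ × ℂ → ZMod 2) : Prop where
  rot : ∀ a b c, s (b, c, a) = s (a, b, c)
  jump : ∀ a b c d, (a, b, c) ∈ delT S → (b, a, d) ∈ delT S →
    s (a, b, c) + s (b, a, d) = (uc l a b : ZMod 2)
  low : ∀ k c, i ≤ k → k < j → (w k, w (k + 1), c) ∈ delT S →
    s (w k, w (k + 1), c) = (uc l (w k) (w (k + 1)) : ZMod 2)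
  high : ∀ k c, j ≤ k → k < i + n → (w k, w (k + 1), c) ∈ delT S →
    s (w k, w (k + 1), c) = 1 + (uc l (w k) (w (k + 1)) : ZMod 2)

/-- **side function** of a chain `l` of Delaunay edges from the hull site `w i` to the hull site
`w j` -/
theorem side (hS : GP (S : Set ℂ)) {n : ℕ} {w : ℤ → ℂ} (H : HullCyc S n w) {l : List ℂ}
    (hd : ∀ p ∈ prs l, DE S p.1 p.2) {i j : ℤ} (hij : i ≤ j) (hj : j < i + n)
    (h1 : l.head? = some (w i)) (h2 : l.getLast? = some (w j)) :
    ∃ s, SideF S n w l i j s := by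
  have hl0 : l ≠ [] := by
    rintro rfl
    simp at h1
  obtain ⟨l0, hl0'⟩ : ∃ l0, l = l0 ++ [w j] := by
    refine ⟨l.dropLast, ?_⟩
    have e := List.dropLast_append_getLast hl0
    have e2 : l.getLast hl0 = w j := by
      rw [List.getLast?_eq_some_getLast hl0] at h2
      exact Option.some.inj h2
    rw [e2] at e
    exact e.symm
  set m : ℕ := (i + n - j).toNat with hm
  have hm1 : (m : ℤ) = i + n - j := by omega
  have hmn : m ≤ n := by omega
  have hm0 : 0 < m := by omega
  obtain ⟨r, hr⟩ : ∃ r, arcL w j m = w j :: r := by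
    unfold arcL
    rw [List.range_succ_eq_map, List.map_cons, Nat.cast_zero, add_zero]
    exact ⟨_, rfl⟩
  set L : List ℂ := l0 ++ w j :: r with hL
  have hprs : prs L = prs l ++ prs (arcL w j m) := by
    rw [hL, prs_append, ← hl0', hr]
  have huc : ∀ a b, uc L a b = uc l a b + uc (arcL w j m) a b := by
    intro a b
    unfold uc
    rw [hprs, List.count_append, List.count_append]
    ring
  have harc : ∀ p ∈ prs (arcL w j m), hullE S p.1 p.2 := by
    intro p hp
    rw [prs_arcL] at hp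
    obtain ⟨q, -, rfl⟩ := List.mem_map.1 hp
    exact H.edge _
  have hloop : Loop S L := by
    refine ⟨?_, fun p hp => ?_⟩
    · have e1 : L.head? = some (w i) := by
        rw [← h1, hl0', hL]
        cases l0 <;> rfl
      have e2 : L.getLast? = (w j :: r).getLast? := by
        rw [hL]
        rw [List.getLast?_append]
        simp [List.getLast?_cons]
      have e3 : (arcL w j m).getLast? = some (w (j + m)) := by
        unfold arcL
        rw [List.range_succ, List.map_append, List.map_singleton]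
        simp
      rw [e1, e2, ← hr, e3, hm1]
      have : j + (i + n - j) = i + n := by ring
      rw [this, H.per]
    · rw [hprs] at hp
      rcases List.mem_append.1 hp with h | h
      · exact hd p h
      · exact Or.inl (harc p h).1
  have hLS : ∀ s ∈ L, s ∈ S := by
    intro s hs
    rw [hL] at hs
    rcases List.mem_append.1 hs with h | h
    · have hsl : s ∈ l := by rw [hl0']; exact List.mem_append_left _ h
      by_cases hlen : 2 ≤ l.length
      · obtain ⟨p, hp, hsp⟩ : ∃ p ∈ prs l, s = p.1 ∨ s = p.2 := by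
          have key : ∀ q : List ℂ, 2 ≤ q.length → s ∈ q → ∃ p ∈ prs q, s = p.1 ∨ s = p.2 := by
            intro q
            induction q with
            | nil => intro h; simp at h
            | cons u q ih =>
              intro h hs
              cases q with
              | nil => simp at h
              | cons v q =>
                rcases List.mem_cons.1 hs with rfl | hs
                · exact ⟨_, List.mem_cons_self, Or.inl rfl⟩
                · cases q with
                  | nil =>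
                    have : s = v := by simpa using hs
                    exact ⟨_, List.mem_cons_self, Or.inr this⟩
                  | cons x q =>
                    obtain ⟨p, hp, h'⟩ := ih (by simp) hs
                    exact ⟨p, List.mem_cons_of_mem _ hp, h'⟩
          exact key l hlen hsl
        have := hd p hp
        rcases this with ⟨c, hc⟩ | ⟨c, hc⟩
        · rcases hsp with rfl | rfl
          · exact (mem_delT.1 hc).1
          · exact (mem_delT.1 hc).2.1
        · rcases hsp with rfl | rfl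
          · exact (mem_delT.1 hc).2.1
          · exact (mem_delT.1 hc).1
      · have hl1 : l0 = [] := by
          have : l.length = l0.length + 1 := by rw [hl0']; simp
          have : l0.length = 0 := by omega
          exact List.length_eq_zero_iff.1 this
        rw [hl1] at h
        simp at h
    · have : s ∈ arcL w j m := by rw [hr]; exact h
      unfold arcL at this
      obtain ⟨q, -, rfl⟩ := List.mem_map.1 this
      exact (hullE.mem (H.edge _)).1
  have hcz : ∀ a b c d, (a, b, c) ∈ delT S → (b, a, d) ∈ delT S → uc (arcL w j m) a b = 0 := by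
    intro a b c d h h'
    refine uc_zero (fun hp => ?_) (fun hp => ?_)
    · exact (harc _ hp).2 d h'
    · exact (harc _ hp).2 c h
  refine ⟨wd L, wd_rot L, fun a b c d h h' => ?_, fun k c hk1 hk2 h => ?_, fun k c hk1 hk2 h => ?_⟩
  · rw [wd_jump hS hloop h h', huc, hcz a b c d h h', Nat.add_zero]
  · have e := wd_hull hS hloop hLS h (H.edge k)
    rw [e, huc]
    have e2 : uc (arcL w j m) (w k) (w (k + 1)) = 0 := by
      have := count_arcL H hmn (j := j) (k := k + n) (by omega) (by omega)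
      rw [if_neg (by omega), H.per, show k + n + 1 = (k + 1) + n by ring, H.per] at this
      exact this
    rw [e2, Nat.add_zero]
  · have e := wd_hull hS hloop hLS h (H.edge k)
    rw [e, huc, count_arcL H hmn hk1 (by omega), if_pos (by omega)]
    push_cast
    ring


namespace SideF

variable {n : ℕ} {w : ℤ → ℂ} {l : List ℂ} {i j : ℤ} {s : ℂ × ℂ × ℂ → ZMod 2}

/-- no jump at an edge with a site off the chain -/
theorem cross (F : SideF S n w l i j s) {a b c d : ℂ} (h : (a, b, c) ∈ delT S)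
    (h' : (b, a, d) ∈ delT S) (hl : a ∉ l ∨ b ∉ l) : s (a, b, c) = s (b, a, d) := by
  have h1 := F.jump a b c d h h'
  have h2 : uc l a b = 0 := by
    rcases hl with hl | hl
    · exact uc_left hl
    · exact uc_right hl
  rw [h2, Nat.cast_zero] at h1
  have e : ∀ x y : ZMod 2, x + y = 0 → x = y := by decide
  exact e _ _ h1


/-- all triangles at a site off the chain are on the same side -/
theorem star (F : SideF S n w l i j s) (hS : GP (S : Set ℂ)) {v : ℂ} (hv : v ∉ l)
    {a b a' b' : ℂ} (h : (v, a, b) ∈ delT S) (h' : (v, a', b') ∈ delT S) :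
    s (v, a, b) = s (v, a', b') :=
  Sidex40.star hS F.rot (fun _ _ _ h1 h2 => F.cross h1 h2 (Or.inl hv)) h h'

/-- all triangles at two adjacent sites off the chain are on the same side -/
theorem adj (F : SideF S n w l i j s) (hS : GP (S : Set ℂ)) {u v : ℂ} (hu : u ∉ l) (hv : v ∉ l)
    (huv : JColx54.Adj S u v) {a b a' b' : ℂ} (h : (u, a, b) ∈ delT S) (h' : (v, a', b') ∈ delT S) :
    s (u, a, b) = s (v, a', b') := by
  rcases huv with ⟨c, hc⟩ | ⟨c, hc⟩
  · exact (F.star hS hu h hc).trans ((F.rot u v c).symm.trans (F.star hS hv (rot_mem hc) h'))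
  · exact (F.star hS hu h (rot_mem hc)).trans ((F.rot v u c).trans (F.star hS hv hc h'))




end SideF

/-! ### chains from paths -/


end Crest.Agent.R143.Sidex40
end
end

-- ▼ part R143/OrA_881
section

/-!
# Row 143 (S0194), R1g: closed polygons made of Delaunay edges and of outer segments (helper881)

* `Wl S K l` : closed chain, every edge is a Delaunay edge or does not meet the region `K`
* `comb_in`, `opn`, `vtx` : index in an open triangle inside `K`, at a vertex
* `jump` : jump of the index across an edge, points of `K` on both sides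
* `walk` : the index is constant along chains of Delaunay edges in `K` off `l`
* `fan` : two values around a site which is passed once
-/

set_option autoImplicit false

noncomputable section

open scoped Classical

namespace Crest.Agent.R143.OrAx881

open Crest.Agent.R143.B0x346 Crest.Agent.R143.DelGx806 Crest.Agent.R143.DelRx806
open Crest.Agent.R143.ToolWx838 Crest.Agent.R143.Blkx838 Crest.Agent.R143.ToolW3x838
open Crest.Agent.R143.Planarx54
open Crest.Agent.R143.Jumpx697 Crest.Agent.R143.Sidex40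

variable {S : Finset ℂ} {K : Set ℂ} {l : List ℂ}

/-- closed chain, every edge is a Delaunay edge or does not meet `K` -/
structure Wl (S : Finset ℂ) (K : Set ℂ) (l : List ℂ) : Prop where
  cl : l.head? = l.getLast?
  ed : ∀ p ∈ prs l, DE S p.1 p.2 ∨ ∀ z ∈ K, z ∉ segment ℝ p.1 p.2

/-! ### points of a triangle -/

theorem lft_comb {a b c : ℂ} (h : 0 < cr (b - a) (c - a)) {r s t : ℝ} (ht : 0 < t)
    (hst : r + s + t = 1) : Lft ((r : ℂ) * a + (s : ℂ) * b + (t : ℂ) * c) a b := by
  unfold Lft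
  rw [cr_sub] at h ⊢
  have hre : ((r : ℂ) * a + (s : ℂ) * b + (t : ℂ) * c).re = r * a.re + s * b.re + t * c.re := by
    simp
  have him : ((r : ℂ) * a + (s : ℂ) * b + (t : ℂ) * c).im = r * a.im + s * b.im + t * c.im := by
    simp
  rw [hre, him]
  have hr : r = 1 - s - t := by linarith
  have : (b.re - a.re) * (r * a.im + s * b.im + t * c.im - a.im) -
      (b.im - a.im) * (r * a.re + s * b.re + t * c.re - a.re) =
      t * ((b.re - a.re) * (c.im - a.im) - (b.im - a.im) * (c.re - a.re)) := by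
    subst hr; ring
  rw [this]
  positivity

/-- a convex combination with positive weights is in the open triangle -/
theorem comb_in {a b c x : ℂ} (h : (a, b, c) ∈ delT S) {r s t : ℝ} (hr : 0 < r) (hs : 0 < s)
    (ht : 0 < t) (hst : r + s + t = 1) (hx : x = (r : ℂ) * a + (s : ℂ) * b + (t : ℂ) * c) :
    InO x a b c := by
  obtain ⟨o, T⟩ := mem_delT_iff.1 h
  have hp := T.pos
  have hp2 : 0 < cr (c - b) (a - b) := by rw [← cr_rot]; exact hp
  have hp3 : 0 < cr (a - c) (b - c) := by rw [← cr_rot]; exact hp2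
  subst hx
  refine ⟨lft_comb hp ht hst, ?_, ?_⟩
  · have := lft_comb hp2 (r := s) (s := t) (t := r) hr (by linarith)
    rwa [show (s : ℂ) * b + (t : ℂ) * c + (r : ℂ) * a = (r : ℂ) * a + (s : ℂ) * b + (t : ℂ) * c by
      ring] at this
  · have := lft_comb hp3 (r := t) (s := r) (t := s) hs (by linarith)
    rwa [show (t : ℂ) * c + (r : ℂ) * a + (s : ℂ) * b = (r : ℂ) * a + (s : ℂ) * b + (t : ℂ) * c by
      ring] at this

/-- from a point of the open triangle towards a point of the closed triangle -/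
theorem InO.seg {a b c x y z : ℂ} (hx : InO x a b c) (hy : InT y a b c) {s t : ℝ} (hs : 0 < s)
    (ht : 0 ≤ t) (hst : s + t = 1) (hz : z = s • x + t • y) : InO z a b c := by
  have key : ∀ u v : ℂ, 0 < cr (v - u) (x - u) → 0 ≤ cr (v - u) (y - u) → Lft z u v := by
    intro u v h1 h2
    unfold Lft
    rw [cr_sub] at h1 h2 ⊢
    have hs' : s = 1 - t := by linarith
    have : (v.re - u.re) * (z.im - u.im) - (v.im - u.im) * (z.re - u.re)
        = s * ((v.re - u.re) * (x.im - u.im) - (v.im - u.im) * (x.re - u.re)) +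
          t * ((v.re - u.re) * (y.im - u.im) - (v.im - u.im) * (y.re - u.re)) := by
      subst hz
      subst hs'
      simp only [Complex.add_re, Complex.add_im, Complex.real_smul, Complex.mul_re, Complex.mul_im,
        Complex.ofReal_re, Complex.ofReal_im]
      ring
    rw [this]
    have := mul_pos hs h1
    have := mul_nonneg ht h2
    linarith
  exact ⟨key _ _ hx.1 hy.1, key _ _ hx.2.1 hy.2.1, key _ _ hx.2.2 hy.2.2⟩

theorem pos_of {a b c : ℂ} (h : (a, b, c) ∈ delT S) : 0 < cr (b - a) (c - a) :=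
  (mem_delT_iff.1 h).choose_spec.pos

/-- a vertex is in the closed triangle -/
theorem inT_vtx {a b c : ℂ} (h : (a, b, c) ∈ delT S) : InT a a b c := by
  have hp := pos_of h
  have hp2 : 0 < cr (c - b) (a - b) := by rw [← cr_rot]; exact hp
  refine ⟨?_, hp2.le, ?_⟩
  · simp [cr]
  · show 0 ≤ cr (a - c) (a - c)
    unfold cr; linarith [mul_comm (a - c).re (a - c).im]

/-- a point of the side is in the closed triangle -/
theorem inT_side {a b c : ℂ} (h : (a, b, c) ∈ delT S) {s t : ℝ} (hs : 0 ≤ s) (ht : 0 ≤ t)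
    (hst : s + t = 1) : InT ((s : ℂ) * a + (t : ℂ) * b) a b c := by
  have hp := pos_of h
  rw [cr_sub] at hp
  have hre : ((s : ℂ) * a + (t : ℂ) * b).re = s * a.re + t * b.re := by simp
  have him : ((s : ℂ) * a + (t : ℂ) * b).im = s * a.im + t * b.im := by simp
  have hs' : s = 1 - t := by linarith
  refine ⟨?_, ?_, ?_⟩
  · show 0 ≤ cr (b - a) (_ - a)
    rw [cr_sub, hre, him]
    have : (b.re - a.re) * (s * a.im + t * b.im - a.im) -
        (b.im - a.im) * (s * a.re + t * b.re - a.re) = 0 := by subst hs'; ring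
    rw [this]
  · show 0 ≤ cr (c - b) (_ - b)
    rw [cr_sub, hre, him]
    have : (c.re - b.re) * (s * a.im + t * b.im - b.im) -
        (c.im - b.im) * (s * a.re + t * b.re - b.re) =
        s * ((b.re - a.re) * (c.im - a.im) - (b.im - a.im) * (c.re - a.re)) := by subst hs'; ring
    rw [this]; positivity
  · show 0 ≤ cr (a - c) (_ - c)
    rw [cr_sub, hre, him]
    have : (a.re - c.re) * (s * a.im + t * b.im - c.im) -
        (a.im - c.im) * (s * a.re + t * b.re - c.re) =
        t * ((b.re - a.re) * (c.im - a.im) - (b.im - a.im) * (c.re - a.re)) := by subst hs'; ring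
    rw [this]; positivity

/-! ### constant index -/

theorem Wl.opn_off (hS : GP (S : Set ℂ)) (hl : Wl S K l) {a b c x : ℂ} (h : (a, b, c) ∈ delT S)
    (hx : InO x a b c) (kx : x ∈ K) : Off x l := fun p hp hseg => by
  rcases hl.ed p hp with hd | hd
  · exact edge_open hS h hx hd hseg
  · exact hd x kx hseg

/-- two points of the same open triangle -/
theorem Wl.opn (hS : GP (S : Set ℂ)) (hK : Convex ℝ K) (hl : Wl S K l) {a b c x y : ℂ}
    (h : (a, b, c) ∈ delT S) (hx : InO x a b c) (hy : InO y a b c) (kx : x ∈ K) (ky : y ∈ K) :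
    asum x l = asum y l := by
  refine asum_seg hl.cl fun z hz => ?_
  have kz : z ∈ K := hK.segment_subset kx ky hz
  obtain ⟨s, t, hs, ht, hst, rfl⟩ := hz
  refine hl.opn_off hS h ?_ kz
  rcases hs.lt_or_eq with hs | hs
  · exact InO.seg hx hy.inT hs ht hst rfl
  · have : t = 1 := by linarith
    rw [← hs, this, zero_smul, one_smul, zero_add]
    exact hy

/-- from the open triangle to a vertex which is not on the chain -/
theorem Wl.vtx (hS : GP (S : Set ℂ)) (hK : Convex ℝ K) (hl : Wl S K l) {a b c x : ℂ}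
    (h : (a, b, c) ∈ delT S) (hx : InO x a b c) (kx : x ∈ K) (ka : a ∈ K) (ha : a ∉ l) :
    asum x l = asum a l := by
  refine asum_seg hl.cl fun z hz => ?_
  have kz : z ∈ K := hK.segment_subset kx ka hz
  obtain ⟨s, t, hs, ht, hst, rfl⟩ := hz
  rcases hs.lt_or_eq with hs | hs
  · exact hl.opn_off hS h (InO.seg hx (inT_vtx h) hs ht hst rfl) kz
  · have h1 : t = 1 := by linarith
    rw [← hs, h1, zero_smul, one_smul, zero_add]
    intro p hp hseg
    rcases hl.ed p hp with hd | hd
    · rcases edge_vertex hS hd (mem_delT.1 h).1 hseg with e | e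
      · exact ha (e ▸ (mem_of_prs hp).1)
      · exact ha (e ▸ (mem_of_prs hp).2)
    · exact hd a ka hseg

/-- from the open triangle to a point of the side `(a, b)`, which is not used -/
theorem Wl.side (hS : GP (S : Set ℂ)) (hK : Convex ℝ K) (hl : Wl S K l) {a b c x m : ℂ}
    (h : (a, b, c) ∈ delT S) (hx : InO x a b c) (kx : x ∈ K) (km : m ∈ K) (hav : Avoid l (a, b))
    {s t : ℝ} (hs : 0 < s) (ht : 0 < t) (hst : s + t = 1) (hm : m = (s : ℂ) * a + (t : ℂ) * b) :
    asum x l = asum m l := by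
  refine asum_seg hl.cl fun z hz => ?_
  have kz : z ∈ K := hK.segment_subset kx km hz
  obtain ⟨s', t', hs', ht', hst', rfl⟩ := hz
  rcases hs'.lt_or_eq with hs' | hs'
  · refine hl.opn_off hS h (InO.seg hx ?_ hs' ht' hst' rfl) kz
    rw [hm]
    exact inT_side h hs.le ht.le hst
  · have h1 : t' = 1 := by linarith
    rw [← hs', h1, zero_smul, one_smul, zero_add]
    intro p hp hseg
    rcases hl.ed p hp with hd | hd
    · rcases edge_side hS (Or.inl ⟨c, h⟩) hs ht hst hm hd hseg with ⟨h1, h2⟩ | ⟨h1, h2⟩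
      · exact hav.1 (by rw [← h1, ← h2]; exact hp)
      · exact hav.2 (by rw [Prod.swap_prod_mk, ← h1, ← h2]; exact hp)
    · exact hd m km hseg

/-- the index is constant along a chain of Delaunay edges of `K` off `l` -/
theorem Wl.walk (hS : GP (S : Set ℂ)) (hK : Convex ℝ K) (hl : Wl S K l) {q : List ℂ} (hq : q ≠ [])
    (hd : ∀ p ∈ prs q, DE S p.1 p.2) (hk : ∀ s ∈ q, s ∈ K) (ho : ∀ s ∈ q, s ∉ l) :
    asum (q.head hq) l = asum (q.getLast hq) l := by
  refine asum_walk hl.cl hq fun p hp z hz r hr hseg => ?_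
  have m1 := mem_of_prs hp
  have m2 := mem_of_prs hr
  rcases hl.ed r hr with h | h
  · rcases edges_meet hS (hd p hp) h hz hseg with h | h | h | h
    · exact ho _ m1.1 (h ▸ m2.1)
    · exact ho _ m1.1 (h ▸ m2.2)
    · exact ho _ m1.2 (h ▸ m2.1)
    · exact ho _ m1.2 (h ▸ m2.2)
  · exact h z (hK.segment_subset (hk _ m1.1) (hk _ m1.2) hz) hseg

/-! ### jump -/

theorem Wl.det (hl : Wl S K l) {a b d : ℂ} (h' : (b, a, d) ∈ delT S) : Wl S K (det a b d l) := by
  refine ⟨by rw [det_head, det_last]; exact hl.cl, fun p hp => ?_⟩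
  rcases det_prs a b d l hp with h1 | rfl | rfl | rfl | rfl
  · exact hl.ed p h1.1
  · exact Or.inl (Or.inl ⟨b, rot_mem h'⟩)
  · exact Or.inl (Or.inr ⟨a, rot_mem (rot_mem h')⟩)
  · exact Or.inl (Or.inl ⟨a, rot_mem (rot_mem h')⟩)
  · exact Or.inl (Or.inr ⟨b, rot_mem h'⟩)

/-- **jump across an edge**, all points in `K` -/
theorem Wl.jump (hS : GP (S : Set ℂ)) (hK : Convex ℝ K) (hl : Wl S K l) {a b c d x y m : ℂ}
    (h : (a, b, c) ∈ delT S) (h' : (b, a, d) ∈ delT S) (hx : InO x a b c) (hy : InO y b a d)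
    (kx : x ∈ K) (ky : y ∈ K) (km : m ∈ K) {s t : ℝ} (hs : 0 < s) (ht : 0 < t) (hst : s + t = 1)
    (hm : m = (s : ℂ) * a + (t : ℂ) * b) :
    asum x l - asum y l = 2 * Real.pi * (((prs l).count (a, b) : ℝ) - (prs l).count (b, a)) := by
  obtain ⟨o, T⟩ := mem_delT_iff.1 h
  obtain ⟨o', T'⟩ := mem_delT_iff.1 h'
  have hab : a ≠ b := T.ne.1
  have hdL : Lft d b a := T'.pos
  have hl' := hl.det h'
  have had : a ≠ d := (T'.ne.2.1)
  have hbd : b ≠ d := T'.ne.2.2
  have hav : Avoid (Jumpx697.det a b d l) (a, b) := by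
    constructor
    · intro hp
      rcases det_prs a b d l hp with h1 | h1 | h1 | h1 | h1
      · exact h1.2.1 rfl
      · exact hbd (congrArg Prod.snd h1)
      · exact hab (congrArg Prod.fst h1)
      · exact had (congrArg Prod.fst h1)
      · exact had (congrArg Prod.fst h1)
    · intro hp
      rcases det_prs a b d l hp with h1 | h1 | h1 | h1 | h1
      · exact h1.2.2 rfl
      · exact had (congrArg Prod.snd h1)
      · exact had (congrArg Prod.snd h1)
      · exact hbd (congrArg Prod.fst h1)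
      · exact hbd (congrArg Prod.fst h1)
  have e1 : asum x (Jumpx697.det a b d l) = asum m (Jumpx697.det a b d l) :=
    hl'.side hS hK h hx kx km hav hs ht hst hm
  have e2 : asum y (Jumpx697.det a b d l) = asum m (Jumpx697.det a b d l) :=
    hl'.side hS hK h' hy ky km hav.swap ht hs (by linarith) (by rw [hm]; ring)
  have hxs : ∀ u v : ℂ, DE S u v → x ∉ segment ℝ u v := fun u v hd => edge_open hS h hx hd
  have hys : ∀ u v : ℂ, DE S u v → y ∉ segment ℝ u v := fun u v hd => edge_open hS h' hy hd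
  have dab : DE S a b := Or.inl ⟨c, h⟩
  have dad : DE S a d := Or.inl ⟨b, rot_mem h'⟩
  have ddb : DE S d b := Or.inl ⟨a, rot_mem (rot_mem h')⟩
  have X := ang_tri_out hx.1 hdL
  have Y := Planar2x54.ang_sum hy.1 hy.2.1 hy.2.2
  change ToolWx838.ang y b a + ToolWx838.ang y a d + ToolWx838.ang y d b = 2 * Real.pi at Y
  have xa := ang_comm (hxs a b dab)
  have xb := ang_comm (hxs a d dad)
  have xc := ang_comm (hxs d b ddb)
  have ya := ang_comm (hys a b dab)
  have yb := ang_comm (hys a d dad)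
  have yc := ang_comm (hys d b ddb)
  have k1 := det_asum (x := x) (d := d) hab (δ := 0) (δ' := 0) (by linarith) (by linarith) l
  have k2 := det_asum (x := y) (d := d) hab (δ := -(2 * Real.pi)) (δ' := 2 * Real.pi) (by linarith)
    (by linarith) l
  have : asum x l - asum y l = (asum x l - asum x (Jumpx697.det a b d l)) -
      (asum y l - asum y (Jumpx697.det a b d l)) := by rw [e1, e2]; ring
  rw [this, k1, k2]
  ring

/-! ### two values around a site -/

/-- the Delaunay triangulation -/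
def tg (S : Finset ℂ) (hS : GP (S : Set ℂ)) : Trg ℂ where
  T := delT S
  rot := fun h => rot_mem h
  uniq := fun h h' => (g1 S hS).2.1 _ _ _ _ h h'
  ne := fun h => (g1 S hS).2.2 _ _ _ h

/-- the point of the triangle `(y, a, b)` near `y` -/
def pz (y : ℂ) (t : ℝ) (a b : ℂ) : ℂ := y + t * ((a - y) + (b - y))

theorem pz_in {y a b : ℂ} (h : (y, a, b) ∈ delT S) {t : ℝ} (ht : 0 < t) (ht' : t < 1 / 2) :
    InO (pz y t a b) y a b := by
  refine comb_in h (r := 1 - 2 * t) (s := t) (t := t) (by linarith) ht ht (by ring) ?_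
  unfold pz; push_cast; ring

theorem small_t {y : ℂ} (hKo : IsOpen K) (ky : y ∈ K) (S : Finset ℂ) :
    ∃ t : ℝ, 0 < t ∧ t < 1 / 2 ∧ (∀ a ∈ S, ∀ b ∈ S, pz y t a b ∈ K) ∧
      ∀ a ∈ S, ((1 - t : ℝ) : ℂ) * y + (t : ℂ) * a ∈ K := by
  have e1 : ∀ a b : ℂ, ∀ᶠ t : ℝ in nhdsWithin 0 (Set.Ioi 0), pz y t a b ∈ K := by
    intro a b
    have hc : Continuous fun t : ℝ => pz y t a b := by unfold pz; fun_prop
    have h0 : pz y 0 a b ∈ K := by unfold pz; simpa using ky
    exact (hc.continuousAt.eventually (hKo.mem_nhds h0)).filter_mono nhdsWithin_le_nhds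
  have e2 : ∀ a : ℂ, ∀ᶠ t : ℝ in nhdsWithin 0 (Set.Ioi 0), ((1 - t : ℝ) : ℂ) * y + (t : ℂ) * a ∈ K := by
    intro a
    have hc : Continuous fun t : ℝ => ((1 - t : ℝ) : ℂ) * y + (t : ℂ) * a := by fun_prop
    have h0 : ((1 - (0 : ℝ) : ℝ) : ℂ) * y + ((0 : ℝ) : ℂ) * a ∈ K := by simpa using ky
    exact (hc.continuousAt.eventually (hKo.mem_nhds h0)).filter_mono nhdsWithin_le_nhds
  have e3 : ∀ᶠ t : ℝ in nhdsWithin 0 (Set.Ioi 0), ∀ a ∈ S, ∀ b ∈ S, pz y t a b ∈ K := by
    rw [Filter.eventually_all_finset]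
    intro a _
    rw [Filter.eventually_all_finset]
    exact fun b _ => e1 a b
  have e4 : ∀ᶠ t : ℝ in nhdsWithin 0 (Set.Ioi 0), ∀ a ∈ S, ((1 - t : ℝ) : ℂ) * y + (t : ℂ) * a ∈ K := by
    rw [Filter.eventually_all_finset]
    exact fun a _ => e2 a
  have e5 : ∀ᶠ t : ℝ in nhdsWithin 0 (Set.Ioi 0), t < 1 / 2 :=
    Filter.Eventually.filter_mono nhdsWithin_le_nhds (Iio_mem_nhds (by norm_num))
  have e6 : ∀ᶠ t : ℝ in nhdsWithin 0 (Set.Ioi 0), 0 < t := self_mem_nhdsWithin
  obtain ⟨t, h3, h4, h5, h6⟩ := (e3.and (e4.and (e5.and e6))).exists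
  exact ⟨t, h6, h5, h3, h4⟩

/-- **two values around a site which is passed once**, by `d1 → y → x` -/
theorem Wl.fan (hS : GP (S : Set ℂ)) (hK : Convex ℝ K) (hKo : IsOpen K) (hl : Wl S K l)
    {y x d1 c : ℂ} (ky : y ∈ K) (hy : ∀ a, ¬ hullE S a y) (hx : (y, x, c) ∈ delT S)
    (h1 : ∀ u, (y, u) ∈ prs l → u = x) (h3 : ∀ u, (u, y) ∈ prs l → u = d1)
    (h4 : (prs l).count (d1, y) = 1) {a b z z0 : ℂ} (ha : (y, a, b) ∈ delT S)
    (hz0 : InO z0 y x c) (kz0 : z0 ∈ K) (hz : InO z y a b) (kz : z ∈ K) :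
    asum z l = asum z0 l ∨ asum z l = asum z0 l - 2 * Real.pi := by
  obtain ⟨d, u, hR, h0, hall⟩ := ring_exists hS (mem_nbs.2 ⟨c, hx⟩) hy (G := tg S hS) rfl
  obtain ⟨t, ht0, ht1, htK, htm⟩ := small_t hKo ky S
  have tri : ∀ i : ℤ, (y, u i, u (i + 1)) ∈ delT S := fun i => hR.mem i
  have uS : ∀ i : ℤ, u i ∈ S := fun i => (mem_delT.1 (tri i)).2.1
  set g : ℤ → ℝ := fun i => asum (pz y t (u i) (u (i + 1))) l with hg
  have hin : ∀ i : ℤ, InO (pz y t (u i) (u (i + 1))) y (u i) (u (i + 1)) := fun i =>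
    pz_in (tri i) ht0 ht1
  have hKi : ∀ i : ℤ, pz y t (u i) (u (i + 1)) ∈ K := fun i => htK _ (uS i) _ (uS _)
  have step : ∀ i : ℤ, g (i + 1) - g i =
      2 * Real.pi * (((prs l).count (y, u (i + 1)) : ℝ) - (prs l).count (u (i + 1), y)) := by
    intro i
    have t1 := tri (i + 1)
    have t2 : (u (i + 1), y, u i) ∈ delT S := rot_mem (rot_mem (tri i))
    refine hl.jump hS hK t1 t2 (hin (i + 1)) ?_ (hKi _) (hKi _) (htm _ (uS (i + 1)))
      (s := 1 - t) (t := t) (by linarith) ht0 (by ring) rfl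
    refine comb_in t2 (r := t) (s := 1 - 2 * t) (t := t) ht0 (by linarith) ht0 (by ring) ?_
    unfold pz; push_cast; ring
  have key : ∀ n : ℕ, n < d →
      ((∀ k : ℕ, 0 < k → k ≤ n → u k ≠ d1) ∧ g n = g 0) ∨
        ((∃ k : ℕ, 0 < k ∧ k ≤ n ∧ u k = d1) ∧ g n = g 0 - 2 * Real.pi) := by
    intro n
    induction n with
    | zero =>
      intro _
      left
      exact ⟨fun k h h' => absurd h' (by omega), rfl⟩
    | succ n ih =>
      intro hn
      have s1 := step n
      have c1 : (prs l).count (y, u ((n : ℤ) + 1)) = 0 := by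
        rw [List.count_eq_zero]
        intro hm
        have e := h1 _ hm
        rw [← h0] at e
        have := hR.inj ((n : ℤ) + 1) 0 (by omega) (by omega) le_rfl (by omega) e
        omega
      have en : ((n + 1 : ℕ) : ℤ) = (n : ℤ) + 1 := by push_cast; rfl
      rw [c1] at s1
      by_cases hd : u ((n : ℤ) + 1) = d1
      · rw [hd, h4] at s1
        rcases ih (by omega) with ⟨i1, i2⟩ | ⟨⟨k, k1, k2, k3⟩, i2⟩
        · right
          refine ⟨⟨n + 1, by omega, le_rfl, by rw [en]; exact hd⟩, ?_⟩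
          rw [en]
          rw [i2] at s1
          push_cast at s1
          linarith
        · exfalso
          have := hR.inj ((n : ℤ) + 1) k (by omega) (by omega) (by omega) (by omega)
            (by rw [hd, k3])
          omega
      · have c2 : (prs l).count (u ((n : ℤ) + 1), y) = 0 := by
          rw [List.count_eq_zero]
          intro hm
          exact hd (h3 _ hm)
        rw [c2] at s1
        have s2 : g ((n + 1 : ℕ) : ℤ) = g n := by
          rw [en]
          push_cast at s1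
          linarith
        rcases ih (by omega) with ⟨i1, i2⟩ | ⟨⟨k, k1, k2, k3⟩, i2⟩
        · left
          refine ⟨fun k h h' => ?_, by rw [s2, i2]⟩
          rcases Nat.lt_or_ge k (n + 1) with hk | hk
          · exact i1 k h (by omega)
          · have : k = n + 1 := by omega
            subst this
            rw [en]; exact hd
        · right
          exact ⟨⟨k, k1, by omega, k3⟩, by rw [s2, i2]⟩
  -- the triangle `(y, a, b)`
  obtain ⟨i, hi1, hi2⟩ := hall a b ha
  have hn : ∃ n : ℕ, n < d ∧ u n = a ∧ u (n + 1) = b := by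
    have hd : (0 : ℤ) < d := by exact_mod_cast hR.pos
    have e2 : u (i % d) = u i := mod_per hR.pos hR.per i
    have e3 : u (i % d + 1) = u (i + 1) := by
      rw [← mod_per hR.pos hR.per (i % d + 1), ← mod_per hR.pos hR.per (i + 1)]
      congr 1
      rw [Int.emod_add_emod]
    obtain ⟨n, hn⟩ := Int.eq_ofNat_of_zero_le (Int.emod_nonneg i hd.ne')
    have hlt := Int.emod_lt_of_pos i hd
    refine ⟨n, by omega, ?_, ?_⟩
    · rw [← hi1, ← e2, hn]
    · rw [← hi2, ← e3, hn]
  obtain ⟨n, hnd, hn1, hn2⟩ := hn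
  have ez : asum z l = g n := by
    refine hl.opn hS hK ha hz ?_ kz (hKi n)
    rw [hn1, hn2]
    exact pz_in ha ht0 ht1
  have ez0 : asum z0 l = g 0 := by
    have h5 := tri 0
    rw [h0, zero_add] at h5
    have ec : u 1 = c := (g1 S hS).2.1 _ _ _ _ h5 hx
    refine hl.opn hS hK hx hz0 ?_ kz0 (hKi 0)
    rw [h0, zero_add, ec]
    exact pz_in hx ht0 ht1
  rw [ez, ez0]
  rcases key n hnd with h | h
  · exact Or.inl h.2
  · exact Or.inr h.2

end Crest.Agent.R143.OrAx881
end
end

-- ▼ part R143/Orient_881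
section

/-!
# Row 143 (S0194), R1g: ORIENTATION at one wall (helper881)

Neck `up, y, dn` in the window `a0 < X < a1` between the levels `b0`, `b1`, `x` = last site of `up`
(white, above `y`), black arms from `y` to `X ≤ c0` and to `a1 ≤ X` inside the strip, `R` a region of the
strip with `c0 < X` : **the walk from the state `(y, x)` does not arrive inside `R` in a state with its
left site in `a1 ≤ X`** (the loop with black on the left passes the gate towards decreasing `X`).

* `wall_Wl`, `wall_east`, `wall_west` : closed vertical polygon, index `0` in the east, `2 π` in the west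
* `side` : the face to the left of `y → x` is in the west
* `orient_nx`, **`orient`** (117's `FA`)
-/

set_option autoImplicit false

noncomputable section

open scoped Classical

namespace Crest.Agent.R143.Orientx881

open Crest.Agent.R143.B0x346 Crest.Agent.R143.DelGx806 Crest.Agent.R143.DelRx806
open Crest.Agent.R143.ToolWx838 Crest.Agent.R143.Blkx838 Crest.Agent.R143.ToolW2x838
open Crest.Agent.R143.ToolW3x838 Crest.Agent.R143.Circ4x838
open Crest.Agent.R143.Gatex838
open Crest.Agent.R143.Neckx921 Crest.Agent.R143.OrAx881 Crest.Agent.R143.Sidex40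
open Crest.Agent.R143.Frame10x395 Crest.Agent.R143.WLocx713 Crest.Agent.R143.Splx117
open Crest.Agent.R143.Frame5x395 (sd mem_sd th th_spec)

variable {S V β : Finset ℂ} {z0 e : ℂ} {a0 a1 b0 b1 m κ : ℝ} {χ : ℂ → ZMod 2}

/-! ### coordinates -/

theorem X_comb (z0 e : ℂ) {u v : ℂ} {s t : ℝ} (h : s + t = 1) :
    X z0 e (s • u + t • v) = s * X z0 e u + t * X z0 e v := by
  unfold X
  have h' : (s : ℂ) + (t : ℂ) = 1 := by exact_mod_cast h
  have : (s • u + t • v - z0) / e = (s : ℂ) * ((u - z0) / e) + (t : ℂ) * ((v - z0) / e) := by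
    rw [Complex.real_smul, Complex.real_smul]
    linear_combination (z0 / e) * h'
  rw [this, Complex.add_re, Complex.re_ofReal_mul, Complex.re_ofReal_mul]

theorem Y_comb (z0 e : ℂ) {u v : ℂ} {s t : ℝ} (h : s + t = 1) :
    Y z0 e (s • u + t • v) = s * Y z0 e u + t * Y z0 e v := by
  unfold Y
  have h' : (s : ℂ) + (t : ℂ) = 1 := by exact_mod_cast h
  have : (s • u + t • v - z0) / e = (s : ℂ) * ((u - z0) / e) + (t : ℂ) * ((v - z0) / e) := by
    rw [Complex.real_smul, Complex.real_smul]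
    linear_combination (z0 / e) * h'
  rw [this, Complex.add_im, Complex.im_ofReal_mul, Complex.im_ofReal_mul]

/-- half strip -/
def Kr (z0 e : ℂ) (κ b0 b1 : ℝ) : Set ℂ := {z | κ < X z0 e z ∧ b0 < Y z0 e z ∧ Y z0 e z < b1}

theorem Kr_convex (z0 e : ℂ) (κ b0 b1 : ℝ) : Convex ℝ (Kr z0 e κ b0 b1) := by
  intro u hu v hv s t hs ht hst
  obtain ⟨u1, u2, u3⟩ := hu
  obtain ⟨v1, v2, v3⟩ := hv
  have hx := X_comb z0 e (u := u) (v := v) hst
  have hy := Y_comb z0 e (u := u) (v := v) hst
  have hs' : s = 1 - t := by linarith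
  refine ⟨?_, ?_, ?_⟩
  · rw [hx]; subst hs'
    rcases ht.lt_or_eq with h | h
    · nlinarith
    · rw [← h]; linarith
  · rw [hy]; subst hs'
    rcases ht.lt_or_eq with h | h
    · nlinarith
    · rw [← h]; linarith
  · rw [hy]; subst hs'
    rcases ht.lt_or_eq with h | h
    · nlinarith
    · rw [← h]; linarith

theorem Kr_open (z0 e : ℂ) (κ b0 b1 : ℝ) : IsOpen (Kr z0 e κ b0 b1) := by
  have hX : Continuous fun z => X z0 e z := by unfold X; fun_prop
  have hY : Continuous fun z => Y z0 e z := by unfold Y; fun_prop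
  exact (isOpen_lt continuous_const hX).inter
    ((isOpen_lt continuous_const hY).inter (isOpen_lt hY continuous_const))

/-- the point with the coordinates `p`, `q` -/
def crn (z0 e : ℂ) (p q : ℝ) : ℂ := z0 + e * ⟨p, q⟩

theorem crn_X (he : e ≠ 0) (p q : ℝ) : X z0 e (crn z0 e p q) = p := by
  unfold X crn
  rw [add_sub_cancel_left, mul_div_cancel_left₀ _ he]

theorem crn_Y (he : e ≠ 0) (p q : ℝ) : Y z0 e (crn z0 e p q) = q := by
  unfold Y crn
  rw [add_sub_cancel_left, mul_div_cancel_left₀ _ he]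

theorem ang_map (he : e ≠ 0) (z0 x a b : ℂ) :
    ang ((x - z0) / e) ((a - z0) / e) ((b - z0) / e) = ang x a b := by
  unfold ang
  congr 1
  have h1 : (b - z0) / e - (x - z0) / e = (b - x) / e := by ring
  have h2 : (a - z0) / e - (x - z0) / e = (a - x) / e := by ring
  rw [h1, h2, div_div_div_cancel_right₀ he]

theorem asum_map (he : e ≠ 0) (z0 x : ℂ) (l : List ℂ) :
    asum ((x - z0) / e) (l.map fun s => (s - z0) / e) = asum x l := by
  induction l with
  | nil => rfl
  | cons a l ih =>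
    cases l with
    | nil => rfl
    | cons b l =>
      rw [List.map_cons] at ih
      rw [List.map_cons, List.map_cons, asum_cons, asum_cons, ang_map he, ih]

theorem glue_e {z s1 s2 s3 s4 : ℂ} (he : e ≠ 0) {mT mL mB mR : List ℂ}
    (hT1 : mT.head? = some s1) (hT2 : mT.getLast? = some s2) (hL1 : mL.head? = some s2)
    (hL2 : mL.getLast? = some s3) (hB1 : mB.head? = some s3) (hB2 : mB.getLast? = some s4)
    (hR1 : mR.head? = some s4) (hR2 : mR.getLast? = some s1)
    (hT : ∀ s ∈ mT, Y z0 e z < Y z0 e s) (hL : ∀ s ∈ mL, X z0 e s < X z0 e z)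
    (hB : ∀ s ∈ mB, Y z0 e s < Y z0 e z) (hR : ∀ s ∈ mR, X z0 e z < X z0 e s) :
    asum z mT + asum z mL + asum z mB + asum z mR = 2 * Real.pi := by
  set f : ℂ → ℂ := fun s => (s - z0) / e with hf
  have hh : ∀ {m : List ℂ} {a : ℂ}, m.head? = some a → (m.map f).head? = some (f a) := by
    intro m a h
    rw [List.head?_map, h]; rfl
  have hl : ∀ {m : List ℂ} {a : ℂ}, m.getLast? = some a → (m.map f).getLast? = some (f a) := by
    intro m a h
    rw [List.getLast?_map, h]; rfl
  have key := asum_glue (z := f z) (hh hT1) (hl hT2) (hh hL1) (hl hL2) (hh hB1) (hl hB2) (hh hR1)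
    (hl hR2)
    (by
      intro s hs
      rw [List.mem_map] at hs
      obtain ⟨b, hb, rfl⟩ := hs
      exact hT b hb)
    (by
      intro s hs
      rw [List.mem_map] at hs
      obtain ⟨b, hb, rfl⟩ := hs
      exact hL b hb)
    (by
      intro s hs
      rw [List.mem_map] at hs
      obtain ⟨b, hb, rfl⟩ := hs
      exact hB b hb)
    (by
      intro s hs
      rw [List.mem_map] at hs
      obtain ⟨b, hb, rfl⟩ := hs
      exact hR b hb)
  rw [asum_map he z0 z mT, asum_map he z0 z mL, asum_map he z0 z mB, asum_map he z0 z mR] at key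
  exact key

/-! ### lists -/

/-- a site which is passed once -/
theorem once {l1 l2 : List ℂ} {d1 y x : ℂ} (h1 : y ∉ l1 ++ [d1]) (h2 : y ∉ x :: l2) :
    (∀ u, (y, u) ∈ prs (l1 ++ d1 :: y :: x :: l2) → u = x) ∧
      (∀ u, (u, y) ∈ prs (l1 ++ d1 :: y :: x :: l2) → u = d1) ∧
      (prs (l1 ++ d1 :: y :: x :: l2)).count (d1, y) = 1 := by
  have e : prs (l1 ++ d1 :: y :: x :: l2) =
      prs (l1 ++ [d1]) ++ (d1, y) :: (y, x) :: prs (x :: l2) := by
    rw [prs_append, prs_cons, prs_cons]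
  have n1 : d1 ≠ y := by
    rintro rfl
    exact h1 (by simp)
  have n2 : x ≠ y := by
    rintro rfl
    exact h2 (by simp)
  refine ⟨fun u hu => ?_, fun u hu => ?_, ?_⟩
  · rw [e, List.mem_append, List.mem_cons, List.mem_cons] at hu
    rcases hu with hu | hu | hu | hu
    · exact absurd (mem_of_prs hu).1 h1
    · exact absurd (congrArg Prod.fst hu).symm n1
    · exact congrArg Prod.snd hu
    · exact absurd (mem_of_prs hu).1 h2
  · rw [e, List.mem_append, List.mem_cons, List.mem_cons] at hu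
    rcases hu with hu | hu | hu | hu
    · exact absurd (mem_of_prs hu).2 h1
    · exact congrArg Prod.fst hu
    · exact absurd (congrArg Prod.snd hu).symm n2
    · exact absurd (mem_of_prs hu).2 h2
  · rw [e, List.count_append, List.count_cons_self, List.count_cons_of_ne]
    · rw [List.count_eq_zero.2 fun hu => h1 (mem_of_prs hu).2,
        List.count_eq_zero.2 fun hu => h2 (mem_of_prs hu).2]
    · intro hu
      exact n1 (congrArg Prod.fst hu).symm

/-- the part of a chain after the last passage of `y` -/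
theorem last_part {P : List ℂ} {y : ℂ} (hP : P ≠ []) (h0 : y ∈ P) (h1 : P.getLast hP ≠ y) :
    ∃ A q, P = A ++ y :: q ∧ y ∉ q ∧ q ≠ [] := by
  obtain ⟨as, bs, h2, h3⟩ := List.eq_append_cons_of_mem (List.mem_reverse.2 h0)
  have h4 : P = bs.reverse ++ y :: as.reverse := by
    have := congrArg List.reverse h2
    rw [List.reverse_reverse] at this
    rw [this]; simp
  refine ⟨bs.reverse, as.reverse, h4, by simpa using h3, ?_⟩
  intro hn
  apply h1
  subst h4
  simp [hn]

/-- a link as a list -/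
theorem lk_to_list {A : Set ℂ} {u v : ℂ} (h : Lk S A u v) :
    ∃ l : List ℂ, ∃ hl : l ≠ [], l.head hl = u ∧ l.getLast hl = v ∧ (∀ p ∈ prs l, DE S p.1 p.2) ∧
      ∀ s ∈ l, s ∈ A := by
  obtain ⟨⟨hu, hv⟩, h⟩ := h
  induction h using Relation.ReflTransGen.head_induction_on with
  | refl => exact ⟨[v], by simp, rfl, rfl, by simp, by simpa using hv⟩
  | head h1 h2 ih =>
    rename_i a c
    obtain ⟨l, hl, h3, h4, h5, h6⟩ := ih h1.2.2
    obtain ⟨c', l', rfl⟩ := List.exists_cons_of_ne_nil hl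
    rw [List.head_cons] at h3
    subst h3
    refine ⟨a :: c' :: l', by simp, rfl, by rw [List.getLast_cons hl]; exact h4, ?_, ?_⟩
    · intro p hp
      rw [prs_cons] at hp
      rcases List.mem_cons.1 hp with rfl | hp
      · exact h1.1
      · exact h5 p hp
    · intro s hs
      rcases List.mem_cons.1 hs with rfl | hs
      · exact hu
      · exact h6 s hs

/-! ### the wall -/

/-- the closed vertical polygon, upwards, closed in the west -/
def wall (z0 e : ℂ) (κ b0 b1 : ℝ) (up : List ℂ) (y : ℂ) (dn : List ℂ) (nd : dn ≠ []) : List ℂ :=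
  (up ++ y :: dn).reverse ++ [crn z0 e κ b1, crn z0 e κ b0, dn.getLast nd]

variable {up dn : List ℂ} {y : ℂ}

theorem rev_head (h : Neck S z0 e a0 a1 b0 b1 m V β up y dn) :
    (up ++ y :: dn).reverse.head? = some (dn.getLast h.nd) := by
  rw [List.head?_reverse, List.getLast?_append_cons, List.getLast?_cons]
  rw [List.getLast?_eq_some_getLast h.nd]; rfl

theorem rev_last (h : Neck S z0 e a0 a1 b0 b1 m V β up y dn) :
    (up ++ y :: dn).reverse.getLast? = some (up.head h.nu) := by
  rw [List.getLast?_reverse, List.head?_append_of_ne_nil _ h.nu, List.head?_eq_some_head h.nu]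

/-- the polygon as a closed chain -/
theorem wall_Wl (h : Neck S z0 e a0 a1 b0 b1 m V β up y dn) (he : e ≠ 0) :
    Wl S (Kr z0 e κ b0 b1) (wall z0 e κ b0 b1 up y dn h.nd) := by
  constructor
  · unfold wall
    rw [List.head?_append_of_ne_nil _ (by simp), rev_head h,
      List.getLast?_append_of_ne_nil _ (by simp)]
    rfl
  · intro p hp
    unfold wall at hp
    set r := (up ++ y :: dn).reverse with hr
    have hrn : r ≠ [] := by rw [hr]; simp
    have hlast : r.getLast hrn = up.head h.nu := by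
      have := rev_last h
      rw [← hr, List.getLast?_eq_some_getLast hrn] at this
      exact Option.some.inj this
    have e1 : r = r.dropLast ++ [up.head h.nu] := by
      rw [← hlast, List.dropLast_append_getLast hrn]
    have e2 : prs (r ++ [crn z0 e κ b1, crn z0 e κ b0, dn.getLast h.nd]) = prs r ++
        [(up.head h.nu, crn z0 e κ b1), (crn z0 e κ b1, crn z0 e κ b0),
          (crn z0 e κ b0, dn.getLast h.nd)] := by
      rw [e1, List.append_assoc, List.singleton_append, prs_append]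
      simp
    rw [e2, List.mem_append] at hp
    rcases hp with hp | hp
    · left
      rw [hr, prs_reverse, List.mem_reverse, List.mem_map] at hp
      obtain ⟨q, hq, rfl⟩ := hp
      exact (h.adj q hq).symm
    · right
      intro z hz hseg
      obtain ⟨z1, z2, z3⟩ := hz
      simp only [List.mem_cons, List.not_mem_nil, or_false] at hp
      rcases hp with rfl | rfl | rfl
      · obtain ⟨s, t, hs, ht, hst, rfl⟩ := hseg
        rw [Y_comb z0 e hst] at z3
        simp only [crn_Y he] at z3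
        have := h.top
        have hs' : s = 1 - t := by linarith
        subst hs'
        nlinarith
      · obtain ⟨s, t, hs, ht, hst, rfl⟩ := hseg
        rw [X_comb z0 e hst] at z1
        simp only [crn_X he] at z1
        have hs' : s = 1 - t := by linarith
        subst hs'
        linarith
      · obtain ⟨s, t, hs, ht, hst, rfl⟩ := hseg
        rw [Y_comb z0 e hst] at z2
        simp only [crn_Y he] at z2
        have := h.bot
        have hs' : s = 1 - t := by linarith
        subst hs'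
        nlinarith

theorem wall_mem {nd : dn ≠ []} {s : ℂ} (hs : s ∈ wall z0 e κ b0 b1 up y dn nd) :
    s ∈ up ++ y :: dn ∨ s = crn z0 e κ b1 ∨ s = crn z0 e κ b0 := by
  unfold wall at hs
  rw [List.mem_append, List.mem_reverse] at hs
  rcases hs with hs | hs
  · exact Or.inl hs
  · simp only [List.mem_cons, List.not_mem_nil, or_false] at hs
    rcases hs with rfl | rfl | rfl
    · exact Or.inr (Or.inl rfl)
    · exact Or.inr (Or.inr rfl)
    · left
      have := List.getLast_mem nd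
      simp [this]

/-- no index in the east -/
theorem wall_east (h : Neck S z0 e a0 a1 b0 b1 m V β up y dn) (he : e ≠ 0) (hκ : κ < a0) {z : ℂ}
    (hz : a1 ≤ X z0 e z) : asum z (wall z0 e κ b0 b1 up y dn h.nd) = 0 := by
  have h01 : a0 < a1 := by
    have := (h.win y (by simp)).1
    linarith
  refine asum_half_closed (u := -e) (wall_Wl (κ := κ) h he).cl fun a ha => ?_
  have e1 : ((a - z) / (-e)).re = X z0 e z - X z0 e a := by
    unfold X
    have : (a - z) / (-e) = (z - z0) / e - (a - z0) / e := by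
      rw [div_neg]; ring
    rw [this, Complex.sub_re]
  rw [e1]
  rcases wall_mem ha with hs | rfl | rfl
  · have := (h.win a hs).1
    linarith
  · rw [crn_X he]; linarith
  · rw [crn_X he]; linarith

/-- index one in the west -/
theorem wall_west (h : Neck S z0 e a0 a1 b0 b1 m V β up y dn) (he : e ≠ 0) {z : ℂ}
    (hz : z ∈ Kr z0 e κ b0 b1) (hz0 : X z0 e z ≤ a0) :
    asum z (wall z0 e κ b0 b1 up y dn h.nd) = 2 * Real.pi := by
  obtain ⟨z1, z2, z3⟩ := hz
  set r := (up ++ y :: dn).reverse with hr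
  have hrn : r ≠ [] := by rw [hr]; simp
  have hrl := rev_last h
  have hrh := rev_head h
  rw [← hr] at hrl hrh
  have hlast : r.getLast hrn = up.head h.nu := by
    rw [List.getLast?_eq_some_getLast hrn] at hrl
    exact Option.some.inj hrl
  have e1 : r = r.dropLast ++ [up.head h.nu] := by
    rw [← hlast, List.dropLast_append_getLast hrn]
  have key := glue_e (z0 := z0) (z := z) he (s1 := up.head h.nu) (s2 := crn z0 e κ b1)
    (s3 := crn z0 e κ b0) (s4 := dn.getLast h.nd) (mT := [up.head h.nu, crn z0 e κ b1])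
    (mL := [crn z0 e κ b1, crn z0 e κ b0]) (mB := [crn z0 e κ b0, dn.getLast h.nd]) (mR := r)
    rfl rfl rfl rfl rfl rfl hrh hrl
    (by
      intro s hs
      simp only [List.mem_cons, List.not_mem_nil, or_false] at hs
      rcases hs with rfl | rfl
      · have := h.top; linarith
      · rw [crn_Y he]; exact z3)
    (by
      intro s hs
      simp only [List.mem_cons, List.not_mem_nil, or_false] at hs
      rcases hs with rfl | rfl
      · rw [crn_X he]; exact z1
      · rw [crn_X he]; exact z1)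
    (by
      intro s hs
      simp only [List.mem_cons, List.not_mem_nil, or_false] at hs
      rcases hs with rfl | rfl
      · rw [crn_Y he]; exact z2
      · have := h.bot; linarith)
    (by
      intro s hs
      rw [hr, List.mem_reverse] at hs
      have := (h.win s hs).1
      linarith)
  unfold wall
  rw [← hr]
  have e2 : asum z (r ++ [crn z0 e κ b1, crn z0 e κ b0, dn.getLast h.nd]) =
      asum z r + (asum z [up.head h.nu, crn z0 e κ b1] + asum z [crn z0 e κ b1, crn z0 e κ b0] +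
        asum z [crn z0 e κ b0, dn.getLast h.nd]) := by
    conv_lhs => rw [e1, List.append_assoc, List.singleton_append, asum_append]
    rw [← e1]
    simp only [asum_cons, asum_one]
    ring
  rw [e2]
  linarith

/-- colours of the sites of the wall: in the strip only `y` has its colour -/
theorem wall_col (h : Neck S z0 e a0 a1 b0 b1 m V β up y dn) (he : e ≠ 0)
    (hc : ∀ s ∈ V, (χ s = χ y ↔ s ∈ β)) {s : ℂ} (hs : s ∈ wall z0 e κ b0 b1 up y dn h.nd)
    (hK : s ∈ Kr z0 e κ b0 b1) (hs' : χ s = χ y) : s = y := by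
  obtain ⟨z1, z2, z3⟩ := hK
  rcases wall_mem hs with hs | rfl | rfl
  · rw [List.mem_append, List.mem_cons] at hs
    rcases hs with hs | hs | hs
    · exact absurd ((hc s (h.cu s hs).1).1 hs') (h.cu s hs).2
    · exact hs
    · exact absurd ((hc s (h.cd s hs z2).1).1 hs') (h.cd s hs z2).2
  · rw [crn_Y he] at z3; exact absurd z3 (lt_irrefl _)
  · rw [crn_X he] at z1; exact absurd z1 (lt_irrefl _)

/-- the form of the wall around `y` -/
theorem wall_form (h : Neck S z0 e a0 a1 b0 b1 m V β up y dn) (he : e ≠ 0)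
    (hc : ∀ s ∈ V, (χ s = χ y ↔ s ∈ β)) :
    ∃ l1 l2, wall z0 e κ b0 b1 up y dn h.nd = l1 ++ dn.head h.nd :: y :: up.getLast h.nu :: l2 ∧
      y ∉ l1 ++ [dn.head h.nd] ∧ y ∉ up.getLast h.nu :: l2 := by
  have hup : y ∉ up := fun hm => (h.cu y hm).2 ((hc y (h.cu y hm).1).1 rfl)
  have hdn : y ∉ dn := fun hm => (h.cd y hm h.yb.1).2 ((hc y (h.cd y hm h.yb.1).1).1 rfl)
  have hC : y ≠ crn z0 e κ b1 := by
    intro hh
    have := h.yb.2
    rw [hh, crn_Y he] at this
    exact lt_irrefl _ this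
  have hB : y ≠ crn z0 e κ b0 := by
    intro hh
    have := h.yb.1
    rw [hh, crn_Y he] at this
    exact lt_irrefl _ this
  have hbt : y ≠ dn.getLast h.nd := fun hh => hdn (by
    have := List.getLast_mem h.nd
    rwa [← hh] at this)
  have e1 : up = up.dropLast ++ [up.getLast h.nu] := (List.dropLast_append_getLast h.nu).symm
  have e2 : dn = dn.head h.nd :: dn.tail := (List.cons_head_tail h.nd).symm
  refine ⟨dn.tail.reverse, up.dropLast.reverse ++ [crn z0 e κ b1, crn z0 e κ b0,
    dn.getLast h.nd], ?_, ?_, ?_⟩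
  · unfold wall
    have e4 : ∀ (a b : ℂ) (u d : List ℂ), up = u ++ [a] → dn = b :: d →
        (up ++ y :: dn).reverse = d.reverse ++ b :: y :: a :: u.reverse := by
      rintro a b u d rfl rfl
      simp
    rw [e4 _ _ _ _ e1 e2]
    simp
  · intro hm
    apply hdn
    simp only [List.mem_append, List.mem_reverse, List.mem_singleton] at hm
    rcases hm with hm | hm
    · exact List.mem_of_mem_tail hm
    · rw [hm]; exact List.head_mem h.nd
  · intro hm
    simp only [List.mem_cons, List.mem_append, List.mem_reverse, List.not_mem_nil, or_false] at hm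
    rcases hm with hm | hm | hm | hm | hm
    · exact hup (by rw [hm]; exact List.getLast_mem h.nu)
    · exact hup (List.dropLast_subset _ hm)
    · exact hC hm
    · exact hB hm
    · exact hbt hm

/-- one step of an arm and the index at its end -/
theorem arm_end (hS : GP (S : Set ℂ)) (h : Neck S z0 e a0 a1 b0 b1 m V β up y dn) (he : e ≠ 0)
    (hc : ∀ s ∈ V, (χ s = χ y ↔ s ∈ β)) (hy : ∀ a, ¬ hullE S a y) {P : List ℂ} (hP : P ≠ [])
    (hd : ∀ p ∈ prs P, DE S p.1 p.2) (h0 : P.head hP = y) (h1 : P.getLast hP ≠ y)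
    (hcol : ∀ s ∈ P, χ s = χ y) (hK : ∀ s ∈ P, s ∈ Kr z0 e κ b0 b1) :
    ∃ p1 b, (y, p1, b) ∈ delT S ∧ p1 ∈ Kr z0 e κ b0 b1 ∧
      p1 ∉ wall z0 e κ b0 b1 up y dn h.nd ∧
      asum p1 (wall z0 e κ b0 b1 up y dn h.nd) =
        asum (P.getLast hP) (wall z0 e κ b0 b1 up y dn h.nd) := by
  obtain ⟨A, q, hAq, hyq, hq⟩ := last_part hP (h0 ▸ List.head_mem hP) h1
  have hsub : ∀ s ∈ q, s ∈ P := fun s hs => by rw [hAq]; simp [hs]
  have hprs : prs P = prs (A ++ [y]) ++ prs (y :: q) := by rw [hAq, prs_append]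
  obtain ⟨p1, q', rfl⟩ := List.exists_cons_of_ne_nil hq
  have hoff : ∀ s ∈ p1 :: q', s ∉ wall z0 e κ b0 b1 up y dn h.nd := by
    intro s hs hw
    have := wall_col h he hc hw (hK s (hsub s hs)) (hcol s (hsub s hs))
    exact hyq (this ▸ hs)
  have hD : DE S y p1 := hd (y, p1) (by rw [hprs, prs_cons]; simp)
  have htri : ∃ b, (y, p1, b) ∈ delT S := by
    rcases hD with hD | ⟨b, hD⟩
    · exact hD
    · by_contra hn
      push Not at hn
      exact hy p1 ⟨⟨b, hD⟩, hn⟩
  obtain ⟨b, hb⟩ := htri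
  refine ⟨p1, b, hb, hK p1 (hsub p1 (by simp)), hoff p1 (by simp), ?_⟩
  have hw := (wall_Wl (κ := κ) h he).walk hS (Kr_convex _ _ _ _ _) (q := p1 :: q') (by simp)
    (fun p hp => hd p (by
      rw [hprs, prs_cons]
      exact List.mem_append_right _ (List.mem_cons_of_mem _ hp)))
    (fun s hs => hK s (hsub s hs)) hoff
  rw [List.head_cons] at hw
  rw [hw]
  congr 1
  subst hAq
  simp

/-- **the face to the left of `y → x` is in the west** -/
theorem side (hS : GP (S : Set ℂ)) (h : Neck S z0 e a0 a1 b0 b1 m V β up y dn) (he : e ≠ 0)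
    (hκ : κ < a0) (hc : ∀ s ∈ V, (χ s = χ y ↔ s ∈ β)) (hy : ∀ a, ¬ hullE S a y)
    {P : List ℂ} (hP : P ≠ []) (hd : ∀ p ∈ prs P, DE S p.1 p.2) (h0 : P.head hP = y)
    (h1 : X z0 e (P.getLast hP) ≤ a0) (hcol : ∀ s ∈ P, χ s = χ y)
    (hK : ∀ s ∈ P, s ∈ Kr z0 e κ b0 b1)
    {Q : List ℂ} (hQ : Q ≠ []) (hd' : ∀ p ∈ prs Q, DE S p.1 p.2) (h0' : Q.head hQ = y)
    (h1' : a1 ≤ X z0 e (Q.getLast hQ)) (hcol' : ∀ s ∈ Q, χ s = χ y)
    (hK' : ∀ s ∈ Q, s ∈ Kr z0 e κ b0 b1) {c z : ℂ} (hx : (y, up.getLast h.nu, c) ∈ delT S)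
    (hz : InO z y (up.getLast h.nu) c) (kz : z ∈ Kr z0 e κ b0 b1) :
    asum z (wall z0 e κ b0 b1 up y dn h.nd) = 2 * Real.pi := by
  have hyw := (h.win y (by simp)).1
  have ky : y ∈ Kr z0 e κ b0 b1 := ⟨by linarith, h.yb⟩
  have hW := wall_Wl (κ := κ) h he
  obtain ⟨l1, l2, hf, hf1, hf2⟩ := wall_form (χ := χ) (κ := κ) h he hc
  obtain ⟨o1, o2, o3⟩ := once hf1 hf2
  rw [← hf] at o1 o2 o3
  have key : ∀ {a b p : ℂ}, (y, a, b) ∈ delT S → a ∈ Kr z0 e κ b0 b1 →
      a ∉ wall z0 e κ b0 b1 up y dn h.nd →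
      asum a (wall z0 e κ b0 b1 up y dn h.nd) = asum z (wall z0 e κ b0 b1 up y dn h.nd) ∨
      asum a (wall z0 e κ b0 b1 up y dn h.nd) =
        asum z (wall z0 e κ b0 b1 up y dn h.nd) - 2 * Real.pi := by
    intro a b p ha ka hna
    obtain ⟨t, ht0, ht1, htK, -⟩ := small_t (Kr_open z0 e κ b0 b1) ky S
    have m1 := mem_delT.1 ha
    have kz1 : pz y t a b ∈ Kr z0 e κ b0 b1 := htK a m1.2.1 b m1.2.2.1
    have i1 := pz_in ha ht0 ht1
    have e1 : asum (pz y t a b) (wall z0 e κ b0 b1 up y dn h.nd) =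
        asum a (wall z0 e κ b0 b1 up y dn h.nd) := by
      have i2 : InO (pz y t a b) a b y := ⟨i1.2.1, i1.2.2, i1.1⟩
      exact hW.vtx hS (Kr_convex _ _ _ _ _) (rot_mem ha) i2 kz1 ka hna
    rw [← e1]
    exact hW.fan hS (Kr_convex _ _ _ _ _) (Kr_open _ _ _ _ _) ky hy hx o1 o2 o3 ha hz kz i1 kz1
  obtain ⟨p1, b, t1, k1, n1, e1⟩ := arm_end (κ := κ) hS h he hc hy hP hd h0
    (fun hh => by rw [hh] at h1; linarith) hcol hK
  obtain ⟨p2, b', t2, k2, n2, e2⟩ := arm_end (κ := κ) hS h he hc hy hQ hd' h0'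
    (fun hh => by rw [hh] at h1'; linarith) hcol' hK'
  rw [wall_west h he (hK _ (List.getLast_mem hP)) h1] at e1
  rw [wall_east h he hκ h1'] at e2
  have r1 := key (p := p1) t1 k1 n1
  have r2 := key (p := p2) t2 k2 n2
  rw [e1] at r1
  rw [e2] at r2
  have hpi := Real.pi_pos
  rcases r1 with r1 | r1
  · exact r1.symm
  · rcases r2 with r2 | r2
    · linarith
    · linarith

/-! ### the walk -/

theorem zm {a b c : ZMod 2} (h : a + b = 1) (h' : b + c = 1) : c = a := by
  revert a b c; decide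

theorem zm' {a b c : ZMod 2} (h : a + b = 1) (h' : b + c ≠ 1) : c = b := by
  revert a b c; decide

/-- the colours of the two sites of the state do not change -/
theorem nx_col {w : ℂ × ℂ} (h : χ w.1 + χ w.2 = 1) :
    χ (nx S χ w).1 = χ w.1 ∧ χ (nx S χ w).2 = χ w.2 := by
  unfold nx
  split_ifs with h1
  · exact ⟨zm h h1, rfl⟩
  · exact ⟨rfl, zm' h h1⟩

theorem it_col {w : ℂ × ℂ} (h : χ w.1 + χ w.2 = 1) (n : ℕ) :
    χ ((nx S χ)^[n] w).1 = χ w.1 ∧ χ ((nx S χ)^[n] w).2 = χ w.2 := by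
  induction n with
  | zero => exact ⟨rfl, rfl⟩
  | succ n ih =>
    rw [Function.iterate_succ_apply']
    have h1 := nx_col (S := S) (χ := χ) (w := (nx S χ)^[n] w) (by rw [ih.1, ih.2]; exact h)
    exact ⟨h1.1.trans ih.1, h1.2.trans ih.2⟩

/-- the third site of the face of `w` is a site of the next state -/
theorem th_next {R : Set ℂ} {w : ℂ × ℂ} (h : (nx S χ w).1 ∈ R) (h' : (nx S χ w).2 ∈ R) :
    th S w ∈ R := by
  unfold nx at h h'
  split_ifs at h h'
  · exact h
  · exact h'

/-- the face of `w`, seen from the edge of the next state -/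
theorem back_face {w : ℂ × ℂ} (hw : w ∈ sd S) :
    ∃ d, ((nx S χ w).2, (nx S χ w).1, d) ∈ delT S ∧
      cen ((nx S χ w).2, (nx S χ w).1, d) = cen (w.1, w.2, th S w) := by
  have h := th_spec hw
  unfold nx
  split_ifs
  · refine ⟨w.1, rot_mem h, ?_⟩
    exact cen_rot _ _ _
  · refine ⟨w.2, rot_mem (rot_mem h), ?_⟩
    rw [← cen_rot w.1 w.2 (th S w), ← cen_rot w.2 (th S w) w.1]

theorem cen_K {K : Set ℂ} (hK : Convex ℝ K) {a b c : ℂ} (ha : a ∈ K) (hb : b ∈ K) (hc : c ∈ K) :
    cen (a, b, c) ∈ K := by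
  have h1 : (1 / 2 : ℝ) • a + (1 / 2 : ℝ) • b ∈ K := hK ha hb (by norm_num) (by norm_num) (by norm_num)
  have h2 : (2 / 3 : ℝ) • ((1 / 2 : ℝ) • a + (1 / 2 : ℝ) • b) + (1 / 3 : ℝ) • c ∈ K :=
    hK h1 hc (by norm_num) (by norm_num) (by norm_num)
  have e : cen (a, b, c) = (2 / 3 : ℝ) • ((1 / 2 : ℝ) • a + (1 / 2 : ℝ) • b) + (1 / 3 : ℝ) • c := by
    unfold cen
    simp only [Complex.real_smul]
    push_cast
    ring
  rw [e]; exact h2

/-- **orientation, planar walk** -/
theorem orient_nx (hS : GP (S : Set ℂ)) (h : Neck S z0 e a0 a1 b0 b1 m V β up y dn) (he : e ≠ 0)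
    (hc : ∀ s ∈ V, (χ s = χ y ↔ s ∈ β)) (hy : ¬ OnHull S y) {c0 : ℝ} (hc0 : c0 ≤ a0) {R : Set ℂ}
    (hR : ∀ s ∈ R, c0 < X z0 e s ∧ b0 < Y z0 e s ∧ Y z0 e s < b1) {w w' : ℂ}
    (hW : Lk S {s | χ s = χ y ∧ b0 < Y z0 e s ∧ Y z0 e s < b1} y w) (hwX : X z0 e w ≤ c0)
    (hE : Lk S {s | χ s = χ y ∧ b0 < Y z0 e s ∧ Y z0 e s < b1} y w') (hwX' : a1 ≤ X z0 e w')
    (hx : χ y + χ (up.getLast h.nu) = 1) {q : ℂ × ℂ} (hq : a1 ≤ X z0 e q.1) :
    ¬ FAp S χ R (y, up.getLast h.nu) q := by
  intro hF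
  obtain ⟨n, hn1, hn2, hn3⟩ := fap_iff.1 hF
  set x := up.getLast h.nu with hxdef
  have hyh : ∀ a, ¬ hullE S a y := fun a ha => hy ⟨a, ha⟩
  have hyw := (h.win y (by simp)).1
  obtain ⟨P, hP, P0, P1, dP, cP⟩ := lk_to_list hW
  obtain ⟨Q, hQ, Q0, Q1, dQ, cQ⟩ := lk_to_list hE
  obtain ⟨κ, hκ0, hκ⟩ : ∃ κ : ℝ, κ < c0 ∧ ∀ s ∈ P ++ Q, κ < X z0 e s := by
    obtain ⟨M, hM⟩ := ((P ++ Q).toFinset.image fun s => -X z0 e s).exists_le
    refine ⟨min (c0 - 1) (-M - 1), by linarith [min_le_left (c0 - 1) (-M - 1)], fun s hs => ?_⟩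
    have := hM (-X z0 e s) (Finset.mem_image_of_mem _ (List.mem_toFinset.2 hs))
    linarith [min_le_right (c0 - 1) (-M - 1)]
  set K := Kr z0 e κ b0 b1 with hKdef
  have hKc : Convex ℝ K := Kr_convex _ _ _ _ _
  set L := wall z0 e κ b0 b1 up y dn h.nd with hL
  have hWl : Wl S K L := wall_Wl h he
  have hRK : ∀ s ∈ R, s ∈ K := fun s hs => ⟨by linarith [(hR s hs).1], (hR s hs).2⟩
  obtain ⟨l1, l2, hf, hf1, hf2⟩ := wall_form (χ := χ) (κ := κ) h he hc
  obtain ⟨o1, o2, -⟩ := once hf1 hf2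
  rw [← hf, ← hL] at o1 o2
  set d1 := dn.head h.nd with hd1
  -- states
  set st : ℕ → ℂ × ℂ := fun i => (nx S χ)^[i] (y, x) with hst
  have st0 : st 0 = (y, x) := rfl
  have sts : ∀ i, st (i + 1) = nx S χ (st i) := fun i => by
    simp only [hst]; rw [Function.iterate_succ_apply']
  have stc : ∀ i, χ (st i).1 = χ y ∧ χ (st i).2 = χ x := fun i => it_col (w := (y, x)) hx i
  have hxy : χ x ≠ χ y := by
    intro hh
    rw [hh] at hx
    revert hx
    generalize χ y = a
    revert a; decide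
  have stR : ∀ i ≤ n, (st i).1 ∈ R ∧ (st i).2 ∈ R := fun i hi => (hn3 i hi).2
  have stD : ∀ i ≤ n, st i ∈ sd S := fun i hi => (hn3 i hi).1
  have hnpos : 0 < n := by
    rcases Nat.eq_zero_or_pos n with h0 | h0
    · exfalso
      rw [h0] at hn1
      have : q = (y, x) := hn1.symm
      rw [this] at hq
      have := hyw.2
      simp only at hq
      linarith
    · exact h0
  have thR : ∀ i < n, th S (st i) ∈ R := fun i hi => by
    have := stR (i + 1) (by omega)
    rw [sts] at this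
    exact th_next this.1 this.2
  set I : ℕ → ℝ := fun i => asum (cen ((st i).1, (st i).2, th S (st i))) L with hI
  have cK : ∀ i < n, cen ((st i).1, (st i).2, th S (st i)) ∈ K := fun i hi =>
    cen_K hKc (hRK _ (stR i hi.le).1) (hRK _ (stR i hi.le).2) (hRK _ (thR i hi))
  have tri : ∀ i ≤ n, ((st i).1, (st i).2, th S (st i)) ∈ delT S := fun i hi => th_spec (stD i hi)
  -- the index at the start
  have I0 : I 0 = 2 * Real.pi := by
    have t0 := tri 0 (Nat.zero_le _)
    have k0 := cK 0 hnpos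
    exact side (χ := χ) hS h he (by linarith) hc hyh hP dP P0 (by rw [P1]; linarith)
      (fun s hs => (cP s hs).1) (fun s hs => ⟨hκ s (by simp [hs]), (cP s hs).2⟩) hQ dQ Q0
      (by rw [Q1]; exact hwX') (fun s hs => (cQ s hs).1)
      (fun s hs => ⟨hκ s (by simp [hs]), (cQ s hs).2⟩) t0 (cen_in t0) k0
  -- a vertex of a visited face
  have vt : ∀ i < n, ∀ a ∈ R, (a = (st i).1 ∨ a = (st i).2 ∨ a = th S (st i)) → a ∉ L →
      I i = asum a L := by
    intro i hi a ha hv hna
    have t0 := tri i hi.le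
    have k0 := cK i hi
    rcases hv with rfl | rfl | rfl
    · exact hWl.vtx hS hKc t0 (cen_in t0) k0 (hRK _ ha) hna
    · have c0 := cen_in t0
      exact hWl.vtx hS hKc (rot_mem t0) ⟨c0.2.1, c0.2.2, c0.1⟩ k0 (hRK _ ha) hna
    · have c0 := cen_in t0
      exact hWl.vtx hS hKc (rot_mem (rot_mem t0)) ⟨c0.2.2, c0.1, c0.2.1⟩ k0 (hRK _ ha) hna
  -- one step
  have step : ∀ i, i + 1 < n → st (i + 1) ≠ (y, d1) → I (i + 1) = I i := by
    intro i hi hne
    obtain ⟨d, hd, hcen⟩ := back_face (χ := χ) (stD i (by omega))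
    rw [← sts] at hd hcen
    have t1 := tri (i + 1) hi.le
    set a := (st (i + 1)).1 with ha
    set b := (st (i + 1)).2 with hb
    have hmid : ((1 / 2 : ℝ) : ℂ) * a + ((1 / 2 : ℝ) : ℂ) * b ∈ K := by
      have := hKc (hRK _ (stR (i + 1) hi.le).1) (hRK _ (stR (i + 1) hi.le).2)
        (a := (1 / 2 : ℝ)) (b := (1 / 2 : ℝ)) (by norm_num) (by norm_num) (by norm_num)
      simpa only [Complex.real_smul] using this
    have j := hWl.jump hS hKc t1 hd (cen_in t1) (cen_in hd) (cK (i + 1) hi)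
      (by rw [hcen]; exact cK i (by omega)) hmid (s := 1 / 2) (t := 1 / 2) (by norm_num)
      (by norm_num) (by norm_num) rfl
    rw [hcen] at j
    have hay : a ∈ L → a = y := fun hm =>
      wall_col h he hc hm (hRK _ (stR (i + 1) hi.le).1) (stc (i + 1)).1
    have n1 : (prs L).count (a, b) = 0 := by
      rw [List.count_eq_zero]
      intro hm
      have e1 := hay (mem_of_prs hm).1
      rw [e1] at hm
      have e2 := o1 b hm
      have e3 : st (i + 1) = (y, x) := Prod.ext e1 e2
      -- first arrival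
      have e4 : (nx S χ)^[n - (i + 1)] (y, x) = q := by
        rw [← e3]
        show (nx S χ)^[n - (i + 1)] ((nx S χ)^[i + 1] (y, x)) = q
        rw [← Function.iterate_add_apply, show n - (i + 1) + (i + 1) = n by omega]
        exact hn1
      exact hn2 (n - (i + 1)) (by omega) e4
    have n2 : (prs L).count (b, a) = 0 := by
      rw [List.count_eq_zero]
      intro hm
      have e1 := hay (mem_of_prs hm).2
      rw [e1] at hm
      exact hne (Prod.ext e1 (o2 b hm))
    rw [n1, n2] at j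
    simp only [hI]
    simp only [Nat.cast_zero, sub_zero, mul_zero] at j
    linarith
  by_cases hj : ∃ j, 0 < j ∧ j < n ∧ st j = (y, d1)
  · -- second passage of the wall
    set j := Nat.find hj with hjdef
    obtain ⟨j1, j2, j3⟩ := Nat.find_spec hj
    rw [← hjdef] at j1 j2 j3
    have jmin : ∀ i, 0 < i → i < j → st i ≠ (y, d1) := fun i hi hij he' =>
      Nat.find_min hj hij ⟨hi, by omega, he'⟩
    have Ij : ∀ i, i < j → I i = 2 * Real.pi := by
      intro i
      induction i with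
      | zero => exact fun _ => I0
      | succ i ih =>
        intro hij
        rw [step i (by omega) (jmin (i + 1) (by omega) hij)]
        exact ih (by omega)
    have hwin : ∀ s, s ∈ L → s ∈ K → X z0 e s < a1 := by
      intro s hs hk
      rcases wall_mem hs with hs | rfl | rfl
      · exact (h.win s hs).1.2
      · have := hk.2.2
        rw [crn_Y he] at this
        exact absurd this (lt_irrefl _)
      · have := hk.1
        rw [crn_X he] at this
        exact absurd this (lt_irrefl _)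
    have hva : ∀ i ≤ j, X z0 e (st i).2 < a1 := by
      intro i hi
      rcases Nat.lt_or_ge i j with hij | hij
      · by_contra hcon
        push Not at hcon
        have hR2 := (stR i (by omega)).2
        have hn : (st i).2 ∉ L := fun hm => by
          have := hwin _ hm (hRK _ hR2)
          linarith
        have e1 := vt i (by omega) _ hR2 (Or.inr (Or.inl rfl)) hn
        rw [Ij i hij, wall_east h he (by linarith) hcon] at e1
        have := Real.pi_pos
        linarith
      · have : i = j := by omega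
        rw [this, j3]
        exact (h.win d1 (by
          have := List.head_mem h.nd
          simp [hd1, this])).1.2
    set T : Set ℂ := {s | (χ s ≠ χ y ∨ Y z0 e s ≤ b0) ∧ c0 < X z0 e s ∧ X z0 e s < a1} with hT
    have vT : ∀ i ≤ j, (st i).2 ∈ T := fun i hi =>
      ⟨Or.inl (by rw [(stc i).2]; exact hxy), (hR _ (stR i (by omega)).2).1, hva i hi⟩
    have right : ∀ i ≤ j, Lk S T x (st i).2 := by
      intro i
      induction i with
      | zero => exact fun _ => Lk.refl (vT 0 (Nat.zero_le _))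
      | succ i ih =>
        intro hi
        refine (ih (by omega)).trans ⟨⟨vT i (by omega), vT (i + 1) hi⟩, ?_⟩
        have hs := sts i
        unfold nx at hs
        split_ifs at hs
        · have : (st (i + 1)).2 = (st i).2 := by rw [hs]
          rw [this]
        · have e1 : (st (i + 1)).2 = th S (st i) := by rw [hs]
          refine .single ⟨?_, vT i (by omega), vT (i + 1) hi⟩
          rw [e1]
          exact Or.inl ⟨_, rot_mem (tri i (by omega))⟩
    have hxd : Lk S T x d1 := by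
      have := right j le_rfl
      rwa [j3] at this
    have hdn : Lk S T (dn.getLast h.nd) d1 := by
      refine lk_list (l := dn) (fun p hp => h.adj p ?_) (fun s hs => ?_) (List.getLast_mem _)
        (List.head_mem _)
      · rw [prs_append]
        refine List.mem_append_right _ ?_
        obtain ⟨b, d, hbd⟩ := List.exists_cons_of_ne_nil h.nd
        rw [hbd] at hp ⊢
        rw [prs_cons]
        exact List.mem_cons_of_mem _ hp
      · have hw := (h.win s (by simp [hs])).1
        refine ⟨?_, by linarith, hw.2⟩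
        by_cases hs' : b0 < Y z0 e s
        · left
          intro hcol
          exact (h.cd s hs hs').2 ((hc s (h.cd s hs hs').1).1 hcol)
        · right
          linarith
    have hup : Lk S T x (up.head h.nu) := by
      refine lk_list (l := up) (fun p hp => h.adj p ?_) (fun s hs => ?_) (List.getLast_mem _)
        (List.head_mem _)
      · obtain ⟨u, a, hua⟩ : ∃ u a, up = u ++ [a] :=
          ⟨up.dropLast, up.getLast h.nu, (List.dropLast_append_getLast h.nu).symm⟩
        rw [hua] at hp ⊢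
        rw [List.append_assoc, List.singleton_append, prs_append]
        exact List.mem_append_left _ hp
      · have hw := (h.win s (by simp [hs])).1
        refine ⟨Or.inl fun hcol => ?_, by linarith, hw.2⟩
        exact (h.cu s hs).2 ((hc s (h.cu s hs).1).1 hcol)
    obtain ⟨Qv, hQv, Qv0, Qv1, dQv, cQv⟩ := lk_to_list (hdn.trans (hxd.symm.trans hup))
    obtain ⟨Ph, hPh, Ph0, Ph1, dPh, cPh⟩ := lk_to_list (hW.symm.trans hE)
    obtain ⟨s, hs1, hs2⟩ := cross_e (x0 := c0) (x1 := a1) (y0 := b0) (y1 := b1) hS he hPh hQv dPh dQv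
      (fun s hs => (cPh s hs).2) (fun s hs => (cQv s hs).2) (by rw [Ph0]; exact hwX)
      (by rw [Ph1]; exact hwX') (by rw [Qv0]; exact h.bot) (by rw [Qv1]; exact h.top)
    have u1 := cPh s hs1
    have u2 := cQv s hs2
    rcases u2.1 with u3 | u3
    · exact u3 u1.1
    · linarith [u1.2.1]
  · push Not at hj
    have Ij : ∀ i, i < n → I i = 2 * Real.pi := by
      intro i
      induction i with
      | zero => exact fun _ => I0
      | succ i ih =>
        intro hin
        rw [step i hin (hj (i + 1) (by omega) hin)]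
        exact ih (by omega)
    obtain ⟨k, rfl⟩ : ∃ k, n = k + 1 := ⟨n - 1, by omega⟩
    have hqR := (stR (k + 1) le_rfl).1
    have hqe : (st (k + 1)).1 = q.1 := by
      have : st (k + 1) = q := hn1
      rw [this]
    have hqL : (st (k + 1)).1 ∉ L := fun hm => by
      have := wall_col h he hc hm (hRK _ hqR) (stc _).1
      rw [← hqe, this] at hq
      linarith [hyw.2]
    have hv : (st (k + 1)).1 = (st k).1 ∨ (st (k + 1)).1 = (st k).2 ∨
        (st (k + 1)).1 = th S (st k) := by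
      rw [sts]
      unfold nx
      split_ifs
      · right; right; rfl
      · left; rfl
    have e1 := vt k (by omega) _ hqR hv hqL
    rw [Ij k (by omega), wall_east h he (by linarith) (by rw [hqe]; exact hq)] at e1
    have := Real.pi_pos
    linarith

/-- **orientation**, 117's form -/
theorem orient (hS : GP (S : Set ℂ)) (hχ : HullC S χ) (h : Neck S z0 e a0 a1 b0 b1 m V β up y dn)
    (he : e ≠ 0) (hc : ∀ s ∈ V, (χ s = χ y ↔ s ∈ β)) (hy : ¬ OnHull S y) {c0 : ℝ} (hc0 : c0 ≤ a0)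
    {R : Set ℂ} (hR : ∀ s ∈ R, c0 < X z0 e s ∧ b0 < Y z0 e s ∧ Y z0 e s < b1) {w w' : ℂ}
    (hW : Lk S {s | χ s = χ y ∧ b0 < Y z0 e s ∧ Y z0 e s < b1} y w) (hwX : X z0 e w ≤ c0)
    (hE : Lk S {s | χ s = χ y ∧ b0 < Y z0 e s ∧ Y z0 e s < b1} y w') (hwX' : a1 ≤ X z0 e w')
    (hx : χ y + χ (up.getLast h.nu) = 1) {p q : D0 S} (hp : p.1 = (y, up.getLast h.nu))
    (hq : a1 ≤ X z0 e q.1.1) : ¬ FA (cm0 hS) (xc hS hχ) (RingDx117.RD S R) p q := by
  intro hF
  have hp1 : xc hS hχ p = 1 := by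
    show χ p.1.1 + χ p.1.2 = 1
    rw [hp]; exact hx
  have := (fa_iff hS hχ hp1).1 hF
  rw [hp] at this
  exact orient_nx hS h he hc hy hc0 hR hW hwX hE hwX' hx hq this

end Crest.Agent.R143.Orientx881
end
end

-- ▼ part R143/OrientD_881
section

/-!
# Row 143 (S0194), R1g: orientation of the open corridor (helper881)

* `lk_of_stc` : a link of 117 inside a strip as an arm
* `orient_fa` : `FA p q ∨ FA q p` (`p` the west gate) gives `FA q p`
* **`DCorr.back`** : one straight tile with a neck ==> all arcs of the corridor are backward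
  (gates numbered with increasing `X`, white above): hypothesis of `DCorr.main_back`
-/

set_option autoImplicit false

noncomputable section

open scoped Classical

namespace Crest.Agent.R143.OrientDx881

open Crest.Agent.R143.B0x346 Crest.Agent.R143.DelGx806 Crest.Agent.R143.DelRx806
open Crest.Agent.R143.Blkx838 (DE)
open Crest.Agent.R143.Gatex838
open Crest.Agent.R143.Neckx921 Crest.Agent.R143.Orientx881
open Crest.Agent.R143.Frame10x395 Crest.Agent.R143.WLocx713 Crest.Agent.R143.Splx117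
open Crest.Agent.R143.RingDx117 Crest.Agent.R143.CorrDx117

variable {S V β : Finset ℂ} {z0 e : ℂ} {a0 a1 b0 b1 m : ℝ} {χ : ℂ → ZMod 2}



/-- **all arcs of the corridor are backward**: neck at the gate `k`, black arms of `y k` in the strip to
`X ≤ c0` and to `a1 ≤ X`, region of the tile `k` in the strip and in `c0 < X`, gate `k + 1` in the east -/
theorem _root_.Crest.Agent.R143.CorrDx117.DCorr.back {hS : GP (S : Set ℂ)} {hχ : HullC S χ} {n : ℕ}
    {y z : ℕ → ℂ} {A B : ℕ → Set ℂ} {p : ℕ → D0 S} (D : DCorr hS hχ n y z A B p) {k : ℕ}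
    (hk : k < n) {up dn : List ℂ} (h : Neck S z0 e a0 a1 b0 b1 m V β up (y k) dn)
    (hz : up.getLast h.nu = z k) (he : e ≠ 0) (hc : ∀ s ∈ V, (χ s = χ (y k) ↔ s ∈ β)) {c0 : ℝ}
    (hc0 : c0 ≤ a0) (hR : ∀ s ∈ B k, c0 < X z0 e s ∧ b0 < Y z0 e s ∧ Y z0 e s < b1) {w w' : ℂ}
    (hW : Lk S {s | χ s = χ (y k) ∧ b0 < Y z0 e s ∧ Y z0 e s < b1} (y k) w)
    (hwX : X z0 e w ≤ c0)
    (hE : Lk S {s | χ s = χ (y k) ∧ b0 < Y z0 e s ∧ Y z0 e s < b1} (y k) w')
    (hwX' : a1 ≤ X z0 e w') (hX : a1 ≤ X z0 e (y (k + 1))) :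
    (∀ k, k < n → FA (cm0 hS) (xc hS hχ) (RD S (B k)) (p (k + 1)) (p k)) ∧
      ∀ k, k < n → ¬ FA (cm0 hS) (xc hS hχ) (RD S (B k)) (p k) (p (k + 1)) := by
  have hy : ¬ OnHull S (y k) := D.innA k hk _ (D.yS hk.le) (D.mem0 k hk)
  refine D.corr.dir_back hk ?_
  refine orient hS hχ h he hc hy hc0 hR hW hwX hE hwX' (by rw [hz]; exact D.col k hk.le)
    (by rw [hz]; exact D.st k hk.le) ?_
  rw [D.st (k + 1) hk]
  exact hX


end Crest.Agent.R143.OrientDx881
end
end

-- ▼ part R143/OrientE_881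
section

/-!
# Row 143 (S0194), R1g: orientation in an enlarged tile region (helper881)

The region `B k` of the confinement is a little higher than the strip `b0 < Y < b1` of the necks.
* `strip` : with long black and white chains on both sides, the walk from `(y, x)` inside a region of
  `c0 < X < c1` stays in the strip
* **`orient2`** : orientation for a region `R` of `c0 < X < c1` without a condition on `Y`
* **`DCorr.back2`**
-/

set_option autoImplicit false

noncomputable section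

open scoped Classical

namespace Crest.Agent.R143.OrientDx881

open Crest.Agent.R143.B0x346 Crest.Agent.R143.DelGx806 Crest.Agent.R143.DelRx806
open Crest.Agent.R143.ToolWx838
open Crest.Agent.R143.Blkx838 (DE)
open Crest.Agent.R143.OrAx881
open Crest.Agent.R143.Gatex838
open Crest.Agent.R143.Neckx921 Crest.Agent.R143.Orientx881
open Crest.Agent.R143.Frame10x395 Crest.Agent.R143.WLocx713 Crest.Agent.R143.Splx117
open Crest.Agent.R143.Frame5x395 (sd mem_sd th th_spec)
open Crest.Agent.R143.RingDx117 Crest.Agent.R143.CorrDx117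

variable {S V β : Finset ℂ} {z0 e : ℂ} {a0 a1 b0 b1 m c0 c1 k0 k1 : ℝ} {χ : ℂ → ZMod 2}
  {up dn : List ℂ} {y : ℂ}

/-- the black and the white long chains: the white arms stay in `k0 < X < k1` and reach `X ≤ c0`,
`c1 ≤ X`; the black arms reach `X ≤ k0`, `k1 ≤ X` -/
structure Arms (S : Finset ℂ) (χ : ℂ → ZMod 2) (z0 e : ℂ) (b0 b1 c0 c1 k0 k1 : ℝ) (y x : ℂ) : Prop
    where
  bw : ∃ w, Lk S {s | χ s = χ y ∧ b0 < Y z0 e s ∧ Y z0 e s < b1} y w ∧ X z0 e w ≤ k0
  be : ∃ w, Lk S {s | χ s = χ y ∧ b0 < Y z0 e s ∧ Y z0 e s < b1} y w ∧ k1 ≤ X z0 e w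
  ww : ∃ w, Lk S {s | χ s = χ x ∧ (b0 < Y z0 e s ∧ Y z0 e s < b1) ∧ k0 < X z0 e s ∧
    X z0 e s < k1} x w ∧ X z0 e w ≤ c0
  we : ∃ w, Lk S {s | χ s = χ x ∧ (b0 < Y z0 e s ∧ Y z0 e s < b1) ∧ k0 < X z0 e s ∧
    X z0 e s < k1} x w ∧ c1 ≤ X z0 e w

/-- crossing of two links -/
theorem cross_lk (hS : GP (S : Set ℂ)) (he : e ≠ 0) {U T : Set ℂ} {w w' v v' : ℂ} {x0 x1 y0 y1 : ℝ}
    (h1 : Lk S U w w') (h2 : Lk S T v v') (hU : ∀ s ∈ U, y0 < Y z0 e s ∧ Y z0 e s < y1)
    (hT : ∀ s ∈ T, x0 < X z0 e s ∧ X z0 e s < x1) (hw : X z0 e w ≤ x0) (hw' : x1 ≤ X z0 e w')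
    (hv : Y z0 e v ≤ y0) (hv' : y1 ≤ Y z0 e v') : ∃ s, s ∈ U ∧ s ∈ T := by
  obtain ⟨P, hP, P0, P1, dP, cP⟩ := lk_to_list h1
  obtain ⟨Q, hQ, Q0, Q1, dQ, cQ⟩ := lk_to_list h2
  obtain ⟨s, hs1, hs2⟩ := cross_e (x0 := x0) (x1 := x1) (y0 := y0) (y1 := y1) hS he hP hQ dP dQ
    (fun s hs => hU s (cP s hs)) (fun s hs => hT s (cQ s hs)) (by rw [P0]; exact hw)
    (by rw [P1]; exact hw') (by rw [Q0]; exact hv) (by rw [Q1]; exact hv')
  exact ⟨s, cP s hs1, cQ s hs2⟩

/-- the chain `dn` as a link -/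
theorem dn_lk (h : Neck S z0 e a0 a1 b0 b1 m V β up y dn) {T : Set ℂ} (hT : ∀ s ∈ dn, s ∈ T)
    {u : ℂ} (hu : u ∈ dn) : Lk S T u (dn.getLast h.nd) := by
  refine lk_list (l := dn) (fun p hp => h.adj p ?_) hT hu (List.getLast_mem _)
  rw [prs_append]
  refine List.mem_append_right _ ?_
  obtain ⟨b, d, hbd⟩ := List.exists_cons_of_ne_nil h.nd
  rw [hbd] at hp ⊢
  rw [prs_cons]
  exact List.mem_cons_of_mem _ hp

/-- the chain `up` as a link -/
theorem up_lk (h : Neck S z0 e a0 a1 b0 b1 m V β up y dn) {T : Set ℂ} (hT : ∀ s ∈ up, s ∈ T)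
    {u v : ℂ} (hu : u ∈ up) (hv : v ∈ up) : Lk S T u v := by
  refine lk_list (l := up) (fun p hp => h.adj p ?_) hT hu hv
  obtain ⟨u, a, hua⟩ : ∃ u a, up = u ++ [a] :=
    ⟨up.dropLast, up.getLast h.nu, (List.dropLast_append_getLast h.nu).symm⟩
  rw [hua] at hp ⊢
  rw [List.append_assoc, List.singleton_append, prs_append]
  exact List.mem_append_left _ hp

theorem y_dn (h : Neck S z0 e a0 a1 b0 b1 m V β up y dn) : DE S y (dn.head h.nd) := by
  have key : ∀ (b : ℂ) (d : List ℂ), dn = b :: d → DE S y b := by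
    intro b d hbd
    refine h.adj (y, b) ?_
    rw [prs_append]
    refine List.mem_append_right _ ?_
    rw [hbd, prs_cons]
    exact List.mem_cons_self
  exact key _ _ (List.cons_head_tail h.nd).symm

/-- colour of the sites of the neck -/
theorem up_col (h : Neck S z0 e a0 a1 b0 b1 m V β up y dn)
    (hc : ∀ s ∈ V, (χ s = χ y ↔ s ∈ β)) {s : ℂ} (hs : s ∈ up) : χ s ≠ χ y := fun hh =>
  (h.cu s hs).2 ((hc s (h.cu s hs).1).1 hh)

theorem dn_col (h : Neck S z0 e a0 a1 b0 b1 m V β up y dn)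
    (hc : ∀ s ∈ V, (χ s = χ y ↔ s ∈ β)) {s : ℂ} (hs : s ∈ dn) (hs' : b0 < Y z0 e s) :
    χ s ≠ χ y := fun hh => (h.cd s hs hs').2 ((hc s (h.cd s hs hs').1).1 hh)

/-- the white long chains do not meet `dn` -/
theorem ww_dn (hS : GP (S : Set ℂ)) (h : Neck S z0 e a0 a1 b0 b1 m V β up y dn) (he : e ≠ 0)
    (hc : ∀ s ∈ V, (χ s = χ y ↔ s ∈ β)) (hk0 : k0 ≤ a0) (hk1 : a1 ≤ k1)
    (hx : χ (up.getLast h.nu) ≠ χ y) (A : Arms S χ z0 e b0 b1 c0 c1 k0 k1 y (up.getLast h.nu))
    {w s : ℂ} (hw : Lk S {s | χ s = χ (up.getLast h.nu) ∧ (b0 < Y z0 e s ∧ Y z0 e s < b1) ∧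
      k0 < X z0 e s ∧ X z0 e s < k1} (up.getLast h.nu) w) (hs : s = w) : s ∉ dn := by
  subst hs
  intro hd
  obtain ⟨w1, b1', hw1⟩ := A.bw
  obtain ⟨w2, b2', hw2⟩ := A.be
  set T : Set ℂ := {s | (χ s ≠ χ y ∨ Y z0 e s ≤ b0) ∧ k0 < X z0 e s ∧ X z0 e s < k1} with hT
  have hwin := fun s hs => (h.win s hs).1
  have t1 : Lk S T s (dn.getLast h.nd) := by
    refine dn_lk h (fun s hs => ?_) hd
    have hw := hwin s (by simp [hs])
    refine ⟨?_, by linarith, by linarith⟩
    by_cases hs' : b0 < Y z0 e s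
    · exact Or.inl (dn_col h hc hs hs')
    · exact Or.inr (not_lt.1 hs')
  have t2 : Lk S T (up.getLast h.nu) s :=
    hw.mono fun s hs => ⟨Or.inl (by rw [hs.1]; exact hx), hs.2.2⟩
  have t3 : Lk S T (up.getLast h.nu) (up.head h.nu) := by
    refine up_lk h (fun s hs => ?_) (List.getLast_mem _) (List.head_mem _)
    have hw := hwin s (by simp [hs])
    exact ⟨Or.inl (up_col h hc hs), by linarith, by linarith⟩
  obtain ⟨r, r1, r2⟩ := cross_lk (y0 := b0) (y1 := b1) (x0 := k0) (x1 := k1) hS he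
    (b1'.symm.trans b2') (t1.symm.trans (t2.symm.trans t3)) (fun s hs => hs.2) (fun s hs => hs.2)
    hw1 hw2 h.bot h.top
  rcases r2.1 with r3 | r3
  · exact r3 r1.1
  · linarith [r1.2.1]

/-- every site of a link is linked -/
theorem lk_mem {A : Set ℂ} {u v : ℂ} (h : Lk S A u v) :
    Lk S (A ∩ {s | Lk S A u s}) u v := by
  obtain ⟨⟨hu, hv⟩, h⟩ := h
  have h0 : u ∈ A ∩ {s | Lk S A u s} := ⟨hu, Lk.refl hu⟩
  induction h with
  | refl => exact Lk.refl h0
  | tail h1 h2 ih =>
    rename_i b c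
    have ih' := ih h2.2.1
    have hc : c ∈ A ∩ {s | Lk S A u s} :=
      ⟨h2.2.2, Lk.trans ih'.1.2.2 ⟨⟨h2.2.1, h2.2.2⟩, .single h2⟩⟩
    exact ih'.trans ⟨⟨ih'.1.2, hc⟩, .single ⟨h2.1, ih'.1.2, hc⟩⟩

/-- **the walk stays in the strip** -/
theorem strip (hS : GP (S : Set ℂ)) (h : Neck S z0 e a0 a1 b0 b1 m V β up y dn) (he : e ≠ 0)
    (hc : ∀ s ∈ V, (χ s = χ y ↔ s ∈ β)) (hc0 : c0 ≤ a0) (hc1 : a1 ≤ c1) (hk0 : k0 ≤ c0)
    (hk1 : c1 ≤ k1) (hx : χ y + χ (up.getLast h.nu) = 1)
    (A : Arms S χ z0 e b0 b1 c0 c1 k0 k1 y (up.getLast h.nu)) {R : Set ℂ}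
    (hR : ∀ s ∈ R, c0 < X z0 e s ∧ X z0 e s < c1) {q : ℂ × ℂ}
    (hF : FAp S χ R (y, up.getLast h.nu) q) :
    FAp S χ (R ∩ {s | b0 < Y z0 e s ∧ Y z0 e s < b1}) (y, up.getLast h.nu) q := by
  obtain ⟨n, hn1, hn3⟩ := hF
  set x := up.getLast h.nu with hxdef
  have hxy : χ x ≠ χ y := by
    intro hh
    rw [hh] at hx
    revert hx
    generalize χ y = a
    revert a; decide
  have hwin := fun s hs => (h.win s hs).1
  set st : ℕ → ℂ × ℂ := fun i => (nx S χ)^[i] (y, x) with hst
  have sts : ∀ i, st (i + 1) = nx S χ (st i) := fun i => by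
    simp only [hst]; rw [Function.iterate_succ_apply']
  have stc : ∀ i, χ (st i).1 = χ y ∧ χ (st i).2 = χ x := fun i => it_col (w := (y, x)) hx i
  have stR : ∀ i ≤ n, (st i).1 ∈ R ∧ (st i).2 ∈ R := fun i hi => (hn3 i hi).2
  have tri : ∀ i ≤ n, ((st i).1, (st i).2, th S (st i)) ∈ delT S := fun i hi =>
    th_spec (hn3 i hi).1
  -- the left and the right chain
  set TL : Set ℂ := {s | χ s = χ y ∧ c0 < X z0 e s ∧ X z0 e s < c1} with hTL
  set TR : Set ℂ := {s | χ s = χ x ∧ c0 < X z0 e s ∧ X z0 e s < c1} with hTR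
  have mL : ∀ i ≤ n, (st i).1 ∈ TL := fun i hi => ⟨(stc i).1, hR _ (stR i hi).1⟩
  have mR : ∀ i ≤ n, (st i).2 ∈ TR := fun i hi => ⟨(stc i).2, hR _ (stR i hi).2⟩
  have left : ∀ i ≤ n, Lk S TL y (st i).1 := by
    intro i
    induction i with
    | zero => exact fun _ => Lk.refl (mL 0 (Nat.zero_le _))
    | succ i ih =>
      intro hi
      refine (ih (by omega)).trans ⟨⟨mL i (by omega), mL (i + 1) hi⟩, ?_⟩
      have hs := sts i
      unfold nx at hs
      split_ifs at hs
      · have e1 : (st (i + 1)).1 = th S (st i) := by rw [hs]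
        refine .single ⟨?_, mL i (by omega), mL (i + 1) hi⟩
        rw [e1]
        exact Or.inr ⟨_, Blkx838.rot_mem (Blkx838.rot_mem (tri i (by omega)))⟩
      · have : (st (i + 1)).1 = (st i).1 := by rw [hs]
        rw [this]
  have right : ∀ i ≤ n, Lk S TR x (st i).2 := by
    intro i
    induction i with
    | zero => exact fun _ => Lk.refl (mR 0 (Nat.zero_le _))
    | succ i ih =>
      intro hi
      refine (ih (by omega)).trans ⟨⟨mR i (by omega), mR (i + 1) hi⟩, ?_⟩
      have hs := sts i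
      unfold nx at hs
      split_ifs at hs
      · have : (st (i + 1)).2 = (st i).2 := by rw [hs]
        rw [this]
      · have e1 : (st (i + 1)).2 = th S (st i) := by rw [hs]
        refine .single ⟨?_, mR i (by omega), mR (i + 1) hi⟩
        rw [e1]
        exact Or.inl ⟨_, Blkx838.rot_mem (tri i (by omega))⟩
  obtain ⟨w1, lw1, hw1⟩ := A.bw
  obtain ⟨w2, lw2, hw2⟩ := A.be
  obtain ⟨w3, lw3, hw3⟩ := A.ww
  obtain ⟨w4, lw4, hw4⟩ := A.we
  -- not below
  have low : ∀ s : ℂ, c0 < X z0 e s → X z0 e s < c1 → ∀ t, t ∈ TR → Lk S TR x t → (s = t ∨ DE S s t) →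
      b0 < Y z0 e s := by
    intro s hs0 hs1 t htR ht hst'
    by_contra hcon
    push Not at hcon
    set T : Set ℂ := {s | (χ s ≠ χ y ∨ Y z0 e s ≤ b0) ∧ c0 < X z0 e s ∧ X z0 e s < c1} with hT
    have sT : s ∈ T := ⟨Or.inr hcon, hs0, hs1⟩
    have t1 : Lk S T x t := ht.mono fun r hr => ⟨Or.inl (by rw [hr.1]; exact hxy), hr.2⟩
    have t2 : Lk S T s t := by
      rcases hst' with rfl | hd
      · exact Lk.refl sT
      · exact ⟨⟨sT, t1.1.2⟩, .single ⟨hd, sT, t1.1.2⟩⟩
    have t3 : Lk S T x (up.head h.nu) := by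
      refine up_lk h (fun s hs => ?_) (List.getLast_mem _) (List.head_mem _)
      have hw := hwin s (by simp [hs])
      exact ⟨Or.inl (up_col h hc hs), by linarith, by linarith⟩
    obtain ⟨r, r1, r2⟩ := cross_lk (y0 := b0) (y1 := b1) (x0 := c0) (x1 := c1) hS he
      (lw1.symm.trans lw2) (t2.trans (t1.symm.trans t3)) (fun s hs => hs.2) (fun s hs => hs.2)
      (by linarith) (by linarith) hcon h.top
    rcases r2.1 with r3 | r3
    · exact r3 r1.1
    · linarith [r1.2.1]
  -- not above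
  have high : ∀ s : ℂ, c0 < X z0 e s → X z0 e s < c1 → ∀ t, t ∈ TL → Lk S TL y t →
      (s = t ∨ DE S s t) → Y z0 e s < b1 := by
    intro s hs0 hs1 t htL ht hst'
    by_contra hcon
    push Not at hcon
    set T : Set ℂ := {s | (χ s = χ y ∨ b1 ≤ Y z0 e s ∨ s ∈ dn) ∧ c0 < X z0 e s ∧ X z0 e s < c1}
      with hT
    have sT : s ∈ T := ⟨Or.inr (Or.inl hcon), hs0, hs1⟩
    have t1 : Lk S T y t := ht.mono fun r hr => ⟨Or.inl hr.1, hr.2⟩
    have t2 : Lk S T s t := by
      rcases hst' with rfl | hd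
      · exact Lk.refl sT
      · exact ⟨⟨sT, t1.1.2⟩, .single ⟨hd, sT, t1.1.2⟩⟩
    have hdT : ∀ s ∈ dn, s ∈ T := fun s hs => by
      have hw := hwin s (by simp [hs])
      exact ⟨Or.inr (Or.inr hs), by linarith, by linarith⟩
    have t3 : Lk S T (dn.head h.nd) (dn.getLast h.nd) := dn_lk h hdT (List.head_mem _)
    have t4 : Lk S T y (dn.head h.nd) :=
      ⟨⟨t1.1.1, hdT _ (List.head_mem _)⟩, .single ⟨y_dn h, t1.1.1, hdT _ (List.head_mem _)⟩⟩
    have l3 := lk_mem lw3
    have l4 := lk_mem lw4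
    obtain ⟨r, r1, r2⟩ := cross_lk (y0 := b0) (y1 := b1) (x0 := c0) (x1 := c1) hS he
      (l3.symm.trans l4) ((t4.trans t3).symm.trans (t1.trans t2.symm)) (fun s hs => hs.1.2.1)
      (fun s hs => hs.2) hw3 hw4 h.bot hcon
    rcases r2.1 with r3 | r3 | r3
    · exact hxy (r1.1.1.symm.trans r3)
    · linarith [r1.1.2.1.2]
    · exact ww_dn hS h he hc (by linarith) (by linarith) hxy A r1.2 rfl r3
  refine ⟨n, hn1, fun i hi => ?_⟩
  have e1 := hn3 i hi
  have d1 : DE S (st i).1 (st i).2 := Or.inl ⟨_, tri i hi⟩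
  have hl := hR _ (stR i hi).1
  have hr := hR _ (stR i hi).2
  exact ⟨e1.1, ⟨e1.2.1, low _ hl.1 hl.2 _ (mR i hi) (right i hi) (Or.inr d1),
    high _ hl.1 hl.2 _ (mL i hi) (left i hi) (Or.inl rfl)⟩,
    e1.2.2, low _ hr.1 hr.2 _ (mR i hi) (right i hi) (Or.inl rfl),
    high _ hr.1 hr.2 _ (mL i hi) (left i hi) (Or.inr d1.symm)⟩

/-- the black arms of `Arms` -/
theorem Arms.mono_be {x : ℂ} (A : Arms S χ z0 e b0 b1 c0 c1 k0 k1 y x) (h0 : k0 ≤ c0)
    (h1 : a1 ≤ k1) : (∃ w, Lk S {s | χ s = χ y ∧ b0 < Y z0 e s ∧ Y z0 e s < b1} y w ∧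
      X z0 e w ≤ c0) ∧ ∃ w, Lk S {s | χ s = χ y ∧ b0 < Y z0 e s ∧ Y z0 e s < b1} y w ∧
      a1 ≤ X z0 e w := by
  obtain ⟨w1, l1, h2⟩ := A.bw
  obtain ⟨w2, l2, h3⟩ := A.be
  exact ⟨⟨w1, l1, h2.trans h0⟩, ⟨w2, l2, h1.trans h3⟩⟩

/-- **orientation**, region without a condition on `Y` -/
theorem orient2 (hS : GP (S : Set ℂ)) (hχ : HullC S χ)
    (h : Neck S z0 e a0 a1 b0 b1 m V β up y dn) (he : e ≠ 0)
    (hc : ∀ s ∈ V, (χ s = χ y ↔ s ∈ β)) (hy : ¬ OnHull S y) (hc0 : c0 ≤ a0) (hc1 : a1 ≤ c1)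
    (hk0 : k0 ≤ c0) (hk1 : c1 ≤ k1) (hx : χ y + χ (up.getLast h.nu) = 1)
    (A : Arms S χ z0 e b0 b1 c0 c1 k0 k1 y (up.getLast h.nu)) {R : Set ℂ}
    (hR : ∀ s ∈ R, c0 < X z0 e s ∧ X z0 e s < c1) {p q : D0 S}
    (hp : p.1 = (y, up.getLast h.nu)) (hq : a1 ≤ X z0 e q.1.1) :
    ¬ FA (cm0 hS) (xc hS hχ) (RD S R) p q := by
  intro hF
  have hp1 : xc hS hχ p = 1 := by
    show χ p.1.1 + χ p.1.2 = 1
    rw [hp]; exact hx
  have h1 := (fa_iff hS hχ hp1).1 hF
  rw [hp] at h1
  have h2 := strip hS h he hc hc0 hc1 hk0 hk1 hx A hR h1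
  obtain ⟨⟨w1, l1, h3⟩, ⟨w2, l2, h4⟩⟩ := A.mono_be (a1 := a1) hk0 (hc1.trans hk1)
  exact orient_nx hS h he hc hy hc0 (fun s hs => ⟨(hR s hs.1).1, hs.2⟩) l1 h3 l2 h4 hx hq h2

/-- **all arcs of the corridor are backward**, enlarged regions `B k` -/
theorem _root_.Crest.Agent.R143.CorrDx117.DCorr.back2 {hS : GP (S : Set ℂ)} {hχ : HullC S χ} {n : ℕ}
    {y z : ℕ → ℂ} {A B : ℕ → Set ℂ} {p : ℕ → D0 S} (D : DCorr hS hχ n y z A B p) {k : ℕ}
    (hk : k < n) (h : NeckD S z0 e a0 a1 b0 b1 m V β (y k) (z k)) (he : e ≠ 0)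
    (hc : ∀ s ∈ V, (χ s = χ (y k) ↔ s ∈ β))
    (hc0 : c0 ≤ a0) (hc1 : a1 ≤ c1) (hk0 : k0 ≤ c0) (hk1 : c1 ≤ k1)
    (Ar : Arms S χ z0 e b0 b1 c0 c1 k0 k1 (y k) (z k))
    (hR : ∀ s ∈ B k, c0 < X z0 e s ∧ X z0 e s < c1) (hX : a1 ≤ X z0 e (y (k + 1))) :
    (∀ k, k < n → FA (cm0 hS) (xc hS hχ) (RD S (B k)) (p (k + 1)) (p k)) ∧
      ∀ k, k < n → ¬ FA (cm0 hS) (xc hS hχ) (RD S (B k)) (p k) (p (k + 1)) := by
  obtain ⟨up, dn, h, hz⟩ := h
  have hy : ¬ OnHull S (y k) := D.innA k hk _ (D.yS hk.le) (D.mem0 k hk)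
  refine D.corr.dir_back hk ?_
  refine orient2 hS hχ h he hc hy hc0 hc1 hk0 hk1 (by rw [hz]; exact D.col k hk.le)
    (by rw [hz]; exact Ar) hR (by rw [hz]; exact D.st k hk.le) ?_
  rw [D.st (k + 1) hk]
  exact hX

end Crest.Agent.R143.OrientDx881
end
end

-- ▼ part R143/OrientF_881
section

/-!
# Row 143 (S0194), R1g: orientation of the corridor along a fine path (helper881)

* `arms_of` : five straight tiles `g - 2, .., g + 2` in use round the gate `g` give the long chains `Arms`
* **`back_path`** : 503's events along a fine path, DCorr of `CorP_503.corr`, five straight tiles round one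
  inner gate `g` ==> **all arcs of the corridor are backward** (hypothesis `hf` of `DCorr.main_back`)
-/

set_option autoImplicit false

noncomputable section

open scoped Classical

namespace Crest.Agent.R143.OrientFx881

open Crest.Agent.R143.B0x346 Crest.Agent.R143.DelGx806 Crest.Agent.R143.DelRx806
open Crest.Agent.R143.Blkx838 (DE)
open Crest.Agent.R143.Gatex838 (X Y)
open Crest.Agent.R143.Frame10x395 Crest.Agent.R143.WLocx713 Crest.Agent.R143.Splx117
open Crest.Agent.R143.RingDx117 Crest.Agent.R143.CorrDx117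
open Crest.Agent.R143.TileRx228 Crest.Agent.R143.PathDx503 Crest.Agent.R143.RingPx503
open Crest.Agent.R143.Neckx921 Crest.Agent.R143.Orientx881 Crest.Agent.R143.OrientDx881

variable {S V β : Finset ℂ} {χ : ℂ → ZMod 2} {h A B A' B' m m' τ κ bb : ℝ} {a0 a1 b0 b1 : ℝ}
  {M : ℕ} {W : ℤ → ℤ × ℤ} {b : ZMod 2} {P : ℤ → Prop} {y x : ℤ → ℂ} {U : Set ℂ}

theorem zm2 {b u v : ZMod 2} (h : b + v = 1) (h' : u ≠ b) : u = v := by
  revert b u v; decide

/-- the white site of a gate is in the window -/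
theorem neck_x {z0 e : ℂ} {a0 a1 b0 b1 m : ℝ} {y x : ℂ} (h : NeckD S z0 e a0 a1 b0 b1 m V β y x) :
    a0 < X z0 e x ∧ X z0 e x < a1 := by
  obtain ⟨up, dn, h, rfl⟩ := h
  exact (h.win _ (by simp [List.getLast_mem h.nu])).1

/-- the straight tile `j` in the frame of the gate `g`, `i = j - g` -/
theorem tile_frame (F : FPath M W) (hA : 0 < A) (hAB : A ≤ B) {g : ℤ}
    (hs : ∀ j, g - 2 ≤ j → j ≤ g + 2 → ge W (j + 1) = ge W j) (s : ℂ) :
    (s ∈ RR A B h W (g - 2) → (-(3 * h / 2) - B < X (gz h W g) (ge W g) s ∧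
      X (gz h W g) (ge W g) s < -(3 * h / 2) + B) ∧ |Y (gz h W g) (ge W g) s| < A) ∧
    (s ∈ RR A B h W (g - 1) → (-(h / 2) - B < X (gz h W g) (ge W g) s ∧
      X (gz h W g) (ge W g) s < -(h / 2) + B) ∧ |Y (gz h W g) (ge W g) s| < A) ∧
    (s ∈ RR A B h W g → (h / 2 - B < X (gz h W g) (ge W g) s ∧
      X (gz h W g) (ge W g) s < h / 2 + B) ∧ |Y (gz h W g) (ge W g) s| < A) ∧
    (s ∈ RR A B h W (g + 1) → (3 * h / 2 - B < X (gz h W g) (ge W g) s ∧
      X (gz h W g) (ge W g) s < 3 * h / 2 + B) ∧ |Y (gz h W g) (ge W g) s| < A) ∧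
    (s ∈ RR A B h W (g + 2) → (5 * h / 2 - B < X (gz h W g) (ge W g) s ∧
      X (gz h W g) (ge W g) s < 5 * h / 2 + B) ∧ |Y (gz h W g) (ge W g) s| < A) := by
  have n2 := next_S F (hs (g - 2) (by omega) (by omega)) h s
  have n1 := next_S F (hs (g - 1) (by omega) (by omega)) h s
  have n0 := next_S F (hs g (by omega) (by omega)) h s
  have p1 := next_S F (hs (g + 1) (by omega) (by omega)) h s
  rw [show g - 2 + 1 = g - 1 by ring] at n2
  rw [show g - 1 + 1 = g by ring] at n1
  rw [show g + 1 + 1 = g + 2 by ring] at p1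
  refine ⟨fun hh => ?_, fun hh => ?_, fun hh => ?_, fun hh => ?_, fun hh => ?_⟩
  · have := (frame_S F hA hAB (hs (g - 2) (by omega) (by omega))).1 hh
    rw [n1.1, n2.1, n1.2, n2.2]
    exact ⟨⟨by linarith [this.1.1], by linarith [this.1.2]⟩, this.2⟩
  · have := (frame_S F hA hAB (hs (g - 1) (by omega) (by omega))).1 hh
    rw [n1.1, n1.2]
    exact ⟨⟨by linarith [this.1.1], by linarith [this.1.2]⟩, this.2⟩
  · exact (frame_S F hA hAB (hs g (by omega) (by omega))).1 hh
  · have := (frame_S F hA hAB (hs (g + 1) (by omega) (by omega))).1 hh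
    rw [n0.1, n0.2] at this
    exact ⟨⟨by linarith [this.1.1], by linarith [this.1.2]⟩, this.2⟩
  · have := (frame_S F hA hAB (hs (g + 2) (by omega) (by omega))).1 hh
    rw [p1.1, p1.2, n0.1, n0.2] at this
    exact ⟨⟨by linarith [this.1.1], by linarith [this.1.2]⟩, this.2⟩

/-- the gates in the frame of the gate `g` -/
theorem gate_frame (F : FPath M W) (h : ℝ) {g : ℤ}
    (hs : ∀ j, g - 2 ≤ j → j ≤ g + 2 → ge W (j + 1) = ge W j) (s : ℂ) :
    X (gz h W g) (ge W g) s = X (gz h W (g - 2)) (ge W (g - 2)) s - 2 * h ∧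
    X (gz h W g) (ge W g) s = X (gz h W (g - 1)) (ge W (g - 1)) s - h ∧
    X (gz h W g) (ge W g) s = X (gz h W (g + 1)) (ge W (g + 1)) s + h ∧
    X (gz h W g) (ge W g) s = X (gz h W (g + 2)) (ge W (g + 2)) s + 2 * h ∧
    X (gz h W g) (ge W g) s = X (gz h W (g + 3)) (ge W (g + 3)) s + 3 * h := by
  have n2 := next_S F (hs (g - 2) (by omega) (by omega)) h s
  have n1 := next_S F (hs (g - 1) (by omega) (by omega)) h s
  have n0 := next_S F (hs g (by omega) (by omega)) h s
  have p1 := next_S F (hs (g + 1) (by omega) (by omega)) h s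
  have p2 := next_S F (hs (g + 2) (by omega) (by omega)) h s
  rw [show g - 2 + 1 = g - 1 by ring] at n2
  rw [show g - 1 + 1 = g by ring] at n1
  rw [show g + 1 + 1 = g + 2 by ring] at p1
  rw [show g + 2 + 1 = g + 3 by ring] at p2
  refine ⟨?_, ?_, ?_, ?_, ?_⟩ <;> linarith [n2.1, n1.1, n0.1, p1.1, p2.1]

/-- **the long chains round a gate with five straight tiles** -/
theorem arms_of (E : Evp S V β h A B a0 a1 b0 b1 m' W P y x) (F : FPath M W) (hA : 0 < A)
    (hAB : A ≤ B) (hβ : ∀ s ∈ V, χ s = b ↔ s ∈ β) (hβV : β ⊆ V) (s0 : b0 ≤ -A) (s1 : A ≤ b1)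
    {g : ℤ} (hs : ∀ j, g - 2 ≤ j → j ≤ g + 2 → ge W (j + 1) = ge W j)
    (hP : ∀ j, g - 2 ≤ j → j ≤ g + 2 → P j) {c0 c1 : ℝ} (q1 : a1 + B ≤ 3 * h / 2)
    (q0 : B - a0 ≤ 3 * h / 2) (q2 : a1 - h ≤ c0) (q3 : c1 ≤ 2 * h + a0) :
    Arms S χ (gz h W g) (ge W g) b0 b1 c0 c1 (-(h / 2) - B) (3 * h / 2 + B) (y g) (x g) := by
  have Pn2 := hP (g - 2) (by omega) (by omega)
  have Pn1 := hP (g - 1) (by omega) (by omega)
  have P0 := hP g (by omega) (by omega)
  have P1 := hP (g + 1) (by omega) (by omega)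
  have P2 := hP (g + 2) (by omega) (by omega)
  have G0 := E.gate g (Or.inl P0)
  have hy := (neck_col hβ G0).1
  have hyx := (neck_col hβ G0).2
  have tf := fun s => tile_frame (h := h) F hA hAB hs s
  -- colours
  have cb : ∀ s ∈ β, χ s = χ (y g) := fun s hs => by rw [hy]; exact (hβ s (hβV hs)).2 hs
  have cw : ∀ s, s ∈ V → s ∉ β → χ s = χ (x g) := fun s h1 h2 => by
    have h3 : χ s ≠ b := fun hh => h2 ((hβ s h1).1 hh)
    rw [hy] at hyx
    exact zm2 hyx h3
  have yb : ∀ {s : ℂ}, |Y (gz h W g) (ge W g) s| < A →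
      b0 < Y (gz h W g) (ge W g) s ∧ Y (gz h W g) (ge W g) s < b1 := fun {s} hh => by
    obtain ⟨h1, h2⟩ := abs_lt.1 hh
    exact ⟨by linarith, by linarith⟩
  have Tn2 := E.tile (g - 2) Pn2
  have Tn1 := E.tile (g - 1) Pn1
  have T0 := E.tile g P0
  have T1 := E.tile (g + 1) P1
  have T2 := E.tile (g + 2) P2
  rw [show g - 2 + 1 = g - 1 by ring] at Tn2
  rw [show g - 1 + 1 = g by ring] at Tn1
  rw [show g + 1 + 1 = g + 2 by ring] at T1
  rw [show g + 2 + 1 = g + 3 by ring] at T2
  have Gn2 := E.gate (g - 2) (Or.inl Pn2)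
  have Gn1 := E.gate (g - 1) (Or.inl Pn1)
  have G2 := E.gate (g + 2) (Or.inl P2)
  have G3 := E.gate (g + 3) (Or.inr (by rw [show g + 3 - 1 = g + 2 by ring]; exact P2))
  have hh0 : 0 < h := by
    have := (neck_win G0).1
    linarith
  set TB : Set ℂ := {s | χ s = χ (y g) ∧ b0 < Y (gz h W g) (ge W g) s ∧
    Y (gz h W g) (ge W g) s < b1} with hTB
  have l1 : Lk S TB (y g) (y (g - 1)) :=
    Tn1.1.symm.mono fun s hs => ⟨cb s hs.1, yb ((tf s).2.1 hs.2).2⟩
  have l2 : Lk S TB (y (g - 1)) (y (g - 2)) :=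
    Tn2.1.symm.mono fun s hs => ⟨cb s hs.1, yb ((tf s).1 hs.2).2⟩
  have l3 : Lk S TB (y g) (y (g + 1)) :=
    T0.1.mono fun s hs => ⟨cb s hs.1, yb ((tf s).2.2.1 hs.2).2⟩
  have l4 : Lk S TB (y (g + 1)) (y (g + 2)) :=
    T1.1.mono fun s hs => ⟨cb s hs.1, yb ((tf s).2.2.2.1 hs.2).2⟩
  have l5 : Lk S TB (y (g + 2)) (y (g + 3)) :=
    T2.1.mono fun s hs => ⟨cb s hs.1, yb ((tf s).2.2.2.2 hs.2).2⟩
  set TW : Set ℂ := {s | χ s = χ (x g) ∧ (b0 < Y (gz h W g) (ge W g) s ∧
    Y (gz h W g) (ge W g) s < b1) ∧ -(h / 2) - B < X (gz h W g) (ge W g) s ∧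
    X (gz h W g) (ge W g) s < 3 * h / 2 + B} with hTW
  have l6 : Lk S TW (x g) (x (g + 1)) := T0.2.mono fun s hs => by
    obtain ⟨⟨h1, h2⟩, h3⟩ := (tf s).2.2.1 hs.2
    exact ⟨cw s hs.1.1 hs.1.2, yb h3, by linarith, by linarith⟩
  have l7 : Lk S TW (x (g + 1)) (x (g + 2)) := T1.2.mono fun s hs => by
    obtain ⟨⟨h1, h2⟩, h3⟩ := (tf s).2.2.2.1 hs.2
    exact ⟨cw s hs.1.1 hs.1.2, yb h3, by linarith, by linarith⟩
  refine ⟨⟨y (g - 2), ?_, ?_⟩, ⟨y (g + 3), ?_, ?_⟩, ⟨x (g - 1), ?_, ?_⟩, ⟨x (g + 2), ?_, ?_⟩⟩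
  · exact l1.trans l2
  · rw [(gate_frame F h hs _).1]
    linarith [(neck_win Gn2).1.2]
  · exact l3.trans (l4.trans l5)
  · rw [(gate_frame F h hs _).2.2.2.2]
    linarith [(neck_win G3).1.1]
  · refine Tn1.2.symm.mono fun s hs => ?_
    obtain ⟨⟨h1, h2⟩, h3⟩ := (tf s).2.1 hs.2
    exact ⟨cw s hs.1.1 hs.1.2, yb h3, by linarith, by linarith⟩
  · rw [(gate_frame F h hs _).2.1]
    linarith [(neck_x Gn1).2]
  · exact l6.trans l7
  · rw [(gate_frame F h hs _).2.2.2.1]
    linarith [(neck_x G2).1]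

/-- **all arcs of the corridor of a fine path are backward** -/
theorem back_path {hS : GP (S : Set ℂ)} {hχ : HullC S χ} {n : ℕ} {o : ℤ} {p : ℕ → D0 S}
    (D : DCorr hS hχ n (fun k : ℕ => y (o + k)) (fun k : ℕ => x (o + k))
      (fun k : ℕ => RR A B h W (o + k)) (fun k : ℕ => RR (A + τ) (B + τ) h W (o + k)) p)
    (E : Evp S V β h A B a0 a1 b0 b1 m' W P y x) (F : FPath M W) (hA : 0 < A)
    (hAB : A ≤ B) (hβ : ∀ s ∈ V, χ s = b ↔ s ∈ β) (hβV : β ⊆ V) (s0 : b0 ≤ -A) (s1 : A ≤ b1)
    (hτ : 0 ≤ τ) (hτh : τ ≤ h) {k : ℕ} (hk : k < n)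
    (hs : ∀ j, o + k - 2 ≤ j → j ≤ o + k + 2 → ge W (j + 1) = ge W j)
    (hP : ∀ j, o + k - 2 ≤ j → j ≤ o + k + 2 → P j) (q1 : a1 + B + τ ≤ 3 * h / 2)
    (q0 : B + τ - a0 ≤ 3 * h / 2) (q4 : h / 2 - B - τ ≤ a0) (q5 : a1 ≤ h / 2 + B + τ) :
    (∀ k, k < n → FA (cm0 hS) (xc hS hχ) (RD S (RR (A + τ) (B + τ) h W (o + k))) (p (k + 1)) (p k)) ∧
      ∀ k, k < n → ¬ FA (cm0 hS) (xc hS hχ) (RD S (RR (A + τ) (B + τ) h W (o + k))) (p k)
        (p (k + 1)) := by
  have G0 := E.gate (o + k) (Or.inl (hP _ (by omega) (by omega)))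
  have G1 := E.gate (o + k + 1) (Or.inl (hP _ (by omega) (by omega)))
  have hy := (neck_col hβ G0).1
  refine D.back2 (c0 := h / 2 - (B + τ)) (c1 := h / 2 + (B + τ)) (k0 := -(h / 2) - B)
    (k1 := 3 * h / 2 + B) hk G0 (ge_ne F _) (fun s hs => by rw [hy]; exact hβ s hs) (by linarith)
    (by linarith) (by linarith) (by linarith)
    (arms_of E F hA hAB hβ hβV s0 s1 hs hP (by linarith) (by linarith) (by linarith) (by linarith))
    (fun s hh => ?_) ?_
  · exact ((frame_S F (by linarith) (by linarith) (hs (o + k) (by omega) (by omega))).1 hh).1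
  · have e1 : ((k + 1 : ℕ) : ℤ) = (k : ℤ) + 1 := by push_cast; rfl
    show a1 ≤ X _ _ (y (o + ((k + 1 : ℕ) : ℤ)))
    rw [e1, ← add_assoc, (gate_frame F h hs _).2.2.1]
    linarith [(neck_win G1).1.1]

end Crest.Agent.R143.OrientFx881
end
end

-- ▼ part R143/CorrA_831

/-!
# Row 143 (S0194), RIG, composition CorrI, part A (helper831): from `CorH` to the strand

* `bst` : enlarged strips `RR (19/2 η) (103/2 η) (100 η) W a`; `Rts` : the inner out strips
* `CorH.back` : all arcs are backward (one gate with five straight tiles)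
* `CorH.h0`, `CorH.hn` : the first and the last gate are off the inner strips
* `CorH.strand` : 117's strand + 169's regions + spatial charges (832)
-/

set_option autoImplicit false
set_option linter.all false

noncomputable section

open scoped Classical

namespace Crest.Agent.R143.CorrIx831

open Set
open Crest.Agent.R143.B0x346 Crest.Agent.R143.DelGx806 Crest.Agent.R143.DelRx806
  Crest.Agent.R143.JColx54
open Crest.Agent.R143.Frame1x395 Crest.Agent.R143.Frame2x395 Crest.Agent.R143.Frame3x395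
  Crest.Agent.R143.Frame4x395 Crest.Agent.R143.Frame8x395 Crest.Agent.R143.Frame9x395
  Crest.Agent.R143.Frame10x395 Crest.Agent.R143.Frame11x395
open Crest.Agent.R143.Frame5x395 (sd mem_sd th th_spec)
open Crest.Agent.R143.Locx922
open Crest.Agent.R143.Splx117 Crest.Agent.R143.WLocx713
open Crest.Agent.R143.Blkx838 (DE)
open Crest.Agent.R143.Neckx921 (Neck NeckD Tile Lk)
open Crest.Agent.R143.PP0x831 Crest.Agent.R143.FinMx609
open Crest.Agent.R143.RingDx117 (RD DRing StC StR)
open Crest.Agent.R143.CorrDx117 (DCorr)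
open Crest.Agent.R143.TileRx228 Crest.Agent.R143.PathDx503 Crest.Agent.R143.PathGx503
open Crest.Agent.R143.RingPx503 Crest.Agent.R143.DCorGx713 Crest.Agent.R143.DCorFx713
open Crest.Agent.R143.CorHx713
open Crest.Agent.R143.Sptx169 Crest.Agent.R143.Sptx832 Crest.Agent.R143.Spt2x832
open Crest.Agent.R143.StrBx117 (Str)

/-- enlarged strip of the tile `a` -/
abbrev bst (η : ℝ) (W : ℤ → ℤ × ℤ) (a : ℤ) : Set ℂ := RR (19 / 2 * η) (103 / 2 * η) (100 * η) W a

/-- the enlarged strips of the inner out tiles `o + 1, .., o + n - 2` -/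
def Rts (η : ℝ) (W : ℤ → ℤ × ℤ) (o : ℤ) (n : ℕ) : Set ℂ :=
  {s | ∃ k : ℕ, 0 < k ∧ k + 1 < n ∧ s ∈ bst η W (o + k)}

variable {X : Set (ℂ × Bool)} {U : Set ℂ} {M : ℕ} {W : ℤ → ℤ × ℤ} {η d : ℝ} {o : ℤ} {n : ℕ}

/-- **all arcs are backward** -/
theorem back (H : CorH X U M W η d o n) {r : ℕ} (hr : 2 ≤ r) (hrn : r + 2 < n)
    (hs : ∀ j, o + r - 2 ≤ j → j ≤ o + r + 2 → ge W (j + 1) = ge W j) :
    (∀ k : ℕ, k < n → FA (cm0 H.gp) (xc H.gp H.hull) (RD (sX X) (bst η W (o + k))) (H.p (k + 1))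
      (H.p k)) ∧
      ∀ k : ℕ, k < n → ¬ FA (cm0 H.gp) (xc H.gp H.hull) (RD (sX X) (bst η W (o + k))) (H.p k)
        (H.p (k + 1)) := by
  have h1 := H.e0
  have D := H.corr
  have e1 : 19 / 2 * η = 9 * η + η / 2 := by ring
  have e2 : 103 / 2 * η = 51 * η + η / 2 := by ring
  unfold bst
  rw [e1, e2] at D ⊢
  exact OrientFx881.back_path (b := 1) D H.evp H.path (by linarith) (by linarith) bX_iff bX_sub
    (by linarith) (by linarith) (by linarith) (by linarith) (k := r) (by omega) hs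
    (fun j h2 h3 => ⟨by omega, by omega⟩) (by linarith) (by linarith) (by linarith) (by linarith)

/-- a site of a strip of the corridor is inner -/
theorem inn_bst (H : CorH X U M W η d o n) {a : ℤ} {v : ℂ} (hv : v ∈ bst η W a) :
    ¬ OnHull (sX X) v := by
  have h1 := H.e0
  exact H.inn (H.sub_U (by linarith) (by linarith) a hv)

/-- the gates `0` and `n` are off the inner strips -/
theorem y_off (H : CorH X U M W η d o n) {j : ℕ} (hj : j = 0 ∨ j = n) :
    yy η W X (o + j) ∉ Rts η W o n := by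
  rintro ⟨k, h1, h2, h3⟩
  exact H.corr.far k j (by omega) (by omega) (by omega) (by omega) h3

end Crest.Agent.R143.CorrIx831
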