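import Crest.Agent.R143.Sep3_686
import Crest.Agent.R143.SepL_686
import Crest.Agent.R143.EvG_168
import Crest.Agent.R143.RcT_422
import Crest.Agent.R143.SepH_697
import Crest.Agent.R143.RegS_523
import Crest.Agent.R143.CorrA_831
import Crest.Agent.R143.R10P_923
import Crest.Agent.R143.C2SC_395
import Crest.Agent.R143.TlR_709
import Crest.Agent.R143.CorH_713
import Crest.Agent.R143.CorrC_831
import Crest.Agent.R143.ZnL_903
import Crest.Agent.R143.LnkM_927

-- ▼ part R143/LowD_568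
section

/-!
# Row 143 (S0194), RIG: the fields LOW and DN of the connectors (helper568; on 686's separation)

* `neck_low_nb` : a neighbour of a white site joined to the upper arm of a neck is above `b0`
* `low_left`, `low_right` : the left and right sites of the two arcs at an inner straight gate are
  above `b0`
* `dn_left`, `dn_right` : the lower arm of an inner straight gate contains no left and no right site
  of the arcs
* **`sep_all`** : 686's `sep_chain` for ALL straight inner gates `k ∈ I` at once: the regions of the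
  ring are cut at the level `b0` in the two tiles of every such gate, so `K` may contain the lower
  parts of all straight tiles; the edges of the closed white chain lie in the cut regions; all sites
  of the lower arms have index `-2π`
* `idx_on` : the index is `-2π` on preconnected sets off the cut regions
* **`low_arc`** : a site below the level `b0` at a straight inner gate, off the other regions, is no
  left and no right site of the arcs
* `not_ext` : a site of index `-2π` is not joined to the hull off `Z`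
-/

set_option autoImplicit false

noncomputable section

open scoped Classical

namespace Crest.Agent.R143.LowDx568

open Crest.Agent.R143.B0x346 Crest.Agent.R143.DelGx806 Crest.Agent.R143.DelRx806
open Crest.Agent.R143.ToolWx838 Crest.Agent.R143.Blkx838 Crest.Agent.R143.ToolW2x838
open Crest.Agent.R143.ToolW3x838 Crest.Agent.R143.Gatex838 Crest.Agent.R143.Neckx921
open Crest.Agent.R143.Frame1x395 Crest.Agent.R143.Frame2x395 Crest.Agent.R143.Frame3x395
  Crest.Agent.R143.Frame4x395 Crest.Agent.R143.Frame8x395 Crest.Agent.R143.Frame9x395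
  Crest.Agent.R143.Frame10x395 Crest.Agent.R143.Frame11x395
open Crest.Agent.R143.Frame5x395 (sd mem_sd th th_spec)
open Crest.Agent.R143.Splx117 Crest.Agent.R143.WLocx713 Crest.Agent.R143.RingDx117
  Crest.Agent.R143.CorrDx117
open Crest.Agent.R143.Sepx686
open Crest.Agent.R143.Idxx927 (RingP cyc wl)

variable {S : Finset ℂ} {χ : ℂ → ZMod 2}

/-- **a neighbour of a white site joined to the upper arm is above the level `b0`** -/
theorem neck_low_nb (hS : GP (S : Set ℂ)) {z0 e : ℂ} (he : e ≠ 0) {a0 a1 b0 b1 m x0 x1 : ℝ}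
    {V β : Finset ℂ} {up dn : List ℂ} {y : ℂ} (N : Neck S z0 e a0 a1 b0 b1 m V β up y dn)
    (h0 : x0 ≤ a0) (h1 : a1 ≤ x1) {P : List ℂ} (hP : P ≠ []) (dP : ∀ p ∈ prs P, DE S p.1 p.2)
    (cP : ∀ s ∈ P, s ∈ β) (hPy : ∀ a ∈ P, b0 < Y z0 e a ∧ Y z0 e a < b1)
    (hP0 : X z0 e (P.head hP) ≤ x0) (hP1 : x1 ≤ X z0 e (P.getLast hP)) {W : Set ℂ}
    (hW : ∀ s ∈ W, (x0 < X z0 e s ∧ X z0 e s < x1) ∧ s ∉ β) {r : ℂ}
    (h : Lk S W (up.getLast N.nu) r) {s : ℂ} (hrs : DE S r s)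
    (hs : x0 < X z0 e s ∧ X z0 e s < x1) : b0 < Y z0 e s := by
  have hadj := N.adj
  rw [← isChain_iff_prs, List.isChain_append] at hadj
  obtain ⟨c1, c2, -⟩ := hadj
  have hwin : ∀ s ∈ up ++ y :: dn, x0 < X z0 e s ∧ X z0 e s < x1 := fun s hs =>
    ⟨h0.trans_lt (N.win s hs).1.1, (N.win s hs).1.2.trans_le h1⟩
  have hup : ∀ s ∈ up, x0 < X z0 e s ∧ X z0 e s < x1 := fun s hs =>
    hwin s (List.mem_append_left _ hs)
  set U : Set ℂ := {a | (a ∈ up ∨ a ∈ W) ∨ a = s} with hU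
  have l1 : Lk S U (up.head N.nu) s := by
    refine Lk.trans (v := up.getLast N.nu) ?_
      ((h.mono fun s hs => Or.inl (Or.inr hs)).trans (lk_de ?_ (Or.inr rfl) (Or.inr hrs)))
    · exact lk_list ((isChain_iff_prs (R := DE S) up).1 c1) (fun s hs => Or.inl (Or.inl hs))
        (List.head_mem _) (List.getLast_mem _)
    · exact Or.inl (Or.inr h.1.2)
  by_contra hr
  push Not at hr
  obtain ⟨a, ha1, ha2⟩ := cross_lk hS he hP dP hPy hP0 hP1 (A := U)
    (by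
      rintro a ((ha | ha) | ha)
      · exact hup a ha
      · exact (hW a ha).1
      · rw [ha]; exact hs) l1.symm hr N.top
  rcases ha2 with (ha2 | ha2) | ha2
  · exact (N.cu a ha2).2 (cP a ha1)
  · exact (hW a ha2).2 (cP a ha1)
  · rw [ha2] at ha1
    exact absurd (hPy s ha1).1 (not_lt.2 hr)

/-- a left site has a right neighbour of the same time -/
theorem left_nb (hS : GP (S : Set ℂ)) (hχ : HullC S χ) {e : ℂ × ℂ} (h : Occ S χ e) {m : ℕ} {l : ℂ}
    (hl : l ∈ LS S χ e m) : ∃ r ∈ RS S χ e m, DE S r l := by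
  obtain ⟨i, hi, rfl⟩ := hl
  exact ⟨_, ⟨i, hi, rfl⟩, Or.inr ⟨_, th_spec (h.it hS hχ i).1⟩⟩

section corr

variable {hS : GP (S : Set ℂ)} {hχ : HullC S χ} {n : ℕ} {y z : ℕ → ℂ} {A B : ℕ → Set ℂ}
  {p : ℕ → D0 S} {t : ℕ → ℕ} {k0 : ℕ} {z0 e : ℂ} {a0 a1 b0 b1 m x0 x1 : ℝ} {V β : Finset ℂ}
  {up dn : List ℂ}

/-- the right sites of the two arcs at an inner straight gate are above `b0`; no right site of an arc
is on the lower arm -/
theorem low_right {D : DCorr hS hχ n y z A B p} (T : Back D t)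
    (G : InG S χ n y z A B k0 z0 e a0 a1 b0 b1 m x0 x1 V β up dn) {k : ℕ} (hk : k < n) {r : ℂ}
    (hr : r ∈ RS S χ (p (k + 1)).1 (t k)) :
    r ≠ y k0 ∧ r ∉ dn ∧ (k = k0 ∨ k + 1 = k0 → b0 < Y z0 e r) :=
  T.miss hS G.h2 G.h3 G.he G.neck G.upz G.x0a G.a1x G.β1 G.β2 G.strip G.left G.right G.mid G.farB
    hk hr

/-- **the left sites of the two arcs at an inner straight gate are above `b0`** -/
theorem low_left {D : DCorr hS hχ n y z A B p} (T : Back D t)
    (G : InG S χ n y z A B k0 z0 e a0 a1 b0 b1 m x0 x1 V β up dn) {k : ℕ} (hk : k < n)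
    (hk0 : k = k0 ∨ k + 1 = k0) {l : ℂ} (hl : l ∈ LS S χ (p (k + 1)).1 (t k)) :
    b0 < Y z0 e l := by
  obtain ⟨h2, h3, he, N, hup, h0, h1, hβ, hβ', hA, hX0, hX1, hB, -⟩ := G
  obtain ⟨r, hr, hrl⟩ := left_nb hS hχ (occ_p D (show k + 1 ≤ n by omega)) hl
  obtain ⟨P, hP, dP, mP, P0, P1⟩ := lk_to_list (links4 D h2 h3
    (G := {s | s ∈ β ∧ b0 < Y z0 e s ∧ Y z0 e s < b1})
    (fun j hj hj' s hsS hs hc => ⟨hβ j hj hj' s hsS hs hc, hA j hj hj' s hsS hs⟩))
  have hlk : Lk S (RS S χ (p (k + 1)).1 (t k)) (up.getLast N.nu) r := by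
    rw [hup]
    rcases hk0 with h | h
    · rw [← h]; exact (T.rlk hk hr).2
    · rw [← h]; exact (T.rlk hk hr).1
  exact neck_low_nb hS he N h0 h1 hP dP (fun s hs => (mP s hs).1)
    (fun s hs => (mP s hs).2) (by rw [P0]; exact hX0) (by rw [P1]; exact hX1)
    (W := RS S χ (p (k + 1)).1 (t k))
    (fun s hs => ⟨hB k (by omega) (by omega) s (RS_S D hk hs) (T.rB k hk hs),
      fun h => T.rcol hk hs (hβ' s h)⟩) hlk hrl (hB k (by omega) (by omega) l (LS_S D hk hl)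
      (T.lB k hk hl))

/-- **the lower arm of an inner straight gate contains no left site of the arcs** -/
theorem dn_left {D : DCorr hS hχ n y z A B p} (T : Back D t)
    (G : InG S χ n y z A B k0 z0 e a0 a1 b0 b1 m x0 x1 V β up dn)
    (hw : ∀ s ∈ dn, b0 < Y z0 e s → χ s ≠ χ (y 0)) {k : ℕ} (hk : k < n) {l : ℂ}
    (hl : l ∈ LS S χ (p (k + 1)).1 (t k)) : l ∉ dn := by
  intro h
  by_cases hk0 : k = k0 ∨ k + 1 = k0
  · exact hw l h (low_left T G hk hk0 hl) (T.lcol hk hl)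
  · push Not at hk0
    exact G.farB k hk hk0.1 hk0.2 l h (T.lB k hk hl)

/-- **a site below the level `b0` at an inner straight gate, off the other regions, is no left and no
right site of the arcs** -/
theorem low_arc {D : DCorr hS hχ n y z A B p} (T : Back D t)
    (G : InG S χ n y z A B k0 z0 e a0 a1 b0 b1 m x0 x1 V β up dn) {s : ℂ} (hs : Y z0 e s ≤ b0)
    (hf : ∀ j, j < n → j ≠ k0 → j + 1 ≠ k0 → s ∉ B j) {k : ℕ} (hk : k < n) :
    s ∉ LS S χ (p (k + 1)).1 (t k) ∧ s ∉ RS S χ (p (k + 1)).1 (t k) := by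
  by_cases hk0 : k = k0 ∨ k + 1 = k0
  · exact ⟨fun h => absurd (low_left T G hk hk0 h) (not_lt.2 hs),
      fun h => absurd ((low_right T G hk h).2.2 hk0) (not_lt.2 hs)⟩
  · push Not at hk0
    exact ⟨fun h => hf k hk hk0.1 hk0.2 (T.lB k hk h), fun h => hf k hk hk0.1 hk0.2 (T.rB k hk h)⟩

/-! ### all straight inner gates -/

/-- the region of the piece `j`, cut at the level `b0` at the straight inner gates `k ∈ I` -/
def cutR (I : Set ℕ) (gz ge : ℕ → ℂ) (b0 : ℕ → ℝ) (RR : ℕ → Set ℂ) (j : ℕ) : Set ℂ :=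
  {w | w ∈ RR j ∧ ∀ k ∈ I, (j = k ∨ j + 1 = k) → b0 k < Y (gz k) (ge k) w}

/-- a point below the level `b0` of a straight inner gate, off the other regions, is off the cut
regions -/
theorem off_cut {I : Set ℕ} {gz ge : ℕ → ℂ} {b0 : ℕ → ℝ} {RR : ℕ → Set ℂ} {k j : ℕ} (hk : k ∈ I)
    {w : ℂ} (h : w ∈ RR j → j = k ∨ j + 1 = k) (hY : Y (gz k) (ge k) w ≤ b0 k) :
    w ∉ cutR I gz ge b0 RR j := fun h' => absurd (h'.2 k hk (h h'.1)) (not_lt.2 hY)

/-- a point off the region is off the cut region -/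
theorem off_cut' {I : Set ℕ} {gz ge : ℕ → ℂ} {b0 : ℕ → ℝ} {RR : ℕ → Set ℂ} {j : ℕ} {w : ℂ}
    (h : w ∉ RR j) : w ∉ cutR I gz ge b0 RR j := fun h' => h h'.1

theorem Y_seg {z0 e u v w : ℂ} {b : ℝ} (hu : b < Y z0 e u) (hv : b < Y z0 e v)
    (hw : w ∈ segment ℝ u v) : b < Y z0 e w := by
  obtain ⟨s, t', hs, ht, hst, rfl⟩ := hw
  have e1 : Y z0 e (s • u + t' • v) = s * Y z0 e u + t' * Y z0 e v := by
    unfold Y
    have hs' : s = 1 - t' := by linarith
    subst hs'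
    have : (((1 - t' : ℝ) • u + t' • v - z0) / e : ℂ) =
        ((1 - t' : ℝ) : ℂ) * ((u - z0) / e) + (t' : ℂ) * ((v - z0) / e) := by
      simp only [Complex.real_smul]
      push_cast
      field_simp
      ring
    rw [this, Complex.add_im, Complex.im_ofReal_mul, Complex.im_ofReal_mul]
  rw [e1]
  rcases hs.lt_or_eq with hs0 | hs0
  · have k1 := mul_lt_mul_of_pos_left hu hs0
    have k2 := mul_le_mul_of_nonneg_left hv.le ht
    have k3 : s * b + t' * b = b := by rw [← add_mul, hst, one_mul]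
    linarith
  · have k3 : t' = 1 := by linarith
    rw [← hs0, k3]
    linarith

/-- **SEP for all straight inner gates** -/
theorem sep_all (D : DCorr hS hχ n y z A B p) (T : Back D t) {N : ℕ} (hN : 3 ≤ N)
    -- the straight inner gates
    {I : Set ℕ} {gz ge : ℕ → ℂ} {a0 a1 b0 b1 m x0 x1 : ℕ → ℝ} {V β : ℕ → Finset ℂ}
    {up dn : ℕ → List ℂ}
    (G : ∀ k ∈ I, InG S χ n y z A B k (gz k) (ge k) (a0 k) (a1 k) (b0 k) (b1 k) (m k) (x0 k)
      (x1 k) (V k) (β k) (up k) (dn k))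
    -- white links of the closing tiles
    {x : ℕ → ℂ} (hxz : ∀ k, k ≤ n → x k = z k) (hxN : ∀ j, x (j + N) = x j) {W : ℕ → Set ℂ}
    (hW : ∀ j, n ≤ j → j < N → Lk S (W j) (x j) (x (j + 1)))
    (hWS : ∀ j, n ≤ j → j < N → ∀ s ∈ W j, s ∈ S ∧ χ s ≠ χ (y 0) ∧ ∀ k ∈ I, s ∉ dn k)
    -- regions
    {RR : ℕ → Set ℂ}
    (hsB : ∀ j, j < n → ∀ u v, DE S u v → u ∈ B j → v ∈ B j → segment ℝ u v ⊆ RR j)
    (hsW : ∀ j, n ≤ j → j < N → ∀ u v, DE S u v → u ∈ W j → v ∈ W j → segment ℝ u v ⊆ RR j)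
    -- the extreme gate `k1 + 1`
    {k1 : ℕ} {z1 e1 : ℂ} (he1 : e1 ≠ 0) {y0 y1 : ℝ} (h01 : y0 ≤ y1)
    (hM : ∀ j, j = k1 % N ∨ j = (k1 + 1) % N → ∀ s ∈ S, (j < n → s ∈ B j) → (n ≤ j → s ∈ W j) →
      y0 < Y z1 e1 s ∧ Y z1 e1 s < y1)
    (ha : X z1 e1 (x k1) < 0) (hb : 0 < X z1 e1 (x (k1 + 2)))
    (hWl : ∀ j, k1 + 2 ≤ j → j < k1 + N → ∀ t, y0 ≤ t → t ≤ y1 → wl z1 e1 t ∉ RR (j % N))
    (hray : ∀ j, j < N → ∀ t, y1 ≤ t → wl z1 e1 t ∉ RR j)
    -- the inner side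
    {K : Set ℂ} (hK : IsPreconnected K)
    (hKR : ∀ w ∈ K, ∀ j, j < N → w ∉ cutR I gz ge b0 RR j)
    (hw : wl z1 e1 y0 ∈ K) {k0 : ℕ} (hk0 : k0 ∈ I) (hdn : (dn k0).getLast (G k0 hk0).neck.nd ∈ K) :
    ∃ cw : List ℂ, Loop S cw ∧ (∀ s ∈ cw, s ∈ S) ∧ (∀ s ∈ cw, χ s ≠ χ (y 0)) ∧
      (∀ s ∈ cw, (∃ k, k < n ∧ s ∈ RS S χ (p (k + 1)).1 (t k)) ∨ ∃ j, n ≤ j ∧ j < N ∧ s ∈ W j) ∧
      (∀ q ∈ prs cw, ∃ j, j < N ∧ segment ℝ q.1 q.2 ⊆ cutR I gz ge b0 RR j) ∧
      (∀ w ∈ K, asum w cw = -(2 * Real.pi)) ∧ (∀ k, k ≤ n → asum (y k) cw = -(2 * Real.pi)) ∧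
      (∀ k, k < n → ∀ s ∈ LS S χ (p (k + 1)).1 (t k), asum s cw = -(2 * Real.pi)) ∧
      ∀ k ∈ I, ∀ s ∈ dn k, s ∉ cw ∧ asum s cw = -(2 * Real.pi) := by
  -- the pieces
  have hQ : ∀ j, j < N → Lk S (QQ S χ n p t W j) (x j) (x (j + 1)) := by
    intro j hj
    unfold QQ
    split_ifs with hjn
    · rw [hxz j (by omega), hxz (j + 1) (by omega)]
      have ho := occ_p D (show j + 1 ≤ n by omega)
      have h1 := (right_lk hS hχ ho (t j)).1
      rw [T.arr j hjn, D.st j (by omega)] at h1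
      rw [show (p (j + 1)).1.2 = z (j + 1) by rw [D.st (j + 1) (by omega)]] at h1
      exact h1.symm
    · exact hW j (by omega) hj
  obtain ⟨P, H, hl, hmem, hPQ⟩ := exists_pieces (RR := cutR I gz ge b0 RR) hN hxN hQ (by
    intro j hj u v hde hu hv w hw'
    unfold QQ at hu hv
    by_cases hjn : j < n
    · rw [if_pos hjn] at hu hv
      refine ⟨hsB j hjn u v hde (T.rB j hjn hu) (T.rB j hjn hv) hw', fun k hk hj0 => ?_⟩
      exact Y_seg ((low_right T (G k hk) hjn hu).2.2 hj0) ((low_right T (G k hk) hjn hv).2.2 hj0)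
        hw'
    · rw [if_neg hjn] at hu hv
      refine ⟨hsW j (by omega) hj u v hde hu hv hw', fun k hk hj0 => ?_⟩
      have h3 := (G k hk).h3
      omega)
  have hcS : ∀ s ∈ cyc N P, s ∈ S := by
    intro s hs
    obtain ⟨j, hj, h⟩ := hmem s hs
    unfold QQ at h
    by_cases hjn : j < n
    · rw [if_pos hjn] at h; exact RS_S D hjn h
    · rw [if_neg hjn] at h; exact (hWS j (by omega) hj s h).1
  have hcc : ∀ s ∈ cyc N P, χ s ≠ χ (y 0) := by
    intro s hs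
    obtain ⟨j, hj, h⟩ := hmem s hs
    unfold QQ at h
    by_cases hjn : j < n
    · rw [if_pos hjn] at h; exact T.rcol hjn h
    · rw [if_neg hjn] at h; exact (hWS j (by omega) hj s h).2.1
  have hdnc : ∀ k ∈ I, ∀ s ∈ dn k, s ∉ cyc N P := by
    intro k hk s hsd hs
    obtain ⟨j, hj, h⟩ := hmem s hs
    unfold QQ at h
    by_cases hjn : j < n
    · rw [if_pos hjn] at h; exact (low_right T (G k hk) hjn h).2.1 hsd
    · rw [if_neg hjn] at h; exact (hWS j (by omega) hj s h).2.2 k hk hsd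
  have hKi : ∀ w ∈ K, asum w (cyc N P) = -(2 * Real.pi) := by
    intro w hwK
    refine H.index (z0 := z1) he1 h01 k1 ?_ ha hb ?_ ?_ hK hKR hw hwK
    · intro s hs
      have key : ∀ j, s ∈ P (j % N) → j % N = k1 % N ∨ j % N = (k1 + 1) % N →
          y0 < Y z1 e1 s ∧ Y z1 e1 s < y1 := by
        intro j hsj hj1
        have hjN : j % N < N := Nat.mod_lt _ (by omega)
        have hq := hPQ _ hjN s hsj
        have hsS : s ∈ S := hcS s (H.mem.2 ⟨_, hjN, hsj⟩)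
        refine hM _ hj1 s hsS ?_ ?_
        · intro hjn
          unfold QQ at hq
          rw [if_pos hjn] at hq
          exact T.rB _ hjn hq
        · intro hjn
          unfold QQ at hq
          rwa [if_neg (by omega)] at hq
      rcases hs with hs | hs
      · rw [Idxx927.per_mod H] at hs
        exact key k1 hs (Or.inl rfl)
      · rw [Idxx927.per_mod H] at hs
        exact key (k1 + 1) hs (Or.inr rfl)
    · intro j h1 h4 t1 h5 h6 h7
      exact hWl j h1 h4 t1 h5 h6 h7.1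
    · intro j hj t1 h5 h7
      exact hray j hj t1 h5 h7.1
  have hy0 : asum (y k0) (cyc N P) = -(2 * Real.pi) := by
    rw [neck_idx hS (G k0 hk0).neck hl
      (fun h => hcc _ h (col_y D (by have := (G k0 hk0).h3; omega))) (hdnc k0 hk0)]
    exact hKi _ hdn
  have hyk : ∀ k, k ≤ n → asum (y k) (cyc N P) = -(2 * Real.pi) := by
    intro k hk
    rw [idx_y D hl hcc hk, ← idx_y D hl hcc (show k0 ≤ n by have := (G k0 hk0).h3; omega), hy0]
  refine ⟨cyc N P, hl, hcS, hcc, ?_, ?_, hKi, hyk, ?_, ?_⟩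
  · intro s hs
    obtain ⟨j, hj, h⟩ := hmem s hs
    unfold QQ at h
    by_cases hjn : j < n
    · rw [if_pos hjn] at h; exact Or.inl ⟨j, hjn, h⟩
    · rw [if_neg hjn] at h; exact Or.inr ⟨j, by omega, hj, h⟩
  · intro q hq
    obtain ⟨j, hj, h⟩ := H.prs.1 hq
    exact ⟨j, hj, fun w hw => H.reg j hj q h w hw⟩
  · intro k hk s hs
    rw [T.idx_left hl hcc hk hs, hyk k hk.le]
  · intro k hk s hs
    refine ⟨hdnc k hk s hs, ?_⟩
    have hadj := (G k hk).neck.adj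
    rw [← isChain_iff_prs, List.isChain_append] at hadj
    have h1 : Lk S {s | s ∈ y k :: dn k} (y k) s :=
      lk_list ((isChain_iff_prs (R := DE S) (y k :: dn k)).1 hadj.2.1) (fun s hs => hs) (by simp)
        (List.mem_cons_of_mem _ hs)
    have hkn : k ≤ n := by have := (G k hk).h3; omega
    rw [← hyk k hkn]
    refine (asum_lk hS hl (fun s' hs' => ?_) h1).symm
    rcases List.mem_cons.1 hs' with h | h
    · rw [h]; exact fun h' => hcc _ h' (col_y D hkn)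
    · exact hdnc k hk s' h


/-- **a site of nonzero index is not joined to the hull off `Z`**, cells form: `Z` contains the cells
of the right sites of the arcs and of the white sites of the closing tiles -/
theorem not_ext {N : ℕ} {W : ℕ → Set ℂ} {cw : List ℂ} (hl : Loop S cw) (hcS : ∀ s ∈ cw, s ∈ S)
    (hcm : ∀ s ∈ cw, (∃ k, k < n ∧ s ∈ RS S χ (p (k + 1)).1 (t k)) ∨ ∃ j, n ≤ j ∧ j < N ∧ s ∈ W j)
    {Z : Set (Quot (hullE S))}
    (hZ1 : ∀ k, k < n → ∀ s ∈ RS S χ (p (k + 1)).1 (t k), (Quot.mk _ s : Quot (hullE S)) ∈ Z)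
    (hZ2 : ∀ j, n ≤ j → j < N → ∀ s ∈ W j, (Quot.mk _ s : Quot (hullE S)) ∈ Z) {v w : ℂ}
    (h0 : asum v cw = -(2 * Real.pi)) (hvi : ¬ OnHull S v) (hw : OnHull S w) :
    ¬ OffZ (cm0 hS) Z (Quot.mk _ v) (Quot.mk _ w) := by
  refine sep_hull hS hl hcS (fun s hs => ?_) hvi ?_ hw
  · rcases hcm s hs with ⟨k, hk, h⟩ | ⟨j, hj, hj', h⟩
    · exact hZ1 k hk s h
    · exact hZ2 j hj hj' s h
  · rw [h0]
    have := Real.pi_pos
    intro h
    linarith

end corr

end Crest.Agent.R143.LowDx568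
end
end

-- ▼ part R143/UKLow_568
section

/-!
# Row 143 (S0194), RIG: fields LOW and DN of `UKin` along a fine path (helper568)

On 686's `SGeo` (228's fine path `W`, tiles `RR A B h W a`, gates `gz`, `ge`), for ANY straight inner
gate `o + k0`:

* `SGeo.gate` : change of the inner gate
* `low_chain` : the closed white chain; its index is `-2π` also in the lower part
  `|X| < w0`, `-c0 ≤ Y ≤ -A` of the gate and on the lower arm
* `other` : the lower part and the lower arm are off the regions of the other tiles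
* **`low_gate`** : sites of the lower part and of the lower arm: no cell of `AL` (left), `AR` (right),
  `Z`, `Ext`; in particular not in the white giant `Extx358.Wg`
-/

set_option autoImplicit false

noncomputable section

open scoped Classical

namespace Crest.Agent.R143.UKLowx568

open Crest.Agent.R143.B0x346 Crest.Agent.R143.DelGx806 Crest.Agent.R143.DelRx806
open Crest.Agent.R143.ToolWx838 Crest.Agent.R143.Blkx838
open Crest.Agent.R143.ToolW3x838 Crest.Agent.R143.Gatex838 Crest.Agent.R143.Neckx921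
open Crest.Agent.R143.Frame1x395 Crest.Agent.R143.Frame2x395 Crest.Agent.R143.Frame3x395
  Crest.Agent.R143.Frame4x395 Crest.Agent.R143.Frame8x395 Crest.Agent.R143.Frame9x395
  Crest.Agent.R143.Frame10x395 Crest.Agent.R143.Frame11x395
open Crest.Agent.R143.Frame5x395 (sd mem_sd th th_spec)
open Crest.Agent.R143.Splx117 Crest.Agent.R143.WLocx713 Crest.Agent.R143.RingDx117
  Crest.Agent.R143.CorrDx117
open Crest.Agent.R143.Idxx927 (RingP cyc wl X_wl Y_wl)
open Crest.Agent.R143.TileRx228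
open Crest.Agent.R143.Sepx686 Crest.Agent.R143.SepLx686 Crest.Agent.R143.LowDx568

variable {S : Finset ℂ} {M n k0 k1 : ℕ} {W : ℤ → ℤ × ℤ} {A B h b1 m ρ τ κ : ℝ} {o : ℤ} {K0 : Set ℂ}

/-- change of the inner gate -/
theorem _root_.Crest.Agent.R143.SepLx686.SGeo.gate (G : SGeo S M n k0 k1 W A B h b1 m ρ τ κ o K0)
    {k : ℕ} (h3 : 3 ≤ k) (hn : k + 3 ≤ n)
    (hst : ∀ a : ℤ, o + k - 2 ≤ a → a ≤ o + k + 1 → ge W (a + 1) = ge W a)
    (hK : wl (gz h W (o + k)) (ge W (o + k)) (-(A + τ)) ∈ K0) :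
    SGeo S M n k k1 W A B h b1 m ρ τ κ o K0 :=
  { G with k3 := h3, kn := hn, st := hst, K0k := hK }

variable {χ : ℂ → ZMod 2} {hS : GP (S : Set ℂ)} {hχ : HullC S χ} {y z : ℕ → ℂ} {p : ℕ → D0 S}

/-- the upper part of the lower box -/
def box (z0 e : ℂ) (w0 y0 y1 : ℝ) : Set ℂ :=
  {w | |X z0 e w| < w0 ∧ y0 ≤ Y z0 e w ∧ Y z0 e w ≤ y1}

theorem box_convex (z0 e : ℂ) (w0 y0 y1 : ℝ) : Convex ℝ (box z0 e w0 y0 y1) := by
  rintro u ⟨hu1, hu2, hu3⟩ v ⟨hv1, hv2, hv3⟩ s t hs ht hst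
  rw [abs_lt] at hu1 hv1
  refine ⟨?_, ?_, ?_⟩
  · rw [X_comb z0 e hst, abs_lt]
    exact ⟨cv_gt hs ht hst hu1.1 hv1.1, cv_lt hs ht hst hu1.2 hv1.2⟩
  · rw [Y_comb z0 e hst]
    have k1 := mul_le_mul_of_nonneg_left hu2 hs
    have k2 := mul_le_mul_of_nonneg_left hv2 ht
    have k3 : s * y0 + t * y0 = y0 := by rw [← add_mul, hst, one_mul]
    linarith
  · rw [Y_comb z0 e hst]
    exact cv_le hs ht hst hu3 hv3

/-- the index of the regions modulo `M` -/
theorem other {w0 c0 : ℝ} (G : SGeo S M n k0 k1 W A B h b1 m ρ τ κ o K0) (hw0 : w0 ≤ B + κ - h / 2)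
    (hbox : ∀ w, |X (gz h W (o + k0)) (ge W (o + k0)) w| < w0 →
      -c0 ≤ Y (gz h W (o + k0)) (ge W (o + k0)) w →
      Y (gz h W (o + k0)) (ge W (o + k0)) w ≤ -(A + τ) → w ∈ K0) {w : ℂ}
    (hX : |X (gz h W (o + k0)) (ge W (o + k0)) w| < w0)
    (hc : -c0 ≤ Y (gz h W (o + k0)) (ge W (o + k0)) w)
    (hY : Y (gz h W (o + k0)) (ge W (o + k0)) w ≤ -A) {j : ℕ} (hj : j < M) (h1 : j ≠ k0)
    (h2 : j + 1 ≠ k0) : w ∉ RR (A + τ) (B + τ) h W (o + j) := by
  have hA0 := G.A0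
  have hτκ := G.τκ
  have hρτ := G.ρτ
  have hρ0 := G.ρ0
  have hk3 := G.k3
  have hkn := G.kn
  have hnM := G.nM
  rcases le_or_gt (Y (gz h W (o + k0)) (ge W (o + k0)) w) (-(A + τ)) with hle | hgt
  · exact G.K0off w (hbox w hX hc hle) _
  · intro hR
    refine G.win_off (a := o + k0) (b := o + j) (ndvd (by omega) (by omega) (by omega))
      (ndvd (by omega) (by omega) (by omega)) (hX.trans_le hw0) ?_
      (RR_mono (by linarith) (by linarith) h W _ hR)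
    rw [abs_lt]
    constructor <;> linarith

/-- **the closed white chain along the fine path, with the index of the lower part of the gate** -/
theorem low_chain (G : SGeo S M n k0 k1 W A B h b1 m ρ τ κ o K0)
    (D : DCorr hS hχ n y z (fun k => RR A B h W (o + k)) (fun k => RR (A + ρ) (B + ρ) h W (o + k)) p)
    {t : ℕ → ℕ} (T : Back D t) {a0 a1 : ℝ} {V β : Finset ℂ} {up dn : List ℂ}
    (N : NkG S k0 W A B h b1 m o χ y z a0 a1 V β up dn) {x : ℕ → ℂ} (hxz : ∀ k, k ≤ n → x k = z k)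
    (hxM : ∀ j, x (j + M) = x j)
    (hW : ∀ j, n ≤ j → j < M → Lk S (WT S χ y W A B h o j) (x j) (x (j + 1)))
    {w0 c0 : ℝ} (hw1 : 0 < w0) (hw0 : w0 ≤ B + κ - h / 2)
    (hbox : ∀ w, |X (gz h W (o + k0)) (ge W (o + k0)) w| < w0 →
      -c0 ≤ Y (gz h W (o + k0)) (ge W (o + k0)) w →
      Y (gz h W (o + k0)) (ge W (o + k0)) w ≤ -(A + τ) → w ∈ K0) :
    ∃ cw : List ℂ, Loop S cw ∧ (∀ s ∈ cw, s ∈ S) ∧ (∀ s ∈ cw, χ s ≠ χ (y 0)) ∧
      (∀ s ∈ cw, (∃ k, k < n ∧ s ∈ RS S χ (p (k + 1)).1 (t k)) ∨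
        ∃ j, n ≤ j ∧ j < M ∧ s ∈ WT S χ y W A B h o j) ∧
      (∀ w ∈ K0, asum w cw = -(2 * Real.pi)) ∧ (∀ k, k ≤ n → asum (y k) cw = -(2 * Real.pi)) ∧
      (∀ k, k < n → ∀ s ∈ LS S χ (p (k + 1)).1 (t k), asum s cw = -(2 * Real.pi)) ∧
      (∀ s ∈ dn, s ∉ cw ∧ asum s cw = -(2 * Real.pi)) ∧
      ∀ w, |X (gz h W (o + k0)) (ge W (o + k0)) w| < w0 →
        -c0 ≤ Y (gz h W (o + k0)) (ge W (o + k0)) w →
        Y (gz h W (o + k0)) (ge W (o + k0)) w ≤ -A → asum w cw = -(2 * Real.pi) := by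
  have hA0 := G.A0
  have hAB := G.AB
  have hm0 := G.m0
  have hb1 := G.b1A
  have hbκ := G.b1κ
  have hτκ := G.τκ
  have hρ0 := G.ρ0
  have hρτ := G.ρτ
  have hh := G.hh
  have hBh := G.Bh
  have hk3 := G.k3
  have hkn := G.kn
  have hnM := G.nM
  have GI := inG G D N
  have sub1 : ∀ a, RR A B h W a ⊆ RR (A + ρ) (B + ρ) h W a := fun a =>
    RR_mono (by linarith) (by linarith) h W a
  have sub2 : ∀ a, RR (A + ρ) (B + ρ) h W a ⊆ RR (A + τ) (B + τ) h W a := fun a =>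
    RR_mono (by linarith) (by linarith) h W a
  have seg : ∀ (a : ℤ) (u v : ℂ), DE S u v → u ∈ RR (A + ρ) (B + ρ) h W a →
      v ∈ RR (A + ρ) (B + ρ) h W a → segment ℝ u v ⊆ RR (A + τ) (B + τ) h W a := by
    intro a u v hd hu hv
    have h1 := seg_RR G.fp hu (G.edge a u v hd hu hv)
    rwa [show A + ρ + (τ - ρ) = A + τ by ring, show B + ρ + (τ - ρ) = B + τ by ring] at h1
  -- the white sites of the gates are in the windows
  have zB : ∀ k, k < n → z k ∈ RR (A + ρ) (B + ρ) h W (o + k) ∧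
      z (k + 1) ∈ RR (A + ρ) (B + ρ) h W (o + k) := by
    intro k hk
    have e1 : (p (k + 1)).1.2 = z (k + 1) := by rw [D.st (k + 1) (by omega)]
    have e0 : (p k).1.2 = z k := by rw [D.st k (by omega)]
    refine ⟨T.rB k hk ?_, T.rB k hk ?_⟩
    · rw [← e0, ← T.arr k hk]; exact ⟨t k, le_rfl, rfl⟩
    · rw [← e1]; exact ⟨0, Nat.zero_le _, rfl⟩
  have hP : FPath M W := G.fp
  have hMpos : 0 < M := by omega
  have xR : ∀ j : ℕ, x j ∈ RR (A + ρ) (B + ρ) h W (o + j) ∧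
      x (j + 1) ∈ RR (A + ρ) (B + ρ) h W (o + j) := by
    have key : ∀ j : ℕ, j < M → x j ∈ RR (A + ρ) (B + ρ) h W (o + j) ∧
        x (j + 1) ∈ RR (A + ρ) (B + ρ) h W (o + j) := by
      intro j hj
      rcases Nat.lt_or_ge j n with h1 | h1
      · rw [hxz j h1.le, hxz (j + 1) h1]; exact zB j h1
      · have h2 := (hW j h1 hj).1
        exact ⟨sub1 _ h2.1.2, sub1 _ h2.2.2⟩
    intro j
    have hxm : ∀ q r, x (r + q * M) = x r := by
      intro q r
      induction q with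
      | zero => simp
      | succ q ih =>
        have e : r + (q + 1) * M = (r + q * M) + M := by ring
        rw [e, hxM, ih]
    have h1 := key (j % M) (Nat.mod_lt _ hMpos)
    rw [RR_mod hP] at h1
    have e1 : x j = x (j % M) := by
      conv_lhs => rw [← Nat.mod_add_div j M, mul_comm]
      exact hxm _ _
    have e2 : x (j + 1) = x (j % M + 1) := by
      have : j + 1 = (j % M + 1) + j / M * M := by
        have := Nat.mod_add_div j M
        rw [mul_comm] at this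
        omega
      rw [this, hxm]
    rw [e1, e2]
    exact h1
  have xwin : ∀ j : ℕ, |X (gz h W (o + (j + 1 : ℕ))) (ge W (o + (j + 1 : ℕ))) (x (j + 1))| <
      B + ρ - h / 2 := by
    intro j
    have h1 := (xR j).2
    have h2 := (xR (j + 1)).1
    rw [show o + ((j + 1 : ℕ) : ℤ) = o + j + 1 by push_cast; ring] at h2 ⊢
    exact (window hP (by linarith) (by linarith) h1 h2).1
  have xwin' : ∀ j : ℕ, |X (gz h W (o + j)) (ge W (o + j)) (x j)| < B + ρ - h / 2 := by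
    intro j
    have h1 := xwin (j + M - 1)
    rw [show j + M - 1 + 1 = j + M by omega, hxM] at h1
    have e1 : gz h W (o + ((j + M : ℕ) : ℤ)) = gz h W (o + j) := by
      unfold gz
      rw [show o + ((j + M : ℕ) : ℤ) - 1 = o + j - 1 + M by push_cast; ring,
        show o + ((j + M : ℕ) : ℤ) = o + j + M by push_cast; ring, hP.per, hP.per]
    have e2 : ge W (o + ((j + M : ℕ) : ℤ)) = ge W (o + j) := by
      unfold ge
      rw [show o + ((j + M : ℕ) : ℤ) - 1 = o + j - 1 + M by push_cast; ring,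
        show o + ((j + M : ℕ) : ℤ) = o + j + M by push_cast; ring, hP.per, hP.per]
    rw [e1, e2] at h1
    exact h1
  -- the enlarged inner side
  obtain ⟨bS, hbS⟩ : ∃ b, b = dn.getLast N.neck.nd := ⟨_, rfl⟩
  have hbm : bS ∈ dn := by rw [hbS]; exact List.getLast_mem _
  have hbw := N.neck.win bS (List.mem_append_right _ (List.mem_cons_of_mem _ hbm))
  have hbb : Y (gz h W (o + k0)) (ge W (o + k0)) bS ≤ -A := by rw [hbS]; exact N.neck.bot
  have hN1 := N.a0w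
  have hN2 := N.a1w
  have he := TileRx228.ge_ne hP (o + k0)
  set wb : ℂ := wl (gz h W (o + k0)) (ge W (o + k0)) (-(A + τ)) with hwb
  have hxb := X_wl (z0 := gz h W (o + k0)) he (-(A + τ))
  have hyb := Y_wl (z0 := gz h W (o + k0)) he (-(A + τ))
  have hsegb : ∀ w ∈ segment ℝ bS wb, |X (gz h W (o + k0)) (ge W (o + k0)) w| < B + κ - h / 2 ∧
      |Y (gz h W (o + k0)) (ge W (o + k0)) w| < A + κ ∧
      Y (gz h W (o + k0)) (ge W (o + k0)) w ≤ -A := by
    rintro w ⟨r, s, hr, hs, hrs, rfl⟩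
    rw [X_comb _ _ hrs, Y_comb _ _ hrs, hwb, hxb, hyb]
    obtain ⟨⟨w1, w2⟩, w3, -⟩ := hbw
    refine ⟨abs_lt.2 ⟨cv_gt hr hs hrs ?_ ?_, cv_lt hr hs hrs ?_ ?_⟩,
      abs_lt.2 ⟨cv_gt hr hs hrs ?_ ?_, cv_lt hr hs hrs ?_ ?_⟩, cv_le hr hs hrs hbb ?_⟩ <;> linarith
  have hlast : dn.getLast N.neck.nd ∈ segment ℝ bS wb := by
    rw [← hbS]; exact left_mem_segment ℝ _ _
  -- the box
  set bx : Set ℂ := box (gz h W (o + k0)) (ge W (o + k0)) w0 (-(A + τ)) (-A) with hbx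
  have hwbx : wb ∈ bx := by
    refine ⟨?_, ?_, ?_⟩
    · rw [hwb, hxb, abs_zero]; exact hw1
    · rw [hwb, hyb]
    · rw [hwb, hyb]; linarith
  -- the tiles near the extreme gate
  have st1 := G.st1
  have st2 := G.st2
  have ex1 := fun s => next_S hP st1 h s
  have ex2 := fun s => next_S hP st2 h s
  have hk1 := G.k1M
  have hcut : ∀ w, Y (gz h W (o + k0)) (ge W (o + k0)) w ≤ -A →
      |X (gz h W (o + k0)) (ge W (o + k0)) w| < B + κ - h / 2 →
      |Y (gz h W (o + k0)) (ge W (o + k0)) w| < A + κ → ∀ j : ℕ, j < M →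
      w ∉ cutR {k0} (fun k => gz h W (o + k)) (fun k => ge W (o + k)) (fun _ => -A)
        (fun j => RR (A + τ) (B + τ) h W (o + j)) j := by
    intro w g3 g1 g2 j hj
    refine off_cut (I := {k0}) (Set.mem_singleton k0) (fun h4 => ?_) g3
    by_contra hc
    push Not at hc
    exact G.win_off (a := o + k0) (b := o + j) (ndvd (by omega) (by omega) (by omega))
      (ndvd (by omega) (by omega) (by omega)) g1 g2
      (RR_mono (by linarith) (by linarith) h W _ h4)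
  obtain ⟨cw, c1, c2, c3, c4, c5, c6, c7, c8, c9⟩ := sep_all D T (N := M) (by omega)
    (I := {k0}) (gz := fun k => gz h W (o + k)) (ge := fun k => ge W (o + k)) (a0 := fun _ => a0)
    (a1 := fun _ => a1) (b0 := fun _ => -A) (b1 := fun _ => b1) (m := fun _ => m)
    (x0 := fun _ => -(3 * h / 2)) (x1 := fun _ => 3 * h / 2) (V := fun _ => V) (β := fun _ => β)
    (up := fun _ => up) (dn := fun _ => dn)
    (by
      intro k hk
      rw [Set.mem_singleton_iff.1 hk]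
      exact GI) hxz hxM
    (W := WT S χ y W A B h o) hW
    (fun j hj hj' s hs => ⟨hs.1.1, hs.1.2, fun k _ hsd => dn_off G N hj' (by omega) (by omega) hsd
      (RR_mono (by linarith) (by linarith) h W _ hs.2)⟩)
    (RR := fun j => RR (A + τ) (B + τ) h W (o + j))
    (fun j hj u v hd hu hv => seg _ u v hd hu hv)
    (fun j hj hj' u v hd hu hv => seg _ u v hd (sub1 _ hu.2) (sub1 _ hv.2))
    (k1 := k1) (z1 := gz h W (o + k1 + 1)) (e1 := ge W (o + k1 + 1)) (TileRx228.ge_ne hP _)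
    (y0 := -(A + τ)) (y1 := A + τ) (by linarith)
    (by
      intro j hj s hsS h1 h2
      have hsR : s ∈ RR (A + ρ) (B + ρ) h W (o + j) := by
        rcases Nat.lt_or_ge j n with h3 | h3
        · exact h1 h3
        · exact sub1 _ (h2 h3).2
      rcases hj with hj | hj
      · rw [hj, RR_mod hP] at hsR
        have h3 := ((frame_S hP (by linarith) (by linarith) st1).1 hsR).2
        rw [← (ex1 s).2, abs_lt] at h3
        constructor <;> linarith [h3.1, h3.2]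
      · rw [hj, RR_mod hP, show o + ((k1 + 1 : ℕ) : ℤ) = o + k1 + 1 by push_cast; ring] at hsR
        have h3 := ((frame_S hP (by linarith) (by linarith) st2).1 hsR).2
        rw [abs_lt] at h3
        constructor <;> linarith [h3.1, h3.2])
    (by
      have h3 := xwin' k1
      rw [(ex1 (x k1)).1]
      linarith [(abs_lt.1 h3).2])
    (by
      have h3 := xwin' (k1 + 2)
      rw [show o + ((k1 + 2 : ℕ) : ℤ) = o + k1 + 1 + 1 by push_cast; ring] at h3
      rw [(ex2 (x (k1 + 2))).1] at h3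
      linarith [(abs_lt.1 h3).1])
    (by
      intro j hj hj' t1 h3 h4 h5
      have h5' : wl (gz h W (o + k1 + 1)) (ge W (o + k1 + 1)) t1 ∈ RR (A + τ) (B + τ) h W (o + j) := by
        have := RR_mod hP (A + τ) (B + τ) h o j
        rw [← this]; exact h5
      refine G.win_off (a := o + k1 + 1) (b := o + j) (ndvd (by omega) (by omega) (by omega))
        (ndvd (by omega) (by omega) (by omega)) ?_ ?_ (RR_mono (by linarith) (by linarith) h W _ h5')
      · rw [X_wl (TileRx228.ge_ne hP _), abs_zero]; linarith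
      · rw [Y_wl (TileRx228.ge_ne hP _), abs_lt]; constructor <;> linarith)
    (by
      intro j hj t1 h3 h4
      have h5 := G.ext _ _ h4
      rw [Y_wl (TileRx228.ge_ne hP _)] at h5
      linarith)
    (K := (K0 ∪ segment ℝ bS wb) ∪ bx)
    ((G.K0pre.union wb G.K0k (right_mem_segment ℝ _ _) (convex_segment _ _).isPreconnected).union wb
      (Or.inl G.K0k) hwbx (box_convex _ _ _ _ _).isPreconnected)
    (by
      rintro w ((hw | hw) | hw) j hj
      · exact off_cut' (G.K0off w hw _)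
      · obtain ⟨g1, g2, g3⟩ := hsegb w hw
        exact hcut w g3 g1 g2 j hj
      · obtain ⟨g1, g2, g3⟩ := hw
        exact hcut w g3 (g1.trans_le hw0) (abs_lt.2 ⟨by linarith, by linarith⟩) j hj)
    (Or.inl (Or.inl G.K0e)) (k0 := k0) (Set.mem_singleton k0)
    (Or.inl (Or.inr hlast))
  refine ⟨cw, c1, c2, c3, c4, fun w hw => c6 w (Or.inl (Or.inl hw)), c7, c8,
    c9 k0 (Set.mem_singleton k0), ?_⟩
  intro w g1 g2 g3
  rcases le_or_gt (Y (gz h W (o + k0)) (ge W (o + k0)) w) (-(A + τ)) with hle | hgt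
  · exact c6 w (Or.inl (Or.inl (hbox w g1 g2 hle)))
  · exact c6 w (Or.inr ⟨g1, hgt.le, g3⟩)

/-- **LOW and DN at a straight inner gate**: the sites of the lower part and of the lower arm are no
left cells, no right cells, not in `Z` and not in `Ext` -/
theorem low_gate (G : SGeo S M n k0 k1 W A B h b1 m ρ τ κ o K0)
    (D : DCorr hS hχ n y z (fun k => RR A B h W (o + k)) (fun k => RR (A + ρ) (B + ρ) h W (o + k)) p)
    {t : ℕ → ℕ} (T : Back D t) {a0 a1 : ℝ} {V β : Finset ℂ} {up dn : List ℂ}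
    (N : NkG S k0 W A B h b1 m o χ y z a0 a1 V β up dn) {x : ℕ → ℂ} (hxz : ∀ k, k ≤ n → x k = z k)
    (hxM : ∀ j, x (j + M) = x j)
    (hW : ∀ j, n ≤ j → j < M → Lk S (WT S χ y W A B h o j) (x j) (x (j + 1)))
    {w0 c0 : ℝ} (hw1 : 0 < w0) (hw0 : w0 ≤ B + κ - h / 2)
    (hbox : ∀ w, |X (gz h W (o + k0)) (ge W (o + k0)) w| < w0 →
      -c0 ≤ Y (gz h W (o + k0)) (ge W (o + k0)) w →
      Y (gz h W (o + k0)) (ge W (o + k0)) w ≤ -(A + τ) → w ∈ K0)
    (hwh : ∀ s ∈ dn, -A < Y (gz h W (o + k0)) (ge W (o + k0)) s → χ s ≠ χ (y 0))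
    {Z AL AR : Set (Quot (hullE S))}
    (hZ1 : ∀ k, k < n → ∀ s ∈ RS S χ (p (k + 1)).1 (t k), (Quot.mk _ s : Quot (hullE S)) ∈ Z)
    (hZ2 : ∀ j, n ≤ j → j < M → ∀ s ∈ WT S χ y W A B h o j, (Quot.mk _ s : Quot (hullE S)) ∈ Z)
    (hAL : ∀ q ∈ AL, ∃ k, k < n ∧ ∃ s ∈ LS S χ (p (k + 1)).1 (t k), q = Quot.mk _ s)
    (hAR : ∀ q ∈ AR, ∃ k, k < n ∧ ∃ s ∈ RS S χ (p (k + 1)).1 (t k), q = Quot.mk _ s)
    (hZ : ∀ q ∈ Z, q ∈ AL ∨ q ∈ AR ∨ ∃ j : ℕ, j < M ∧ j ≠ k0 ∧ j + 1 ≠ k0 ∧ ∃ s ∈ S,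
      s ∈ RR (A + ρ) (B + ρ) h W (o + j) ∧ q = Quot.mk _ s)
    {s : ℂ} (hs : (|X (gz h W (o + k0)) (ge W (o + k0)) s| < w0 ∧
      -c0 ≤ Y (gz h W (o + k0)) (ge W (o + k0)) s ∧ Y (gz h W (o + k0)) (ge W (o + k0)) s ≤ -A) ∨
      s ∈ dn) :
    ¬ OnHull S s ∧ (Quot.mk _ s : Quot (hullE S)) ∉ AL ∧ (Quot.mk _ s : Quot (hullE S)) ∉ AR ∧
      (Quot.mk _ s : Quot (hullE S)) ∉ Z ∧
      ¬ Extx358.Ext (cm0 hS) (SepEx927.hc S) Z (Quot.mk _ s) ∧
      (Quot.mk _ s : Quot (hullE S)) ∉ Extx358.Wg (cm0 hS) (SepEx927.hc S) Z AR := by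
  have hA0 := G.A0
  have hρ0 := G.ρ0
  have hρτ := G.ρτ
  have hτκ := G.τκ
  have hkn := G.kn
  have hnM := G.nM
  have GI := inG G D N
  obtain ⟨cw, c1, c2, c3, c4, c5, c6, c7, c8, c9⟩ :=
    low_chain G D T N hxz hxM hW hw1 hw0 hbox
  have hin : ∀ s ∈ cw, ¬ OnHull S s := by
    intro s hs
    rcases c4 s hs with ⟨k, hk, h⟩ | ⟨j, -, -, h⟩
    · exact D.innB k hk s (c2 s hs) (T.rB k hk h)
    · exact G.inn _ s (c2 s hs) (RR_mono (by linarith [G.ρ0]) (by linarith [G.ρ0]) _ W _ h.2)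
  have hh : ∀ v, OnHull S v → asum v cw = 0 := fun v hv =>
    asum_onHull hS c1 c2 hv fun h => hin v h hv
  have hZc : SepEx927.cw S cw ⊆ Z := by
    rintro q ⟨s, hs, rfl⟩
    rcases c4 s hs with ⟨k, hk, h⟩ | ⟨j, h2, h3, h⟩
    · exact hZ1 k hk s h
    · exact hZ2 j h2 h3 s h
  have hpi := Real.pi_pos
  have hidx : asum s cw = -(2 * Real.pi) := by
    rcases hs with ⟨h1, h2, h3⟩ | hs
    · exact c9 s h1 h2 h3
    · exact (c8 s hs).2
  have hsi : ¬ OnHull S s := fun h => by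
    have := hh s h
    rw [hidx] at this
    linarith
  -- the regions of the other tiles
  have hoth : ∀ j : ℕ, j < M → j ≠ k0 → j + 1 ≠ k0 → s ∉ RR (A + ρ) (B + ρ) h W (o + j) := by
    intro j hj h1 h2 hR
    rcases hs with ⟨g1, g2, g3⟩ | hs
    · exact other G hw0 hbox g1 g2 g3 hj h1 h2 (RR_mono (by linarith) (by linarith) h W _ hR)
    · exact dn_off G N hj h1 h2 hs (RR_mono (by linarith) (by linarith) h W _ hR)
  have hL : ∀ k, k < n → s ∉ LS S χ (p (k + 1)).1 (t k) := by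
    intro k hk
    rcases hs with ⟨g1, g2, g3⟩ | hs
    · exact (low_arc T GI g3 (fun j hj h1 h2 => hoth j (by omega) h1 h2) hk).1
    · exact fun h => dn_left T GI hwh hk h hs
  have hR : ∀ k, k < n → s ∉ RS S χ (p (k + 1)).1 (t k) := by
    intro k hk
    rcases hs with ⟨g1, g2, g3⟩ | hs
    · exact (low_arc T GI g3 (fun j hj h1 h2 => hoth j (by omega) h1 h2) hk).2
    · exact fun h => (low_right T GI hk h).2.1 hs
  have qi : ∀ s' : ℂ, (Quot.mk _ s : Quot (hullE S)) = Quot.mk _ s' → s' = s := fun s' h =>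
    quot_inner hS hsi h
  have hnL : (Quot.mk _ s : Quot (hullE S)) ∉ AL := by
    intro h
    obtain ⟨k, hk, s', hs', e⟩ := hAL _ h
    rw [qi s' e] at hs'
    exact hL k hk hs'
  have hnR : (Quot.mk _ s : Quot (hullE S)) ∉ AR := by
    intro h
    obtain ⟨k, hk, s', hs', e⟩ := hAR _ h
    rw [qi s' e] at hs'
    exact hR k hk hs'
  have hnZ : (Quot.mk _ s : Quot (hullE S)) ∉ Z := by
    intro h
    rcases hZ _ h with h | h | ⟨j, hj, h1, h2, s', -, hs', e⟩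
    · exact hnL h
    · exact hnR h
    · rw [qi s' e] at hs'
      exact hoth j hj h1 h2 hs'
  have hnE : ¬ Extx358.Ext (cm0 hS) (SepEx927.hc S) Z (Quot.mk _ s) := by
    refine SepEx927.not_ext hS c1 hh hZc ?_
    rw [hidx]
    intro h; linarith
  refine ⟨hsi, hnL, hnR, hnZ, hnE, ?_⟩
  rintro ((h | h) | h)
  · exact hnE h
  · exact hnZ h.1
  · exact hnR h

end Crest.Agent.R143.UKLowx568
end
end

-- ▼ part R143/UKLowS_568
section

/-!
# Row 143 (S0194), RIG: fields LOW and DN of `UKin` for the out strand on `rc0 hS` (helper568)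

* `exists_backS` : the arcs of the corridor, with the times of the strand at the inner tiles
* `ls_strand`, `rs_strand` : left / right sites of the strand = those of the inner arcs, and sites of
  the two end regions; `rs_arc`, `ls_arc` : converse for the inner arcs
* **`low_strand`** : sites of the lower part and of the lower arm of a straight inner gate are not in
  the giants `R5qx166.AA (rc0 hS) σ q (T n) r (Ww ..) i l`, `l : ZMod 3`
-/

set_option autoImplicit false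
set_option linter.unusedSectionVars false

noncomputable section

open scoped Classical

namespace Crest.Agent.R143.UKLowx568

open Crest.Agent.R143.B0x346 Crest.Agent.R143.DelGx806 Crest.Agent.R143.DelRx806
open Crest.Agent.R143.ToolWx838 Crest.Agent.R143.Blkx838
open Crest.Agent.R143.ToolW3x838 Crest.Agent.R143.Gatex838 Crest.Agent.R143.Neckx921
open Crest.Agent.R143.Frame1x395 Crest.Agent.R143.Frame2x395 Crest.Agent.R143.Frame3x395
  Crest.Agent.R143.Frame4x395 Crest.Agent.R143.Frame8x395 Crest.Agent.R143.Frame9x395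
  Crest.Agent.R143.Frame10x395 Crest.Agent.R143.Frame11x395
open Crest.Agent.R143.Frame5x395 (sd mem_sd th th_spec)
open Crest.Agent.R143.Splx117 Crest.Agent.R143.WLocx713 Crest.Agent.R143.RingDx117
  Crest.Agent.R143.CorrDx117
open Crest.Agent.R143.Idxx927 (RingP cyc wl X_wl Y_wl)
open Crest.Agent.R143.TileRx228
open Crest.Agent.R143.Sepx686 Crest.Agent.R143.SepLx686 Crest.Agent.R143.LowDx568
open Crest.Agent.R143.EvGx168 (SD)
open Crest.Agent.R143.FinCx811 (Cs rc0 rcol)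
open Crest.Agent.R143.RcTx422 (Hc mem_wl_LS mem_wr_RS ext_restr pre_image)
open Crest.Agent.R143.Gntx535 (wr)
open Crest.Agent.R143.Extx358 (Ext Wg Ww Zc)
open Crest.Agent.R143.OutSx358 (zc)
open Crest.Agent.R143.R5qx166 (AA)

variable {S : Finset ℂ} {M n k0 k1 : ℕ} {W : ℤ → ℤ × ℤ} {A B h b1 m ρ τ κ : ℝ} {o : ℤ} {K0 : Set ℂ}
variable {χ : ℂ → ZMod 2} {hS : GP (S : Set ℂ)} {hχ : HullC S χ} {y z : ℕ → ℂ} {p : ℕ → D0 S}

/-! ### the strand and the arcs -/

section strand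

variable {Aa Bb : ℕ → Set ℂ} {Rs : Set (D0 S)} {q : D0 S} {N : ℕ} {T : ℕ → ℕ} {t : ℕ → ℕ}

theorem sd_st (H : SD hS hχ n Rs p Bb q N T) (i : ℕ) :
    ((stp (cm0 hS) (xc hS hχ))^[i] q).1 = (nx S χ)^[i] q.1 :=
  it_eq hS hχ (show cfg (cm0 hS) (lift S hχ) q = 1 from H.lp.occ) i

theorem sd_mono (H : SD hS hχ n Rs p Bb q N T) {a b : ℕ} (hab : a ≤ b) (hb : b ≤ n) : T a ≤ T b := by
  induction b, hab using Nat.le_induction with
  | base => exact le_rfl
  | succ b _ ih => exact (ih (by omega)).trans (H.mono b (by omega))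

/-- **the arcs with the times of the strand** -/
theorem exists_backS (D : DCorr hS hχ n y z Aa Bb p)
    (hb : ∀ k, k < n → FA (cm0 hS) (xc hS hχ) (RD S (Bb k)) (p (k + 1)) (p k))
    (H : SD hS hχ n Rs p Bb q N T) : ∃ t, Back D t ∧
      ∀ k, 0 < k → k + 1 < n → t k = T (n - k) - T (n - 1 - k) := by
  obtain ⟨t0, B0⟩ := exists_back D hb
  set t : ℕ → ℕ := fun k => if 0 < k ∧ k + 1 < n then T (n - k) - T (n - 1 - k) else t0 k with ht
  have key : ∀ k, 0 < k → k + 1 < n → ∀ i, i ≤ T (n - k) - T (n - 1 - k) →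
      (nx S χ)^[i] (p (k + 1)).1 = ((stp (cm0 hS) (xc hS hχ))^[T (n - 1 - k) + i] q).1 := by
    intro k h1 h2 i _
    have e1 : (stp (cm0 hS) (xc hS hχ))^[T (n - 1 - k)] q = p (k + 1) := by
      have := H.at_ (n - 1 - k) (by omega) (by omega)
      rw [show n - (n - 1 - k) = k + 1 by omega] at this
      exact this
    rw [sd_st H, Nat.add_comm (T (n - 1 - k)) i, Function.iterate_add_apply, ← sd_st H, e1]
  have mono : ∀ k, 0 < k → k + 1 < n → T (n - 1 - k) ≤ T (n - k) := by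
    intro k _ _
    have := H.mono (n - 1 - k) (by omega)
    rwa [show n - 1 - k + 1 = n - k by omega] at this
  have reg : ∀ k, 0 < k → k + 1 < n → ∀ i, i ≤ T (n - k) - T (n - 1 - k) →
      (stp (cm0 hS) (xc hS hχ))^[T (n - 1 - k) + i] q ∈ RD S (Bb k) := by
    intro k h1 h2 i hi
    have h3 := mono k h1 h2
    have := H.arc (n - 1 - k) (by omega) (T (n - 1 - k) + i) (by omega)
      (by rw [show n - 1 - k + 1 = n - k by omega]; omega)
    rw [show n - 1 - (n - 1 - k) = k by omega] at this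
    exact this
  refine ⟨t, ⟨?_, ?_, ?_⟩, fun k h1 h2 => if_pos ⟨h1, h2⟩⟩
  · intro k hk
    by_cases hc : 0 < k ∧ k + 1 < n
    · have e : t k = T (n - k) - T (n - 1 - k) := if_pos hc
      rw [e, key k hc.1 hc.2 _ le_rfl]
      have h3 := mono k hc.1 hc.2
      rw [show T (n - 1 - k) + (T (n - k) - T (n - 1 - k)) = T (n - k) by omega]
      have := H.at_ (n - k) (by omega) (by omega)
      rw [show n - (n - k) = k by omega] at this
      exact congrArg Subtype.val this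
    · have e : t k = t0 k := if_neg hc
      rw [e]
      exact B0.arr k hk
  · intro k hk
    by_cases hc : 0 < k ∧ k + 1 < n
    · have e : t k = T (n - k) - T (n - 1 - k) := if_pos hc
      rw [e]
      rintro s ⟨i, hi, rfl⟩
      rw [key k hc.1 hc.2 i hi]
      exact (reg k hc.1 hc.2 i hi).1
    · have e : t k = t0 k := if_neg hc
      rw [e]
      exact B0.lB k hk
  · intro k hk
    by_cases hc : 0 < k ∧ k + 1 < n
    · have e : t k = T (n - k) - T (n - 1 - k) := if_pos hc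
      rw [e]
      rintro s ⟨i, hi, rfl⟩
      rw [key k hc.1 hc.2 i hi]
      exact (reg k hc.1 hc.2 i hi).2
    · have e : t k = t0 k := if_neg hc
      rw [e]
      exact B0.rB k hk

/-- the tile of a time -/
theorem sd_tile (H : SD hS hχ n Rs p Bb q N T) {i : ℕ} (hi : i ≤ T n) :
    ∃ k, k < n ∧ T k ≤ i ∧ i ≤ T (k + 1) := by
  have key : ∀ b, b ≤ n → 0 < b → i ≤ T b → ∃ k, k < b ∧ T k ≤ i ∧ i ≤ T (k + 1) := by
    intro b
    induction b with
    | zero => intro _ h; omega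
    | succ b ih =>
      intro hb _ h
      rcases Nat.lt_or_ge (T b) i with h1 | h1
      · exact ⟨b, by omega, h1.le, h⟩
      · rcases Nat.eq_zero_or_pos b with h2 | h2
        · subst h2
          have h0 := H.T0
          exact ⟨0, by omega, by omega, h⟩
        · obtain ⟨k, k1, k2, k3⟩ := ih (by omega) h2 h1
          exact ⟨k, by omega, k2, k3⟩
  have := H.n3
  exact key n le_rfl (by omega) hi

/-- a state of the strand is a state of an inner arc or it is in an end region -/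
theorem sd_state (H : SD hS hχ n Rs p Bb q N T)
    (ht : ∀ k, 0 < k → k + 1 < n → t k = T (n - k) - T (n - 1 - k)) {i : ℕ} (hi : i ≤ T n) :
    (∃ k, 0 < k ∧ k + 1 < n ∧ ∃ j ≤ t k, (nx S χ)^[i] q.1 = (nx S χ)^[j] (p (k + 1)).1) ∨
      ((nx S χ)^[i] q.1).1 ∈ Bb 0 ∧ ((nx S χ)^[i] q.1).2 ∈ Bb 0 ∨
      ((nx S χ)^[i] q.1).1 ∈ Bb (n - 1) ∧ ((nx S χ)^[i] q.1).2 ∈ Bb (n - 1) := by
  obtain ⟨k, k1, k2, k3⟩ := sd_tile H hi
  have h3 := H.n3
  by_cases hc : 0 < k ∧ k + 1 < n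
  · left
    refine ⟨n - 1 - k, by omega, by omega, i - T k, ?_, ?_⟩
    · rw [ht (n - 1 - k) (by omega) (by omega), show n - (n - 1 - k) = k + 1 by omega,
        show n - 1 - (n - 1 - k) = k by omega]
      omega
    · have e1 : (stp (cm0 hS) (xc hS hχ))^[T k] q = p (n - 1 - k + 1) := by
        have := H.at_ k hc.1 (by omega)
        rw [show n - k = n - 1 - k + 1 by omega] at this
        exact this
      have e2 : (nx S χ)^[T k] q.1 = (p (n - 1 - k + 1)).1 := by rw [← sd_st H, e1]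
      rw [← e2, ← Function.iterate_add_apply, show i - T k + T k = i by omega]
  · right
    have hr := H.arc k k1 i k2 k3
    have e : (nx S χ)^[i] q.1 = ((stp (cm0 hS) (xc hS hχ))^[i] q).1 := (sd_st H i).symm
    rw [e]
    rcases Nat.eq_zero_or_pos k with h1 | h1
    · right
      subst h1
      exact hr
    · left
      have : n - 1 - k = 0 := by omega
      rw [this] at hr
      exact hr

/-- left sites of the strand -/
theorem ls_strand (H : SD hS hχ n Rs p Bb q N T)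
    (ht : ∀ k, 0 < k → k + 1 < n → t k = T (n - k) - T (n - 1 - k)) {s : ℂ}
    (hs : s ∈ LS S χ q.1 (T n)) :
    (∃ k, 0 < k ∧ k + 1 < n ∧ s ∈ LS S χ (p (k + 1)).1 (t k)) ∨ s ∈ Bb 0 ∨ s ∈ Bb (n - 1) := by
  obtain ⟨i, hi, rfl⟩ := hs
  rcases sd_state H ht hi with ⟨k, h1, h2, j, hj, e⟩ | h1 | h1
  · exact Or.inl ⟨k, h1, h2, j, hj, by rw [e]⟩
  · exact Or.inr (Or.inl h1.1)
  · exact Or.inr (Or.inr h1.1)

/-- right sites of the strand -/
theorem rs_strand (H : SD hS hχ n Rs p Bb q N T)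
    (ht : ∀ k, 0 < k → k + 1 < n → t k = T (n - k) - T (n - 1 - k)) {s : ℂ}
    (hs : s ∈ RS S χ q.1 (T n)) :
    (∃ k, 0 < k ∧ k + 1 < n ∧ s ∈ RS S χ (p (k + 1)).1 (t k)) ∨ s ∈ Bb 0 ∨ s ∈ Bb (n - 1) := by
  obtain ⟨i, hi, rfl⟩ := hs
  rcases sd_state H ht hi with ⟨k, h1, h2, j, hj, e⟩ | h1 | h1
  · exact Or.inl ⟨k, h1, h2, j, hj, by rw [e]⟩
  · exact Or.inr (Or.inl h1.2)
  · exact Or.inr (Or.inr h1.2)

/-- the states of an inner arc are states of the strand -/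
theorem arc_state (H : SD hS hχ n Rs p Bb q N T) {k : ℕ} (h1 : 0 < k) (h2 : k + 1 < n) {i : ℕ}
    (hi : i ≤ T (n - k) - T (n - 1 - k)) :
    T (n - 1 - k) + i ≤ T n ∧ (nx S χ)^[i] (p (k + 1)).1 = (nx S χ)^[T (n - 1 - k) + i] q.1 := by
  have e1 : (stp (cm0 hS) (xc hS hχ))^[T (n - 1 - k)] q = p (k + 1) := by
    have := H.at_ (n - 1 - k) (by omega) (by omega)
    rw [show n - (n - 1 - k) = k + 1 by omega] at this
    exact this
  have h3 := sd_mono H (show n - k ≤ n by omega) le_rfl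
  have h4 := H.mono (n - 1 - k) (by omega)
  rw [show n - 1 - k + 1 = n - k by omega] at h4
  refine ⟨by omega, ?_⟩
  rw [Nat.add_comm (T (n - 1 - k)) i, Function.iterate_add_apply, ← sd_st H (T (n - 1 - k)), e1]

theorem rs_arc (H : SD hS hχ n Rs p Bb q N T)
    (ht : ∀ k, 0 < k → k + 1 < n → t k = T (n - k) - T (n - 1 - k)) {k : ℕ} (h1 : 0 < k)
    (h2 : k + 1 < n) {s : ℂ} (hs : s ∈ RS S χ (p (k + 1)).1 (t k)) : s ∈ RS S χ q.1 (T n) := by
  obtain ⟨i, hi, rfl⟩ := hs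
  rw [ht k h1 h2] at hi
  obtain ⟨h3, h4⟩ := arc_state H h1 h2 hi
  exact ⟨_, h3, by rw [h4]⟩


end strand

/-! ### LOW and DN on `rc0 hS` -/

/-- `j` is the index of a tile of the white part or of an end tile -/
def Wj (n M j : ℕ) : Prop := j = 0 ∨ (n - 1 ≤ j ∧ j < M)

/-- **LOW and DN for the strand**: `Rw` = cells of the sites in the regions of the white tiles and of
the two end tiles -/
theorem low_strand (G : SGeo S M n k0 k1 W A B h b1 m ρ τ κ o K0)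
    (D : DCorr hS hχ n y z (fun k => RR A B h W (o + k)) (fun k => RR (A + ρ) (B + ρ) h W (o + k)) p)
    (hb : ∀ k : ℕ, k < n →
      FA (cm0 hS) (xc hS hχ) (RD S (RR (A + ρ) (B + ρ) h W (o + k))) (p (k + 1)) (p k))
    {a0 a1 : ℝ} {V β : Finset ℂ} {up dn : List ℂ}
    (N : NkG S k0 W A B h b1 m o χ y z a0 a1 V β up dn) {x : ℕ → ℂ} (hxz : ∀ k, k ≤ n → x k = z k)
    (hxM : ∀ j, x (j + M) = x j)
    (hW : ∀ j, n ≤ j → j < M → Lk S (WT S χ y W A B h o j) (x j) (x (j + 1)))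
    {w0 c0 : ℝ} (hw1 : 0 < w0) (hw0 : w0 ≤ B + κ - h / 2)
    (hbox : ∀ w, |X (gz h W (o + k0)) (ge W (o + k0)) w| < w0 →
      -c0 ≤ Y (gz h W (o + k0)) (ge W (o + k0)) w →
      Y (gz h W (o + k0)) (ge W (o + k0)) w ≤ -(A + τ) → w ∈ K0)
    (hwh : ∀ s ∈ dn, -A < Y (gz h W (o + k0)) (ge W (o + k0)) s → χ s ≠ χ (y 0))
    (hy0 : χ (y 0) = 1)
    -- the strand
    {Rs : Set (D0 S)} {q : D0 S} {Np : ℕ} {T : ℕ → ℕ}
    (H : SD hS hχ n Rs p (fun k => RR (A + ρ) (B + ρ) h W (o + k)) q Np T)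
    {Rw : Set (Cs hS)}
    (hR1 : ∀ c ∈ Rw, ∃ j, Wj n M j ∧ ∃ s ∈ S, s ∈ RR (A + ρ) (B + ρ) h W (o + j) ∧
      c.1 = Quot.mk _ s)
    (hR2 : ∀ (c : Cs hS) (s : ℂ) (j : ℕ), s ∈ S → Wj n M j → s ∈ RR (A + ρ) (B + ρ) h W (o + j) →
      c.1 = Quot.mk _ s → c ∈ Rw)
    {s : ℂ} (hs : (|X (gz h W (o + k0)) (ge W (o + k0)) s| < w0 ∧
      -c0 ≤ Y (gz h W (o + k0)) (ge W (o + k0)) s ∧ Y (gz h W (o + k0)) (ge W (o + k0)) s ≤ -A) ∨
      s ∈ dn) {c : Cs hS} (hc : c.1 = Quot.mk _ s) :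
    ¬ OnHull S s ∧ c ∉ zc (rc0 hS) Rw q (T n) (rcol hS χ hχ) ∧
      ¬ Ext (rc0 hS) (Hc hS) (zc (rc0 hS) Rw q (T n) (rcol hS χ hχ)) c ∧
      ∀ (i l : ZMod 3) (r : ℕ), r ≤ T n → c ∉ AA (rc0 hS) (rcol hS χ hχ) q (T n) r
        (Ww (rc0 hS) (Hc hS) Rw q (T n) (rcol hS χ hχ)) i l := by
  obtain ⟨t, Bk, ht⟩ := exists_backS D hb H
  have hk3 := G.k3
  have hkn := G.kn
  have hnM := G.nM
  have hρ0 := G.ρ0
  have hqc : xc hS hχ q = 1 := H.lp.occ
  set σ := rcol hS χ hχ with hσ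
  -- sets of cells of `cm0 hS`
  set Zr : Set (Cs hS) := zc (rc0 hS) Rw q (T n) σ with hZr
  set Zm : Set (Quot (hullE S)) := Subtype.val '' Zr with hZm
  set ALm : Set (Quot (hullE S)) :=
    {v | ∃ k, k < n ∧ ∃ s ∈ LS S χ (p (k + 1)).1 (t k), v = Quot.mk _ s} with hALm
  set ARm : Set (Quot (hullE S)) :=
    {v | ∃ k, k < n ∧ ∃ s ∈ RS S χ (p (k + 1)).1 (t k), v = Quot.mk _ s} with hARm
  have hwl : ∀ c : Cs hS, c ∈ Gntx535.wl (rc0 hS) (cfg (rc0 hS) σ) q (T n) ↔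
      ∃ s ∈ LS S χ q.1 (T n), c.1 = Quot.mk _ s := fun c => mem_wl_LS hqc
  have hwr : ∀ c : Cs hS, c ∈ wr (rc0 hS) (cfg (rc0 hS) σ) q (T n) ↔
      ∃ s ∈ RS S χ q.1 (T n), c.1 = Quot.mk _ s := fun c => mem_wr_RS hqc
  -- cells of sites
  have hcell : ∀ v : ℂ, v ∈ S → ∃ c : Cs hS, c.1 = Quot.mk _ v := by
    intro v hv
    exact ⟨⟨_, FinCx811.cell_mem hS (RcTx422.dart3 hS q) hv⟩, rfl⟩
  have hwhite : ∀ (c : Cs hS) (v : ℂ), c.1 = Quot.mk _ v → χ v ≠ χ (y 0) → σ c = 0 := by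
    intro c v hcv hv
    rw [hσ, RcTx422.rcol_val hcv]
    rw [hy0] at hv
    revert hv
    generalize χ v = a
    revert a
    decide
  have hZ1 : ∀ k, k < n → ∀ s ∈ RS S χ (p (k + 1)).1 (t k), (Quot.mk _ s : Quot (hullE S)) ∈ Zm := by
    intro k hk v hv
    have hvS := RS_S D hk hv
    obtain ⟨c, hcv⟩ := hcell v hvS
    refine ⟨c, ?_, hcv⟩
    by_cases hc : 0 < k ∧ k + 1 < n
    · exact Or.inl (Or.inr ((hwr c).2 ⟨v, rs_arc H ht hc.1 hc.2 hv, hcv⟩))
    · refine Or.inr ⟨hR2 c v k hvS ?_ (Bk.rB k hk hv) hcv, hwhite c v hcv (Bk.rcol hk hv)⟩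
      unfold Wj
      omega
  have hZ2 : ∀ j, n ≤ j → j < M → ∀ s ∈ WT S χ y W A B h o j,
      (Quot.mk _ s : Quot (hullE S)) ∈ Zm := by
    rintro j h1 h2 v ⟨⟨h3, h4⟩, h5⟩
    obtain ⟨c, hcv⟩ := hcell v h3
    refine ⟨c, Or.inr ⟨hR2 c v j h3 ?_ (RR_mono (by linarith) (by linarith) h W _ h5) hcv,
      hwhite c v hcv h4⟩, hcv⟩
    unfold Wj
    omega
  have hZ : ∀ v ∈ Zm, v ∈ ALm ∨ v ∈ ARm ∨ ∃ j : ℕ, j < M ∧ j ≠ k0 ∧ j + 1 ≠ k0 ∧ ∃ s ∈ S,
      s ∈ RR (A + ρ) (B + ρ) h W (o + j) ∧ v = Quot.mk _ s := by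
    rintro _ ⟨c, hc', rfl⟩
    have hmem : ∀ i, ((nx S χ)^[i] q.1).1 ∈ S ∧ ((nx S χ)^[i] q.1).2 ∈ S := by
      intro i
      rw [← sd_st H i]
      exact dart_mem _
    rcases hc' with (h1 | h1) | h1
    · obtain ⟨v, hv, e⟩ := (hwl c).1 h1
      have hvS : v ∈ S := by
        obtain ⟨i, -, rfl⟩ := hv
        exact (hmem i).1
      rcases ls_strand H ht hv with ⟨k, g1, g2, g3⟩ | g | g
      · exact Or.inl ⟨k, by omega, v, g3, e⟩
      · exact Or.inr (Or.inr ⟨0, by omega, by omega, by omega, v, hvS, g, e⟩)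
      · exact Or.inr (Or.inr ⟨n - 1, by omega, by omega, by omega, v, hvS, g, e⟩)
    · obtain ⟨v, hv, e⟩ := (hwr c).1 h1
      have hvS : v ∈ S := by
        obtain ⟨i, -, rfl⟩ := hv
        exact (hmem i).2
      rcases rs_strand H ht hv with ⟨k, g1, g2, g3⟩ | g | g
      · exact Or.inr (Or.inl ⟨k, by omega, v, g3, e⟩)
      · exact Or.inr (Or.inr ⟨0, by omega, by omega, by omega, v, hvS, g, e⟩)
      · exact Or.inr (Or.inr ⟨n - 1, by omega, by omega, by omega, v, hvS, g, e⟩)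
    · obtain ⟨j, g1, v, g2, g3, g4⟩ := hR1 c h1.1
      unfold Wj at g1
      exact Or.inr (Or.inr ⟨j, by omega, by omega, by omega, v, g2, g3, g4⟩)
  obtain ⟨r1, -, -, r4, r5, -⟩ := low_gate G D Bk N hxz hxM hW hw1 hw0 hbox hwh (Z := Zm) (AL := ALm)
    (AR := ARm) hZ1 hZ2 (fun _ h => h) (fun _ h => h) hZ hs
  have hcZ : c ∉ Zr := fun h => r4 ⟨c, h, hc⟩
  have hcE : ¬ Ext (rc0 hS) (Hc hS) Zr c := by
    intro h
    apply r5
    rw [← hc]
    have e1 : (Subtype.val ⁻¹' Zm : Set (Cs hS)) = Zr := pre_image Zr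
    have h' : Ext (rc0 hS) (Hc hS) (Subtype.val ⁻¹' Zm : Set (Cs hS)) c := by
      rw [e1]
      exact h
    exact ext_restr.1 h'
  refine ⟨r1, hcZ, hcE, fun i l r hr hA => ?_⟩
  have hL : c ∉ Gntx535.wl (rc0 hS) (cfg (rc0 hS) σ) q (T n) := fun h => hcZ (Or.inl (Or.inl h))
  have hRr : c ∉ wr (rc0 hS) (cfg (rc0 hS) σ) q (T n) := fun h => hcZ (Or.inl (Or.inr h))
  rcases R5qx166.AA_cases hA with ⟨-, v, -, hv, e⟩ | ⟨-, v, hv, e⟩ | ⟨-, h⟩
  · exact hL (Gntx535.mem_wl.2 ⟨v, hv, e⟩)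
  · exact hL (Gntx535.mem_wl.2 ⟨v, hv.trans hr, e⟩)
  · rcases h with (h | h) | h
    · exact hcE h
    · exact hcZ h.1
    · exact hRr h


end Crest.Agent.R143.UKLowx568
end
end

-- ▼ part R143/UKLowU_568
section

/-!
# Row 143 (S0194), RIG, box (7): the fields `low` and `nk` of 923's `UKin` (helper568)

`H : CorH X U M W η d o n` (713), strand `(q, N, T)` of the corridor on `rc0 H.gp` (168's `SD`),
`Rw` = cells of the sites of `BR η W M o n` (697), root time `r`.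

* `stA H Rw q m r j l` : sites of the giant `l` of 166's `AA` of type `j`
* `low_H` : at every straight inner gate with the points below it in `K0`
* `LayU` : `run_edge`, `use_red` (reduction of a gate modulo `M` to the out tiles)
* **`low_UK`**, **`nk_UK`** : the fields `low`, `nk` of `UKin`, literally, with `h = 100 η`,
  `w ≤ 4 η`, `a0 = -η`, `a1 = η`, `b0 = -9 η`, `b1 = 10 η`, `m' = η`
-/

set_option autoImplicit false

noncomputable section

open scoped Classical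

namespace Crest.Agent.R143.UKLowx568

open Crest.Agent.R143.B0x346 Crest.Agent.R143.DelGx806 Crest.Agent.R143.DelRx806
open Crest.Agent.R143.ToolWx838 Crest.Agent.R143.Blkx838
open Crest.Agent.R143.ToolW3x838
open Crest.Agent.R143.Neckx921 (Neck NeckD Tile Lk)
open Crest.Agent.R143.Frame1x395 Crest.Agent.R143.Frame2x395 Crest.Agent.R143.Frame3x395
  Crest.Agent.R143.Frame4x395 Crest.Agent.R143.Frame8x395 Crest.Agent.R143.Frame9x395
  Crest.Agent.R143.Frame10x395 Crest.Agent.R143.Frame11x395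
open Crest.Agent.R143.Frame5x395 (sd mem_sd th th_spec)
open Crest.Agent.R143.Splx117 Crest.Agent.R143.WLocx713 Crest.Agent.R143.RingDx117
  Crest.Agent.R143.CorrDx117
open Crest.Agent.R143.PP0x831
open Crest.Agent.R143.DCorGx713
open Crest.Agent.R143.TileRx228
open Crest.Agent.R143.Sepx686 Crest.Agent.R143.SepLx686 Crest.Agent.R143.LowDx568
open Crest.Agent.R143.EvGx168 (SD)
open Crest.Agent.R143.FinCx811 (Cs rc0 rcol)
open Crest.Agent.R143.RcTx422 (Hc)
open Crest.Agent.R143.Extx358 (Ww)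
open Crest.Agent.R143.R5qx166 (AA)
open Crest.Agent.R143.CorHx713
open Crest.Agent.R143.SepHx697 (Geo BR nkg edge_of inn_of rr_eq)
open Crest.Agent.R143.Layx416 (Lay g al mi be nn rr jj)
open Crest.Agent.R143.LayUx416 (LayU)
open Crest.Agent.R143.PolyUx346 (Poly)
open Crest.Agent.R143.R10Px923 (Use Col col_of_neck)

variable {X : Set (ℂ × Bool)} {U K0 : Set ℂ} {M n k0 k1 : ℕ} {W : ℤ → ℤ × ℤ} {η d : ℝ} {o : ℤ}

/-- the sites of the giants of the strand -/
def stA (H : CorH X U M W η d o n) (Rw : Set (Cs H.gp)) (q : D0 (sX X)) (m r : ℕ) (j l : ZMod 3) :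
    Set ℂ :=
  C2SCx395.st (AA (rc0 H.gp) (rcol H.gp (cX X) H.hull) q m r
    (Ww (rc0 H.gp) (Hc H.gp) Rw q m (rcol H.gp (cX X) H.hull)) j) l

section strand

variable {H : CorH X U M W η d o n} {Rs : Set (D0 (sX X))} {q : D0 (sX X)} {N : ℕ} {T : ℕ → ℕ}
  {Rw : Set (Cs H.gp)}

/-- **LOW and DN at a straight inner gate**, `CorH` form -/
theorem low_H (hf : ∀ k : ℕ, k < n → FA (cm0 H.gp) (xc H.gp H.hull)
      (RD (sX X) (RR (19 / 2 * η) (103 / 2 * η) (100 * η) W (o + k))) (H.p (k + 1)) (H.p k))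
    (St : SD H.gp H.hull n Rs H.p
      (fun k : ℕ => RR (19 / 2 * η) (103 / 2 * η) (100 * η) W (o + k)) q N T)
    (hR1 : ∀ c ∈ Rw, ∃ s ∈ sX X, s ∈ BR η W M o n ∧ c.1 = Quot.mk _ s)
    (hR2 : ∀ s ∈ sX X, s ∈ BR η W M o n → ∃ c ∈ Rw, c.1 = Quot.mk _ s)
    (G : Geo (sX X) M n k0 k1 W η o K0)
    (hbox : ∀ w, |Gatex838.X (gz (100 * η) W (o + k0)) (ge W (o + k0)) w| < 4 * η →
      -(100 * η) ≤ Gatex838.Y (gz (100 * η) W (o + k0)) (ge W (o + k0)) w →
      Gatex838.Y (gz (100 * η) W (o + k0)) (ge W (o + k0)) w ≤ -(10 * η) → w ∈ K0) :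
    ∃ up dn : List ℂ, Neck (sX X) (gz (100 * η) W (o + k0)) (ge W (o + k0)) (-η) η (-(9 * η))
      (10 * η) η (sX X) (bX X) up (yy η W X (o + k0)) dn ∧
      ∀ s, (|Gatex838.X (gz (100 * η) W (o + k0)) (ge W (o + k0)) s| < 4 * η ∧
        -(100 * η) ≤ Gatex838.Y (gz (100 * η) W (o + k0)) (ge W (o + k0)) s ∧
        Gatex838.Y (gz (100 * η) W (o + k0)) (ge W (o + k0)) s ≤ -(9 * η)) ∨ s ∈ dn →
      ∀ (j l : ZMod 3) (r : ℕ), r ≤ T n → s ∉ stA H Rw q (T n) r j l := by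
  have h0 := H.e0
  have hnM := H.nM
  have hkn := G.kn
  have D := H.corr
  have eB : (fun k : ℕ => RR (19 / 2 * η) (103 / 2 * η) (100 * η) W (o + k)) =
      fun k : ℕ => RR (9 * η + η / 2) (51 * η + η / 2) (100 * η) W (o + k) :=
    funext fun k => rr_eq η W _
  rw [eB] at D St
  obtain ⟨up, dn, Nk⟩ := nkg H k0
  have hy0 : cX X (yy η W X (o + ((0 : ℕ) : ℤ))) = 1 := H.coly _
  refine ⟨up, dn, Nk.neck, ?_⟩
  rintro s hs j l r hr ⟨-, c, hcA, hcs⟩
  refine (low_strand (x := fun k : ℕ => xx η W X (o + k)) (w0 := 4 * η) (c0 := 100 * η) G D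
    (fun k hk => by
      have := hf k hk
      rw [rr_eq] at this
      exact this) Nk (fun k _ => rfl) ?_ ?_ (by linarith) (by linarith) ?_ ?_ hy0 St (Rw := Rw)
    ?_ ?_ hs hcs).2.2.2 j l r hr hcA
  · intro j
    show xx η W X (o + ((j + M : ℕ) : ℤ)) = xx η W X (o + j)
    rw [show o + ((j + M : ℕ) : ℤ) = o + j + M by push_cast; ring]
    exact H.xper _
  · intro j h1 h2
    have h3 := H.wht (o + j)
    show Lk (sX X) _ (xx η W X (o + j)) (xx η W X (o + ((j + 1 : ℕ) : ℤ)))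
    rw [show o + ((j + 1 : ℕ) : ℤ) = o + j + 1 by push_cast; ring]
    refine h3.mono ?_
    rintro s ⟨⟨h4, h5⟩, h6⟩
    exact ⟨⟨h4, fun hc => h5 ((bX_iff s h4).1 (hc.trans hy0))⟩, h6⟩
  · intro w h1 h2 h3
    exact hbox w h1 h2 (by linarith)
  · intro v hv hY
    have h1 := Nk.neck.cd v hv hY
    intro h2
    exact h1.2 ((bX_iff v h1.1).1 (h2.trans hy0))
  · intro c hc
    obtain ⟨v, h1, ⟨a, h2, h3, h4⟩, h5⟩ := hR1 c hc
    rw [rr_eq] at h4
    rcases h3.lt_or_eq with h6 | h6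
    · refine ⟨(a - o).toNat, Or.inr ⟨by omega, by omega⟩, v, h1, ?_, h5⟩
      rw [show o + ((a - o).toNat : ℤ) = a by omega]
      exact h4
    · refine ⟨0, Or.inl rfl, v, h1, ?_, h5⟩
      rw [h6, RR_per H.path] at h4
      simpa using h4
  · intro c v j hv hj hvR e
    have hB : v ∈ BR η W M o n := by
      rcases hj with hj | ⟨h1, h2⟩
      · refine ⟨o + M, by omega, le_rfl, ?_⟩
        rw [RR_per H.path, rr_eq]
        subst hj
        simpa using hvR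
      · exact ⟨o + j, by omega, by omega, by rw [rr_eq]; exact hvR⟩
    obtain ⟨c', hc', e'⟩ := hR2 v hv hB
    have : c = c' := Subtype.ext (e.trans e'.symm)
    rw [this]
    exact hc'

end strand

/-! ### the layout -/

section lay

variable {u : Poly} {mm : ℕ} {p : ℤ → ℤ × ℤ} {Ai ei : ℤ → ℤ}

/-- tiles strictly between two corners are straight -/
theorem run_edge (L : LayU u mm M p W Ai ei) {k a : ℤ} (h1 : Ai k < a) (h2 : a < Ai (k + 1)) :
    ge W (a + 1) = ge W a := by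
  unfold ge
  rw [add_sub_cancel_right, L.lay.straight]
  intro j hj
  rcases lt_or_ge k j with h3 | h3
  · have := L.lay.Amono.monotone (show k + 1 ≤ j by omega)
    omega
  · have := L.lay.Amono.monotone h3
    omega

/-- **reduction of a gate with `Use` to the out tiles** -/
theorem use_red (L : LayU u mm M p W Ai ei) (i : ZMod 3) {a k j : ℤ} (hu : Use Ai ei a k j)
    (hj : (-(j : ZMod 3)) ≠ i) : ∃ (k' : ℕ) (t : ℤ), al Ai ei i + k' = a + t * M ∧ 3 ≤ k' ∧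
      k' + 3 ≤ nn Ai ei i ∧
      (∀ b : ℤ, al Ai ei i + k' - 2 ≤ b → b ≤ al Ai ei i + k' + 1 → ge W (b + 1) = ge W b) ∧
      ((-(j : ZMod 3)) = i + 2 ∧ k' + 3 ≤ rr Ai ei i ∨
        (-(j : ZMod 3)) = i + 1 ∧ rr Ai ei i + 3 ≤ k') := by
  obtain ⟨⟨u1, u2⟩, u3, u4⟩ := hu
  have hz : ∀ x i : ZMod 3, x ≠ i → x = i + 1 ∨ x = i + 2 := by decide
  have e0 := Layx416.jj_lab i
  have q1 := L.lay.nn_eq i
  have q2 := L.lay.rr_eq i
  have q3 := L.lay.al_mi i
  have q4 := L.lay.mi_be i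
  -- the multiple of `3`
  have key : ∀ c : ℤ, (-(j : ZMod 3)) = -((jj i + c : ℤ) : ZMod 3) → ∃ t : ℤ, jj i + c = j + 3 * t := by
    intro c hc
    have h1 : ((jj i + c - j : ℤ) : ZMod 3) = 0 := by
      push_cast
      have h2 : (j : ZMod 3) = ((jj i + c : ℤ) : ZMod 3) := neg_injective hc
      push_cast at h2
      rw [h2]; ring
    obtain ⟨t, ht⟩ := (ZMod.intCast_zmod_eq_zero_iff_dvd _ 3).1 h1
    exact ⟨t, by push_cast at ht; omega⟩
  -- straightness at the shifted gate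
  have str : ∀ t : ℤ, ∀ b : ℤ, a + t * M - 2 ≤ b → b ≤ a + t * M + 1 → ge W (b + 1) = ge W b := by
    intro t b h1 h2
    have h3 : ge W ((b - t * M) + 1) = ge W (b - t * M) := run_edge L (k := k) (by omega) (by omega)
    have h4 : ∀ c : ℤ, ge W (c - t * M) = ge W c := fun c =>
      PthFx765.ge_dvd L.lay.fp ⟨-t, by ring⟩
    rw [h4 b, show b - t * M + 1 = (b + 1) - t * M by ring, h4 (b + 1)] at h3
    exact h3
  rcases hz _ _ hj with hc | hc
  · -- label `i + 1` : second half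
    have h1 : (-(j : ZMod 3)) = -((jj i + 2 : ℤ) : ZMod 3) := by
      rw [hc, Int.cast_add, neg_add, e0]
      rfl
    obtain ⟨t, ht⟩ := key 2 h1
    have g1 := L.lay.g_per' j t
    have g2 := L.lay.g_per' (j + 1) t
    rw [← ht] at g1
    rw [show j + 1 + 3 * t = j + 3 * t + 1 by ring, ← ht] at g2
    have e1 : mi Ai ei i = g Ai ei j + t * M := g1
    have e2 : be Ai ei i = g Ai ei (j + 1) + t * M := by
      rw [← g2]; unfold be; congr 1
    refine ⟨(a + t * M - al Ai ei i).toNat, t, by omega, by omega, by omega, ?_, Or.inr ⟨hc, by omega⟩⟩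
    intro b h3 h4
    exact str t b (by omega) (by omega)
  · -- label `i + 2` : first half
    have h1 : (-(j : ZMod 3)) = -((jj i + 1 : ℤ) : ZMod 3) := by
      rw [hc, Int.cast_add, neg_add, e0]
      rfl
    obtain ⟨t, ht⟩ := key 1 h1
    have g1 := L.lay.g_per' j t
    have g2 := L.lay.g_per' (j + 1) t
    rw [← ht] at g1
    rw [show j + 1 + 3 * t = j + 3 * t + 1 by ring, ← ht] at g2
    have e1 : al Ai ei i = g Ai ei j + t * M := g1
    have e2 : mi Ai ei i = g Ai ei (j + 1) + t * M := by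
      rw [← g2]; unfold mi; congr 1
    refine ⟨(a + t * M - al Ai ei i).toNat, t, by omega, by omega, by omega, ?_, Or.inl ⟨hc, by omega⟩⟩
    intro b h3 h4
    exact str t b (by omega) (by omega)

end lay

/-! ### the fields -/

section fields

variable {u : Poly} {mm : ℕ} {p : ℤ → ℤ × ℤ} {Ai ei : ℤ → ℤ} {i : ZMod 3}

/-- the geometry at a straight inner gate -/
theorem geo_at (L : LayU u mm M p W Ai ei) (hh : (mm : ℝ) * (100 * η) = u.s)
    (H : CorH X U M W η d (al Ai ei i) (nn Ai ei i)) {k' : ℕ} (h3 : 3 ≤ k')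
    (hn : k' + 3 ≤ nn Ai ei i)
    (hst : ∀ b : ℤ, al Ai ei i + k' - 2 ≤ b → b ≤ al Ai ei i + k' + 1 → ge W (b + 1) = ge W b) :
    ∃ k1, Geo (sX X) M (nn Ai ei i) k' k1 W η (al Ai ei i)
      (RegSx523.K0 (100 * η) (9 * η + η) u) := by
  have h0 := H.e0
  obtain ⟨k1, G⟩ := RegSx523.sgeo L hh (S := sX X) (A := 9 * η) (B := 51 * η) (b1 := 10 * η)
    (m := η) (ρ := η / 2) (τ := η) (κ := 3 * η) (by linarith) (by linarith) (by linarith)
    (by linarith) h0.le (by linarith) (by linarith) (by linarith) (by linarith) (by linarith)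
    (fun a u v h hu hv => edge_of H a u v h hu hv) (fun a s hs hu => inn_of H a s hs hu) i
  exact ⟨k1, G.gate h3 hn hst (RegSx523.K0_bot L hh (by linarith) (by linarith) _)⟩

/-- the points below a gate are in `K0` -/
theorem box_at (L : LayU u mm M p W Ai ei) (hh : (mm : ℝ) * (100 * η) = u.s) (h0 : 0 < η) {a : ℤ}
    (w : ℂ) (h1 : |Gatex838.X (gz (100 * η) W a) (ge W a) w| < 4 * η)
    (h2 : -(100 * η) ≤ Gatex838.Y (gz (100 * η) W a) (ge W a) w)
    (h3 : Gatex838.Y (gz (100 * η) W a) (ge W a) w ≤ -(10 * η)) :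
    w ∈ RegSx523.K0 (100 * η) (9 * η + η) u :=
  RegSx523.K0_below L hh (by linarith) h2 (by linarith)




end fields

end Crest.Agent.R143.UKLowx568
end
end

-- ▼ part R143/UKinB_571
section

/-!
# Row 143 (S0194), RIG, box (7): the field `reg` of 923's `UKin` and `y_a ∈ A (-j)` (helper571)

The giants `A = AA (LA, LB, W)` of the strand `(q, T n)` of the corridor (times `T k` of the gates
`n - k`, arc `k` in the tile `n - 1 - k`), root gap time `r` with its state in the tile `k₀`.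

* `la_tile`, `lb_tile` : the sites of `LA` are in the tiles `≤ k₀ + 1`, the sites of `LB` in the tiles
  `≥ k₀ - 1`
* `y_la`, `y_lb` : the gates `k ≤ k₀ - 2` are in `LA`, the gates `k ≥ k₀ + 3` in `LB`
* `reg` , `ymem` : the same in the layout `Lay` of 416, label `i` white, `k₀ + 1 = rr A e i`
* **`reg_gA`**, **`ymem_gA`** : for 358's giants `gA (i + 1)` of the system of all strands under
  713's `CorH`
-/

set_option autoImplicit false
set_option linter.unusedSectionVars false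

noncomputable section

open scoped Classical

namespace Crest.Agent.R143.UKinBx571

open Crest.Agent.R143.B0x346 Crest.Agent.R143.DelGx806 Crest.Agent.R143.DelRx806
  Crest.Agent.R143.JColx54
open Crest.Agent.R143.Frame1x395 Crest.Agent.R143.Frame2x395 Crest.Agent.R143.Frame3x395
  Crest.Agent.R143.Frame4x395 Crest.Agent.R143.Frame8x395 Crest.Agent.R143.Frame9x395
  Crest.Agent.R143.Frame10x395 Crest.Agent.R143.Frame11x395
open Crest.Agent.R143.Frame5x395 (sd mem_sd th th_spec)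
open Crest.Agent.R143.FinCx811 (Cs rc0 cs rcol)
open Crest.Agent.R143.NonXx592 (P Rc)
open Crest.Agent.R143.R5bx166 (LA LB)
open Crest.Agent.R143.R5qx166 (AA AA_0 AA_1 AA_2)
open Crest.Agent.R143.C2SCx395 (st)
open Crest.Agent.R143.Splx117 (Lp InK lc mono_of)
open Crest.Agent.R143.RingDx117 (RD)
open Crest.Agent.R143.StrBx117 (Str)
open Crest.Agent.R143.Layx416 (Lay g al mi be jj nn rr)
open Crest.Agent.R143.TileRx228 (RR gz ge)
open Crest.Agent.R143.R10Px923 (Use)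

section strand

variable {S : Finset ℂ} {hS : GP (S : Set ℂ)} {σ : Cs hS → ZMod 2} {n N : ℕ} {B : ℕ → Set ℂ}
  {p : ℕ → D0 S} {Rs : Set (D0 S)} {q : D0 S} {T : ℕ → ℕ} {k₀ r : ℕ}

/-- the strand of the corridor, times backward -/
abbrev Sb (hS : GP (S : Set ℂ)) (σ : Cs hS → ZMod 2) (n : ℕ) (Rs : Set (D0 S)) (p : ℕ → D0 S)
    (B : ℕ → Set ℂ) (q : D0 S) (N : ℕ) (T : ℕ → ℕ) : Prop :=
  Str (rc0 hS) (cfg (rc0 hS) σ) n Rs (fun k => p (n - k)) (fun k => RD S (B (n - 1 - k))) q N T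

/-- the arc of the root gap -/
theorem root_arc (H : Sb hS σ n Rs p B q N T)
    (dis : ∀ a b, a + 2 ≤ b → b < n → ∀ v ∈ S, v ∈ B a → v ∉ B b) (hk : k₀ < n) (hr : r ≤ T n)
    (hQ : P (rc0 hS) (cfg (rc0 hS) σ) q r ∈ RD S (B k₀)) :
    ∃ m < n, T m ≤ r ∧ r ≤ T (m + 1) ∧ n - 1 - m ≤ k₀ + 1 ∧ k₀ ≤ n - 1 - m + 1 := by
  have n3 := H.n3
  obtain ⟨m, -, m1, m2, m3⟩ := Splx117.arc_of (T := T) (a := 0) (b := n) (u := r) (by omega)
    (by rw [H.T0]; exact Nat.zero_le _) hr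
  have h1 := H.arc m m1 r m2 m3
  have hv : (P (rc0 hS) (cfg (rc0 hS) σ) q r).1.1 ∈ S :=
    (mem_delT.1 (th_spec (P (rc0 hS) (cfg (rc0 hS) σ) q r).2)).1
  refine ⟨m, m1, m2, m3, ?_, ?_⟩
  · by_contra hc
    exact dis k₀ (n - 1 - m) (by omega) (by omega) _ hv hQ.1 h1.1
  · by_contra hc
    exact dis (n - 1 - m) k₀ (by omega) hk _ hv h1.1 hQ.1

/-- the site of a left cell of the strand -/
theorem site_of (inn : ∀ k, k < n → ∀ v ∈ S, v ∈ B k → ¬ OnHull S v) {k u : ℕ} (hk : k < n)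
    (hu : P (rc0 hS) (cfg (rc0 hS) σ) q u ∈ RD S (B k)) {v : ℂ}
    (hv : (lc (rc0 hS) (cfg (rc0 hS) σ) q u).1 = Quot.mk (hullE S) v) : v ∈ B k := by
  have h1 : (P (rc0 hS) (cfg (rc0 hS) σ) q u).1.1 ∈ S :=
    (mem_delT.1 (th_spec (P (rc0 hS) (cfg (rc0 hS) σ) q u).2)).1
  have h2 := inn k hk _ h1 hu.1
  have h3 : v = (P (rc0 hS) (cfg (rc0 hS) σ) q u).1.1 := quot_inner hS h2 hv
  rw [h3]
  exact hu.1

theorem Tmono (H : Sb hS σ n Rs p B q N T) {a b : ℕ} (h1 : a ≤ b) (h2 : b ≤ n) : T a ≤ T b :=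
  mono_of (a := 0) (b := n) (fun k _ h => H.mono k h) (Nat.zero_le _) h1 h2

/-- **sites of `LA`** -/
theorem la_tile (H : Sb hS σ n Rs p B q N T)
    (inn : ∀ k, k < n → ∀ v ∈ S, v ∈ B k → ¬ OnHull S v)
    (dis : ∀ a b, a + 2 ≤ b → b < n → ∀ v ∈ S, v ∈ B a → v ∉ B b) (hk : k₀ < n) (hr : r ≤ T n)
    (hQ : P (rc0 hS) (cfg (rc0 hS) σ) q r ∈ RD S (B k₀)) {c : Cs hS}
    (hc : c ∈ LA (rc0 hS) (cfg (rc0 hS) σ) q r (T n)) {v : ℂ}
    (hv : c.1 = Quot.mk (hullE S) v) : ∃ k, k < n ∧ k ≤ k₀ + 1 ∧ v ∈ B k := by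
  have n3 := H.n3
  obtain ⟨m, m1, m2, m3, m4, m5⟩ := root_arc H dis hk hr hQ
  obtain ⟨u, u1, u2, rfl⟩ := hc
  obtain ⟨l, -, l1, l2, l3⟩ := Splx117.arc_of (T := T) (a := 0) (b := n) (u := u) (by omega)
    (by rw [H.T0]; exact Nat.zero_le _) u2
  have hml : m ≤ l := by
    by_contra hc
    have := Tmono H (show l + 1 ≤ m by omega) (by omega)
    omega
  exact ⟨n - 1 - l, by omega, by omega, site_of inn (by omega) (H.arc l l1 u l2 l3) hv⟩

/-- **sites of `LB`** -/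
theorem lb_tile (H : Sb hS σ n Rs p B q N T)
    (inn : ∀ k, k < n → ∀ v ∈ S, v ∈ B k → ¬ OnHull S v)
    (dis : ∀ a b, a + 2 ≤ b → b < n → ∀ v ∈ S, v ∈ B a → v ∉ B b) (hk : k₀ < n) (hr : r ≤ T n)
    (hQ : P (rc0 hS) (cfg (rc0 hS) σ) q r ∈ RD S (B k₀)) {c : Cs hS}
    (hc : c ∈ LB (rc0 hS) (cfg (rc0 hS) σ) q r) {v : ℂ}
    (hv : c.1 = Quot.mk (hullE S) v) : ∃ k, k < n ∧ k₀ ≤ k + 1 ∧ v ∈ B k := by
  have n3 := H.n3
  obtain ⟨m, m1, m2, m3, m4, m5⟩ := root_arc H dis hk hr hQ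
  obtain ⟨u, u1, rfl⟩ := hc
  obtain ⟨l, -, l1, l2, l3⟩ := Splx117.arc_of (T := T) (a := 0) (b := n) (u := u) (by omega)
    (by rw [H.T0]; exact Nat.zero_le _) (u1.trans hr)
  rcases Nat.lt_or_ge m l with hml | hml
  · -- then `u = r` is in the arc `m` too
    have h1 := Tmono H (show m + 1 ≤ l by omega) (by omega)
    exact ⟨n - 1 - m, by omega, by omega, site_of inn (by omega) (H.arc m m1 u (by omega)
      (by omega)) hv⟩
  · exact ⟨n - 1 - l, by omega, by omega, site_of inn (by omega) (H.arc l l1 u l2 l3) hv⟩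

theorem Tlt (H : Sb hS σ n Rs p B q N T) {a b : ℕ} (h0 : 0 < a) (h1 : a < b) (h2 : b < n) :
    T a < T b := by
  have h3 := H.lt a h0 (by omega)
  have h4 := Tmono H (show a + 1 ≤ b by omega) (by omega)
  omega

/-- the left cell at the time of a gate -/
theorem lc_gate (H : Sb hS σ n Rs p B q N T) {k : ℕ} (k0 : 0 < k) (kn : k < n) :
    (lc (rc0 hS) (cfg (rc0 hS) σ) q (T (n - k))).1 = Quot.mk (hullE S) (p k).1.1 := by
  have h1 := H.at_ (n - k) (by omega) (by omega)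
  rw [show n - (n - k) = k by omega] at h1
  show ((rc0 hS).cell ((stp (rc0 hS) (cfg (rc0 hS) σ))^[T (n - k)] q)).1 = _
  rw [h1]
  rfl

/-- **the gates below the root gap are in `LA`** -/
theorem y_la (H : Sb hS σ n Rs p B q N T)
    (dis : ∀ a b, a + 2 ≤ b → b < n → ∀ v ∈ S, v ∈ B a → v ∉ B b) (hk : k₀ < n) (hr : r ≤ T n)
    (hQ : P (rc0 hS) (cfg (rc0 hS) σ) q r ∈ RD S (B k₀)) {k : ℕ} (k0 : 0 < k) (k1 : k + 2 ≤ k₀) :
    ∃ c ∈ LA (rc0 hS) (cfg (rc0 hS) σ) q r (T n), c.1 = Quot.mk (hullE S) (p k).1.1 := by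
  obtain ⟨m, m1, m2, m3, m4, m5⟩ := root_arc H dis hk hr hQ
  refine ⟨_, ⟨T (n - k), ?_, Tmono H (by omega) le_rfl, rfl⟩, lc_gate H k0 (by omega)⟩
  have h1 := Tlt H (a := m + 1) (b := n - k) (by omega) (by omega) (by omega)
  omega

/-- **the gates above the root gap are in `LB`** -/
theorem y_lb (H : Sb hS σ n Rs p B q N T)
    (dis : ∀ a b, a + 2 ≤ b → b < n → ∀ v ∈ S, v ∈ B a → v ∉ B b) (hk : k₀ < n) (hr : r ≤ T n)
    (hQ : P (rc0 hS) (cfg (rc0 hS) σ) q r ∈ RD S (B k₀)) {k : ℕ} (k1 : k₀ + 2 ≤ k) (kn : k < n) :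
    ∃ c ∈ LB (rc0 hS) (cfg (rc0 hS) σ) q r, c.1 = Quot.mk (hullE S) (p k).1.1 := by
  obtain ⟨m, m1, m2, m3, m4, m5⟩ := root_arc H dis hk hr hQ
  refine ⟨_, ⟨T (n - k), ?_, rfl⟩, lc_gate H (by omega) kn⟩
  have h1 := Tmono H (a := n - k) (b := m) (by omega) (by omega)
  omega

end strand

/-! ### the layout -/

theorem z3n {i l : ZMod 3} (h : l ≠ i) : l = i + 1 ∨ l = i + 1 + 1 := by
  revert i l; decide

theorem z3e (i : ZMod 3) : i + 1 + 2 = i := by
  revert i; decide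

section layout

variable {S : Finset ℂ} {hS : GP (S : Set ℂ)} {σ : Cs hS → ZMod 2} {N : ℕ} {h A1 B1 : ℝ}
  {p : ℕ → D0 S} {Rs : Set (D0 S)} {q : D0 S} {T : ℕ → ℕ} {r : ℕ} {Wg : Set (Cs hS)}
  {n' M : ℕ} {m' : ℤ} {p' W : ℤ → ℤ × ℤ} {A e : ℤ → ℤ} {i : ZMod 3}

/-- **the field `reg` of `UKin`** -/
theorem reg (L : Lay n' M m' p' W A e)
    (H : Sb hS σ (nn A e i) Rs p (fun k => RR A1 B1 h W (al A e i + k)) q N T)
    (inn : ∀ k, k < nn A e i → ∀ v ∈ S, v ∈ RR A1 B1 h W (al A e i + k) → ¬ OnHull S v)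
    (dis : ∀ a b : ℕ, a + 2 ≤ b → b < nn A e i → ∀ v ∈ S, v ∈ RR A1 B1 h W (al A e i + a) →
      v ∉ RR A1 B1 h W (al A e i + b)) (hr : r ≤ T (nn A e i))
    (hQ : P (rc0 hS) (cfg (rc0 hS) σ) q r ∈
      RD S (RR A1 B1 h W (al A e i + (rr A e i - 1 : ℕ)))) :
    ∀ l, l ≠ i → ∀ s ∈ st (AA (rc0 hS) σ q (T (nn A e i)) r Wg (i + 1)) l, ∃ a j : ℤ,
      s ∈ RR A1 B1 h W a ∧ g A e j ≤ a + 2 ∧ a ≤ g A e (j + 1) + 1 ∧ (-(j : ZMod 3)) = l := by
  intro l hl s hs
  have h1 := L.rr_eq i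
  have h2 := L.rr_pos i
  have h3 := L.rr_lt i
  have h4 := L.nn_eq i
  have hj := Layx416.jj_lab i
  obtain ⟨-, c, hc, hs⟩ := hs
  rcases z3n hl with rfl | rfl
  · -- `LB`
    rw [AA_0] at hc
    obtain ⟨k, k1, k2, k3⟩ := lb_tile (k₀ := rr A e i - 1) H inn dis (by omega) hr hQ hc hs
    refine ⟨al A e i + k, jj i + 2, k3, ?_, ?_, ?_⟩
    · show mi A e i ≤ _
      omega
    · have : g A e (jj i + 2 + 1) = be A e i := by
        rw [add_assoc]; rfl
      rw [this]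
      omega
    · rw [Int.cast_add, neg_add, hj]
      rfl
  · rw [AA_1] at hc
    obtain ⟨k, k1, k2, k3⟩ := la_tile (k₀ := rr A e i - 1) H inn dis (by omega) hr hQ hc hs
    refine ⟨al A e i + k, jj i + 1, k3, ?_, ?_, ?_⟩
    · show al A e i ≤ _
      omega
    · have : g A e (jj i + 1 + 1) = mi A e i := by
        rw [add_assoc]; rfl
      rw [this]
      omega
    · rw [Int.cast_add, neg_add, hj]
      have : ∀ x : ZMod 3, x + -((1 : ℤ) : ZMod 3) = x + 1 + 1 := by decide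
      exact this i

/-- integer form of a label -/
theorem lab_int {j j0 : ℤ} (h : (-(j : ZMod 3)) = -(j0 : ZMod 3)) : ∃ t : ℤ, j = j0 + 3 * t := by
  have h1 : ((j - j0 : ℤ) : ZMod 3) = 0 := by
    push_cast
    rw [neg_inj.1 h, sub_self]
  obtain ⟨t, ht⟩ := (ZMod.intCast_zmod_eq_zero_iff_dvd _ 3).1 h1
  exact ⟨t, by push_cast at ht; linarith⟩

theorem per_int {y : ℤ → ℂ} (hper : ∀ a, y (a + M) = y a) (a t : ℤ) : y (a + t * M) = y a := by
  induction t using Int.induction_on with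
  | zero => rw [zero_mul, add_zero]
  | succ t ih => rw [add_mul, one_mul, ← add_assoc, hper, ih]
  | pred t ih =>
    rw [← hper (a + (-(t : ℤ) - 1) * M)]
    rw [show a + (-(t : ℤ) - 1) * M + M = a + -(t : ℤ) * M by ring]
    exact ih

/-- **the black sites of the gates of the out tiles are in their class** -/
theorem ymem (L : Lay n' M m' p' W A e)
    (H : Sb hS σ (nn A e i) Rs p (fun k => RR A1 B1 h W (al A e i + k)) q N T)
    (dis : ∀ a b : ℕ, a + 2 ≤ b → b < nn A e i → ∀ v ∈ S, v ∈ RR A1 B1 h W (al A e i + a) →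
      v ∉ RR A1 B1 h W (al A e i + b)) (hr : r ≤ T (nn A e i))
    (hQ : P (rc0 hS) (cfg (rc0 hS) σ) q r ∈
      RD S (RR A1 B1 h W (al A e i + (rr A e i - 1 : ℕ)))) {y : ℤ → ℂ}
    (hper : ∀ a, y (a + M) = y a)
    (hy : ∀ k : ℕ, k ≤ nn A e i → (p k).1.1 = y (al A e i + k)) {a j : ℤ}
    (u1 : g A e j + 3 ≤ a) (u2 : a + 3 ≤ g A e (j + 1)) (hj : (-(j : ZMod 3)) ≠ i) :
    y a ∈ st (AA (rc0 hS) σ q (T (nn A e i)) r Wg (i + 1)) (-(j : ZMod 3)) := by
  have h1 := L.rr_eq i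
  have h2 := L.rr_pos i
  have h3 := L.rr_lt i
  have h4 := L.nn_eq i
  have hjj := Layx416.jj_lab i
  have hS1 : ∀ k, (p k).1.1 ∈ S := fun k => (mem_delT.1 (th_spec (p k).2)).1
  rcases z3n hj with hl | hl
  · -- `LB`
    have e1 : (-(j : ZMod 3)) = -((jj i + 2 : ℤ) : ZMod 3) := by
      rw [hl, Int.cast_add, neg_add, hjj]
      rfl
    obtain ⟨t, rfl⟩ := lab_int e1
    rw [L.g_per'] at u1
    rw [show jj i + 2 + 3 * t + 1 = jj i + 3 + 3 * t by ring, L.g_per'] at u2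
    change mi A e i + t * M + 3 ≤ a at u1
    change a + 3 ≤ be A e i + t * M at u2
    have e2 : y a = y (al A e i + ((a - t * M - al A e i).toNat : ℕ)) := by
      rw [← per_int hper (al A e i + ((a - t * M - al A e i).toNat : ℕ)) t]
      congr 1
      omega
    obtain ⟨c, hc, hc'⟩ := y_lb (k₀ := rr A e i - 1) H dis (by omega) hr hQ
      (k := (a - t * M - al A e i).toNat) (by omega) (by omega)
    have e3 := hy (a - t * M - al A e i).toNat (by omega)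
    rw [e2, hl]
    rw [e3] at hc'
    refine ⟨?_, c, ?_, hc'⟩
    · rw [← e3]
      exact hS1 _
    · rw [AA_0]
      exact hc
  · have e1 : (-(j : ZMod 3)) = -((jj i + 1 : ℤ) : ZMod 3) := by
      rw [hl, Int.cast_add, neg_add, hjj]
      have : ∀ x : ZMod 3, x + 1 + 1 = x + -((1 : ℤ) : ZMod 3) := by decide
      exact this i
    obtain ⟨t, rfl⟩ := lab_int e1
    rw [L.g_per'] at u1
    rw [show jj i + 1 + 3 * t + 1 = jj i + 2 + 3 * t by ring, L.g_per'] at u2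
    change al A e i + t * M + 3 ≤ a at u1
    change a + 3 ≤ mi A e i + t * M at u2
    have e2 : y a = y (al A e i + ((a - t * M - al A e i).toNat : ℕ)) := by
      rw [← per_int hper (al A e i + ((a - t * M - al A e i).toNat : ℕ)) t]
      congr 1
      omega
    obtain ⟨c, hc, hc'⟩ := y_la (k₀ := rr A e i - 1) H dis (by omega) hr hQ
      (k := (a - t * M - al A e i).toNat) (by omega) (by omega)
    have e3 := hy (a - t * M - al A e i).toNat (by omega)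
    rw [e2, hl]
    rw [e3] at hc'
    refine ⟨?_, c, ?_, hc'⟩
    · rw [← e3]
      exact hS1 _
    · rw [AA_1]
      exact hc

end layout

end Crest.Agent.R143.UKinBx571
end
end

-- ▼ part R143/UKinC_571
section

/-!
# Row 143 (S0194), RIG, box (7): `reg` and `y_a ∈ A (-j)` for 358's giants `gA` (helper571)

`S` sites, `hS : GP S`, `s : Cs hS → ZMod 2` colours, `X` a configuration with `sX X = S` and 713's
`CorH X U M W η d (al A e i) (nn A e i)`, layout `Lay` of 416 (label `i` white), strand `SDS` of 831 and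
168's event `EvA` with the root window `Q = RD S (Bk η W (al A e i) (rr A e i - 1))`.

* `gA_AA` : on the event `gA .. k s = AA .. k`
* **`reg_gA`** : the field `reg` of 923's `UKin`, `h = 100 η`, `A1 = 19/2 η`, `B1 = 103/2 η`, for
  `A l = st (gA .. (i + 1) s) l`
* **`ymem_gA`** : `yy η W X a ∈ A (-j)` for `g j + 3 ≤ a`, `a + 3 ≤ g (j + 1)`, `-j ≠ i`
-/

set_option autoImplicit false
set_option linter.unusedSectionVars false

noncomputable section

open scoped Classical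

namespace Crest.Agent.R143.UKinCx571

open Crest.Agent.R143.B0x346 Crest.Agent.R143.DelGx806 Crest.Agent.R143.DelRx806
  Crest.Agent.R143.JColx54
open Crest.Agent.R143.Frame1x395 Crest.Agent.R143.Frame2x395 Crest.Agent.R143.Frame3x395
  Crest.Agent.R143.Frame4x395 Crest.Agent.R143.Frame8x395 Crest.Agent.R143.Frame9x395
  Crest.Agent.R143.Frame10x395 Crest.Agent.R143.Frame11x395
open Crest.Agent.R143.FinCx811 (Cs rc0)
open Crest.Agent.R143.NonXx592 (P)
open Crest.Agent.R143.R5qx166 (AA)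
open Crest.Agent.R143.C2SCx395 (st)
open Crest.Agent.R143.OutSx358 (gA ga rr_spec)
open Crest.Agent.R143.StGluex867 (pick_eq)
open Crest.Agent.R143.SysAx168 (EvA evA_uniq)
open Crest.Agent.R143.RingDx117 (RD)
open Crest.Agent.R143.Uniqx323 (Zn)
open Crest.Agent.R143.CorHx713
open Crest.Agent.R143.CorrIx831
open Crest.Agent.R143.Layx416 (Lay g al mi be jj nn)
open Crest.Agent.R143.TileRx228 (RR gz ge)
open Crest.Agent.R143.R10Px923 (Use)
open Crest.Agent.R143.UKinBx571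
open Crest.Agent.R143.WLocx713 (sX)

section ev

variable {S : Finset ℂ} {hS : GP (S : Set ℂ)} {Hh Rw : Set (Cs hS)} {Q : Set (D0 S)}
  {Z : Zn (rc0 hS)} {s : Cs hS → ZMod 2} {q : D0 S} {n : ℕ}

/-- the giants on the event of the strand `(q, n)` -/
theorem gA_AA (hE : EvA (rc0 hS) Hh Rw Q Z (q, n) s) (k : ZMod 3) :
    gA (rc0 hS) Hh Rw Q (fun (i : D0 S × ℕ) _ => i.1) (fun i _ => i.2) (EvA (rc0 hS) Hh Rw Q Z) k s =
      AA (rc0 hS) s q n (OutSx358.rr (rc0 hS) (cfg (rc0 hS) s) q n Q)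
        (Extx358.Ww (rc0 hS) Hh Rw q n s) k := by
  have hu : ∀ (i j : D0 S × ℕ) (σ : Cs hS → ZMod 2), EvA (rc0 hS) Hh Rw Q Z i σ →
      EvA (rc0 hS) Hh Rw Q Z j σ →
      ga (rc0 hS) Hh Rw Q (fun (i : D0 S × ℕ) _ => i.1) (fun i _ => i.2) k i σ =
        ga (rc0 hS) Hh Rw Q (fun (i : D0 S × ℕ) _ => i.1) (fun i _ => i.2) k j σ := by
    intro i j σ hi hj
    rw [evA_uniq hi hj]
  have e := pick_eq (x0 := fun _ : ZMod 3 => (∅ : Set (Cs hS))) hu hE
  exact e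

/-- the root time -/
theorem root (hE : EvA (rc0 hS) Hh Rw Q Z (q, n) s) :
    OutSx358.rr (rc0 hS) (cfg (rc0 hS) s) q n Q < n ∧
      P (rc0 hS) (cfg (rc0 hS) s) q (OutSx358.rr (rc0 hS) (cfg (rc0 hS) s) q n Q) ∈ Q := by
  have h := rr_spec hE.2.ink
  exact ⟨h.2.hi, h.1⟩

end ev

variable {S : Finset ℂ} {hS : GP (S : Set ℂ)} {Rw : Set (Cs hS)} {h₀ : Cs hS}
  {Z : Zn (rc0 hS)} {s : Cs hS → ZMod 2} {q : D0 S} {T : ℕ → ℕ} {N : ℕ} {p : ℕ → D0 S}
  {X : Set (ℂ × Bool)} {U : Set ℂ} {M n' : ℕ} {m' : ℤ} {p' W : ℤ → ℤ × ℤ} {A e : ℤ → ℤ}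
  {η d : ℝ} {i : ZMod 3}

/-- the giants on sites -/
abbrev Ag (hS : GP (S : Set ℂ)) (h₀ : Cs hS) (Rw : Set (Cs hS)) (Z : Zn (rc0 hS)) (η : ℝ)
    (W : ℤ → ℤ × ℤ) (A e : ℤ → ℤ) (i : ZMod 3) (s : Cs hS → ZMod 2) : ZMod 3 → Set ℂ :=
  st (gA (rc0 hS) {h₀} Rw (RD S (Bk η W (al A e i) (Layx416.rr A e i - 1)))
    (fun (i : D0 S × ℕ) _ => i.1) (fun i _ => i.2)
    (EvA (rc0 hS) {h₀} Rw (RD S (Bk η W (al A e i) (Layx416.rr A e i - 1))) Z) (i + 1) s)

/-- **`reg`** -/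
theorem reg_gA (L : Lay n' M m' p' W A e) (H : CorH X U M W η d (al A e i) (nn A e i))
    (hX : sX X = S) (hT : SDS hS s η W (al A e i) (nn A e i) p q N T)
    (hE : EvA (rc0 hS) {h₀} Rw (RD S (Bk η W (al A e i) (Layx416.rr A e i - 1))) Z
      (q, T (nn A e i)) s) :
    ∀ l, l ≠ i → ∀ v ∈ Ag hS h₀ Rw Z η W A e i s l, ∃ a j : ℤ,
      v ∈ RR (19 / 2 * η) (103 / 2 * η) (100 * η) W a ∧ g A e j ≤ a + 2 ∧
        a ≤ g A e (j + 1) + 1 ∧ (-(j : ZMod 3)) = l := by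
  subst hX
  intro l hl v hv
  unfold Ag at hv
  rw [gA_AA hE] at hv
  exact reg L (T := T) hT (fun k _ => inn_Bk H k) (fun a b h1 h2 => dis_Bk H a b h1 h2)
    (root hE).1.le (root hE).2 l hl v hv

/-- **`y_a ∈ A (-j)`** -/
theorem ymem_gA (L : Lay n' M m' p' W A e) (H : CorH X U M W η d (al A e i) (nn A e i))
    (hX : sX X = S) (hT : SDS hS s η W (al A e i) (nn A e i) p q N T)
    (hE : EvA (rc0 hS) {h₀} Rw (RD S (Bk η W (al A e i) (Layx416.rr A e i - 1))) Z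
      (q, T (nn A e i)) s)
    (hp : ∀ k : ℕ, (p k).1 = (yy η W X (al A e i + k), xx η W X (al A e i + k))) {a j : ℤ}
    (u1 : g A e j + 3 ≤ a) (u2 : a + 3 ≤ g A e (j + 1)) (hj : (-(j : ZMod 3)) ≠ i) :
    yy η W X a ∈ Ag hS h₀ Rw Z η W A e i s (-(j : ZMod 3)) := by
  subst hX
  unfold Ag
  rw [gA_AA hE]
  exact ymem L (T := T) hT (fun a b h1 h2 => dis_Bk H a b h1 h2)
    (root hE).1.le (root hE).2 (fun a => H.yper a) (fun k _ => by rw [hp k]) u1 u2 hj

end Crest.Agent.R143.UKinCx571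
end
end

-- ▼ part R143/UKLowG_568

/-!
# Row 143 (S0194), RIG, box (7): the fields `low` and `nk` of 923's `UKin` for 358's giants (helper568)

`S` sites, `hS : GP S`, `s : Cs hS → ZMod 2` colours, `X` a configuration with `Col hS X s` (831) and
713's `CorH X U M W η d (al A e i) (nn A e i)`, layout `LayU` of 416 (label `i` white), strand `SDS` of
831, 168's event `EvA`, 571's triple `Ag hS h₀ Rw Z η W A e i s`; `Rw` = cells of the sites of 697's
`BR η W M (al A e i) (nn A e i)`, `h₀` = hull cell.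

* `gate_low` : the gates with `Use` of the labels `≠ i`, any root time
* `gate_gA` : the same for `Ag`
* **`low_gA`**, **`nk_gA`** : the fields `low`, `nk` of `UKin`, `h = 100 η`, `w ≤ 4 η`, `b0 ≤ -9 η`
  (`low`), `a0 = -η`, `a1 = η`, `b0 = -9 η`, `b1 = 10 η`, `m' = η` (`nk`)
-/

set_option autoImplicit false
set_option linter.unusedSectionVars false

noncomputable section

open scoped Classical

namespace Crest.Agent.R143.UKLowx568

open Crest.Agent.R143.B0x346 Crest.Agent.R143.DelGx806 Crest.Agent.R143.DelRx806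
open Crest.Agent.R143.ToolWx838 Crest.Agent.R143.Blkx838
open Crest.Agent.R143.ToolW3x838
open Crest.Agent.R143.Frame1x395 Crest.Agent.R143.Frame2x395 Crest.Agent.R143.Frame3x395
  Crest.Agent.R143.Frame4x395 Crest.Agent.R143.Frame8x395 Crest.Agent.R143.Frame9x395
  Crest.Agent.R143.Frame10x395 Crest.Agent.R143.Frame11x395
open Crest.Agent.R143.WLocx713 Crest.Agent.R143.RingDx117
open Crest.Agent.R143.TileRx228
open Crest.Agent.R143.EvGx168 (SD)
open Crest.Agent.R143.FinCx811 (Cs rc0 rcol)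
open Crest.Agent.R143.RcTx422 (Hc Hc_eq)
open Crest.Agent.R143.Extx358 (Ww)
open Crest.Agent.R143.R5qx166 (AA)
open Crest.Agent.R143.CorHx713
open Crest.Agent.R143.SepHx697 (Geo BR)
open Crest.Agent.R143.Layx416 (Lay g al mi be nn rr jj)
open Crest.Agent.R143.LayUx416 (LayU)
open Crest.Agent.R143.PolyUx346 (Poly)
open Crest.Agent.R143.R10Px923 (Use col_of_neck)
open Crest.Agent.R143.CorrIx831 (SDS Bk Col col_eq)
open Crest.Agent.R143.SysAx168 (EvA)
open Crest.Agent.R143.Uniqx323 (Zn)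
open Crest.Agent.R143.UKinCx571 (gA_AA root Ag ymem_gA)

/-- **the gates with `Use` of the labels `≠ i`**, any root time -/
theorem gate_low {X : Set (ℂ × Bool)} {U : Set ℂ} {M : ℕ} {p W : ℤ → ℤ × ℤ} {η d : ℝ} {u : Poly}
    {mm : ℕ} {Ai ei : ℤ → ℤ} {i : ZMod 3}
    (L : LayU u mm M p W Ai ei) (hh : (mm : ℝ) * (100 * η) = u.s)
    (H : CorH X U M W η d (al Ai ei i) (nn Ai ei i)) {Rs : Set (D0 (sX X))} {q : D0 (sX X)} {N : ℕ}
    {T : ℕ → ℕ} {Rw : Set (Cs H.gp)}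
    (St : SD H.gp H.hull (nn Ai ei i) Rs H.p
      (fun k : ℕ => RR (19 / 2 * η) (103 / 2 * η) (100 * η) W (al Ai ei i + k)) q N T)
    (hR1 : ∀ c ∈ Rw, ∃ s ∈ sX X, s ∈ BR η W M (al Ai ei i) (nn Ai ei i) ∧ c.1 = Quot.mk _ s)
    (hR2 : ∀ s ∈ sX X, s ∈ BR η W M (al Ai ei i) (nn Ai ei i) → ∃ c ∈ Rw, c.1 = Quot.mk _ s)
    {a k j : ℤ} (hu : Use Ai ei a k j) (hj : (-(j : ZMod 3)) ≠ i) :
    ∃ dn : List ℂ, R10Px923.Col (sX X) (gz (100 * η) W a) (ge W a) (-η) η (-(9 * η)) (10 * η) η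
        (yy η W X a) dn ∧
      ∀ s, (|Gatex838.X (gz (100 * η) W a) (ge W a) s| < 4 * η ∧
        -(100 * η) ≤ Gatex838.Y (gz (100 * η) W a) (ge W a) s ∧
        Gatex838.Y (gz (100 * η) W a) (ge W a) s ≤ -(9 * η)) ∨ s ∈ dn →
      ∀ (j' l : ZMod 3) (r' : ℕ), r' ≤ T (nn Ai ei i) →
        s ∉ stA H Rw q (T (nn Ai ei i)) r' j' l := by
  have h0 := H.e0
  obtain ⟨k', t, e, h3, hn, hst, -⟩ := use_red L i hu hj
  obtain ⟨k1, G⟩ := geo_at L hh H h3 hn hst
  have q1 := L.lay.rr_pos i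
  have q2 := L.lay.rr_lt i
  have q4 := L.lay.rr_eq i
  obtain ⟨hf, -⟩ := CorrIx831.back H (r := rr Ai ei i) (by omega) (by omega)
    (fun b h1 h2 => (L.lay.run_mi i (by omega) (by omega)).1)
  obtain ⟨up, dn, Nk, hlow⟩ := low_H hf St hR1 hR2 G
    (fun w h1 h2 h3 => box_at L hh h0 w h1 h2 h3)
  have ez : gz (100 * η) W (al Ai ei i + k') = gz (100 * η) W a := by
    rw [e]; exact PthFx765.gz_dvd L.lay.fp ⟨t, by ring⟩ _
  have eg : ge W (al Ai ei i + k') = ge W a := by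
    rw [e]; exact PthFx765.ge_dvd L.lay.fp ⟨t, by ring⟩
  have ey : yy η W X (al Ai ei i + k') = yy η W X a := by
    rw [e]; exact UKinBx571.per_int (fun a => H.yper a) a t
  rw [ez, eg] at Nk hlow
  rw [ey] at Nk
  exact ⟨dn, col_of_neck Nk, hlow⟩

variable {S : Finset ℂ} {hS : GP (S : Set ℂ)} {Rw : Set (Cs hS)} {h₀ : Cs hS}
  {Z : Zn (rc0 hS)} {s : Cs hS → ZMod 2} {q : D0 S} {T : ℕ → ℕ} {N : ℕ} {p : ℕ → D0 S}
  {X : Set (ℂ × Bool)} {U : Set ℂ} {M mm : ℕ} {u : Poly} {p' W : ℤ → ℤ × ℤ} {A e : ℤ → ℤ}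
  {η d : ℝ} {i : ZMod 3}

/-- **the gates with `Use` of the labels `≠ i`, for 358's giants** -/
theorem gate_gA (L : LayU u mm M p' W A e) (hh : (mm : ℝ) * (100 * η) = u.s)
    (H : CorH X U M W η d (al A e i) (nn A e i)) (h3 : 3 ≤ S.card) (C : Col hS X s)
    (h0 : h₀ ∈ Hc hS)
    (hp : ∀ k : ℕ, (p k).1 = (yy η W X (al A e i + k), xx η W X (al A e i + k)))
    (hT : SDS hS s η W (al A e i) (nn A e i) p q N T)
    (hE : EvA (rc0 hS) {h₀} Rw (RD S (Bk η W (al A e i) (rr A e i - 1))) Z (q, T (nn A e i)) s)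
    (hR1 : ∀ c ∈ Rw, ∃ v ∈ S, v ∈ BR η W M (al A e i) (nn A e i) ∧ c.1 = Quot.mk _ v)
    (hR2 : ∀ v ∈ S, v ∈ BR η W M (al A e i) (nn A e i) → ∃ c ∈ Rw, c.1 = Quot.mk _ v)
    {a k j : ℤ} (hu : Use A e a k j) (hj : (-(j : ZMod 3)) ≠ i) :
    ∃ (y : ℂ) (dn : List ℂ), R10Px923.Col S (gz (100 * η) W a) (ge W a) (-η) η (-(9 * η))
        (10 * η) η y dn ∧ y ∈ Ag hS h₀ Rw Z η W A e i s (-(j : ZMod 3)) ∧
      ∀ v, (|Gatex838.X (gz (100 * η) W a) (ge W a) v| < 4 * η ∧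
        -(100 * η) ≤ Gatex838.Y (gz (100 * η) W a) (ge W a) v ∧
        Gatex838.Y (gz (100 * η) W a) (ge W a) v ≤ -(9 * η)) ∨ v ∈ dn →
      ∀ l, v ∉ Ag hS h₀ Rw Z η W A e i s l := by
  obtain rfl : sX X = S := C.e
  obtain rfl := col_eq H.hull h3 C
  have hpe : p = H.p := by
    funext k
    exact Subtype.ext (hp k)
  subst hpe
  obtain ⟨dn, h1, h2⟩ := gate_low L hh H (Rs := RD (sX X) (CorrIx831.Rts η W (al A e i) (nn A e i)))
    (Rw := Rw) (q := q) (N := N) (T := T) hT hR1 hR2 hu hj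
  refine ⟨_, dn, h1, ymem_gA L.lay H rfl hT hE hp hu.2.1 hu.2.2 hj, fun v hv l hl => ?_⟩
  refine h2 v hv (i + 1) l _ (root hE).1.le ?_
  unfold stA
  rw [Hc_eq h0]
  unfold Ag at hl
  rw [gA_AA hE] at hl
  exact hl

/-- **field `low` of `UKin`** -/
theorem low_gA (L : LayU u mm M p' W A e) (hh : (mm : ℝ) * (100 * η) = u.s)
    (H : CorH X U M W η d (al A e i) (nn A e i)) (h3 : 3 ≤ S.card) (C : Col hS X s)
    (h0 : h₀ ∈ Hc hS)
    (hp : ∀ k : ℕ, (p k).1 = (yy η W X (al A e i + k), xx η W X (al A e i + k)))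
    (hT : SDS hS s η W (al A e i) (nn A e i) p q N T)
    (hE : EvA (rc0 hS) {h₀} Rw (RD S (Bk η W (al A e i) (rr A e i - 1))) Z (q, T (nn A e i)) s)
    (hR1 : ∀ c ∈ Rw, ∃ v ∈ S, v ∈ BR η W M (al A e i) (nn A e i) ∧ c.1 = Quot.mk _ v)
    (hR2 : ∀ v ∈ S, v ∈ BR η W M (al A e i) (nn A e i) → ∃ c ∈ Rw, c.1 = Quot.mk _ v)
    {w : ℝ} (hw : w ≤ 4 * η) {b0 : ℝ} (hb : b0 ≤ -(9 * η)) :
    ∀ a k j : ℤ, Use A e a k j → (-(j : ZMod 3)) ≠ i → ∀ l,
      ∀ v ∈ Ag hS h₀ Rw Z η W A e i s l,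
      |Gatex838.X (gz (100 * η) W a) (ge W a) v| < w →
      -(100 * η) ≤ Gatex838.Y (gz (100 * η) W a) (ge W a) v →
      b0 < Gatex838.Y (gz (100 * η) W a) (ge W a) v := by
  intro a k j hu hj l v hv h1 h2
  by_contra hn
  obtain ⟨y, dn, -, -, hlow⟩ := gate_gA L hh H h3 C h0 hp hT hE hR1 hR2 hu hj
  exact hlow v (Or.inl ⟨by linarith, h2, by linarith⟩) l hv

/-- **field `nk` of `UKin`** -/
theorem nk_gA (L : LayU u mm M p' W A e) (hh : (mm : ℝ) * (100 * η) = u.s)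
    (H : CorH X U M W η d (al A e i) (nn A e i)) (h3 : 3 ≤ S.card) (C : Col hS X s)
    (h0 : h₀ ∈ Hc hS)
    (hp : ∀ k : ℕ, (p k).1 = (yy η W X (al A e i + k), xx η W X (al A e i + k)))
    (hT : SDS hS s η W (al A e i) (nn A e i) p q N T)
    (hE : EvA (rc0 hS) {h₀} Rw (RD S (Bk η W (al A e i) (rr A e i - 1))) Z (q, T (nn A e i)) s)
    (hR1 : ∀ c ∈ Rw, ∃ v ∈ S, v ∈ BR η W M (al A e i) (nn A e i) ∧ c.1 = Quot.mk _ v)
    (hR2 : ∀ v ∈ S, v ∈ BR η W M (al A e i) (nn A e i) → ∃ c ∈ Rw, c.1 = Quot.mk _ v) :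
    ∀ a k j : ℤ, Use A e a k j → (-(j : ZMod 3)) ≠ i → ∃ y dn,
      R10Px923.Col S (gz (100 * η) W a) (ge W a) (-η) η (-(9 * η)) (10 * η) η y dn ∧
      y ∈ Ag hS h₀ Rw Z η W A e i s (-(j : ZMod 3)) ∧
      ∀ v ∈ dn, ∀ l, v ∉ Ag hS h₀ Rw Z η W A e i s l := by
  intro a k j hu hj
  obtain ⟨y, dn, h1, h2, hlow⟩ := gate_gA L hh H h3 C h0 hp hT hE hR1 hR2 hu hj
  exact ⟨y, dn, h1, h2, fun v hv => hlow v (Or.inr hv)⟩

end Crest.Agent.R143.UKLowx568
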