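import Crest.Agent.R143.PLK_228
import Crest.Agent.R143.QuenJ_597
import Crest.Agent.R143.SxZ_832
import Crest.Agent.R143.UKLowH_568

-- ▼ part R143/PLL_228
section

/-!
# Row 143 (S0194), RIG box Q2: the tiles of the concrete corridor (helper228)

Objects of 609's `RigZd_609`, one environment with 597's `Sx`.

* `qx_UU` : the balls round 169's regions are in `UU u`
* `gw_pos` : `net.gw ≠ 0` and 609's `gW`
* **`Cur`** : the only hypothesis: LOCX (`LXW`) for the strand of every good colouring, every tile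
* **`tileI_of`** : 597's `TileI` for every tile
-/

set_option autoImplicit false
set_option linter.unusedSectionVars false
set_option linter.style.haveILetI false

noncomputable section

open scoped Classical

namespace Crest.Agent.R143.PLLx228

open Crest.ProbabilityR.Voronoi
open Crest.Agent.R143.B0x346 Crest.Agent.R143.DelGx806 Crest.Agent.R143.DelRx806
open Crest.Agent.R143.FinCx811 Crest.Agent.R143.Resax778 Crest.Agent.R143.SmallAx304
open Crest.Agent.R143.Frame8x395 hiding cfg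
open Crest.Agent.R143.Frame10x395
open Crest.Agent.R143.PP0x831 Crest.Agent.R143.PWx978 Crest.Agent.R143.Tplx978
open Crest.Agent.R143.PolyUx346 (Poly)
open Crest.Agent.R143.CorEx133
open Crest.Agent.R143.RcTx422 (Hc RC Hc_eq)
open Crest.Agent.R143.RigPx854 (ly ly_spec mN mN_hN mN_10 hN hN_pos nT)
open Crest.Agent.R143.RigZdx609 Crest.Agent.R143.LayUx416 Crest.Agent.R143.Layx416
open Crest.Agent.R143.TileRx228
open Crest.Agent.R143.CorHx713 (CorH xx yy)
open Crest.Agent.R143.CorrIx831 (Ft tlt Rws SDS)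
open Crest.Agent.R143.SpRx169 (QX)
open Crest.Agent.R143.ColXx829 (Xc)
open Crest.Agent.R143.Uniqx323 (Zn)
open Crest.Agent.R143.ZnQx323 (T₁ env_of ht_env)
open Crest.Agent.R143.WndGx416 (wa wb col4 coln4)
open Crest.Agent.R143.QuenIx597
open Crest.Agent.R143.RigQx377 (I1 J1 DZ pZ qZ)
open Crest.Agent.R143.PLJx228 Crest.Agent.R143.PLKx228
open Crest.Agent.R143.HqPx304

variable {N : ℕ} {ε : ℝ} {u : Poly} {w : ZMod 3} {Z : TData} {hN : u.n + 4 ≤ N} {hε : 0 < ε}
  {ω : Sample} {hS : GP (SU u ε ω : Set ℂ)} {h3 : 3 ≤ (SU u ε ω).card} {h₀ : Cs hS}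
  {R : Set (Cs hS)} {Zz : Zn (rc0 hS)} {K1 c2 ρ0 : ℝ}

/-- the balls round 169's regions are in `UU u` -/
theorem qx_UU (hN : u.n + 4 ≤ N) (w : ZMod 3) {k : ℕ} (hk : k < nT u w N) {z : ℂ}
    (hz : z ∈ QX (100 * et N) (ly u N).W (oT u w N) (nT u w N) k) {v : ℂ}
    (hv : ‖v - z‖ ≤ et N) : v ∈ UU u := by
  refine dz_near (u := u) (w := w) hN (l := nT u w N - 1 - k) (z := z) ?_ hv
  unfold DZ
  rw [show nT u w N - 1 - (nT u w N - 1 - k) = k by omega, ← et_h]
  exact hz

/-- the weight of the net and 609's `gW` -/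
theorem gw_pos {X : Set (ℂ × Bool)} (hX : X.Finite) :
    0 < gW Z u w hN hε X ↔ (net Z u w hN hε).gw (uM hN) (uM hN) X ≠ 0 :=
  LimSx133.gR_pos (net Z u w hN hε) (hNu Z hN hε) hX

/-- `OneI` : 228's `One` for the concrete objects -/
abbrev OneI (w : ZMod 3) (N : ℕ) (hS : GP (SU u ε ω : Set ℂ))
    (h3 : 3 ≤ (SU u ε ω).card) (R : Set (Cs hS)) (Zz : Zn (rc0 hS)) (s : Cs hS → ZMod 2)
    (p : ℕ → D0 (SU u ε ω)) (q : D0 (SU u ε ω)) (k : ℕ) (T : ℕ → ℕ) : Prop :=
  One hS h3 (UU u) (ly u N).M (ly u N).W (et N) √ε (oT u w N) (nT u w N) (Hc hS) R (Qs w N) Zz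
    s p q k T

/-- **the only hypothesis**: LOCX for the strand of every good colouring, window of every tile -/
def CurI (w : ZMod 3) (Z : TData) (hN : u.n + 4 ≤ N) (hε : 0 < ε) (hS : GP (SU u ε ω : Set ℂ))
    (h3 : 3 ≤ (SU u ε ω).card) (R : Set (Cs hS)) (Zz : Zn (rc0 hS)) : Prop :=
  ∀ s, 0 < gW Z u w hN hε (Xc hS h3 s) → ∀ p q k T, OneI w N hS h3 R Zz s p q k T →
    ∀ j < nT u w N,
      LXW hS R (RC hS (T₁ (et N) (ly u N).W
          (oT u w N + wa (ly u N).A (ly u N).W (oT u w N) (nT u w N) (ly u N).M j)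
          (oT u w N + wb (ly u N).A (ly u N).W (oT u w N) (nT u w N) (ly u N).M j + 1)))
        (QuYx810.Lc hS h3 ((net Z u w hN hε).reg
          (uM hN \ Iw (ly u N).M
            (oT u w N + wa (ly u N).A (ly u N).W (oT u w N) (nT u w N) (ly u N).M j - 5)
            (oT u w N + wb (ly u N).A (ly u N).W (oT u w N) (nT u w N) (ly u N).M j + 5))
          (uM hN \ Jw (ly u N).M
            (oT u w N + wa (ly u N).A (ly u N).W (oT u w N) (nT u w N) (ly u N).M j - 5)
            (oT u w N + wb (ly u N).A (ly u N).W (oT u w N) (nT u w N) (ly u N).M j + 5))))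
        s q (T (nT u w N))

/-- **597's `TileI`, all tiles** -/
theorem tileI_of (X : Sx w Z hN hε hS h3 h₀ R Zz) (C : CorEnv u ε √ε K1 c2 ρ0 ω)
    (hd : 100 * √ε ≤ et N) (hm : 40 ≤ mN u N)
    (hR : R = RC hS (Rws (et N) (ly u N).W (oT u w N) (nT u w N) (ly u N).M))
    (hc : CurI w Z hN hε hS h3 R Zz) :
    ∀ l < nT u w N, TileI w Z hN hε hS h3 h₀ R Zz l := by
  have e0 := et_pos N
  have L := ly_spec hN
  have hh := mh hN
  have hs := Real.sqrt_nonneg ε
  have num := Z.num N ε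
  obtain ⟨x, hx, hxe⟩ := X.h0
  have E := env_of C L hh hd
  have eH := Hc_eq X.h0
  have hn16 : 16 ≤ nT u w N := by
    have hr1 := L.lay.rr_pos w
    have hr2 := L.lay.rr_lt w
    show 16 ≤ nn (ly u N).A (ly u N).e w
    omega
  have hm' : (40 : ℤ) ≤ (mN u N : ℕ) := by exact_mod_cast hm
  intro l hl
  obtain ⟨κ, fκ, Z', T', P⟩ := hP_of (hS := hS) (h3 := h3) (U := UU u) (h₀ := x) (Q := Qs w N)
    (Z₀ := Zz) (m' := nT u w N)
    (w := Coarse2x166.zs (rc0 hS) om (C2SDx395.zc hS id)) L.lay hm' w E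
    (Z.std N hε) num.A' num.B' num.h (uM hN) (uM hN) hx
    (o := oT u w N) (n := nT u w N) rfl rfl
    (fun s hs => by
      have hs' : 0 < gW Z u w hN hε (Xc hS h3 s) := (gw_pos ColXx829.fin_Xc).2 hs
      obtain ⟨p, q, k, T, h1, h2, h4⟩ := X.out s hs'
      refine ⟨p, q, k, T, X.cor s hs', h1, h2, ?_⟩
      have := h4.1
      rw [← hR, eH]
      exact this)
    (fun s hs p q k T O j hj => by
      rw [← hR] at O ⊢
      exact hc s ((gw_pos ColXx829.fin_Xc).2 hs) p q k T O j hj)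
    (fun g J hg hJ => by
      rcases hg with rfl | rfl
      · obtain ⟨k, k1, k2⟩ := col4 L.lay hm' w
        exact ht_env C L hh hd (by push_cast; exact k1) (by push_cast; exact k2) hJ hx
      · obtain ⟨k, k1, k2⟩ := coln4 L.lay hm' w
        have e : ((nT u w N - 4 : ℕ) : ℤ) = (nT u w N : ℤ) - 4 := by omega
        rw [e] at hJ ⊢
        refine ht_env C L hh hd (k := k) ?_ ?_ hJ hx
        · show (ly u N).A k + 4 ≤ al (ly u N).A (ly u N).e w +
            ((nn (ly u N).A (ly u N).e w : ℤ) - 4)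
          omega
        · show al (ly u N).A (ly u N).e w + ((nn (ly u N).A (ly u N).e w : ℤ) - 4) + 4 ≤
            (ly u N).A (k + 1)
          omega)
    (fun k hk => C.hol.mono fun z hz => qx_UU hN w hk hz (v := z) (by simp [e0.le]))
    (fun k hk z hz v hv => C.inn (qx_UU hN w hk hz (by linarith))) l hl
  rw [← hR, eH] at P
  exact ⟨κ, fκ, Z', T', P.two, P.fix, P.sup, P.sb⟩

end Crest.Agent.R143.PLLx228
end
end

-- ▼ part R143/BrZ_609

/-!
# Row 143 (S0194), RIG: one name for the regions of the concrete environment (helper609)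

The same sets under the names of 168 / 832 (`RwS`, `RtS`, `clR`), 831 / 117 / 228 (`Rws`, `Rts`, `RC`),
927 / 568 (`Clo2`), 697 (`BR`), for the environment of 832's `SxZ`.
-/

set_option autoImplicit false

noncomputable section

open scoped Classical

namespace Crest.Agent.R143.BrZx609

open Crest.ProbabilityR.Voronoi
open Crest.Agent.R143.PP0x831
open Crest.Agent.R143.B0x346 Crest.Agent.R143.DelGx806 Crest.Agent.R143.DelRx806
  Crest.Agent.R143.FinCx811
open Crest.Agent.R143.Frame1x395 Crest.Agent.R143.Frame2x395 Crest.Agent.R143.Frame3x395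
  Crest.Agent.R143.Frame4x395 Crest.Agent.R143.Frame9x395 Crest.Agent.R143.Frame10x395
open Crest.Agent.R143.Frame8x395 hiding cfg
open Crest.Agent.R143.Janx304 Crest.Agent.R143.Dbl2x609
open Crest.Agent.R143.SysAx168 (EvA)
open Crest.Agent.R143.Uniqx323 (Zn)
open Crest.Agent.R143.RcTx422 (Hc RC)
open Crest.Agent.R143.RingDx117 (RD)
open Crest.Agent.R143.PolyUx346 (Poly)
open Crest.Agent.R143.CorEx133
open Crest.Agent.R143.RigPx854 (ly ly_spec hN hN_pos nT)
open Crest.Agent.R143.RigZdx609 Crest.Agent.R143.Layx416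
open Crest.Agent.R143.TileRx228
open Crest.Agent.R143.CorrIx831 (Ft tlt Bk Rts Rws)
open Crest.Agent.R143.ZnLx903 (clR RtS)
open Crest.Agent.R143.ZEnvx168 (RwS)
open Crest.Agent.R143.LnkLx927 (Clo2)
open Crest.Agent.R143.SepHx697 (BR)
open Crest.Agent.R143.SxZx832 (Rc Zq envZ)
open Crest.Agent.R143.QuenIx597

section sets

variable {η : ℝ} {W : ℤ → ℤ × ℤ} {o : ℤ} {n M : ℕ}





end sets

section cells

variable {S : Finset ℂ} {hS : GP (S : Set ℂ)} {F : Set ℂ}


theorem RC_sub : RC hS F ⊆ clR hS F := fun _ ⟨v, h1, h2, _, h3⟩ => ⟨v, h1, h2, h3⟩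

/-- no hull site in the region -/
theorem clR_RC (h : ∀ v ∈ S, v ∈ F → ¬ OnHull S v) : clR hS F = RC hS F :=
  Set.Subset.antisymm (fun _ ⟨v, h1, h2, h3⟩ => ⟨v, h1, h2, h v h1 h2, h3⟩) RC_sub

end cells

section env

variable {N : ℕ} {ε : ℝ} {u : Poly} {w : ZMod 3} {ω : Sample} {K1 c2 ρ0 : ℝ}
  {hS : GP (SU u ε ω : Set ℂ)}

theorem inn_b (hN : u.n + 4 ≤ N) (C : CorEnv u ε √ε K1 c2 ρ0 ω) {a : ℤ} {v : ℂ}
    (h : v ∈ RR (19 / 2 * et N) (103 / 2 * et N) (100 * et N) (ly u N).W a) :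
    ¬ OnHull (SU u ε ω) v := by
  have e0 := et_pos N
  exact C.inn (SxZx832.RR_UU hN (by linarith) (by linarith) (by linarith) (by linarith) a h)

/-- the white strips are inner -/
theorem inn_Rws (hN : u.n + 4 ≤ N) (C : CorEnv u ε √ε K1 c2 ρ0 ω) : ∀ v ∈ SU u ε ω,
    v ∈ Rws (et N) (ly u N).W (oT u w N) (nT u w N) (ly u N).M → ¬ OnHull (SU u ε ω) v :=
  fun _ _ ⟨_, _, _, h⟩ => inn_b hN C h


/-- **`R` of 832's system in 831's / 117's / 228's form** -/
theorem Rc_RC (hN : u.n + 4 ≤ N) (C : CorEnv u ε √ε K1 c2 ρ0 ω) :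
    Rc hS w N = RC hS (Rws (et N) (ly u N).W (oT u w N) (nT u w N) (ly u N).M) :=
  clR_RC (inn_Rws hN C)







end env

end Crest.Agent.R143.BrZx609
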