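import Crest.Agent.R143.DicA_831
import Crest.Agent.R143.DicB_831
import Crest.Agent.R143.Mass4_302

-- ▼ part R143/Trans1_690
section

/-!
# Row 143 (S0194), energy transfer, part 1 (helper690): root block against local blocks

* `inB M B x` : the blocks of `x` inside the set of darts `B`
* `root_sq2` : second moment of the root block + energy of the blocks inside disjoint sets of darts
  which do not meet the root face is at most `∑ ‖f‖² nG`
* `root_le` : the same for a function which is nearly `c j • p` on `B j`
* `root_fin` : final form
-/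

set_option autoImplicit false
set_option linter.unusedSectionVars false
set_option linter.unusedVariables false

noncomputable section

open scoped Classical

namespace Crest.Agent.R143.Trans1x690

open Crest.Agent.R143.Frame1x395 Crest.Agent.R143.Frame2x395 Crest.Agent.R143.Frame3x395
  Crest.Agent.R143.Frame4x395 Crest.Agent.R143.Frame8x395 Crest.Agent.R143.DicAx831

variable {D C : Type} [Fintype D] {M : CMap D C} {x : D → ZMod 2}

/-- blocks inside the set `B` of darts -/
def inB (M : CMap D C) (B : Set D) (x : D → ZMod 2) : Finset (Finset D) :=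
  (blks M x).filter fun β => (β : Set D) ⊆ B



variable {w : ℂ} {o : D} {ι : Type} {J : Finset ι} {B : ι → Set D}



/-- energy of the blocks inside `B` -/
def En (M : CMap D C) (B : Set D) (p : D → ℂ) : ℝ :=
  ∑ x ∈ ev M, ∑ β ∈ inB M B x, ‖∑ g ∈ β, p g‖ ^ 2












end Crest.Agent.R143.Trans1x690
end
end

-- ▼ part R143/Trans2_690

/-!
# Row 143 (S0194), energy transfer, part 2 (helper690): the network against the local objects

* `agrN` : the closed map `cm h` of a network agrees with the Delaunay triangulation of `P` inside
  `U` if no site of `U` touches a wall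
* `Wf P U` : total weight of the faces with circumdisc in `U` (each face three times)
* `ph_le_En` : total weight of the local objects of `U` against the blocks of `cm h` inside `FB P U`
* `yb_le` : **`3 ‖∑ Q e φ‖² + 128 b² ∑ j, Ph (Q j) ≤ 32 (b² + τ²) Wf Q`**
-/

set_option autoImplicit false
set_option linter.unusedSectionVars false
set_option linter.unusedVariables false

noncomputable section

open scoped Classical

namespace Crest.Agent.R143.Trans2x690

open Crest.Agent.R143.B0x346 Crest.Agent.R143.DelGx806 Crest.Agent.R143.DelRx806
  Crest.Agent.R143.Sidesx697 Crest.Agent.R143.SumScx302 Crest.Agent.R143.Mass1x302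
open Crest.Agent.R143.Mass2x302 (Fc del_uniq gp_mono gd dd LpU Cpt)
open Crest.Agent.R143.Mass4x302 (fc_congr fc_memU sum_swap le_blocks im lpU_of Tru)
open Crest.Agent.R143.Frame1x395 Crest.Agent.R143.Frame2x395 Crest.Agent.R143.Frame3x395
  Crest.Agent.R143.Frame4x395 Crest.Agent.R143.Frame5x395 Crest.Agent.R143.Frame6x395
  Crest.Agent.R143.Frame7x395 Crest.Agent.R143.DicAx831 Crest.Agent.R143.DicBx831
  Crest.Agent.R143.Trans1x690
open Crest.Agent.R143.Frame8x395 (ev mem_ev blks blk mem_blks Spin i1_norm nG_eq)
open scoped ENNReal

variable {S : Finset ℂ} {N : Net ℂ} {P U : Set ℂ}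












/-! ### the two charges -/

/-- charge of a gap dart -/
def nf (S : Finset ℂ) : Dt S → ℂ
  | Sum.inl e => Nn (e.1.2, th S e.1, e.1.1)
  | Sum.inr _ => 0





/-- total weight of the faces of `U` -/
def Wf (P U : Set ℂ) : ℝ≥0∞ :=
  ∑' t : T3, if Fc P U t.1 t.2.1 t.2.2 then ENNReal.ofReal (‖Nn t‖ ^ 2) else 0








end Crest.Agent.R143.Trans2x690
end
private theorem rz_e05c9ad24c : type_of% @_root_.Crest.Agent.R143.Trans2x690.nf.eq_1 := @_root_.Crest.Agent.R143.Trans2x690.nf.eq_1 -- L148
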