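import Crest.Agent.R143.Bud_432
import Crest.Agent.R143.Mass5_302
import Crest.Agent.R143.Trans2_690

-- ▼ part R143/Bud2_432
section

/-!
# Row 143 (S0194), block H, H4 (i) part 2: the energy budget of a net with one giant (helper432)

`M' = coarse M π hπ`, `o` = the giant, all the other cells (fresh cells) are single genuine cells
whose faces are Delaunay faces of `P` with closed circumdisc in `U`.

* `agr_coarse` : `M'` agrees with the Delaunay triangulation inside a set with fresh sites only
* `blocks_ph` : the blocks whose loop is inside `Q` against `fam.Ph Q`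
* `chd` : chords = blocks of `M'` which leave the giant; `clb` : closed blocks whose loop is in no
  square of side `k`
* `budget_one` : **the energy of the net is at most the energy of the chords + `fam.Ph` of the squares
  of a grid + the energy of the faces near the grid + the energy of the big closed blocks**
-/

set_option autoImplicit false

noncomputable section

open scoped Classical

namespace Crest.Agent.R143.Bud2x432

open Crest.Agent.R143.B0x346 Crest.Agent.R143.SumScx302 Crest.Agent.R143.Mass1x302
  Crest.Agent.R143.Mass2x302 Crest.Agent.R143.Mass3x302 Crest.Agent.R143.Mass4x302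
  Crest.Agent.R143.Mass5x302
open Crest.Agent.R143.Frame1x395 Crest.Agent.R143.Frame2x395 Crest.Agent.R143.Frame3x395
  Crest.Agent.R143.Frame4x395 Crest.Agent.R143.Frame8x395 Crest.Agent.R143.Frame9x395
  Crest.Agent.R143.Coarsex166 Crest.Agent.R143.Budx432
open scoped ENNReal

variable {D C C' : Type} {M : CMap D C} {P U : Set ℂ} {δ : ℂ → ℂ → D} {κ : ℂ → C}
variable {π : C → C'} {hπ : ClsCon M π} {o : C'} {x : D → ZMod 2} {a b : D → ℂ}




/-- the faces of the fresh cells are Delaunay faces inside `U` -/
def FrF (P U : Set ℂ) (M : CMap D C) (π : C → C') (o : C') (δ : ℂ → ℂ → D) : Prop :=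
  ∀ d, π (M.cell d) ≠ o → ∃ p q r, Fc P U p q r ∧ d = δ p q

/-- the states of the walker in `M'` -/
theorem FrF.st (A : Agr P U M δ κ) (F : FrF P U M π o δ) (hx : IsC (coarse M π hπ) ∅ x) {d : D}
    (hd : x d = 1) : ∃ p q r, Fc P U p q r ∧ d = δ p q := by
  have hl := hx.lv hd
  rw [coarse_live] at hl
  by_cases h1 : π (M.cell d) = o
  · have h2 : π (M.cell (M.rho d)) ≠ o := fun h => hl.2 (h1.trans h.symm)
    obtain ⟨p, q, r, hf, e⟩ := F _ h2
    refine ⟨r, p, q, hf.rot.rot, ?_⟩
    have e1 := A.rho p q r hf
    have e2 := A.rho q r p hf.rot
    rw [← M.rho3 d, e, e1, e2]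
  · exact F d h1

/-- chords: the blocks of the coarse map which leave the giant -/
def chd [Fintype D] (M : CMap D C) (π : C → C') (hπ : ClsCon M π) (o : C') (x : D → ZMod 2) :
    Finset (Finset D) := (blks (coarse M π hπ) x).filter fun β => ¬ Cls M π o β




variable {ι : Type} {J : Finset ι} {Q : ι → Set ℂ} {k : ℝ}






end Crest.Agent.R143.Bud2x432
end
end

-- ▼ part R143/Bud3_432

/-!
# Row 143 (S0194), block H, H4 (i) part 3: the energy budget in terms of `Wf` and `fam` (helper432)

* `FD P V δ` : the darts of the Delaunay faces with closed circumdisc in `V`; `sum_FD` : their total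
  weight is `Wf P V`
* `Nk J Q k` : the union of the squares of side `k` which are in no square `Q j` of the grid
* `budget_W` : **`card / 4 * Wf B ≤ chords + card * (∑ Ph (Q j) + Wf (Nk ∩ U)) + big closed blocks`**
* `clb_le` : the big closed blocks of the filled configuration are big blocks of the real
  configuration (`bigB` of `Mass5_302`)
* `sum_bigB` : their mean over the colours is at most `fam.Ps k U`
-/
namespace Crest.Agent.R143.Bud3x432
end Crest.Agent.R143.Bud3x432
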