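import Crest.Agent.R143.Coarse_166
import Crest.Agent.R143.Frame9_395

/-!
# Row 143 (S0194), block H, H4 (i) part 1: closed blocks of a coarse map with one giant (helper432)

`M' = coarse M π hπ`, `o : C'` the giant, all the other classes of `π` are single genuine cells
(`Gt M π o`).

* `nx_surj` : in a block whose old cells are genuine every gap is the first return of a gap of the
  block
* `gen_coarse` : genuine cells of `M` outside the giant are genuine cells of `M'`
* `Cls` : the block of `M'` does not leave the giant; `closed_eq` : **a closed block of `M'` is a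
  block of `M`**
* `SameF x y` : `y` agrees with `x` on the faces visited by the loops of `x`; `SameF.blk` : the
  blocks of the gaps of `x` are the same for `y`
* `fil π o χ` : the colours `χ` with the giant filled with `1`; `Rim` : the cells of the giant next to
  the other cells have the colour `1`; `closed_real` : **a closed block of the coarse map is a block
  of the real configuration**
-/

set_option autoImplicit false

noncomputable section

open scoped Classical

namespace Crest.Agent.R143.Budx432

open Crest.Agent.R143.Frame1x395 Crest.Agent.R143.Frame2x395 Crest.Agent.R143.Frame3x395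
  Crest.Agent.R143.Frame4x395 Crest.Agent.R143.Frame8x395 Crest.Agent.R143.Frame9x395
  Crest.Agent.R143.Coarsex166

variable {D C C' : Type} {M : CMap D C} {x y : D → ZMod 2}


variable {π : C → C'} {hπ : ClsCon M π} {o : C'}


/-- the giant `o`; all the other classes are single genuine cells -/
structure Gt (M : CMap D C) (π : C → C') (o : C') : Prop where
  inj : ∀ c c', π c = π c' → c = c' ∨ π c = o
  gen : ∀ c, π c ≠ o → Gen M c



/-- the set of gaps does not leave the giant -/
def Cls (M : CMap D C) (π : C → C') (o : C') (β : Finset D) : Prop :=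
  ∀ k ∈ β, π (M.cell (M.rho k)) ≠ o



/-! ### the real configuration and the configuration with a filled giant -/

/-- `y` agrees with `x` on the faces of the loops of `x` -/
def SameF (M : CMap D C) (x y : D → ZMod 2) : Prop :=
  ∀ d, x d = 1 → y d = 1 ∧ x (M.rho d) = y (M.rho d)

theorem SameF.stp (S : SameF M x y) {p : D} (hp : x p = 1) : stp M y p = stp M x p := by
  unfold Frame1x395.stp
  rw [(S p hp).2]

theorem SameF.it (S : SameF M x y) (hx : IsC M ∅ x) {p : D} (hp : x p = 1) (n : ℕ) :
    (Frame1x395.stp M y)^[n] p = (Frame1x395.stp M x)^[n] p := by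
  induction n with
  | zero => rfl
  | succ n ih =>
    rw [Function.iterate_succ_apply', Function.iterate_succ_apply', ih, S.stp (occ_it hx hp n)]

theorem SameF.gp (S : SameF M x y) (hx : IsC M ∅ x) (hy : IsC M ∅ y) {g : D}
    (h1 : x (M.rho g) = 1) : Gp M y g ↔ Gp M x g := by
  obtain ⟨h2, h3⟩ := S _ h1
  have e1 := hx.par g
  have e2 := hy.par g
  rw [if_neg (Set.notMem_empty g), h1, h3] at e1
  rw [if_neg (Set.notMem_empty g), h2] at e2
  have e3 : x g = y g := by
    have e4 : x g + 1 + y (M.rho (M.rho g)) = y g + 1 + y (M.rho (M.rho g)) := e1.trans e2.symm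
    exact add_right_cancel (add_right_cancel e4)
  unfold Gp
  rw [h1, h2, e3]

theorem SameF.av (S : SameF M x y) (hx : IsC M ∅ x) {c : C} {p q : D} (hp : x p = 1) :
    Av M y c p q ↔ Av M x c p q := by
  unfold Av
  simp only [S.it hx hp]

theorem SameF.rel (S : SameF M x y) (hx : IsC M ∅ x) {g h : D} (hg : Gp M x g)
    (hh : Gp M x h) : Rel M y g h ↔ Rel M x g h := by
  unfold Frame3x395.Rel Sc
  simp only [S.av hx (hg.out hx), S.av hx (hh.out hx)]

/-- **the blocks of `x` are blocks of `y`** -/
theorem SameF.blk [Fintype D] (S : SameF M x y) (hx : IsC M ∅ x) (hy : IsC M ∅ y) {g : D}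
    (hg : Gp M x g) : Frame8x395.blk M y g = Frame8x395.blk M x g := by
  have hgy : Gp M y g := (S.gp hx hy hg.2).2 hg
  ext h
  rw [mem_blk, mem_blk]
  constructor
  · rintro ⟨h1, h2⟩
    have key : g = h ∨ ∃ n, (Frame1x395.stp M y)^[n] (out M g) = M.rho h := by
      rcases h2 (M.cell g) with h3 | ⟨n, h3, -⟩ | ⟨n, h3, -⟩
      · exact Or.inl h3
      · exact Or.inr ⟨n, h3⟩
      · exact Or.inr (come_back hy h1 hgy h3)
    have h4 : x (M.rho h) = 1 := by
      rcases key with rfl | ⟨n, h3⟩
      · exact hg.2
      · rw [S.it hx (hg.out hx)] at h3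
        rw [← h3]
        exact occ_it hx (hg.out hx) n
    have h5 := (S.gp hx hy h4).1 h1
    exact ⟨h5, (S.rel hx hg h5).1 h2⟩
  · rintro ⟨h1, h2⟩
    exact ⟨(S.gp hx hy h1.2).2 h1, (S.rel hx hg h1).2 h2⟩

/-- the colours with the giant filled with the colour `1` -/
def fil (π : C → C') (o : C') (χ : C → ZMod 2) (c : C) : ZMod 2 := if π c = o then 1 else χ c


/-- the giant cells next to the other cells have the colour `1` -/
def Rim (M : CMap D C) (π : C → C') (o : C') (χ : C → ZMod 2) : Prop :=
  ∀ d ∈ M.live, π (M.cell d) ≠ o → π (M.cell (M.rho d)) = o → χ (M.cell (M.rho d)) = 1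

theorem Rim.k1 {χ : C → ZMod 2} (H : Rim M π o χ) {d : D} (hd : π (M.cell d) ≠ o) :
    fil π o χ (M.cell (M.rho d)) = χ (M.cell (M.rho d)) := by
  unfold fil
  by_cases hl : d ∈ M.live
  · by_cases h1 : π (M.cell (M.rho d)) = o
    · rw [if_pos h1, H d hl hd h1]
    · rw [if_neg h1]
  · rw [← M.dead d hl, if_neg hd]

theorem Rim.k2 {χ : C → ZMod 2} (H : Rim M π o χ) {d : D} (hd : π (M.cell d) ≠ o) :
    fil π o χ (M.cell (M.rho (M.rho d))) = χ (M.cell (M.rho (M.rho d))) := by
  by_cases hl : M.rho (M.rho d) ∈ M.live
  · have e1 : M.cell (M.iota (M.rho (M.rho d))) = M.cell d := by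
      rw [M.cell_iota _ hl, M.rho3]
    have h1 := H.k1 (d := M.iota (M.rho (M.rho d))) (by rw [e1]; exact hd)
    rwa [cell_rho_iota M hl] at h1
  · have e1 := M.dead _ hl
    rw [M.rho3] at e1
    unfold fil
    rw [e1, if_neg hd]



end Crest.Agent.R143.Budx432
end
namespace Crest.Agent.R143.Budx432.Cls
end Crest.Agent.R143.Budx432.Cls
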