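import Crest.Agent.R143.Frame8_395

/-!
# Row 143 (S0194): the conditional frame (helper358)

`M : CMap D C` any closed map (any net with kills, explored net, coarsened net), `a` a spin field.

* `En M a x = ∑ β ∈ blks M x, ‖∑ g ∈ β, a g‖²`
* `sum_ev_le : ∑ x ∈ ev M, En M a x ≤ nE M / 4 * ∑ g, ‖a g‖²` (no assumption on the faces)
* `sum_col_le : ∑ χ, En M a (cfg M χ) ≤ 2 ^ |C| / 4 * ∑ g, ‖a g‖²` (sum over all colourings)
* `Prs G c` : colourings with prescribed colours `c` on `G` (giants); `card_Prs`
* `cond_frame` : the average of `En` over `Prs G c` is at most `2 ^ (|G| - 1) * (1 / 4) * ∑ g, ‖a g‖²`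
* `Stp R` : stopping rule (`R χ` = set of the revealed cells); `tower`, `tower_le` : averages over the
  colourings = averages of the conditional averages
-/

set_option autoImplicit false

noncomputable section

open scoped Classical

namespace Crest.Agent.R143.CFramex358

open Crest.Agent.R143.Frame1x395 Crest.Agent.R143.Frame2x395 Crest.Agent.R143.Frame3x395
  Crest.Agent.R143.Frame4x395 Crest.Agent.R143.Frame8x395

variable {D C : Type} [Fintype D] {M : CMap D C}

/-- energy of the blocks of a configuration -/
def En (M : CMap D C) (a : D → ℂ) (x : D → ZMod 2) : ℝ := ∑ β ∈ blks M x, ‖∑ g ∈ β, a g‖ ^ 2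





variable [Fintype C]



/-! ### prescribed colours -/

/-- colourings with prescribed colours on `G` -/
def Prs (G : Finset C) (c : C → ZMod 2) : Finset (C → ZMod 2) :=
  Finset.univ.filter fun χ => ∀ v ∈ G, χ v = c v

theorem mem_Prs {G : Finset C} {c χ : C → ZMod 2} : χ ∈ Prs G c ↔ ∀ v ∈ G, χ v = c v := by
  unfold Prs
  simp

theorem self_Prs (G : Finset C) (c : C → ZMod 2) : c ∈ Prs G c := mem_Prs.2 fun _ _ => rfl

/-- the number of colourings with prescribed colours -/
theorem card_Prs (G : Finset C) (c : C → ZMod 2) :
    (Prs G c).card * 2 ^ G.card = 2 ^ Fintype.card C := by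
  have h2 : Fintype.card (ZMod 2) = 2 := ZMod.card 2
  -- the fibres of the restriction to `G` have the same size
  have h0 : ∀ c' : C → ZMod 2, (Prs G c').card = (Prs G c).card := by
    intro c'
    refine Finset.card_bij' (fun χ _ => fun v => χ v + c' v + c v)
      (fun χ _ => fun v => χ v + c' v + c v) ?_ ?_ ?_ ?_
    · intro χ hχ
      rw [mem_Prs] at hχ ⊢
      intro v hv
      show χ v + c' v + c v = c v
      rw [hχ v hv, z_self, zero_add]
    · intro χ hχ
      rw [mem_Prs] at hχ ⊢
      intro v hv
      show χ v + c' v + c v = c' v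
      rw [hχ v hv, add_right_comm, z_self, zero_add]
    · intro χ _
      funext v
      show χ v + c' v + c v + c' v + c v = χ v
      linear_combination z_self (c' v) + z_self (c v)
    · intro χ _
      funext v
      show χ v + c' v + c v + c' v + c v = χ v
      linear_combination z_self (c' v) + z_self (c v)
  have h1 : (Finset.univ : Finset (C → ZMod 2)).card =
      ∑ r : (G → ZMod 2), ((Finset.univ : Finset (C → ZMod 2)).filter
        fun χ => (fun v : G => χ v) = r).card :=
    Finset.card_eq_sum_card_fiberwise (f := fun (χ : C → ZMod 2) (v : G) => χ v)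
      (fun _ _ => Finset.mem_coe.2 (Finset.mem_univ _))
  have h3 : ∀ r : (G → ZMod 2), ((Finset.univ : Finset (C → ZMod 2)).filter
        fun χ => (fun v : G => χ v) = r).card = (Prs G c).card := by
    intro r
    rw [← h0 fun v => if hv : v ∈ G then r ⟨v, hv⟩ else 0]
    congr 1
    unfold Prs
    refine Finset.filter_congr fun χ _ => ?_
    constructor
    · intro e v hv
      have := congrFun e ⟨v, hv⟩
      show χ v = dite _ _ _
      rw [dif_pos hv]
      exact this
    · intro e
      funext v
      have h5 : χ v.1 = dite _ _ _ := e v.1 v.2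
      rw [dif_pos v.2] at h5
      exact h5
  rw [Finset.sum_congr rfl fun r _ => h3 r, Finset.sum_const, Finset.card_univ,
    Finset.card_univ, Fintype.card_fun, Fintype.card_fun, h2, Fintype.card_coe, smul_eq_mul] at h1
  rw [h1, mul_comm]




/-! ### stopping rules -/

/-- stopping rule: `R χ` = the set of the revealed cells -/
def Stp (R : (C → ZMod 2) → Finset C) : Prop :=
  ∀ χ χ' : C → ZMod 2, (∀ v ∈ R χ, χ' v = χ v) → R χ' = R χ




end Crest.Agent.R143.CFramex358
end
namespace Crest.Agent.R143.CFramex358.Stp
end Crest.Agent.R143.CFramex358.Stp
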