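import Crest.Agent.R158.Jt3_785

/-!
# Row 143 (S0194), block D, leaf CARA, parts (iii) and (iv) (helper723)

* `CD D f` : `D` bounded domain, `f : closure D → closedBall 0 1` continuous, holomorphic bijection
  `D → ball 0 1`
* `sub_ji` : `D` is inside every Jordan curve with trace `frontier D`
* `CD.exists_inv` : continuous inverse (if `f` is injective on `closure D`)
* `wd_zero` : a loop which is contractible in a closed set does not wind around the points outside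
* `CD.unif` : the boundary curve `t ↦ ψ (exp (i Θ t))` for every angle function `Θ`, its arcs
-/

set_option autoImplicit false

noncomputable section

open Set Topology Filter Metric
open Crest.ProbabilityR.Percolation

namespace Crest.Agent.R143.Cara2x723

open Crest.Agent.R158.Jt785

/-- domain with a map to the disc -/
structure CD (D : Set ℂ) (f : ℂ → ℂ) : Prop where
  op : IsOpen D
  bd : Bornology.IsBounded D
  co : IsConnected D
  cont : ContinuousOn f (closure D)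
  dif : DifferentiableOn ℂ f D
  inj : InjOn f D
  img : f '' D = ball 0 1

variable {D : Set ℂ} {f : ℂ → ℂ}

/-- a bounded open set is inside every Jordan curve which is its frontier -/
theorem sub_ji {γ : ℝ → ℂ} (hD : IsOpen D) (hb : Bornology.IsBounded D)
    (hf : curveTrace γ = frontier D) : D ⊆ jordanInterior γ := by
  intro z hz
  have h1 : z ∉ curveTrace γ := by
    rw [hf, hD.frontier_eq]
    exact fun h => h.2 hz
  refine ⟨h1, hb.subset ?_⟩
  refine isPreconnected_connectedComponentIn.subset_of_closure_inter_subset hD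
    ⟨z, mem_connectedComponentIn h1, hz⟩ ?_
  rintro w ⟨hw, hwc⟩
  by_contra hwD
  refine connectedComponentIn_subset _ _ hwc ?_
  rw [hf, hD.frontier_eq]
  exact ⟨hw, hwD⟩

namespace CD

theorem isCompact (h : CD D f) : IsCompact (closure D) := h.bd.isCompact_closure

theorem img_closure (h : CD D f) : f '' closure D = closedBall 0 1 := by
  apply subset_antisymm
  · refine (h.cont.image_closure).trans ?_
    rw [h.img]
    exact closure_ball_subset_closedBall
  · have h1 : IsClosed (f '' closure D) := (h.isCompact.image_of_continuousOn h.cont).isClosed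
    have h2 : ball (0:ℂ) 1 ⊆ f '' closure D := by
      rw [← h.img]
      exact image_mono subset_closure
    rw [← closure_ball (0:ℂ) one_ne_zero]
    exact closure_minimal h2 h1


theorem norm_lt (h : CD D f) {z : ℂ} (hz : z ∈ D) : ‖f z‖ < 1 := by
  have : f z ∈ ball (0:ℂ) 1 := by
    rw [← h.img]
    exact mem_image_of_mem _ hz
  simpa using this

/-- the continuous inverse -/
theorem exists_inv (h : CD D f) (hi : InjOn f (closure D)) :
    ∃ ψ : ℂ → ℂ, ContinuousOn ψ (closedBall 0 1) ∧ (∀ z ∈ closure D, ψ (f z) = z) ∧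
    (∀ w ∈ closedBall (0:ℂ) 1, f (ψ w) = w ∧ ψ w ∈ closure D) := by
  classical
  let ψ : ℂ → ℂ := Function.invFunOn f (closure D)
  have hψ : ∀ z ∈ closure D, ψ (f z) = z := fun z hz => hi.leftInvOn_invFunOn hz
  have hc : ContinuousOn ψ (closedBall 0 1) := by
    rw [continuousOn_iff_isClosed]
    intro t ht
    have h1 : IsCompact (closure D ∩ t) := h.isCompact.inter_right ht
    refine ⟨f '' (closure D ∩ t),
      (h1.image_of_continuousOn (h.cont.mono inter_subset_left)).isClosed, ?_⟩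
    ext w
    constructor
    · rintro ⟨hw1, hw2⟩
      rw [← h.img_closure] at hw2
      obtain ⟨z, hz, rfl⟩ := hw2
      rw [mem_preimage, hψ z hz] at hw1
      refine ⟨⟨z, ⟨hz, hw1⟩, rfl⟩, ?_⟩
      rw [← h.img_closure]
      exact mem_image_of_mem _ hz
    · rintro ⟨⟨z, ⟨hz, hzt⟩, rfl⟩, hw⟩
      exact ⟨by rw [mem_preimage, hψ z hz]; exact hzt, hw⟩
  refine ⟨ψ, hc, hψ, fun w hw => ?_⟩
  rw [← h.img_closure] at hw
  obtain ⟨z, hz, rfl⟩ := hw
  rw [hψ z hz]
  exact ⟨rfl, hz⟩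

/-- on the closure: frontier iff the value is on the circle -/
theorem mem_frontier (h : CD D f) (hn : ∀ z ∈ frontier D, ‖f z‖ = 1) {z : ℂ} (hz : z ∈ closure D) :
    z ∈ frontier D ↔ ‖f z‖ = 1 := by
  refine ⟨hn z, fun h1 => ?_⟩
  rw [h.op.frontier_eq]
  exact ⟨hz, fun h2 => (h.norm_lt h2).ne h1⟩

end CD

/-! ### angle functions -/

/-- an angle function which turns once -/
structure Ang (Θ : ℝ → ℝ) : Prop where
  cont : Continuous Θ
  mono : StrictMonoOn Θ (Icc 0 1)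
  per : Θ 1 = Θ 0 + 2 * Real.pi

/-- the point of the circle -/
def E (θ : ℝ) : ℂ := Complex.exp (θ * Complex.I)

theorem norm_E (θ : ℝ) : ‖E θ‖ = 1 := Complex.norm_exp_ofReal_mul_I θ

theorem E_cont : Continuous E := by unfold E; fun_prop

theorem E_per (θ : ℝ) : E (θ + 2 * Real.pi) = E θ := by
  unfold E
  push_cast
  rw [add_mul, Complex.exp_add, Complex.exp_two_pi_mul_I, mul_one]

theorem E_sub (θ : ℝ) : E (θ - 2 * Real.pi) = E θ := by
  rw [← E_per (θ - 2 * Real.pi), sub_add_cancel]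

theorem E_zero : E 0 = 1 := by simp [E]

theorem E_eq {a b : ℝ} (h : E a = E b) : ∃ n : ℤ, a = b + n * (2 * Real.pi) := by
  unfold E at h
  rw [Complex.exp_eq_exp_iff_exists_int] at h
  obtain ⟨n, hn⟩ := h
  refine ⟨n, ?_⟩
  have h1 := congrArg Complex.im hn
  simpa using h1

theorem E_inj {a b : ℝ} (h : E a = E b) (h1 : |a - b| < 2 * Real.pi) : a = b := by
  obtain ⟨n, hn⟩ := E_eq h
  have hp := Real.pi_pos
  rcases lt_trichotomy n 0 with h0 | h0 | h0
  · have h2 : (n : ℝ) ≤ -1 := by exact_mod_cast (by omega : n ≤ -1)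
    rw [abs_lt] at h1
    nlinarith
  · rw [hn, h0]; simp
  · have h2 : (1 : ℝ) ≤ n := by exact_mod_cast (by omega : 1 ≤ n)
    rw [abs_lt] at h1
    nlinarith

/-- every angle can be moved into a window -/
theorem E_window (θ a : ℝ) : ∃ θ' ∈ Ico a (a + 2 * Real.pi), E θ' = E θ := by
  refine ⟨toIcoMod Real.two_pi_pos a θ, ?_, ?_⟩
  · exact toIcoMod_mem_Ico Real.two_pi_pos a θ
  · obtain ⟨n, hn⟩ : ∃ n : ℤ, toIcoMod Real.two_pi_pos a θ = θ - n * (2 * Real.pi) := by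
      refine ⟨toIcoDiv Real.two_pi_pos a θ, ?_⟩
      have h := toIcoMod_add_toIcoDiv_zsmul Real.two_pi_pos a θ
      rw [zsmul_eq_mul] at h
      linarith
    rw [hn]
    unfold E
    rw [Complex.exp_eq_exp_iff_exists_int]
    refine ⟨-n, ?_⟩
    push_cast
    ring

theorem exists_E {w : ℂ} (hw : ‖w‖ = 1) : ∃ θ : ℝ, w = E θ :=
  ⟨w.arg, by
    have := Complex.norm_mul_exp_arg_mul_I w
    rw [hw, Complex.ofReal_one, one_mul] at this
    exact this.symm⟩

namespace Ang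

variable {Θ : ℝ → ℝ}

theorem le_iff (h : Ang Θ) {s t : ℝ} (hs : s ∈ Icc (0:ℝ) 1) (ht : t ∈ Icc (0:ℝ) 1) :
    Θ s ≤ Θ t ↔ s ≤ t := h.mono.le_iff_le hs ht

theorem image_Icc (h : Ang Θ) {a b : ℝ} (ha : 0 ≤ a) (hab : a ≤ b) (hb : b ≤ 1) :
    Θ '' Icc a b = Icc (Θ a) (Θ b) := by
  apply subset_antisymm
  · rintro _ ⟨t, ht, rfl⟩
    have ht' : t ∈ Icc (0:ℝ) 1 := ⟨ha.trans ht.1, ht.2.trans hb⟩
    exact ⟨(h.le_iff ⟨ha, hab.trans hb⟩ ht').2 ht.1,
      (h.le_iff ht' ⟨ha.trans hab, hb⟩).2 ht.2⟩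
  · exact intermediate_value_Icc hab h.cont.continuousOn

theorem diff_lt (h : Ang Θ) {s t : ℝ} (hs : s ∈ Ico (0:ℝ) 1) (ht : t ∈ Ico (0:ℝ) 1) :
    |Θ s - Θ t| < 2 * Real.pi := by
  have h0 : (0:ℝ) ∈ Icc (0:ℝ) 1 := ⟨le_rfl, zero_le_one⟩
  have h1 : (1:ℝ) ∈ Icc (0:ℝ) 1 := ⟨zero_le_one, le_rfl⟩
  have a1 := (h.le_iff h0 ⟨hs.1, hs.2.le⟩).2 hs.1
  have a2 := (h.le_iff h0 ⟨ht.1, ht.2.le⟩).2 ht.1
  have a3 := h.mono ⟨hs.1, hs.2.le⟩ h1 hs.2
  have a4 := h.mono ⟨ht.1, ht.2.le⟩ h1 ht.2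
  rw [abs_lt]
  constructor <;> linarith [h.per]

theorem E_ends (h : Ang Θ) : E (Θ 0) = E (Θ 1) := by rw [h.per, E_per]

end Ang

/-! ### winding number of a contractible loop -/

/-- the loop `ψ (r exp (i Θ))` -/
def lp (ψ : ℂ → ℂ) (Θ : ℝ → ℝ) (r : ℝ) (t : ℝ) : ℂ := ψ (r * E (Θ t))

theorem mem_cb {r : ℝ} (h0 : 0 ≤ r) (h1 : r ≤ 1) (θ : ℝ) : (r : ℂ) * E θ ∈ closedBall (0:ℂ) 1 := by
  rw [mem_closedBall_zero_iff, norm_mul, norm_E, mul_one, Complex.norm_real, Real.norm_of_nonneg h0]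
  exact h1

theorem lp_Lp {ψ : ℂ → ℂ} (hψ : ContinuousOn ψ (closedBall 0 1)) {Θ : ℝ → ℝ} (hΘ : Ang Θ) {r : ℝ}
    (h0 : 0 ≤ r) (h1 : r ≤ 1) : Lp (lp ψ Θ r) where
  cont := by
    refine hψ.comp ?_ fun t _ => mem_cb h0 h1 _
    exact (continuous_const.mul (E_cont.comp hΘ.cont)).continuousOn
  eq := by
    unfold lp
    rw [hΘ.E_ends]

/-- **a loop which is contractible in a closed set does not wind around the points outside** -/
theorem wd_zero {ψ : ℂ → ℂ} (hψ : ContinuousOn ψ (closedBall 0 1)) {K : Set ℂ} (hKc : IsClosed K)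
    (hK : ∀ w ∈ closedBall (0:ℂ) 1, ψ w ∈ K) {z1 : ℂ} (hz1 : z1 ∉ K) {Θ : ℝ → ℝ} (hΘ : Ang Θ) :
    wd (lp ψ Θ 1) z1 = 0 := by
  obtain ⟨ρ, hρ, hρ2⟩ : ∃ ρ > 0, ∀ k ∈ K, ρ ≤ ‖k - z1‖ := by
    obtain ⟨ρ, hρ, h⟩ := Metric.isOpen_iff.1 hKc.isOpen_compl z1 hz1
    refine ⟨ρ, hρ, fun k hk => ?_⟩
    by_contra h2
    push Not at h2
    exact h (by rwa [mem_ball, dist_eq_norm]) hk
  have hu := (isCompact_closedBall (0:ℂ) 1).uniformContinuousOn_of_continuous hψ
  rw [Metric.uniformContinuousOn_iff] at hu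
  obtain ⟨η, hη, hu⟩ := hu ρ hρ
  obtain ⟨N, hN⟩ := exists_nat_gt (1 / η)
  have hN0 : (0:ℝ) < N := lt_trans (by positivity) hN
  have hNη : 1 / (N:ℝ) < η := by
    rw [div_lt_iff₀ hN0]
    rw [div_lt_iff₀ hη] at hN
    linarith
  have key : ∀ k : ℕ, k ≤ N → wd (lp ψ Θ (k / N)) z1 = 0 := by
    intro k
    induction k with
    | zero =>
      intro _
      have h1 : lp ψ Θ ((0:ℕ) / (N:ℝ)) = fun _ => ψ 0 := by
        funext t
        simp [lp]
      rw [h1]
      refine wd_const_curve _ _ ?_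
      rintro rfl
      exact hz1 (hK 0 (by simp))
    | succ k ih =>
      intro hk
      have hk' : k ≤ N := by omega
      rw [← ih hk']
      have a0 : (0:ℝ) ≤ k / N := by positivity
      have a1 : (k:ℝ) / N ≤ 1 := by
        rw [div_le_one hN0]; exact_mod_cast hk'
      have b0 : (0:ℝ) ≤ ((k + 1 : ℕ) : ℝ) / N := by positivity
      have b1 : ((k + 1 : ℕ) : ℝ) / N ≤ 1 := by
        rw [div_le_one hN0]; exact_mod_cast hk
      refine (wd_close (lp_Lp hψ hΘ a0 a1) (lp_Lp hψ hΘ b0 b1) fun s _ => ?_).2.2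
      have h2 := hu _ (mem_cb b0 b1 (Θ s)) _ (mem_cb a0 a1 (Θ s)) (by
        rw [dist_eq_norm, ← sub_mul, norm_mul, norm_E, mul_one, ← Complex.ofReal_sub,
          Complex.norm_real, Real.norm_eq_abs]
        have e : ((k + 1 : ℕ) : ℝ) / N - k / N = 1 / N := by
          push_cast
          field_simp
          ring
        rw [e, abs_of_pos (by positivity)]
        exact hNη)
      rw [dist_eq_norm] at h2
      exact h2.trans_le (hρ2 _ (hK _ (mem_cb a0 a1 _)))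
  have := key N le_rfl
  rwa [div_self hN0.ne'] at this

/-! ### the boundary curve -/

/-- **CARA (iii), (iv)** -/
theorem CD.unif (h : CD D f) (hi : InjOn f (closure D)) (hn : ∀ z ∈ frontier D, ‖f z‖ = 1)
    {Θ : ℝ → ℝ} (hΘ : Ang Θ) :
    ∃ g : ℝ → ℂ, Unif g f ∧ jordanInterior g = D ∧ curveTrace g = frontier D ∧
      (∀ t ∈ Icc (0:ℝ) 1, f (g t) = E (Θ t)) ∧
      ∀ a b : ℝ, 0 ≤ a → a ≤ b → b ≤ 1 →
        g '' Icc a b = {z ∈ frontier D | ∃ θ ∈ Icc (Θ a) (Θ b), f z = E θ} := by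
  obtain ⟨ψ, hψc, hψ1, hψ2⟩ := h.exists_inv hi
  have hE : ∀ θ, E θ ∈ closedBall (0:ℂ) 1 := fun θ => by
    rw [mem_closedBall_zero_iff, norm_E]
  set g : ℝ → ℂ := fun t => ψ (E (Θ t)) with hg
  have hgl : g = lp ψ Θ 1 := by
    funext t
    simp [g, lp]
  have hfg : ∀ t, f (g t) = E (Θ t) := fun t => (hψ2 _ (hE _)).1
  have hgc : ∀ t, g t ∈ closure D := fun t => (hψ2 _ (hE _)).2
  have hgf : ∀ t, g t ∈ frontier D := fun t => by
    rw [h.mem_frontier hn (hgc t), hfg, norm_E]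
  have harc : ∀ a b : ℝ, 0 ≤ a → a ≤ b → b ≤ 1 →
      g '' Icc a b = {z ∈ frontier D | ∃ θ ∈ Icc (Θ a) (Θ b), f z = E θ} := by
    intro a b ha hab hb
    ext z
    constructor
    · rintro ⟨t, ht, rfl⟩
      refine ⟨hgf t, Θ t, ?_, hfg t⟩
      rw [← hΘ.image_Icc ha hab hb]
      exact mem_image_of_mem _ ht
    · rintro ⟨hz, θ, hθ, hzθ⟩
      rw [← hΘ.image_Icc ha hab hb] at hθ
      obtain ⟨t, ht, rfl⟩ := hθ
      refine ⟨t, ht, ?_⟩
      show ψ (E (Θ t)) = z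
      rw [← hzθ]
      exact hψ1 z (frontier_subset_closure hz)
  have htr : curveTrace g = frontier D := by
    show g '' Icc 0 1 = _
    rw [harc 0 1 le_rfl zero_le_one le_rfl]
    ext z
    refine ⟨fun hz => hz.1, fun hz => ⟨hz, ?_⟩⟩
    obtain ⟨θ, hθ⟩ := exists_E (hn z hz)
    obtain ⟨θ', h1, h2⟩ := E_window θ (Θ 0)
    exact ⟨θ', ⟨h1.1, by rw [hΘ.per]; exact h1.2.le⟩, by rw [hθ, h2]⟩
  have hj : IsJordanCurve g := by
    refine ⟨?_, ?_, ?_⟩
    · exact hψc.comp (E_cont.comp hΘ.cont).continuousOn fun t _ => hE _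
    · intro s hs t ht hst
      have h1 : E (Θ s) = E (Θ t) := by rw [← hfg s, ← hfg t, hst]
      have h2 := E_inj h1 (hΘ.diff_lt hs ht)
      exact hΘ.mono.injOn ⟨hs.1, hs.2.le⟩ ⟨ht.1, ht.2.le⟩ h2
    · show ψ (E (Θ 0)) = ψ (E (Θ 1))
      rw [hΘ.E_ends]
  have hji : jordanInterior g = D := by
    apply subset_antisymm
    · intro z hz
      by_contra hzD
      have h1 := (mem_ji hj z).1 hz
      have h2 : z ∉ closure D := by
        intro h3
        refine h1.1 ?_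
        rw [htr, h.op.frontier_eq]
        exact ⟨h3, hzD⟩
      refine h1.2 ?_
      rw [hgl]
      exact wd_zero hψc isClosed_closure (fun w hw => (hψ2 w hw).2) h2 hΘ
    · exact sub_ji h.op h.bd htr
  refine ⟨g, ⟨hj, ?_, ?_, ?_⟩, hji, htr, fun t _ => hfg t, harc⟩
  · rw [hji]; exact h.cont
  · rw [hji]; exact hi
  · rw [hji]; exact h.img

end Crest.Agent.R143.Cara2x723
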