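import Crest.Agent.R143.Cd0_806

-- ▼ part R143/Cd1_806
section

/-!
# Row 143 (S0194), block D, TentC, file 1 (helper806): frames

* `fa p k z` : coordinate of `z - p` along the direction `k` (east, north, west, south)
* `ga c k q` : the same for cells
* `sq_iff` : cells in frames
* `cone_iff` : cones in frames
-/

set_option autoImplicit false

noncomputable section

namespace Crest.Agent.R143.Cdx806

open Set Metric
open Crest.Agent.R158.Sp896 Crest.Agent.R143.Tentx359 Crest.Agent.R158.Tj656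

theorem z4 (k : ZMod 4) : k = 0 ∨ k = 1 ∨ k = 2 ∨ k = 3 := by revert k; decide

/-- directions of the rays -/
def qd (k : ZMod 4) : ℂ := if k = 0 then 1 else if k = 1 then Complex.I else if k = 2 then -1
  else -Complex.I

/-- coordinate along the direction `k` -/
def fa (p : ℂ) (k : ZMod 4) (z : ℂ) : ℝ :=
  if k = 0 then (z - p).re else if k = 1 then (z - p).im else if k = 2 then -(z - p).re
  else -(z - p).im

/-- discrete coordinate along the direction `k` -/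
def ga (c : V) (k : ZMod 4) (q : V) : ℤ :=
  if k = 0 then q.1 - c.1 else if k = 1 then q.2 - c.2 else if k = 2 then -(q.1 - c.1)
  else -(q.2 - c.2)

theorem fa0 (p z : ℂ) : fa p 0 z = (z - p).re := rfl
theorem fa1 (p z : ℂ) : fa p 1 z = (z - p).im := rfl
theorem fa2 (p z : ℂ) : fa p 2 z = -(z - p).re := rfl
theorem fa3 (p z : ℂ) : fa p 3 z = -(z - p).im := rfl
theorem ga0 (c q : V) : ga c 0 q = q.1 - c.1 := rfl
theorem ga1 (c q : V) : ga c 1 q = q.2 - c.2 := rfl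
theorem ga2 (c q : V) : ga c 2 q = -(q.1 - c.1) := rfl
theorem ga3 (c q : V) : ga c 3 q = -(q.2 - c.2) := rfl
theorem qd0 : qd 0 = 1 := rfl
theorem qd1 : qd 1 = Complex.I := rfl
theorem qd2 : qd 2 = -1 := rfl
theorem qd3 : qd 3 = -Complex.I := rfl

theorem fa_two (p : ℂ) (k : ZMod 4) (z : ℂ) : fa p (k + 2) z = -fa p k z := by
  rcases z4 k with rfl | rfl | rfl | rfl
  · rw [show (0 : ZMod 4) + 2 = 2 from rfl, fa0, fa2]
  · rw [show (1 : ZMod 4) + 2 = 3 from rfl, fa1, fa3]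
  · rw [show (2 : ZMod 4) + 2 = 0 from rfl, fa0, fa2, neg_neg]
  · rw [show (3 : ZMod 4) + 2 = 1 from rfl, fa1, fa3, neg_neg]

theorem fa_three (p : ℂ) (k : ZMod 4) (z : ℂ) : fa p (k + 3) z = -fa p (k + 1) z := by
  have := fa_two p (k + 1) z
  rwa [show k + 1 + 2 = k + 3 by rw [add_assoc]; rfl] at this

theorem fa_pred (p : ℂ) (k : ZMod 4) (z : ℂ) : fa p (k - 1) z = -fa p (k + 1) z := by
  rw [← fa_three, show k - 1 = k + 3 by rw [sub_eq_add_neg]; rfl]

theorem ga_two (c : V) (k : ZMod 4) (q : V) : ga c (k + 2) q = -ga c k q := by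
  rcases z4 k with rfl | rfl | rfl | rfl
  · rw [show (0 : ZMod 4) + 2 = 2 from rfl, ga0, ga2]
  · rw [show (1 : ZMod 4) + 2 = 3 from rfl, ga1, ga3]
  · rw [show (2 : ZMod 4) + 2 = 0 from rfl, ga0, ga2, neg_neg]
  · rw [show (3 : ZMod 4) + 2 = 1 from rfl, ga1, ga3, neg_neg]


theorem norm_sq (p : ℂ) (k : ZMod 4) (z : ℂ) :
    ‖z - p‖ ^ 2 = fa p k z ^ 2 + fa p (k + 1) z ^ 2 := by
  rw [← Complex.normSq_eq_norm_sq, Complex.normSq_apply]
  rcases z4 k with rfl | rfl | rfl | rfl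
  · rw [show (0 : ZMod 4) + 1 = 1 from rfl, fa0, fa1]; ring
  · rw [show (1 : ZMod 4) + 1 = 2 from rfl, fa1, fa2]; ring
  · rw [show (2 : ZMod 4) + 1 = 3 from rfl, fa2, fa3]; ring
  · rw [show (3 : ZMod 4) + 1 = 0 from rfl, fa3, fa0]; ring

theorem fa_le_norm (p : ℂ) (k : ZMod 4) (z : ℂ) : |fa p k z| ≤ ‖z - p‖ := by
  have h := norm_sq p k z
  have h0 := norm_nonneg (z - p)
  rw [abs_le]
  constructor <;> nlinarith [sq_nonneg (fa p (k + 1) z)]

theorem norm_le_fa (p : ℂ) (k : ZMod 4) (z : ℂ) : ‖z - p‖ ≤ |fa p k z| + |fa p (k + 1) z| := by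
  have h := norm_sq p k z
  have h0 := norm_nonneg (z - p)
  have h1 := abs_nonneg (fa p k z)
  have h2 := abs_nonneg (fa p (k + 1) z)
  have h3 := sq_abs (fa p k z)
  have h4 := sq_abs (fa p (k + 1) z)
  nlinarith [mul_nonneg h1 h2]

theorem fa_sub (p : ℂ) (k : ZMod 4) (z w : ℂ) : |fa p k z - fa p k w| ≤ dist z w := by
  rw [dist_eq_norm]
  have h1 := Complex.abs_re_le_norm (z - w)
  have h2 := Complex.abs_im_le_norm (z - w)
  rcases z4 k with rfl | rfl | rfl | rfl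
  · rw [fa0, fa0]; simpa using h1
  · rw [fa1, fa1]; simpa using h2
  · rw [fa2, fa2, ← abs_neg]
    have e : -(-(z - p).re - -(w - p).re) = (z - w).re := by simp
    rw [e]; exact h1
  · rw [fa3, fa3, ← abs_neg]
    have e : -(-(z - p).im - -(w - p).im) = (z - w).im := by simp
    rw [e]; exact h2

theorem fa_cont (p : ℂ) (k : ZMod 4) : Continuous (fa p k) := by
  rcases z4 k with rfl | rfl | rfl | rfl
  · have : fa p 0 = fun z => (z - p).re := rfl
    rw [this]; fun_prop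
  · have : fa p 1 = fun z => (z - p).im := rfl
    rw [this]; fun_prop
  · have : fa p 2 = fun z => -(z - p).re := rfl
    rw [this]; fun_prop
  · have : fa p 3 = fun z => -(z - p).im := rfl
    rw [this]; fun_prop

/-- affine -/
theorem fa_comb (p : ℂ) (k : ZMod 4) (z w : ℂ) {a b : ℝ} (hab : a + b = 1) :
    fa p k (a • z + b • w) = a * fa p k z + b * fa p k w := by
  have hb : b = 1 - a := by linarith
  subst hb
  rcases z4 k with rfl | rfl | rfl | rfl
  · simp only [fa0, Complex.sub_re, Complex.add_re, Complex.real_smul, Complex.mul_re,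
      Complex.ofReal_re, Complex.ofReal_im, zero_mul, sub_zero]; ring
  · simp only [fa1, Complex.sub_im, Complex.add_im, Complex.real_smul, Complex.mul_im,
      Complex.ofReal_re, Complex.ofReal_im, zero_mul, add_zero]; ring
  · simp only [fa2, Complex.sub_re, Complex.add_re, Complex.real_smul, Complex.mul_re,
      Complex.ofReal_re, Complex.ofReal_im, zero_mul, sub_zero]; ring
  · simp only [fa3, Complex.sub_im, Complex.add_im, Complex.real_smul, Complex.mul_im,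
      Complex.ofReal_re, Complex.ofReal_im, zero_mul, add_zero]; ring

theorem qd_norm (k : ZMod 4) : ‖qd k‖ = 1 := by
  rcases z4 k with rfl | rfl | rfl | rfl
  · rw [qd0]; simp
  · rw [qd1]; simp
  · rw [qd2]; simp
  · rw [qd3]; simp

/-- coordinates of points in polar form -/
theorem fa_add (p : ℂ) (k : ZMod 4) (u : ℂ) :
    fa p k (p + u * qd k) = u.re ∧ fa p (k + 1) (p + u * qd k) = u.im := by
  rcases z4 k with rfl | rfl | rfl | rfl
  · rw [show (0 : ZMod 4) + 1 = 1 from rfl, fa0, fa1, qd0]; simp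
  · rw [show (1 : ZMod 4) + 1 = 2 from rfl, fa1, fa2, qd1]; simp
  · rw [show (2 : ZMod 4) + 1 = 3 from rfl, fa2, fa3, qd2]; simp
  · rw [show (3 : ZMod 4) + 1 = 0 from rfl, fa3, fa0, qd3]; simp

/-- every point in the frame -/
theorem eq_fa (p : ℂ) (k : ZMod 4) (z : ℂ) : z = p + (⟨fa p k z, fa p (k + 1) z⟩ : ℂ) * qd k := by
  rcases z4 k with rfl | rfl | rfl | rfl
  · rw [show (0 : ZMod 4) + 1 = 1 from rfl, fa0, fa1, qd0]
    apply Complex.ext <;> simp
  · rw [show (1 : ZMod 4) + 1 = 2 from rfl, fa1, fa2, qd1]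
    apply Complex.ext <;> simp
  · rw [show (2 : ZMod 4) + 1 = 3 from rfl, fa2, fa3, qd2]
    apply Complex.ext <;> simp
  · rw [show (3 : ZMod 4) + 1 = 0 from rfl, fa3, fa0, qd3]
    apply Complex.ext <;> simp

/-! ### cells -/

theorem fp_ga (c : V) (k : ZMod 4) (q : V) : fp c k.val (ga c k q) (ga c (k + 1) q) = q := by
  rcases z4 k with rfl | rfl | rfl | rfl
  · rw [show (0 : ZMod 4) + 1 = 1 from rfl, ga0, ga1, show (0 : ZMod 4).val = 0 from rfl]
    simp [fp, dir]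
  · rw [show (1 : ZMod 4) + 1 = 2 from rfl, ga1, ga2, show (1 : ZMod 4).val = 1 from rfl]
    simp [fp, dir]
  · rw [show (2 : ZMod 4) + 1 = 3 from rfl, ga2, ga3, show (2 : ZMod 4).val = 2 from rfl]
    simp [fp, dir]
  · rw [show (3 : ZMod 4) + 1 = 0 from rfl, ga3, ga0, show (3 : ZMod 4).val = 3 from rfl]
    simp [fp, dir]

theorem ga_fp (c : V) (k : ZMod 4) (a b : ℤ) :
    ga c k (fp c k.val a b) = a ∧ ga c (k + 1) (fp c k.val a b) = b := by
  rcases z4 k with rfl | rfl | rfl | rfl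
  · rw [show (0 : ZMod 4) + 1 = 1 from rfl, ga0, ga1, show (0 : ZMod 4).val = 0 from rfl]
    simp [fp, dir]
  · rw [show (1 : ZMod 4) + 1 = 2 from rfl, ga1, ga2, show (1 : ZMod 4).val = 1 from rfl]
    simp [fp, dir]
  · rw [show (2 : ZMod 4) + 1 = 3 from rfl, ga2, ga3, show (2 : ZMod 4).val = 2 from rfl]
    simp [fp, dir]
  · rw [show (3 : ZMod 4) + 1 = 0 from rfl, ga3, ga0, show (3 : ZMod 4).val = 3 from rfl]
    simp [fp, dir]

theorem sq_iff0 (s : ℝ) (c q : V) (z : ℂ) : z ∈ sq s q ↔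
    |fa (cen s c) 0 z - s * ga c 0 q| ≤ s / 2 ∧ |fa (cen s c) 1 z - s * ga c 1 q| ≤ s / 2 := by
  rw [fa0, fa1, ga0, ga1, abs_le, abs_le]
  unfold Crest.Agent.R158.Sp896.sq
  simp only [mem_ofPred_eq, cen, Complex.sub_re, Complex.sub_im]
  push_cast
  constructor
  · rintro ⟨h1, h2, h3, h4⟩
    refine ⟨⟨?_, ?_⟩, ?_, ?_⟩ <;> linarith
  · rintro ⟨⟨h1, h2⟩, h3, h4⟩
    refine ⟨?_, ?_, ?_, ?_⟩ <;> linarith

theorem sq_iff {s : ℝ} {c : V} (k : ZMod 4) {q : V} {z : ℂ} : z ∈ sq s q ↔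
    |fa (cen s c) k z - s * ga c k q| ≤ s / 2 ∧
    |fa (cen s c) (k + 1) z - s * ga c (k + 1) q| ≤ s / 2 := by
  rw [sq_iff0 s c q z]
  rcases z4 k with rfl | rfl | rfl | rfl
  · rw [show (0 : ZMod 4) + 1 = 1 from rfl]
  · rw [show (1 : ZMod 4) + 1 = 2 from rfl, show (2 : ZMod 4) = 0 + 2 from rfl, fa_two, ga_two]
    push_cast
    rw [show -fa (cen s c) 0 z - s * -(ga c 0 q : ℝ) = -(fa (cen s c) 0 z - s * ga c 0 q) by ring,
      abs_neg, and_comm]
  · rw [show (2 : ZMod 4) + 1 = 1 + 2 from rfl, fa_two, ga_two,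
      show (2 : ZMod 4) = 0 + 2 from rfl, fa_two, ga_two]
    push_cast
    rw [show -fa (cen s c) 0 z - s * -(ga c 0 q : ℝ) = -(fa (cen s c) 0 z - s * ga c 0 q) by ring,
      show -fa (cen s c) 1 z - s * -(ga c 1 q : ℝ) = -(fa (cen s c) 1 z - s * ga c 1 q) by ring,
      abs_neg, abs_neg]
  · rw [show (3 : ZMod 4) + 1 = 0 from rfl, show (3 : ZMod 4) = 1 + 2 from rfl, fa_two, ga_two]
    push_cast
    rw [show -fa (cen s c) 1 z - s * -(ga c 1 q : ℝ) = -(fa (cen s c) 1 z - s * ga c 1 q) by ring,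
      abs_neg, and_comm]

/-- one coordinate -/
theorem sq_fa {s : ℝ} {c : V} (k : ZMod 4) {q : V} {z : ℂ} (h : z ∈ sq s q) :
    s * ga c k q - s / 2 ≤ fa (cen s c) k z ∧ fa (cen s c) k z ≤ s * ga c k q + s / 2 := by
  have := ((sq_iff (c := c) k).1 h).1
  rw [abs_le] at this
  constructor <;> linarith [this.1, this.2]

/-! ### cones -/

theorem cone_iff {p : ℂ} (k : ZMod 4) {e : ℝ} (he : 0 ≤ e) (he1 : e < 1) {z : ℂ}
    (hz : 0 < ‖z - p‖) :
    (∃ t : ℝ, 0 ≤ t ∧ ‖z - (p + t * qd k)‖ ≤ e * ‖z - p‖) ↔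
      0 ≤ fa p k z ∧ |fa p (k + 1) z| ≤ e * ‖z - p‖ := by
  have key : ∀ t : ℝ, ‖z - (p + t * qd k)‖ ^ 2 = (fa p k z - t) ^ 2 + fa p (k + 1) z ^ 2 := by
    intro t
    have h1 : z - (p + t * qd k) = (⟨fa p k z - t, fa p (k + 1) z⟩ : ℂ) * qd k := by
      conv_lhs => rw [eq_fa p k z]
      have : (⟨fa p k z - t, fa p (k + 1) z⟩ : ℂ) = ⟨fa p k z, fa p (k + 1) z⟩ - (t : ℂ) := by
        apply Complex.ext <;> simp
      rw [this]
      ring
    rw [h1, norm_mul, qd_norm, mul_one, ← Complex.normSq_eq_norm_sq, Complex.normSq_apply]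
    ring
  constructor
  · rintro ⟨t, ht, h⟩
    have h1 := key t
    have h2 := norm_sq p k z
    have h0 := norm_nonneg (z - (p + t * qd k))
    have h3 : ‖z - (p + t * qd k)‖ ^ 2 ≤ (e * ‖z - p‖) ^ 2 := pow_le_pow_left₀ h0 h 2
    refine ⟨?_, ?_⟩
    · by_contra hneg
      push Not at hneg
      have h4 : ‖z - p‖ ^ 2 ≤ (e * ‖z - p‖) ^ 2 := by nlinarith
      have h5 : ‖z - p‖ ≤ e * ‖z - p‖ := by
        have := abs_le_of_sq_le_sq h4 (by positivity)
        rwa [abs_of_pos hz] at this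
      nlinarith
    · rw [h1] at h3
      have : fa p (k + 1) z ^ 2 ≤ (e * ‖z - p‖) ^ 2 := by nlinarith [sq_nonneg (fa p k z - t)]
      exact abs_le_of_sq_le_sq this (by positivity)
  · rintro ⟨h1, h2⟩
    refine ⟨fa p k z, h1, ?_⟩
    have h3 := key (fa p k z)
    rw [sub_self, zero_pow two_ne_zero, zero_add] at h3
    have h4 : ‖z - (p + fa p k z * qd k)‖ ^ 2 ≤ |fa p (k + 1) z| ^ 2 := by
      rw [h3, sq_abs]
    have h5 := abs_le_of_sq_le_sq h4 (abs_nonneg _)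
    rw [abs_of_nonneg (norm_nonneg _)] at h5
    exact h5.trans h2

end Crest.Agent.R143.Cdx806
end
end

-- ▼ part R143/Cd2_806
section

/-!
# Row 143 (S0194), block D, TentC, file 2 (helper806): discrete consequences of `CellDom`

* `CellDom.mark_lt`, `CellDom.cl_box_con` : the classes are connected in boxes
* `CellDom.ray_body`, `CellDom.far_cl` : the far region
* `CellDom.near_tent` : free cells 8-adjacent to a tentacle
-/

set_option autoImplicit false

noncomputable section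

namespace Crest.Agent.R143.Cdx806

open Set Metric
open Crest.Agent.R158.Sp896 Crest.Agent.R143.Tentx359 Crest.Agent.R158.Tj656
open Crest.Agent.R143.Tenx416 (nx)

theorem N8.symm {a b : V} (h : N8 a b) : N8 b a := by
  unfold N8 at *
  rw [abs_sub_comm b.1, abs_sub_comm b.2]
  exact h

theorem N8.refl (a : V) : N8 a a := by
  unfold N8; simp

theorem N8.of_adj {a b : V} (h : Adj a b) : N8 a b := by
  unfold N8 Adj at *
  rw [abs_le, abs_le]
  omega

theorem rcv_N8 {F : Set V} {L : ℕ} {v : ℕ → V} (h : Cyc F L v) (x : ℕ) :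
    N8 (rcv v x) (rcv v (x + 1)) := by
  have h1 := h.step x
  have h2 := h.step (x + 1)
  unfold N8 rcv rc Adj at *
  rw [abs_le, abs_le]
  simp only
  omega

section disc

variable {F : Set V} {L : ℕ} {v : ℕ → V} {m : ℕ → ℕ} {c : V} {M : ℤ} {U : ℕ → ℕ → V}

theorem zlt (i : ZMod 4) : i.val < 4 := ZMod.val_lt i

theorem CellDom.mark_le (D : CellDom F L v m c M U) (i : ZMod 4) : m i.val < nx L m i := by
  have h1 := D.cfg.m01
  have h2 := D.cfg.m12
  have h3 := D.cfg.m23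
  have h4 := D.cfg.m3L
  rcases z4 i with rfl | rfl | rfl | rfl
  · exact h1
  · exact h2
  · exact h3
  · show m 3 < m 0 + L
    omega

theorem CellDom.rcv_nx (D : CellDom F L v m c M U) (i : ZMod 4) :
    rcv v (nx L m i) = U (i + 1).val 1 := by
  rcases z4 i with rfl | rfl | rfl | rfl
  · exact (D.cfg.start1 1 (by norm_num)).symm
  · exact (D.cfg.start1 2 (by norm_num)).symm
  · exact (D.cfg.start1 3 (by norm_num)).symm
  · have h1 := D.cfg.start1 0 (by norm_num)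
    have h2 : rcv v (m 0 + L) = rcv v (m 0) := by
      unfold rcv
      rw [D.cfg.cyc.per, show m 0 + L + 1 = m 0 + 1 + L by ring, D.cfg.cyc.per]
    exact h2.trans h1.symm

theorem CellDom.mark_lt (D : CellDom F L v m c M U) (i : ZMod 4) : m i.val + 1 < nx L m i := by
  rcases (Nat.succ_le_of_lt (D.mark_le i)).lt_or_eq with h | h
  · exact h
  · exfalso
    have h1 := rcv_N8 D.cfg.cyc (m i.val)
    rw [show m i.val + 1 = nx L m i from h, D.rcv_nx, ← D.cfg.start1 i.val (zlt i)] at h1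
    have h2 := D.tt _ (zlt i) _ (zlt (i + 1)) 0 0 h1
    revert h2
    rcases z4 i with rfl | rfl | rfl | rfl <;> decide

theorem CellDom.base_mem (D : CellDom F L v m c M U) (i : ZMod 4) :
    rcv v (m i.val + 1) ∈ cl F v m U i :=
  D.arc i _ (Nat.lt_succ_self _) (D.mark_lt i)

theorem CellDom.disj (D : CellDom F L v m c M U) {i j : ZMod 4} {q : V} (h : q ∈ cl F v m U i)
    (h' : q ∈ cl F v m U j) : i = j := D.sep i j q h q h' (N8.refl q)

theorem CellDom.cl_near (D : CellDom F L v m c M U) {i : ZMod 4} {q q' : V}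
    (h : q ∈ cl F v m U i) (h' : q' ∉ body F U 4) (hn : N8 q q') : q' ∈ cl F v m U i := by
  obtain ⟨j, hj⟩ := D.cov q' h'
  rw [D.sep i j q h q' hj hn]
  exact hj

/-- the classes are connected in boxes -/
theorem CellDom.cl_box_con (D : CellDom F L v m c M U) (i : ZMod 4) {R : ℤ} (hR : M < R) :
    ∀ q ∈ cl F v m U i ∩ Box c R, ∀ q' ∈ cl F v m U i ∩ Box c R,
      Con (cl F v m U i ∩ Box c R) q q' := by
  intro q hq q' hq'
  have h1 : Con (body F U 4)ᶜ q q' :=
    (Crest.Agent.R158.Sp896.Con.symm hq.1.2 (D.base_mem i).1).trans hq'.1.2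
  have h2 := D.cfg.clamp_con hR hq.2 hq'.2 h1
  have key : ∀ p, Con ((body F U 4)ᶜ ∩ Box c R) q p →
      Con (cl F v m U i ∩ Box c R) q p ∧ p ∈ cl F v m U i ∩ Box c R := by
    intro p hp
    induction hp with
    | refl => exact ⟨cRefl _ _, hq⟩
    | tail _ h4 ih =>
      have h5 := D.cl_near ih.2.1 h4.2.1 (N8.of_adj h4.1)
      exact ⟨ih.1.trans (cOne h4.1 ⟨h5, h4.2.2⟩), h5, h4.2.2⟩
  exact (key q' h2).1

/-! ### the far region -/

theorem CellDom.ray_body (D : CellDom F L v m c M U) (k : ZMod 4) {q : V} (h : M ≤ ga c k q)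
    (h0 : ga c (k + 1) q = 0) : q ∈ body F U 4 := by
  have h1 := D.cfg.ray_mem (zlt k) h
  have h2 := fp_ga c k q
  rw [h0] at h2
  rw [← h2]
  convert h1 using 1
  unfold fp
  simp

theorem far_ga {c q : V} {R : ℤ} (h : q ∉ Box c R) : R < |ga c 0 q| ∨ R < |ga c 1 q| := by
  unfold Box at h
  rw [mem_ofPred_eq, not_and_or, not_le, not_le] at h
  exact h

theorem CellDom.far_quad (D : CellDom F L v m c M U) {q : V} (hq : q ∉ body F U 4)
    (hfar : q ∉ Box c M) : ∃ i : ZMod 4, 0 < ga c i q ∧ 0 < ga c (i + 1) q := by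
  have hf := far_ga hfar
  rw [lt_abs, lt_abs] at hf
  have r0 : ¬ (M ≤ ga c 0 q ∧ ga c 1 q = 0) := fun h => hq (D.ray_body 0 h.1 h.2)
  have r1 : ¬ (M ≤ ga c 1 q ∧ ga c 2 q = 0) := fun h => hq (D.ray_body 1 h.1 h.2)
  have r2 : ¬ (M ≤ ga c 2 q ∧ ga c 3 q = 0) := fun h => hq (D.ray_body 2 h.1 h.2)
  have r3 : ¬ (M ≤ ga c 3 q ∧ ga c 0 q = 0) := fun h => hq (D.ray_body 3 h.1 h.2)
  have e2 : ga c 2 q = -ga c 0 q := ga_two c 0 q
  have e3 : ga c 3 q = -ga c 1 q := ga_two c 1 q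
  have hM := D.cfg.M_pos
  rw [e2] at r1 r2
  rw [e3] at r2 r3
  have hc : (0 < ga c 0 q ∧ 0 < ga c 1 q) ∨ (0 < ga c 1 q ∧ ga c 0 q < 0) ∨
      (ga c 0 q < 0 ∧ ga c 1 q < 0) ∨ (ga c 1 q < 0 ∧ 0 < ga c 0 q) := by omega
  rcases hc with h | h | h | h
  · exact ⟨0, h⟩
  · exact ⟨1, h.1, by rw [show (1 : ZMod 4) + 1 = 2 from rfl, e2]; omega⟩
  · exact ⟨2, by rw [e2]; omega, by rw [show (2 : ZMod 4) + 1 = 3 from rfl, e3]; omega⟩
  · exact ⟨3, by rw [e3]; omega, h.2⟩

/-- far cells in frames -/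
theorem far_ga' {c q : V} {R : ℤ} (h : q ∉ Box c R) (i : ZMod 4) :
    R < |ga c i q| ∨ R < |ga c (i + 1) q| := by
  have hf := far_ga h
  have e2 : ga c 2 q = -ga c 0 q := ga_two c 0 q
  have e3 : ga c 3 q = -ga c 1 q := ga_two c 1 q
  rcases z4 i with rfl | rfl | rfl | rfl
  · exact hf
  · rw [show (1 : ZMod 4) + 1 = 2 from rfl, e2, abs_neg]; exact hf.symm
  · rw [show (2 : ZMod 4) + 1 = 3 from rfl, e2, e3, abs_neg, abs_neg]; exact hf
  · rw [show (3 : ZMod 4) + 1 = 0 from rfl, e3, abs_neg]; exact hf.symm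

theorem box_ga {c q : V} {R : ℤ} (h : q ∈ Box c R) (i : ZMod 4) : |ga c i q| ≤ R := by
  have e2 : ga c 2 q = -ga c 0 q := ga_two c 0 q
  have e3 : ga c 3 q = -ga c 1 q := ga_two c 1 q
  rcases z4 i with rfl | rfl | rfl | rfl
  · exact h.1
  · exact h.2
  · rw [e2, abs_neg]; exact h.1
  · rw [e3, abs_neg]; exact h.2

theorem CellDom.far_cl (D : CellDom F L v m c M U) {i : ZMod 4} {q : V} (hq : q ∈ cl F v m U i)
    (hfar : q ∉ Box c M) : 0 < ga c i q ∧ 0 < ga c (i + 1) q := by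
  obtain ⟨j, h1, h2⟩ := D.far_quad hq.1 hfar
  have h3 := far_ga' hfar j
  rw [abs_of_pos h1, abs_of_pos h2] at h3
  have h4 := D.quad j _ _ h1 h2 (lt_max_iff.2 h3)
  rw [fp_ga] at h4
  rw [D.disj hq h4]
  exact ⟨h1, h2⟩

/-! ### cells near the tentacles -/

/-- common neighbours of two diagonal cells -/
theorem N8_cases {a b : V} (h : N8 a b) : a = b ∨ Adj a b ∨
    (Adj a (b.1, a.2) ∧ Adj (b.1, a.2) b ∧ Adj a (a.1, b.2) ∧ Adj (a.1, b.2) b) := by
  obtain ⟨a1, a2⟩ := a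
  obtain ⟨b1, b2⟩ := b
  unfold N8 at h
  rw [abs_le, abs_le] at h
  unfold Adj
  rw [Prod.mk.injEq]
  have e1 : b1 = a1 ∨ b1 = a1 + 1 ∨ b1 = a1 - 1 := by simp only at h; omega
  have e2 : b2 = a2 ∨ b2 = a2 + 1 ∨ b2 = a2 - 1 := by simp only at h; omega
  rcases e1 with rfl | rfl | rfl <;> rcases e2 with rfl | rfl | rfl <;> simp

theorem corner_int {w u q : V} (h7 : Adj w u) (h1 : Adj u (q.1, u.2)) (h3 : Adj u (u.1, q.2))
    (b1 : (q.1 - u.1) * (w.1 - u.1) + (u.2 - u.2) * (w.2 - u.2) = 1)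
    (b2 : (u.1 - u.1) * (w.1 - u.1) + (q.2 - u.2) * (w.2 - u.2) = 1) : False := by
  obtain ⟨w1, w2⟩ := w
  obtain ⟨u1, u2⟩ := u
  obtain ⟨q1, q2⟩ := q
  unfold Adj at h1 h3 h7
  simp only at b1 b2 h1 h3 h7
  rw [sub_self, zero_mul] at b1 b2
  rcases h7 with ⟨e1, e2⟩ | ⟨e1, e2⟩ | ⟨e1, e2⟩ | ⟨e1, e2⟩ <;> subst e1 <;> subst e2 <;>
    simp at b1 b2

/-- free cells 8-adjacent to the tentacle `k` -/
theorem CellDom.near_tent (D : CellDom F L v m c M U) (k : ZMod 4) {j : ℕ} {q : V}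
    (hn : N8 (U k.val (j + 1)) q) (hq : q ∉ body F U 4) :
    q ∈ cl F v m U k ∨ q ∈ cl F v m U (k - 1) := by
  have key : ∀ g : V, Adj (U k.val (j + 1)) g → Adj g q →
      (q ∈ cl F v m U k ∨ q ∈ cl F v m U (k - 1)) ∨ g ∈ F := by
    intro g h1 h2
    by_cases hg : g ∈ body F U 4
    · rcases hg with hg | ⟨k', hk', j', hj'⟩
      · exact Or.inr hg
      · left
        have h3 : N8 (U k.val (j + 1)) (U k' (j' + 1)) := hj' ▸ N8.of_adj h1
        have h4 := D.tt _ (zlt k) _ hk' _ _ h3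
        rw [hj', ← h4] at h2
        exact D.tside k j' q h2 hq
    · left
      rcases D.tside k j g h1 hg with h3 | h3
      · exact Or.inl (D.cl_near h3 hq (N8.of_adj h2))
      · exact Or.inr (D.cl_near h3 hq (N8.of_adj h2))
  rcases N8_cases hn with h | h | ⟨h1, h2, h3, h4⟩
  · exact absurd (h ▸ Or.inr ⟨k.val, zlt k, j, rfl⟩) hq
  · exact D.tside k j q h hq
  · rcases key _ h1 h2 with h5 | h5
    · exact h5
    · rcases key _ h3 h4 with h6 | h6
      · exact h6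
      · exfalso
        have a1 := D.tF _ (zlt k) j _ h5 (N8.of_adj h1)
        have a2 := D.tF _ (zlt k) j _ h6 (N8.of_adj h3)
        obtain ⟨hj, b1⟩ := a1
        obtain ⟨-, b2⟩ := a2
        subst hj
        have h7 := D.cfg.step _ (zlt k) 0
        exact corner_int h7 h1 h3 b1 b2

end disc

end Crest.Agent.R143.Cdx806
end
end

-- ▼ part R143/Cd3_806
section

/-!
# Row 143 (S0194), block D, TentC, file 3 (helper806): the regions, `Cfg.OK`

* `Lr s M` : radius, `Cn s c M k` : closed cones, `Rg ... i` : regions, `cfgC` : the configuration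
* `CellDom.ok : (cfgC ..).OK s`
-/

set_option autoImplicit false

noncomputable section

namespace Crest.Agent.R143.Cdx806

open Set Metric
open Crest.Agent.R158.Sp896 Crest.Agent.R143.Tentx359 Crest.Agent.R158.Tj656
open Crest.Agent.R143.Tenx416 (nx)

/-- radius of the big disc -/
def Lr (s : ℝ) (M : ℤ) : ℝ := 16 * s * (M + 2)

/-- closed cones -/
def Cn (s : ℝ) (c : V) (M : ℤ) (k : ZMod 4) : Set ℂ :=
  {z | Lr s M / 2 ≤ ‖z - cen s c‖ ∧ 0 ≤ fa (cen s c) k z ∧
    |fa (cen s c) (k + 1) z| ≤ s / Lr s M * ‖z - cen s c‖}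

/-- regions -/
def Rg (s : ℝ) (F : Set V) (v : ℕ → V) (m : ℕ → ℕ) (c : V) (M : ℤ) (U : ℕ → ℕ → V)
    (i : ZMod 4) : Set ℂ := Om s (cl F v m U i) \ ⋃ k, Cn s c M k

/-- far part of the regions -/
def Qd (s : ℝ) (c : V) (M : ℤ) (i : ZMod 4) : Set ℂ :=
  {z | s / 2 < fa (cen s c) i z ∧ s / 2 < fa (cen s c) (i + 1) z ∧
    s / Lr s M * ‖z - cen s c‖ < fa (cen s c) i z ∧
    s / Lr s M * ‖z - cen s c‖ < fa (cen s c) (i + 1) z ∧
    (s * (M + 1 / 2) < fa (cen s c) i z ∨ s * (M + 1 / 2) < fa (cen s c) (i + 1) z)}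

/-- the configuration -/
def cfgC (s : ℝ) (F : Set V) (v : ℕ → V) (m : ℕ → ℕ) (c : V) (M : ℤ) (U : ℕ → ℕ → V) :
    Cfgx416.Cfg 4 := ⟨cen s c, Lr s M, Rg s F v m c M U, qd⟩

theorem Lr_pos {s : ℝ} {M : ℤ} (hs : 0 < s) (hM : 0 < M) : 0 < Lr s M := by
  have : (0 : ℝ) < M := by exact_mod_cast hM
  unfold Lr; positivity

theorem e_pos {s : ℝ} {M : ℤ} (hs : 0 < s) (hM : 0 < M) : 0 < s / Lr s M :=
  div_pos hs (Lr_pos hs hM)

theorem e_mul {s : ℝ} {M : ℤ} (hs : 0 < s) (hM : 0 < M) : s / Lr s M * (16 * (M + 2)) = 1 := by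
  have h1 := (Lr_pos hs hM).ne'
  have : (0 : ℝ) < M := by exact_mod_cast hM
  unfold Lr at *
  field_simp

theorem e_le {s : ℝ} {M : ℤ} (hs : 0 < s) (hM : 0 < M) : s / Lr s M ≤ 1 / 48 := by
  have h1 := e_mul hs hM
  have h2 := e_pos hs hM
  have : (1 : ℝ) ≤ M := by exact_mod_cast hM
  nlinarith

theorem norm_box {s : ℝ} (hs : 0 < s) {q c : V} {R : ℤ} {z : ℂ} (hq : q ∈ Box c R)
    (hz : z ∈ sq s q) : ‖z - cen s c‖ ≤ 2 * s * R + s := by
  have h1 := norm_le_fa (cen s c) 0 z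
  have h2 := sq_fa (c := c) 0 hz
  have h3 := sq_fa (c := c) 1 hz
  have b0 := abs_le.1 (box_ga hq 0)
  have b1 := abs_le.1 (box_ga hq 1)
  have c0 : (-(R : ℝ)) ≤ ga c 0 q ∧ (ga c 0 q : ℝ) ≤ R := ⟨by exact_mod_cast b0.1, by exact_mod_cast b0.2⟩
  have c1 : (-(R : ℝ)) ≤ ga c 1 q ∧ (ga c 1 q : ℝ) ≤ R := ⟨by exact_mod_cast b1.1, by exact_mod_cast b1.2⟩
  have k0 : |fa (cen s c) 0 z| ≤ s * R + s / 2 := by
    rw [abs_le]; constructor <;> nlinarith [c0.1, c0.2]
  have k1 : |fa (cen s c) 1 z| ≤ s * R + s / 2 := by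
    rw [abs_le]; constructor <;> nlinarith [c1.1, c1.2]
  rw [show (0 : ZMod 4) + 1 = 1 from rfl] at h1
  linarith

theorem Cn_closed (s : ℝ) (c : V) (M : ℤ) (k : ZMod 4) : IsClosed (Cn s c M k) := by
  have h1 := fa_cont (cen s c) k
  have h2 := fa_cont (cen s c) (k + 1)
  have h3 : Continuous fun z : ℂ => ‖z - cen s c‖ := by fun_prop
  exact (isClosed_le continuous_const h3).inter
    ((isClosed_le continuous_const h1).inter (isClosed_le h2.abs (continuous_const.mul h3)))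

theorem Rg_open (s : ℝ) (F : Set V) (v : ℕ → V) (m : ℕ → ℕ) (c : V) (M : ℤ) (U : ℕ → ℕ → V)
    (i : ZMod 4) : IsOpen (Rg s F v m c M U i) :=
  (om_open s _).sdiff (isClosed_iUnion_of_finite fun k => Cn_closed s c M k)

section

variable {F : Set V} {L : ℕ} {v : ℕ → V} {m : ℕ → ℕ} {c : V} {M : ℤ} {U : ℕ → ℕ → V} {s : ℝ}

/-- integer part of the coordinates -/
theorem ga_gt {hs : 0 < s} {k : ZMod 4} {q : V} {z : ℂ} (hz : z ∈ sq s q) {r : ℤ}
    (h : s * (r + 1 / 2) < fa (cen s c) k z) : r < ga c k q := by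
  have h1 := (sq_fa (c := c) k hz).2
  have h2 : s * (r : ℝ) < s * ga c k q := by linarith
  exact_mod_cast lt_of_mul_lt_mul_left h2 hs.le

theorem CellDom.Qd_sub_Om (D : CellDom F L v m c M U) (hs : 0 < s) (i : ZMod 4) :
    Qd s c M i ⊆ Om s (cl F v m U i) := by
  rintro z ⟨h1, h2, -, -, h3⟩
  rw [mem_om hs]
  intro q hq
  have e1 : 0 < ga c i q := ga_gt (hs := hs) hq (by push_cast; linarith)
  have e2 : 0 < ga c (i + 1) q := ga_gt (hs := hs) hq (by push_cast; linarith)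
  have e3 : M < max (ga c i q) (ga c (i + 1) q) := by
    rw [lt_max_iff]
    rcases h3 with h3 | h3
    · exact Or.inl (ga_gt (hs := hs) hq h3)
    · exact Or.inr (ga_gt (hs := hs) hq h3)
  have := D.quad i _ _ e1 e2 e3
  rwa [fp_ga] at this

theorem Qd_not_Cn (i : ZMod 4) (hs : 0 < s) (k : ZMod 4) {z : ℂ}
    (hz : z ∈ Qd s c M i) : z ∉ Cn s c M k := by
  obtain ⟨h1, h2, h3, h4, -⟩ := hz
  rintro ⟨-, k1, k2⟩
  rw [abs_le] at k2
  obtain ⟨j, rfl⟩ : ∃ j, k = i + j := ⟨k - i, by ring⟩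
  rcases z4 j with rfl | rfl | rfl | rfl
  · rw [add_zero] at k2; linarith [k2.2]
  · rw [show i + 1 + 1 = i + 2 by rw [add_assoc]; rfl, fa_two] at k2; linarith [k2.1]
  · rw [fa_two] at k1; linarith
  · rw [fa_three] at k1; linarith

theorem CellDom.Qd_sub (D : CellDom F L v m c M U) (hs : 0 < s) (i : ZMod 4) :
    Qd s c M i ⊆ Rg s F v m c M U i := by
  intro z hz
  refine ⟨D.Qd_sub_Om hs i hz, ?_⟩
  rw [mem_iUnion, not_exists]
  exact fun k => Qd_not_Cn i hs k hz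

/-- far points of `Om s (cl i)` -/
theorem CellDom.far_Om (D : CellDom F L v m c M U) (hs : 0 < s) {i : ZMod 4} {z : ℂ}
    (hz : z ∈ Om s (cl F v m U i)) {q : V} (hq : z ∈ sq s q) (hfar : q ∉ Box c (M + 1)) :
    s / 2 < fa (cen s c) i z ∧ s / 2 < fa (cen s c) (i + 1) z ∧
    (s * (M + 1 / 2) < fa (cen s c) i z ∨ s * (M + 1 / 2) < fa (cen s c) (i + 1) z) := by
  have hM := D.cfg.M_pos
  have hMr : (1 : ℝ) ≤ M := by exact_mod_cast hM
  have hcl := (mem_om hs).1 hz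
  have hqi := hcl q hq
  have hf := D.far_cl hqi (fun h => hfar ⟨h.1.trans (by omega), h.2.trans (by omega)⟩)
  have hf2 := far_ga' hfar i
  rw [abs_of_pos hf.1, abs_of_pos hf.2] at hf2
  obtain ⟨a1, a2⟩ := sq_fa (c := c) i hq
  obtain ⟨b1, b2⟩ := sq_fa (c := c) (i + 1) hq
  have f1 : (1 : ℝ) ≤ ga c i q := by exact_mod_cast hf.1
  have f2 : (1 : ℝ) ≤ ga c (i + 1) q := by exact_mod_cast hf.2
  rcases hf2 with h | h
  · have h' : (M : ℝ) + 2 ≤ ga c i q := by
      have : M + 2 ≤ ga c i q := by omega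
      exact_mod_cast this
    have c1 : s * (M + 1 / 2) < fa (cen s c) i z := by nlinarith
    refine ⟨by nlinarith, ?_, Or.inl c1⟩
    by_contra hcon
    push Not at hcon
    obtain ⟨g1, g2⟩ := ga_fp c i (ga c i q) 0
    have hmem : z ∈ sq s (fp c i.val (ga c i q) 0) := by
      rw [sq_iff (c := c) i, g1, g2, abs_le, abs_le]
      push_cast
      refine ⟨⟨by linarith, by linarith⟩, by nlinarith, by linarith⟩
    exact (hcl _ hmem).1 (D.ray_body i (by rw [g1]; omega) g2)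
  · have h' : (M : ℝ) + 2 ≤ ga c (i + 1) q := by
      have : M + 2 ≤ ga c (i + 1) q := by omega
      exact_mod_cast this
    have c1 : s * (M + 1 / 2) < fa (cen s c) (i + 1) z := by nlinarith
    refine ⟨?_, by nlinarith, Or.inr c1⟩
    by_contra hcon
    push Not at hcon
    obtain ⟨g1, g2⟩ := ga_fp c i 0 (ga c (i + 1) q)
    have hmem : z ∈ sq s (fp c i.val 0 (ga c (i + 1) q)) := by
      rw [sq_iff (c := c) i, g1, g2, abs_le, abs_le]
      push_cast
      refine ⟨⟨by nlinarith, by linarith⟩, by linarith, by linarith⟩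
    refine (hcl _ hmem).1 (D.ray_body (i + 1) (by rw [g2]; omega) ?_)
    rw [show i + 1 + 1 = i + 2 by rw [add_assoc]; rfl, ga_two, g1, neg_zero]

theorem norm_Om_box (hs : 0 < s) (hM : 0 < M) {S : Set V} {z : ℂ}
    (hz : z ∈ Om s (S ∩ Box c (M + 1))) : ‖z - cen s c‖ < Lr s M / 2 := by
  have h1 := norm_box hs ((mem_om hs).1 hz _ (mem_cellOf hs z)).2 (mem_cellOf hs z)
  have hMr : (1 : ℝ) ≤ M := by exact_mod_cast hM
  push_cast at h1
  unfold Lr
  nlinarith

theorem CellDom.Rg_eq (D : CellDom F L v m c M U) (hs : 0 < s) (i : ZMod 4) :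
    Rg s F v m c M U i = Om s (cl F v m U i ∩ Box c (M + 1)) ∪ Qd s c M i := by
  have hM := D.cfg.M_pos
  apply Subset.antisymm
  · rintro z ⟨h1, h2⟩
    by_cases hb : ∀ q, z ∈ sq s q → q ∈ Box c (M + 1)
    · left
      rw [mem_om hs] at h1 ⊢
      exact fun q hq => ⟨h1 q hq, hb q hq⟩
    · right
      push Not at hb
      obtain ⟨q, hq, hq'⟩ := hb
      obtain ⟨k1, k2, k3⟩ := D.far_Om hs h1 hq hq'
      rw [mem_iUnion, not_exists] at h2
      have a1 := h2 i
      have a2 := h2 (i + 1)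
      have ew := e_pos hs hM
      have key : s / Lr s M * ‖z - cen s c‖ < fa (cen s c) i z ∧
          s / Lr s M * ‖z - cen s c‖ < fa (cen s c) (i + 1) z := by
        rcases lt_or_ge ‖z - cen s c‖ (Lr s M / 2) with h3 | h3
        · have h4 : s / Lr s M * ‖z - cen s c‖ < s / 2 := by
            calc s / Lr s M * ‖z - cen s c‖ < s / Lr s M * (Lr s M / 2) :=
                  mul_lt_mul_of_pos_left h3 ew
              _ = s / 2 := by have := (Lr_pos hs hM).ne'; field_simp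
          exact ⟨h4.trans k1, h4.trans k2⟩
        · constructor
          · by_contra hcon
            push Not at hcon
            refine a2 ⟨h3, by linarith, ?_⟩
            rw [show i + 1 + 1 = i + 2 by rw [add_assoc]; rfl, fa_two, abs_neg, abs_of_pos (by linarith)]
            exact hcon
          · by_contra hcon
            push Not at hcon
            refine a1 ⟨h3, by linarith, ?_⟩
            rw [abs_of_pos (by linarith)]
            exact hcon
      exact ⟨k1, k2, key.1, key.2, k3⟩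
  · rintro z (hz | hz)
    · refine ⟨?_, ?_⟩
      · rw [mem_om hs] at hz ⊢
        exact fun q hq => (hz q hq).1
      · rw [mem_iUnion, not_exists]
        intro k hk
        exact absurd hk.1 (not_le.2 (norm_Om_box hs hM hz))
    · exact D.Qd_sub hs i hz

/-! ### connectedness -/

theorem comb_lt {x1 x2 y1 y2 a b : ℝ} (h1 : x1 < y1) (h2 : x2 < y2) (ha : 0 ≤ a) (hb : 0 ≤ b)
    (hab : a + b = 1) : a * x1 + b * x2 < a * y1 + b * y2 := by
  rcases ha.eq_or_lt with h | h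
  · subst h
    have : b = 1 := by linarith
    subst this
    linarith
  · nlinarith [mul_le_mul_of_nonneg_left h2.le hb]

/-- convex half -/
def Kh (s : ℝ) (c : V) (M : ℤ) (i j : ZMod 4) : Set ℂ :=
  {z | s / 2 < fa (cen s c) i z ∧ s / 2 < fa (cen s c) (i + 1) z ∧
    s / Lr s M * ‖z - cen s c‖ < fa (cen s c) i z ∧
    s / Lr s M * ‖z - cen s c‖ < fa (cen s c) (i + 1) z ∧
    s * (M + 1 / 2) < fa (cen s c) j z}

theorem Kh_convex (hs : 0 < s) (hM : 0 < M) (i j : ZMod 4) : Convex ℝ (Kh s c M i j) := by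
  rintro z ⟨h1, h2, h3, h4, h5⟩ w ⟨k1, k2, k3, k4, k5⟩ a b ha hb hab
  have hn : ‖a • z + b • w - cen s c‖ ≤ a * ‖z - cen s c‖ + b * ‖w - cen s c‖ := by
    have e : a • z + b • w - cen s c = a • (z - cen s c) + b • (w - cen s c) := by
      have : b = 1 - a := by linarith
      subst this
      simp only [Complex.real_smul]
      push_cast
      ring
    rw [e]
    refine (norm_add_le _ _).trans ?_
    rw [norm_smul, norm_smul, Real.norm_of_nonneg ha, Real.norm_of_nonneg hb]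
  have hn' := mul_le_mul_of_nonneg_left hn (e_pos hs hM).le
  have t1 := comb_lt h1 k1 ha hb hab
  have t2 := comb_lt h2 k2 ha hb hab
  have t3 := comb_lt h3 k3 ha hb hab
  have t4 := comb_lt h4 k4 ha hb hab
  have t5 := comb_lt h5 k5 ha hb hab
  rw [← add_mul, hab, one_mul] at t1 t2 t5
  refine ⟨?_, ?_, ?_, ?_, ?_⟩
  · rw [fa_comb _ _ _ _ hab]; exact t1
  · rw [fa_comb _ _ _ _ hab]; exact t2
  · rw [fa_comb _ _ _ _ hab]; refine hn'.trans_lt ?_; linarith
  · rw [fa_comb _ _ _ _ hab]; refine hn'.trans_lt ?_; linarith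
  · rw [fa_comb _ _ _ _ hab]; exact t5

/-- points of the quadrants -/
theorem mem_Kh (hs : 0 < s) (hM : 0 < M) (i : ZMod 4) {x y : ℝ} (hx : s ≤ x) (hy : s ≤ y)
    (hx' : x ≤ 2 * s * (M + 2)) (hy' : y ≤ 2 * s * (M + 2)) {j : ZMod 4}
    (hj : s * (M + 1 / 2) < fa (cen s c) j (cen s c + (⟨x, y⟩ : ℂ) * qd i)) :
    cen s c + (⟨x, y⟩ : ℂ) * qd i ∈ Kh s c M i j := by
  obtain ⟨h1, h2⟩ := fa_add (cen s c) i ⟨x, y⟩
  have hn := norm_le_fa (cen s c) i (cen s c + (⟨x, y⟩ : ℂ) * qd i)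
  rw [h1, h2] at hn
  simp only at h1 h2 hn
  rw [abs_of_pos (hs.trans_le hx), abs_of_pos (hs.trans_le hy)] at hn
  have e1 := e_mul hs hM
  have e2 := e_pos hs hM
  have hMr : (1 : ℝ) ≤ M := by exact_mod_cast hM
  have hn2 : s / Lr s M * ‖cen s c + (⟨x, y⟩ : ℂ) * qd i - cen s c‖ < s := by
    calc s / Lr s M * ‖cen s c + (⟨x, y⟩ : ℂ) * qd i - cen s c‖
        ≤ s / Lr s M * (4 * s * (M + 2)) := mul_le_mul_of_nonneg_left (by linarith) e2.le
      _ = s / 4 := by
        have : s / Lr s M * (4 * s * (M + 2)) = (s / Lr s M * (16 * (M + 2))) * (s / 4) := by ring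
        rw [this, e1, one_mul]
      _ < s := by linarith
  refine ⟨by rw [h1]; linarith, by rw [h2]; linarith, by rw [h1]; linarith,
    by rw [h2]; linarith, hj⟩

theorem Qd_eq (i : ZMod 4) : Qd s c M i = Kh s c M i i ∪ Kh s c M i (i + 1) := by
  ext z
  constructor
  · rintro ⟨h1, h2, h3, h4, h5 | h5⟩
    · exact Or.inl ⟨h1, h2, h3, h4, h5⟩
    · exact Or.inr ⟨h1, h2, h3, h4, h5⟩
  · rintro (⟨h1, h2, h3, h4, h5⟩ | ⟨h1, h2, h3, h4, h5⟩)
    · exact ⟨h1, h2, h3, h4, Or.inl h5⟩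
    · exact ⟨h1, h2, h3, h4, Or.inr h5⟩

theorem Qd_preconn (hs : 0 < s) (hM : 0 < M) (i : ZMod 4) : IsPreconnected (Qd s c M i) := by
  have hMr : (1 : ℝ) ≤ M := by exact_mod_cast hM
  rw [Qd_eq]
  obtain ⟨h1, h2⟩ := fa_add (cen s c) i ⟨s * (M + 2), s * (M + 2)⟩
  simp only at h1 h2
  refine IsPreconnected.union (cen s c + (⟨s * (M + 2), s * (M + 2)⟩ : ℂ) * qd i) ?_ ?_
    (Kh_convex hs hM i i).isPreconnected (Kh_convex hs hM i (i + 1)).isPreconnected
  · exact mem_Kh hs hM i (by nlinarith) (by nlinarith) (by nlinarith) (by nlinarith)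
      (by rw [h1]; nlinarith)
  · exact mem_Kh hs hM i (by nlinarith) (by nlinarith) (by nlinarith) (by nlinarith)
      (by rw [h2]; nlinarith)

theorem CellDom.Rg_conn (D : CellDom F L v m c M U) (hs : 0 < s) (i : ZMod 4) :
    IsConnected (Rg s F v m c M U i) := by
  have hM := D.cfg.M_pos
  have hMr : (1 : ℝ) ≤ M := by exact_mod_cast hM
  -- common point: centre of the cell `(M + 1, 1)`
  obtain ⟨h1, h2⟩ := fa_add (cen s c) i ⟨s * (M + 1), s⟩
  simp only at h1 h2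
  have hK : cen s c + (⟨s * (M + 1), s⟩ : ℂ) * qd i ∈ Qd s c M i := by
    rw [Qd_eq]
    left
    exact mem_Kh hs hM i (by nlinarith) le_rfl (by nlinarith) (by nlinarith)
      (by rw [h1]; nlinarith)
  have hO : cen s c + (⟨s * (M + 1), s⟩ : ℂ) * qd i ∈ Om s (cl F v m U i ∩ Box c (M + 1)) := by
    have hcl := D.Qd_sub_Om hs i hK
    rw [mem_om hs] at hcl ⊢
    intro q hq
    refine ⟨hcl q hq, ?_⟩
    by_contra hfar
    have hf := far_ga' hfar i
    obtain ⟨a1, a2⟩ := sq_fa (c := c) i hq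
    obtain ⟨b1, b2⟩ := sq_fa (c := c) (i + 1) hq
    rw [h1] at a1 a2
    rw [h2] at b1 b2
    have c1 : ga c i q < M + 2 := by
      have : s * (ga c i q : ℝ) < s * (M + 2) := by nlinarith
      exact_mod_cast lt_of_mul_lt_mul_left this hs.le
    have c2 : M < ga c i q := by
      have : s * (M : ℝ) < s * ga c i q := by nlinarith
      exact_mod_cast lt_of_mul_lt_mul_left this hs.le
    have c3 : ga c (i + 1) q < 2 := by
      have : s * (ga c (i + 1) q : ℝ) < s * 2 := by nlinarith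
      exact_mod_cast lt_of_mul_lt_mul_left this hs.le
    have c4 : 0 < ga c (i + 1) q := by
      have : s * (0 : ℝ) < s * ga c (i + 1) q := by nlinarith
      exact_mod_cast lt_of_mul_lt_mul_left this hs.le
    rw [abs_of_pos (by omega), abs_of_pos c4] at hf
    omega
  rw [D.Rg_eq hs i]
  refine ⟨⟨_, Or.inr hK⟩, IsPreconnected.union _ hO hK ?_ (Qd_preconn hs hM i)⟩
  exact Crest.Agent.R158.Tg331.conn_Om hs (D.cl_box_con i (by omega))

end

end Crest.Agent.R143.Cdx806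
end
end

-- ▼ part R143/Cd4_806

/-!
# Row 143 (S0194), block D, TentC, file 4 (helper806): `Cfg.OK`

* `near_N8` : close points lie in 8-adjacent cells
* `CellDom.ok : (cfgC s F v m c M U).OK s`
-/

set_option autoImplicit false

noncomputable section

namespace Crest.Agent.R143.Cdx806

open Set Metric
open Crest.Agent.R158.Sp896 Crest.Agent.R143.Tentx359 Crest.Agent.R158.Tj656
open Crest.Agent.R143.Tenx416 (nx)

theorem near_N8 {s : ℝ} (hs : 0 < s) {q q' : V} {z w : ℂ} (hz : z ∈ sq s q) (hw : w ∈ sq s q')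
    (h : dist z w < s) : N8 q q' := by
  obtain ⟨h1, h2, h3, h4⟩ := hz
  obtain ⟨k1, k2, k3, k4⟩ := hw
  rw [dist_eq_norm] at h
  have a1 := abs_lt.1 ((Complex.abs_re_le_norm (z - w)).trans_lt h)
  have a2 := abs_lt.1 ((Complex.abs_im_le_norm (z - w)).trans_lt h)
  rw [Complex.sub_re] at a1
  rw [Complex.sub_im] at a2
  have key : ∀ a b : ℤ, s * a < s * (b + 2) → a ≤ b + 1 := by
    intro a b hab
    have h5 : (a : ℝ) < b + 2 := lt_of_mul_lt_mul_left hab hs.le
    have h6 : a < b + 2 := by exact_mod_cast h5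
    omega
  have b1 := key q.1 q'.1 (by linarith [a1.2])
  have b2 := key q'.1 q.1 (by linarith [a1.1])
  have b3 := key q.2 q'.2 (by linarith [a2.2])
  have b4 := key q'.2 q.2 (by linarith [a2.1])
  unfold N8
  rw [abs_le, abs_le]
  omega

theorem nat_z4 {i : ℕ} (hi : i < 4) : ∃ k : ZMod 4, k.val = i :=
  ⟨(i : ZMod 4), ZMod.val_cast_of_lt hi⟩

theorem qd_succ (k : ZMod 4) : qd (k + 1) = qd k * Complex.I := by
  rcases z4 k with rfl | rfl | rfl | rfl
  · rw [show (0 : ZMod 4) + 1 = 1 from rfl, qd0, qd1, one_mul]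
  · rw [show (1 : ZMod 4) + 1 = 2 from rfl, qd1, qd2, Complex.I_mul_I]
  · rw [show (2 : ZMod 4) + 1 = 3 from rfl, qd2, qd3]; ring
  · rw [show (3 : ZMod 4) + 1 = 0 from rfl, qd3, qd0, neg_mul, Complex.I_mul_I, neg_neg]

theorem qd_exp (k : ℤ) : qd (k : ZMod 4) = Complex.exp (((k * (Real.pi / 2) : ℝ) : ℂ) * Complex.I) := by
  have hI : Complex.exp ((((1 : ℝ) * (Real.pi / 2) : ℝ) : ℂ) * Complex.I) = Complex.I := by
    rw [one_mul, Complex.exp_mul_I]
    rw [← Complex.ofReal_cos, ← Complex.ofReal_sin, Real.cos_pi_div_two, Real.sin_pi_div_two]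
    simp
  have hstep : ∀ x : ℝ, Complex.exp ((((x + 1) * (Real.pi / 2) : ℝ) : ℂ) * Complex.I) =
      Complex.exp (((x * (Real.pi / 2) : ℝ) : ℂ) * Complex.I) * Complex.I := by
    intro x
    have e : (((x + 1) * (Real.pi / 2) : ℝ) : ℂ) * Complex.I =
        ((x * (Real.pi / 2) : ℝ) : ℂ) * Complex.I +
          (((1 : ℝ) * (Real.pi / 2) : ℝ) : ℂ) * Complex.I := by push_cast; ring
    rw [e, Complex.exp_add, hI]
  induction k using Int.induction_on with
  | zero => simp [qd0]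
  | succ i ih =>
    push_cast at ih ⊢
    rw [qd_succ, ih]
    have := hstep i
    push_cast at this
    rw [this]
  | pred i ih =>
    have h1 := hstep ((-(i : ℝ) - 1))
    have h2 := qd_succ (((-(i : ℤ) - 1 : ℤ)) : ZMod 4)
    have e1 : (((-(i : ℤ) - 1 : ℤ)) : ZMod 4) + 1 = ((-(i : ℤ) : ℤ) : ZMod 4) := by push_cast; ring
    rw [e1, ih] at h2
    have e2 : (-(i : ℝ) - 1 + 1) = ((-(i : ℤ) : ℤ) : ℝ) := by push_cast; ring
    rw [e2] at h1
    rw [h1] at h2
    have h3 := mul_right_cancel₀ Complex.I_ne_zero h2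
    rw [← h3]
    push_cast
    rfl

section

variable {F : Set V} {L : ℕ} {v : ℕ → V} {m : ℕ → ℕ} {c : V} {M : ℤ} {U : ℕ → ℕ → V} {s : ℝ}

theorem not_box {hs : 0 < s} (hM : 0 < M) {z : ℂ} {q : V} (hq : z ∈ sq s q)
    (h : Lr s M / 4 < ‖z - cen s c‖) : q ∉ Box c (M + 1) := by
  intro hb
  have h1 := norm_box hs hb hq
  have hMr : (1 : ℝ) ≤ M := by exact_mod_cast hM
  push_cast at h1
  unfold Lr at h
  nlinarith

/-- the body in the far region, in frames -/
theorem CellDom.far_body (D : CellDom F L v m c M U) {q : V} (hq : q ∈ body F U 4)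
    (hfar : q ∉ Box c M) : ∃ k : ZMod 4, M < ga c k q ∧ ga c (k + 1) q = 0 := by
  obtain ⟨i, hi, r, hr, he⟩ := D.cfg.far hq (by
    unfold Box at hfar
    rw [mem_ofPred_eq, not_and_or, not_le, not_le] at hfar
    exact hfar)
  obtain ⟨k, rfl⟩ := nat_z4 hi
  have h1 : q = fp c k.val r 0 := by
    rw [he]; unfold fp; simp
  obtain ⟨g1, g2⟩ := ga_fp c k r 0
  rw [← h1] at g1 g2
  exact ⟨k, by rw [g1]; exact hr, g2⟩

/-- a point all of whose cells are free is in one of the open sets -/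
theorem CellDom.mem_some_Om (D : CellDom F L v m c M U) (hs : 0 < s) {z : ℂ}
    (h : ∀ q, z ∈ sq s q → q ∉ body F U 4) : ∃ i, z ∈ Om s (cl F v m U i) := by
  obtain ⟨i, hi⟩ := D.cov _ (h _ (mem_cellOf hs z))
  refine ⟨i, (mem_om hs).2 fun q hq => D.cl_near hi (h q hq) ?_⟩
  exact near_N8 hs (mem_cellOf hs z) hq (by rw [dist_self]; exact hs)

theorem Cn_iff (hs : 0 < s) (hM : 0 < M) {z : ℂ} (hz : Lr s M / 2 < ‖z - cen s c‖) (k : ZMod 4) :
    (∃ t : ℝ, 0 ≤ t ∧ ‖z - (cen s c + t * qd k)‖ ≤ s / Lr s M * ‖z - cen s c‖) ↔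
      z ∈ Cn s c M k := by
  have hL := Lr_pos hs hM
  rw [cone_iff k (e_pos hs hM).le ((e_le hs hM).trans_lt (by norm_num)) (by linarith)]
  exact ⟨fun h => ⟨hz.le, h.1, h.2⟩, fun h => ⟨h.2.1, h.2.2⟩⟩

/-- far points not in the regions -/
theorem CellDom.far_cone (D : CellDom F L v m c M U) (hs : 0 < s) {z : ℂ}
    (hz : Lr s M / 2 < ‖z - cen s c‖) (h : ∀ i, z ∉ Rg s F v m c M U i) :
    ∃ k, z ∈ Cn s c M k := by
  have hM := D.cfg.M_pos
  have hL := Lr_pos hs hM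
  by_contra hcon
  have h1 : ∀ i, z ∉ Om s (cl F v m U i) := by
    intro i hi
    exact h i ⟨hi, by rw [mem_iUnion]; exact hcon⟩
  have h2 : ∃ q, z ∈ sq s q ∧ q ∈ body F U 4 := by
    by_contra h3
    push Not at h3
    obtain ⟨i, hi⟩ := D.mem_some_Om hs h3
    exact h1 i hi
  obtain ⟨q, hq, hqb⟩ := h2
  have h4 : q ∉ Box c (M + 1) := not_box (hs := hs) hM hq (by linarith)
  obtain ⟨k, hk1, hk2⟩ := D.far_body hqb (fun h => h4 ⟨h.1.trans (by omega), h.2.trans (by omega)⟩)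
  refine hcon ⟨k, hz.le, ?_, ?_⟩
  · have := (sq_fa (c := c) k hq).1
    have hk : (M : ℝ) < ga c k q := by exact_mod_cast hk1
    have hMr : (1 : ℝ) ≤ M := by exact_mod_cast hM
    nlinarith
  · have h5 := sq_fa (c := c) (k + 1) hq
    rw [hk2] at h5
    have h6 : s / 2 ≤ s / Lr s M * ‖z - cen s c‖ := by
      calc s / 2 = s / Lr s M * (Lr s M / 2) := by have := hL.ne'; field_simp
        _ ≤ _ := mul_le_mul_of_nonneg_left hz.le (e_pos hs hM).le
    rw [abs_le]
    push_cast at h5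
    constructor <;> linarith [h5.1, h5.2]

theorem mk_polar (r x y : ℝ) : (⟨r * x, r * y⟩ : ℂ) = r * ((x : ℂ) + (y : ℂ) * Complex.I) := by
  apply Complex.ext <;> simp

/-- points beside the cones -/
theorem mem_Qd_polar (hs : 0 < s) (hM : 0 < M) {r x y : ℝ} (hr : Lr s M / 2 < r)
    (hx : s / Lr s M < x) (hy : s / Lr s M < y) (hxy : 1 / 2 < x ∨ 1 / 2 < y) {k : ZMod 4} {z : ℂ}
    (h1 : fa (cen s c) k z = r * x) (h2 : fa (cen s c) (k + 1) z = r * y)
    (hn : ‖z - cen s c‖ = r) : z ∈ Qd s c M k := by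
  have hL := Lr_pos hs hM
  have he := e_pos hs hM
  have h0 : s / Lr s M * (Lr s M / 2) = s / 2 := by have := hL.ne'; field_simp
  have hr0 : 0 < r := by linarith
  have hMr : (1 : ℝ) ≤ M := by exact_mod_cast hM
  have hLd : Lr s M / 2 = 8 * s * (M + 2) := by unfold Lr; ring
  have a1 : s / 2 < s / Lr s M * r := by nlinarith
  have a2 : s / Lr s M * r < r * x := by nlinarith
  have a3 : s / Lr s M * r < r * y := by nlinarith
  refine ⟨by rw [h1]; linarith, by rw [h2]; linarith, by rw [h1, hn]; exact a2,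
    by rw [h2, hn]; exact a3, ?_⟩
  rcases hxy with h | h
  · left; rw [h1]; nlinarith
  · right; rw [h2]; nlinarith

theorem CellDom.sect (D : CellDom F L v m c M U) (hs : 0 < s) (k : ZMod 4) (r : ℝ)
    (hr : Lr s M / 2 < r) : ∃ e > 0, ∀ ψ : ℝ, Real.arcsin (s / Lr s M) < ψ →
    ψ < Real.arcsin (s / Lr s M) + e →
    cen s c + r * qd k * Complex.exp (ψ * Complex.I) ∈ Rg s F v m c M U k ∧
    cen s c + r * qd k * Complex.exp (-(ψ * Complex.I)) ∈ Rg s F v m c M U (k - 1) := by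
  have hM := D.cfg.M_pos
  have hL := Lr_pos hs hM
  have he := e_pos hs hM
  have he' := e_le hs hM
  have hpi := Real.pi_pos
  have hr0 : 0 < r := by linarith
  have hsq : (1 : ℝ) / 2 < Real.sqrt 2 / 2 := by
    have : (1 : ℝ) < Real.sqrt 2 := by
      rw [show (1 : ℝ) = Real.sqrt 1 by simp]
      exact Real.sqrt_lt_sqrt (by norm_num) (by norm_num)
    linarith
  have ha : Real.arcsin (s / Lr s M) < Real.pi / 4 := by
    rw [Real.arcsin_lt_iff_lt_sin ⟨by linarith, by linarith⟩ ⟨by linarith, by linarith⟩,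
      Real.sin_pi_div_four]
    linarith
  have ha0 : 0 < Real.arcsin (s / Lr s M) := Real.arcsin_pos.2 he
  refine ⟨Real.pi / 4 - Real.arcsin (s / Lr s M), by linarith, fun ψ h1 h2 => ?_⟩
  have h3 : ψ < Real.pi / 4 := by linarith
  have h4 : s / Lr s M < Real.sin ψ := by
    rwa [← Real.arcsin_lt_iff_lt_sin ⟨by linarith, by linarith⟩ ⟨by linarith, by linarith⟩]
  have h5 : 1 / 2 < Real.cos ψ := by
    have := Real.cos_lt_cos_of_nonneg_of_le_pi (x := ψ) (y := Real.pi / 4) (by linarith)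
      (by linarith) h3
    rw [Real.cos_pi_div_four] at this
    linarith
  have e1 : cen s c + r * qd k * Complex.exp (ψ * Complex.I) =
      cen s c + (⟨r * Real.cos ψ, r * Real.sin ψ⟩ : ℂ) * qd k := by
    rw [Complex.exp_mul_I, ← Complex.ofReal_cos, ← Complex.ofReal_sin]
    rw [mk_polar]
    ring
  have e2 : cen s c + r * qd k * Complex.exp (-(ψ * Complex.I)) =
      cen s c + (⟨r * Real.cos ψ, -(r * Real.sin ψ)⟩ : ℂ) * qd k := by
    have e3 : -((ψ : ℂ) * Complex.I) = ((-ψ : ℝ) : ℂ) * Complex.I := by push_cast; ring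
    rw [e3, Complex.exp_mul_I, ← Complex.ofReal_cos, ← Complex.ofReal_sin, Real.cos_neg,
      Real.sin_neg]
    rw [show -(r * Real.sin ψ) = r * (-Real.sin ψ) by ring, mk_polar]
    ring
  have hcs : Real.cos ψ ^ 2 + Real.sin ψ ^ 2 = 1 := by rw [add_comm]; exact Real.sin_sq_add_cos_sq ψ
  have hnorm : ∀ y : ℝ, y ^ 2 = (r * Real.sin ψ) ^ 2 →
      ‖cen s c + (⟨r * Real.cos ψ, y⟩ : ℂ) * qd k - cen s c‖ = r := by
    intro y hy
    obtain ⟨f1, f2⟩ := fa_add (cen s c) k ⟨r * Real.cos ψ, y⟩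
    have := norm_sq (cen s c) k (cen s c + (⟨r * Real.cos ψ, y⟩ : ℂ) * qd k)
    rw [f1, f2] at this
    simp only at this
    rw [hy] at this
    have h6 : ‖cen s c + (⟨r * Real.cos ψ, y⟩ : ℂ) * qd k - cen s c‖ ^ 2 = r ^ 2 := by
      rw [this]; linear_combination r ^ 2 * hcs
    exact (pow_left_inj₀ (norm_nonneg _) hr0.le two_ne_zero).1 h6
  constructor
  · rw [e1]
    obtain ⟨f1, f2⟩ := fa_add (cen s c) k ⟨r * Real.cos ψ, r * Real.sin ψ⟩
    exact D.Qd_sub hs k (mem_Qd_polar hs hM hr (by linarith) h4 (Or.inl h5) f1 f2 (hnorm _ rfl))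
  · rw [e2]
    obtain ⟨f1, f2⟩ := fa_add (cen s c) k ⟨r * Real.cos ψ, -(r * Real.sin ψ)⟩
    refine D.Qd_sub hs (k - 1) (mem_Qd_polar hs hM hr h4 (by linarith : s / Lr s M < Real.cos ψ)
      (Or.inr h5) ?_ ?_ (hnorm _ (by ring)))
    · rw [fa_pred, f2]; simp
    · rw [sub_add_cancel, f1]

theorem CellDom.ok (D : CellDom F L v m c M U) (hs : 0 < s) : (cfgC s F v m c M U).OK s where
  Lpos := Lr_pos hs D.cfg.M_pos
  dpos := hs
  opn := fun i => Rg_open s F v m c M U i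
  con := fun i => D.Rg_conn hs i
  qn := qd_norm
  ang := by
    refine ⟨fun k => k * (Real.pi / 2), ?_, ?_, ?_⟩
    · intro a b hab
      have : (a : ℝ) < b := by exact_mod_cast hab
      have hpi := Real.pi_pos
      show (a : ℝ) * (Real.pi / 2) < b * (Real.pi / 2)
      nlinarith
    · intro k
      push_cast
      ring
    · intro k
      exact qd_exp k
  far := by
    rintro i j hij z ⟨hz, -⟩ w ⟨hw, -⟩
    by_contra hcon
    push Not at hcon
    exact hij (D.sep i j _ ((mem_om hs).1 hz _ (mem_cellOf hs z)) _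
      ((mem_om hs).1 hw _ (mem_cellOf hs w))
      (near_N8 hs (mem_cellOf hs z) (mem_cellOf hs w) (by rw [dist_eq_norm]; exact hcon)))
  tent := by
    intro z hz
    constructor
    · intro h
      obtain ⟨k, hk⟩ := D.far_cone hs hz h
      exact ⟨k, (Cn_iff hs D.cfg.M_pos hz k).2 hk⟩
    · rintro ⟨k, hk⟩ i hi
      exact hi.2 (mem_iUnion.2 ⟨k, (Cn_iff hs D.cfg.M_pos hz k).1 hk⟩)
  sect := fun k r hr => D.sect hs k r hr

end

end Crest.Agent.R143.Cdx806
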