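import Crest.Agent.R143.RB0_838

/-!
# Row 143, block X, leaf (CI): circuits in dyadic annuli (helper838)

* `CircC S z0 r β c` : `c` is a closed chain of Delaunay edges with all sites in `β`, inside the
  square annulus `r < |s - z0|_∞ < 2 r`, of total angle `2π` seen from every point of the inner
  square
* `circ_pr` : `RB` gives such a circuit with probability `≥ exp (- C (1 + C4))`, for every colouring set which
  contains the sites of the annulus
* `no_circ` : independence over disjoint annuli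
-/

set_option autoImplicit false

noncomputable section

open scoped Classical

namespace Crest.Agent.R143.CircPx838

open Crest.Agent.R143.B0x346 Crest.Agent.R143.DelGx806 Crest.Agent.R143.DelRx806
open Crest.Agent.R143.ToolWx838 Crest.Agent.R143.Blkx838 Crest.Agent.R143.ToolW2x838
open Crest.Agent.R143.ToolW3x838 Crest.Agent.R143.Circ4x838 Crest.Agent.R143.Harx315
open Crest.Agent.R143.RB0x838

variable {S V : Finset ℂ} {z0 e : ℂ} {a b r : ℝ}

/-- maximum norm -/
def sup (z : ℂ) : ℝ := max |z.re| |z.im|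

theorem sup_le_norm (z : ℂ) : sup z ≤ ‖z‖ := max_le (Complex.abs_re_le_norm z) (Complex.abs_im_le_norm z)

theorem norm_le_sup (z : ℂ) : ‖z‖ ≤ 2 * sup z := by
  have h := Complex.norm_le_abs_re_add_abs_im z
  have h1 := le_max_left |z.re| |z.im|
  have h2 := le_max_right |z.re| |z.im|
  unfold sup
  linarith

/-- circuit of sites of `β` in the square annulus `r < |s - z0|_∞ < 2 r` -/
structure CircC (S : Finset ℂ) (z0 : ℂ) (r : ℝ) (β : Finset ℂ) (c : List ℂ) : Prop where
  loop : Loop S c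
  ne : c ≠ []
  col : ∀ s ∈ c, s ∈ β
  lo : ∀ s ∈ c, r < sup (s - z0)
  up : ∀ s ∈ c, sup (s - z0) < 2 * r
  wind : ∀ z : ℂ, sup (z - z0) ≤ r → asum z c = 2 * Real.pi

theorem CircC.mono {β β' : Finset ℂ} {c : List ℂ} (h : CircC S z0 r β c) (hβ : β ⊆ β') :
    CircC S z0 r β' c := ⟨h.loop, h.ne, fun s hs => hβ (h.col s hs), h.lo, h.up, h.wind⟩

theorem cross_mono {β β' : Finset ℂ} {l : List ℂ} (h : Cross S z0 e a b β l) (hβ : β ⊆ β') :
    Cross S z0 e a b β' l := ⟨h.ne, h.adj, fun s hs => hβ (h.col s hs), h.strip, h.loc, h.left, h.right⟩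

/-- the probability of an increasing event which only uses sites of `W` is the same for every
colouring set containing `W` -/
theorem pr_transfer {A : Finset ℂ → Prop} {V V' : Finset ℂ} {c : ℝ} (hV : V ⊆ S)
    (hA : ∀ β β', β ⊆ β' → A β → A β') (hW : ∀ β, β ⊆ S → A β → A (β ∩ V'))
    (hV' : V' ⊆ S) (h : c ≤ pr V A) : c ≤ pr V' A := by
  have h1 : pr V A ≤ pr S A := by
    have hd : Dep S V (fun β => A (β ∩ V)) := by
      intro β _
      simp only [Finset.inter_assoc, Finset.inter_self]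
    have h2 := pr_dep hV hd
    have h3 : pr V (fun β => A (β ∩ V)) = pr V A := by
      apply pr_congr
      intro β hβ
      rw [Finset.inter_eq_left.2 hβ]
    rw [← h3, ← h2]
    exact pr_mono fun β _ hh => hA _ _ Finset.inter_subset_left hh
  have h4 : pr S A = pr V' A := by
    refine pr_dep hV' ?_
    intro β hβ
    exact ⟨hW β hβ, hA _ _ Finset.inter_subset_left⟩
  linarith


theorem LDns.shift {z1 : ℂ} {R R' d : ℝ} (h : LDns S z0 R d) (h1 : ‖z1 - z0‖ + R' ≤ R) :
    LDns S z1 R' d := by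
  refine ⟨h.gp, h.dpos, fun z hz => h.hole z ?_⟩
  calc ‖z - z0‖ = ‖(z - z1) + (z1 - z0)‖ := by congr 1; ring
    _ ≤ ‖z - z1‖ + ‖z1 - z0‖ := norm_add_le _ _
    _ ≤ R := by linarith

theorem LDns.mono {R R' d : ℝ} (h : LDns S z0 R d) (h1 : R' ≤ R) : LDns S z0 R' d :=
  ⟨h.gp, h.dpos, fun z hz => h.hole z (hz.trans h1)⟩

theorem up_cross (V S : Finset ℂ) (z0 e : ℂ) (a b : ℝ) : Up V (fun β => ∃ l, Cross S z0 e a b β l) :=
  fun _ _ h1 _ ⟨l, hl⟩ => ⟨l, cross_mono hl h1⟩



/-- the four rectangles -/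
def zc (z0 : ℂ) (r : ℝ) (k : Fin 4) : ℂ :=
  match k with
  | 0 => z0 + ((5 / 4 * r : ℝ) : ℂ) * Complex.I
  | 1 => z0 - ((5 / 4 * r : ℝ) : ℂ)
  | 2 => z0 - ((5 / 4 * r : ℝ) : ℂ) * Complex.I
  | 3 => z0 + ((5 / 4 * r : ℝ) : ℂ)

/-- the four directions -/
def dir (k : Fin 4) : ℂ :=
  match k with
  | 0 => 1
  | 1 => Complex.I
  | 2 => 1
  | 3 => Complex.I

/-- crossing of the rectangle `k` -/
def CE (S : Finset ℂ) (z0 : ℂ) (r : ℝ) (k : Fin 4) (β : Finset ℂ) : Prop :=
  ∃ l, Cross S (zc z0 r k) (dir k) (3 / 2 * r) (1 / 4 * r) β l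

theorem norm_dir (k : Fin 4) : ‖dir k‖ = 1 := by
  fin_cases k <;> simp [dir]

theorem norm_zc (hr : 0 < r) (k : Fin 4) : ‖zc z0 r k - z0‖ = 5 / 4 * r := by
  have h : |5 / 4 * r| = 5 / 4 * r := abs_of_pos (by positivity)
  fin_cases k <;> simp [zc, h, abs_of_pos hr]

theorem div_I_re (w : ℂ) : (w / Complex.I).re = w.im := by
  rw [div_I]; simp

theorem div_I_im (w : ℂ) : (w / Complex.I).im = -w.re := by
  rw [div_I]; simp

/-- the sites of a crossing are in the annulus -/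
theorem CE.ann (hr : 0 < r) {k : Fin 4} {β : Finset ℂ} {l : List ℂ}
    (h : Cross S (zc z0 r k) (dir k) (3 / 2 * r) (1 / 4 * r) β l) :
    ∀ s ∈ l, r < sup (s - z0) ∧ sup (s - z0) < 2 * r := by
  intro s hs
  have h1 := h.strip s hs
  have h2 := h.loc s hs
  rw [abs_lt] at h1
  rw [abs_le] at h2
  unfold sup
  rw [lt_max_iff, lt_abs, lt_abs, max_lt_iff, abs_lt, abs_lt]
  fin_cases k <;>
    simp only [zc, dir, div_one, div_I_re, div_I_im, Complex.sub_re, Complex.sub_im, Complex.add_re,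
      Complex.add_im, Complex.mul_re, Complex.mul_im, Complex.ofReal_re, Complex.ofReal_im,
      Complex.I_re, Complex.I_im, mul_zero, mul_one, zero_mul, sub_zero, add_zero, zero_add] at h1 h2 ⊢
  · refine ⟨Or.inr (Or.inl ?_), ⟨?_, ?_⟩, ⟨?_, ?_⟩⟩ <;> linarith
  · refine ⟨Or.inl (Or.inr ?_), ⟨?_, ?_⟩, ⟨?_, ?_⟩⟩ <;> linarith
  · refine ⟨Or.inr (Or.inr ?_), ⟨?_, ?_⟩, ⟨?_, ?_⟩⟩ <;> linarith
  · refine ⟨Or.inl (Or.inl ?_), ⟨?_, ?_⟩, ⟨?_, ?_⟩⟩ <;> linarith

/-- four crossings give a circuit -/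
theorem circ_of_cross (hS : GP (S : Set ℂ)) (hr : 0 < r) {β : Finset ℂ}
    (h : ∀ k, CE S z0 r k β) : ∃ c, CircC S z0 r β c := by
  obtain ⟨T, hT⟩ := h 0
  obtain ⟨L, hL⟩ := h 1
  obtain ⟨B, hB⟩ := h 2
  obtain ⟨R, hR⟩ := h 3
  have aT := CE.ann hr hT
  have aL := CE.ann hr hL
  have aB := CE.ann hr hB
  have aR := CE.ann hr hR
  have hTs := hT.strip
  have hLs := hL.strip
  have hBs := hB.strip
  have hRs := hR.strip
  have hT1 := hT.left
  have hT2 := hT.right
  have hL1 := hL.left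
  have hL2 := hL.right
  have hB1 := hB.left
  have hB2 := hB.right
  have hR1 := hR.left
  have hR2 := hR.right
  simp only [zc, dir, div_one, div_I_re, div_I_im, Complex.sub_re, Complex.sub_im, Complex.add_re,
    Complex.add_im, Complex.mul_re, Complex.mul_im, Complex.ofReal_re, Complex.ofReal_im,
    Complex.I_re, Complex.I_im, mul_zero, mul_one, zero_mul, sub_zero, add_zero, zero_add,
    abs_lt] at hTs hLs hBs hRs hT1 hT2 hL1 hL2 hB1 hB2 hR1 hR2
  obtain ⟨c, hc, hl⟩ := circuit (ρ := 3 / 2 * r) (r := r) (z0 := z0) hS (by linarith) hT.ne hL.ne hB.ne hR.ne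
    hT.adj hL.adj hB.adj hR.adj (fun s hs => ⟨by linarith [hTs s hs], by linarith [hTs s hs]⟩)
    (fun s hs => ⟨by linarith [hLs s hs], by linarith [hLs s hs]⟩)
    (fun s hs => ⟨by linarith [hBs s hs], by linarith [hBs s hs]⟩)
    (fun s hs => ⟨by linarith [hRs s hs], by linarith [hRs s hs]⟩)
    (by linarith) (by linarith) (by linarith) (by linarith) (by linarith) (by linarith)
    (by linarith) (by linarith)
  have hall : ∀ s ∈ c, s ∈ β ∧ r < sup (s - z0) ∧ sup (s - z0) < 2 * r := by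
    intro s hs
    rcases hc.mem s hs with h | h | h | h
    · exact ⟨hT.col s h, aT s h⟩
    · exact ⟨hL.col s h, aL s h⟩
    · exact ⟨hB.col s h, aB s h⟩
    · exact ⟨hR.col s h, aR s h⟩
  refine ⟨c, hl, ?_, fun s hs => (hall s hs).1, fun s hs => (hall s hs).2.1,
    fun s hs => (hall s hs).2.2, fun z hz => ?_⟩
  · rintro rfl
    have := hc.wind z0 (by simp; exact hr.le) (by simp; exact hr.le)
    simp [asum] at this
  · unfold sup at hz
    rw [max_le_iff, Complex.sub_re, Complex.sub_im] at hz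
    exact hc.wind z hz.1 hz.2

theorem mesh_shift {z1 : ℂ} {R R' C : ℝ} (h : Mesh S z0 R b C) (h1 : ‖z1 - z0‖ + R' ≤ R) :
    Mesh S z1 R' b C := by
  intro z hz
  refine h z ?_
  calc ‖z - z0‖ = ‖(z - z1) + (z1 - z0)‖ := by congr 1; ring
    _ ≤ ‖z - z1‖ + ‖z1 - z0‖ := norm_add_le _ _
    _ ≤ R := by linarith

/-- smaller balls -/
theorem mesh_small {R C k : ℝ} (h : Mesh S z0 R r C) (hb : 0 < b) (hbr : b ≤ r) (hC : 0 ≤ C)
    (hr : r ≤ k * b) : Mesh S z0 R b (C * k ^ 2) := by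
  intro z hz
  refine le_trans (Finset.sum_le_sum_of_subset_of_nonneg ?_ fun t _ _ => sq_nonneg _) ((h z hz).trans ?_)
  · intro t ht
    rw [Finset.mem_filter] at ht ⊢
    exact ⟨ht.1, ht.2.mono (Set.inter_subset_inter_right _ (Metric.closedBall_subset_closedBall hbr))⟩
  · have h1 : r ^ 2 ≤ (k * b) ^ 2 := pow_le_pow_left₀ (hb.le.trans hbr) hr 2
    nlinarith

/-- four crossings with probability `≥ p` give a circuit with probability `≥ p ^ 4` -/
theorem circ_ge (hS : GP (S : Set ℂ)) (hr : 0 < r) {p : ℝ} (hp : 0 ≤ p)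
    (h : ∀ k, p ≤ pr V (fun β => CE S z0 r k β)) : p ^ 4 ≤ pr V (fun β => ∃ c, CircC S z0 r β c) := by
  have h1 := harris_prod_up (V := V) (Finset.univ : Finset (Fin 4)) (A := fun k β => CE S z0 r k β)
    (fun k _ => up_cross V S _ _ _ _)
  have h2 : p ^ 4 ≤ ∏ k ∈ (Finset.univ : Finset (Fin 4)), pr V (fun β => CE S z0 r k β) := by
    have := Finset.prod_le_prod (s := (Finset.univ : Finset (Fin 4))) (f := fun _ => p)
      (g := fun k => pr V (fun β => CE S z0 r k β)) (fun _ _ => hp) (fun k _ => h k)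
    simpa using this
  refine (h2.trans h1).trans (pr_mono fun β _ hh => ?_)
  exact circ_of_cross hS hr fun k => hh k (Finset.mem_univ k)

/-- **CI, one annulus**: a circuit with probability at least `exp (- C (1 + C4))` in every colouring
set which contains the sites of the annulus `r < |s - z0|_∞ < 2 r` -/
theorem circ_pr (hRB : RB) : ∃ C c1 K : ℝ, 0 < C ∧ 0 < c1 ∧ 0 < K ∧
    ∀ (S : Finset ℂ) (z0 : ℂ) (r d C4 : ℝ), 0 < r → LDns S z0 (K * r) d → 0 ≤ C4 →
    Mesh S z0 (K * r) r C4 → d ≤ c1 * r →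
    ∀ V : Finset ℂ, V ⊆ S → (∀ s ∈ S, r < sup (s - z0) → sup (s - z0) < 2 * r → s ∈ V) →
    Real.exp (-C * (1 + C4)) ≤ pr V (fun β => ∃ c, CircC S z0 r β c) := by
  obtain ⟨C, c1, K, hC, hc1, hK, h⟩ := hRB 6 (by norm_num)
  refine ⟨64 * C, c1 / 4, 7 / 4 * K + 5 / 4, by positivity, by positivity, by positivity, ?_⟩
  intro S z0 r d C4 hr hD hC4 hM hd V hV hann
  have hk : ∀ k, Real.exp (-C * (1 + 16 * C4)) ≤ pr V (fun β => CE S z0 r k β) := by
    intro k
    have hsh : ‖zc z0 r k - z0‖ + K * (3 / 2 * r + 1 / 4 * r) ≤ (7 / 4 * K + 5 / 4) * r := by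
      rw [norm_zc hr]; nlinarith
    have hM' : Mesh S (zc z0 r k) (K * (3 / 2 * r + 1 / 4 * r)) (1 / 4 * r) (16 * C4) := by
      have := mesh_small (mesh_shift hM hsh) (b := 1 / 4 * r) (k := 4) (by positivity) (by linarith) hC4
        (by linarith)
      rw [show C4 * (4 : ℝ) ^ 2 = 16 * C4 by ring] at this
      exact this
    obtain ⟨V0, hV0, h0⟩ := h S (zc z0 r k) (dir k) (3 / 2 * r) (1 / 4 * r) d (16 * C4) (norm_dir k)
      (by positivity) (by positivity) (by linarith) (by linarith)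
      (LDns.shift hD hsh) (by positivity) hM' (by linarith)
    refine pr_transfer (S := S) hV0 (fun β β' h1 ⟨l, hl⟩ => ⟨l, cross_mono hl h1⟩) ?_ hV h0
    rintro β hβ ⟨l, hl⟩
    have ha := CE.ann hr hl
    exact ⟨l, hl.ne, hl.adj, fun s hs => Finset.mem_inter.2 ⟨hl.col s hs,
      hann s (hβ (hl.col s hs)) (ha s hs).1 (ha s hs).2⟩, hl.strip, hl.loc, hl.left, hl.right⟩
  refine le_trans ?_ (circ_ge hD.gp hr (Real.exp_pos _).le hk)
  rw [← Real.exp_nat_mul, Real.exp_le_exp]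
  push_cast
  nlinarith

/-- the sites of the annulus -/
def ann (V : Finset ℂ) (z0 : ℂ) (r : ℝ) : Finset ℂ :=
  V.filter fun s => r < sup (s - z0) ∧ sup (s - z0) < 2 * r


/-- white circuits have the same probability -/
theorem pr_white (V S : Finset ℂ) (z0 : ℂ) (r : ℝ) :
    pr V (fun β => ∃ c, CircC S z0 r (V \ β) c) = pr V (fun β => ∃ c, CircC S z0 r β c) :=
  pr_flip V (fun β => ∃ c, CircC S z0 r β c)



/-- **outside the annulus the circuit is not seen** -/
theorem CircC.out {β : Finset ℂ} {c : List ℂ} (h : CircC S z0 r β c) {z : ℂ}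
    (hz : 2 * r ≤ sup (z - z0)) : asum z c = 0 := by
  have hcl := h.loop.closed
  have hup : ∀ s ∈ c, |s.re - z0.re| < 2 * r ∧ |s.im - z0.im| < 2 * r := by
    intro s hs
    have h1 := h.up s hs
    unfold sup at h1
    rw [max_lt_iff, Complex.sub_re, Complex.sub_im] at h1
    exact h1
  unfold sup at hz
  rw [le_max_iff, Complex.sub_re, Complex.sub_im, le_abs, le_abs] at hz
  rcases hz with (hz | hz) | (hz | hz)
  · refine asum_half_closed (u := -1) hcl fun s hs => ?_
    have := (abs_lt.1 (hup s hs).1).2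
    rw [div_neg1]; simp; linarith
  · refine asum_half_closed (u := 1) hcl fun s hs => ?_
    have := (abs_lt.1 (hup s hs).1).1
    rw [div_one]; simp; linarith
  · refine asum_half_closed (u := -Complex.I) hcl fun s hs => ?_
    have := (abs_lt.1 (hup s hs).2).2
    rw [div_negI]; simp; linarith
  · refine asum_half_closed (u := Complex.I) hcl fun s hs => ?_
    have := (abs_lt.1 (hup s hs).2).1
    rw [div_I]; simp; linarith

end Crest.Agent.R143.CircPx838
end
private theorem rz_a0789067e7 : type_of% @_root_.Crest.Agent.R143.CircPx838.dir.eq_1 := @_root_.Crest.Agent.R143.CircPx838.dir.eq_1 -- L116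
private theorem rz_b203981f1b : type_of% @_root_.Crest.Agent.R143.CircPx838.zc.eq_1 := @_root_.Crest.Agent.R143.CircPx838.zc.eq_1 -- L108
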