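import Crest.Agent.R143.NonX_592
import Crest.Agent.R143.Frame8_395

/-!
# Row 143 (S0194): coarsening of a closed map, exact closing (helper166)

* `ClsCon M π` : the classes of `π : C → C'` are connected through live darts inside the classes
* `coarse M π hπ : CMap D C'` : same darts, `rho`, `iota`; the darts inside the classes are dead
* `isC_coarse` : configurations of the coarse map = configurations of `M` which vanish inside the
  classes
* `rel_of_coarse`, `blk_coarse_sub` : **every block of `M` is a union of blocks of the coarse map**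
* `rel_loop` : the relation to the gap `g₀` in terms of the left cells along the loop of `g₀`
* `rel_inner` : the gaps of the inner arc of the loop in the block of `g₀` are the same for `M` and
  for the coarse map (3-giant net)
* `rel_outer`, `rel_outer'` : the gaps of the outer arc in the block of `g₀`
-/

set_option autoImplicit false

noncomputable section

open scoped Classical

namespace Crest.Agent.R143.Coarsex166

open Crest.Agent.R143.Frame1x395 Crest.Agent.R143.Frame2x395 Crest.Agent.R143.Frame3x395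
  Crest.Agent.R143.Frame8x395 Crest.Agent.R143.NonXx592

variable {D C C' : Type} {M : CMap D C} {x : D → ZMod 2}

/-- adjacent through a live dart inside a class -/
def Adj (M : CMap D C) (π : C → C') (c c' : C) : Prop :=
  π c = π c' ∧ ∃ d ∈ M.live, M.cell d = c ∧ M.cell (M.rho d) = c'

/-- the classes of `π` are connected through live darts inside the classes -/
def ClsCon (M : CMap D C) (π : C → C') : Prop :=
  ∀ a b : D, π (M.cell a) = π (M.cell b) → Relation.EqvGen (Adj M π) (M.cell a) (M.cell b)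

/-- **coarsening** of a closed map -/
def coarse (M : CMap D C) (π : C → C') (hπ : ClsCon M π) : CMap D C' where
  rho := M.rho
  rho3 := M.rho3
  rho_ne := M.rho_ne
  iota := M.iota
  iota2 := M.iota2
  live := {d | d ∈ M.live ∧ π (M.cell d) ≠ π (M.cell (M.rho d))}
  iota_live := by
    rintro d ⟨h1, h2⟩
    refine ⟨M.iota_live d h1, ?_⟩
    rw [M.cell_iota d h1, cell_rho_iota M h1]
    exact h2.symm
  iota_ne := fun d h => M.iota_ne d h.1
  cell := fun d => π (M.cell d)
  cell_iota := fun d h => congrArg π (M.cell_iota d h.1)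
  dead := by
    intro d hd
    by_cases h1 : d ∈ M.live
    · by_contra h2
      exact hd ⟨h1, h2⟩
    · exact congrArg π (M.dead d h1)
  ex := by
    intro x h1 h2 h3
    obtain ⟨χ, hχ⟩ := M.ex x (fun d hd => h1 d (fun hc => hd hc.1)) h2 h3
    have h4 : ∀ c c', Relation.EqvGen (Adj M π) c c' → χ c = χ c' := by
      intro c c' H
      induction H with
      | rel c c' h =>
        obtain ⟨e, d, hd, rfl, rfl⟩ := h
        have h5 := hχ d
        rw [h1 d (fun hc => hc.2 e)] at h5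
        revert h5
        generalize χ (M.cell d) = a
        generalize χ (M.cell (M.rho d)) = b
        revert a b; decide
      | refl c => rfl
      | symm c c' _ ih => exact ih.symm
      | trans c c' c'' _ _ ih1 ih2 => exact ih1.trans ih2
    refine ⟨fun c' => if h : ∃ d, π (M.cell d) = c' then χ (M.cell h.choose) else 0,
      fun d => ?_⟩
    have key : ∀ d, (if h : ∃ e, π (M.cell e) = π (M.cell d) then χ (M.cell h.choose) else 0) =
        χ (M.cell d) := by
      intro d
      have hd : ∃ e, π (M.cell e) = π (M.cell d) := ⟨d, rfl⟩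
      rw [dif_pos hd]
      exact h4 _ _ (hπ _ _ hd.choose_spec)
    show x d = (if h : ∃ e, π (M.cell e) = π (M.cell d) then χ (M.cell h.choose) else 0) +
      (if h : ∃ e, π (M.cell e) = π (M.cell (M.rho d)) then χ (M.cell h.choose) else 0)
    rw [key, key, hχ]

variable {π : C → C'} {hπ : ClsCon M π}

theorem coarse_live {d : D} : d ∈ (coarse M π hπ).live ↔
    d ∈ M.live ∧ π (M.cell d) ≠ π (M.cell (M.rho d)) := Iff.rfl

/-- configurations of the coarse map -/
theorem isC_coarse {O : Set D} : IsC (coarse M π hπ) O x ↔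
    IsC M O x ∧ ∀ d ∈ M.live, π (M.cell d) = π (M.cell (M.rho d)) → x d = 0 := by
  constructor
  · intro h
    exact ⟨⟨fun d hd => h.dead d (fun hc => hd hc.1), h.iot, h.par⟩,
      fun d _ e => h.dead d (fun hc => hc.2 e)⟩
  · rintro ⟨h1, h2⟩
    refine ⟨fun d hd => ?_, h1.iot, h1.par⟩
    by_cases hl : d ∈ M.live
    · refine h2 d hl ?_
      by_contra hc
      exact hd ⟨hl, hc⟩
    · exact h1.dead d hl

theorem IsC.of_coarse {O : Set D} (h : IsC (coarse M π hπ) O x) : IsC M O x :=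
  (isC_coarse.1 h).1

/-- configurations of colourings which are constant on the classes -/
theorem cfg_coarse (χ : C' → ZMod 2) :
    cfg (coarse M π hπ) χ = cfg M (fun c => χ (π c)) := rfl






theorem Av.of_coarse {c : C} {p q : D} (h : Av (coarse M π hπ) x (π c) p q) : Av M x c p q := by
  obtain ⟨n, h1, h2⟩ := h
  exact ⟨n, h1, fun k hk e => h2 k hk (congrArg π e)⟩

/-- **related in the coarse map ⟹ related** -/
theorem rel_of_coarse {g h : D} (H : Rel (coarse M π hπ) x g h) : Rel M x g h := by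
  intro c
  rcases H (π c) with h1 | h1 | h1
  · exact Or.inl h1
  · exact Or.inr (Or.inl (Av.of_coarse h1))
  · exact Or.inr (Or.inr (Av.of_coarse h1))

theorem blk_coarse_sub [Fintype D] {g : D} : blk (coarse M π hπ) x g ⊆ blk M x g := by
  intro h hh
  rw [mem_blk] at hh ⊢
  exact ⟨hh.1, rel_of_coarse hh.2⟩


/-! ### the block of one gap along its loop -/

/-- The loop of the gap `g₀`: `P 0 = out g₀`, ..., `P (N - 1) = rho g₀`. A gap `h` is visited at
time `b` if `rho h = P b`. -/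
theorem rel_loop (hx : IsC M ∅ x) {g₀ : D} (hg₀ : Gp M x g₀) {N : ℕ}
    (hN : P M x (out M g₀) N = out M g₀)
    (hinj : ∀ a b, a < b → b < N → P M x (out M g₀) a ≠ P M x (out M g₀) b)
    (hlast : M.rho g₀ = P M x (out M g₀) (N - 1)) {b : ℕ} (hb : b + 1 < N) {h : D}
    (hh : Gp M x h) (hhb : M.rho h = P M x (out M g₀) b) :
    Rel M x g₀ h ↔ ∀ u, u ≤ b → ∀ v, b < v → v < N →
      M.cell (P M x (out M g₀) u) ≠ M.cell (P M x (out M g₀) v) := by
  have hne : g₀ ≠ h := by
    rintro rfl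
    exact hinj b (N - 1) (by omega) (by omega) (hhb.symm.trans hlast)
  have f1 : ∀ c, Av M x c (out M h) (M.rho g₀) ↔
      ∀ u, b < u → u ≤ N - 1 → M.cell (P M x (out M g₀) u) ≠ c := fun c =>
    av_fwd hx hinj (by omega) (by omega) hh hhb hlast c
  have f2 : ∀ c, Av M x c (out M g₀) (M.rho h) ↔
      (∀ u, N - 1 < u → u < N → M.cell (P M x (out M g₀) u) ≠ c) ∧
        ∀ u, u ≤ b → M.cell (P M x (out M g₀) u) ≠ c := fun c =>
    av_bwd hx hN hinj (by omega) (by omega) hg₀ hhb hlast c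
  constructor
  · intro H u hu v hv1 hv2 e
    rcases H (M.cell (P M x (out M g₀) u)) with h1 | h1 | h1
    · exact hne h1
    · exact ((f2 _).1 h1).2 u hu rfl
    · exact (f1 _).1 h1 v hv1 (by omega) e.symm
  · intro H c
    right
    by_cases h1 : ∀ u, u ≤ b → M.cell (P M x (out M g₀) u) ≠ c
    · left
      exact (f2 c).2 ⟨fun u h2 h3 => by omega, h1⟩
    · right
      push Not at h1
      obtain ⟨u, hu, rfl⟩ := h1
      exact (f1 _).2 fun v hv1 hv2 => (H u hu v hv1 (by omega)).symm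

/-- the loop of `g₀` : period `N`, outer arc = the times `< b₁` and `≥ b₂`; the left cells of the
outer arc after (before) `g₀` are the giant `A` (`B`) -/
structure Clo (M : CMap D C) (π : C → C') (x : D → ZMod 2) (g₀ : D) (N b₁ b₂ : ℕ) (A B : C') :
    Prop where
  gp : Gp M x g₀
  per : P M x (out M g₀) N = out M g₀
  inj : ∀ a b, a < b → b < N → P M x (out M g₀) a ≠ P M x (out M g₀) b
  last : M.rho g₀ = P M x (out M g₀) (N - 1)
  pos : 0 < b₁
  le : b₁ ≤ b₂
  lt : b₂ < N
  ne : A ≠ B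
  arcA : ∀ u, u < b₁ → π (M.cell (P M x (out M g₀) u)) = A
  arcB : ∀ u, b₂ ≤ u → u < N → π (M.cell (P M x (out M g₀) u)) = B
  covA : ∀ v, b₁ ≤ v → v < b₂ → π (M.cell (P M x (out M g₀) v)) = A →
    ∃ u, u < b₁ ∧ M.cell (P M x (out M g₀) u) = M.cell (P M x (out M g₀) v)
  covB : ∀ v, b₁ ≤ v → v < b₂ → π (M.cell (P M x (out M g₀) v)) = B →
    ∃ u, b₂ ≤ u ∧ u < N ∧ M.cell (P M x (out M g₀) u) = M.cell (P M x (out M g₀) v)
  single : ∀ u v, b₁ ≤ u → u < b₂ → b₁ ≤ v → v < b₂ →
    π (M.cell (P M x (out M g₀) u)) ≠ A → π (M.cell (P M x (out M g₀) u)) ≠ B →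
    π (M.cell (P M x (out M g₀) u)) = π (M.cell (P M x (out M g₀) v)) →
    M.cell (P M x (out M g₀) u) = M.cell (P M x (out M g₀) v)




/-- the period of the loop of a gap -/
theorem exists_period [Finite D] (hx : IsC M ∅ x) {g₀ : D} (hg : Gp M x g₀) :
    ∃ N, 0 < N ∧ P M x (out M g₀) N = out M g₀ ∧
      (∀ a b, a < b → b < N → P M x (out M g₀) a ≠ P M x (out M g₀) b) ∧
      M.rho g₀ = P M x (out M g₀) (N - 1) := by
  have hex : ∃ N, 0 < N ∧ P M x (out M g₀) N = out M g₀ := periodic hx (hg.out hx)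
  refine ⟨Nat.find hex, (Nat.find_spec hex).1, (Nat.find_spec hex).2, ?_, ?_⟩
  · intro a b hab hb e
    have h1 : P M x (out M g₀) (b - a) = out M g₀ := by
      have h2 : (stp M x)^[a] (P M x (out M g₀) (b - a)) = (stp M x)^[a] (out M g₀) := by
        show _ = P M x (out M g₀) a
        rw [e]
        show P M x (P M x (out M g₀) (b - a)) a = _
        rw [← P_add]
        congr 1
        omega
      exact it_inj hx (occ_it hx (hg.out hx) _) (hg.out hx) a h2
    exact absurd (Nat.find_min' hex ⟨by omega, h1⟩) (by omega)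
  · have h1 := Nat.find_spec hex
    have h2 : stp M x (P M x (out M g₀) (Nat.find hex - 1)) = out M g₀ := by
      rw [← P_succ, Nat.sub_add_cancel h1.1, h1.2]
    exact (stp_inj hx (P_occ hx (hg.out hx) _) (Set.notMem_empty _) hg.2 (Set.notMem_empty _)
      (h2.trans (hg.stp hx).symm)).symm

/-! ### colour switching and the mean over the colours which are not explored -/

section mean

open Crest.Agent.R143.Frame4x395

variable [Fintype D]

/-- sum over the configurations with the gap `g₀` of the sum of `a` over the block of `g₀`, without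
`g₀` -/
def Wt (M : CMap D C) (g₀ : D) (a : D → ℂ) : ℂ :=
  ∑ x ∈ ev M, if Gp M x g₀ then ∑ h ∈ (blk M x g₀).erase g₀, a h else 0

theorem wt_eq (M : CMap D C) (g₀ : D) (a : D → ℂ) :
    Wt M g₀ a = ∑ h, if h ∈ Fa M g₀ then 0 else a h * (nT M g₀ h : ℂ) := by
  have e1 : ∀ x ∈ ev M, (if Gp M x g₀ then ∑ h ∈ (blk M x g₀).erase g₀, a h else 0) =
      ∑ h, if h = g₀ then 0 else
        a h * (if Gp M x g₀ ∧ Gp M x h ∧ Rel M x g₀ h then (1 : ℂ) else 0) := by
    intro x _
    by_cases hg : Gp M x g₀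
    · rw [if_pos hg]
      have e2 : (blk M x g₀).erase g₀ =
          Finset.univ.filter (fun h => h ≠ g₀ ∧ Gp M x h ∧ Rel M x g₀ h) := by
        ext h
        rw [Finset.mem_erase, mem_blk, Finset.mem_filter]
        simp
      rw [e2, Finset.sum_filter]
      refine Finset.sum_congr rfl fun h _ => ?_
      by_cases h1 : h = g₀
      · rw [if_pos h1, if_neg fun h2 => h2.1 h1]
      · rw [if_neg h1]
        by_cases h2 : Gp M x h ∧ Rel M x g₀ h
        · rw [if_pos ⟨h1, h2⟩, if_pos ⟨hg, h2⟩, mul_one]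
        · rw [if_neg fun h3 => h2 h3.2, if_neg fun h3 => h2 h3.2, mul_zero]
    · rw [if_neg hg]
      symm
      refine Finset.sum_eq_zero fun h _ => ?_
      by_cases h1 : h = g₀
      · rw [if_pos h1]
      · rw [if_neg h1, if_neg fun h3 => hg h3.1, mul_zero]
  unfold Wt
  rw [Finset.sum_congr rfl e1, Finset.sum_comm]
  refine Finset.sum_congr rfl fun h _ => ?_
  by_cases h1 : h = g₀
  · subst h1
    rw [if_pos (fa0 M h)]
    refine Finset.sum_eq_zero fun x _ => if_pos rfl
  · simp only [if_neg h1]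
    rw [← Finset.mul_sum, sum_rel]
    by_cases h2 : h ∈ Fa M g₀
    · rw [if_pos h2, nP_face h2 (Ne.symm h1), Nat.cast_zero, mul_zero]
    · rw [if_neg h2, nP_eq h2]

/-- **colour switching**: `W(i) = w⁻ⁱ W(0)` -/
theorem swt {w : ℂ} {a : D → ℂ} (ha : Spin M w a) (g₀ : D) :
    w * Wt M (M.rho g₀) a = Wt M g₀ a := by
  rw [wt_eq, wt_eq, Finset.mul_sum]
  refine Fintype.sum_equiv (rhoE M) _ _ fun h => ?_
  show w * (if h ∈ Fa M (M.rho g₀) then 0 else a h * (nT M (M.rho g₀) h : ℂ)) =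
    if M.rho h ∈ Fa M g₀ then 0 else a (M.rho h) * (nT M g₀ (M.rho h) : ℂ)
  have e1 : h ∈ Fa M (M.rho g₀) ↔ M.rho h ∈ Fa M g₀ := by rw [fa_rot, fa_inv M g₀]
  have e2 : nT M (M.rho g₀) h = nT M g₀ (M.rho h) := by
    have := nT_rot (M := M) (g := g₀) (h := M.rho h)
    rwa [M.rho3] at this
  by_cases h1 : h ∈ Fa M (M.rho g₀)
  · rw [if_pos h1, if_pos (e1.1 h1), mul_zero]
  · rw [if_neg h1, if_neg fun h2 => h1 (e1.2 h2), ha, e2]
    ring

omit [Fintype D] in
/-- global flip -/
theorem cfg_flip (M : CMap D C) (χ : C → ZMod 2) : cfg M (fun c => χ c + 1) = cfg M χ := by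
  funext d
  unfold cfg
  linear_combination z_self 1

/-- fixing the colours at the face of `g₀` -/
theorem sum_fix [Fintype C] {A : Type} [AddCommMonoid A] (M : CMap D C) (g₀ : D)
    (F : (D → ZMod 2) → A) :
    2 • (∑ χ : C → ZMod 2, if χ (M.cell g₀) = 1 ∧ χ (M.cell (M.rho g₀)) = 1 ∧
        χ (M.cell (M.rho (M.rho g₀))) = 0 then F (cfg M χ) else 0) =
      nK M • ∑ x ∈ ev M, if Gp M x g₀ then F x else 0 := by
  rw [← sum_cfg (M := M) (fun x => if Gp M x g₀ then F x else 0), two_nsmul]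
  have e1 : (∑ χ : C → ZMod 2, if χ (M.cell g₀) = 1 ∧ χ (M.cell (M.rho g₀)) = 1 ∧
        χ (M.cell (M.rho (M.rho g₀))) = 0 then F (cfg M χ) else 0) =
      ∑ χ : C → ZMod 2, if χ (M.cell g₀) = 0 ∧ χ (M.cell (M.rho g₀)) = 0 ∧
        χ (M.cell (M.rho (M.rho g₀))) = 1 then F (cfg M χ) else 0 := by
    refine Fintype.sum_equiv (Equiv.addRight (fun _ : C => (1 : ZMod 2))) _ _ fun χ => ?_
    show _ = if χ (M.cell g₀) + 1 = 0 ∧ χ (M.cell (M.rho g₀)) + 1 = 0 ∧
        χ (M.cell (M.rho (M.rho g₀))) + 1 = 1 then F (cfg M (fun c => χ c + 1)) else 0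
    rw [cfg_flip]
    have k0 : ∀ a : ZMod 2, a + 1 = 0 ↔ a = 1 := by decide
    have k1 : ∀ a : ZMod 2, a + 1 = 1 ↔ a = 0 := by decide
    simp only [k0, k1]
  conv_lhs => arg 2; rw [e1]
  rw [← Finset.sum_add_distrib]
  refine Finset.sum_congr rfl fun χ _ => ?_
  have e2 : Gp M (cfg M χ) g₀ ↔ (χ (M.cell g₀) = 1 ∧ χ (M.cell (M.rho g₀)) = 1 ∧
        χ (M.cell (M.rho (M.rho g₀))) = 0) ∨ (χ (M.cell g₀) = 0 ∧ χ (M.cell (M.rho g₀)) = 0 ∧
        χ (M.cell (M.rho (M.rho g₀))) = 1) := by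
    unfold Gp cfg
    generalize χ (M.cell g₀) = p
    generalize χ (M.cell (M.rho g₀)) = q
    generalize χ (M.cell (M.rho (M.rho g₀))) = r
    revert p q r; decide
  by_cases c1 : χ (M.cell g₀) = 1 ∧ χ (M.cell (M.rho g₀)) = 1 ∧
        χ (M.cell (M.rho (M.rho g₀))) = 0
  · have c2 : ¬ (χ (M.cell g₀) = 0 ∧ χ (M.cell (M.rho g₀)) = 0 ∧
        χ (M.cell (M.rho (M.rho g₀))) = 1) := by
      rintro ⟨c2, -⟩
      rw [c1.1] at c2
      exact absurd c2 (by decide)
    rw [if_pos c1, if_neg c2, if_pos (e2.2 (Or.inl c1)), add_zero]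
  · by_cases c2 : χ (M.cell g₀) = 0 ∧ χ (M.cell (M.rho g₀)) = 0 ∧
        χ (M.cell (M.rho (M.rho g₀))) = 1
    · rw [if_neg c1, if_pos c2, if_pos (e2.2 (Or.inr c2)), zero_add]
    · rw [if_neg c1, if_neg c2, if_neg, add_zero]
      intro h
      rcases e2.1 h with h | h
      · exact c1 h
      · exact c2 h

/-- explored cells `E`, with the colours `χ₀`; the giants `A`, `B` (colour `1`), `W` (colour `0`);
`π` is injective elsewhere -/
structure Expl (π : C → C') (E : Set C) (χ₀ : C → ZMod 2) (A B W : C') : Prop where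
  surj : Function.Surjective π
  inj : ∀ c c', c ∉ E → π c = π c' → c = c'
  gi : ∀ c ∈ E, π c = A ∨ π c = B ∨ π c = W
  A1 : ∃ c ∈ E, π c = A
  B1 : ∃ c ∈ E, π c = B
  W1 : ∃ c ∈ E, π c = W
  cA : ∀ c ∈ E, π c = A → χ₀ c = 1
  cB : ∀ c ∈ E, π c = B → χ₀ c = 1
  cW : ∀ c ∈ E, π c = W → χ₀ c = 0

theorem Expl.sum [Fintype C] [Fintype C'] {A : Type} [AddCommMonoid A] {E : Set C}
    {χ₀ : C → ZMod 2} {a b u : C'} (H : Expl π E χ₀ a b u) (F : (C → ZMod 2) → A) :
    (∑ χ : C → ZMod 2, if ∀ c ∈ E, χ c = χ₀ c then F χ else 0) =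
      ∑ χ : C' → ZMod 2, if χ a = 1 ∧ χ b = 1 ∧ χ u = 0 then F (fun c => χ (π c)) else 0 := by
  rw [← Finset.sum_filter, ← Finset.sum_filter]
  symm
  refine Finset.sum_bij (fun χ _ => fun c => χ (π c)) ?_ ?_ ?_ ?_
  · intro χ hχ
    obtain ⟨h1, h2, h3⟩ := (Finset.mem_filter.1 hχ).2
    refine Finset.mem_filter.2 ⟨Finset.mem_univ _, fun c hc => ?_⟩
    show χ (π c) = χ₀ c
    rcases H.gi c hc with e | e | e
    · rw [H.cA c hc e, e, h1]
    · rw [H.cB c hc e, e, h2]
    · rw [H.cW c hc e, e, h3]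
  · intro χ _ χ' _ e
    funext c'
    obtain ⟨c, rfl⟩ := H.surj c'
    exact congrFun e c
  · intro χ hχ
    have h0 := (Finset.mem_filter.1 hχ).2
    have key : ∀ c c', π c = π c' → χ c = χ c' := by
      intro c c' e
      by_cases hc : c ∈ E
      · by_cases hc' : c' ∈ E
        · rw [h0 c hc, h0 c' hc']
          rcases H.gi c hc with e1 | e1 | e1
          · rw [H.cA c hc e1, H.cA c' hc' (e ▸ e1)]
          · rw [H.cB c hc e1, H.cB c' hc' (e ▸ e1)]
          · rw [H.cW c hc e1, H.cW c' hc' (e ▸ e1)]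
        · rw [H.inj c' c hc' e.symm]
      · rw [H.inj c c' hc e]
    have h5 : ∀ c, χ ((Function.surjInv H.surj (π c))) = χ c := fun c =>
      key _ _ (Function.surjInv_eq H.surj (π c))
    refine ⟨fun c' => χ (Function.surjInv H.surj c'), ?_, funext h5⟩
    refine Finset.mem_filter.2 ⟨Finset.mem_univ _, ?_, ?_, ?_⟩
    · obtain ⟨c, hc, rfl⟩ := H.A1
      show χ (Function.surjInv H.surj (π c)) = 1
      rw [h5, h0 c hc, H.cA c hc rfl]
    · obtain ⟨c, hc, rfl⟩ := H.B1
      show χ (Function.surjInv H.surj (π c)) = 1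
      rw [h5, h0 c hc, H.cB c hc rfl]
    · obtain ⟨c, hc, rfl⟩ := H.W1
      show χ (Function.surjInv H.surj (π c)) = 0
      rw [h5, h0 c hc, H.cW c hc rfl]
  · intro χ _
    rfl

/-- **mean over the colours which are not explored** of the coarse block sum, `A`, `B`, `W` = the
three giants at the face of `g₀` -/
theorem Expl.mean [Fintype C] [Fintype C'] {E : Set C} {χ₀ : C → ZMod 2} {g₀ : D}
    (H : Expl π E χ₀ (π (M.cell g₀)) (π (M.cell (M.rho g₀))) (π (M.cell (M.rho (M.rho g₀)))))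
    (a : D → ℂ) :
    2 * (∑ χ : C → ZMod 2, if ∀ c ∈ E, χ c = χ₀ c then
        ∑ h ∈ (blk (coarse M π hπ) (cfg M χ) g₀).erase g₀, a h else 0) =
      nK (coarse M π hπ) * Wt (coarse M π hπ) g₀ a := by
  rw [H.sum (fun χ => ∑ h ∈ (blk (coarse M π hπ) (cfg M χ) g₀).erase g₀, a h)]
  have h1 := sum_fix (coarse M π hπ) g₀
    (fun x => ∑ h ∈ (blk (coarse M π hπ) x g₀).erase g₀, a h)
  rw [nsmul_eq_mul, nsmul_eq_mul] at h1
  push_cast at h1
  exact h1

/-- number of the colourings -/
theorem Expl.card [Fintype C] [Fintype C'] {E : Set C} {χ₀ : C → ZMod 2} {g₀ : D}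
    (H : Expl π E χ₀ (π (M.cell g₀)) (π (M.cell (M.rho g₀))) (π (M.cell (M.rho (M.rho g₀))))) :
    2 * (Finset.univ.filter fun χ : C → ZMod 2 => ∀ c ∈ E, χ c = χ₀ c).card =
      nK (coarse M π hπ) * nG (coarse M π hπ) g₀ := by
  have h1 := sum_fix (A := ℕ) (coarse M π hπ) g₀ (fun _ => 1)
  have h2 := H.sum (A := ℕ) (fun _ => 1)
  rw [← Finset.sum_filter, Finset.sum_const, smul_eq_mul, mul_one] at h2
  rw [h2]
  rw [smul_eq_mul, smul_eq_mul] at h1
  refine h1.trans ?_
  congr 1
  rw [← Finset.sum_filter, Finset.sum_const, smul_eq_mul, mul_one]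
  unfold nG ev
  rw [Finset.filter_filter]

end mean

end Crest.Agent.R143.Coarsex166
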