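import Crest.Agent.R143.Loc_922
import Crest.Agent.R143.G6V_408
import Crest.Agent.R143.JCol_54

/-!
# Row 143 (S0194), block G6: Voronoi half (helper723)

* (W1) `inter_cell`, `Tri.centre_mem`, `adj_iff` : two cells meet iff Delaunay edge
* (W2) `Env.adj_of_cells`, `sites_chain` : official chains of cells are chains of sites of
  `D.sites` with Delaunay steps
* (W3) `room_cell`, `room_live`, `room_inner` : near a set far from the outside everything is alive
* (W4) `cells_chain` : a chain of Delaunay neighbours is a chain of official cells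
* (W5) `class_conn` : the sites whose cells meet a connected part of the outside are connected by
  killed edges
-/

set_option autoImplicit false

noncomputable section

open scoped Classical

namespace Crest.Agent.R143.G6Wx723

open Crest.ProbabilityR.Voronoi Crest.Agent.R143.B0x346 Crest.Agent.R143.B0Dx346
  Crest.Agent.R143.DelGx806 Crest.Agent.R143.DelRx806 Crest.Agent.R143.JColx54
  Crest.Agent.R143.G6Tx408 Crest.Agent.R143.G6Vx408

variable {S : Finset ℂ} {a b c o z v w : ℂ} {d : ℝ}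

/-! ### (W1) cells and Delaunay edges -/

/-- the intersection of two cells is the Voronoi edge -/
theorem inter_cell {T : Set ℂ} (ha : a ∈ T) (hb : b ∈ T) :
    voronoiCell T a ∩ voronoiCell T b = vedge T a b := by
  ext z
  constructor
  · rintro ⟨h1, h2⟩
    exact ⟨le_antisymm (h1 b hb) (h2 a ha), h1⟩
  · rintro ⟨h1, h2⟩
    exact ⟨h2, fun s hs => h1 ▸ h2 s hs⟩

theorem vedge_sub_cell {T : Set ℂ} : vedge T a b ⊆ voronoiCell T a := fun _ h => h.2

theorem vedge_sub_cell' {T : Set ℂ} : vedge T a b ⊆ voronoiCell T b := fun _ h s hs =>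
  h.1 ▸ h.2 s hs

/-- a point is in the cell of a vertex iff the disc is empty -/
theorem mem_cell_pw : z ∈ voronoiCell (S : Set ℂ) a ↔ ∀ s ∈ S, 0 ≤ pw z a s := by
  constructor
  · intro h s hs
    have := h s hs
    rw [← norm_le_iff, norm_sub_rev a z, norm_sub_rev s z]
    exact this
  · intro h s hs
    have := norm_le_iff.2 (h s hs)
    rw [norm_sub_rev a z, norm_sub_rev s z] at this
    exact this

/-- **the circumcentre of a Delaunay triangle is in the three cells** -/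
theorem centre_mem (h : Tri S a b c o) : o ∈ voronoiCell (S : Set ℂ) a ∧
    o ∈ voronoiCell (S : Set ℂ) b ∧ o ∈ voronoiCell (S : Set ℂ) c := by
  refine ⟨mem_cell_pw.2 h.emp, mem_cell_pw.2 fun s hs => ?_, mem_cell_pw.2 fun s hs => ?_⟩
  · rw [pw_base h.pb]; exact h.emp s hs
  · rw [pw_base h.pc]; exact h.emp s hs

theorem centre_vedge (h : Tri S a b c o) : o ∈ vedge (S : Set ℂ) a b := by
  rw [← inter_cell (Finset.mem_coe.2 h.ma) (Finset.mem_coe.2 h.mb)]
  exact ⟨(centre_mem h).1, (centre_mem h).2.1⟩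

/-- a Delaunay edge has a nonempty Voronoi edge -/
theorem vedge_nonempty (h : Adj S a b) : (vedge (S : Set ℂ) a b).Nonempty := by
  rcases h with ⟨c, h⟩ | ⟨c, h⟩
  · obtain ⟨o, h⟩ := mem_delT_iff.1 h
    exact ⟨o, centre_vedge h⟩
  · obtain ⟨o, h⟩ := mem_delT_iff.1 h
    refine ⟨o, ?_⟩
    rw [Locx922.vedge_symm]
    exact centre_vedge h

/-- **two cells meet iff there is a Delaunay edge** -/
theorem adj_iff (hS : GP (S : Set ℂ)) (h3 : 3 ≤ S.card) (ha : a ∈ S) (hb : b ∈ S) (hab : a ≠ b) :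
    Adj S a b ↔ (voronoiCell (S : Set ℂ) a ∩ voronoiCell (S : Set ℂ) b).Nonempty := by
  rw [inter_cell (Finset.mem_coe.2 ha) (Finset.mem_coe.2 hb)]
  exact ⟨vedge_nonempty, fun ⟨z, hz⟩ => vedge_del hS h3 ha hb hab hz⟩

theorem adj_of_mem (hS : GP (S : Set ℂ)) (h3 : 3 ≤ S.card) (ha : a ∈ S) (hb : b ∈ S) (hab : a ≠ b)
    (h1 : z ∈ voronoiCell (S : Set ℂ) a) (h2 : z ∈ voronoiCell (S : Set ℂ) b) : Adj S a b :=
  (adj_iff hS h3 ha hb hab).2 ⟨z, h1, h2⟩

/-- every point is in a cell -/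
theorem exists_cell (hS : S.Nonempty) (z : ℂ) : ∃ v ∈ S, z ∈ voronoiCell (S : Set ℂ) v := by
  obtain ⟨v, hv, h⟩ := S.exists_min_image (fun s => ‖z - s‖) hS
  exact ⟨v, hv, fun s hs => h s hs⟩

/-! ### (W5) connectedness by killed edges -/

/-- **a connected set gives a chain of cells; the Voronoi edges of the chain meet the set** -/
theorem chain_of_conn_fin (hS : GP (S : Set ℂ)) (h3 : 3 ≤ S.card) {C : Set ℂ}
    (hC : IsPreconnected C) (ha : a ∈ S) (hb : b ∈ S)
    (h1 : (C ∩ voronoiCell (S : Set ℂ) a).Nonempty) (h2 : (C ∩ voronoiCell (S : Set ℂ) b).Nonempty) :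
    Relation.ReflTransGen (fun u v => Adj S u v ∧ (vedge (S : Set ℂ) u v ∩ C).Nonempty) a b := by
  have hne : S.Nonempty := ⟨a, ha⟩
  have h4 := chain_of_cover (s := (S : Set ℂ)) S.finite_toSet (F := voronoiCell (S : Set ℂ))
    (fun i _ => isClosed_cell _ _) hC (fun z _ => by
      obtain ⟨v, hv, hz⟩ := exists_cell hne z
      exact Set.mem_biUnion (Finset.mem_coe.2 hv) hz) (Finset.mem_coe.2 ha) (Finset.mem_coe.2 hb)
    h1 h2
  clear h2
  induction h4 with
  | refl => exact .refl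
  | @tail u v _ h5 ih =>
    obtain ⟨hu, hv, z, ⟨hzu, hzv⟩, hzC⟩ := h5
    have ih' := ih (Finset.mem_coe.1 hu)
    by_cases huv : u = v
    · rwa [← huv]
    · refine ih'.tail ⟨adj_of_mem hS h3 (Finset.mem_coe.1 hu) (Finset.mem_coe.1 hv) huv hzu hzv,
        z, ?_, hzC⟩
      rw [← inter_cell hu hv]
      exact ⟨hzu, hzv⟩


/-! ### (W2) official cells and sites of the disc -/

section Disc

variable {ε M : ℝ} {ω : Sample} {D : Dom}

theorem card_sites (hd : 0 < d) (hdL : 2 * d ≤ D.L) (h : Env ε d M D.c D.L ω) :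
    3 ≤ (D.sites ε ω).card :=
  Locx922.three_le hd (Locx922.Env.hol_sites h) (w := D.c)
    (by rw [Metric.mem_closedBall, dist_self]; linarith)

/-- **(W2)** -/
theorem adj_of_cells (hd : 0 < d) (hdL : 2 * d ≤ D.L) (h : Env ε d M D.c D.L ω)
    (hz : z ∈ Metric.closedBall D.c (D.L - d)) (ha : a ∈ points ε ω) (hb : b ∈ points ε ω)
    (h1 : z ∈ voronoiCell (points ε ω) a) (h2 : z ∈ voronoiCell (points ε ω) b) :
    a ∈ D.sites ε ω ∧ b ∈ D.sites ε ω ∧ z ∈ vedge (D.sites ε ω : Set ℂ) a b ∧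
      (a = b ∨ Adj (D.sites ε ω) a b) := by
  obtain ⟨ha1, ha2⟩ := (Locx922.Env.mem_cell h hz).2 ⟨ha, h1⟩
  obtain ⟨hb1, hb2⟩ := (Locx922.Env.mem_cell h hz).2 ⟨hb, h2⟩
  refine ⟨ha1, hb1, ?_, ?_⟩
  · rw [← inter_cell (Finset.mem_coe.2 ha1) (Finset.mem_coe.2 hb1)]
    exact ⟨ha2, hb2⟩
  · by_cases hab : a = b
    · exact Or.inl hab
    · exact Or.inr (adj_of_mem (Locx922.Env.gp_sites h) (card_sites hd hdL h) ha1 hb1 hab ha2 hb2)

/-- **(W2) official chains of black cells in `K` are chains of black sites of the disc with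
Delaunay steps, the Voronoi edges of the steps meet `K`** -/
theorem sites_chain (hd : 0 < d) (hdL : 2 * d ≤ D.L) (h : Env ε d M D.c D.L ω) {K : Set ℂ}
    (hK : K ⊆ Metric.closedBall D.c (D.L - d)) (hc : BChain ε ω K v w) :
    Relation.ReflTransGen (fun a b => a ∈ blk ε ω ∧ b ∈ blk ε ω ∧ Adj (D.sites ε ω) a b ∧
      (vedge (D.sites ε ω : Set ℂ) a b ∩ K).Nonempty) v w := by
  unfold BChain at hc
  induction hc with
  | refl => exact .refl
  | @tail a b _ h1 ih =>
    obtain ⟨ha, hb, z, ⟨hza, hzb⟩, hzK⟩ := h1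
    obtain ⟨-, -, h4, h5⟩ := adj_of_cells hd hdL h (hK hzK) (blk_sub _ _ ha) (blk_sub _ _ hb) hza hzb
    rcases h5 with h5 | h5
    · rwa [← h5]
    · exact ih.tail ⟨ha, hb, h5, z, h4, hzK⟩

/-- sites whose official cells meet the disc -/
theorem site_of_cell (h : Env ε d M D.c D.L ω) (hz : z ∈ Metric.closedBall D.c (D.L - d))
    (ha : a ∈ points ε ω) (h1 : z ∈ voronoiCell (points ε ω) a) :
    a ∈ D.sites ε ω ∧ z ∈ voronoiCell (D.sites ε ω : Set ℂ) a :=
  (Locx922.Env.mem_cell h hz).2 ⟨ha, h1⟩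


/-! ### (W3) room -/

/-- `K` is inside the disc and at distance at least `2 d` from the outside -/
structure Rm (D : Dom) (d : ℝ) (K : Set ℂ) : Prop where
  sub : K ⊆ Metric.closedBall D.c (D.L - 3 * d)
  far : ∀ z ∈ K, ∀ w ∈ D.out, 2 * d ≤ ‖w - z‖

theorem Rm.mono {K K' : Set ℂ} (h : Rm D d K) (hK : K' ⊆ K) : Rm D d K' :=
  ⟨hK.trans h.sub, fun z hz => h.far z (hK hz)⟩

theorem Rm.sub' {K : Set ℂ} (hd : 0 < d) (h : Rm D d K) :
    K ⊆ Metric.closedBall D.c (D.L - d) :=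
  h.sub.trans (Metric.closedBall_subset_closedBall (by linarith))

theorem Rm.near {K : Set ℂ} (h : Rm D d K) (hz : z ∈ K) (hv : ‖z - v‖ < d) :
    v ∈ Metric.closedBall D.c (D.L - 2 * d) := by
  have h1 := h.sub hz
  rw [Metric.mem_closedBall, dist_eq_norm] at h1 ⊢
  have h2 := Locx922.norm_tri v z D.c
  rw [norm_sub_rev v z] at h2
  linarith





/-! ### (W4) chains of Delaunay neighbours are chains of official cells -/

/-- **(W4)** -/
theorem cells_meet (hd : 0 < d) (h : Env ε d M D.c D.L ω)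
    (ha : a ∈ Metric.closedBall D.c (D.L - 2 * d)) (hab : Adj (D.sites ε ω) a b) :
    (voronoiCell (points ε ω) a ∩ voronoiCell (points ε ω) b).Nonempty ∧ ‖a - b‖ < 2 * d := by
  obtain ⟨z, hz⟩ := vedge_nonempty hab
  rw [Locx922.Env.vedge_eq hd h ha] at hz
  refine ⟨⟨z, vedge_sub_cell hz, vedge_sub_cell' hz⟩, ?_⟩
  exact (Locx922.vedge_sub_ball hd (Locx922.Env.hol h) ha hz).2.2

theorem cell_bdd (hd : 0 < d) (h : Env ε d M D.c D.L ω)
    (ha : a ∈ Metric.closedBall D.c (D.L - 2 * d)) :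
    voronoiCell (points ε ω) a ⊆ Metric.ball a d ∧
      Bornology.IsBounded (voronoiCell (points ε ω) a) := by
  have h1 : voronoiCell (points ε ω) a ⊆ Metric.ball a d := fun z hz => by
    rw [Metric.mem_ball, dist_eq_norm]
    exact Locx922.cell_sub_ball hd (Locx922.Env.hol h) ha hz
  exact ⟨h1, Metric.isBounded_ball.subset h1⟩

/-- **(W4) literally the hypothesis of `cont_of_chain`, `crossing_of_chain` of `G6V_408`** -/
theorem cells_chain (hd : 0 < d) (h : Env ε d M D.c D.L ω) {T : Set ℂ}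
    (hT : T ⊆ Metric.closedBall D.c (D.L - 2 * d)) (hv : v ∈ T)
    (hc : Relation.ReflTransGen (fun a b => b ∈ T ∧ Adj (D.sites ε ω) a b) v w) :
    Relation.ReflTransGen (fun a b => b ∈ T ∧
      (voronoiCell (points ε ω) a ∩ voronoiCell (points ε ω) b).Nonempty) v w ∧ w ∈ T := by
  induction hc with
  | refl => exact ⟨.refl, hv⟩
  | @tail a b _ h1 ih =>
    exact ⟨ih.1.tail ⟨h1.1, (cells_meet hd h (hT ih.2) h1.2).1⟩, h1.1⟩

end Disc

end Crest.Agent.R143.G6Wx723
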