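import Crest.Agent.R143.Cfg_416
import Crest.Agent.R143.G6W_723
import Crest.Agent.R143.DomB_722
import Crest.Agent.R143.DomE_722

-- ▼ part R143/D4U_408
section

/-!
# Row 143 (S0194), block D: `D4UP` (helper408)

* `cls_of_near` : a site whose cell meets a set `K` well inside the disc and far from the region
  `R j` is not in the class `j`
* `d4up : D4UP` : the official crossing implies the network crossing
-/

set_option autoImplicit false

noncomputable section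

open scoped Classical

namespace Crest.Agent.R143.D4Ux408

open Crest.ProbabilityR.Voronoi MeasureTheory
open Crest.Agent.R143.B0x346 Crest.Agent.R143.B0Dx346 Crest.Agent.R143.Cfgx416
  Crest.Agent.R143.G6Vx408

variable {n : ℕ} {C : Cfg n} {δ ε d M κ : ℝ} {ω : Sample}

/-- the Delaunay edges of `Cfg_416` and of `JCol_54` -/
theorem adj_iff {S : Finset ℂ} {a b : ℂ} : Adj S a b ↔ JColx54.Adj S a b :=
  ⟨fun ⟨c, h⟩ => h.elim (fun h => Or.inl ⟨c, h⟩) fun h => Or.inr ⟨c, h⟩,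
    fun h => h.elim (fun ⟨c, h⟩ => ⟨c, Or.inl h⟩) fun ⟨c, h⟩ => ⟨c, Or.inr h⟩⟩

theorem env_pos (hL : 0 < C.L) (hdL : 8 * d ≤ C.L) (hE : Env ε d M C.c C.L ω) : 0 < d :=
  (DomAx722.dns_of_env (D := C.dom) hL hdL hE).dpos

/-- the ray edges exist -/
theorem ray_spec (hC : C.OK δ) (hdL : 8 * d ≤ C.L) (hE : Env ε d M C.c C.L ω) (k : ZMod n) :
    crossRay (C.dom.sites ε ω) C.c (C.q k) (C.ray (C.dom.sites ε ω) k) :=
  DomAx722.rayMark_spec
    (DomAx722.crossRay_exists (DomAx722.dns_of_env (D := C.dom) hC.Lpos hdL hE) (hC.qn k))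

/-- a site well inside the disc is in no hull arc -/
theorem not_harc (hC : C.OK δ) (hdL : 8 * d ≤ C.L) (hE : Env ε d M C.c C.L ω) {v : ℂ}
    (hv : v ∈ Metric.closedBall C.c (C.L - 2 * d)) (j : ZMod n) :
    v ∉ C.harc (C.dom.sites ε ω) j := by
  intro h
  have hd := env_pos hC.Lpos hdL hE
  have hn := Locx922.not_hull hd (Locx922.Env.hol_sites (D := C.dom) hE) (a := v) hv
  have h' : Relation.ReflTransGen (fun a b => hullE (C.dom.sites ε ω) a b ∧
    ∀ k, C.ray (C.dom.sites ε ω) k ≠ (a, b)) (C.ray (C.dom.sites ε ω) j).2 v := h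
  rcases Relation.ReflTransGen.cases_tail h' with h1 | ⟨a, -, h1⟩
  · refine (hn (C.ray (C.dom.sites ε ω) j).1).2 ?_
    have h2 := (ray_spec hC hdL hE j).1
    rwa [← h1] at h2
  · exact (hn a).2 h1.1

/-- a site whose cell meets `z` well inside the disc, `z` far from `R j` -/
theorem not_cls (hC : C.OK δ) (hdL : 8 * d ≤ C.L) (hE : Env ε d M C.c C.L ω) {v z : ℂ}
    (hz : z ∈ Metric.closedBall C.c (C.L - 3 * d))
    (hzv : z ∈ voronoiCell (C.dom.sites ε ω : Set ℂ) v) (j : ZMod n)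
    (hj : ∀ w ∈ C.R j, 2 * d ≤ dist z w) : v ∉ C.cls (C.dom.sites ε ω) j := by
  have hd := env_pos hC.Lpos hdL hE
  have hL := hC.Lpos
  have hz1 : z ∈ Metric.closedBall C.c (C.L - 2 * d) :=
    Metric.closedBall_subset_closedBall (by linarith) hz
  have hHol := Locx922.Env.hol_sites (D := C.dom) hE
  have h1 : ‖z - v‖ < d := by
    obtain ⟨s, hs, hsz⟩ := hHol z hz1 z (by rw [sub_self, norm_zero]; exact hd.le)
    exact Locx922.cell_dist ⟨s, hs, hsz⟩ hzv
  have hv : v ∈ Metric.closedBall C.c (C.L - 2 * d) := by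
    rw [Metric.mem_closedBall, dist_eq_norm] at hz ⊢
    have h2 := Locx922.norm_tri v z C.c
    rw [norm_sub_rev v z] at h2
    linarith
  rintro (⟨-, p, hp, hpR⟩ | h)
  · have h3 : ‖p - v‖ < d := Locx922.cell_sub_ball hd hHol hv hp
    have h4 := hj p hpR
    rw [dist_eq_norm] at h4
    have h5 := Locx922.norm_tri z v p
    rw [norm_sub_rev v p] at h5
    linarith
  · exact not_harc hC hdL hE hv j h

theorem mem_inn {S : Finset ℂ} {y : ℂ} (hy : y ∈ S) (h : ∀ j, y ∉ C.cls S j) :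
    y ∈ (C.inn S : Set ℂ) :=
  Finset.mem_coe.2 (Finset.mem_filter.2 ⟨hy, h⟩)

/-- **D4, upper** -/
theorem d4up : D4UP := by
  intro C δ D A₁ A₂ i κ hC hD hDb hM
  have hL := hC.Lpos
  have hκ := hM.kpos
  refine ⟨min (κ / 2) (C.L / 16), by positivity, ?_⟩
  intro ε d M ω hε hE hd hω
  have hdκ : d ≤ κ / 2 := hd.trans (min_le_left _ _)
  have hdL : d ≤ C.L / 16 := hd.trans (min_le_right _ _)
  have hd8 : 8 * d ≤ C.L := by linarith
  have hd0 : 0 < d := env_pos hL hd8 hE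
  obtain ⟨v, hv, w, hw, ⟨z1, hz1, hz1D, hz1A⟩, ⟨z2, hz2, hz2D, hz2A⟩, hch⟩ :=
    chain_of_crossing hε hDb hω
  set S := C.dom.sites ε ω with hS
  have hDL : closure D ⊆ Metric.closedBall C.c (C.L - 3 * d) :=
    hM.bd.trans (Metric.closedBall_subset_closedBall (by linarith))
  have hDL' : closure D ⊆ Metric.closedBall C.c (C.L - d) :=
    hM.bd.trans (Metric.closedBall_subset_closedBall (by linarith))
  -- the two ends
  have hvS := G6Wx723.site_of_cell (D := C.dom) hE (hDL' hz1D) (blk_sub _ _ hv) hz1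
  have hwS := G6Wx723.site_of_cell (D := C.dom) hE (hDL' hz2D) (blk_sub _ _ hw) hz2
  refine ⟨v, Or.inl ⟨hvS.1, z1, hvS.2, hM.s1 hz1A⟩, w, Or.inl ⟨hwS.1, z2, hwS.2, hM.s2 hz2A⟩, ?_⟩
  -- the sites of the chain
  have key : ∀ y ∈ S, ∀ z ∈ closure D, z ∈ voronoiCell (S : Set ℂ) y → y ∈ blk ε ω →
      (y ∈ blk ε ω ∩ (C.inn S : Set ℂ)) ∨ y ∈ C.cls S i ∨ y ∈ C.cls S (i + 2) := by
    intro y hy z hz hzy hyb
    by_cases h1 : y ∈ C.cls S i
    · exact Or.inr (Or.inl h1)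
    by_cases h2 : y ∈ C.cls S (i + 2)
    · exact Or.inr (Or.inr h2)
    refine Or.inl ⟨hyb, mem_inn hy fun j => ?_⟩
    have hj : j = i ∨ j = i + 1 ∨ j = i + 2 ∨ j = i + 3 := by
      clear * -
      revert i j; decide
    have far : ∀ j, j = i + 1 ∨ j = i + 3 → ∀ w ∈ C.R j, 2 * d ≤ dist z w := by
      intro j hj w hw
      refine le_trans (by linarith) (hM.fr z hz w ?_)
      rcases hj with rfl | rfl
      · exact Or.inl hw
      · exact Or.inr hw
    rcases hj with rfl | hj | rfl | hj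
    · exact h1
    · exact not_cls hC hd8 hE (hDL hz) hzy j (far j (Or.inl hj))
    · exact h2
    · exact not_cls hC hd8 hE (hDL hz) hzy j (far j (Or.inr hj))
  have hch2 := G6Wx723.sites_chain (D := C.dom) hd0 (by show 2 * d ≤ C.L; linarith) hE hDL' hch
  refine Relation.ReflTransGen.mono ?_ _ _ hch2
  rintro a b ⟨ha, hb, hab, z, hz, hzD⟩
  refine ⟨adj_iff.2 hab, ?_⟩
  have hbS : b ∈ S := hab.mem.2
  exact key b hbS z hzD (G6Wx723.vedge_sub_cell' hz) hb

end Crest.Agent.R143.D4Ux408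
end
end

-- ▼ part R143/D4L_408

/-!
# Row 143 (S0194), block D: `D4LO` (helper408)

* `chain_cut` : the part of a chain between its last visit of `N₁` and its first visit of `N₂`
* `adj_len` : the Delaunay edges are short
* `fan_of_cfg`
* `d4lo : D4LO` : the network crossing implies the official crossing
-/

set_option autoImplicit false

noncomputable section

open scoped Classical

namespace Crest.Agent.R143.D4Lx408

open Crest.ProbabilityR.Voronoi MeasureTheory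
open Crest.Agent.R143.B0x346 Crest.Agent.R143.B0Dx346 Crest.Agent.R143.Cfgx416
  Crest.Agent.R143.G6Vx408 Crest.Agent.R143.D4Ux408

/-- **the middle part of a chain** -/
theorem chain_cut {α : Type*} {r : α → α → Prop} {N₁ N₂ : Set α} {a b : α} (ha : a ∈ N₁)
    (hb : b ∈ N₂) (hd : ∀ x ∈ N₁, x ∉ N₂) (h : Relation.ReflTransGen r a b) :
    (∃ x ∈ N₁, ∃ y ∈ N₂, r x y) ∨
    ∃ x ∈ N₁, ∃ y ∈ N₂, ∃ m m', m ∉ N₁ ∧ m ∉ N₂ ∧ r x m ∧
      Relation.ReflTransGen (fun u v => r u v ∧ v ∉ N₁ ∧ v ∉ N₂) m m' ∧ r m' y := by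
  have key : ∀ c, Relation.ReflTransGen r a c →
      ((∃ x ∈ N₁, ∃ y ∈ N₂, r x y) ∨ ∃ x ∈ N₁, ∃ y ∈ N₂, ∃ m m', m ∉ N₁ ∧ m ∉ N₂ ∧ r x m ∧
      Relation.ReflTransGen (fun u v => r u v ∧ v ∉ N₁ ∧ v ∉ N₂) m m' ∧ r m' y) ∨ c ∈ N₁ ∨
      (c ∉ N₁ ∧ c ∉ N₂ ∧ ∃ x ∈ N₁, ∃ m, m ∉ N₁ ∧ m ∉ N₂ ∧ r x m ∧
       Relation.ReflTransGen (fun u v => r u v ∧ v ∉ N₁ ∧ v ∉ N₂) m c) := by
    intro c hc
    induction hc with
    | refl => exact Or.inr (Or.inl ha)
    | @tail u v _ huv ih =>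
      rcases ih with h | h | ⟨hu1, hu2, x, hx, m, hm1, hm2, hxm, hmu⟩
      · exact Or.inl h
      · by_cases h1 : v ∈ N₁
        · exact Or.inr (Or.inl h1)
        by_cases h2 : v ∈ N₂
        · exact Or.inl (Or.inl ⟨u, h, v, h2, huv⟩)
        · exact Or.inr (Or.inr ⟨h1, h2, u, h, v, h1, h2, huv, .refl⟩)
      · by_cases h1 : v ∈ N₁
        · exact Or.inr (Or.inl h1)
        by_cases h2 : v ∈ N₂
        · exact Or.inl (Or.inr ⟨x, hx, v, h2, m, u, hm1, hm2, hxm, hmu, huv⟩)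
        · exact Or.inr (Or.inr ⟨h1, h2, x, hx, m, hm1, hm2, hxm, hmu.tail ⟨huv, h1, h2⟩⟩)
  rcases key b h with h | h | ⟨-, h, -⟩
  · exact h
  · exact absurd hb (hd b h)
  · exact absurd hb h

/-- **the Delaunay edges are short** -/
theorem adj_len {S : Finset ℂ} {c : ℂ} {L d : ℝ} (hS : DomAx722.Dns S c L d) {x y : ℂ}
    (h : Adj S x y) : ‖x - y‖ ≤ 6 * Real.sqrt (L * d) := by
  have hd := hS.dpos
  have hL := hS.dL
  have hs := DomBx722.d_le_sqrt hd.le (by linarith : d ≤ L)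
  have h' := adj_iff.1 h
  obtain ⟨z, hz⟩ := G6Wx723.vedge_nonempty h'
  have hx : z ∈ DomBx722.cell (S : Set ℂ) x := DomBx722.vedge_sub_left _ _ _ hz
  have hy : z ∈ DomBx722.cell (S : Set ℂ) y := DomBx722.vedge_sub_right _ _ _ hz
  rcases le_or_gt ‖z - c‖ (L - d) with h1 | h1
  · have h2 := DomBx722.cell_near hS hx h1
    have h3 := DomBx722.cell_near hS hy h1
    have h4 := Locx922.norm_tri x z y
    rw [norm_sub_rev x z] at h4
    linarith
  · obtain ⟨u, hu, hzu⟩ := DomBx722.exists_pol (c := c) (z := z) (by linarith)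
    have h2 := DomBx722.lens hS h'.mem.1 hx hu hzu h1.le
    have h3 := DomBx722.lens hS h'.mem.2 hy hu hzu h1.le
    have h4 := Locx922.norm_tri x (c + L * u) y
    rw [norm_sub_rev (c + L * u) y] at h4
    linarith

variable {n : ℕ}

theorem cfg_lt {C : Cfg n} {δ : ℝ} (hC : C.OK δ) : δ < C.L := by
  by_contra hcon
  push Not at hcon
  have hL := hC.Lpos
  obtain ⟨e, he, h⟩ := hC.sect 0 C.L (by linarith)
  have h1 := (h (Real.arcsin (δ / C.L) + e / 2) (by linarith) (by linarith)).1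
  set ψ := Real.arcsin (δ / C.L) + e / 2
  have hn : ‖C.c + C.L * C.q 0 * Complex.exp (ψ * Complex.I) - C.c‖ = C.L := by
    rw [add_sub_cancel_left, norm_mul, norm_mul, hC.qn, Complex.norm_exp_ofReal_mul_I,
      Complex.norm_real, Real.norm_eq_abs, abs_of_pos hL, mul_one, mul_one]
  refine (hC.tent _ (by rw [hn]; linarith)).2 ⟨0, 0, le_rfl, ?_⟩ 0 h1
  rw [Complex.ofReal_zero, zero_mul, add_zero, hn]
  rw [div_mul_cancel₀ _ hL.ne']
  exact hcon

theorem fan_of_cfg {C : Cfg n} {δ : ℝ} (hC : C.OK δ) : DomBx722.Fan C.c C.L δ C.R C.q :=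
  ⟨hC.Lpos, hC.dpos, cfg_lt hC, hC.opn, hC.con, hC.qn, hC.far, hC.tent⟩

/-- the cells of the inner sites miss the regions -/
theorem inn_out {C : Cfg n} {S : Finset ℂ} {x : ℂ} (hx : x ∈ C.inn S) {z : ℂ}
    (hz : z ∈ voronoiCell (S : Set ℂ) x) : z ∉ C.out := by
  intro ho
  obtain ⟨j, hj⟩ := Set.mem_iUnion.1 ho
  obtain ⟨h1, h2⟩ := Finset.mem_filter.1 hx
  exact h2 j (Or.inl ⟨h1, z, hz, hj⟩)

/-! ### the two sides -/

section Sides

variable {C : Cfg 4} {δ κ : ℝ} {D A₁ A₂ E₁ E₂ : Set ℂ} {i : ZMod 4}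

/-- a point outside the regions, far from the centre, is on one of the two sides -/
theorem side_far (hC : C.OK δ) (hM : MacLO C δ D A₁ A₂ i κ E₁ E₂) {z : ℂ}
    (h : C.L / 2 < ‖z - C.c‖) (hz : z ∉ C.out) : z ∈ E₁ ∨ z ∈ E₂ := by
  have hz' : ∀ j, z ∉ C.R j := fun j hj => hz (Set.mem_iUnion.2 ⟨j, hj⟩)
  obtain ⟨k, t, ht, hk⟩ := (hC.tent z h).1 hz'
  have hc : z ∈ C.cone δ k := ⟨h, t, ht, hk⟩
  have hk' : k = i ∨ k = i + 1 ∨ k = i + 2 ∨ k = i + 3 := by
    clear * -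
    revert i k; decide
  rcases hk' with rfl | rfl | rfl | rfl
  · exact Or.inl (hM.tn1 (Or.inl hc))
  · exact Or.inl (hM.tn1 (Or.inr hc))
  · exact Or.inr (hM.tn2 (Or.inl hc))
  · exact Or.inr (hM.tn2 (Or.inr hc))

/-- the two sides -/
def P (C : Cfg 4) (i : ZMod 4) (E : Set ℂ) : Set ℂ := C.R i ∪ (E \ C.out)

theorem sides_far (hC : C.OK δ) (hM : MacLO C δ D A₁ A₂ i κ E₁ E₂) {x y : ℂ}
    (hx : x ∈ P C i E₁) (hy : y ∈ P C (i + 2) E₂) (h1 : dist x y < δ) (h2 : dist x y < κ) :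
    False := by
  have hκ := hM.kpos
  rcases hx with hx | ⟨hx, hxo⟩
  · rcases hy with hy | ⟨hy, hyo⟩
    · have hne : i ≠ i + 2 := by
        clear * -
        revert i; decide
      have := hC.far i (i + 2) hne x hx y hy
      rw [← dist_eq_norm] at this
      linarith
    · have h3 := hM.nr1 y hyo ⟨x, hx, by rwa [dist_comm]⟩
      have := hM.sep y h3.1 y hy
      rw [dist_self] at this
      linarith
  · rcases hy with hy | ⟨hy, hyo⟩
    · have h3 := hM.nr2 x hxo ⟨y, hy, h2⟩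
      have := hM.sep x hx x h3.1
      rw [dist_self] at this
      linarith
    · have := hM.sep x hx y hy
      linarith

/-- exchange of the two sides -/
theorem macLO_swap (hM : MacLO C δ D A₁ A₂ i κ E₁ E₂) : MacLO C δ D A₂ A₁ (i + 2) κ E₂ E₁ := by
  have e0 : i + 2 + 2 = i := by
    clear * -
    revert i; decide
  have e1 : i + 2 + 1 = i + 3 := by
    clear * -
    revert i; decide
  have e3 : i + 2 + 3 = i + 1 := by
    clear * -
    revert i; decide
  refine ⟨hM.kpos, hM.bd, hM.c2, hM.c1, fun x hx y hy => ?_, ?_, hM.fr2, hM.fr1, hM.nr2, ?_, ?_, ?_⟩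
  · rw [dist_comm]; exact hM.sep y hy x hx
  · rw [Set.union_comm]; exact hM.cov
  · rw [e0]; exact hM.nr1
  · rw [e1]; exact hM.tn2
  · rw [e0, e3]; exact hM.tn1

variable {S : Finset ℂ} {d : ℝ}

/-- **the hull sites of the class `i` are on the side `i`** -/
theorem harc_side (hC : C.OK δ) (hM : MacLO C δ D A₁ A₂ i κ E₁ E₂)
    (hS : DomAx722.Dns S C.c C.L d) (hray : crossRay S C.c (C.q i) (C.ray S i))
    (h1 : 400 * (C.L * d) ≤ δ ^ 2) (h2 : 400 * (C.L * d) ≤ κ ^ 2)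
    (hdis : ∀ j, i ≠ j → Disjoint (C.cls S i) (C.cls S j)) {x : ℂ} (hx : x ∈ C.harc S i) :
    x ∈ P C i E₁ := by
  have hL := hC.Lpos
  have hκ := hM.kpos
  have hδ := hC.dpos
  have hF := fan_of_cfg hC
  have s1 := DomBx722.sqrt_small hδ h1
  have s2 := DomBx722.sqrt_small hκ h2
  have hdL := hS.dL
  have hd := hS.dpos
  have h' : Relation.ReflTransGen (fun a b => hullE S a b ∧ ∀ k, C.ray S k ≠ (a, b))
    (C.ray S i).2 x := hx
  clear hx
  induction h' with
  | refl =>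
    have hn := (DomBx722.hull_far hS hray.1).2
    have hmiss := (hF.free_mark hS h1 hray).2
    have hout : (C.ray S i).2 ∉ C.out := by
      intro ho
      obtain ⟨j, hj⟩ := Set.mem_iUnion.1 ho
      exact Set.disjoint_left.1 (hmiss j) (fun s _ => by rw [sub_self, norm_zero]; exact norm_nonneg _) hj
    rcases side_far hC hM (by linarith) hout with h | h
    · exact Or.inr ⟨h, hout⟩
    · exfalso
      have h3 := (DomBx722.crossRay_ends hS (hC.qn i) hray).2
      have hc : C.c + C.L * C.q i ∈ C.cone δ i := by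
        have e : ‖C.c + C.L * C.q i - C.c‖ = C.L := DomBx722.norm_rad (hC.qn i) hL.le
        refine ⟨by rw [e]; linarith, C.L, hL.le, ?_⟩
        rw [sub_self, norm_zero, e]
        exact mul_nonneg (div_nonneg hδ.le hL.le) hL.le
      have h4 := hM.sep _ (hM.tn1 (Or.inl hc)) _ h
      rw [dist_comm, dist_eq_norm] at h4
      have := Real.sqrt_nonneg (C.L * d)
      linarith
  | @tail u v hu huv ih =>
    have hn := (DomBx722.hull_far hS huv.1).2
    have hvi : v ∈ C.cls S i := Or.inr (Relation.ReflTransGen.tail hu huv)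
    by_cases hvo : v ∈ C.out
    · obtain ⟨j, hj⟩ := Set.mem_iUnion.1 hvo
      by_cases hij : i = j
      · subst hij
        exact Or.inl hj
      · exfalso
        have hvj : v ∈ C.cls S j := Or.inl ⟨(DelRx806.hullE.mem huv.1).2, v,
          fun s _ => by rw [sub_self, norm_zero]; exact norm_nonneg _, hj⟩
        exact Set.disjoint_left.1 (hdis j hij) hvi hvj
    · rcases side_far hC hM (by linarith) hvo with h | h
      · exact Or.inr ⟨h, hvo⟩
      · exfalso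
        have h3 := DomAx722.edge_len hS huv.1
        rw [norm_sub_rev, ← dist_eq_norm] at h3
        have := Real.sqrt_nonneg (C.L * d)
        exact sides_far hC hM ih (Or.inr ⟨h, hvo⟩) (by linarith) (by linarith)

/-- sites of the side: sites of the class, and inner sites far from the centre -/
def Nn (C : Cfg 4) (S : Finset ℂ) (i : ZMod 4) (E : Set ℂ) : Set ℂ :=
  {x | x ∈ C.cls S i ∨ (x ∈ C.inn S ∧ 5 / 8 * C.L ≤ ‖x - C.c‖ ∧ x ∈ E)}

theorem near_side (hC : C.OK δ) (hM : MacLO C δ D A₁ A₂ i κ E₁ E₂)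
    (hS : DomAx722.Dns S C.c C.L d) (hray : crossRay S C.c (C.q i) (C.ray S i))
    (h1 : 400 * (C.L * d) ≤ δ ^ 2) (h2 : 400 * (C.L * d) ≤ κ ^ 2)
    (hdis : ∀ j, i ≠ j → Disjoint (C.cls S i) (C.cls S j)) {x : ℂ} (hx : x ∈ Nn C S i E₁) :
    ∃ p ∈ P C i E₁, dist p x ≤ 3 * Real.sqrt (C.L * d) := by
  have hs := Real.sqrt_nonneg (C.L * d)
  rcases hx with (⟨hxS, w, hw, hwR⟩ | hx) | ⟨hx, -, hxE⟩
  · obtain ⟨p, hp, hp'⟩ := (fan_of_cfg hC).near_R hS hxS hw hwR
    exact ⟨p, Or.inl hp, by rw [dist_eq_norm]; exact hp'⟩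
  · exact ⟨x, harc_side hC hM hS hray h1 h2 hdis hx, by rw [dist_self]; positivity⟩
  · exact ⟨x, Or.inr ⟨hxE, inn_out hx (self_mem_cell _ _)⟩, by rw [dist_self]; positivity⟩

variable {ε M : ℝ} {ω : Sample}

/-- **the end of the middle part of the chain** -/
theorem end_side (hC : C.OK δ) (hM : MacLO C δ D A₁ A₂ i κ E₁ E₂)
    (hE : Env ε d M C.c C.L ω) (hdL : 16 * d ≤ C.L) (hdκ : 2 * d < κ) {x m : ℂ}
    (hx : x ∈ Nn C (C.dom.sites ε ω) i E₁) (hm : m ∈ C.inn (C.dom.sites ε ω))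
    (hmL : ‖m - C.c‖ < 5 / 8 * C.L) (hxm : Adj (C.dom.sites ε ω) x m) :
    (voronoiCell (points ε ω) m \ D ∩ E₁).Nonempty := by
  have hL := hC.Lpos
  have hκ := hM.kpos
  have hd := env_pos hL (by linarith) hE
  have hHol := Locx922.Env.hol_sites (D := C.dom) hE
  have hmW : m ∈ Metric.closedBall C.c (C.L - 2 * d) := by
    rw [Metric.mem_closedBall, dist_eq_norm]; linarith
  obtain ⟨z, hz⟩ := G6Wx723.vedge_nonempty (adj_iff.1 hxm)
  have hzx := G6Wx723.vedge_sub_cell hz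
  have hzm := G6Wx723.vedge_sub_cell' hz
  have hzo : z ∉ C.out := inn_out hm hzm
  have hdzm : ‖z - m‖ < d := Locx922.cell_sub_ball hd hHol hmW hzm
  have hzL : ‖z - C.c‖ < 5 / 8 * C.L + d := by
    have := Locx922.norm_tri z m C.c
    linarith
  have hzW : z ∈ Metric.closedBall C.c (C.L - 2 * d) := by
    rw [Metric.mem_closedBall, dist_eq_norm]; linarith
  have hdzx : ‖z - x‖ < d := by
    obtain ⟨s, hs, hsz⟩ := hHol z hzW z (by rw [sub_self, norm_zero]; exact hd.le)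
    exact Locx922.cell_dist ⟨s, hs, hsz⟩ hzx
  have hxL : ‖x - C.c‖ < 5 / 8 * C.L + 2 * d := by
    have := Locx922.norm_tri x z C.c
    rw [norm_sub_rev x z] at this
    linarith
  have hxW : x ∈ Metric.closedBall C.c (C.L - 2 * d) := by
    rw [Metric.mem_closedBall, dist_eq_norm]; linarith
  have hcell : voronoiCell (C.dom.sites ε ω : Set ℂ) m = voronoiCell (points ε ω) m :=
    Locx922.Env.cell_eq (D := C.dom) hd hE hmW
  have goal : z ∈ E₁ \ D → (voronoiCell (points ε ω) m \ D ∩ E₁).Nonempty := fun h =>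
    ⟨z, ⟨by rw [← hcell]; exact hzm, h.2⟩, h.1⟩
  rcases hx with (⟨hxS, w, hw, hwR⟩ | hx) | ⟨hx, hxL', hxE⟩
  · -- the cell of `x` meets the region
    have hwx : ‖w - x‖ < d := Locx922.cell_sub_ball hd hHol hxW hw
    refine goal (hM.nr1 z hzo ⟨w, hwR, ?_⟩)
    rw [dist_eq_norm]
    have := Locx922.norm_tri z x w
    rw [norm_sub_rev x w] at this
    linarith
  · exact absurd hx (not_harc hC (by linarith) hE hxW i)
  · -- `x` is an inner site far from the centre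
    have hzL' : 5 / 8 * C.L - d < ‖z - C.c‖ := by
      have := Locx922.norm_tri x z C.c
      rw [norm_sub_rev x z] at this
      linarith
    have hzD : z ∉ D := by
      intro h
      have := hM.bd (subset_closure h)
      rw [Metric.mem_closedBall, dist_eq_norm] at this
      linarith
    rcases side_far hC hM (by linarith) hzo with h | h
    · exact goal ⟨h, hzD⟩
    · exfalso
      have := hM.sep x hxE z h
      rw [dist_comm, dist_eq_norm] at this
      linarith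

end Sides

/-- **D4, lower**, from the disjointness of the classes -/
theorem d4lo_of (h2 : ∀ (C : Cfg 4) (δ : ℝ), C.OK δ → ∃ d0 > 0, ∀ (ε d M : ℝ)
    (ω : Sample), Env ε d M C.c C.L ω → d ≤ d0 → ∀ i j, i ≠ j →
      Disjoint (C.cls (C.dom.sites ε ω) i) (C.cls (C.dom.sites ε ω) j)) : D4LO := by
  intro C δ D A₁ A₂ i κ E₁ E₂ hC hD hDb hM
  have hL := hC.Lpos
  have hκ := hM.kpos
  have hδ := hC.dpos
  obtain ⟨d1, hd1, hdis⟩ := h2 C δ hC
  refine ⟨min d1 (min (C.L / 16) (min (κ / 4) (min (δ ^ 2 / (400 * C.L)) (κ ^ 2 / (400 * C.L))))),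
    by positivity, ?_⟩
  intro ε d M ω hε hE hd hω
  have g1 : d ≤ d1 := hd.trans (min_le_left _ _)
  have hd' := hd.trans (min_le_right _ _)
  have g2 : d ≤ C.L / 16 := hd'.trans (min_le_left _ _)
  have hd'' := hd'.trans (min_le_right _ _)
  have g3 : d ≤ κ / 4 := hd''.trans (min_le_left _ _)
  have hd3 := hd''.trans (min_le_right _ _)
  have g4 : d ≤ δ ^ 2 / (400 * C.L) := hd3.trans (min_le_left _ _)
  have g5 : d ≤ κ ^ 2 / (400 * C.L) := hd3.trans (min_le_right _ _)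
  rw [le_div_iff₀ (by positivity)] at g4 g5
  have s4 : 400 * (C.L * d) ≤ δ ^ 2 := by linarith
  have s5 : 400 * (C.L * d) ≤ κ ^ 2 := by linarith
  have t4 := DomBx722.sqrt_small hδ s4
  have t5 := DomBx722.sqrt_small hκ s5
  have hs0 := Real.sqrt_nonneg (C.L * d)
  have hd0 := env_pos hL (by linarith) hE
  have hsp : 0 < Real.sqrt (C.L * d) := Real.sqrt_pos.2 (by positivity)
  have hdis' := hdis ε d M ω hE g1
  have hM' := macLO_swap hM
  set S := C.dom.sites ε ω with hS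
  have hDns : DomAx722.Dns S C.c C.L d := DomAx722.dns_of_env (D := C.dom) hL
    (by show 8 * d ≤ C.L; linarith) hE
  obtain ⟨a, ha, b, hb, hch⟩ := hω
  -- the two sides are separated
  have near1 : ∀ x ∈ Nn C S i E₁, ∃ p ∈ P C i E₁, dist p x ≤ 3 * Real.sqrt (C.L * d) :=
    fun x hx => near_side hC hM hDns (ray_spec hC (by linarith) hE i) s4 s5
      (fun j hj => hdis' i j hj) hx
  have near2 : ∀ x ∈ Nn C S (i + 2) E₂, ∃ p ∈ P C (i + 2) E₂,
      dist p x ≤ 3 * Real.sqrt (C.L * d) :=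
    fun x hx => near_side hC hM' hDns (ray_spec hC (by linarith) hE (i + 2)) s4 s5
      (fun j hj => hdis' (i + 2) j hj) hx
  have sepN : ∀ x ∈ Nn C S i E₁, ∀ y ∈ Nn C S (i + 2) E₂, 6 * Real.sqrt (C.L * d) < dist x y := by
    intro x hx y hy
    by_contra hcon
    push Not at hcon
    obtain ⟨p, hp, hpx⟩ := near1 x hx
    obtain ⟨p', hp', hpy⟩ := near2 y hy
    have h5 := dist_triangle4 p x y p'
    rw [dist_comm y p'] at h5
    exact sides_far hC hM hp hp' (by linarith) (by linarith)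
  have h6 : ∀ x ∈ Nn C S i E₁, x ∉ Nn C S (i + 2) E₂ := by
    intro x hx hx'
    have := sepN x hx x hx'
    rw [dist_self] at this
    linarith
  rcases chain_cut (N₁ := Nn C S i E₁) (N₂ := Nn C S (i + 2) E₂) (Or.inl ha) (Or.inl hb) h6 hch with
    ⟨x, hx, y, hy, hxy, -⟩ | ⟨x, hx, y, hy, m, m', hm1, hm2, hxm, hmm, hmy⟩
  · exfalso
    have h7 := adj_len hDns hxy
    have h8 := sepN x hx y hy
    rw [dist_eq_norm] at h8
    linarith
  -- the sites of the middle part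
  set T : Set ℂ := {u | u ∈ blk ε ω ∧ u ∈ C.inn S ∧ ‖u - C.c‖ < 5 / 8 * C.L} with hT
  have key : ∀ u, u ∉ Nn C S i E₁ → u ∉ Nn C S (i + 2) E₂ →
      (u ∈ blk ε ω ∩ (C.inn S : Set ℂ) ∨ u ∈ C.cls S i ∨ u ∈ C.cls S (i + 2)) → u ∈ T := by
    intro u hu1 hu2 hu
    rcases hu with ⟨hub, hui⟩ | hu | hu
    · have hui' : u ∈ C.inn S := Finset.mem_coe.1 hui
      refine ⟨hub, hui', ?_⟩
      by_contra hcon
      push Not at hcon
      rcases side_far hC hM (by linarith) (inn_out hui' (self_mem_cell _ _)) with h | h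
      · exact hu1 (Or.inr ⟨hui', hcon, h⟩)
      · exact hu2 (Or.inr ⟨hui', hcon, h⟩)
    · exact absurd (Or.inl hu) hu1
    · exact absurd (Or.inl hu) hu2
  have hmT : m ∈ T := key m hm1 hm2 hxm.2
  have hmm' : Relation.ReflTransGen (fun a b => b ∈ T ∧ JColx54.Adj S a b) m m' :=
    Relation.ReflTransGen.mono (fun u v h => ⟨key v h.2.1 h.2.2 h.1.2, adj_iff.1 h.1.1⟩) _ _ hmm
  have hTW : T ⊆ Metric.closedBall C.c (C.L - 2 * d) := by
    intro u hu
    rw [Metric.mem_closedBall, dist_eq_norm]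
    have := hu.2.2
    linarith
  obtain ⟨hcc, hm'T⟩ := G6Wx723.cells_chain (D := C.dom) hd0 hE hTW hmT hmm'
  have hcell : ∀ u ∈ T, voronoiCell (S : Set ℂ) u = voronoiCell (points ε ω) u := fun u hu =>
    Locx922.Env.cell_eq (D := C.dom) hd0 hE (hTW hu)
  have hTo : ∀ u ∈ T, ∀ z ∈ voronoiCell (points ε ω) u, z ∉ C.out := by
    intro u hu z hz
    rw [← hcell u hu] at hz
    exact inn_out hu.2.1 hz
  have hsym : Adj S y m' := by
    obtain ⟨c, h⟩ := hmy.1
    exact ⟨c, h.symm⟩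
  refine crossing_of_chain hD (T := T) (V₁ := E₁) (V₂ := E₂) (fun u hu => hu.1)
    (fun u hu => (G6Wx723.cell_bdd (D := C.dom) hd0 hE (hTW hu)).2) hmT hcc hM.c1 hM.c2
    ?_ ?_ ?_ ?_ ?_ ?_
  · intro u hu z hz
    exact hM.cov ⟨hTo u hu z hz.1, hz.2⟩
  · intro u hu
    rw [← Set.subset_empty_iff]
    rintro z ⟨⟨-, hz1⟩, hz2⟩
    have := hM.sep z hz1 z hz2
    rw [dist_self] at this
    linarith
  · exact end_side hC hM hE (by linarith) (by linarith) hx hmT.2.1 hmT.2.2 hxm.1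
  · exact end_side hC hM' hE (by linarith) (by linarith) hy hm'T.2.1 hm'T.2.2 hsym
  · rintro u hu z ⟨⟨hz, hzf⟩, hz1⟩
    exact hM.fr1 ⟨⟨hTo u hu z hz, hzf⟩, hz1⟩
  · rintro u hu z ⟨⟨hz, hzf⟩, hz1⟩
    exact hM.fr2 ⟨⟨hTo u hu z hz, hzf⟩, hz1⟩

/-- D4, lower, from D2 -/
theorem d4lo_of_d2 (h : D2) : D4LO := d4lo_of fun C δ hC => by
  obtain ⟨d0, hd0, h0⟩ := h 4 C δ (by norm_num) hC
  exact ⟨d0, hd0, fun ε d M ω hE hd => (h0 ε d M ω hE hd).disj⟩

/-- **D4, lower** -/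
theorem d4lo : D4LO := d4lo_of_d2 DomEx722.d2

end Crest.Agent.R143.D4Lx408
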