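import Crest.Agent.R143.K33D_877
import Crest.Agent.R143.Near_440

/-!
# Row 143 (S0194), CONT: the rainbow disc (helper683; 802's (D))

`Tr S A` three classes (877), `Es S A` all the sites of the classes.

* `adj_Es`, `hull_Es`, `hull_of_Es`, `tr_Es` : the classes on the Delaunay triangulation of `Es S A`
* `rainbow` : a Delaunay triangle of `Es S A` with a vertex in every class (parity)
* `disc` : an empty disc (no site of a class inside) with one site of every class on its circle, and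
  a centre (`CtrT` or `CtrX`) inside the closed disc
-/

set_option autoImplicit false

noncomputable section

open scoped Classical

namespace Crest.Agent.R143.Discx683

open Set
open Crest.ProbabilityR.Voronoi
open Crest.Agent.R143.B0x346 Crest.Agent.R143.DelGx806 Crest.Agent.R143.DelRx806
  Crest.Agent.R143.JColx54 Crest.Agent.R143.RE0x723 Crest.Agent.R143.K33x877
  Crest.Agent.R143.G6Wx723 Crest.Agent.R143.Nearx440
open Crest.Agent.R143.RB2x54 (Vt)

variable {S E : Finset ℂ} {A : ZMod 3 → Set ℂ}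

/-- the sites of the classes -/
def Es (S : Finset ℂ) (A : ZMod 3 → Set ℂ) : Finset ℂ := S.filter fun v => ∃ i, v ∈ A i

theorem mem_Es {v : ℂ} : v ∈ Es S A ↔ v ∈ S ∧ ∃ i, v ∈ A i := Finset.mem_filter

theorem sub_Es : Es S A ⊆ S := Finset.filter_subset _ _

theorem cls_Es (h : Tr S A) {i : ZMod 3} {v : ℂ} (hv : v ∈ A i) : v ∈ Es S A :=
  mem_Es.2 ⟨Finset.mem_coe.1 (h.sub i hv), i, hv⟩

theorem cls_ne (h : Tr S A) (i : ZMod 3) : (A i).Nonempty := by
  have hi : i ≠ i + 1 := by revert i; decide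
  obtain ⟨a, b, -, ha, -, -⟩ := h.one i (i + 1) hi
  exact ⟨a, ha⟩

theorem cls_uniq (h : Tr S A) {i j : ZMod 3} {v : ℂ} (hi : v ∈ A i) (hj : v ∈ A j) : i = j := by
  by_contra hij
  exact Set.disjoint_left.1 (h.disj i j hij) hi hj

theorem card_Es (h : Tr S A) : 3 ≤ (Es S A).card := by
  choose a ha using fun i => cls_ne h i
  have inj : Function.Injective a := fun i j e => cls_uniq h (ha i) (e ▸ ha j)
  have h1 : Finset.image a Finset.univ ⊆ Es S A := by
    intro v hv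
    obtain ⟨i, -, rfl⟩ := Finset.mem_image.1 hv
    exact cls_Es h (ha i)
  have h2 := Finset.card_le_card h1
  rw [Finset.card_image_of_injective _ inj] at h2
  exact h2

theorem card_S (h : Tr S A) : 3 ≤ S.card := (card_Es h).trans (Finset.card_le_card sub_Es)









/-! ### the rainbow triangle -/

section rainbow

variable (h : Tr E A)

include h

theorem rot1 {a b c : ℂ} (ht : (a, b, c) ∈ delT E) : (b, c, a) ∈ delT E := (g1 E h.gp).1 _ _ _ ht

theorem rot2 {a b c : ℂ} (ht : (a, b, c) ∈ delT E) : (c, a, b) ∈ delT E := rot1 h (rot1 h ht)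

theorem tuq {a b c e : ℂ} (ht : (a, b, c) ∈ delT E) (ht' : (a, b, e) ∈ delT E) : c = e :=
  (g1 E h.gp).2.1 _ _ _ _ ht ht'

/-- triangles with first edge from the class `i` to the class `j` -/
def Fij (E : Finset ℂ) (A : ZMod 3 → Set ℂ) (i j : ZMod 3) : Finset (ℂ × ℂ × ℂ) :=
  (delT E).filter fun t => t.1 ∈ A i ∧ t.2.1 ∈ A j

omit h in
theorem mem_Fij {i j : ZMod 3} {t : ℂ × ℂ × ℂ} :
    t ∈ Fij E A i j ↔ t ∈ delT E ∧ t.1 ∈ A i ∧ t.2.1 ∈ A j := Finset.mem_filter

omit h in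
theorem z3 (i : ZMod 3) : i = 0 ∨ i = 1 ∨ i = 2 := by revert i; decide

/-- the other edge of a triangle with two colours -/
theorem card_Fij (hcov : ∀ v ∈ E, ∃ i, v ∈ A i)
    (hno : ∀ a b c, (a, b, c) ∈ delT E → a ∈ A 0 → b ∈ A 1 → c ∉ A 2)
    (hno' : ∀ a b c, (a, b, c) ∈ delT E → a ∈ A 1 → b ∈ A 0 → c ∉ A 2) :
    (Fij E A 0 1).card = (Fij E A 1 0).card := by
  have two : ∀ c ∈ E, c ∉ A 2 → c ∉ A 0 → c ∈ A 1 := by
    intro c hc h2 h0
    obtain ⟨i, hi⟩ := hcov c hc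
    rcases z3 i with rfl | rfl | rfl
    · exact absurd hi h0
    · exact hi
    · exact absurd hi h2
  have n01 : ∀ v, v ∈ A 1 → v ∉ A 0 := fun v h1 h0 =>
    absurd (cls_uniq h h1 h0) (by decide)
  refine Finset.card_nbij' (fun t => if t.2.2 ∈ A 0 then (t.2.1, t.2.2, t.1) else
    (t.2.2, t.1, t.2.1)) (fun t => if t.2.2 ∈ A 0 then (t.2.2, t.1, t.2.1) else
    (t.2.1, t.2.2, t.1)) ?_ ?_ ?_ ?_
  · rintro ⟨a, b, c⟩ ht
    rw [Finset.mem_coe, mem_Fij] at ht
    obtain ⟨ht, ha, hb⟩ := ht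
    simp only at ha hb
    by_cases hc : c ∈ A 0
    · simp only [hc, if_true]
      rw [Finset.mem_coe, mem_Fij]
      exact ⟨rot1 h ht, hb, hc⟩
    · simp only [hc, if_false]
      rw [Finset.mem_coe, mem_Fij]
      exact ⟨rot2 h ht, two c (mem_delT.1 ht).2.2.1 (hno _ _ _ ht ha hb) hc, ha⟩
  · rintro ⟨a, b, c⟩ ht
    rw [Finset.mem_coe, mem_Fij] at ht
    obtain ⟨ht, ha, hb⟩ := ht
    simp only at ha hb
    by_cases hc : c ∈ A 0
    · simp only [hc, if_true]
      rw [Finset.mem_coe, mem_Fij]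
      exact ⟨rot2 h ht, hc, ha⟩
    · simp only [hc, if_false]
      rw [Finset.mem_coe, mem_Fij]
      exact ⟨rot1 h ht, hb, two c (mem_delT.1 ht).2.2.1 (hno' _ _ _ ht ha hb) hc⟩
  · rintro ⟨a, b, c⟩ ht
    rw [Finset.mem_coe, mem_Fij] at ht
    obtain ⟨ht, ha, hb⟩ := ht
    simp only at ha hb
    by_cases hc : c ∈ A 0
    · simp only [hc, if_true, ha]
    · simp only [hc, if_false, n01 b hb]
  · rintro ⟨a, b, c⟩ ht
    rw [Finset.mem_coe, mem_Fij] at ht
    obtain ⟨ht, ha, hb⟩ := ht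
    simp only at ha hb
    by_cases hc : c ∈ A 0
    · simp only [hc, if_true, hb]
    · simp only [hc, if_false, n01 a ha]

/-- the triangle on the other side of the first edge -/
def opp (E : Finset ℂ) (t : ℂ × ℂ × ℂ) : ℂ × ℂ × ℂ :=
  (t.2.1, t.1, if h : ∃ e, (t.2.1, t.1, e) ∈ delT E then h.choose else 0)

theorem opp_opp {t : ℂ × ℂ × ℂ} (ht : t ∈ delT E) (he : ∃ e, (t.2.1, t.1, e) ∈ delT E) :
    opp E t ∈ delT E ∧ opp E (opp E t) = t := by
  obtain ⟨a, b, c⟩ := t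
  simp only at he
  have h1 : opp E (a, b, c) = (b, a, he.choose) := by
    unfold opp; simp only [he, dif_pos]
  have h2 : (b, a, he.choose) ∈ delT E := he.choose_spec
  have h3 : ∃ e, (a, b, e) ∈ delT E := ⟨c, ht⟩
  refine ⟨by rw [h1]; exact h2, ?_⟩
  rw [h1]
  unfold opp
  simp only [h3, dif_pos]
  rw [← tuq h ht h3.choose_spec]

/-- the inner edges -/
theorem card_inner :
    ((Fij E A 0 1).filter fun t => ∃ e, (t.2.1, t.1, e) ∈ delT E).card =
      ((Fij E A 1 0).filter fun t => ∃ e, (t.2.1, t.1, e) ∈ delT E).card := by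
  have key : ∀ i j : ZMod 3, ∀ t ∈ (Fij E A i j).filter (fun t => ∃ e, (t.2.1, t.1, e) ∈ delT E),
      opp E t ∈ (Fij E A j i).filter (fun t => ∃ e, (t.2.1, t.1, e) ∈ delT E) := by
    intro i j t ht
    rw [Finset.mem_filter, mem_Fij] at ht ⊢
    obtain ⟨⟨h1, h2, h3⟩, h4⟩ := ht
    exact ⟨⟨(opp_opp h h1 h4).1, h3, h2⟩, t.2.2, h1⟩
  refine Finset.card_nbij' (opp E) (opp E) (fun t ht => key 0 1 t ht) (fun t ht => key 1 0 t ht)
    ?_ ?_
  · intro t ht
    rw [Finset.mem_coe, Finset.mem_filter, mem_Fij] at ht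
    exact (opp_opp h ht.1.1 ht.2).2
  · intro t ht
    rw [Finset.mem_coe, Finset.mem_filter, mem_Fij] at ht
    exact (opp_opp h ht.1.1 ht.2).2

omit h in
theorem hull_anti {a b : ℂ} (h1 : hullE E a b) (h2 : hullE E b a) : False := by
  obtain ⟨c, hc⟩ := h2.1
  exact h1.2 c hc

/-- the hull edges -/
theorem card_outer {i j : ZMod 3} {a b : ℂ} (hab : hullE E a b) (ha : a ∈ A i) (hb : b ∈ A j)
    (hu : ∀ a' b', (hullE E a' b' ∨ hullE E b' a') → a' ∈ A i → b' ∈ A j → a' = a ∧ b' = b) :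
    ((Fij E A i j).filter fun t => ¬ ∃ e, (t.2.1, t.1, e) ∈ delT E).card = 1 ∧
      ((Fij E A j i).filter fun t => ¬ ∃ e, (t.2.1, t.1, e) ∈ delT E).card = 0 := by
  have hh : ∀ t : ℂ × ℂ × ℂ, t ∈ delT E → (¬ ∃ e, (t.2.1, t.1, e) ∈ delT E) → hullE E t.1 t.2.1 :=
    fun t h1 h2 => ⟨⟨t.2.2, h1⟩, fun c hc => h2 ⟨c, hc⟩⟩
  obtain ⟨c, hc⟩ := hab.1
  constructor
  · rw [Finset.card_eq_one]
    refine ⟨(a, b, c), ?_⟩
    ext t
    rw [Finset.mem_filter, mem_Fij, Finset.mem_singleton]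
    constructor
    · rintro ⟨⟨h1, h2, h3⟩, h4⟩
      obtain ⟨e1, e2⟩ := hu _ _ (Or.inl (hh t h1 h4)) h2 h3
      obtain ⟨x, y, z⟩ := t
      simp only at e1 e2
      subst e1 e2
      rw [tuq h h1 hc]
    · rintro rfl
      exact ⟨⟨hc, ha, hb⟩, fun ⟨e, he⟩ => hab.2 e he⟩
  · rw [Finset.card_eq_zero, Finset.filter_eq_empty_iff]
    intro t ht h4
    rw [mem_Fij] at ht
    have h5 := hh t ht.1 h4
    obtain ⟨e1, e2⟩ := hu _ _ (Or.inr h5) ht.2.2 ht.2.1
    rw [e1, e2] at h5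
    exact hull_anti hab h5

/-- **rainbow triangle** -/
theorem rainbow (hcov : ∀ v ∈ E, ∃ i, v ∈ A i) :
    ∃ a : ZMod 3 → ℂ, (∀ i, a i ∈ A i) ∧
      ((a 0, a 1, a 2) ∈ delT E ∨ (a 1, a 0, a 2) ∈ delT E) := by
  by_contra hcon
  have mk : ∀ x y z : ℂ, x ∈ A 0 → y ∈ A 1 → z ∈ A 2 →
      ¬ ((x, y, z) ∈ delT E ∨ (y, x, z) ∈ delT E) := by
    intro x y z hx hy hz hd
    apply hcon
    refine ⟨fun i => if i = 0 then x else if i = 1 then y else z, ?_, ?_⟩
    · intro i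
      rcases z3 i with rfl | rfl | rfl
      · simpa using hx
      · simpa using hy
      · have h1 : (2 : ZMod 3) ≠ 0 := by decide
        have h2 : (2 : ZMod 3) ≠ 1 := by decide
        simp only [h1, h2, if_false]
        exact hz
    · have h1 : (2 : ZMod 3) ≠ 0 := by decide
      have h2 : (2 : ZMod 3) ≠ 1 := by decide
      have h3 : (1 : ZMod 3) ≠ 0 := by decide
      simp only [h1, h2, h3, if_false, if_true]
      exact hd
  have c1 := card_Fij h hcov (fun a b c ht ha hb hc => mk a b c ha hb hc (Or.inl ht))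
    (fun a b c ht ha hb hc => mk b a c hb ha hc (Or.inr ht))
  have c2 := card_inner h
  have f1 := Finset.card_filter_add_card_filter_not (s := Fij E A 0 1)
    (fun t => ∃ e, (t.2.1, t.1, e) ∈ delT E)
  have f2 := Finset.card_filter_add_card_filter_not (s := Fij E A 1 0)
    (fun t => ∃ e, (t.2.1, t.1, e) ∈ delT E)
  obtain ⟨a, b, h1, ha, hb, hu⟩ := h.one 0 1 (by decide)
  rcases h1 with h1 | h1
  · have c3 := card_outer h h1 ha hb hu
    omega
  · have c3 := card_outer h h1 hb ha (fun a' b' h2 h3 h4 => (hu b' a' h2.symm h4 h3).symm)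
    omega

end rainbow

/-! ### the disc -/



end Crest.Agent.R143.Discx683
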