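import Crest.Agent.R143.K33D_877

/-!
# Row 143 (S0194), CONT (3308, 3434): (T) and (F), leaves `TRICH`, `FRESH` of K33D_877 (helper571)

* `trich_gen` : (T), needs no hull: only that the big classes `C` have no centre `X`
* `fresh_gen` : (F), needs no hull: only disjointness and one connected class
* `trich : KTT → KTX → TRICH`, `fresh : FRESH`
-/

set_option autoImplicit false

noncomputable section

open scoped Classical

namespace Crest.Agent.R143.ContTx571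

open Set
open Crest.Agent.R143.B0x346 Crest.Agent.R143.JColx54 Crest.Agent.R143.RE0x723
  Crest.Agent.R143.K33x877
open Crest.Agent.R143.RB2x54 (Vt)

variable {S : Finset ℂ} {A A' C : ZMod 3 → Set ℂ} {i j k : ZMod 3} {T U V : Set ℂ} {b v u y x z : ℂ}

theorem z3 : ∀ i j k : ZMod 3, i ≠ j → i ≠ k → j ≠ k → ∀ l, l = i ∨ l = j ∨ l = k := by decide

/-- component of a site -/
def cp (S : Finset ℂ) (V : Set ℂ) (c : ℂ) : Set ℂ := {z | Pth S V c z}

theorem cp_sub : cp S V x ⊆ V := fun _ h => Pth.snd h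

theorem cp_con : ∀ a ∈ cp S V x, ∀ b ∈ cp S V x, Pth S (cp S V x) a b := by
  have key : ∀ a ∈ cp S V x, Pth S (cp S V x) a x := by
    intro a ha
    refine (Pth.self (show Pth S V x a from ha).symm).mono ?_
    rintro w ⟨-, h⟩
    exact h.symm
  intro a ha b hb
  exact (key a ha).trans (key b hb).symm

theorem cp_self (h : x ∈ V) : x ∈ cp S V x := Pth.refl h

theorem clu_sub : Clu S T U ⊆ T ∪ U := by
  rintro v ⟨x, -, h⟩
  exact h.snd

theorem mem_clu (h : x ∈ U) : x ∈ Clu S T U := ⟨x, h, Pth.refl (Or.inr h)⟩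

theorem tri_bz (hS : GP (S : Set ℂ)) (h : (b, v, u) ∈ delT S ∨ (v, b, u) ∈ delT S) : Adj S b u := by
  rcases h with h | h
  · exact Or.inr ⟨v, delT_rot hS (delT_rot hS h)⟩
  · exact Or.inl ⟨v, delT_rot hS h⟩

theorem tri_bw (h : (b, v, u) ∈ delT S ∨ (v, b, u) ∈ delT S) : Adj S b v := by
  rcases h with h | h
  · exact Or.inl ⟨u, h⟩
  · exact Or.inr ⟨u, h⟩

/-- **(T)**, general form -/
theorem trich_gen (hS : GP (S : Set ℂ)) (_hA : ∀ l, A l ⊆ (S : Set ℂ)) (hAC : ∀ l, A l ⊆ C l)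
    (hij : i ≠ j) (hik : i ≠ k) (hjk : j ≠ k) (hX : ∀ X, ¬ CtrX S C X)
    (ht : (b, v, y) ∈ delT S ∨ (v, b, y) ∈ delT S) (hy : y ∈ A k)
    (hv : v ∈ Clu S (fr S A \ (C i ∪ C k)) (A j)) (hb : b ∈ Clu S (fr S A \ (C j ∪ C k)) (A i)) :
    b ∈ C i ∧ v ∈ C j := by
  have hz := z3 i j k hij hik hjk
  -- free sites of `C`
  have f : ∀ {l m : ZMod 3} (_ : ∀ n, n = l ∨ n = m ∨ n = k) {w : ℂ},
      w ∈ (fr S A \ (C l ∪ C k)) ∪ A m → w ∉ C m → w ∈ fr S C := by
    intro l m hlm w hw hm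
    rcases hw with ⟨h1, h2⟩ | h1
    · refine ⟨h1.1, fun n => ?_⟩
      rcases hlm n with rfl | rfl | rfl
      · exact fun h => h2 (Or.inl h)
      · exact hm
      · exact fun h => h2 (Or.inr h)
    · exact absurd (hAC m h1) hm
  -- a component reaches the class
  have g : ∀ {l m : ZMod 3} (_ : ∀ n, n = l ∨ n = m ∨ n = k) {w : ℂ},
      w ∈ Clu S (fr S A \ (C l ∪ C k)) (A m) → w ∉ C m →
      w ∈ fr S C ∧ ∃ x ∈ cp S (fr S C) w, ∃ a ∈ C m, Adj S x a := by
    rintro l m hlm w ⟨a, ha, p⟩ hm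
    refine ⟨f hlm p.snd hm, ?_⟩
    obtain ⟨s, r, e1, e2, e3, e4⟩ := p.symm.exit (Q := fun z => z ∉ C m) hm
      (fun h => h (hAC m ha))
    refine ⟨s, e1.mono ?_, r, not_not.1 e4, e2⟩
    rintro w' ⟨h1, h2⟩
    exact f hlm h1 h2
  have hzv : ∀ n, n = i ∨ n = j ∨ n = k := hz
  have hzb : ∀ n, n = j ∨ n = i ∨ n = k := fun n => by
    rcases hz n with h | h | h
    · exact Or.inr (Or.inl h)
    · exact Or.inl h
    · exact Or.inr (Or.inr h)
  by_cases hv0 : v ∈ C j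
  · by_cases hb0 : b ∈ C i
    · exact ⟨hb0, hv0⟩
    · exfalso
      obtain ⟨hbf, hr⟩ := g hzb hb hb0
      refine hX (cp S (fr S C) b) ⟨fun n => ?_, cp_con, fun n => ?_⟩
      · exact Set.disjoint_left.2 fun w hw hw' => (cp_sub hw).2 n hw'
      · rcases hz n with rfl | rfl | rfl
        · exact hr
        · exact ⟨b, cp_self hbf, v, hv0, tri_bw ht⟩
        · exact ⟨b, cp_self hbf, y, hAC _ hy, tri_bz hS ht⟩
  · exfalso
    obtain ⟨hvf, hr⟩ := g hzv hv hv0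
    refine hX (cp S (fr S C) v) ⟨fun n => ?_, cp_con, fun n => ?_⟩
    · exact Set.disjoint_left.2 fun w hw hw' => (cp_sub hw).2 n hw'
    · rcases hz n with rfl | rfl | rfl
      · by_cases hb0 : b ∈ C n
        · exact ⟨v, cp_self hvf, b, hb0, (tri_bw ht).symm⟩
        · obtain ⟨hbf, x, hx, a, ha, hxa⟩ := g hzb hb hb0
          have h1 : Pth S (fr S C) v b := Pth.single hvf (tri_bw ht).symm hbf
          exact ⟨x, h1.trans hx, a, ha, hxa⟩
      · exact hr
      · exact ⟨v, cp_self hvf, y, hAC _ hy, tri_bz hS (Or.symm ht)⟩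

/-- **(F)**, general form -/
theorem fresh_gen (hAS : ∀ l, A' l ⊆ (S : Set ℂ)) (hAA : ∀ l, A l ⊆ A' l)
    (hd : ∀ l m, l ≠ m → Disjoint (A' l) (A' m)) (hc : ∀ x ∈ A' j, ∀ y ∈ A' j, Pth S (A' j) x y)
    (hij : i ≠ j) (hik : i ≠ k) (hjk : j ≠ k) (hCi : C i ⊆ A' i ∪ (fr S A' ∩ T))
    (hCk : C k ⊆ A' k) (hv : v ∈ Clu S (fr S A \ T) (A j))
    (hn : v ∉ Clu S (fr S A \ (C i ∪ C k)) (A j)) :
    ∃ z, z ∈ C i ∪ C k ∧ z ∈ A' i ∪ A' k ∧ z ∈ fr S A ∧ z ∉ T ∧
      Pth S ({v | v ∈ fr S A ∧ v ∉ T ∧ v ∉ Clu S (fr S A' \ T) (A' j)}) z v := by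
  have hz := z3 i j k hij hik hjk
  have dj : ∀ {l m : ZMod 3}, l ≠ m → ∀ {w}, w ∈ A' l → w ∉ A' m := fun h w hw =>
    Set.disjoint_left.1 (hd _ _ h) hw
  obtain ⟨a0, ha0, p⟩ := hv
  set V : Set ℂ := (fr S A \ T) ∪ A j with hV
  set D : Set ℂ := Clu S (fr S A' \ T) (A' j) with hD
  -- sites of the barriers on the white side
  have b1 : ∀ w, w ∈ V → w ∈ C i ∪ C k → w ∈ A' i ∪ A' k ∧ w ∈ fr S A ∧ w ∉ T ∧ w ∉ D := by
    intro w hw hw'
    have e1 : w ∈ A' i ∪ A' k := by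
      rcases hw' with h | h
      · rcases hCi h with h | ⟨h1, h2⟩
        · exact Or.inl h
        · exfalso
          rcases hw with h3 | h3
          · exact h3.2 h2
          · exact h1.2 j (hAA j h3)
      · exact Or.inr (hCk h)
    have e2 : w ∉ A' j := by
      rcases e1 with h | h
      · exact dj hij h
      · exact dj (Ne.symm hjk) h
    have e3 : w ∈ fr S A ∧ w ∉ T := by
      rcases hw with h | h
      · exact h
      · exact absurd (hAA j h) e2
    refine ⟨e1, e3.1, e3.2, ?_⟩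
    intro h
    rcases clu_sub h with h4 | h4
    · rcases e1 with h5 | h5
      · exact h4.1.2 i h5
      · exact h4.1.2 k h5
    · exact e2 h4
  -- the white cluster of the small domain misses the barriers
  have b2 : ((fr S A' \ T) ∪ A' j : Set ℂ) ⊆ (fr S A \ (C i ∪ C k)) ∪ A j := by
    intro w hw
    have e1 : ∀ l, w ∉ A l ∨ l = j := by
      intro l
      by_cases hl : l = j
      · exact Or.inr hl
      · left
        intro h
        rcases hw with h1 | h1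
        · exact h1.1.2 l (hAA l h)
        · exact dj hl (hAA l h) h1
    have e2 : w ∈ S := by
      rcases hw with h1 | h1
      · exact h1.1.1
      · exact hAS j h1
    have e3 : w ∉ C i ∪ C k := by
      rintro (h | h)
      · rcases hCi h with h3 | h3
        · rcases hw with h1 | h1
          · exact h1.1.2 i h3
          · exact dj hij h3 h1
        · rcases hw with h1 | h1
          · exact h1.2 h3.2
          · exact h3.1.2 j h1
      · have h3 := hCk h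
        rcases hw with h1 | h1
        · exact h1.1.2 k h3
        · exact dj (Ne.symm hjk) h3 h1
    by_cases hwj : w ∈ A j
    · exact Or.inr hwj
    · left
      refine ⟨⟨e2, fun l => ?_⟩, e3⟩
      rcases e1 l with h | rfl
      · exact h
      · exact hwj
  by_cases hvC : v ∈ C i ∪ C k
  · obtain ⟨h1, h2, h3, h4⟩ := b1 v p.snd hvC
    exact ⟨v, hvC, h1, h2, h3, Pth.refl ⟨h2, h3, h4⟩⟩
  have hvV : v ∈ V \ (C i ∪ C k) := ⟨p.snd, hvC⟩
  have hVs : V \ (C i ∪ C k) ⊆ (fr S A \ (C i ∪ C k)) ∪ A j := by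
    rintro w ⟨h1 | h1, h2⟩
    · exact Or.inl ⟨h1.1, h2⟩
    · exact Or.inr h1
  have ha : ¬ Pth S (V \ (C i ∪ C k)) v a0 := fun h =>
    hn ⟨a0, ha0, (h.mono hVs).symm⟩
  obtain ⟨s, r, e1, e2, e3, e4⟩ := p.symm.exit (Q := fun z => Pth S (V \ (C i ∪ C k)) v z)
    (Pth.refl hvV) ha
  have hr : r ∈ C i ∪ C k := by
    by_contra h
    have h1 : Pth S (V \ (C i ∪ C k)) v s := by
      have := e1.snd
      exact this.2
    exact e4 (h1.tail e2 ⟨e3, h⟩)
  obtain ⟨h1, h2, h3, h4⟩ := b1 r e3 hr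
  -- the tail is fresh
  have key : ∀ w, w ∈ V → Pth S (V \ (C i ∪ C k)) v w → w ∈ fr S A ∧ w ∉ T ∧ w ∉ D := by
    intro w hw hp
    have hwD : w ∉ D := by
      rintro ⟨x, hx, hxw⟩
      have q : Pth S ((fr S A' \ T) ∪ A' j) a0 w :=
        ((hc a0 (hAA j ha0) x hx).mono Set.subset_union_right).trans hxw
      exact hn ⟨a0, ha0, (q.mono b2).trans (hp.mono hVs).symm⟩
    have hwj : w ∉ A j := fun h => hwD (mem_clu (hAA j h))
    rcases hw with h | h
    · exact ⟨h.1, h.2, hwD⟩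
    · exact absurd h hwj
  refine ⟨r, hr, h1, h2, h3, ?_⟩
  have e5 : Pth S {v | v ∈ fr S A ∧ v ∉ T ∧ v ∉ D} v s := by
    refine e1.mono ?_
    rintro w ⟨hw, hp⟩
    exact key w hw hp
  exact (e5.tail e2 ⟨h2, h3, h4⟩).symm

/-! ### the leaves of K33D_877 -/

theorem vt_rots {t t' : ℂ × ℂ × ℂ} (h : t' ∈ rots t) {v : ℂ} (hv : Vt t v) : Vt t' v := by
  obtain ⟨a, b, c⟩ := t
  unfold Vt at hv ⊢
  rcases h with rfl | rfl | h
  · exact hv
  · rcases hv with h | h | h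
    · exact Or.inr (Or.inr h)
    · exact Or.inl h
    · exact Or.inr (Or.inl h)
  · rw [Set.mem_singleton_iff] at h
    subst h
    rcases hv with h | h | h
    · exact Or.inr (Or.inl h)
    · exact Or.inr (Or.inr h)
    · exact Or.inl h

/-- the triangle of (T) as a centre of the big classes -/
theorem ctrT_of {C : ZMod 3 → Set ℂ} (hij : i ≠ j) (hik : i ≠ k) (hjk : j ≠ k) (hb : b ∈ C i)
    (hv : v ∈ C j) (hy : y ∈ C k) (ht : (b, v, y) ∈ delT S ∨ (v, b, y) ∈ delT S) :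
    ∃ t, CtrT S C t ∧ Vt t b ∧ Vt t v ∧ Vt t y := by
  have hz := z3 i j k hij hik hjk
  rcases ht with h | h
  · refine ⟨(b, v, y), ⟨h, fun l => ?_⟩, Or.inl rfl, Or.inr (Or.inl rfl), Or.inr (Or.inr rfl)⟩
    rcases hz l with rfl | rfl | rfl
    · exact ⟨b, Or.inl rfl, hb⟩
    · exact ⟨v, Or.inr (Or.inl rfl), hv⟩
    · exact ⟨y, Or.inr (Or.inr rfl), hy⟩
  · refine ⟨(v, b, y), ⟨h, fun l => ?_⟩, Or.inr (Or.inl rfl), Or.inl rfl, Or.inr (Or.inr rfl)⟩
    rcases hz l with rfl | rfl | rfl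
    · exact ⟨b, Or.inr (Or.inl rfl), hb⟩
    · exact ⟨v, Or.inl rfl, hv⟩
    · exact ⟨y, Or.inr (Or.inr rfl), hy⟩


/-- **leaf FRESH** -/
theorem fresh : FRESH := by
  intro S A A' C hA hA' hAA i j k hij hik hjk T hCi hCk v1 hv hn
  exact fresh_gen hA'.sub hAA hA'.disj (hA'.con j) hij hik hjk hCi hCk hv hn

end Crest.Agent.R143.ContTx571
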