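import Crest.Agent.R143.ArmP_930

/-!
# Row 143 (S0194), CONT (3308 / 3434): fresh arms (helper920)

Probability half of the comparison leaf CONT, independent of the way the exploration is described.
* `DecF V J Z` : the value `Z β` only depends on the explored colours
* `fresh_gen` : strong Markov property for events of the fresh colours, union over explored points
* `fresh_le`, `fresh_le'` : black / white fresh arm from an explored point
* `WArm` : a white chain of non explored sites across an annulus; `BArm` : a black one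
* `far_le` : the union bound of CONT
-/

set_option autoImplicit false

noncomputable section

open scoped Classical

namespace Crest.Agent.R143.Freshx920

open Finset
open Crest.Agent.R143.Harx315
open Crest.Agent.R143.D3Fx802 (CArm)
open Crest.Agent.R143.Lawx872 (ConnIn)

section abstractpart

variable {α γ : Type*} {V : Finset α} {J : Finset α → Finset α} {A B : Finset α → Prop}

/-- the value `Z β` only depends on the colours which are explored by `J` -/
def DecF (V : Finset α) (J : Finset α → Finset α) (Z : Finset α → γ) : Prop :=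
  ∀ β β', β ⊆ V → β' ⊆ V → β ∩ J β = β' ∩ J β → Z β' = Z β

lemma DecF.const (z : γ) : DecF V J (fun _ => z) := fun _ _ _ _ _ => rfl

lemma DecF.comp {δ : Type*} {Z : Finset α → γ} (h : DecF V J Z) (f : γ → δ) :
    DecF V J (fun β => f (Z β)) := fun β β' h1 h2 h3 => congrArg f (h β β' h1 h2 h3)

lemma DecF.pair {δ : Type*} {Z : Finset α → γ} {Z' : Finset α → δ} (h : DecF V J Z)
    (h' : DecF V J Z') : DecF V J (fun β => (Z β, Z' β)) := fun β β' h1 h2 h3 =>
  Prod.ext (h β β' h1 h2 h3) (h' β β' h1 h2 h3)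

lemma DecF.decided {Z : Finset α → γ} (h : DecF V J Z) (P : γ → Prop) :
    Decided V J (fun β => P (Z β)) := fun β β' h1 h2 h3 => by
  show P (Z β) ↔ P (Z β')
  rw [h β β' h1 h2 h3]







/-- glueing of explored and fresh colours -/
lemma glue (hJ : IsStop V J) {β0 β : Finset α} (h0 : β0 ⊆ V) (hβ : β ⊆ V \ J β0) :
    β ∪ (β0 ∩ J β0) ⊆ V ∧ β0 ∩ J β0 = (β ∪ (β0 ∩ J β0)) ∩ J β0 ∧
      J (β ∪ (β0 ∩ J β0)) = J β0 ∧ (β ∪ (β0 ∩ J β0)) \ J β0 = β := by
  have h1 : β ∪ (β0 ∩ J β0) ⊆ V :=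
    union_subset (hβ.trans sdiff_subset) (inter_subset_left.trans h0)
  have h2 : β0 ∩ J β0 = (β ∪ (β0 ∩ J β0)) ∩ J β0 := by
    ext y
    simp only [mem_inter, mem_union]
    constructor
    · rintro ⟨h3, h4⟩; exact ⟨Or.inr ⟨h3, h4⟩, h4⟩
    · rintro ⟨h3 | h3, h4⟩
      · exact absurd h4 (mem_sdiff.1 (hβ h3)).2
      · exact ⟨h3.1, h4⟩
  refine ⟨h1, h2, hJ.stop β0 _ h0 h1 h2, ?_⟩
  ext y
  simp only [mem_inter, mem_union, mem_sdiff]
  constructor
  · rintro ⟨h3 | h3, h4⟩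
    · exact h3
    · exact absurd h3.2 h4
  · intro h3
    exact ⟨Or.inl h3, (mem_sdiff.1 (hβ h3)).2⟩

/-- **strong Markov property**, union over at most `k` explored labels, events of the fresh
colours -/
theorem fresh_gen (hJ : IsStop V J) (hA : Decided V J A) {Z : Finset α → Finset γ}
    (hZ : DecF V J Z) {k : ℕ} (hk : ∀ β ⊆ V, A β → (Z β).card ≤ k) {q : ℝ} (hq : 0 ≤ q)
    {F : γ → Finset α → Finset α → Prop}
    (hF : ∀ β ⊆ V, A β → ∀ z ∈ Z β, pr (V \ J β) (F z (J β)) ≤ q) :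
    pr V (fun β => A β ∧ ∃ z ∈ Z β, F z (J β) (β \ J β)) ≤ k * q * pr V A := by
  refine stop_le' hJ hA (B := fun β => ∃ z ∈ Z β, F z (J β) (β \ J β)) ?_
  intro β0 h0 hA0
  have h1 : pr (V \ J β0) (fun β => ∃ z ∈ Z (β ∪ (β0 ∩ J β0)),
      F z (J (β ∪ (β0 ∩ J β0))) ((β ∪ (β0 ∩ J β0)) \ J (β ∪ (β0 ∩ J β0)))) =
      pr (V \ J β0) (fun β => ∃ z ∈ Z β0, F z (J β0) β) := by
    refine pr_congr fun β hβ => ?_
    obtain ⟨g1, g2, g3, g4⟩ := glue hJ h0 hβ
    rw [hZ β0 _ h0 g1 g2, g3, g4]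
  rw [h1]
  refine (pr_exists_le (Z β0) fun z => F z (J β0)).trans ?_
  calc ∑ z ∈ Z β0, pr (V \ J β0) (F z (J β0)) ≤ ∑ _z ∈ Z β0, q :=
        sum_le_sum fun z hz => hF β0 h0 hA0 z hz
    _ = (Z β0).card * q := by rw [sum_const, nsmul_eq_mul]
    _ ≤ k * q := by
        have : ((Z β0).card : ℝ) ≤ k := by exact_mod_cast hk β0 h0 hA0
        exact mul_le_mul_of_nonneg_right this hq

/-- one explored label -/
theorem fresh_one (hJ : IsStop V J) (hA : Decided V J A) {Z : Finset α → γ}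
    (hZ : DecF V J Z) {q : ℝ} {F : γ → Finset α → Finset α → Prop}
    (hF : ∀ β ⊆ V, A β → pr (V \ J β) (F (Z β) (J β)) ≤ q) :
    pr V (fun β => A β ∧ F (Z β) (J β) (β \ J β)) ≤ q * pr V A := by
  refine stop_le' hJ hA (B := fun β => F (Z β) (J β) (β \ J β)) ?_
  intro β0 h0 hA0
  have h1 : pr (V \ J β0) (fun β => F (Z (β ∪ (β0 ∩ J β0)))
      (J (β ∪ (β0 ∩ J β0))) ((β ∪ (β0 ∩ J β0)) \ J (β ∪ (β0 ∩ J β0)))) =
      pr (V \ J β0) (fun β => F (Z β0) (J β0) β) := by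
    refine pr_congr fun β hβ => ?_
    obtain ⟨g1, g2, g3, g4⟩ := glue hJ h0 hβ
    rw [hZ β0 _ h0 g1 g2, g3, g4]
  rw [h1]
  exact hF β0 h0 hA0

/-- complement inside the fresh set -/
lemma sdiff_fresh (β W : Finset α) : (V \ W) \ (β \ W) = (V \ W) \ β := by
  ext y
  simp only [mem_sdiff]
  tauto

end abstractpart

/-! ### arms -/

variable {S V : Finset ℂ} {J : Finset ℂ → Finset ℂ} {A : Finset ℂ → Prop}
  {Z : Finset ℂ → Finset ℂ} {r R q : ℝ} {k : ℕ}


/-- white chain of non explored sites across `A(z; r, R)` -/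
def WArm (S V : Finset ℂ) (J : Finset ℂ → Finset ℂ) (z : ℂ) (r R : ℝ) (β : Finset ℂ) : Prop :=
  CArm S ((V \ J β) \ β) z r R




theorem carm_radii {β : Finset ℂ} {z : ℂ} {r' R' : ℝ} (h1 : r ≤ r') (h2 : R' ≤ R)
    (hc : CArm S β z r R) : CArm S β z r' R' := by
  obtain ⟨x, y, h3, h4, h5, h6, h7⟩ := hc
  exact ⟨x, y, h3, h4, h5.trans h1, h2.trans h6, h7⟩

/-- move the centre of the annulus -/
theorem carm_move {β : Finset ℂ} {z z' : ℂ} {s : ℝ} (hz : ‖z - z'‖ ≤ s) (hc : CArm S β z r R) :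
    CArm S β z' (r + s) (R - s) := by
  obtain ⟨x, y, h3, h4, h5, h6, h7⟩ := hc
  refine ⟨x, y, h3, h4, ?_, ?_, h7⟩
  · calc ‖x - z'‖ = ‖(x - z) + (z - z')‖ := by ring_nf
      _ ≤ ‖x - z‖ + ‖z - z'‖ := norm_add_le _ _
      _ ≤ r + s := add_le_add h5 hz
  · have : ‖y - z‖ ≤ ‖y - z'‖ + ‖z - z'‖ := by
      calc ‖y - z‖ = ‖(y - z') - (z - z')‖ := by ring_nf
        _ ≤ ‖y - z'‖ + ‖z - z'‖ := norm_sub_le _ _
    linarith

/-- unconditional black / white arm -/
theorem arm_white {z : ℂ} (h : pr V (fun β => CArm S β z r R) ≤ q) :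
    pr V (fun β => CArm S (V \ β) z r R) ≤ q := by
  rw [pr_flip V fun β => CArm S β z r R]
  exact h

end Crest.Agent.R143.Freshx920
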