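import Crest.Agent.R143.NetU_346
import Crest.Agent.R143.Loc_922

/-!
# Row 143 (S0194), K8': the static total depends on the free component and on the labels next to
it only (helper700; objects of 346's `NetU_346`)

`V` a finite set of free sites, `lab` labels of the sites next to `V`.
* `bd S V` : sites off `V` next to `V`; `Lay S V lab i` : those with the label `i`
* `CluV S V lab i T` : sites of this layer and sites of `V ∩ T` joined to it inside `V ∩ T`
* `HitV S V lab i T t` : oriented triangle `t = (u, b, w)`, `u` in the layer `i`, `b` joined to the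
  layer `i + 1` by `T`, `w` joined to the layer `i + 2` off `T`, `b` or `w` in `V`
* `sT S V lab z` : the total `3 ∑ i, om ^ i * E z (u_i)`, fair colours in `V`
* `Cmp S V lab A` : `V` is a union of components of the free sites of `A`, next to `V` the classes
  are given by `lab`
* **`TS_sT`** : `TS S A z = sT S V lab z` if all the hits have a vertex in `V`; **`hit_V`** : true if
  `V` is a centre (no positive rainbow triangle, every centre meets `V`)
* **`sT_congr`, `sT_local`** : `sT` depends on the triangles with a vertex in `V` only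
-/

set_option autoImplicit false
set_option linter.all false

noncomputable section

open scoped Classical

namespace Crest.Agent.R143.LocTx700

open Crest.Agent.R143.B0x346 Crest.Agent.R143.DelGx806 Crest.Agent.R143.DelRx806
open Crest.Agent.R143.JColx54 Crest.Agent.R143.K33x877
open Crest.Agent.R143.RE0x723 (Pth)
open Crest.Agent.R143.NetUx346
open Crest.Agent.R143.Locx922 (Hol Agr delT_vertex delT_vertex2 delT_vertex3)

variable {S S' V : Finset ℂ} {lab lab' : ℂ → ZMod 3} {A : ZMod 3 → Set ℂ} {i : ZMod 3} {T : Set ℂ}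
  {b w u x y : ℂ} {t : ℂ × ℂ × ℂ}

/-- the sites next to `V` -/
def bd (S V : Finset ℂ) : Finset ℂ := S.filter fun x => x ∉ V ∧ ∃ w ∈ V, Adj S w x

/-- the sites next to `V` with the label `i` -/
def Lay (S V : Finset ℂ) (lab : ℂ → ZMod 3) (i : ZMod 3) : Set ℂ := {x | x ∈ bd S V ∧ lab x = i}

/-- sites of the layer `i`, and sites of `V ∩ T` joined to it -/
def CluV (S V : Finset ℂ) (lab : ℂ → ZMod 3) (i : ZMod 3) (T : Set ℂ) : Set ℂ :=
  {b | b ∈ Lay S V lab i ∨ ∃ x ∈ Lay S V lab i, ∃ y, Adj S x y ∧ Pth S ((V : Set ℂ) ∩ T) y b}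

/-- the oriented hit triple -/
structure HitV (S V : Finset ℂ) (lab : ℂ → ZMod 3) (i : ZMod 3) (T : Set ℂ) (t : ℂ × ℂ × ℂ) :
    Prop where
  tri : t ∈ delT S
  hu : t.1 ∈ Lay S V lab i
  hb : t.2.1 ∈ CluV S V lab (i + 1) T
  hw : t.2.2 ∈ CluV S V lab (i + 2) Tᶜ
  inn : t.2.1 ∈ V ∨ t.2.2 ∈ V

/-- the hit triples -/
def hitsV (S V : Finset ℂ) (lab : ℂ → ZMod 3) (i : ZMod 3) (T : Set ℂ) : Finset (ℂ × ℂ × ℂ) :=
  (delT S).filter (HitV S V lab i T)



theorem mem_bd : x ∈ bd S V ↔ x ∈ S ∧ x ∉ V ∧ ∃ w ∈ V, Adj S w x := by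
  unfold bd
  rw [Finset.mem_filter]

theorem mem_bd_of (hx : x ∉ V) (hw : w ∈ V) (h : Adj S w x) : x ∈ bd S V :=
  mem_bd.2 ⟨h.mem.2, hx, w, hw, h⟩

theorem mem_hitsV : t ∈ hitsV S V lab i T ↔ HitV S V lab i T t := by
  unfold hitsV
  rw [Finset.mem_filter]
  exact ⟨fun h => h.2, fun h => ⟨h.tri, h⟩⟩

theorem adj_all (hS : GP (S : Set ℂ)) {a b c : ℂ} (h : (a, b, c) ∈ delT S) :
    Adj S a b ∧ Adj S b c ∧ Adj S c a := ⟨adj_tri h, adj_tri' hS h, adj_tri'' hS h⟩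

/-! ### classes with free component `V` -/

/-- `V` is a union of components of the free sites of `A`; the labels next to `V` are `lab` -/
structure Cmp (S V : Finset ℂ) (lab : ℂ → ZMod 3) (A : ZMod 3 → Set ℂ) : Prop where
  sub : ∀ v ∈ V, v ∈ fr S A
  cl : ∀ v ∈ V, ∀ w ∈ fr S A, Adj S v w → w ∈ V
  lab : ∀ x ∈ bd S V, x ∈ A (lab x)

/-- if the free sites are exactly `V` -/
theorem Cmp.of_eq (h : ff S A = V) (hl : ∀ x ∈ bd S V, x ∈ A (lab x)) : Cmp S V lab A := by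
  subst h
  exact ⟨fun v hv => mem_ff.1 hv, fun v _ w hw _ => mem_ff.2 hw, hl⟩

theorem Cmp.lay (h : Cmp S V lab A) (hd : ∀ i j, i ≠ j → Disjoint (A i) (A j)) :
    x ∈ Lay S V lab i ↔ x ∈ bd S V ∧ x ∈ A i := by
  constructor
  · rintro ⟨h1, rfl⟩
    exact ⟨h1, h.lab x h1⟩
  · rintro ⟨h1, h2⟩
    refine ⟨h1, ?_⟩
    by_contra h3
    exact Set.disjoint_left.1 (hd _ _ h3) (h.lab x h1) h2

theorem Cmp.notV (h : Cmp S V lab A) (hx : x ∈ A i) : x ∉ V := fun hV => (h.sub x hV).2 i hx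

/-- the clusters agree on `V` and next to `V` -/
theorem Cmp.clu (h : Cmp S V lab A) (hd : ∀ i j, i ≠ j → Disjoint (A i) (A j)) {T : Set ℂ}
    (hb : b ∈ V ∨ b ∈ bd S V) :
    b ∈ CluV S V lab i T ↔ b ∈ Clu S (fr S A ∩ T) (A i) := by
  constructor
  · rintro (h1 | ⟨x, hx, y, hxy, hp⟩)
    · exact ⟨b, ((h.lay hd).1 h1).2, Pth.refl (Or.inr ((h.lay hd).1 h1).2)⟩
    · have h2 := ((h.lay hd).1 hx).2
      have hm : ((V : Set ℂ) ∩ T) ⊆ fr S A ∩ T ∪ A i := by
        rintro v ⟨h3, h4⟩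
        exact Or.inl ⟨h.sub v h3, h4⟩
      refine ⟨x, h2, ?_⟩
      have h3 : Pth S (fr S A ∩ T ∪ A i) x y := Pth.single (Or.inr h2) hxy (hm hp.1)
      exact h3.trans (hp.mono hm)
  · rintro ⟨x, hx, hp⟩
    -- along the path: off `V`, or joined
    have key : (b ∈ V ∧ ∃ x ∈ Lay S V lab i, ∃ y, Adj S x y ∧ Pth S ((V : Set ℂ) ∩ T) y b) ∨
        (b ∉ V ∧ (b ∈ bd S V → b ∈ A i)) := by
      refine hp.ind (P := fun b =>
        (b ∈ V ∧ ∃ x ∈ Lay S V lab i, ∃ y, Adj S x y ∧ Pth S ((V : Set ℂ) ∩ T) y b) ∨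
        (b ∉ V ∧ (b ∈ bd S V → b ∈ A i))) (Or.inr ⟨h.notV hx, fun _ => hx⟩) ?_
      rintro a c ha hc hac ih
      by_cases hcV : c ∈ V
      · left
        have hcT : c ∈ (V : Set ℂ) ∩ T := by
          rcases hc with hc | hc
          · exact ⟨hcV, hc.2⟩
          · exact absurd hcV (h.notV hc)
        refine ⟨hcV, ?_⟩
        rcases ih with ⟨-, x, hx, y, hxy, hp⟩ | ⟨h1, h2⟩
        · exact ⟨x, hx, y, hxy, hp.tail hac hcT⟩
        · have h3 : a ∈ bd S V := mem_bd_of h1 hcV hac.symm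
          exact ⟨a, (h.lay hd).2 ⟨h3, h2 h3⟩, c, hac, Pth.refl hcT⟩
      · right
        refine ⟨hcV, fun hcb => ?_⟩
        rcases hc with hc | hc
        · exact absurd (h.lab c hcb) (hc.1.2 _)
        · exact hc
    rcases key with ⟨-, h1⟩ | ⟨h1, h2⟩
    · exact Or.inr h1
    · left
      have hb' : b ∈ bd S V := hb.resolve_left h1
      exact (h.lay hd).2 ⟨hb', h2 hb'⟩

/-- **the hits of the labelled free set are the hits of the classes with a vertex in `V`** -/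
theorem hit_iff (hS : GP (S : Set ℂ)) (h : Cmp S V lab A)
    (hd : ∀ i j, i ≠ j → Disjoint (A i) (A j)) {T : Set ℂ} :
    HitV S V lab i T t ↔ HitO S A i T t ∧ (t.2.1 ∈ V ∨ t.2.2 ∈ V) := by
  obtain ⟨u, b, w⟩ := t
  have e1 : ∀ T : Set ℂ, fr S A \ T = fr S A ∩ Tᶜ := fun T => Set.sdiff_eq _ _
  have side : (u, b, w) ∈ delT S → (b ∈ V ∨ w ∈ V) →
      (b ∈ V ∨ b ∈ bd S V) ∧ (w ∈ V ∨ w ∈ bd S V) ∧ (u ∉ V → u ∈ bd S V) := by
    intro h1 h5
    obtain ⟨a1, a2, a3⟩ := adj_all hS h1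
    refine ⟨?_, ?_, ?_⟩
    · by_cases hb : b ∈ V
      · exact Or.inl hb
      · exact Or.inr (mem_bd_of hb (h5.resolve_left hb) a2.symm)
    · by_cases hw : w ∈ V
      · exact Or.inl hw
      · exact Or.inr (mem_bd_of hw (h5.resolve_right hw) a2)
    · intro hu
      rcases h5 with h5 | h5
      · exact mem_bd_of hu h5 a1.symm
      · exact mem_bd_of hu h5 a3
  constructor
  · rintro ⟨h1, h4, h2, h3, h5⟩
    obtain ⟨s1, s2, -⟩ := side h1 h5
    refine ⟨⟨h1, ((h.lay hd).1 h4).2, (h.clu hd s1).1 h2, ?_⟩, h5⟩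
    show w ∈ Clu S (fr S A \ T) (A (i + 2))
    rw [e1]
    exact (h.clu hd s2).1 h3
  · rintro ⟨⟨h1, h4, h2, h3⟩, h5⟩
    obtain ⟨s1, s2, s3⟩ := side h1 h5
    have h3' : w ∈ Clu S (fr S A ∩ Tᶜ) (A (i + 2)) := by
      rw [← e1]
      exact h3
    exact ⟨h1, (h.lay hd).2 ⟨s3 (h.notV h4), h4⟩, (h.clu hd s1).2 h2, (h.clu hd s2).2 h3', h5⟩

/-! ### means -/

/-- the mean of a function of the colours of `W ⊆ V` -/
theorem exC_dep {V W : Finset ℂ} (h : W ⊆ V) (f : Finset ℂ → ℂ) :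
    exC V (fun T => f (T ∩ W)) = exC W f := by
  unfold exC
  have h1 : ∑ T ∈ V.powerset, f (T ∩ W) =
      ∑ P ∈ W.powerset ×ˢ (V \ W).powerset, f P.1 := by
    symm
    refine Finset.sum_bij' (fun P _ => P.1 ∪ P.2) (fun T _ => (T ∩ W, T \ W)) ?_ ?_ ?_ ?_ ?_
    · rintro ⟨a, c⟩ hP
      rw [Finset.mem_product, Finset.mem_powerset, Finset.mem_powerset] at hP
      rw [Finset.mem_powerset]
      exact Finset.union_subset (hP.1.trans h) (hP.2.trans Finset.sdiff_subset)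
    · intro T hT
      rw [Finset.mem_powerset] at hT
      rw [Finset.mem_product, Finset.mem_powerset, Finset.mem_powerset]
      exact ⟨Finset.inter_subset_right, Finset.sdiff_subset_sdiff hT subset_rfl⟩
    · rintro ⟨a, c⟩ hP
      rw [Finset.mem_product, Finset.mem_powerset, Finset.mem_powerset] at hP
      have hc : ∀ x ∈ c, x ∉ W := fun x hx => (Finset.mem_sdiff.1 (hP.2 hx)).2
      refine Prod.ext ?_ ?_
      · ext x
        simp only [Finset.mem_inter, Finset.mem_union]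
        constructor
        · rintro ⟨h1 | h1, h2⟩
          · exact h1
          · exact absurd h2 (hc x h1)
        · exact fun h1 => ⟨Or.inl h1, hP.1 h1⟩
      · ext x
        simp only [Finset.mem_sdiff, Finset.mem_union]
        constructor
        · rintro ⟨h1 | h1, h2⟩
          · exact absurd (hP.1 h1) h2
          · exact h1
        · exact fun h1 => ⟨Or.inr h1, hc x h1⟩
    · intro T hT
      ext x
      simp only [Finset.mem_union, Finset.mem_inter, Finset.mem_sdiff]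
      tauto
    · rintro ⟨a, c⟩ hP
      rw [Finset.mem_product, Finset.mem_powerset, Finset.mem_powerset] at hP
      have hc : ∀ x ∈ c, x ∉ W := fun x hx => (Finset.mem_sdiff.1 (hP.2 hx)).2
      congr 1
      ext x
      simp only [Finset.mem_inter, Finset.mem_union]
      constructor
      · exact fun h1 => ⟨Or.inl h1, hP.1 h1⟩
      · rintro ⟨h1 | h1, h2⟩
        · exact h1
        · exact absurd h2 (hc x h1)
  rw [h1, Finset.sum_product, Finset.sum_congr rfl fun a _ => Finset.sum_const _, ]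
  have h2 : V.card = W.card + (V \ W).card := by
    rw [Finset.card_sdiff_of_subset h]
    have := Finset.card_le_card h
    omega
  rw [Finset.card_powerset, ← Finset.smul_sum, h2, pow_add]
  rw [nsmul_eq_mul]
  push_cast
  field_simp

theorem cluV_inter : CluV S V lab i (T ∩ (V : Set ℂ)) = CluV S V lab i T := by
  have e : (V : Set ℂ) ∩ (T ∩ (V : Set ℂ)) = (V : Set ℂ) ∩ T := by
    ext v
    simp only [Set.mem_inter_iff]
    tauto
  unfold CluV
  rw [e]

theorem cluV_inter' : CluV S V lab i (T ∩ (V : Set ℂ))ᶜ = CluV S V lab i Tᶜ := by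
  have e : (V : Set ℂ) ∩ (T ∩ (V : Set ℂ))ᶜ = (V : Set ℂ) ∩ Tᶜ := by
    ext v
    simp only [Set.mem_inter_iff, Set.mem_compl_iff]
    tauto
  unfold CluV
  rw [e]

theorem hitsV_inter : hitsV S V lab i (T ∩ (V : Set ℂ)) = hitsV S V lab i T := by
  ext t
  rw [mem_hitsV, mem_hitsV]
  constructor
  · rintro ⟨h1, h2, h3, h4, h5⟩
    rw [cluV_inter] at h3
    rw [cluV_inter'] at h4
    exact ⟨h1, h2, h3, h4, h5⟩
  · rintro ⟨h1, h2, h3, h4, h5⟩
    refine ⟨h1, h2, ?_, ?_, h5⟩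
    · rw [cluV_inter]; exact h3
    · rw [cluV_inter']; exact h4

/-- all the hits have a vertex in `V` -/
def InV (S V : Finset ℂ) (A : ZMod 3 → Set ℂ) : Prop :=
  ∀ i, ∀ T : Finset ℂ, T ⊆ ff S A → ∀ t, HitO S A i (T : Set ℂ) t → t.2.1 ∈ V ∨ t.2.2 ∈ V



/-! ### all the hits are in `V` if `V` is a centre -/

theorem clu_cases {T B : Set ℂ} (h : b ∈ Clu S T B) : b ∈ B ∨
    ∃ x ∈ B, ∃ y, Adj S x y ∧ Pth S T y b := by
  obtain ⟨x, hx, hp⟩ := h
  refine hp.ind (P := fun b => b ∈ B ∨ ∃ x ∈ B, ∃ y, Adj S x y ∧ Pth S T y b) (Or.inl hx) ?_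
  rintro a c ha hc hac ih
  rcases hc with hc | hc
  · right
    rcases ih with h1 | ⟨x, hx, y, hxy, hp⟩
    · exact ⟨a, h1, c, hac, Pth.refl hc⟩
    · exact ⟨x, hx, y, hxy, hp.tail hac hc⟩
  · exact Or.inl hc


/-! ### locality -/

/-- the same triangles with a vertex in `V` -/
def SameT (S S' V : Finset ℂ) : Prop := ∀ t : ℂ × ℂ × ℂ, (t.1 ∈ V ∨ t.2.1 ∈ V ∨ t.2.2 ∈ V) →
  (t ∈ delT S ↔ t ∈ delT S')

theorem SameT.symm (h : SameT S S' V) : SameT S' S V := fun t ht => (h t ht).symm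

theorem SameT.adj (h : SameT S S' V) {a b : ℂ} (ha : a ∈ V ∨ b ∈ V) : Adj S a b ↔ Adj S' a b := by
  unfold JColx54.Adj
  refine or_congr (exists_congr fun c => h _ ?_) (exists_congr fun c => h _ ?_)
  · rcases ha with ha | ha
    · exact Or.inl ha
    · exact Or.inr (Or.inl ha)
  · rcases ha with ha | ha
    · exact Or.inr (Or.inl ha)
    · exact Or.inl ha

theorem SameT.bd (h : SameT S S' V) : bd S V = bd S' V := by
  ext x
  rw [mem_bd, mem_bd]
  constructor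
  · rintro ⟨-, h2, w, hw, hwx⟩
    have h3 := (h.adj (Or.inl hw)).1 hwx
    exact ⟨h3.mem.2, h2, w, hw, h3⟩
  · rintro ⟨-, h2, w, hw, hwx⟩
    have h3 := (h.adj (Or.inl hw)).2 hwx
    exact ⟨h3.mem.2, h2, w, hw, h3⟩

theorem SameT.pth_imp (h : SameT S S' V) {W : Set ℂ} (hW : W ⊆ (V : Set ℂ)) (hp : Pth S W x y) :
    Pth S' W x y := by
  obtain ⟨hx, hp⟩ := hp
  refine ⟨hx, ?_⟩
  induction hp with
  | refl => exact Relation.ReflTransGen.refl
  | @tail p q h1 h2 ih =>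
    exact ih.tail ⟨(h.adj (Or.inr (hW h2.2))).1 h2.1, h2.2⟩

theorem SameT.pth (h : SameT S S' V) {W : Set ℂ} (hW : W ⊆ (V : Set ℂ)) :
    Pth S W x y ↔ Pth S' W x y := ⟨h.pth_imp hW, h.symm.pth_imp hW⟩

theorem SameT.lay (h : SameT S S' V) (hl : ∀ x ∈ LocTx700.bd S V, lab x = lab' x) (i : ZMod 3) :
    Lay S V lab i = Lay S' V lab' i := by
  ext x
  unfold Lay
  simp only [Set.mem_ofPred_eq]
  rw [← h.bd]
  constructor
  · rintro ⟨h1, h2⟩
    exact ⟨h1, (hl x h1) ▸ h2⟩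
  · rintro ⟨h1, h2⟩
    exact ⟨h1, (hl x h1).trans h2⟩

theorem SameT.cluV (h : SameT S S' V) (hl : ∀ x ∈ LocTx700.bd S V, lab x = lab' x) (i : ZMod 3)
    (T : Set ℂ) : CluV S V lab i T = CluV S' V lab' i T := by
  ext b
  unfold CluV
  simp only [Set.mem_ofPred_eq]
  rw [h.lay hl]
  refine or_congr Iff.rfl (exists_congr fun x => and_congr Iff.rfl (exists_congr fun y => ?_))
  constructor
  · rintro ⟨h1, h2⟩
    exact ⟨(h.adj (Or.inr h2.1.1)).1 h1, h.pth_imp Set.inter_subset_left h2⟩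
  · rintro ⟨h1, h2⟩
    exact ⟨(h.adj (Or.inr h2.1.1)).2 h1, h.symm.pth_imp Set.inter_subset_left h2⟩

theorem SameT.hitV_imp (h : SameT S S' V) (hl : ∀ x ∈ LocTx700.bd S V, lab x = lab' x)
    (ht : HitV S V lab i T t) : HitV S' V lab' i T t := by
  obtain ⟨h1, h2, h3, h4, h5⟩ := ht
  refine ⟨(h t (Or.inr h5)).1 h1, ?_, ?_, ?_, h5⟩
  · rw [← h.lay hl]; exact h2
  · rw [← h.cluV hl]; exact h3
  · rw [← h.cluV hl]; exact h4



theorem sameT_local {W : Set ℂ} {d : ℝ} (hd : 0 < d) (hH : Hol (S : Set ℂ) W d)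
    (hA : Agr (S : Set ℂ) (S' : Set ℂ) W (2 * d)) (hV : (V : Set ℂ) ⊆ W) : SameT S S' V := by
  rintro ⟨a, b, c⟩ (h | h | h)
  · exact delT_vertex hd hH hA (hV h)
  · exact delT_vertex2 hd hH hA (hV h)
  · exact delT_vertex3 hd hH hA (hV h)


/-- the sites next to `V` are within `2 d` of `V` -/
theorem bd_near {W : Set ℂ} {d : ℝ} (hd : 0 < d) (hH : Hol (S : Set ℂ) W d)
    (hV : (V : Set ℂ) ⊆ W) (hx : x ∈ bd S V) : ∃ w ∈ V, Adj S w x ∧ ‖x - w‖ < 2 * d := by
  obtain ⟨-, -, w, hw, h⟩ := mem_bd.1 hx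
  refine ⟨w, hw, h, ?_⟩
  rcases h with ⟨c, h⟩ | ⟨c, h⟩
  · have h1 := Locx922.del_side hd hH (hV hw) (Locx922.inD_self _ _ _) (mem_delT.1 h)
    rw [norm_sub_rev]; exact h1.1
  · exact (Locx922.del_side hd hH (hV hw) (Locx922.inD_snd _ _ _) (mem_delT.1 h)).1

end Crest.Agent.R143.LocTx700
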