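import Crest.Agent.R143.VisE_377_Mg
import Crest.Agent.R143.PolyE_854
import Crest.Agent.R143.VisD_877
import Crest.Agent.R143.K7_359
import Crest.Agent.R143.K7D_359
import Crest.Agent.R143.D4L_408

-- ▼ part R143/FinE_894
section

/-!
# Row 143 (S0194): what is left, third form (helper894)

* `leaf_det` : `HarmOne` (496), `DETQ id`, `DETQ conj` (877), `Rig` give the leaf
* `rig_of_t3` : 854's end of RIG
* `leaf_k7`, `leaf_k7_leaves` : `DETQ` from 359's `K7` and 877's `PG`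
-/

set_option autoImplicit false

noncomputable section

namespace Crest.Agent.R143.FinEx894

open Filter Topology
open Crest.ProbabilityR.Voronoi
open Crest.Agent.R143.B0x346 Crest.Agent.R143.B0Dx346 Crest.Agent.R143.GeoSeqPx422
open Crest.Agent.R143.AsmNx758 Crest.Agent.R143.Finx894 Crest.Agent.R143.PolyUx346
open Crest.Agent.R143.FinCx894 Crest.Agent.R143.FinDx894

theorem contB_det (h : HarmSx496.HarmOne) (hz : Mabx377.DETQ id) : ContB :=
  Mabx377.cont_we_det adP_ad h hz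

theorem contD_det (h : HarmSx496.HarmOne) (hz : Mabx377.DETQ (starRingEnd ℂ)) : ContD :=
  Mabx377.cont_wd_det adP_ad h hz



theorem detq_id (hK : K7Dx359.K7) (hP : VisDx877.PG) : Mabx377.DETQ id := VisDx877.detv_id hK hP

theorem detq_conj (hK : K7Dx359.K7) (hP : VisDx877.PG) : Mabx377.DETQ (starRingEnd ℂ) :=
  VisDx877.detv_conj hK hP



end Crest.Agent.R143.FinEx894
end
end

-- ▼ part R143/Comp_54

/-!
# Row 143 (S0194), CONT, (K7), leaf COMP (helper54)

* `far` : two bricks which do not touch have distance `≥ s`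
* `in_comp` : a point of a good brick at distance `< s` from a component is in the component
* **`comp : COMP`**
-/

set_option autoImplicit false

noncomputable section

open scoped Classical

namespace Crest.Agent.R143.Compx54

open Crest.Agent.R158.Sp896 (V lc rc pt ed sq Cyc)
open Crest.Agent.R143.JColx54 (Adj)
open Crest.Agent.R143.Brkx478 (Bk Nb Conn cells bk nb_iff)
open Crest.Agent.R143.Tenx416 (Pg)
open Crest.Agent.R143.NetVx346 (Vin)
open Crest.Agent.R143.K7Dx359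

variable {S : Finset ℂ} {A : ZMod 3 → Set ℂ} {x0 : ℂ} {L d s : ℝ} {U : Finset Bk}

/-- two bricks which do not touch have distance `≥ s` -/
theorem far (hs : 0 ≤ s) {q q' : V} (h1 : bk q ≠ bk q') (h2 : ¬ Nb (bk q) (bk q')) {z w : ℂ}
    (hz : z ∈ sq s q) (hw : w ∈ sq s q') : s ≤ ‖z - w‖ := by
  obtain ⟨x, y⟩ := q
  obtain ⟨x', y'⟩ := q'
  have key : x + 2 ≤ x' ∨ x' + 2 ≤ x ∨ y + 2 ≤ y' ∨ y' + 2 ≤ y := by
    by_contra hc
    push Not at hc
    rw [nb_iff] at h2
    rw [Ne, Prod.ext_iff] at h1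
    simp only [bk] at h1 h2
    omega
  obtain ⟨z1, z2, z3, z4⟩ := hz
  obtain ⟨w1, w2, w3, w4⟩ := hw
  simp only at z1 z2 z3 z4 w1 w2 w3 w4
  have hre := Complex.abs_re_le_norm (z - w)
  have him := Complex.abs_im_le_norm (z - w)
  rw [Complex.sub_re] at hre
  rw [Complex.sub_im] at him
  rcases key with h | h | h | h
  · have h' : (x : ℝ) + 2 ≤ x' := by exact_mod_cast h
    have h3 : s * ((x : ℝ) + 2) ≤ s * x' := mul_le_mul_of_nonneg_left h' hs
    have h4 := neg_abs_le (z.re - w.re)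
    nlinarith
  · have h' : (x' : ℝ) + 2 ≤ x := by exact_mod_cast h
    have h3 : s * ((x' : ℝ) + 2) ≤ s * x := mul_le_mul_of_nonneg_left h' hs
    have h4 := le_abs_self (z.re - w.re)
    nlinarith
  · have h' : (y : ℝ) + 2 ≤ y' := by exact_mod_cast h
    have h3 : s * ((y : ℝ) + 2) ≤ s * y' := mul_le_mul_of_nonneg_left h' hs
    have h4 := neg_abs_le (z.im - w.im)
    nlinarith
  · have h' : (y' : ℝ) + 2 ≤ y := by exact_mod_cast h
    have h3 : s * ((y' : ℝ) + 2) ≤ s * y := mul_le_mul_of_nonneg_left h' hs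
    have h4 := le_abs_self (z.im - w.im)
    nlinarith

theorem mem_Pg {F : Set V} {z : ℂ} : z ∈ Pg s F ↔ ∃ q ∈ F, z ∈ sq s q := by
  unfold Tenx416.Pg
  simp only [Set.mem_iUnion, exists_prop]

/-- a point of a good brick at distance `< s` from a component is in the component -/
theorem in_comp (hs : 0 ≤ s) (hU : Cm A x0 L s U) {p y : ℂ} (hp : p ∈ Pg s (cells (U : Set Bk)))
    {q : V} (hq : bk q ∈ Gd A x0 L s) (hy : y ∈ sq s q) (h : ‖p - y‖ < s) : bk q ∈ U := by
  obtain ⟨q0, h0, hp0⟩ := mem_Pg.1 hp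
  have h0' : bk q0 ∈ U := h0
  by_contra hn
  have h1 : bk q0 ≠ bk q := fun e => hn (e ▸ h0')
  have h2 : ¬ Nb (bk q0) (bk q) := fun hnb => hn (hU.cl _ h0' _ hnb hq)
  exact absurd (far hs h1 h2 hp0 hy) (not_le.2 h)

theorem Stg.num (h : Stg S A x0 L d s) : 0 < d ∧ 0 < s ∧ 2 * d < s / 4 ∧
    6 * √(L * d) < s / 4 := by
  have hd := h.dns.dpos
  have hL := h.dns.dL
  have h1 := h.scl
  have h2 : d ≤ √(L * d) := by
    apply Real.le_sqrt_of_sq_le
    nlinarith
  have h3 : 0 < √(L * d) := lt_of_lt_of_le hd h2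
  refine ⟨hd, ?_, ?_, ?_⟩ <;> norm_num at h1 <;> linarith

theorem mem_Vin {P : Set ℂ} {v : ℂ} : v ∈ Vin S P d ↔ v ∈ S ∧ Metric.closedBall v (2 * d) ⊆ P := by
  unfold Vin
  rw [Finset.mem_filter]

/-- `closedBall w (2 d) ⊆ Al` and close to the component: inside the component -/
theorem ball_sub (hs : 0 ≤ s) (hU : Cm A x0 L s U) {p w : ℂ} (hp : p ∈ Pg s (cells (U : Set Bk)))
    (hw : Metric.closedBall w (2 * d) ⊆ Al A x0 L s) (h : ‖p - w‖ + 2 * d < s) :
    Metric.closedBall w (2 * d) ⊆ Pg s (cells (U : Set Bk)) := by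
  intro y hy
  obtain ⟨q, hq, hyq⟩ := mem_Pg.1 (hw hy)
  refine mem_Pg.2 ⟨q, ?_, hyq⟩
  refine in_comp hs hU hp hq hyq ?_
  rw [Metric.mem_closedBall, dist_eq_norm, norm_sub_rev] at hy
  have h1 : ‖p - y‖ ≤ ‖p - w‖ + ‖w - y‖ := by
    have := norm_add_le (p - w) (w - y)
    rwa [sub_add_sub_cancel] at this
  linarith

/-- **COMP** -/
theorem comp : COMP := by
  intro S A x0 L d s h
  obtain ⟨hd, hs, h2d, hadj⟩ := Stg.num h
  have hlen : ∀ {x y : ℂ}, Adj S x y → ‖x - y‖ < s / 4 := fun hxy =>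
    lt_of_le_of_lt (D4Lx408.adj_len h.dns (by
      rcases hxy with ⟨c, h1⟩ | ⟨c, h1⟩
      · exact ⟨c, Or.inl h1⟩
      · exact ⟨c, Or.inr h1⟩)) hadj
  have hself : ∀ {P : Set ℂ} {v : ℂ}, Metric.closedBall v (2 * d) ⊆ P → v ∈ P := fun hv =>
    hv (Metric.mem_closedBall_self (by linarith))
  refine ⟨fun U hU => ⟨?_, ?_, ?_⟩, ?_⟩
  · -- `Vu ⊆ Va`
    intro v hv
    obtain ⟨h1, h2⟩ := mem_Vin.1 hv
    refine mem_Vin.2 ⟨h1, fun y hy => ?_⟩
    obtain ⟨q, hq, hyq⟩ := mem_Pg.1 (h2 hy)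
    exact mem_Pg.2 ⟨q, hU.sub _ hq, hyq⟩
  · -- closed under neighbours
    intro v hv w hw hvw
    obtain ⟨h1, h2⟩ := mem_Vin.1 hv
    obtain ⟨h3, h4⟩ := mem_Vin.1 hw
    refine mem_Vin.2 ⟨h3, ball_sub hs.le hU (hself h2) h4 ?_⟩
    have := hlen hvw
    linarith
  · -- darts
    intro v hv x hxv a b hab hinf
    obtain ⟨h1, h2⟩ := mem_Vin.1 hv
    obtain ⟨hadj', hl, hr⟩ := hab
    have hcmp : IsCompact (ed s a b) := by
      unfold Crest.Agent.R158.Sp896.ed
      rw [segment_eq_image]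
      exact isCompact_Icc.image (by fun_prop)
    have hne : (ed s a b).Nonempty := ⟨_, left_mem_segment _ _ _⟩
    obtain ⟨y, hy, hxy⟩ := hcmp.exists_infDist_eq_dist hne x
    rw [hxy, dist_eq_norm] at hinf
    have hyq : y ∈ sq s (lc a b) := Crest.Agent.R158.Sp896.ed_sub_lc hs hadj' hy
    have hlc : bk (lc a b) ∈ U := by
      refine in_comp hs.le hU (hself h2) hl hyq ?_
      have h3 := hlen hxv
      rw [norm_sub_rev] at h3
      have h4 : ‖v - y‖ ≤ ‖v - x‖ + ‖x - y‖ := by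
        have := norm_add_le (v - x) (x - y)
        rwa [sub_add_sub_cancel] at this
      linarith
    exact ⟨hadj', hlc, fun hr' => hr (hU.sub _ hr')⟩
  · -- every deep site is in a component
    intro v hv
    obtain ⟨h1, h2⟩ := mem_Vin.1 hv
    obtain ⟨q, hq, hvq⟩ := mem_Pg.1 (hself h2)
    refine ⟨bk q, hq, fun U hU hb => mem_Vin.2 ⟨h1, ball_sub hs.le hU (p := v) ?_ h2 ?_⟩⟩
    · exact mem_Pg.2 ⟨q, hb, hvq⟩
    · rw [sub_self, norm_zero]
      linarith

end Crest.Agent.R143.Compx54
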