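import Crest.Agent.R143.Cont2_920
import Crest.Agent.R143.Appl1_359
import Crest.Agent.R143.NetU_346

-- ▼ part R143/Cont3_920
section

/-!
# Row 143 (S0194), CONT (3434): the probability of `|y_Ω - y_U| > η` (helper920)

* `hit_symm` : exchange of the colours and of the classes
* `uf`, `xf` : the hit and the start of the black chain as functions of the boundary
* `LArms` : output of one half of the deterministic lemma
* `left` : probability of one half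
* `DET` : the deterministic lemma; `cont_pr` : the final bound
-/

set_option autoImplicit false

noncomputable section

open scoped Classical

namespace Crest.Agent.R143.Cont3x920

open Crest.Agent.R143.Harx315
open Crest.Agent.R143.D3Fx802 (CArm)
open Crest.Agent.R143.JColx54 (Adj)
open Crest.Agent.R143.RE0x723 (Pth)
open Crest.Agent.R143.DelGx806
open Crest.Agent.R143.K33x877 Crest.Agent.R143.Freshx920 Crest.Agent.R143.Cont2x920

variable {S V : Finset ℂ} {A A' : ZMod 3 → Set ℂ} {i j k : ZMod 3} {T : Set ℂ} {b v u x y : ℂ}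
  {P : ℂ → ℂ → ℂ → Prop}

/-- exchange of the colours -/
theorem hit_symm (h : Hit S A i j k T b v u) : Hit S A j i k Tᶜ v b u where
  tri := h.tri.symm
  hb := by
    have h1 := h.hv
    rwa [Set.diff_eq] at h1
  hv := by
    have h1 := h.hb
    rwa [Set.diff_eq, compl_compl]
  hu := h.hu

/-- only the colours of the free sites matter -/
theorem hit_congr {T' : Set ℂ} (hT : ∀ w ∈ fr S A, (w ∈ T ↔ w ∈ T')) (h : Hit S A i j k T b v u) :
    Hit S A i j k T' b v u where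
  tri := h.tri
  hb := by
    refine clu_mono ?_ h.hb
    rintro w ⟨h1, h2⟩
    exact ⟨h1, (hT w h1).1 h2⟩
  hv := by
    refine clu_mono ?_ h.hv
    rintro w ⟨h1, h2⟩
    exact ⟨h1, fun h3 => h2 ((hT w h1).2 h3)⟩
  hu := h.hu

theorem hit_flip (hV : fr S A ⊆ V) {β : Finset ℂ} (h : Hit S A i j k β b v u) :
    Hit S A j i k ((V \ β : Finset ℂ) : Set ℂ) v b u := by
  refine hit_congr (fun w hw => ?_) (hit_symm h)
  simp only [Set.mem_compl_iff, Finset.mem_coe, Finset.coe_sdiff, Set.mem_diff]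
  exact ⟨fun h => ⟨hV hw, h⟩, fun h => h.2⟩

/-- existence of a hit with the side condition `P` -/
def Ex (S : Finset ℂ) (A : ZMod 3 → Set ℂ) (i j k : ZMod 3) (P : ℂ → ℂ → ℂ → Prop) : Prop :=
  ∀ T : Set ℂ, ∃ b v u, Hit S A i j k T b v u ∧ P b v u

/-- uniqueness of a hit with the side condition `P` -/
def Un (S : Finset ℂ) (A : ZMod 3 → Set ℂ) (i j k : ZMod 3) (P : ℂ → ℂ → ℂ → Prop) : Prop :=
  ∀ (T : Set ℂ) (b v u b' v' u' : ℂ), Hit S A i j k T b v u → P b v u →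
    Hit S A i j k T b' v' u' → P b' v' u' → b' = b ∧ v' = v ∧ u' = u

theorem Ex.symm (h : Ex S A i j k P) : Ex S A j i k (fun b v u => P v b u) := by
  intro T
  obtain ⟨b, v, u, h1, h2⟩ := h Tᶜ
  refine ⟨v, b, u, ?_, h2⟩
  have h3 := hit_symm h1
  rwa [compl_compl] at h3

theorem Un.symm (h : Un S A i j k P) : Un S A j i k (fun b v u => P v b u) := by
  intro T b v u b' v' u' h1 h2 h3 h4
  obtain ⟨e1, e2, e3⟩ := h Tᶜ v b u v' b' u' (hit_symm h1) h2 (hit_symm h3) h4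
  exact ⟨e2, e1, e3⟩

/-- the hit -/
def uf (S : Finset ℂ) (A : ZMod 3 → Set ℂ) (i j k : ZMod 3) (P : ℂ → ℂ → ℂ → Prop)
    (T : Set ℂ) : ℂ :=
  if h : ∃ u b v, Hit S A i j k T b v u ∧ P b v u then h.choose else 0

/-- the start of the black chain -/
def xf (S : Finset ℂ) (A : ZMod 3 → Set ℂ) (i j k : ZMod 3) (P : ℂ → ℂ → ℂ → Prop)
    (T : Set ℂ) : ℂ :=
  if h : ∃ x b v u, (Hit S A i j k T b v u ∧ P b v u) ∧ x ∈ A i ∧ Pth S (T ∪ {x}) x b then
    h.choose else 0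

/-- the explored data of a colouring `T` -/
theorem uf_xf (hE : Ex S A i j k P) (hU : Un S A i j k P) (T : Set ℂ) :
    ∃ b v, Hit S A i j k T b v (uf S A i j k P (bdy S (fr S A) (A j) T)) ∧
      P b v (uf S A i j k P (bdy S (fr S A) (A j) T)) ∧
      xf S A i j k P (bdy S (fr S A) (A j) T) ∈ A i ∧
      Pth S (bdy S (fr S A) (A j) T ∪ {xf S A i j k P (bdy S (fr S A) (A j) T)})
        (xf S A i j k P (bdy S (fr S A) (A j) T)) b := by
  set T0 := bdy S (fr S A) (A j) T with hT0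
  obtain ⟨b, v, u, h1, h2⟩ := hE T0
  have hu : ∃ u b v, Hit S A i j k T0 b v u ∧ P b v u := ⟨u, b, v, h1, h2⟩
  have hx : ∃ x b v u, (Hit S A i j k T0 b v u ∧ P b v u) ∧ x ∈ A i ∧ Pth S (T0 ∪ {x}) x b := by
    obtain ⟨a, ha, h3⟩ := last h1.hb
    refine ⟨a, b, v, u, ⟨h1, h2⟩, ha, h3.mono ?_⟩
    rintro w (h4 | h4)
    · exact Or.inl h4.2
    · exact Or.inr h4
  have eu : uf S A i j k P T0 = hu.choose := by unfold uf; rw [dif_pos hu]
  have ex : xf S A i j k P T0 = hx.choose := by unfold xf; rw [dif_pos hx]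
  obtain ⟨b1, v1, h3, h4⟩ := hu.choose_spec
  obtain ⟨b2, v2, u2, ⟨h5, h6⟩, h7, h8⟩ := hx.choose_spec
  rw [← eu] at h3 h4
  rw [← ex] at h7 h8
  obtain ⟨e1, e2, e3⟩ := hU T0 _ _ _ _ _ _ h3 h4 h5 h6
  subst e1
  exact ⟨b2, v1, hit_bdy h3, h4, h7, h8⟩

/-- output of one half of the deterministic lemma: `u` the hit, `x` the start of the black chain,
`p0` the gate -/
def LArms (S V : Finset ℂ) (F B Rg : Set ℂ) (p0 : ℂ) (a c : Fin 4 → ℝ) (u x : ℂ)
    (β : Finset ℂ) : Prop :=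
  (u ∈ Rg ∧ WArm S V (Jw S V F B) u (a 0) (c 0) β) ∨
  (x ∈ Rg ∧ WArm S V (Jw S V F B) x (a 1) (c 1) β) ∨
  CArm S (V \ β) p0 (a 2) (c 2) ∨ CArm S β p0 (a 3) (c 3)

/-- the bounds of the arms -/
structure Bds (S V : Finset ℂ) (Rg : Set ℂ) (p0 : ℂ) (a c q : Fin 4 → ℝ) : Prop where
  pos : ∀ l, 0 ≤ q l
  b0 : ∀ z ∈ Rg, ∀ W ⊆ V, pr W (fun β => CArm S β z (a 0) (c 0)) ≤ q 0
  b1 : ∀ z ∈ Rg, ∀ W ⊆ V, pr W (fun β => CArm S β z (a 1) (c 1)) ≤ q 1
  b2 : pr V (fun β => CArm S β p0 (a 2) (c 2)) ≤ q 2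
  b3 : pr V (fun β => CArm S β p0 (a 3) (c 3)) ≤ q 3

/-- **one half** -/
theorem left (V : Finset ℂ) {Rg : Set ℂ} {p0 : ℂ} {a c q : Fin 4 → ℝ}
    (hB : Bds S V Rg p0 a c q) :
    pr V (fun β => LArms S V (fr S A) (A j) Rg p0 a c
      (uf S A i j k P (bdy S (fr S A) (A j) (β : Set ℂ)))
      (xf S A i j k P (bdy S (fr S A) (A j) (β : Set ℂ))) β) ≤ q 0 + q 1 + q 2 + q 3 :=
  half (stop_w V (fr S A) (A j)) ((dec_bdy V (fr S A) (A j)).comp (uf S A i j k P))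
    ((dec_bdy V (fr S A) (A j)).comp (xf S A i j k P)) hB.b0 hB.b1 hB.b2 hB.b3 (hB.pos 0)
    (hB.pos 1) fun _ _ h => h

/-- **the deterministic lemma of CONT** (`A` the classes of `Ω`, `A'` the classes of `U`) -/
def DET (S V : Finset ℂ) (A A' : ZMod 3 → Set ℂ) (i j k : ZMod 3) (P : ℂ → ℂ → ℂ → Prop)
    (Rg : Set ℂ) (p0 p1 : ℂ) (a c : Fin 4 → ℝ) (η : ℝ) : Prop :=
  ∀ β ⊆ V, ∀ b v u, Hit S A' i j k β b v u → P b v u →
  ∀ b1 v1 y, Hit S A i j k β b1 v1 y → P b1 v1 y → η < ‖y - u‖ →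
  ∀ x ∈ A' i, Pth S (bdy S (fr S A') (A' j) (β : Set ℂ) ∪ {x}) x b →
  ∀ x' ∈ A' j, Pth S (bdw S (fr S A') (A' i) (β : Set ℂ) ∪ {x'}) x' v →
    LArms S V (fr S A') (A' j) Rg p0 a c u x β ∨
    LArms S V (fr S A') (A' i) Rg p1 a c u x' (V \ β)

/-- **CONT, probability** -/
theorem cont_pr (hV : fr S A' ⊆ V) (hE : Ex S A' i j k P) (hU : Un S A' i j k P)
    {Rg : Set ℂ} {p0 p1 : ℂ} {a c q : Fin 4 → ℝ} {η : ℝ}
    (hD : DET S V A A' i j k P Rg p0 p1 a c η)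
    (hB : Bds S V Rg p0 a c q) (hB' : Bds S V Rg p1 a c q) :
    pr V (fun β => ∃ b v u b1 v1 y, Hit S A' i j k β b v u ∧ P b v u ∧
      Hit S A i j k β b1 v1 y ∧ P b1 v1 y ∧ η < ‖y - u‖) ≤
      2 * (q 0 + q 1 + q 2 + q 3) := by
  have l1 := left (S := S) (A := A') (i := i) (j := j) (k := k) (P := P) V hB
  have l2 := left (S := S) (A := A') (i := j) (j := i) (k := k) (P := fun b v u => P v b u) V hB'
  rw [← pr_flip V (fun β => LArms S V (fr S A') (A' i) Rg p1 a c _ _ β)] at l2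
  refine (pr_mono (B := fun β => LArms S V (fr S A') (A' j) Rg p0 a c
      (uf S A' i j k P (bdy S (fr S A') (A' j) (β : Set ℂ)))
      (xf S A' i j k P (bdy S (fr S A') (A' j) (β : Set ℂ))) β ∨
      LArms S V (fr S A') (A' i) Rg p1 a c
      (uf S A' j i k (fun b v u => P v b u)
        (bdy S (fr S A') (A' i) ((V \ β : Finset ℂ) : Set ℂ)))
      (xf S A' j i k (fun b v u => P v b u)
        (bdy S (fr S A') (A' i) ((V \ β : Finset ℂ) : Set ℂ))) (V \ β)) ?_).trans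
      (pr_or_le.trans (by linarith))
  rintro β hβ ⟨b, v, u, b1, v1, y, h1, h2, h3, h4, h5⟩
  obtain ⟨b', v', g1, g2, g3, g4⟩ := uf_xf hE hU (β : Set ℂ)
  obtain ⟨v'', b'', f1, f2, f3, f4⟩ := uf_xf hE.symm hU.symm ((V \ β : Finset ℂ) : Set ℂ)
  obtain ⟨rfl, rfl, e3⟩ := hU _ _ _ _ _ _ _ h1 h2 g1 g2
  -- the mirror hit
  have f5 := hit_flip hV h1
  obtain ⟨rfl, rfl, e6⟩ := hU.symm _ _ _ _ _ _ _ f5 h2 f1 f2
  have hb := bdw_eq (S := S) (B := A' i) (β := β) hV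
  rw [hb] at f3 f4 e6
  have key := hD β hβ _ _ u h1 h2 b1 v1 y h3 h4 h5 _ g3 g4 _ f3 f4
  simp only [hb]
  rw [e3, e6]
  exact key

end Crest.Agent.R143.Cont3x920
end
end

-- ▼ part R143/Cont4_920
section

/-!
# Row 143 (S0194), CONT (3434): static form (helper920)

* `ArmB` : the one-arm bound at all points of a region, from `d` to `D`; `armB` : from 930's `arm`
* `Ys` : the three hit points of a family of classes, as functions of the colours
* `Dets` : the deterministic lemma for the three indices and all scales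
* `static` : `‖ST(A) - ST(A')‖ ≤ 9 (1 + 4 C') D (d / D) ^ (min c 1 / 4)`
-/

set_option autoImplicit false

noncomputable section

open scoped Classical

namespace Crest.Agent.R143.Cont4x920

open Crest.Agent.R143.Harx315
open Crest.Agent.R143.D3Fx802 (CArm)
open Crest.Agent.R143.JColx54 (Adj)
open Crest.Agent.R143.RE0x723 (Pth)
open Crest.Agent.R143.RB0x838 (LDns Mesh)
open Crest.Agent.R143.DelGx806
open Crest.Agent.R143.K33x877 Crest.Agent.R143.Freshx920 Crest.Agent.R143.Cont2x920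
  Crest.Agent.R143.Cont3x920
open Crest.Agent.R143.Applx359 (ST st_pow)

variable {S V V' : Finset ℂ} {A A' : ZMod 3 → Set ℂ} {i j k : ZMod 3} {T : Set ℂ}
  {b v u x y : ℂ} {P : ℂ → ℂ → ℂ → Prop} {Rg : Set ℂ} {d D C c : ℝ}

/-- one-arm bound at the points of `Rg` -/
def ArmB (S : Finset ℂ) (Rg : Set ℂ) (d D C c : ℝ) : Prop :=
  ∀ z ∈ Rg, ∀ r R : ℝ, 2 * d ≤ r → r ≤ R → R ≤ D → ∀ W ⊆ S,
    pr W (fun β => CArm S β z r R) ≤ C * (r / R) ^ c

/-- **the one-arm bound from the mesh** -/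
theorem armB : ∀ C4 : ℝ, 0 ≤ C4 → ∃ C c c1 c2 K : ℝ, 1 ≤ C ∧ 0 < c ∧ 0 < c1 ∧ 0 < c2 ∧ c2 ≤ 1 ∧
    1 ≤ K ∧ ∀ (S : Finset ℂ) (Rg : Set ℂ) (d0 d D : ℝ), 0 < d →
    (∀ z ∈ Rg, LDns S z (K * D) d0) →
    (∀ z ∈ Rg, ∀ b, c2 * (2 * d) ≤ b → b ≤ D → Mesh S z (K * D) b C4) → d0 ≤ c1 * (2 * d) →
    ArmB S Rg d D C c := by
  intro C4 hC4
  obtain ⟨C, c, c1, c2, K, hC, hc, hc1, hc2, hc2', hK, H⟩ := ArmPx930.arm C4 hC4
  refine ⟨max C 1, c, c1, c2, K, le_max_right _ _, hc, hc1, hc2, hc2', hK, ?_⟩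
  intro S Rg d0 d D hd hL hM hd0 z hz r R hr hrR hR W hW
  have hr0 : 0 < r := by linarith
  have hR0 : 0 < R := by linarith
  have hKR : K * R ≤ K * D := mul_le_mul_of_nonneg_left hR (by linarith)
  refine (H S z d0 r R hr0 hrR (ArmPx930.ldns_mono (hL z hz) hKR) ?_ ?_ W hW).trans ?_
  · intro b hb1 hb2
    refine ArmPx930.mesh_mono (hM z hz b ?_ (hb2.trans hR)) hKR
    exact (mul_le_mul_of_nonneg_left hr hc2.le).trans hb1
  · exact hd0.trans (mul_le_mul_of_nonneg_left hr hc1.le)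
  · exact mul_le_mul_of_nonneg_right (le_max_left _ _) (Real.rpow_nonneg (by positivity) _)

/-- the bound without the restriction `r ≤ R` -/
theorem ArmB.le (h : ArmB S Rg d D C c) (hC : 1 ≤ C) (hc : 0 ≤ c) (hd : 0 < d) {z : ℂ}
    (hz : z ∈ Rg) {r R : ℝ} (hr : 2 * d ≤ r) (hR0 : 0 < R) (hR : R ≤ D) {W : Finset ℂ}
    (hW : W ⊆ S) : pr W (fun β => CArm S β z r R) ≤ C * (r / R) ^ c := by
  rcases le_total r R with h1 | h1
  · exact h z hz r R hr h1 hR W hW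
  · refine pr_le_one.trans ?_
    have h2 : 1 ≤ r / R := (one_le_div hR0).2 h1
    have h3 : 1 ≤ (r / R) ^ c := Real.one_le_rpow h2 hc
    nlinarith

/-- the end points of the three interfaces -/
def Ys (S : Finset ℂ) (A : ZMod 3 → Set ℂ) (P : ℂ → ℂ → ℂ → Prop) (i : ZMod 3)
    (β : Finset ℂ) : ℂ := uf S A (i + 1) (i + 2) i P (β : Set ℂ)

theorem uf_spec (hE : Ex S A i j k P) (T : Set ℂ) :
    ∃ b v, Hit S A i j k T b v (uf S A i j k P T) ∧ P b v (uf S A i j k P T) := by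
  obtain ⟨b, v, u, h1, h2⟩ := hE T
  have hu : ∃ u b v, Hit S A i j k T b v u ∧ P b v u := ⟨u, b, v, h1, h2⟩
  have eu : uf S A i j k P T = hu.choose := by unfold uf; rw [dif_pos hu]
  obtain ⟨b1, v1, h3⟩ := hu.choose_spec
  rw [eu]
  exact ⟨b1, v1, h3⟩


/-- the structure of the four arms -/
def av4 (d ρ1 ρ2 : ℝ) : Fin 4 → ℝ := ![2 * d, 2 * d, 2 * ρ1, 2 * ρ2]
def cv4 (ρ1 ρ2 η : ℝ) : Fin 4 → ℝ := ![η / 2, ρ1 / 2, ρ2 / 2, η / 2]





end Crest.Agent.R143.Cont4x920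
end
end

-- ▼ part R143/Cont5_920

/-!
# Row 143 (S0194), CONT (3434): static form for the frozen object `TS` (helper920)

* `OP S` : side condition `(u, b, v) ∈ delT S` (oriented hits); `ex_of_hex`, `un_of_hex`
* `TS_eq` : `TS S A z = ST (ff S A) (z ∘ Ys)`
* `static_z` : static CONT for a 1-Lipschitz function `z` of the end points
* `static_TS` : the same for `‖TS S A z - TS S A' z‖`
-/

set_option autoImplicit false

noncomputable section

open scoped Classical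

namespace Crest.Agent.R143.Cont5x920

open Crest.Agent.R143.Harx315
open Crest.Agent.R143.D3Fx802 (CArm)
open Crest.Agent.R143.JColx54 (Adj)
open Crest.Agent.R143.RE0x723 (Pth)
open Crest.Agent.R143.B0x346 Crest.Agent.R143.DelGx806
open Crest.Agent.R143.K33x877 Crest.Agent.R143.Freshx920 Crest.Agent.R143.Cont2x920
  Crest.Agent.R143.Cont3x920 Crest.Agent.R143.Cont4x920
open Crest.Agent.R143.Applx359 (ST st_pow)
open Crest.Agent.R143.NetUx346

variable {S V V' : Finset ℂ} {A A' : ZMod 3 → Set ℂ} {i j k : ZMod 3} {T : Set ℂ}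
  {b v u x y : ℂ} {P : ℂ → ℂ → ℂ → Prop} {Rg : Set ℂ} {d D C c : ℝ} {z : ℂ → ℂ}


/-- the side condition of the oriented hits -/
def OP (S : Finset ℂ) (b v u : ℂ) : Prop := (u, b, v) ∈ delT S

theorem ff_coe : ((ff S A : Finset ℂ) : Set ℂ) = fr S A := by
  ext w
  exact mem_ff

/-- an oriented hit in 877's form -/
theorem hitO_hit (hS : GP (S : Set ℂ)) : HitO S A i T (u, b, v) ↔
    (Hit S A (i + 1) (i + 2) i T b v u ∧ OP S b v u) := hitO_iff hS

theorem trace (T : Set ℂ) : ∀ w ∈ fr S A,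
    (w ∈ T ↔ w ∈ (((ff S A).filter fun v => v ∈ T : Finset ℂ) : Set ℂ)) := by
  intro w hw
  rw [Finset.coe_filter]
  exact ⟨fun h => ⟨mem_ff.2 hw, h⟩, fun h => h.2⟩

theorem ex_of_hex (hS : GP (S : Set ℂ)) (hX : Hex S A) : Ex S A (i + 1) (i + 2) i (OP S) := by
  intro T
  obtain ⟨⟨u, b, v⟩, h, -⟩ := hX i ((ff S A).filter fun v => v ∈ T) (Finset.filter_subset _ _)
  obtain ⟨h1, h2⟩ := (hitO_hit hS).1 h
  exact ⟨b, v, u, hit_congr (fun w hw => (trace T w hw).symm) h1, h2⟩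

theorem un_of_hex (hS : GP (S : Set ℂ)) (hX : Hex S A) : Un S A (i + 1) (i + 2) i (OP S) := by
  intro T b v u b' v' u' h1 h2 h3 h4
  obtain ⟨t, -, hu⟩ := hX i ((ff S A).filter fun v => v ∈ T) (Finset.filter_subset _ _)
  have e1 := hu (u, b, v) ((hitO_hit hS).2 ⟨hit_congr (trace T) h1, h2⟩)
  have e2 := hu (u', b', v') ((hitO_hit hS).2 ⟨hit_congr (trace T) h3, h4⟩)
  have e3 : (u', b', v') = (u, b, v) := e2.trans e1.symm
  simp only [Prod.mk.injEq] at e3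
  exact ⟨e3.2.1, e3.2.2, e3.1⟩

theorem hv_eq_ys (hS : GP (S : Set ℂ)) (hX : Hex S A) {β : Finset ℂ} (hβ : β ⊆ ff S A) :
    hv S A i (β : Set ℂ) = Ys S A (OP S) i β := by
  obtain ⟨b, v, h1, h2⟩ := uf_spec (ex_of_hex (i := i) hS hX) (β : Set ℂ)
  exact hv_eq hX hβ ((hitO_hit hS).2 ⟨h1, h2⟩)

/-- `TS` in 359's form -/
theorem TS_eq (hS : GP (S : Set ℂ)) (hX : Hex S A) (z : ℂ → ℂ) :
    TS S A z = ST (ff S A) (fun i β => z (Ys S A (OP S) i β)) := by
  unfold TS Applx359.ST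
  congr 1
  refine Finset.sum_congr rfl fun i _ => ?_
  congr 1
  rw [Ey_eq hX]
  unfold exC Applx359.ex
  congr 1
  refine Finset.sum_congr rfl fun T hT => ?_
  show z (hv S A i (T : Set ℂ)) = z (Ys S A (OP S) i T)
  rw [hv_eq_ys hS hX (Finset.mem_powerset.1 hT)]


end Crest.Agent.R143.Cont5x920
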