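import Crest.Agent.R143.Cross_228
import Crest.Agent.R143.RingD_117
import Crest.Agent.R143.Neck1_921

-- ▼ part R143/Cross2_228
section

/-!
# Row 143 (S0194), part B without E3: a neck separates the corridor, colour form (helper228)

* `cross_str`, `cross_str'` : **CROSS** in the form of `DRing.cross` of `RingD_117`
-/

set_option autoImplicit false

noncomputable section

open scoped Classical

namespace Crest.Agent.R143.Crossx228

open Crest.Agent.R143.B0x346 Crest.Agent.R143.DelGx806 Crest.Agent.R143.DelRx806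
open Crest.Agent.R143.ToolWx838 Crest.Agent.R143.Blkx838
open Crest.Agent.R143.Gatex838 Crest.Agent.R143.RingDx117

variable {S : Finset ℂ} {χ : ℂ → ZMod 2} {z0 e : ℂ} {a0 a1 b0 b1 m : ℝ} {up dn : List ℂ} {y : ℂ}

/-- a chain of one colour -/
theorem col_path {A : Set ℂ} {c s t : ℂ} (hc : χ s = χ c)
    (h : Relation.ReflTransGen (StR S χ A c) s t) :
    Relation.ReflTransGen (fun u v => DE S u v ∧ u ∈ S.filter (fun x => χ x = χ c) ∧
      v ∈ S.filter (fun x => χ x = χ c) ∧ u ≠ c ∧ v ≠ c ∧ u ∈ A ∧ v ∈ A) s t ∧ χ t = χ c := by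
  induction h with
  | refl => exact ⟨.refl, hc⟩
  | @tail u v _ h2 ih =>
    obtain ⟨h3, h4, h5, h6, h7, h8⟩ := h2
    obtain ⟨m1, m2⟩ := de_sites h3
    have hv : χ v = χ c := h4.symm.trans ih.2
    exact ⟨ih.1.tail ⟨h3, Finset.mem_filter.2 ⟨m1, ih.2⟩, Finset.mem_filter.2 ⟨m2, hv⟩, h7, h8,
      h5, h6⟩, hv⟩

/-- **CROSS**, colour form, from the left to the right -/
theorem cross_str (hS : GP (S : Set ℂ)) (he : e ≠ 0) (nu : up ≠ []) (nd : dn ≠ [])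
    (adj : ∀ p ∈ prs (up ++ y :: dn), DE S p.1 p.2) (cu : ∀ s ∈ up, χ s ≠ χ y)
    (cd : ∀ s ∈ dn, b0 < Y z0 e s → χ s ≠ χ y)
    (win : ∀ s ∈ up ++ y :: dn, a0 < X z0 e s ∧ X z0 e s < a1)
    (top : b1 ≤ Y z0 e (up.head nu)) (bot : Y z0 e (dn.getLast nd) ≤ b0) {Cor : Set ℂ}
    (hC : ∀ s ∈ S, s ∈ Cor → a0 - m ≤ X z0 e s → X z0 e s ≤ a1 + m →
      b0 < Y z0 e s ∧ Y z0 e s < b1)
    (hm : ∀ u v, DE S u v → u ∈ Cor → v ∈ Cor → |X z0 e u - X z0 e v| ≤ m) {s t : ℂ}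
    (hst : χ s = χ y) (hs : X z0 e s ≤ a0) (ht : a1 ≤ X z0 e t) :
    ¬ Relation.ReflTransGen (StR S χ Cor y) s t := by
  intro h
  have h1 := (col_path hst h).1
  have h2 : Relation.ReflTransGen (fun u v => DE S u v ∧ u ∈ S.filter (fun x => χ x = χ y) ∧
      v ∈ S.filter (fun x => χ x = χ y) ∧ u ≠ y ∧ v ≠ y ∧ u ∈ Cor ∩ S ∧ v ∈ Cor ∩ S) s t :=
    RingDx117.rtg_mono (fun u v h => ⟨h.1, h.2.1, h.2.2.1, h.2.2.2.1, h.2.2.2.2.1,
      ⟨h.2.2.2.2.2.1, (Finset.mem_filter.1 h.2.1).1⟩,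
      ⟨h.2.2.2.2.2.2, (Finset.mem_filter.1 h.2.2.1).1⟩⟩) h1
  exact cross_of hS he nu nd adj (fun s hs hb => cu s hs (Finset.mem_filter.1 hb).2)
    (fun s hs hY hb => cd s hs hY (Finset.mem_filter.1 hb).2) win top bot
    (Cor := Cor ∩ S) (fun s hs h1 h2 => hC s hs.2 hs.1 h1 h2)
    (fun u v h hu hv => hm u v h hu.1 hv.1) hs ht h2

/-- **CROSS**, colour form, from the right to the left -/
theorem cross_str' (hS : GP (S : Set ℂ)) (he : e ≠ 0) (nu : up ≠ []) (nd : dn ≠ [])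
    (adj : ∀ p ∈ prs (up ++ y :: dn), DE S p.1 p.2) (cu : ∀ s ∈ up, χ s ≠ χ y)
    (cd : ∀ s ∈ dn, b0 < Y z0 e s → χ s ≠ χ y)
    (win : ∀ s ∈ up ++ y :: dn, a0 < X z0 e s ∧ X z0 e s < a1)
    (top : b1 ≤ Y z0 e (up.head nu)) (bot : Y z0 e (dn.getLast nd) ≤ b0) {Cor : Set ℂ}
    (hC : ∀ s ∈ S, s ∈ Cor → a0 - m ≤ X z0 e s → X z0 e s ≤ a1 + m →
      b0 < Y z0 e s ∧ Y z0 e s < b1)
    (hm : ∀ u v, DE S u v → u ∈ Cor → v ∈ Cor → |X z0 e u - X z0 e v| ≤ m) {s t : ℂ}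
    (hst : χ s = χ y) (hs : a1 ≤ X z0 e s) (ht : X z0 e t ≤ a0) :
    ¬ Relation.ReflTransGen (StR S χ Cor y) s t := fun h =>
  cross_str hS he nu nd adj cu cd win top bot hC hm ((col_path hst h).2) ht hs
    (Crossx228.rtg_symm (fun _ _ h => h.symm) h)

end Crest.Agent.R143.Crossx228
end
end

-- ▼ part R143/Cross3_228

/-!
# Row 143 (S0194), part B without E3: CROSS for 921's necks (helper228)

* `Neck.cross`, `NeckD.cross` : a path of the colour of the neck site inside the corridor from one side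
  of the window to the other one passes the neck site
* `NeckD.cross_union` : literal form of `DRing.cross`
-/

set_option autoImplicit false

noncomputable section

open scoped Classical

namespace Crest.Agent.R143.Crossx228

open Crest.Agent.R143.B0x346 Crest.Agent.R143.DelGx806 Crest.Agent.R143.DelRx806
open Crest.Agent.R143.ToolWx838 Crest.Agent.R143.Blkx838
open Crest.Agent.R143.Gatex838 Crest.Agent.R143.RingDx117 Crest.Agent.R143.Neckx921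

variable {S V β : Finset ℂ} {χ : ℂ → ZMod 2} {z0 e : ℂ} {a0 a1 b0 b1 m m' : ℝ} {up dn : List ℂ}
  {x y : ℂ}

/-- **CROSS** for a neck; `s`, `t` on different sides of the window, in any order -/
theorem neck_cross (h : Neck S z0 e a0 a1 b0 b1 m' V β up y dn) (hS : GP (S : Set ℂ)) (he : e ≠ 0)
    (hχ : ∀ s ∈ V, χ s = χ y ↔ s ∈ β) {Cor : Set ℂ}
    (hC : ∀ s ∈ S, s ∈ Cor → a0 - m ≤ X z0 e s → X z0 e s ≤ a1 + m →
      b0 < Y z0 e s ∧ Y z0 e s < b1)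
    (hm : ∀ u v, DE S u v → u ∈ Cor → v ∈ Cor → |X z0 e u - X z0 e v| ≤ m) {s t : ℂ}
    (hst : χ s = χ y)
    (hx : (X z0 e s ≤ a0 ∧ a1 ≤ X z0 e t) ∨ (a1 ≤ X z0 e s ∧ X z0 e t ≤ a0)) :
    ¬ Relation.ReflTransGen (StR S χ Cor y) s t := by
  have cu : ∀ s ∈ up, χ s ≠ χ y := fun s hs hc => (h.cu s hs).2 ((hχ s (h.cu s hs).1).1 hc)
  have cd : ∀ s ∈ dn, b0 < Y z0 e s → χ s ≠ χ y := fun s hs hY hc =>
    (h.cd s hs hY).2 ((hχ s (h.cd s hs hY).1).1 hc)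
  rcases hx with ⟨h1, h2⟩ | ⟨h1, h2⟩
  · exact cross_str hS he h.nu h.nd h.adj cu cd (fun s hs => (h.win s hs).1) h.top h.bot hC hm hst
      h1 h2
  · exact cross_str' hS he h.nu h.nd h.adj cu cd (fun s hs => (h.win s hs).1) h.top h.bot hC hm
      hst h1 h2

/-- **CROSS** for the gate predicate -/
theorem neckD_cross (h : NeckD S z0 e a0 a1 b0 b1 m' V β y x) (hS : GP (S : Set ℂ)) (he : e ≠ 0)
    (hχ : ∀ s ∈ V, χ s = χ y ↔ s ∈ β) {Cor : Set ℂ}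
    (hC : ∀ s ∈ S, s ∈ Cor → a0 - m ≤ X z0 e s → X z0 e s ≤ a1 + m →
      b0 < Y z0 e s ∧ Y z0 e s < b1)
    (hm : ∀ u v, DE S u v → u ∈ Cor → v ∈ Cor → |X z0 e u - X z0 e v| ≤ m) {s t : ℂ}
    (hst : χ s = χ y)
    (hx : (X z0 e s ≤ a0 ∧ a1 ≤ X z0 e t) ∨ (a1 ≤ X z0 e s ∧ X z0 e t ≤ a0)) :
    ¬ Relation.ReflTransGen (StR S χ Cor y) s t := by
  obtain ⟨up, dn, h, -⟩ := h
  exact neck_cross h hS he hχ hC hm hst hx

/-- **CROSS**, literally `DRing.cross`: the neck site `y1` between the regions `A0` and `A1` -/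
theorem neckD_cross_union {y0 y1 y2 : ℂ} {A0 A1 : Set ℂ}
    (h : NeckD S z0 e a0 a1 b0 b1 m' V β y1 x) (hS : GP (S : Set ℂ)) (he : e ≠ 0)
    (hχ : ∀ s ∈ V, χ s = χ y1 ↔ s ∈ β)
    (hC0 : ∀ s ∈ S, s ∈ A0 → a0 - m ≤ X z0 e s → X z0 e s ≤ a1 + m →
      b0 < Y z0 e s ∧ Y z0 e s < b1)
    (hC1 : ∀ s ∈ S, s ∈ A1 → a0 - m ≤ X z0 e s → X z0 e s ≤ a1 + m →
      b0 < Y z0 e s ∧ Y z0 e s < b1)
    (hm : ∀ u v, DE S u v → (u ∈ A0 ∨ u ∈ A1) → (v ∈ A0 ∨ v ∈ A1) → |X z0 e u - X z0 e v| ≤ m)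
    (hc : χ y0 = χ y1)
    (hx : (X z0 e y0 ≤ a0 ∧ a1 ≤ X z0 e y2) ∨ (a1 ≤ X z0 e y0 ∧ X z0 e y2 ≤ a0)) :
    ¬ Relation.ReflTransGen (StR S χ (A0 ∪ A1) y1) y0 y2 :=
  neckD_cross h hS he hχ
    (fun s hs hs' => hs'.elim (fun h => hC0 s hs h) (fun h => hC1 s hs h)) hm hc hx

/-- coordinates of a short edge -/
theorem abs_X_sub (z0 : ℂ) {e : ℂ} (he : ‖e‖ = 1) (u v : ℂ) :
    |X z0 e u - X z0 e v| ≤ ‖u - v‖ := by
  have h : X z0 e u - X z0 e v = ((u - v) / e).re := by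
    unfold X
    rw [← Complex.sub_re, ← sub_div]
    congr 2
    ring
  rw [h]
  refine (Complex.abs_re_le_norm _).trans ?_
  rw [norm_div, he, div_one]

theorem abs_Y_sub (z0 : ℂ) {e : ℂ} (he : ‖e‖ = 1) (u v : ℂ) :
    |Y z0 e u - Y z0 e v| ≤ ‖u - v‖ := by
  have h : Y z0 e u - Y z0 e v = ((u - v) / e).im := by
    unfold Y
    rw [← Complex.sub_im, ← sub_div]
    congr 2
    ring
  rw [h]
  refine (Complex.abs_im_le_norm _).trans ?_
  rw [norm_div, he, div_one]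

end Crest.Agent.R143.Crossx228
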