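import Crest.Agent.R143.GateA_838

/-!
# Row 143 (S0194), part B without E3: a neck separates the corridor (helper228)

* `sub_chain` : a path from `f ≤ a0` to `a1 ≤ f` contains a chain which crosses the window
* `cross_of` : **CROSS** (117's text): a black path of the corridor which avoids the neck site `y` does not
  cross the window of the neck
-/

set_option autoImplicit false

noncomputable section

open scoped Classical

namespace Crest.Agent.R143.Crossx228

open Crest.Agent.R143.B0x346 Crest.Agent.R143.DelGx806 Crest.Agent.R143.DelRx806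
open Crest.Agent.R143.ToolWx838 Crest.Agent.R143.Blkx838 Crest.Agent.R143.ToolW2x838
open Crest.Agent.R143.ToolW3x838 Crest.Agent.R143.Circ4x838
open Crest.Agent.R143.Gatex838

/-- a path from `f ≤ a0` to `a1 ≤ f` with steps `≤ m` contains a chain across the window `(a0, a1)` -/
theorem sub_chain {r : ℂ → ℂ → Prop} {G : ℂ → Prop} {f : ℂ → ℝ} {a0 a1 m : ℝ} (h01 : a0 < a1)
    (hG : ∀ u v, r u v → G u ∧ G v) (hm : ∀ u v, r u v → |f u - f v| ≤ m) {s t : ℂ}
    (h : Relation.ReflTransGen r s t) (hs : f s ≤ a0) (ht : a1 ≤ f t) :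
    ∃ (l : List ℂ) (hl : l ≠ []), (∀ p ∈ prs l, r p.1 p.2) ∧ f (l.head hl) ≤ a0 ∧
      a1 ≤ f (l.getLast hl) ∧ ∀ z ∈ l, G z ∧ a0 - m ≤ f z ∧ f z ≤ a1 + m := by
  have key : (∃ (l : List ℂ) (hl : l ≠ []), (∀ p ∈ prs l, r p.1 p.2) ∧ f (l.head hl) ≤ a0 ∧
      a1 ≤ f (l.getLast hl) ∧ ∀ z ∈ l, G z ∧ a0 - m ≤ f z ∧ f z ≤ a1 + m) ∨
      (a0 < f s ∧ (a1 ≤ f s ∨ ∃ (l : List ℂ), (∀ p ∈ prs (s :: l), r p.1 p.2) ∧
        a1 ≤ f ((s :: l).getLast (List.cons_ne_nil _ _)) ∧
        ∀ z ∈ s :: l, G z ∧ a0 - m ≤ f z ∧ f z ≤ a1 + m)) := by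
    clear hs
    induction h using Relation.ReflTransGen.head_induction_on with
    | refl => exact Or.inr ⟨h01.trans_le ht, Or.inl ht⟩
    | @head u v huv _ ih =>
      rcases ih with ih | ⟨h1, h2⟩
      · exact Or.inl ih
      have h3 := abs_le.1 (hm u v huv)
      have hm0 : 0 ≤ m := (abs_nonneg _).trans (hm u v huv)
      obtain ⟨gu, gv⟩ := hG u v huv
      rcases le_or_gt (f u) a0 with h4 | h4
      · left
        rcases h2 with h2 | ⟨l, c1, c2, c3⟩
        · refine ⟨[u, v], List.cons_ne_nil _ _, ?_, h4, h2, ?_⟩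
          · intro p hp
            rw [show prs [u, v] = [(u, v)] from rfl, List.mem_singleton] at hp
            rw [hp]
            exact huv
          · intro z hz
            rw [List.mem_cons, List.mem_singleton] at hz
            rcases hz with rfl | rfl
            · exact ⟨gu, by linarith [h3.1], by linarith [h3.1]⟩
            · exact ⟨gv, by linarith [h3.1], by linarith [h3.1]⟩
        · refine ⟨u :: v :: l, List.cons_ne_nil _ _, ?_, h4, ?_, ?_⟩
          · intro p hp
            rw [show prs (u :: v :: l) = (u, v) :: prs (v :: l) from rfl, List.mem_cons] at hp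
            rcases hp with rfl | hp
            · exact huv
            · exact c1 p hp
          · rwa [List.getLast_cons (List.cons_ne_nil _ _)]
          · intro z hz
            rw [List.mem_cons] at hz
            rcases hz with rfl | hz
            · exact ⟨gu, by linarith [h3.1], by linarith [h3.1]⟩
            · exact c3 z hz
      · right
        refine ⟨h4, ?_⟩
        rcases le_or_gt a1 (f u) with h5 | h5
        · exact Or.inl h5
        right
        rcases h2 with h2 | ⟨l, c1, c2, c3⟩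
        · refine ⟨[v], ?_, h2, ?_⟩
          · intro p hp
            rw [show prs [u, v] = [(u, v)] from rfl, List.mem_singleton] at hp
            rw [hp]
            exact huv
          · intro z hz
            rw [List.mem_cons, List.mem_singleton] at hz
            rcases hz with rfl | rfl
            · exact ⟨gu, by linarith [h3.1], by linarith [h3.1]⟩
            · exact ⟨gv, by linarith [h3.1], by linarith [h3.1]⟩
        · refine ⟨v :: l, ?_, ?_, ?_⟩
          · intro p hp
            rw [show prs (u :: v :: l) = (u, v) :: prs (v :: l) from rfl, List.mem_cons] at hp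
            rcases hp with rfl | hp
            · exact huv
            · exact c1 p hp
          · rwa [List.getLast_cons (List.cons_ne_nil _ _)]
          · intro z hz
            rw [List.mem_cons] at hz
            rcases hz with rfl | hz
            · exact ⟨gu, by linarith [h3.1], by linarith [h3.1]⟩
            · exact c3 z hz
  rcases key with h1 | ⟨h1, -⟩
  · exact h1
  · exact absurd hs (not_le.2 h1)

variable {S V b : Finset ℂ} {z0 e : ℂ} {a0 a1 b0 b1 m : ℝ} {up dn : List ℂ} {y : ℂ}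

/-- **CROSS** with the fields of 921's `Neck` as hypotheses -/
theorem cross_of (hS : GP (S : Set ℂ)) (he : e ≠ 0) (nu : up ≠ []) (nd : dn ≠ [])
    (adj : ∀ p ∈ prs (up ++ y :: dn), DE S p.1 p.2) (cu : ∀ s ∈ up, s ∉ b)
    (cd : ∀ s ∈ dn, b0 < Y z0 e s → s ∉ b)
    (win : ∀ s ∈ up ++ y :: dn, a0 < X z0 e s ∧ X z0 e s < a1)
    (top : b1 ≤ Y z0 e (up.head nu)) (bot : Y z0 e (dn.getLast nd) ≤ b0) {Cor : Set ℂ}
    (hC : ∀ s ∈ Cor, a0 - m ≤ X z0 e s → X z0 e s ≤ a1 + m → b0 < Y z0 e s ∧ Y z0 e s < b1)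
    (hm : ∀ u v, DE S u v → u ∈ Cor → v ∈ Cor → |X z0 e u - X z0 e v| ≤ m) {s t : ℂ}
    (hs : X z0 e s ≤ a0) (ht : a1 ≤ X z0 e t) :
    ¬ Relation.ReflTransGen
      (fun u v => DE S u v ∧ u ∈ b ∧ v ∈ b ∧ u ≠ y ∧ v ≠ y ∧ u ∈ Cor ∧ v ∈ Cor) s t := by
  intro h
  have hy := win y (by simp)
  obtain ⟨l, hl, h1, h2, h3, h4⟩ := sub_chain (G := fun u => u ∈ b ∧ u ≠ y ∧ u ∈ Cor)
    (hy.1.trans hy.2) (fun u v h => ⟨⟨h.2.1, h.2.2.2.1, h.2.2.2.2.2.1⟩, h.2.2.1, h.2.2.2.2.1,
      h.2.2.2.2.2.2⟩) (fun u v h => hm u v h.1 h.2.2.2.2.2.1 h.2.2.2.2.2.2) h hs ht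
  have hrev : (up ++ y :: dn).reverse ≠ [] := by simp
  obtain ⟨z, hz1, hz2⟩ := cross_e (z0 := z0) (e := e) hS he (P := l) (Q := (up ++ y :: dn).reverse) hl
    hrev (fun p hp => (h1 p hp).1)
    (fun p hp => by
      rw [prs_reverse, List.mem_reverse, List.mem_map] at hp
      obtain ⟨q, hq, rfl⟩ := hp
      exact (adj q hq).symm)
    (x0 := a0) (x1 := a1) (y0 := b0) (y1 := b1)
    (fun z hz => hC z (h4 z hz).1.2.2 (h4 z hz).2.1 (h4 z hz).2.2)
    (fun z hz => win z (List.mem_reverse.1 hz)) h2 h3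
    (by
      rw [List.head_reverse]
      rw [List.getLast_append_of_ne_nil _ (List.cons_ne_nil _ _), List.getLast_cons nd]
      exact bot)
    (by
      rw [List.getLast_reverse]
      rw [List.head_append_of_ne_nil nu]
      exact top)
  have hz3 := (h4 z hz1).1
  have hz4 := hC z hz3.2.2 (h4 z hz1).2.1 (h4 z hz1).2.2
  rw [List.mem_reverse, List.mem_append, List.mem_cons] at hz2
  rcases hz2 with hz2 | hz2 | hz2
  · exact cu z hz2 hz3.1
  · exact hz3.2.1 hz2
  · exact cd z hz2 hz4.1 hz3.1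

/-- `DE` paths in a symmetric relation can be reversed -/
theorem rtg_symm {r : ℂ → ℂ → Prop} (hr : ∀ u v, r u v → r v u) {s t : ℂ}
    (h : Relation.ReflTransGen r s t) : Relation.ReflTransGen r t s := by
  induction h with
  | refl => exact Relation.ReflTransGen.refl
  | tail _ h2 ih => exact Relation.ReflTransGen.head (hr _ _ h2) ih


end Crest.Agent.R143.Crossx228
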