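import Crest.Agent.R143.Crs1_117
import Crest.Agent.R143.Planar_54
import Crest.Agent.R143.Sides_697
import Crest.Agent.R143.Cfg_416
import Crest.Agent.R143.DomA_722

-- ▼ part R143/Crs2_117
section

/-!
# Row 143, block P (P2b), file 2: arc edges (helper117)

* `p1all` : the planarity statement in the form of `J1_872`
* `half_killed` : joins with a half edge at a killed side of `t` = joins with the odd triangle `t`
* `F_killed` : `(y, z)` killed, left triangle `(y, z, x)`, `(x, y)` live: `F x y` is the mean of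
  `om ^ k` over the joins with a half edge at `(y, z)`
* `Exit S N y z f P` : dual path `P` of killed edges from `(z, y)` to the hull edge `f`
* `cnt_exit`, `card_exit` : joins with a half edge at `(y, z)` = colourings with the additional mark
  `f` which change on `P`
-/

set_option autoImplicit false

noncomputable section

open scoped Classical

namespace Crest.Agent.R143.Crsx117

open Crest.Agent.R143.B0x346 Crest.Agent.R143.DelGx806 Crest.Agent.R143.DelRx806
  Crest.Agent.R143.B0Dx346 Crest.Agent.R143.JColx54 Crest.Agent.R143.JCol2x54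
  Crest.Agent.R143.JWalkx872 Crest.Agent.R143.JCardx872

/-- P1 in the form of `J1_872` -/
theorem p1all : J1x872.P1all := by
  intro N S h t ht J hJ hall e he
  have h1 : ∀ i, (Planarx54.vt t i, Planarx54.vt t (i + 1)) = J1x872.sd t i := by
    intro i
    obtain ⟨a, b, c⟩ := t
    rcases J1x872.cases_z3 i with rfl | rfl | rfl
    · rw [J1x872.sd0]; rfl
    · rw [J1x872.sd1]; rfl
    · rw [J1x872.sd2]; rfl
  have h2 : ∀ i, Planarx54.st t i = J1x872.sw (J1x872.sd t i) := by
    intro i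
    rw [← h1 i]
    rfl
  obtain ⟨k, hk⟩ := Planarx54.P1 h ht (J := J) (mem_joins.2 hJ) (π := e)
    (fun i => by rw [h1]; exact hall i)
    (fun i => by rw [h2]; exact he i)
  rw [hk 0, hk 1, hk 2]
  constructor <;> ring

section half

variable {V : Type} {G : Trg V} {kl : Set (V × V)} {D : Set (V × V)} {y z x : V}
  {J : Finset (V × V)}


/-- a triangle with the side `(y, z)` on its boundary (in this direction) is `(y, z, x)` -/
theorem rots_of_side (ht : (y, z, x) ∈ G.T) {a b c : V} (h : (a, b, c) ∈ G.T)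
    (hs : (a, b) = (y, z) ∨ (b, c) = (y, z) ∨ (c, a) = (y, z)) : (a, b, c) ∈ rots (y, z, x) := by
  rcases hs with hs | hs | hs
  · rw [Prod.mk.injEq] at hs
    obtain ⟨rfl, rfl⟩ := hs
    rw [G.uniq h ht]
    simp [rots]
  · rw [Prod.mk.injEq] at hs
    obtain ⟨rfl, rfl⟩ := hs
    rw [G.uniq ht (G.rot h)]
    simp [rots]
  · rw [Prod.mk.injEq] at hs
    obtain ⟨rfl, rfl⟩ := hs
    rw [G.uniq ht (G.rot (G.rot h))]
    simp [rots]

theorem side_of_rots (ht : (y, z, x) ∈ G.T) {a b c : V} (h : (a, b, c) ∈ rots (y, z, x)) :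
    ((a, b) = (y, z) ∧ (b, c) ≠ (y, z) ∧ (c, a) ≠ (y, z)) ∨
    ((a, b) ≠ (y, z) ∧ (b, c) = (y, z) ∧ (c, a) ≠ (y, z)) ∨
    ((a, b) ≠ (y, z) ∧ (b, c) ≠ (y, z) ∧ (c, a) = (y, z)) := by
  have n1 := G.ne ht
  have n2 := G.ne (G.rot ht)
  have n3 := G.ne (G.rot (G.rot ht))
  unfold rots at h
  simp only [Set.mem_insert_iff, Set.mem_singleton_iff, Prod.mk.injEq] at h
  rcases h with ⟨rfl, rfl, rfl⟩ | ⟨rfl, rfl, rfl⟩ | ⟨rfl, rfl, rfl⟩
  · left
    refine ⟨rfl, ?_, ?_⟩
    · intro e; rw [Prod.mk.injEq] at e; exact n1 e.1.symm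
    · intro e; rw [Prod.mk.injEq] at e; exact n3 e.1
  · right; right
    refine ⟨?_, ?_, rfl⟩
    · intro e; rw [Prod.mk.injEq] at e; exact n1 e.1.symm
    · intro e; rw [Prod.mk.injEq] at e; exact n3 e.1
  · right; left
    refine ⟨?_, rfl, ?_⟩
    · intro e; rw [Prod.mk.injEq] at e; exact n3 e.1
    · intro e; rw [Prod.mk.injEq] at e; exact n1 e.1.symm

/-- remove the half edge at a killed side -/
theorem half_erase (ht : (y, z, x) ∈ G.T) (hD : (y, z) ∉ D) (hD' : (z, y) ∉ D)
    (hJ : IsJoin G kl ∅ (D ∪ {(y, z)}) J) :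
    IsJoin G kl (rots (y, z, x)) D (J.erase (y, z)) := by
  have hm := hJ.mark y z (Or.inr rfl)
  have hyz := G.ne ht
  have mem : ∀ p, p ∈ J.erase (y, z) ↔ p ≠ (y, z) ∧ p ∈ J := fun p => Finset.mem_erase
  refine ⟨(Finset.erase_subset _ _).trans hJ.sub, ?_, ?_, ?_, ?_, ?_⟩
  · intro a b h1 h2
    rw [mem, mem]
    by_cases e1 : (a, b) = (y, z)
    · rw [Prod.mk.injEq] at e1
      obtain ⟨rfl, rfl⟩ := e1
      constructor
      · intro h; exact absurd rfl h.1
      · intro h; exact absurd h.2 hm.2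
    · by_cases e2 : (b, a) = (y, z)
      · rw [Prod.mk.injEq] at e2
        obtain ⟨rfl, rfl⟩ := e2
        constructor
        · intro h; exact absurd h.2 hm.2
        · intro h; exact absurd rfl h.1
      · have := hJ.sym a b (by rintro (h | h); exacts [h1 h, e1 h])
          (by rintro (h | h); exacts [h2 h, e2 h])
        rw [this]
        exact ⟨fun h => ⟨e2, h.2⟩, fun h => ⟨e1, h.2⟩⟩
  · intro a b h
    have := hJ.mark a b (Or.inl h)
    rw [mem, mem]
    refine ⟨⟨?_, this.1⟩, fun h' => this.2 h'.2⟩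
    rintro e
    rw [e] at h
    exact hD h
  · intro a b h1 h2
    rw [mem, mem]
    by_cases e1 : (a, b) = (y, z)
    · rw [Prod.mk.injEq] at e1
      obtain ⟨rfl, rfl⟩ := e1
      exact ⟨fun h => h.1 rfl, fun h => hm.2 h.2⟩
    · have := hJ.bdr a b h1 (by rintro (h | h); exacts [h2 h, e1 h])
      exact ⟨fun h => this.1 h.2, fun h => this.2 h.2⟩
  · intro a b h1 h2 h3
    rw [mem, mem]
    by_cases e1 : (a, b) = (y, z)
    · rw [Prod.mk.injEq] at e1
      obtain ⟨rfl, rfl⟩ := e1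
      exact ⟨fun h => h.1 rfl, fun h => hm.2 h.2⟩
    · by_cases e2 : (b, a) = (y, z)
      · rw [Prod.mk.injEq] at e2
        obtain ⟨rfl, rfl⟩ := e2
        exact ⟨fun h => hm.2 h.2, fun h => h.1 rfl⟩
      · have := hJ.kill a b h1 (by rintro (h | h); exacts [h2 h, e1 h])
          (by rintro (h | h); exacts [h3 h, e2 h])
        exact ⟨fun h => this.1 h.2, fun h => this.2 h.2⟩
  · intro a b c h
    have hp := hJ.par a b c h
    rw [if_neg (Set.notMem_empty _)] at hp
    simp only [mem]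
    by_cases hO : (a, b, c) ∈ rots (y, z, x)
    · rw [if_pos hO]
      rcases side_of_rots ht hO with ⟨e1, e2, e3⟩ | ⟨e1, e2, e3⟩ | ⟨e1, e2, e3⟩
      · have : (a, b) ∈ J := by rw [e1]; exact hm.1
        simp only [this, if_true] at hp
        simp only [e1, ne_eq, not_true, false_and, if_false, e2, not_false_iff, true_and, e3]
        omega
      · have : (b, c) ∈ J := by rw [e2]; exact hm.1
        simp only [this, if_true] at hp
        simp only [e1, ne_eq, not_true, false_and, if_false, e2, not_false_iff, true_and, e3]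
        omega
      · have : (c, a) ∈ J := by rw [e3]; exact hm.1
        simp only [this, if_true] at hp
        simp only [e1, ne_eq, not_true, false_and, if_false, e2, not_false_iff, true_and, e3]
        omega
    · rw [if_neg hO]
      have e1 : (a, b) ≠ (y, z) := fun e => hO (rots_of_side ht h (Or.inl e))
      have e2 : (b, c) ≠ (y, z) := fun e => hO (rots_of_side ht h (Or.inr (Or.inl e)))
      have e3 : (c, a) ≠ (y, z) := fun e => hO (rots_of_side ht h (Or.inr (Or.inr e)))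
      simp only [ne_eq, e1, e2, e3, not_false_iff, true_and]
      exact hp

/-- insert the half edge at a killed side -/
theorem half_insert (ht : (y, z, x) ∈ G.T) (hk : (y, z) ∈ kl) (hD : (y, z) ∉ D) (hD' : (z, y) ∉ D)
    (hJ : IsJoin G kl (rots (y, z, x)) D J) :
    IsJoin G kl ∅ (D ∪ {(y, z)}) (insert (y, z) J) ∧ (y, z) ∉ J := by
  have hm := hJ.kill y z hk hD hD'
  have hyz := G.ne ht
  have hne : (z, y) ≠ (y, z) := by
    intro e; rw [Prod.mk.injEq] at e; exact hyz e.2
  have mem : ∀ p, p ∈ insert (y, z) J ↔ p = (y, z) ∨ p ∈ J := fun p => Finset.mem_insert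
  have hE : (y, z) ∈ G.E := by
    unfold Trg.E
    rw [Finset.mem_union, Finset.mem_image]
    exact Or.inl ⟨_, ht, rfl⟩
  refine ⟨⟨?_, ?_, ?_, ?_, ?_, ?_⟩, hm.1⟩
  · intro p hp
    rcases (mem p).1 hp with rfl | h
    · exact hE
    · exact hJ.sub h
  · intro a b h1 h2
    have e1 : (a, b) ≠ (y, z) := fun e => h1 (Or.inr e)
    have e2 : (b, a) ≠ (y, z) := fun e => h2 (Or.inr e)
    have := hJ.sym a b (fun h => h1 (Or.inl h)) (fun h => h2 (Or.inl h))
    rw [mem, mem]
    tauto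
  · intro a b h
    rcases h with h | h
    · have := hJ.mark a b h
      rw [mem, mem]
      refine ⟨Or.inr this.1, ?_⟩
      rintro (h' | h')
      · rw [Prod.mk.injEq] at h'
        obtain ⟨rfl, rfl⟩ := h'
        exact hD' h
      · exact this.2 h'
    · have h : (a, b) = (y, z) := h
      rw [Prod.mk.injEq] at h
      obtain ⟨rfl, rfl⟩ := h
      rw [mem, mem]
      refine ⟨Or.inl rfl, ?_⟩
      rintro (h' | h')
      · exact hne h'
      · exact hm.2 h'
  · intro a b h1 h2
    have e1 : (a, b) ≠ (y, z) := fun e => h2 (Or.inr e)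
    have := hJ.bdr a b h1 (fun h => h2 (Or.inl h))
    rw [mem, mem]
    refine ⟨?_, ?_⟩
    · rintro (h | h)
      · exact e1 h
      · exact this.1 h
    · rintro (h | h)
      · rw [Prod.mk.injEq] at h
        obtain ⟨rfl, rfl⟩ := h
        exact h1 _ ht
      · exact this.2 h
  · intro a b h1 h2 h3
    have e1 : (a, b) ≠ (y, z) := fun e => h2 (Or.inr e)
    have e2 : (b, a) ≠ (y, z) := fun e => h3 (Or.inr e)
    have := hJ.kill a b h1 (fun h => h2 (Or.inl h)) (fun h => h3 (Or.inl h))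
    rw [mem, mem]
    tauto
  · intro a b c h
    have hp := hJ.par a b c h
    rw [if_neg (Set.notMem_empty _)]
    simp only [mem]
    by_cases hO : (a, b, c) ∈ rots (y, z, x)
    · rw [if_pos hO] at hp
      rcases side_of_rots ht hO with ⟨e1, e2, e3⟩ | ⟨e1, e2, e3⟩ | ⟨e1, e2, e3⟩
      · have : (a, b) ∉ J := by rw [e1]; exact hm.1
        simp only [this, if_false] at hp
        simp only [e1, true_or, if_true, e2, false_or, e3]
        omega
      · have : (b, c) ∉ J := by rw [e2]; exact hm.1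
        simp only [this, if_false] at hp
        simp only [e1, true_or, if_true, e2, false_or, e3]
        omega
      · have : (c, a) ∉ J := by rw [e3]; exact hm.1
        simp only [this, if_false] at hp
        simp only [e1, true_or, if_true, e2, false_or, e3]
        omega
    · rw [if_neg hO] at hp
      have e1 : (a, b) ≠ (y, z) := fun e => hO (rots_of_side ht h (Or.inl e))
      have e2 : (b, c) ≠ (y, z) := fun e => hO (rots_of_side ht h (Or.inr (Or.inl e)))
      have e3 : (c, a) ≠ (y, z) := fun e => hO (rots_of_side ht h (Or.inr (Or.inr e)))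
      simp only [e1, e2, e3, false_or]
      exact hp


end half


end Crest.Agent.R143.Crsx117
end
end

-- ▼ part R143/Crs3_117
section

/-!
# Row 143, block P (P2b), file 3: an exit turns an arc edge into a fourth hull mark (helper117)

* `Exit S N y z f P` : dual path `P` of killed edges from `(z, y)` to the hull edge `f`
* `Exit.union` : `J ∈ hj y z` gives the join `J ∪ P` with the marks `exS ∪ {f}`
* `Exit.diff` : the inverse
* `Exit.ends` : the leg of `J` from `(y, z)` and the leg of `J ∪ P` from `f` end at the same mark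
* `Exit.card_cnt`, `Exit.card_hj` : numbers
-/

set_option autoImplicit false

noncomputable section

open scoped Classical

namespace Crest.Agent.R143.Crsx117

open Crest.Agent.R143.B0x346 Crest.Agent.R143.DelGx806 Crest.Agent.R143.DelRx806
  Crest.Agent.R143.B0Dx346 Crest.Agent.R143.JColx54 Crest.Agent.R143.JCol2x54
  Crest.Agent.R143.JWalkx872 Crest.Agent.R143.JCardx872

variable {S : Finset ℂ} {N : Net ℂ}

/-- dual path of killed edges from `(z, y)` to the hull edge `f` -/
structure Exit (S : Finset ℂ) (N : Net ℂ) (y z : ℂ) (f : ℂ × ℂ) (P : Finset (ℂ × ℂ)) : Prop where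
  hull : hullE S f.1 f.2
  fex : f ∉ N.exS
  kil : ∀ p ∈ P, p ∈ N.kl ∨ p = f
  yz : (y, z) ∈ N.kl
  join : IsJoin N.toTrg ∅ ∅ ({f, (z, y)} : Set (ℂ × ℂ)) P

/-- killed edges outside `P` -/
def klx (N : Net ℂ) (P : Finset (ℂ × ℂ)) : Set (ℂ × ℂ) :=
  {p | p ∈ N.kl ∧ p ∉ P ∧ (p.2, p.1) ∉ P}

theorem klx_symm {P : Finset (ℂ × ℂ)} (a b : ℂ) (h : (a, b) ∈ klx N P) : (b, a) ∈ klx N P :=
  ⟨N.klsym _ _ h.1, h.2.2, h.2.1⟩

theorem exS_hull (h : HNet S N) {a b : ℂ} (hab : (a, b) ∈ N.exS) : hullE S a b := by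
  obtain ⟨k, hk⟩ := hab
  have := h.hex k
  rw [hk] at this
  exact this

theorem exS_live (h : HNet S N) {a b : ℂ} (hab : (a, b) ∈ N.exS) : (a, b) ∉ N.kl := by
  obtain ⟨k, hk⟩ := hab
  have := h.live k
  rw [hk] at this
  exact this

theorem hullE_asymm {a b : ℂ} (h : hullE S a b) : ¬ hullE S b a := fun h' => by
  obtain ⟨⟨c, hc⟩, -⟩ := h'
  exact h.2 c hc

namespace Exit

variable {y z x : ℂ} {f : ℂ × ℂ} {P : Finset (ℂ × ℂ)}

theorem f_mem (E : Exit S N y z f P) : f ∈ P ∧ (f.2, f.1) ∉ P :=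
  E.join.mark f.1 f.2 (Or.inl rfl)

theorem zy_mem (E : Exit S N y z f P) : (z, y) ∈ P ∧ (y, z) ∉ P :=
  E.join.mark z y (Or.inr rfl)

theorem f_ne_yz (E : Exit S N y z f P) : f ≠ (y, z) := by
  intro e
  exact E.zy_mem.2 (e ▸ E.f_mem.1)



/-- `(z, y)` has a triangle on its left -/
theorem zy_tri (h : HNet S N) (E : Exit S N y z f P) : ∃ c, (z, y, c) ∈ delT S := by
  by_contra hn
  push Not at hn
  have h1 := E.join.bdr y z (by rw [h.tri]; exact hn) (by
    rintro (h1 | h1)
    · exact E.f_ne_yz h1.symm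
    · have h1 : (y, z) = (z, y) := h1
      rw [Prod.mk.injEq] at h1
      have h2 := E.zy_mem
      rw [h1.1] at h2
      exact h2.2 h2.1)
  exact h1.2 E.zy_mem.1

/-- symmetry of `P` away from its two ends -/
theorem sym (E : Exit S N y z f P) {a b : ℂ} (h1 : (a, b) ≠ f) (h2 : (a, b) ≠ (z, y))
    (h3 : (b, a) ≠ f) (h4 : (b, a) ≠ (z, y)) : (a, b) ∈ P ↔ (b, a) ∈ P :=
  E.join.sym a b (by rintro (h | h); exacts [h1 h, h2 h]) (by rintro (h | h); exacts [h3 h, h4 h])

/-- edges of `P` are no marks -/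
theorem not_ex (h : HNet S N) (E : Exit S N y z f P) {a b : ℂ} (hab : (a, b) ∈ P) :
    (a, b) ∉ N.exS ∧ (b, a) ∉ N.exS := by
  rcases E.kil _ hab with h1 | h1
  · exact ⟨fun h' => exS_live h h' h1, fun h' => exS_live h h' (N.klsym _ _ h1)⟩
  · refine ⟨fun h' => E.fex (h1 ▸ h'), fun h' => ?_⟩
    have h2 := exS_hull h h'
    have h3 := E.hull
    rw [← h1] at h3
    exact hullE_asymm h2 h3


section union

variable {J : Finset (ℂ × ℂ)}

theorem f_bdr (h : HNet S N) (E : Exit S N y z f P)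
    (hJ : IsJoin N.toTrg N.kl ∅ (N.exS ∪ {(y, z)}) J) : f ∉ J ∧ (f.2, f.1) ∉ J :=
  hJ.bdr f.1 f.2 (by rw [h.tri]; exact E.hull.2) (by
    rintro (h1 | h1)
    · exact E.fex h1
    · exact E.f_ne_yz h1)

/-- `J` and `P` are disjoint -/
theorem disj (h : HNet S N) (E : Exit S N y z f P)
    (hJ : IsJoin N.toTrg N.kl ∅ (N.exS ∪ {(y, z)}) J) {a b : ℂ} (hab : (a, b) ∈ P) :
    (a, b) ∉ J := by
  have hn := E.not_ex h hab
  rcases E.kil _ hab with h1 | h1
  · by_cases e1 : (b, a) = (y, z)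
    · rw [Prod.mk.injEq] at e1
      obtain ⟨rfl, rfl⟩ := e1
      exact (hJ.mark _ _ (Or.inr rfl)).2
    · refine (hJ.kill a b h1 ?_ ?_).1
      · rintro (h2 | h2)
        · exact hn.1 h2
        · have h2 : (a, b) = (y, z) := h2
          rw [h2] at hab
          exact E.zy_mem.2 hab
      · rintro (h2 | h2)
        · exact hn.2 h2
        · exact e1 h2
  · rw [h1]
    exact (E.f_bdr h hJ).1

theorem union (h : HNet S N) (hx : (y, z, x) ∈ delT S) (E : Exit S N y z f P)
    (hJ : IsJoin N.toTrg N.kl ∅ (N.exS ∪ {(y, z)}) J) :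
    IsJoin N.toTrg (klx N P) ∅ (N.exS ∪ {f}) (J ∪ P) := by
  have mem : ∀ p, p ∈ J ∪ P ↔ p ∈ J ∨ p ∈ P := fun p => Finset.mem_union
  have hm := hJ.mark y z (Or.inr rfl)
  have hf := E.f_bdr h hJ
  have hfP := E.f_mem
  have hzP := E.zy_mem
  refine ⟨?_, ?_, ?_, ?_, ?_, ?_⟩
  · exact Finset.union_subset hJ.sub E.join.sub
  · intro a b h1 h2
    have a1 : (a, b) ∉ N.exS := fun h' => h1 (Or.inl h')
    have a2 : (a, b) ≠ f := fun h' => h1 (Or.inr h')
    have b1 : (b, a) ∉ N.exS := fun h' => h2 (Or.inl h')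
    have b2 : (b, a) ≠ f := fun h' => h2 (Or.inr h')
    rw [mem, mem]
    by_cases e1 : (a, b) = (y, z)
    · rw [Prod.mk.injEq] at e1
      obtain ⟨rfl, rfl⟩ := e1
      exact ⟨fun _ => Or.inr hzP.1, fun _ => Or.inl hm.1⟩
    · by_cases e2 : (b, a) = (y, z)
      · rw [Prod.mk.injEq] at e2
        obtain ⟨rfl, rfl⟩ := e2
        exact ⟨fun _ => Or.inl hm.1, fun _ => Or.inr hzP.1⟩
      · have hJs := hJ.sym a b (by rintro (h' | h'); exacts [a1 h', e1 h'])
          (by rintro (h' | h'); exacts [b1 h', e2 h'])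
        have hPs := E.sym (a := a) (b := b) a2
          (by intro e; apply e2; rw [Prod.mk.injEq] at e ⊢; exact ⟨e.2, e.1⟩) b2
          (by intro e; apply e1; rw [Prod.mk.injEq] at e ⊢; exact ⟨e.2, e.1⟩)
        rw [hJs, hPs]
  · intro a b h1
    rw [mem, mem]
    rcases h1 with h1 | h1
    · have h2 := hJ.mark a b (Or.inl h1)
      refine ⟨Or.inl h2.1, ?_⟩
      rintro (h3 | h3)
      · exact h2.2 h3
      · exact (E.not_ex h h3).2 h1
    · have h1 : (a, b) = f := h1
      subst h1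
      refine ⟨Or.inr hfP.1, ?_⟩
      rintro (h3 | h3)
      · exact hf.2 h3
      · exact hfP.2 h3
  · intro a b h1 h2
    have a1 : (a, b) ∉ N.exS := fun h' => h2 (Or.inl h')
    have a2 : (a, b) ≠ f := fun h' => h2 (Or.inr h')
    have h1' : ∀ c, (b, a, c) ∉ delT S := by rw [← h.tri]; exact h1
    have e1 : (a, b) ≠ (y, z) := by
      intro e
      obtain ⟨c, hc⟩ := E.zy_tri h
      rw [Prod.mk.injEq] at e
      obtain ⟨rfl, rfl⟩ := e
      exact h1' c hc
    have e2 : (a, b) ≠ (z, y) := by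
      intro e
      rw [Prod.mk.injEq] at e
      obtain ⟨rfl, rfl⟩ := e
      exact h1' x hx
    have k1 := hJ.bdr a b h1 (by rintro (h' | h'); exacts [a1 h', e1 h'])
    have k2 := E.join.bdr a b h1 (by rintro (h' | h'); exacts [a2 h', e2 h'])
    rw [mem, mem]
    tauto
  · intro a b h1 h2 h3
    have a1 : (a, b) ∉ N.exS := fun h' => h2 (Or.inl h')
    have b1 : (b, a) ∉ N.exS := fun h' => h3 (Or.inl h')
    have e1 : (a, b) ≠ (y, z) := by
      intro e
      rw [Prod.mk.injEq] at e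
      obtain ⟨rfl, rfl⟩ := e
      exact h1.2.2 hzP.1
    have e2 : (b, a) ≠ (y, z) := by
      intro e
      rw [Prod.mk.injEq] at e
      obtain ⟨rfl, rfl⟩ := e
      exact h1.2.1 hzP.1
    have k1 := hJ.kill a b h1.1 (by rintro (h' | h'); exacts [a1 h', e1 h'])
      (by rintro (h' | h'); exacts [b1 h', e2 h'])
    rw [mem, mem]
    exact ⟨fun h' => h'.elim k1.1 h1.2.1, fun h' => h'.elim k1.2 h1.2.2⟩
  · intro a b c ht
    have p1 := hJ.par a b c ht
    have p2 := E.join.par a b c ht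
    rw [if_neg (Set.notMem_empty _)] at p1 p2 ⊢
    have d1 : (a, b) ∈ P → (a, b) ∉ J := fun h' => E.disj h hJ h'
    have d2 : (b, c) ∈ P → (b, c) ∉ J := fun h' => E.disj h hJ h'
    have d3 : (c, a) ∈ P → (c, a) ∉ J := fun h' => E.disj h hJ h'
    have key : ∀ p : ℂ × ℂ, (p ∈ P → p ∉ J) →
        (if p ∈ J ∪ P then 1 else 0 : ℕ) = (if p ∈ J then 1 else 0) + (if p ∈ P then 1 else 0) := by
      intro p hp
      by_cases q1 : p ∈ J <;> by_cases q2 : p ∈ P
      · exact absurd q1 (hp q2)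
      · simp [q1, q2]
      · simp [q1, q2]
      · simp [q1, q2]
    rw [key _ d1, key _ d2, key _ d3]
    omega





end union




end Exit

end Crest.Agent.R143.Crsx117
end
end

-- ▼ part R143/Crs4_117
section

/-!
# Row 143, block P (P2b), file 4: counting by colourings (helper117)

* `PX S N f P` : `f` = hull edge, no mark, `P` = set of killed edges on which the colouring changes
  (`P = ∅` for a position on the hull)
* `VC S N f P` : valid sets of black sites with the four marks `exS ∪ {f}`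
* `Free S N In` : the inner sites; all other sites are joined to the hull arcs by walls
* `card_free` : the valid colourings with `v0` black are `B0 ∪ T`, `T ⊆ In`
-/

set_option autoImplicit false

noncomputable section

open scoped Classical

namespace Crest.Agent.R143.Crsx117

open Crest.Agent.R143.B0x346 Crest.Agent.R143.DelGx806 Crest.Agent.R143.DelRx806
  Crest.Agent.R143.B0Dx346 Crest.Agent.R143.JColx54 Crest.Agent.R143.JCol2x54
  Crest.Agent.R143.JWalkx872 Crest.Agent.R143.JCardx872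

variable {S : Finset ℂ} {N : Net ℂ} {f : ℂ × ℂ} {P : Finset (ℂ × ℂ)}

theorem mem_colJ' {G : Trg ℂ} {D : Set (ℂ × ℂ)} {σ : ℂ → Bool} (hG : G.T = delT S) {a b : ℂ} :
    (a, b) ∈ colJ G D σ ↔ Adj S a b ∧ σ a ≠ σ b ∧ (b, a) ∉ D := by
  unfold colJ
  rw [Finset.mem_filter, mem_E hG]

/-- additional hull mark `f` with a set `P` of forced changes -/
structure PX (S : Finset ℂ) (N : Net ℂ) (f : ℂ × ℂ) (P : Finset (ℂ × ℂ)) : Prop where
  hull : hullE S f.1 f.2
  fex : f ∉ N.exS
  kil : ∀ p ∈ P, p ∈ N.kl ∨ p = f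
  rf : (f.2, f.1) ∉ P
  adj : ∀ p ∈ P, Adj S p.1 p.2

theorem PX.empty (hf : hullE S f.1 f.2) (hx : f ∉ N.exS) : PX S N f ∅ where
  hull := hf
  fex := hx
  kil := by simp
  rf := by simp
  adj := by simp

theorem Exit.px (h : HNet S N) {y z : ℂ} (E : Exit S N y z f P) : PX S N f P where
  hull := E.hull
  fex := E.fex
  kil := E.kil
  rf := E.f_mem.2
  adj := fun p hp => (mem_E h.tri).1 (E.join.sub hp)

/-- the four marks -/
abbrev DD (N : Net ℂ) (f : ℂ × ℂ) : Set (ℂ × ℂ) := N.exS ∪ {f}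

/-- valid sets of black sites -/
def VC (S : Finset ℂ) (N : Net ℂ) (f : ℂ × ℂ) (P : Finset (ℂ × ℂ)) : Finset (Finset ℂ) :=
  (cols S (klx N P) (DD N f)).filter fun B => ∀ p ∈ P, decide (p.1 ∈ B) ≠ decide (p.2 ∈ B)

/-- the colouring of a set of black sites -/
abbrev blk (B : Finset ℂ) : ℂ → Bool := fun s => decide (s ∈ B)

namespace PX

theorem not_ex (h : HNet S N) (E : PX S N f P) {a b : ℂ} (hab : (a, b) ∈ P) :
    (a, b) ∉ N.exS ∧ (b, a) ∉ N.exS := by
  rcases E.kil _ hab with h1 | h1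
  · exact ⟨fun h' => exS_live h h' h1, fun h' => exS_live h h' (N.klsym _ _ h1)⟩
  · refine ⟨fun h' => E.fex (h1 ▸ h'), fun h' => ?_⟩
    have h2 := exS_hull h h'
    have h3 := E.hull
    rw [← h1] at h3
    exact hullE_asymm h2 h3

theorem hD (h : HNet S N) (E : PX S N f P) : ∀ a b, (a, b) ∈ DD N f → hullE S a b := by
  rintro a b (h1 | h1)
  · exact exS_hull h h1
  · have h1 : (a, b) = f := h1
    have h3 := E.hull
    rw [← h1] at h3
    exact h3

theorem mem_VC {B : Finset ℂ} : B ∈ VC S N f P ↔ B ⊆ S ∧ IsCol S (klx N P) (DD N f) (blk B) ∧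
    ∀ p ∈ P, blk B p.1 ≠ blk B p.2 := by
  unfold VC cols
  rw [Finset.mem_filter, Finset.mem_filter, Finset.mem_powerset]
  tauto

theorem sub_setJ (h : HNet S N) (E : PX S N f P) {B : Finset ℂ} :
    P ⊆ setJ N.toTrg (DD N f) B ↔ ∀ p ∈ P, decide (p.1 ∈ B) ≠ decide (p.2 ∈ B) := by
  constructor
  · intro h1 p hp
    exact ((mem_colJ' h.tri).1 (h1 hp)).2.1
  · rintro h1 ⟨a, b⟩ hp
    refine (mem_colJ' h.tri).2 ⟨E.adj _ hp, h1 _ hp, ?_⟩
    rintro (h2 | h2)
    · exact (E.not_ex h hp).2 h2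
    · have h2 : (b, a) = f := h2
      apply E.rf
      rw [← h2]
      exact hp

/-- joins = colourings, with an arbitrary predicate -/
theorem card_VC (h : HNet S N) (E : PX S N f P) (A : Finset (ℂ × ℂ) → Prop) :
    ((VC S N f P).filter fun B => A (setJ N.toTrg (DD N f) B)).card =
      2 * ((joins N.toTrg (klx N P) ∅ (DD N f)).filter fun J => P ⊆ J ∧ A J).card := by
  have e := card_cols h.gp (Sidesx697.card3 h) h.tri (E.hD h) (klx_symm (N := N) (P := P))
    (fun J => P ⊆ J ∧ A J)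
  have e1 : (VC S N f P).filter (fun B => A (setJ N.toTrg (DD N f) B)) =
      (cols S (klx N P) (DD N f)).filter (fun B => P ⊆ setJ N.toTrg (DD N f) B ∧
        A (setJ N.toTrg (DD N f) B)) := by
    ext B
    unfold VC
    simp only [Finset.mem_filter, E.sub_setJ h]
    tauto
  rw [e1]
  refine (Eq.trans ?_ e).trans ?_
  · apply congrArg Finset.card
    ext B
    simp only [Finset.mem_filter]
  · apply congrArg (fun s : Finset (Finset (ℂ × ℂ)) => 2 * s.card)
    ext J
    simp only [Finset.mem_filter]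

theorem compl_VC (h : HNet S N) (E : PX S N f P) {B : Finset ℂ} (hB : B ∈ VC S N f P) :
    S \ B ∈ VC S N f P := by
  unfold VC at hB ⊢
  rw [Finset.mem_filter] at hB ⊢
  refine ⟨compl_mem_cols (E.hD h) hB.1, fun p hp => ?_⟩
  have h1 := hB.2 p hp
  have h2 := (E.adj p hp).mem
  by_cases q1 : p.1 ∈ B <;> by_cases q2 : p.2 ∈ B <;> simp [q1, q2, h2.1, h2.2] at h1 ⊢

/-- half of the colourings have `v0` black -/
theorem card_black (h : HNet S N) (E : PX S N f P) {v0 : ℂ} (hv : v0 ∈ S)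
    (Q : Finset ℂ → Prop) (hQ : ∀ B ∈ VC S N f P, Q B ↔ Q (S \ B)) :
    ((VC S N f P).filter Q).card = 2 * ((VC S N f P).filter fun B => v0 ∈ B ∧ Q B).card := by
  have e1 : ((VC S N f P).filter Q).card = ((VC S N f P).filter fun B => v0 ∈ B ∧ Q B).card +
      ((VC S N f P).filter fun B => v0 ∉ B ∧ Q B).card := by
    rw [← Finset.card_union_of_disjoint]
    · congr 1
      ext B
      simp only [Finset.mem_union, Finset.mem_filter]
      tauto
    · rw [Finset.disjoint_filter]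
      rintro B _ ⟨h1, _⟩ ⟨h2, _⟩
      exact h2 h1
  have e2 : ((VC S N f P).filter fun B => v0 ∉ B ∧ Q B).card =
      ((VC S N f P).filter fun B => v0 ∈ B ∧ Q B).card := by
    have hss : ∀ B ∈ VC S N f P, S \ (S \ B) = B := fun B hB =>
      Finset.sdiff_sdiff_eq_self (mem_VC.1 hB).1
    refine Finset.card_bij' (fun B _ => S \ B) (fun B _ => S \ B) ?_ ?_ ?_ ?_
    · intro B hB
      rw [Finset.mem_filter] at hB ⊢
      exact ⟨E.compl_VC h hB.1, Finset.mem_sdiff.2 ⟨hv, hB.2.1⟩, (hQ B hB.1).1 hB.2.2⟩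
    · intro B hB
      rw [Finset.mem_filter] at hB ⊢
      exact ⟨E.compl_VC h hB.1, fun h' => (Finset.mem_sdiff.1 h').2 hB.2.1,
        (hQ B hB.1).1 hB.2.2⟩
    · intro B hB
      exact hss B (Finset.mem_filter.1 hB).1
    · intro B hB
      exact hss B (Finset.mem_filter.1 hB).1
  rw [e1, e2]
  ring

end PX

/-- the inner sites -/
structure Free (S : Finset ℂ) (N : Net ℂ) (In : Finset ℂ) : Prop where
  sub : In ⊆ S
  live : ∀ a ∈ In, ∀ b, Adj S a b → (a, b) ∉ N.kl
  nh : ∀ a ∈ In, ∀ b, ¬ hullE S a b ∧ ¬ hullE S b a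
  out : ∀ v ∈ S, v ∉ In → ∃ i, Sidesx697.Side N i v

section free

variable {In : Finset ℂ}

/-- two valid colourings change simultaneously along walls -/
theorem xor_wall (h : HNet S N) (_E : PX S N f P) {B B' : Finset ℂ} (hB : B ∈ VC S N f P)
    (hB' : B' ∈ VC S N f P) {u v : ℂ} (hw : Sidesx697.Wall N u v) :
    (xor (blk B u) (blk B' u)) = xor (blk B v) (blk B' v) := by
  rw [PX.mem_VC] at hB hB'
  obtain ⟨h1, h2, h3, h4⟩ := hw
  have hadj : Adj S u v := (mem_E h.tri).1 h1
  have both : ∀ {a b : Bool} {a' b' : Bool}, (a ≠ b) → (a' ≠ b') → xor a a' = xor b b' := by decide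
  have hull : ∀ a b, hullE S a b → (a, b) ∉ N.exS → (xor (blk B a) (blk B' a)) =
      xor (blk B b) (blk B' b) := by
    intro a b hab hn
    by_cases hf : (a, b) = f
    · exact both (hB.2.1.mark a b (Or.inr hf)) (hB'.2.1.mark a b (Or.inr hf))
    · have hn' : (a, b) ∉ DD N f := by
        rintro (h' | h')
        · exact hn h'
        · exact hf h'
      rw [hB.2.1.hull a b hab hn', hB'.2.1.hull a b hab hn']
  rcases h4 with h4 | h4 | h4
  · by_cases q1 : (u, v) ∈ P
    · exact both (hB.2.2 _ q1) (hB'.2.2 _ q1)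
    · by_cases q2 : (v, u) ∈ P
      · exact both (hB.2.2 _ q2).symm (hB'.2.2 _ q2).symm
      · by_cases q3 : (u, v) = f
        · exact both (hB.2.1.mark u v (Or.inr q3)) (hB'.2.1.mark u v (Or.inr q3))
        · by_cases q4 : (v, u) = f
          · exact both (hB.2.1.mark v u (Or.inr q4)).symm (hB'.2.1.mark v u (Or.inr q4)).symm
          · have k1 : (u, v) ∉ DD N f := by
              rintro (h' | h')
              · exact h2 h'
              · exact q3 h'
            have k2 : (v, u) ∉ DD N f := by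
              rintro (h' | h')
              · exact h3 h'
              · exact q4 h'
            rw [hB.2.1.kill u v hadj ⟨h4, q1, q2⟩ k1 k2, hB'.2.1.kill u v hadj ⟨h4, q1, q2⟩ k1 k2]
  · rw [h.tri] at h4
    rcases hadj with h5 | ⟨c, h5⟩
    · exact hull u v ⟨h5, h4⟩ h2
    · exact absurd h5 (h4 c)
  · rw [h.tri] at h4
    rcases hadj with ⟨c, h5⟩ | h5
    · exact absurd h5 (h4 c)
    · exact (hull v u ⟨h5, h4⟩ h3).symm

theorem xor_hull (_E : PX S N f P) {B B' : Finset ℂ} (hB : B ∈ VC S N f P)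
    (hB' : B' ∈ VC S N f P) {a b : ℂ} (hab : hullE S a b) :
    (xor (blk B a) (blk B' a)) = xor (blk B b) (blk B' b) := by
  rw [PX.mem_VC] at hB hB'
  have both : ∀ {a b : Bool} {a' b' : Bool}, (a ≠ b) → (a' ≠ b') → xor a a' = xor b b' := by decide
  by_cases hf : (a, b) ∈ DD N f
  · exact both (hB.2.1.mark a b hf) (hB'.2.1.mark a b hf)
  · rw [hB.2.1.hull a b hab hf, hB'.2.1.hull a b hab hf]

/-- valid colourings with the same colour at one hull site agree outside the inner sites -/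
theorem agree (h : HNet S N) (E : PX S N f P) (F : Free S N In) {B B' : Finset ℂ}
    (hB : B ∈ VC S N f P) (hB' : B' ∈ VC S N f P) {v0 c0 : ℂ} (hv0 : hullE S v0 c0)
    (h0 : v0 ∈ B) (h0' : v0 ∈ B') {v : ℂ} (hv : v ∈ S) (hvI : v ∉ In) : v ∈ B ↔ v ∈ B' := by
  obtain ⟨n, w, H⟩ := hull_cycle h.gp (Sidesx697.card3 h)
  set g : ℂ → Bool := fun s => xor (blk B s) (blk B' s) with hg
  have hgc : ∀ i j : ℤ, i ≤ j → g (w i) = g (w j) := fun i j hij =>
    w_const hij fun k _ _ => xor_hull E hB hB' (H.edge k)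
  have hga : ∀ i j : ℤ, g (w i) = g (w j) := fun i j => by
    rcases le_total i j with h' | h'
    · exact hgc i j h'
    · exact (hgc j i h').symm
  obtain ⟨i0, -, -, hi0, -⟩ := H.all _ _ hv0
  have hg0 : g v0 = false := by
    simp [hg, blk, h0, h0']
  obtain ⟨i, hi⟩ := F.out v hv hvI
  have h1 : g (N.ex i).2 = g v := by
    clear hvI hv
    unfold Sidesx697.Side at hi
    induction hi with
    | refl => rfl
    | tail _ hs ih => rw [ih, hg]; exact xor_wall h E hB hB' hs
  obtain ⟨k, -, -, hk1, hk2⟩ := H.all _ _ (h.hex i)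
  have h2 : g v = false := by
    rw [← h1, ← hk2, hga (k + 1) i0, hi0, hg0]
  simp only [hg, blk] at h2
  by_cases q1 : v ∈ B <;> by_cases q2 : v ∈ B' <;> simp [q1, q2] at h2 ⊢

/-- the inner sites are free -/
theorem free_mem (h : HNet S N) (E : PX S N f P) (F : Free S N In) {B : Finset ℂ}
    (hB : B ∈ VC S N f P) {T : Finset ℂ} (hT : T ⊆ In) : (B \ In) ∪ T ∈ VC S N f P := by
  rw [PX.mem_VC] at hB ⊢
  have key : ∀ a, a ∉ In → blk ((B \ In) ∪ T) a = blk B a := by
    intro a ha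
    have ha' : a ∉ T := fun h' => ha (hT h')
    simp [blk, ha, ha']
  have hin : ∀ a b, hullE S a b → a ∉ In ∧ b ∉ In := fun a b hab =>
    ⟨fun h' => (F.nh a h' b).1 hab, fun h' => (F.nh b h' a).2 hab⟩
  have kin : ∀ a b, Adj S a b → (a, b) ∈ N.kl → a ∉ In ∧ b ∉ In := fun a b hab hk =>
    ⟨fun h' => F.live a h' b hab hk, fun h' => F.live b h' a hab.symm (N.klsym _ _ hk)⟩
  refine ⟨Finset.union_subset (Finset.sdiff_subset.trans hB.1) (hT.trans F.sub), ⟨?_, ?_, ?_⟩, ?_⟩
  · intro a b h1 h2 h3 h4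
    have := kin a b h1 h2.1
    rw [key a this.1, key b this.2]
    exact hB.2.1.kill a b h1 h2 h3 h4
  · intro a b h1 h2
    have := hin a b h1
    rw [key a this.1, key b this.2]
    exact hB.2.1.hull a b h1 h2
  · intro a b h1
    have := hin a b (E.hD h a b h1)
    rw [key a this.1, key b this.2]
    exact hB.2.1.mark a b h1
  · rintro ⟨a, b⟩ hp
    have : a ∉ In ∧ b ∉ In := by
      rcases E.kil _ hp with h1 | h1
      · exact kin a b (E.adj _ hp) h1
      · have h3 := E.hull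
        rw [← h1] at h3
        exact hin a b h3
    show blk _ a ≠ blk _ b
    rw [key a this.1, key b this.2]
    exact hB.2.2 _ hp

/-- **the valid colourings with `v0` black** are `B0 ∪ T`, `T ⊆ In` -/
theorem card_free (h : HNet S N) (E : PX S N f P) (F : Free S N In) {B1 : Finset ℂ}
    (hB1 : B1 ∈ VC S N f P) {v0 c0 : ℂ} (hv0 : hullE S v0 c0) (h01 : v0 ∈ B1)
    (Q : Finset ℂ → Prop) :
    ((VC S N f P).filter fun B => v0 ∈ B ∧ Q B).card =
      (In.powerset.filter fun T => Q ((B1 \ In) ∪ T)).card := by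
  have hvI : v0 ∉ In := fun h' => (F.nh v0 h' c0).1 hv0
  refine Finset.card_bij' (fun B _ => B ∩ In) (fun T _ => (B1 \ In) ∪ T) ?_ ?_ ?_ ?_
  · intro B hB
    rw [Finset.mem_filter] at hB
    have e : (B1 \ In) ∪ (B ∩ In) = B := by
      ext v
      rw [Finset.mem_union, Finset.mem_sdiff, Finset.mem_inter]
      by_cases hv : v ∈ In
      · tauto
      · constructor
        · rintro (h1 | h1)
          · have hvS := (PX.mem_VC.1 hB1).1 h1.1
            exact (agree h E F hB1 hB.1 hv0 h01 hB.2.1 hvS hv).1 h1.1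
          · exact h1.1
        · intro h1
          have hvS := (PX.mem_VC.1 hB.1).1 h1
          exact Or.inl ⟨(agree h E F hB1 hB.1 hv0 h01 hB.2.1 hvS hv).2 h1, hv⟩
    rw [Finset.mem_filter, Finset.mem_powerset]
    refine ⟨Finset.inter_subset_right, ?_⟩
    rw [e]
    exact hB.2.2
  · intro T hT
    rw [Finset.mem_filter, Finset.mem_powerset] at hT
    rw [Finset.mem_filter]
    exact ⟨free_mem h E F hB1 hT.1,
      Finset.mem_union_left _ (Finset.mem_sdiff.2 ⟨h01, hvI⟩), hT.2⟩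
  · intro B hB
    rw [Finset.mem_filter] at hB
    ext v
    rw [Finset.mem_union, Finset.mem_sdiff, Finset.mem_inter]
    by_cases hv : v ∈ In
    · tauto
    · constructor
      · rintro (h1 | h1)
        · have hvS := (PX.mem_VC.1 hB1).1 h1.1
          exact (agree h E F hB1 hB.1 hv0 h01 hB.2.1 hvS hv).1 h1.1
        · exact h1.1
      · intro h1
        have hvS := (PX.mem_VC.1 hB.1).1 h1
        exact Or.inl ⟨(agree h E F hB1 hB.1 hv0 h01 hB.2.1 hvS hv).2 h1, hv⟩
  · intro T hT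
    rw [Finset.mem_filter, Finset.mem_powerset] at hT
    ext v
    rw [Finset.mem_inter, Finset.mem_union, Finset.mem_sdiff]
    constructor
    · rintro ⟨h1 | h1, h2⟩
      · exact absurd h2 h1.2
      · exact h1
    · intro h1
      exact ⟨Or.inr h1, hT.1 h1⟩

end free

end Crest.Agent.R143.Crsx117
end
end

-- ▼ part R143/Crs5_117
section

/-!
# Row 143, block P (P2b), file 5: the formula for the observable at an arc position (helper117)

* `F_dead` : triangle `(y, z, x)` whose side `(y, z)` is dead (killed or on the hull, no mark)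
* `main` : numbers of joins with the fourth mark `f = hm w j1`, `m i < j1 < m (i + 1)`
* `F_hull` : position on the hull: `F x (w j1) = (1 - p) om ^ i + p om ^ (i + 1)`
* `F_exit` : position inside, with an exit
  `p` = proportion of the subsets `T` of the inner sites such that `B0 ∪ T` contains a chain from the
  hull arc `(ex i, f)` to the hull arc `(ex (i + 1), ex (i + 2))`
-/

set_option autoImplicit false

noncomputable section

open scoped Classical

namespace Crest.Agent.R143.Crsx117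

open Crest.Agent.R143.B0x346 Crest.Agent.R143.DelGx806 Crest.Agent.R143.DelRx806
  Crest.Agent.R143.B0Dx346 Crest.Agent.R143.JColx54 Crest.Agent.R143.JCol2x54
  Crest.Agent.R143.JWalkx872 Crest.Agent.R143.JCardx872

section dead

variable {V : Type} {G : Trg V} {kl kl' : Set (V × V)} {D : Set (V × V)} {O : Set (V × V × V)}
  {y z x : V} {J : Finset (V × V)}

theorem kl_weak (hk : kl ⊆ kl') (hJ : IsJoin G kl' O D J) : IsJoin G kl O D J :=
  { hJ with kill := fun a b h1 h2 h3 => hJ.kill a b (hk h1) h2 h3 }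

theorem kl_add (hJ : IsJoin G kl O D J) (h1 : (y, z) ∉ J) (h2 : (z, y) ∉ J) :
    IsJoin G (kl ∪ {(y, z), (z, y)}) O D J :=
  { hJ with
    kill := by
      rintro a b (h | h | h) h3 h4
      · exact hJ.kill a b h h3 h4
      · rw [Prod.mk.injEq] at h
        obtain ⟨rfl, rfl⟩ := h
        exact ⟨h1, h2⟩
      · have h : (a, b) = (z, y) := h
        rw [Prod.mk.injEq] at h
        obtain ⟨rfl, rfl⟩ := h
        exact ⟨h2, h1⟩ }

/-- joins with a half edge at a dead side = joins with an odd triangle -/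
theorem card_half_dead (ht : (y, z, x) ∈ G.T)
    (hd : ∀ J, IsJoin G kl (rots (y, z, x)) D J → (y, z) ∉ J ∧ (z, y) ∉ J) (hD : (y, z) ∉ D)
    (hD' : (z, y) ∉ D) (P Q : Finset (V × V) → Prop)
    (hPQ : ∀ J, IsJoin G kl (rots (y, z, x)) D J → (y, z) ∉ J → (Q J ↔ P (insert (y, z) J))) :
    ((joins G kl ∅ (D ∪ {(y, z)})).filter P).card =
      ((joins G kl (rots (y, z, x)) D).filter Q).card := by
  have ins : ∀ J, IsJoin G kl (rots (y, z, x)) D J →
      IsJoin G kl ∅ (D ∪ {(y, z)}) (insert (y, z) J) := fun J hJ =>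
    kl_weak Set.subset_union_left
      (half_insert (kl := kl ∪ {(y, z), (z, y)}) ht (Or.inr (Or.inl rfl)) hD hD'
        (kl_add hJ (hd J hJ).1 (hd J hJ).2)).1
  refine Finset.card_bij' (fun J _ => J.erase (y, z)) (fun J _ => insert (y, z) J) ?_ ?_ ?_ ?_
  · intro J hJ
    rw [Finset.mem_filter, mem_joins] at hJ
    have h := half_erase ht hD hD' hJ.1
    have hm := hJ.1.mark y z (Or.inr rfl)
    rw [Finset.mem_filter, mem_joins]
    refine ⟨h, (hPQ _ h (Finset.notMem_erase _ _)).2 ?_⟩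
    rw [Finset.insert_erase hm.1]
    exact hJ.2
  · intro J hJ
    rw [Finset.mem_filter, mem_joins] at hJ
    rw [Finset.mem_filter, mem_joins]
    exact ⟨ins J hJ.1, (hPQ _ hJ.1 (hd J hJ.1).1).1 hJ.2⟩
  · intro J hJ
    rw [Finset.mem_filter, mem_joins] at hJ
    exact Finset.insert_erase (hJ.1.mark y z (Or.inr rfl)).1
  · intro J hJ
    rw [Finset.mem_filter, mem_joins] at hJ
    exact Finset.erase_insert (hd J hJ.1).1

end dead

/-- **the observable at the live sides of a triangle with a dead side** -/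
theorem F_dead {S : Finset ℂ} {N : Net ℂ} (h : HNet S N) {x y z : ℂ}
    (ht : (y, z, x) ∈ delT S)
    (hd : ∀ J, IsJoin N.toTrg N.kl (rots (y, z, x)) N.exS J → (y, z) ∉ J ∧ (z, y) ∉ J)
    (hyz : (y, z) ∉ N.exS) (hzy : (z, y) ∉ N.exS) :
    ((x, y) ∉ N.kl → (x, y) ∉ N.exS →
      N.F x y = (∑ k : ZMod 3, (N.cnt y z k : ℂ) * omz k) / ((N.hj y z).card : ℂ)) ∧
    ((z, x) ∉ N.kl → (z, x) ∉ N.exS →
      N.F z x = (∑ k : ZMod 3, (N.cnt y z k : ℂ) * omz k) / ((N.hj y z).card : ℂ)) := by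
  have hg := J1x872.good_of_hnet h
  have ht' : (y, z, x) ∈ N.T := by rw [h.tri]; exact ht
  have ht2 : (x, y, z) ∈ N.T := N.rot (N.rot ht')
  have ht3 : (z, x, y) ∈ N.T := N.rot ht'
  have hP : J1x872.P1 N (x, y, z) := p1all N S h _ (by rw [← h.tri]; exact ht2)
  have hP3 : J1x872.P1 N (z, x, y) := p1all N S h _ (by rw [← h.tri]; exact ht3)
  have hP' : J1x872.P1 N (y, z, x) := p1all N S h _ ht
  have e2 : N.Q (y, z, x) = 0 := by
    unfold Net.Q Net.triA
    apply Finset.sum_eq_zero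
    intro k _
    have : (N.tj (y, z, x)).filter (N.Tri3 (y, z, x) k) = ∅ := by
      rw [Finset.filter_eq_empty_iff]
      intro J hJ h3
      exact (hd J (mem_joins.1 hJ)).1 h3.1
    rw [this]
    simp
  have e3 : N.Q (x, y, z) = 0 := by
    rw [J1x872.q_rot z x y, J1x872.q_rot y z x, e2]
    simp
  have e3' : N.Q (z, x, y) = 0 := by
    rw [J1x872.q_rot y z x, e2]
    simp
  have e4 := J1x872.hh_rot (N := N) x y z
  have e4' := J1x872.hh_rot (N := N) z x y
  have e5 := J1x872.sum_qk (N := N) (t := (y, z, x))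
  have hsd : J1x872.sd (y, z, x) 0 = (y, z) := J1x872.sd0 _
  have c1 : ∀ k, N.cnt y z k = ((N.tj (y, z, x)).filter fun J => J1x872.qk N (y, z, x) J k).card := by
    intro k
    unfold Net.cnt Net.hj Net.tj
    refine card_half_dead ht' hd hyz hzy _ _ ?_
    intro J hJ hn
    have := J1x872.left_half hg ht' hJ hP' (by rw [hsd]; exact hn) k
    rw [hsd] at this
    exact this
  have c2 : (N.hj y z).card = (N.tj (y, z, x)).card := by
    have := card_half_dead (G := N.toTrg) (kl := N.kl) (D := N.exS) ht' hd hyz hzy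
      (fun _ => True) (fun _ => True) (fun _ _ _ => Iff.rfl)
    simp only [Finset.filter_true] at this
    exact this
  rw [e2, add_zero] at e5
  constructor
  · intro hxy hex
    have e1 := J1x872.F_side (t := (x, y, z)) hg ht2 hP hxy
      (fun h' => hxy (N.klsym _ _ h')) (Or.inr hex)
    rw [e1, e3, ← e4, add_zero, c2, ← e5]
    simp only [c1]
  · intro hzx hex
    have e1 := J1x872.F_side (t := (z, x, y)) hg ht3 hP3 hzx
      (fun h' => hzx (N.klsym _ _ h')) (Or.inr hex)
    rw [e1, e3', ← e4', ← e4, add_zero, c2, ← e5]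
    simp only [c1]

variable {S : Finset ℂ} {N : Net ℂ} {P : Finset (ℂ × ℂ)} {In : Finset ℂ} {n : ℕ} {w : ℤ → ℂ}
  {m : ℤ → ℤ} {i j1 : ℤ}

theorem m4_of (H : HullCyc S n w) (Pm : Sidesx697.Pos N n w m) (h1 : m i < j1)
    (h2 : j1 < m (i + 1)) : M4 S n w (m i) j1 (m (i + 1)) (m (i + 2)) where
  cyc := H
  h01 := h1
  h12 := h2
  h23 := Pm.mono (by linarith)
  h30 := by
    rw [← Pm.per]
    exact Pm.mono (by linarith)

theorem z3_cast (i : ℤ) (k : ZMod 3) : k = (i : ZMod 3) ∨ k = ((i + 1 : ℤ) : ZMod 3) ∨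
    k = ((i + 2 : ℤ) : ZMod 3) := by
  push_cast
  generalize (i : ZMod 3) = a
  revert a k
  decide

theorem dd_eq (Pm : Sidesx697.Pos N n w m) :
    DD N (hm w j1) = D4 w (m i) j1 (m (i + 1)) (m (i + 2)) := by
  ext p
  constructor
  · rintro (⟨k, hk⟩ | hk)
    · rcases z3_cast i k with rfl | rfl | rfl
      · rw [Pm.ex] at hk
        exact Or.inl hk.symm
      · rw [Pm.ex] at hk
        exact Or.inr (Or.inr (Or.inl hk.symm))
      · rw [Pm.ex] at hk
        exact Or.inr (Or.inr (Or.inr hk.symm))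
    · exact Or.inr (Or.inl hk)
  · rintro (hk | hk | hk | hk)
    · exact Or.inl ⟨((i : ℤ) : ZMod 3), by rw [Pm.ex]; exact hk.symm⟩
    · exact Or.inr hk
    · exact Or.inl ⟨((i + 1 : ℤ) : ZMod 3), by rw [Pm.ex]; exact hk.symm⟩
    · exact Or.inl ⟨((i + 2 : ℤ) : ZMod 3), by rw [Pm.ex]; exact hk.symm⟩

theorem chn_compl {B : Finset ℂ} {a b : ℂ} : Chn S (blk (S \ B)) a b ↔ Chn S (blk B) a b := by
  unfold Chn
  have : ∀ x y, (Adj S x y ∧ blk (S \ B) x = blk (S \ B) y) ↔ (Adj S x y ∧ blk B x = blk B y) := by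
    intro x y
    constructor
    · rintro ⟨h1, h2⟩
      refine ⟨h1, ?_⟩
      have := h1.mem
      by_cases q1 : x ∈ B <;> by_cases q2 : y ∈ B <;> simp [blk, q1, q2, this.1, this.2] at h2 ⊢
    · rintro ⟨h1, h2⟩
      refine ⟨h1, ?_⟩
      have := h1.mem
      by_cases q1 : x ∈ B <;> by_cases q2 : y ∈ B <;> simp [blk, q1, q2, this.1, this.2] at h2 ⊢
  simp only [this]

/-- the crossing sets of inner sites: with the boundary values `B0`, a chain from `a` to `b` -/
def crossT (S : Finset ℂ) (In B0 : Finset ℂ) (a b : ℂ) : Finset (Finset ℂ) :=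
  In.powerset.filter fun T => Chn S (blk (B0 ∪ T)) a b

/-- the crossing proportion -/
def crossP (S : Finset ℂ) (In B0 : Finset ℂ) (a b : ℂ) : ℝ :=
  ((crossT S In B0 a b).card : ℝ) / 2 ^ In.card



/-- **numbers of joins with the fourth mark `hm w j1`** -/
theorem main (h : HNet S N) (H : HullCyc S n w) (Pm : Sidesx697.Pos N n w m) (h1 : m i < j1)
    (h2 : j1 < m (i + 1)) (E : PX S N (hm w j1) P) (F : Free S N In) {c : ZMod 3 → ℕ} {Hn : ℕ}
    (hc : ∀ k, c k = ((joins N.toTrg (klx N P) ∅ (DD N (hm w j1))).filter fun J =>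
      P ⊆ J ∧ Ends N.toTrg ∅ (DD N (hm w j1)) J (hm w j1) (N.ex k)).card)
    (hH : Hn = ((joins N.toTrg (klx N P) ∅ (DD N (hm w j1))).filter fun J => P ⊆ J).card)
    (hpos : 0 < Hn) :
    ∃ B0 : Finset ℂ, B0 ∈ VC S N (hm w j1) P ∧ Disjoint B0 In ∧ w j1 ∈ B0 ∧
      (∀ B ∈ VC S N (hm w j1) P, w j1 ∈ B → B \ In = B0) ∧
      (∑ k : ZMod 3, (c k : ℂ) * omz k) / (Hn : ℂ) =
        ((1 - crossP S In B0 (w j1) (w (m (i + 2))) : ℝ) : ℂ) * omz (i : ZMod 3) +
        ((crossP S In B0 (w j1) (w (m (i + 2))) : ℝ) : ℂ) * omz ((i : ZMod 3) + 1) := by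
  have M := m4_of H Pm h1 h2
  have hDD := dd_eq (j1 := j1) (i := i) Pm
  have hT := h.tri
  have hks := klx_symm (N := N) (P := P)
  have ex0 : N.ex (i : ZMod 3) = hm w (m i) := Pm.ex i
  have ex1 : N.ex ((i : ZMod 3) + 1) = hm w (m (i + 1)) := by
    have := Pm.ex (i + 1)
    push_cast at this
    exact this
  have hull0 : hullE S (w j1) (w (j1 + 1)) := H.edge j1
  have hv0 : w j1 ∈ S := (hullE.mem hull0).1
  -- the ends
  have crossI : ∀ B ∈ VC S N (hm w j1) P,
      (Ends N.toTrg ∅ (DD N (hm w j1)) (setJ N.toTrg (DD N (hm w j1)) B) (hm w j1)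
        (N.ex ((i : ZMod 3) + 1)) ↔ Chn S (blk B) (w j1) (w (m (i + 2)))) := by
    intro B hB
    have hcol := (PX.mem_VC.1 hB).2.1
    rw [hDD] at hcol ⊢
    rw [ex1]
    exact (cross_iff h.gp hT hks M hcol).1
  have ends2 : ∀ B ∈ VC S N (hm w j1) P,
      Ends N.toTrg ∅ (DD N (hm w j1)) (setJ N.toTrg (DD N (hm w j1)) B) (hm w j1)
        (N.ex ((i : ZMod 3) + 1)) ∨
      Ends N.toTrg ∅ (DD N (hm w j1)) (setJ N.toTrg (DD N (hm w j1)) B) (hm w j1)
        (N.ex (i : ZMod 3)) := by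
    intro B hB
    have hcol := (PX.mem_VC.1 hB).2.1
    rw [hDD] at hcol ⊢
    rw [ex1, ex0]
    exact cross_ends h.gp hT hks M hcol
  have uniq : ∀ (B : Finset ℂ) (k k' : ZMod 3),
      Ends N.toTrg ∅ (DD N (hm w j1)) (setJ N.toTrg (DD N (hm w j1)) B) (hm w j1) (N.ex k) →
      Ends N.toTrg ∅ (DD N (hm w j1)) (setJ N.toTrg (DD N (hm w j1)) B) (hm w j1) (N.ex k') →
      k = k' := fun B k k' q1 q2 =>
    J1x872.ends_unique (J1x872.good_of_hnet h) Set.subset_union_left q1 q2
  -- the numbers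
  have n1 : ∀ k, ((VC S N (hm w j1) P).filter fun B =>
      Ends N.toTrg ∅ (DD N (hm w j1)) (setJ N.toTrg (DD N (hm w j1)) B) (hm w j1)
        (N.ex k)).card = 2 * c k := by
    intro k
    rw [hc k]
    exact E.card_VC h fun J => Ends N.toTrg ∅ (DD N (hm w j1)) J (hm w j1) (N.ex k)
  have n2 : (VC S N (hm w j1) P).card = 2 * Hn := by
    rw [hH]
    have := E.card_VC h fun _ => True
    simpa using this
  obtain ⟨B2, hB2⟩ : (VC S N (hm w j1) P).Nonempty := by
    rw [← Finset.card_pos, n2]; omega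
  obtain ⟨B1, hB1, h01⟩ : ∃ B1 ∈ VC S N (hm w j1) P, w j1 ∈ B1 := by
    by_cases q : w j1 ∈ B2
    · exact ⟨B2, hB2, q⟩
    · exact ⟨S \ B2, E.compl_VC h hB2, Finset.mem_sdiff.2 ⟨hv0, q⟩⟩
  set p : ℝ := crossP S In (B1 \ In) (w j1) (w (m (i + 2))) with hp
  have n3 : Hn = 2 ^ In.card := by
    have k1 := E.card_black h hv0 (fun _ => True) (fun _ _ => Iff.rfl)
    have k2 := card_free h E F hB1 hull0 h01 (fun _ => True)
    rw [k2] at k1
    simp only [Finset.filter_true, Finset.card_powerset] at k1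
    rw [n2] at k1
    omega
  have n4 : c ((i : ZMod 3) + 1) = (crossT S In (B1 \ In) (w j1) (w (m (i + 2)))).card := by
    have k0 := n1 ((i : ZMod 3) + 1)
    have k1 := E.card_black h hv0 (fun B => Chn S (blk B) (w j1) (w (m (i + 2))))
      (fun B _ => chn_compl.symm)
    have k2 := card_free h E F hB1 hull0 h01 (fun B => Chn S (blk B) (w j1) (w (m (i + 2))))
    rw [k2] at k1
    have k3 : ((VC S N (hm w j1) P).filter fun B =>
      Ends N.toTrg ∅ (DD N (hm w j1)) (setJ N.toTrg (DD N (hm w j1)) B) (hm w j1)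
        (N.ex ((i : ZMod 3) + 1))) = (VC S N (hm w j1) P).filter fun B =>
          Chn S (blk B) (w j1) (w (m (i + 2))) := Finset.filter_congr fun B hB => crossI B hB
    rw [k3, k1] at k0
    unfold crossT
    omega
  have n5 : c (i : ZMod 3) + c ((i : ZMod 3) + 1) = Hn := by
    have k0 := n1 (i : ZMod 3)
    have k1 := n1 ((i : ZMod 3) + 1)
    have k2 : ((VC S N (hm w j1) P).filter fun B =>
      Ends N.toTrg ∅ (DD N (hm w j1)) (setJ N.toTrg (DD N (hm w j1)) B) (hm w j1)
        (N.ex (i : ZMod 3))) = (VC S N (hm w j1) P).filter fun B => ¬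
      Ends N.toTrg ∅ (DD N (hm w j1)) (setJ N.toTrg (DD N (hm w j1)) B) (hm w j1)
        (N.ex ((i : ZMod 3) + 1)) := by
      apply Finset.filter_congr
      intro B hB
      constructor
      · intro q1 q2
        have := uniq B _ _ q1 q2
        simp at this
      · intro q
        rcases ends2 B hB with q1 | q1
        · exact absurd q1 q
        · exact q1
    have k3 := Finset.card_filter_add_card_filter_not (s := VC S N (hm w j1) P) (fun B =>
      Ends N.toTrg ∅ (DD N (hm w j1)) (setJ N.toTrg (DD N (hm w j1)) B) (hm w j1)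
        (N.ex ((i : ZMod 3) + 1)))
    rw [k2] at k0
    omega
  have n6 : c ((i : ZMod 3) + 2) = 0 := by
    have k0 := n1 ((i : ZMod 3) + 2)
    have k1 : ((VC S N (hm w j1) P).filter fun B =>
      Ends N.toTrg ∅ (DD N (hm w j1)) (setJ N.toTrg (DD N (hm w j1)) B) (hm w j1)
        (N.ex ((i : ZMod 3) + 2))) = ∅ := by
      rw [Finset.filter_eq_empty_iff]
      intro B hB q
      rcases ends2 B hB with q1 | q1
      · have := uniq B _ _ q q1
        rw [add_right_inj] at this
        revert this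
        decide
      · have := uniq B _ _ q q1
        have h2 : (2 : ZMod 3) = 0 := by
          have h3 : (i : ZMod 3) + 2 = (i : ZMod 3) + 0 := by rw [add_zero]; exact this
          exact add_left_cancel h3
        revert h2
        decide
    rw [k1, Finset.card_empty] at k0
    omega
  refine ⟨B1 \ In, ?_, Finset.sdiff_disjoint, ?_, ?_, ?_⟩
  · have := free_mem h E F hB1 (T := ∅) (by simp)
    simpa using this
  · exact Finset.mem_sdiff.2 ⟨h01, fun h' => (F.nh _ h' _).1 hull0⟩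
  · intro B hB hBj
    ext v
    rw [Finset.mem_sdiff, Finset.mem_sdiff]
    constructor
    · rintro ⟨q1, q2⟩
      exact ⟨(agree h E F hB hB1 hull0 hBj h01 ((PX.mem_VC.1 hB).1 q1) q2).1 q1, q2⟩
    · rintro ⟨q1, q2⟩
      exact ⟨(agree h E F hB hB1 hull0 hBj h01 ((PX.mem_VC.1 hB1).1 q1) q2).2 q1, q2⟩
  · have s1 : (∑ k : ZMod 3, (c k : ℂ) * omz k) = (c (i : ZMod 3) : ℂ) * omz (i : ZMod 3) +
        (c ((i : ZMod 3) + 1) : ℂ) * omz ((i : ZMod 3) + 1) +
        (c ((i : ZMod 3) + 2) : ℂ) * omz ((i : ZMod 3) + 2) := by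
      have : ∀ (a : ZMod 3) (g : ZMod 3 → ℂ), (∑ k : ZMod 3, g k) = g a + g (a + 1) + g (a + 2) := by
        intro a g
        rw [← Equiv.sum_comp (Equiv.addLeft a) g]
        simp only [Equiv.coe_addLeft]
        have h3 : ∀ g' : ZMod 3 → ℂ, (∑ k : ZMod 3, g' k) = g' 0 + g' 1 + g' 2 := fun g' =>
          Fin.sum_univ_three (M := ℂ) g'
        rw [h3 (fun k => g (a + k))]
        simp only [add_zero]
      exact this _ _
    have hH0 : (Hn : ℂ) ≠ 0 := by
      exact_mod_cast hpos.ne'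
    have hpc : (p : ℂ) = (c ((i : ZMod 3) + 1) : ℂ) / (Hn : ℂ) := by
      rw [hp]
      unfold crossP
      rw [n4, n3]
      push_cast
      rfl
    have hpc' : ((1 - p : ℝ) : ℂ) = (c (i : ZMod 3) : ℂ) / (Hn : ℂ) := by
      push_cast
      rw [hpc, eq_div_iff hH0, sub_mul, one_mul, div_mul_cancel₀ _ hH0]
      have : ((c (i : ZMod 3) + c ((i : ZMod 3) + 1) : ℕ) : ℂ) = (Hn : ℂ) := by rw [n5]
      push_cast at this
      rw [← this]
      ring
    rw [hpc', hpc, s1, n6]
    field_simp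
    push_cast
    ring


/-- **position on the hull** -/
theorem F_hull (h : HNet S N) (H : HullCyc S n w) (Pm : Sidesx697.Pos N n w m) (h1 : m i < j1)
    (h2 : j1 < m (i + 1)) {x : ℂ} (ht : (w j1, w (j1 + 1), x) ∈ delT S) (F : Free S N In)
    (hne : (N.hj (w j1) (w (j1 + 1))).Nonempty) :
    ∃ B0 : Finset ℂ, B0 ∈ VC S N (hm w j1) ∅ ∧ Disjoint B0 In ∧ w j1 ∈ B0 ∧
      (∀ B ∈ VC S N (hm w j1) ∅, w j1 ∈ B → B \ In = B0) ∧
      ∀ e : ℂ × ℂ, e = (x, w j1) ∨ e = (w (j1 + 1), x) → e ∉ N.kl → e ∉ N.exS → N.F e.1 e.2 =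
        ((1 - crossP S In B0 (w j1) (w (m (i + 2))) : ℝ) : ℂ) * omz (i : ZMod 3) +
        ((crossP S In B0 (w j1) (w (m (i + 2))) : ℝ) : ℂ) * omz ((i : ZMod 3) + 1) := by
  have M := m4_of H Pm h1 h2
  have hull0 : hullE S (w j1) (w (j1 + 1)) := H.edge j1
  have hfx : hm w j1 ∉ N.exS := by
    rintro ⟨k, hk⟩
    have := M.h01
    have := M.h12
    have := M.h23
    have := M.h30
    rcases z3_cast i k with rfl | rfl | rfl
    · rw [Pm.ex] at hk
      exact hm_ne H (by linarith) (by linarith) hk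
    · rw [Pm.ex] at hk
      exact hm_ne H (by linarith) (by linarith) hk.symm
    · rw [Pm.ex] at hk
      exact hm_ne H (by linarith) (by linarith) hk.symm
  have hfx' : (w (j1 + 1), w j1) ∉ N.exS := fun h' => hullE_asymm hull0 (exS_hull h h')
  have E : PX S N (hm w j1) ∅ := PX.empty hull0 hfx
  have hkl : klx N ∅ = N.kl := by
    ext p
    simp [klx]
  obtain ⟨B0, g1, g2, g3, g4, g5⟩ := main h H Pm h1 h2 E F
    (c := fun k => N.cnt (w j1) (w (j1 + 1)) k) (Hn := (N.hj (w j1) (w (j1 + 1))).card)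
    (fun k => by
      rw [hkl]
      unfold Net.cnt Net.hj
      simp only [Finset.empty_subset, true_and]
      rfl)
    (by
      rw [hkl]
      unfold Net.hj
      simp only [Finset.empty_subset, Finset.filter_true]
      rfl)
    (Finset.card_pos.2 hne)
  have hF := F_dead h ht (fun J hJ => hJ.bdr _ _ (by rw [h.tri]; exact hull0.2) hfx) hfx hfx'
  refine ⟨B0, g1, g2, g3, g4, ?_⟩
  rintro e (rfl | rfl) he he'
  · rw [← g5]; exact hF.1 he he'
  · rw [← g5]; exact hF.2 he he'

end Crest.Agent.R143.Crsx117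
end
end

-- ▼ part R143/Crs6_117

/-!
# Row 143, block P: `P2b` of `Cfg_416` (helper117)

`p2b : P2b` : for the quadrilateral configuration (tentacle `1` = `b` inside the arc `0` of the
reference network) `pr 0 + pr 1 = 1` and the observable at the `b`-tentacle is `1 + pr 0 (om - 1)`.
-/

set_option autoImplicit false

noncomputable section

open scoped Classical

namespace Crest.Agent.R143.Crs6x117

open Crest.Agent.R143.B0x346 Crest.Agent.R143.DelGx806 Crest.Agent.R143.DelRx806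
  Crest.Agent.R143.B0Dx346 Crest.Agent.R143.JColx54 Crest.Agent.R143.JCol2x54
  Crest.Agent.R143.JWalkx872 Crest.Agent.R143.JCardx872 Crest.Agent.R143.Crsx117
open Crest.Agent.R143.Cfgx416 (Cfg cell)

variable {S : Finset ℂ} {C : Cfg 4}

theorem adj_iff {a b : ℂ} : Cfgx416.Adj S a b ↔ Adj S a b := by
  unfold Cfgx416.Adj Adj
  exact exists_or

theorem adj_of_hull {a b : ℂ} (h : hullE S a b) : Adj S a b := Or.inl h.1

section out

variable (O : C.Out S)

include O

/-- the class of a site is unique -/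
theorem cls_uniq {v : ℂ} {i j : ZMod 4} (hi : v ∈ C.cls S i) (hj : v ∈ C.cls S j) : i = j := by
  by_contra h
  exact Set.disjoint_left.1 (O.disj i j h) hi hj

theorem ray_ne {i j : ZMod 4} (h : i ≠ j) : C.ray S i ≠ C.ray S j := fun e => by
  have h1 := O.end2 i
  rw [e] at h1
  exact h (cls_uniq O h1 (O.end2 j))

/-- the two ends of a ray edge are in no common class -/
theorem ray_not_same {k i : ZMod 4} (h1 : (C.ray S k).1 ∈ C.cls S i)
    (h2 : (C.ray S k).2 ∈ C.cls S i) : False := by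
  have e1 := cls_uniq O h1 (O.end1 k)
  have e2 := cls_uniq O h2 (O.end2 k)
  have e3 : k - 1 = k := e1.symm.trans e2
  have : ∀ k : ZMod 4, k - 1 ≠ k := by decide
  exact this k e3

theorem hull_cls {a b : ℂ} (h : hullE S a b) : (∃ i, a ∈ C.cls S i) ∧ ∃ i, b ∈ C.cls S i := by
  rcases O.hull a b h with ⟨k, hk⟩ | ⟨i, h1, h2⟩
  · have e1 : a = (C.ray S k).1 := by rw [hk]
    have e2 : b = (C.ray S k).2 := by rw [hk]
    exact ⟨⟨_, e1 ▸ O.end1 k⟩, ⟨_, e2 ▸ O.end2 k⟩⟩
  · exact ⟨⟨i, h1⟩, ⟨i, h2⟩⟩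

theorem ex0 : (C.dom.netS S).ex 0 = C.ray S 0 := by
  rw [DomAx722.netS_ex O.gp]
  show rayMark S C.c _ = rayMark S C.c _
  congr 1
theorem ex1 : (C.dom.netS S).ex 1 = C.ray S 2 := by
  rw [DomAx722.netS_ex O.gp]
  show rayMark S C.c _ = rayMark S C.c _
  congr 1
theorem ex2 : (C.dom.netS S).ex 2 = C.ray S 3 := by
  rw [DomAx722.netS_ex O.gp]
  show rayMark S C.c _ = rayMark S C.c _
  congr 1

theorem mem_exS {p : ℂ × ℂ} : p ∈ (C.dom.netS S).exS ↔ ∃ k : ZMod 4, k ≠ 1 ∧ C.ray S k = p := by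
  constructor
  · rintro ⟨k, hk⟩
    have h3 : ∀ k : ZMod 3, k = 0 ∨ k = 1 ∨ k = 2 := by decide
    rcases h3 k with rfl | rfl | rfl
    · rw [ex0 O] at hk; exact ⟨0, by decide, hk⟩
    · rw [ex1 O] at hk; exact ⟨2, by decide, hk⟩
    · rw [ex2 O] at hk; exact ⟨3, by decide, hk⟩
  · rintro ⟨k, h1, hk⟩
    have h4 : ∀ k : ZMod 4, k = 0 ∨ k = 1 ∨ k = 2 ∨ k = 3 := by decide
    rcases h4 k with rfl | rfl | rfl | rfl
    · exact ⟨0, by rw [ex0 O]; exact hk⟩
    · exact absurd rfl h1
    · exact ⟨1, by rw [ex1 O]; exact hk⟩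
    · exact ⟨2, by rw [ex2 O]; exact hk⟩

/-- an edge inside one class is no mark -/
theorem not_exS {a b : ℂ} {i : ZMod 4} (ha : a ∈ C.cls S i) (hb : b ∈ C.cls S i) :
    (a, b) ∉ (C.dom.netS S).exS := by
  rw [mem_exS O]
  rintro ⟨k, -, hk⟩
  apply ray_not_same O (k := k) (i := i)
  · rw [hk]; exact ha
  · rw [hk]; exact hb

theorem mem_kl {a b : ℂ} (h : (a, b) ∈ C.dom.kl S) {i : ZMod 4} (ha : a ∈ C.cls S i)
    (hb : b ∈ C.cls S i) : (a, b) ∈ (C.dom.netS S).kl := by
  rw [DomAx722.netS_kl O.gp]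
  refine ⟨h, fun k hk => not_exS O ha hb ⟨k, ?_⟩, fun k hk => not_exS O hb ha ⟨k, ?_⟩⟩
  · rw [DomAx722.netS_ex O.gp]; exact hk
  · rw [DomAx722.netS_ex O.gp]; exact hk

theorem kl_sub {a b : ℂ} (h : (a, b) ∈ (C.dom.netS S).kl) : (a, b) ∈ C.dom.kl S :=
  ((DomAx722.netS_kl O.gp (a, b)).1 h).1

/-- dead edges of a class are walls -/
theorem wall_of {a b : ℂ} {i : ZMod 4} (ha : a ∈ C.cls S i) (hb : b ∈ C.cls S i)
    (h : (Cfgx416.Adj S a b ∧ (a, b) ∈ C.dom.kl S) ∨ hullE S a b ∨ hullE S b a) :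
    Sidesx697.Wall (C.dom.netS S) a b := by
  have hT := O.hnet.tri
  have hadj : Adj S a b := by
    rcases h with h | h | h
    · exact adj_iff.1 h.1
    · exact adj_of_hull h
    · exact (adj_of_hull h).symm
  refine ⟨(mem_E hT).2 hadj, not_exS O ha hb, not_exS O hb ha, ?_⟩
  rcases h with h | h | h
  · exact Or.inl (mem_kl O h.2 ha hb)
  · right; left
    intro c
    rw [hT]
    exact h.2 c
  · right; right
    intro c
    rw [hT]
    exact h.2 c

variable {n : ℕ} {w : ℤ → ℂ} {m : ℤ → ℤ}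

theorem pp0 (Pm : Sidesx697.Pos (C.dom.netS S) n w m) : C.ray S 0 = hm w (m 0) := by
  have e := Pm.ex 0
  rw [Int.cast_zero, ex0 O] at e
  exact e

theorem pp1 (Pm : Sidesx697.Pos (C.dom.netS S) n w m) : C.ray S 2 = hm w (m 1) := by
  have e := Pm.ex 1
  rw [Int.cast_one, ex1 O] at e
  exact e

theorem pp2 (Pm : Sidesx697.Pos (C.dom.netS S) n w m) : C.ray S 3 = hm w (m 2) := by
  have e := Pm.ex 2
  rw [show (((2 : ℤ)) : ZMod 3) = 2 from rfl, ex2 O] at e
  exact e

omit O in
theorem mem_inn {v : ℂ} : v ∈ C.inn S ↔ v ∈ S ∧ ∀ i, v ∉ C.cls S i := by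
  unfold Cfg.inn
  simp only [Finset.mem_filter]

/-- along the hull, as long as there is no ray edge, the class is constant -/
theorem run (H : HullCyc S n w) {i : ZMod 4} {a b : ℤ} (hab : a ≤ b) (ha : w a ∈ C.cls S i)
    (h : ∀ j, a ≤ j → j < b → ∀ k, C.ray S k ≠ hm w j) : w b ∈ C.cls S i := by
  obtain ⟨q, rfl⟩ := Int.le.dest hab
  induction q with
  | zero => simpa using ha
  | succ q ih =>
    have h1 := ih (by linarith) (fun j h1 h2 => h j h1 (by push_cast; linarith))
    rcases O.hull _ _ (H.edge (a + q)) with ⟨k, hk⟩ | ⟨l, h2, h3⟩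
    · exact absurd hk (h (a + q) (by linarith) (by push_cast; linarith) k)
    · have : l = i := cls_uniq O h2 h1
      subst this
      have e : a + ((q + 1 : ℕ) : ℤ) = a + q + 1 := by push_cast; ring
      rw [e]
      exact h3

/-- **the b-tentacle lies between the marks `0` and `1`** -/
theorem pos1 (H : HullCyc S n w) (Pm : Sidesx697.Pos (C.dom.netS S) n w m) :
    ∃ j1, m 0 < j1 ∧ j1 < m 1 ∧ C.ray S 1 = hm w j1 := by
  have hn : (0 : ℤ) < n := by exact_mod_cast H.pos
  have p0 := pp0 O Pm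
  have p1 := pp1 O Pm
  have p2 := pp2 O Pm
  have m01 : m 0 < m 1 := Pm.mono (by norm_num)
  have m12 : m 1 < m 2 := Pm.mono (by norm_num)
  have m23 : m 2 < m 0 + n := by
    rw [← Pm.per 0]
    exact Pm.mono (by norm_num)
  by_contra hcon
  push Not at hcon
  have key : ∀ j, m 0 + 1 ≤ j → j < m 1 → ∀ k, C.ray S k ≠ hm w j := by
    intro j h1 h2 k hk
    have h4 : ∀ k : ZMod 4, k = 0 ∨ k = 1 ∨ k = 2 ∨ k = 3 := by decide
    rcases h4 k with rfl | rfl | rfl | rfl
    · rw [p0] at hk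
      exact hm_ne H (by linarith) (by linarith) hk
    · exact hcon j (by linarith) h2 hk
    · rw [p1] at hk
      exact hm_ne H h2 (by linarith) hk.symm
    · rw [p2] at hk
      exact hm_ne H (by linarith) (by linarith) hk.symm
  have h1 : w (m 0 + 1) ∈ C.cls S 0 := by
    have := O.end2 0
    rw [p0] at this
    exact this
  have h2 := run O H (by linarith) h1 key
  have h3 := O.end1 2
  rw [p1] at h3
  have h4 := cls_uniq O h2 h3
  revert h4
  decide

theorem free_inn (H : HullCyc S n w) (Pm : Sidesx697.Pos (C.dom.netS S) n w m) :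
    Free S (C.dom.netS S) (C.inn S) where
  sub := fun v hv => (mem_inn.1 hv).1
  live := fun a ha b _ h' => (O.inn a ha).1 b (kl_sub O h')
  nh := by
    intro a ha b
    have ha' := (mem_inn.1 ha).2
    constructor
    · intro h
      obtain ⟨i, hi⟩ := (hull_cls O h).1
      exact ha' i hi
    · intro h
      obtain ⟨i, hi⟩ := (hull_cls O h).2
      exact ha' i hi
  out := by
    intro v hv hvI
    have : ∃ i, v ∈ C.cls S i := by
      by_contra hc
      push Not at hc
      exact hvI (mem_inn.2 ⟨hv, hc⟩)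
    obtain ⟨i, hi⟩ := this
    have hcon : Relation.ReflTransGen (Sidesx697.Wall (C.dom.netS S)) (C.ray S i).2 v := by
      have h1 := O.con i _ (O.end2 i) v hi
      refine Relation.ReflTransGen.mono ?_ _ _ h1
      rintro a b ⟨h2, h3, h4⟩
      refine wall_of O h2 h3 ?_
      rcases h4 with h4 | h4
      · exact Or.inl h4
      · exact Or.inr h4.1
    have h4 : ∀ k : ZMod 4, k = 0 ∨ k = 1 ∨ k = 2 ∨ k = 3 := by decide
    rcases h4 i with rfl | rfl | rfl | rfl
    · refine ⟨0, ?_⟩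
      unfold Sidesx697.Side
      rw [ex0 O]
      exact hcon
    · -- the arc from the mark 0 to the b-tentacle
      refine ⟨0, ?_⟩
      obtain ⟨j1, h1, h2, h3⟩ := pos1 O H Pm
      have hT := O.hnet.tri
      have hn : (0 : ℤ) < n := by exact_mod_cast H.pos
      have p0 := pp0 O Pm
      have m12 : m 1 < m 2 := Pm.mono (by norm_num)
      have m23 : m 2 < m 0 + n := by
        rw [← Pm.per 0]
        exact Pm.mono (by norm_num)
      have key : ∀ q : ℕ, m 0 + 1 + q ≤ m 1 →
          Sidesx697.Side (C.dom.netS S) 0 (w (m 0 + 1 + q)) := by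
        intro q
        induction q with
        | zero =>
          intro _
          unfold Sidesx697.Side
          rw [ex0 O, p0]
          simp only [hm, Nat.cast_zero, add_zero]
          exact Relation.ReflTransGen.refl
        | succ q ih =>
          intro hq
          push_cast at hq
          have h5 := ih (by linarith)
          refine Relation.ReflTransGen.tail h5 ?_
          have e : m 0 + 1 + ((q + 1 : ℕ) : ℤ) = m 0 + 1 + q + 1 := by push_cast; ring
          rw [e]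
          have hh := H.edge (m 0 + 1 + q)
          have hx : (w (m 0 + 1 + q), w (m 0 + 1 + q + 1)) ∉ (C.dom.netS S).exS := by
            rintro ⟨k, hk⟩
            have h3 : ∀ k : ZMod 3, k = 0 ∨ k = 1 ∨ k = 2 := by decide
            have e0 := Pm.ex 0
            have e1 := Pm.ex 1
            have e2 := Pm.ex 2
            simp only [Int.cast_zero, Int.cast_one, Int.cast_ofNat] at e0 e1 e2
            rcases h3 k with rfl | rfl | rfl
            · rw [e0] at hk
              exact hm_ne H (by linarith) (by linarith) hk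
            · rw [e1] at hk
              exact hm_ne H (by linarith) (by linarith) hk.symm
            · rw [e2] at hk
              exact hm_ne H (by linarith) (by linarith) hk.symm
          refine ⟨(mem_E hT).2 (adj_of_hull hh), hx, ?_, Or.inr (Or.inl ?_)⟩
          · intro h'
            exact hullE_asymm hh (exS_hull O.hnet h')
          · intro c
            rw [hT]
            exact hh.2 c
      have h6 := key (j1 - m 0).toNat (by rw [Int.toNat_of_nonneg (by linarith)]; linarith)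
      rw [Int.toNat_of_nonneg (by linarith)] at h6
      have e : m 0 + 1 + (j1 - m 0) = j1 + 1 := by ring
      rw [e] at h6
      have h7 : (C.ray S 1).2 = w (j1 + 1) := by rw [h3]; rfl
      rw [h7] at hcon
      exact Relation.ReflTransGen.trans h6 hcon
    · refine ⟨1, ?_⟩
      unfold Sidesx697.Side
      rw [ex1 O]
      exact hcon
    · refine ⟨2, ?_⟩
      unfold Sidesx697.Side
      rw [ex2 O]
      exact hcon

/-! ### the colouring -/

omit O in
/-- the sites of the classes `0` and `2` -/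
def B02 (C : Cfg 4) (S : Finset ℂ) : Finset ℂ := S.filter fun v => v ∈ C.cls S 0 ∨ v ∈ C.cls S 2

theorem mem_B02 {v : ℂ} : v ∈ B02 C S ↔ v ∈ C.cls S 0 ∨ v ∈ C.cls S 2 := by
  unfold B02
  rw [Finset.mem_filter]
  constructor
  · exact fun h => h.2
  · intro h
    exact ⟨by rcases h with h | h; exacts [O.sub _ h, O.sub _ h], h⟩

theorem B02_cls {v : ℂ} {i : ZMod 4} (h : v ∈ C.cls S i) : v ∈ B02 C S ↔ (i = 0 ∨ i = 2) := by
  rw [mem_B02 O]
  constructor
  · rintro (h1 | h1)
    · exact Or.inl (cls_uniq O h h1)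
    · exact Or.inr (cls_uniq O h h1)
  · rintro (rfl | rfl)
    · exact Or.inl h
    · exact Or.inr h

theorem hdd {p : ℂ × ℂ} :
    p ∈ DD (C.dom.netS S) (C.ray S 1) ↔ ∃ k, C.ray S k = p := by
  constructor
  · rintro (h | h)
    · obtain ⟨k, -, hk⟩ := (mem_exS O).1 h
      exact ⟨k, hk⟩
    · exact ⟨1, h.symm⟩
  · rintro ⟨k, hk⟩
    by_cases h1 : k = 1
    · right
      rw [← hk, h1]
      rfl
    · left
      exact (mem_exS O).2 ⟨k, h1, hk⟩

theorem ray_hull (k : ZMod 4) : hullE S (C.ray S k).1 (C.ray S k).2 := (O.ray k).1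

theorem ray1_exS : C.ray S 1 ∉ (C.dom.netS S).exS := by
  rw [mem_exS O]
  rintro ⟨k, h1, hk⟩
  exact ray_ne O h1 hk

theorem px : PX S (C.dom.netS S) (C.ray S 1) ∅ := PX.empty (ray_hull O 1) (ray1_exS O)

/-- the boundary colouring is valid -/
theorem B02_VC :
    B02 C S ∈ VC S (C.dom.netS S) (C.ray S 1) ∅ := by
  rw [PX.mem_VC]
  have same : ∀ {a b : ℂ} {i : ZMod 4}, a ∈ C.cls S i → b ∈ C.cls S i →
      blk (B02 C S) a = blk (B02 C S) b := by
    intro a b i ha hb
    unfold blk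
    rw [decide_eq_decide, B02_cls O ha, B02_cls O hb]
  refine ⟨Finset.filter_subset _ _, ⟨?_, ?_, ?_⟩, by simp⟩
  · intro a b hab hk _ _
    obtain ⟨i, h1, h2⟩ := O.kill a b (adj_iff.2 hab) (kl_sub O hk.1)
    exact same h1 h2
  · intro a b hab hn
    rcases O.hull a b hab with ⟨k, hk⟩ | ⟨i, h1, h2⟩
    · exact absurd ((hdd O).2 ⟨k, hk⟩) hn
    · exact same h1 h2
  · intro a b hab
    obtain ⟨k, hk⟩ := (hdd O).1 hab
    have h1 := O.end1 k
    have h2 := O.end2 k
    rw [hk] at h1 h2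
    unfold blk
    rw [ne_eq, decide_eq_decide, B02_cls O h1, B02_cls O h2]
    have : ∀ k : ZMod 4, ¬ ((k - 1 = 0 ∨ k - 1 = 2) ↔ (k = 0 ∨ k = 2)) := by decide
    exact this k

theorem hj_ne :
    ((C.dom.netS S).hj (C.ray S 1).1 (C.ray S 1).2).Nonempty := by
  have h1 := B02_VC O
  unfold VC at h1
  have h2 := setJ_mem O.gp O.hnet.tri ((px O).hD O.hnet) klx_symm (Finset.mem_filter.1 h1).1
  have hkl : klx (C.dom.netS S) ∅ = (C.dom.netS S).kl := by
    ext p
    simp [klx]
  rw [hkl] at h2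
  exact ⟨_, h2⟩

/-- chain inside the boundary class -/
theorem cls_chn {i : ZMod 4} {σ : ℂ → Bool} (hσ : ∀ a ∈ C.cls S i, ∀ b ∈ C.cls S i, σ a = σ b)
    {a b : ℂ} (ha : a ∈ C.cls S i) (hb : b ∈ C.cls S i) : Chn S σ a b := by
  refine Relation.ReflTransGen.mono ?_ _ _ (O.con i a ha b hb)
  rintro x y ⟨h1, h2, h3⟩
  refine ⟨?_, hσ x h1 y h2⟩
  rcases h3 with h3 | ⟨h3 | h3, -⟩
  · exact adj_iff.1 h3.1
  · exact adj_of_hull h3
  · exact (adj_of_hull h3).symm

/-- **chain of colour = network crossing** -/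
theorem chn_iff {i : ZMod 4} {T B : Finset ℂ}
    (hB : ∀ v ∈ S, v ∈ B ↔ v ∈ T ∨ v ∈ C.cls S i ∨ v ∈ C.cls S (i + 2)) {a b : ℂ}
    (ha : a ∈ C.cls S i) (hb : b ∈ C.cls S (i + 2)) :
    Chn S (blk B) a b ↔ C.Crs S (T : Set ℂ) i := by
  have haB : a ∈ B := (hB a (O.sub _ ha)).2 (Or.inr (Or.inl ha))
  constructor
  · intro h
    refine ⟨a, ha, b, hb, ?_⟩
    clear hb
    induction h with
    | refl => exact Relation.ReflTransGen.refl
    | tail h1 h2 ih =>
      rename_i x y
      refine Relation.ReflTransGen.tail ih ⟨adj_iff.2 h2.1, ?_⟩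
      have h3 : blk B a = blk B y := (Chn.col h1).trans h2.2
      have h4 : y ∈ B := by
        unfold blk at h3
        rw [decide_eq_decide] at h3
        exact h3.1 haB
      have h5 := (hB y h2.1.mem.2).1 h4
      rcases h5 with h5 | h5 | h5
      · exact Or.inl (by exact_mod_cast h5)
      · exact Or.inr (Or.inl h5)
      · exact Or.inr (Or.inr h5)
  · rintro ⟨a', ha', b', hb', h⟩
    have ca : ∀ x ∈ C.cls S i, ∀ y ∈ C.cls S i, blk B x = blk B y := by
      intro x hx y hy
      unfold blk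
      rw [decide_eq_decide]
      exact ⟨fun _ => (hB y (O.sub _ hy)).2 (Or.inr (Or.inl hy)),
        fun _ => (hB x (O.sub _ hx)).2 (Or.inr (Or.inl hx))⟩
    have cb : ∀ x ∈ C.cls S (i + 2), ∀ y ∈ C.cls S (i + 2), blk B x = blk B y := by
      intro x hx y hy
      unfold blk
      rw [decide_eq_decide]
      exact ⟨fun _ => (hB y (O.sub _ hy)).2 (Or.inr (Or.inr hy)),
        fun _ => (hB x (O.sub _ hx)).2 (Or.inr (Or.inr hx))⟩
    have h1 : Chn S (blk B) a' b' ∧ b' ∈ B := by
      clear hb'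
      induction h with
      | refl => exact ⟨Chn.refl _ _, (hB a' (O.sub _ ha')).2 (Or.inr (Or.inl ha'))⟩
      | tail _ h2 ih =>
        rename_i x y _
        have h3 : Adj S x y := adj_iff.1 h2.1
        have h4 : y ∈ B := by
          rw [hB y h3.mem.2]
          rcases h2.2 with h5 | h5 | h5
          · exact Or.inl (by exact_mod_cast h5)
          · exact Or.inr (Or.inl h5)
          · exact Or.inr (Or.inr h5)
        refine ⟨ih.1.trans (Chn.single h3 ?_), h4⟩
        unfold blk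
        rw [decide_eq_decide]
        exact ⟨fun _ => h4, fun _ => ih.2⟩
    exact ((cls_chn O ca ha ha').trans h1.1).trans (cls_chn O cb hb' hb)

theorem inn_notB {v : ℂ} (hv : v ∈ C.inn S) : v ∉ B02 C S := by
  rw [mem_B02 O]
  rintro (h | h)
  · exact (mem_inn.1 hv).2 _ h
  · exact (mem_inn.1 hv).2 _ h

/-- chains of the colour `B02 ∪ T` -/
theorem chn0 {T : Finset ℂ} {a b : ℂ} (ha : a ∈ C.cls S 0)
    (hb : b ∈ C.cls S 2) : Chn S (blk (B02 C S ∪ T)) a b ↔ C.Crs S (T : Set ℂ) 0 := by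
  refine chn_iff O ?_ ha hb
  intro v _
  rw [Finset.mem_union, mem_B02 O]
  have : (0 : ZMod 4) + 2 = 2 := by decide
  rw [this]
  tauto

/-- chains of the other colour -/
theorem chn1 {T : Finset ℂ} (hT : T ⊆ C.inn S) {a b : ℂ} (ha : a ∈ C.cls S 1)
    (hb : b ∈ C.cls S 3) :
    Chn S (blk (B02 C S ∪ T)) a b ↔ C.Crs S ((C.inn S \ T : Finset ℂ) : Set ℂ) 1 := by
  rw [← chn_compl]
  have e : (1 : ZMod 4) + 2 = 3 := by decide
  refine chn_iff O ?_ ha (e ▸ hb)
  intro v hv
  rw [e, Finset.mem_sdiff, Finset.mem_union, Finset.mem_sdiff]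
  by_cases hin : v ∈ C.inn S
  · have h1 := inn_notB O hin
    have h2 := (mem_inn.1 hin).2
    have h3 := h2 1
    have h4 := h2 3
    tauto
  · have h1 : v ∉ T := fun h' => hin (hT h')
    have h2 : ∃ i, v ∈ C.cls S i := by
      by_contra hc
      push Not at hc
      exact hin (mem_inn.2 ⟨hv, hc⟩)
    obtain ⟨i, hi⟩ := h2
    have h3 := B02_cls O hi
    have h4 : v ∈ C.cls S 1 ↔ i = 1 := ⟨fun h => cls_uniq O hi h, fun h => h ▸ hi⟩
    have h5 : v ∈ C.cls S 3 ↔ i = 3 := ⟨fun h => cls_uniq O hi h, fun h => h ▸ hi⟩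
    rw [h3, h4, h5]
    have h6 : ∀ i : ZMod 4, (¬ (i = 0 ∨ i = 2)) ↔ (i = 1 ∨ i = 3) := by decide
    have := h6 i
    tauto

end out

theorem chn_xor {N : Net ℂ} {P : Finset (ℂ × ℂ)} {n : ℕ} {w : ℤ → ℂ} {m : ℤ → ℤ} {i j1 : ℤ}
    (h : HNet S N) (H : HullCyc S n w) (Pm : Sidesx697.Pos N n w m) (h1 : m i < j1)
    (h2 : j1 < m (i + 1)) {B : Finset ℂ} (hB : B ∈ VC S N (hm w j1) P) :
    Chn S (blk B) (w j1) (w (m (i + 2))) ↔ ¬ Chn S (blk B) (w (m (i + 1))) (w (m i)) := by
  have M := m4_of H Pm h1 h2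
  have hDD := dd_eq (j1 := j1) (i := i) Pm
  have hT := h.tri
  have hks := klx_symm (N := N) (P := P)
  have hcol := (PX.mem_VC.1 hB).2.1
  rw [hDD] at hcol
  have ex0 : N.ex (i : ZMod 3) = hm w (m i) := Pm.ex i
  have ex1 : N.ex ((i : ZMod 3) + 1) = hm w (m (i + 1)) := by
    have := Pm.ex (i + 1)
    push_cast at this
    exact this
  have c := cross_iff h.gp hT hks M hcol
  constructor
  · intro q q'
    have e1 := c.1.2 q
    have e2 := c.2.2 q'
    rw [← hDD, ← ex1] at e1
    rw [← hDD, ← ex0] at e2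
    have := J1x872.ends_unique (J1x872.good_of_hnet h) Set.subset_union_left e1 e2
    have h3 : ∀ k : ZMod 3, k + 1 ≠ k := by decide
    exact h3 _ this
  · intro q
    rcases cross_ends h.gp hT hks M hcol with e | e
    · exact c.1.1 e
    · exact absurd (c.2.1 e) q

/-- the leg from `f` when the next side is the mark `ex k` on the left -/
theorem ends_step0 {N : Net ℂ} {P : Finset (ℂ × ℂ)} {f : ℂ × ℂ} (h : HNet S N)
    (E : PX S N f P) {B : Finset ℂ} (hB : B ∈ VC S N f P) {x : ℂ} (hx : (f.1, f.2, x) ∈ delT S)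
    {k : ZMod 3} (hk : N.ex k = (x, f.1)) :
    Ends N.toTrg ∅ (DD N f) (setJ N.toTrg (DD N f) B) f (N.ex k) := by
  have hJ := colJ_isJoin h.gp h.tri (E.hD h) (klx_symm (N := N) (P := P)) (PX.mem_VC.1 hB).2.1
  have m1 := hJ.mark x f.1 (Or.inl ⟨k, hk⟩)
  have m2 := hJ.mark f.1 f.2 (Or.inr rfl)
  have hT : (f.1, f.2, x) ∈ N.T := by rw [h.tri]; exact hx
  have hp := hJ.par f.1 f.2 x hT
  rw [if_neg (Set.notMem_empty _)] at hp
  have m3 : (f.2, x) ∉ colJ N.toTrg (DD N f) (blk B) := by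
    intro h3
    rw [if_pos m2.1, if_pos h3, if_pos m1.1] at hp
    omega
  have hnD : (f.2, f.1) ∉ DD N f := fun h' => hullE_asymm E.hull (E.hD h _ _ h')
  unfold Ends
  rw [hk]
  exact Relation.ReflTransGen.single ⟨x, hT, Set.notMem_empty _, hnD, Or.inr ⟨m1.1, m3, rfl⟩⟩

/-- the leg from `f` when the next side is the mark `ex k` on the right -/
theorem ends_step1 {N : Net ℂ} {P : Finset (ℂ × ℂ)} {f : ℂ × ℂ} (h : HNet S N)
    (E : PX S N f P) {B : Finset ℂ} (hB : B ∈ VC S N f P) {x : ℂ} (hx : (f.1, f.2, x) ∈ delT S)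
    {k : ZMod 3} (hk : N.ex k = (f.2, x)) :
    Ends N.toTrg ∅ (DD N f) (setJ N.toTrg (DD N f) B) f (N.ex k) := by
  have hJ := colJ_isJoin h.gp h.tri (E.hD h) (klx_symm (N := N) (P := P)) (PX.mem_VC.1 hB).2.1
  have m1 := hJ.mark f.2 x (Or.inl ⟨k, hk⟩)
  have hT : (f.1, f.2, x) ∈ N.T := by rw [h.tri]; exact hx
  have hnD : (f.2, f.1) ∉ DD N f := fun h' => hullE_asymm E.hull (E.hD h _ _ h')
  unfold Ends
  rw [hk]
  exact Relation.ReflTransGen.single ⟨x, hT, Set.notMem_empty _, hnD, Or.inl ⟨m1.1, rfl⟩⟩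

/-- end of the leg and chains -/
theorem chn_ends {N : Net ℂ} {P : Finset (ℂ × ℂ)} {n : ℕ} {w : ℤ → ℂ} {m : ℤ → ℤ} {i j1 : ℤ}
    (h : HNet S N) (H : HullCyc S n w) (Pm : Sidesx697.Pos N n w m) (h1 : m i < j1)
    (h2 : j1 < m (i + 1)) {B : Finset ℂ} (hB : B ∈ VC S N (hm w j1) P) :
    (Ends N.toTrg ∅ (DD N (hm w j1)) (setJ N.toTrg (DD N (hm w j1)) B) (hm w j1)
      (N.ex ((i : ZMod 3) + 1)) ↔ Chn S (blk B) (w j1) (w (m (i + 2)))) ∧
    (Ends N.toTrg ∅ (DD N (hm w j1)) (setJ N.toTrg (DD N (hm w j1)) B) (hm w j1)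
      (N.ex (i : ZMod 3)) ↔ Chn S (blk B) (w (m (i + 1))) (w (m i))) := by
  have M := m4_of H Pm h1 h2
  have hDD := dd_eq (j1 := j1) (i := i) Pm
  have hcol := (PX.mem_VC.1 hB).2.1
  have ex0 : N.ex (i : ZMod 3) = hm w (m i) := Pm.ex i
  have ex1 : N.ex ((i : ZMod 3) + 1) = hm w (m (i + 1)) := by
    have := Pm.ex (i + 1)
    push_cast at this
    exact this
  rw [hDD] at hcol ⊢
  rw [ex0, ex1]
  exact cross_iff h.gp h.tri (klx_symm (N := N) (P := P)) M hcol

/-- the observable at a mark -/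
theorem F_mark {N : Net ℂ} (h : HNet S N) {k : ZMod 3} {a b : ℂ} (hk : N.ex k = (a, b)) :
    N.F a b = omz k := by
  have h0 : ∃ j, N.ex j = (a, b) ∨ N.ex j = (b, a) := ⟨k, Or.inl hk⟩
  unfold Net.F
  rw [dif_pos h0]
  rcases h0.choose_spec with h1 | h1
  · congr 1
    exact (J1x872.good_of_hnet h).inj (h1.trans hk.symm)
  · exfalso
    have h2 := h.hex h0.choose
    have h3 := h.hex k
    rw [h1] at h2
    rw [hk] at h3
    exact hullE_asymm h2 h3

/-- **P2b** -/
theorem p2b : Cfgx416.P2b := by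
  intro C S O
  obtain ⟨n, w, H⟩ := hull_cycle O.gp (Sidesx697.card3 O.hnet)
  obtain ⟨m, Pm⟩ := Sidesx697.exists_pos O.hnet H
  obtain ⟨j1, q1, q2, hf⟩ := pos1 O H Pm
  have hF := free_inn O H Pm
  have e0 := pp0 O Pm
  have e1 := pp1 O Pm
  have e2 := pp2 O Pm
  have f1 : (C.ray S 1).1 = w j1 := by rw [hf]; rfl
  have f2 : (C.ray S 1).2 = w (j1 + 1) := by rw [hf]; rfl
  have a0 : w j1 ∈ C.cls S 0 := by
    have := O.end1 1
    rw [f1] at this
    exact this
  have a2 : w (m 2) ∈ C.cls S 2 := by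
    have := O.end1 3
    rw [e2] at this
    exact this
  have a1 : w (m 1) ∈ C.cls S 1 := by
    have := O.end1 2
    rw [e1] at this
    exact this
  have a3 : w (m 0) ∈ C.cls S 3 := by
    have := O.end1 0
    rw [e0] at this
    exact this
  have hBV := B02_VC O
  rw [hf] at hBV
  have hpx := px O
  rw [hf] at hpx
  have hj := hj_ne O
  rw [f1, f2] at hj
  have hnotin : ∀ v ∈ C.inn S, v ∉ B02 C S := fun v hv => inn_notB O hv
  have hsd : B02 C S \ C.inn S = B02 C S := by
    ext v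
    rw [Finset.mem_sdiff]
    exact ⟨fun h => h.1, fun h => ⟨h, fun h' => hnotin v h' h⟩⟩
  have hw0 : w j1 ∈ B02 C S := (mem_B02 O).2 (Or.inl a0)
  have valid : ∀ T : Finset ℂ, T ⊆ C.inn S →
      B02 C S ∪ T ∈ VC S (C.dom.netS S) (hm w j1) ∅ := by
    intro T hT
    have := free_mem O.hnet hpx hF hBV hT
    rw [hsd] at this
    exact this
  -- the probabilities
  have p0 : C.pr S 0 = crossP S (C.inn S) (B02 C S) (w j1) (w (m 2)) := by
    unfold Cfg.pr crossP crossT
    congr 2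
    refine congrArg Finset.card (Finset.filter_congr ?_)
    intro T _
    exact (chn0 O a0 a2).symm
  have sum1 : C.pr S 0 + C.pr S 1 = 1 := by
    have hxor : ∀ T : Finset ℂ, T ⊆ C.inn S →
        (C.Crs S (T : Set ℂ) 0 ↔ ¬ C.Crs S ((C.inn S \ T : Finset ℂ) : Set ℂ) 1) := by
      intro T hT
      rw [← chn0 O a0 a2, ← chn1 O hT a1 a3]
      have := chn_xor (i := 0) O.hnet H Pm q1 q2 (valid T hT)
      simpa using this
    have hcard : ((C.inn S).powerset.filter fun T : Finset ℂ => C.Crs S (T : Set ℂ) 1).card =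
        ((C.inn S).powerset.filter fun T : Finset ℂ => ¬ C.Crs S (T : Set ℂ) 0).card := by
      have hss : ∀ T ∈ (C.inn S).powerset, C.inn S \ (C.inn S \ T) = T := fun T hT =>
        Finset.sdiff_sdiff_eq_self (Finset.mem_powerset.1 hT)
      refine Finset.card_bij' (fun T _ => C.inn S \ T) (fun T _ => C.inn S \ T) ?_ ?_ ?_ ?_
      · intro T hT
        rw [Finset.mem_filter] at hT ⊢
        refine ⟨Finset.mem_powerset.2 Finset.sdiff_subset, ?_⟩
        rw [hxor _ Finset.sdiff_subset, not_not, hss T hT.1]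
        exact hT.2
      · intro T hT
        rw [Finset.mem_filter] at hT ⊢
        refine ⟨Finset.mem_powerset.2 Finset.sdiff_subset, ?_⟩
        have h1 := hT.2
        rw [hxor _ (Finset.mem_powerset.1 hT.1), not_not] at h1
        exact h1
      · intro T hT
        exact hss T (Finset.mem_filter.1 hT).1
      · intro T hT
        exact hss T (Finset.mem_filter.1 hT).1
    unfold Cfg.pr
    rw [hcard, ← add_div, ← Nat.cast_add, Finset.card_filter_add_card_filter_not,
      Finset.card_powerset]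
    push_cast
    exact div_self (by positivity)
  refine ⟨sum1, fun x hx => ?_⟩
  rw [f1, f2] at hx ⊢
  obtain ⟨B0, g1, g2, g3, g4, g5⟩ := F_hull O.hnet H Pm q1 q2 hx hF hj
  have hB0 : B0 = B02 C S := by
    rw [← g4 _ hBV hw0, hsd]
  subst hB0
  have hval : ((1 - crossP S (C.inn S) (B02 C S) (w j1) (w (m (0 + 2))) : ℝ) : ℂ) *
      omz ((0 : ℤ) : ZMod 3) + ((crossP S (C.inn S) (B02 C S) (w j1) (w (m (0 + 2))) : ℝ) : ℂ) *
      omz (((0 : ℤ) : ZMod 3) + 1) = 1 + (C.pr S 0 : ℂ) * (om - 1) := by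
    rw [p0]
    have o0 : omz ((0 : ℤ) : ZMod 3) = 1 := by
      rw [Int.cast_zero]
      unfold omz
      simp
    have o1 : omz (((0 : ℤ) : ZMod 3) + 1) = om := by
      rw [Int.cast_zero, zero_add]
      unfold omz
      rw [show ZMod.val (1 : ZMod 3) = 1 from rfl, pow_one]
    rw [o0, o1, show (0 : ℤ) + 2 = 2 from rfl]
    push_cast
    ring
  rw [hval] at g5
  have b1 : w (j1 + 1) ∈ C.cls S 1 := by
    have := O.end2 1
    rw [f2] at this
    exact this
  have lv1 : Disjoint (cell S (w j1)) C.out := by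
    have := O.miss1 1
    rw [f1] at this
    exact this
  have lv2 : Disjoint (cell S (w (j1 + 1))) C.out := by
    have := O.miss2 1
    rw [f2] at this
    exact this
  have n1 : (x, w j1) ∉ (C.dom.netS S).kl := by
    intro h'
    obtain ⟨z, ⟨hz1, hz2⟩, hz3⟩ := kl_sub O h'
    rw [C.dom_out] at hz3
    refine Set.disjoint_left.1 lv1 ?_ hz3
    intro s hs
    have hz1 : ‖z - x‖ = ‖z - w j1‖ := hz1
    rw [← hz1]
    exact hz2 s hs
  have n2 : (w (j1 + 1), x) ∉ (C.dom.netS S).kl := by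
    intro h'
    obtain ⟨z, ⟨hz1, hz2⟩, hz3⟩ := kl_sub O h'
    rw [C.dom_out] at hz3
    exact Set.disjoint_left.1 lv2 (fun s hs => hz2 s hs) hz3
  have fin : ∀ T ∈ (C.inn S).powerset, (C.Crs S (T : Set ℂ) 0 ↔
      Chn S (blk (B02 C S ∪ T)) (w j1) (w (m (0 + 2)))) := fun T _ => (chn0 O a0 a2).symm
  constructor
  · by_cases n4 : (w (j1 + 1), x) ∈ (C.dom.netS S).exS
    · obtain ⟨k, hk1, hk⟩ := (mem_exS O).1 n4
      have h2 := O.end1 k
      rw [hk] at h2
      have h3 : k - 1 = 1 := cls_uniq O h2 b1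
      have h5 : k = 2 := by
        have : ∀ k : ZMod 4, k - 1 = 1 → k = 2 := by decide
        exact this k h3
      subst h5
      rw [← ex1 O] at hk
      have hp : C.pr S 0 = 1 := by
        unfold Cfg.pr
        have : (C.inn S).powerset.filter (fun T : Finset ℂ => C.Crs S (T : Set ℂ) 0) =
            (C.inn S).powerset := by
          rw [Finset.filter_eq_self]
          intro T hT
          rw [fin T hT]
          have hv := valid T (Finset.mem_powerset.1 hT)
          refine (chn_ends (i := 0) O.hnet H Pm q1 q2 hv).1.1 ?_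
          rw [Int.cast_zero, zero_add]
          exact ends_step1 O.hnet hpx hv hx hk
        rw [this, Finset.card_powerset]
        push_cast
        exact div_self (by positivity)
      rw [F_mark O.hnet hk, hp]
      unfold omz
      rw [show ZMod.val (1 : ZMod 3) = 1 from rfl, pow_one]
      push_cast
      ring
    · exact g5 _ (Or.inr rfl) n2 n4
  · by_cases n3 : (x, w j1) ∈ (C.dom.netS S).exS
    · obtain ⟨k, hk1, hk⟩ := (mem_exS O).1 n3
      have h1 := O.end2 k
      rw [hk] at h1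
      have h3 : k = 0 := cls_uniq O h1 a0
      subst h3
      rw [← ex0 O] at hk
      have hp : C.pr S 0 = 0 := by
        unfold Cfg.pr
        have : (C.inn S).powerset.filter (fun T : Finset ℂ => C.Crs S (T : Set ℂ) 0) = ∅ := by
          rw [Finset.filter_eq_empty_iff]
          intro T hT
          rw [fin T hT]
          have hv := valid T (Finset.mem_powerset.1 hT)
          rw [chn_xor (i := 0) O.hnet H Pm q1 q2 hv, not_not]
          refine (chn_ends (i := 0) O.hnet H Pm q1 q2 hv).2.1 ?_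
          rw [Int.cast_zero]
          exact ends_step0 O.hnet hpx hv hx hk
        rw [this]
        simp
      rw [F_mark O.hnet hk, hp]
      unfold omz
      simp
    · exact g5 _ (Or.inl rfl) n1 n3

end Crest.Agent.R143.Crs6x117
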