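import Crest.Agent.R143.CenS_496
import Crest.Agent.R143.Loc8_277

/-!
# Row 143 (S0194), CONT / K7: centres of the enlarged classes (helper723)

`A i ⊆ A' i`, thin links: every site of `A' j` is joined to `A j` inside `A' j` in the ball of
radius `r` (`Thn S A A' r`).
* `lift_x`, `lift_t` : a centre of `A'` in the ball `B(p, ρ)` gives a centre of `A` in
  `B(p, ρ + m + r)` (`m` = length of the edges next to the centre)
* **`vis`** : if `A` has no small centre, then `A'` has no rainbow triangle, it has a centre `X` (a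
  connected set of free sites of `A'` next to the three classes `A' j`), and every other centre meets
  it. No rainbow disc, no label windows: all the labels are seen from `X` by construction.
-/

set_option autoImplicit false

noncomputable section

open scoped Classical

namespace Crest.Agent.R143.CtrLx723

open Set
open Crest.Agent.R143.B0x346 Crest.Agent.R143.DelGx806 Crest.Agent.R143.DelRx806
  Crest.Agent.R143.JColx54 Crest.Agent.R143.RE0x723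
open Crest.Agent.R143.K33x877 Crest.Agent.R143.NetUx346
open Crest.Agent.R143.RB2x54 (Vt)
open Crest.Agent.R143.CenSx496 (SmC)
open Crest.Agent.R143.Loc8x277 (Cp hit_cases)

variable {S : Finset ℂ} {A A' : ZMod 3 → Set ℂ} {r m ρ : ℝ}

/-- thin links -/
def Thn (S : Finset ℂ) (A A' : ZMod 3 → Set ℂ) (r : ℝ) : Prop :=
  ∀ j, ∀ x ∈ A' j, ∃ a ∈ A j, Pth S (A' j ∩ Metric.closedBall x r) x a

/-- the free part of the link of `x` -/
def Lk (S : Finset ℂ) (A A' : ZMod 3 → Set ℂ) (r : ℝ) (j : ZMod 3) (x : ℂ) : Set ℂ :=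
  {y | Pth S ({v | v ∈ A' j ∧ v ∉ A j} ∩ Metric.closedBall x r) x y}

theorem lk_con {j : ZMod 3} {x y z : ℂ} (hy : y ∈ Lk S A A' r j x) (hz : z ∈ Lk S A A' r j x) :
    Pth S (Lk S A A' r j x) y z := by
  have h1 : Pth S ({v | v ∈ A' j ∧ v ∉ A j} ∩ Metric.closedBall x r) y z := (Pth.symm hy).trans hz
  refine (Pth.self h1).mono ?_
  rintro v ⟨-, hv⟩
  exact Pth.trans hz hv.symm

theorem lk_self {j : ZMod 3} {x : ℂ} (hr : 0 ≤ r) (hx : x ∈ A' j) (hx' : x ∉ A j) :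
    x ∈ Lk S A A' r j x :=
  Pth.refl ⟨⟨hx, hx'⟩, Metric.mem_closedBall_self hr⟩

/-- the link ends next to `A j` -/
theorem lk_end (hr : 0 ≤ r) {j : ZMod 3} {x a : ℂ} (hx' : x ∉ A j) (ha : a ∈ A j)
    (h : Pth S (A' j ∩ Metric.closedBall x r) x a) :
    ∃ u ∈ Lk S A A' r j x, ∃ b ∈ A j, Adj S u b := by
  obtain ⟨u, v, h1, h2, h3, h4⟩ := Pth.exit (Q := fun v => v ∉ A j) h hx' (fun h' => h' ha)
  refine ⟨u, ?_, v, not_not.1 h4, h2⟩
  refine Pth.mono ?_ h1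
  rintro w ⟨⟨h5, h6⟩, h7⟩
  exact ⟨⟨h5, h7⟩, h6⟩

/-- union of connected pieces, each joined to a core -/
theorem con_un {X : Set ℂ} {Y : ZMod 3 → Set ℂ} (hX : ∀ x ∈ X, ∀ y ∈ X, Pth S X x y)
    (hY : ∀ j, ∀ x ∈ Y j, ∀ y ∈ Y j, Pth S (Y j) x y)
    (hXY : ∀ j, (Y j).Nonempty → ∃ x ∈ X, ∃ y ∈ Y j, x = y ∨ Adj S x y) :
    ∀ x ∈ X ∪ ⋃ j, Y j, ∀ y ∈ X ∪ ⋃ j, Y j, Pth S (X ∪ ⋃ j, Y j) x y := by
  have hsub : ∀ j, Y j ⊆ X ∪ ⋃ j, Y j := fun j v hv => Or.inr (mem_iUnion.2 ⟨j, hv⟩)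
  have toX : ∀ x ∈ X ∪ ⋃ j, Y j, ∃ c ∈ X, Pth S (X ∪ ⋃ j, Y j) x c := by
    rintro x (hx | hx)
    · exact ⟨x, hx, Pth.refl (Or.inl hx)⟩
    · obtain ⟨j, hj⟩ := mem_iUnion.1 hx
      obtain ⟨c, hc, y, hy, hcy⟩ := hXY j ⟨x, hj⟩
      refine ⟨c, hc, ?_⟩
      have h1 := (hY j x hj y hy).mono (hsub j)
      rcases hcy with e | hcy
      · rw [e]; exact h1
      · exact h1.tail hcy.symm (Or.inl hc)
  intro x hx y hy
  obtain ⟨c, hc, h1⟩ := toX x hx
  obtain ⟨c', hc', h2⟩ := toX y hy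
  exact (h1.trans ((hX c hc c' hc').mono subset_union_left)).trans h2.symm


/-- two vertices of a triangle are adjacent or equal -/
theorem vt_adj (hS : GP (S : Set ℂ)) {t : ℂ × ℂ × ℂ} (ht : t ∈ delT S) {u v : ℂ} (hu : Vt t u)
    (hv : Vt t v) (huv : u ≠ v) : Adj S u v := by
  obtain ⟨a, b, c⟩ := t
  have h1 : Adj S a b := adj_tri ht
  have h2 : Adj S b c := adj_tri' hS ht
  have h3 : Adj S c a := adj_tri'' hS ht
  rcases hu with rfl | rfl | rfl <;> rcases hv with rfl | rfl | rfl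
  · exact absurd rfl huv
  · exact h1
  · exact h3.symm
  · exact h1.symm
  · exact absurd rfl huv
  · exact h2
  · exact h3
  · exact h2.symm
  · exact absurd rfl huv

/-- **a rainbow triangle of `A'` gives a centre of `A`** -/
theorem lift_t (hS : GP (S : Set ℂ)) (hA : ∀ i, A i ⊆ A' i)
    (hd : ∀ i j, i ≠ j → Disjoint (A' i) (A' j)) (hth : Thn S A A' r) (hr : 0 ≤ r)
    {t : ℂ × ℂ × ℂ} (ht : CtrT S A' t) {p : ℂ} (hp : ∀ v, Vt t v → ‖v - p‖ ≤ ρ) :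
    SmC S A p (ρ + r) := by
  obtain ⟨htd, hv⟩ := ht
  choose y hyt hy using hv
  choose a ha hpa using fun j => hth j (y j) (hy j)
  have hne : ∀ i j, i ≠ j → y i ≠ y j := fun i j hij e =>
    Set.disjoint_left.1 (hd i j hij) (hy i) (e ▸ hy j)
  have hadj : ∀ i j, i ≠ j → Adj S (y i) (y j) := fun i j hij =>
    vt_adj hS htd (hyt i) (hyt j) (hne i j hij)
  by_cases hall : ∀ j, y j ∈ A j
  · left
    exact ⟨t, ⟨htd, fun i => ⟨y i, hyt i, hall i⟩⟩, fun v hv => (hp v hv).trans (by linarith)⟩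
  push Not at hall
  obtain ⟨k, hk⟩ := hall
  -- the pieces
  set Y : ZMod 3 → Set ℂ := fun j => {v | y j ∉ A j ∧ v ∈ Lk S A A' r j (y j)} with hYdef
  have hYsub : ∀ j, ∀ v ∈ Y j, v ∈ A' j ∧ v ∉ A j ∧ ‖v - p‖ ≤ ρ + r := by
    rintro j v ⟨-, hv⟩
    obtain ⟨⟨h1, h2⟩, h3⟩ := Pth.snd hv
    refine ⟨h1, h2, ?_⟩
    have h4 := hp _ (hyt j)
    rw [mem_closedBall_iff_norm] at h3
    have h6 : v - p = (v - y j) + (y j - p) := by ring
    rw [h6]
    refine (norm_add_le _ _).trans ?_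
    linarith
  have hYk : y k ∈ Y k := ⟨hk, lk_self hr (hy k) hk⟩
  have hcon : ∀ j, ∀ u ∈ Y j, ∀ v ∈ Y j, Pth S (Y j) u v := by
    rintro j u ⟨h1, hu⟩ v ⟨-, hv⟩
    exact (lk_con hu hv).mono fun w hw => ⟨h1, hw⟩
  have hsub : Y k ⊆ ⋃ j, Y j := fun v hv => mem_iUnion.2 ⟨k, hv⟩
  right
  refine ⟨Y k ∪ ⋃ j, Y j, ⟨?_, ?_, ?_⟩, ?_⟩
  · intro i
    rw [Set.disjoint_left]
    intro v hv hvi
    have hv' : v ∈ ⋃ j, Y j := hv.elim (fun h => hsub h) id
    obtain ⟨j, hj⟩ := mem_iUnion.1 hv'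
    obtain ⟨h1, h2, -⟩ := hYsub j v hj
    by_cases hij : i = j
    · subst hij
      exact h2 hvi
    · exact Set.disjoint_left.1 (hd i j hij) (hA i hvi) h1
  · refine con_un (hcon k) hcon ?_
    rintro j ⟨v, hv⟩
    have hj : y j ∈ Y j := ⟨hv.1, lk_self hr (hy j) hv.1⟩
    refine ⟨y k, hYk, y j, hj, ?_⟩
    by_cases hkj : k = j
    · subst hkj
      exact Or.inl rfl
    · exact Or.inr (hadj k j hkj)
  · intro i
    by_cases hi : y i ∈ A i
    · have hki : k ≠ i := by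
        rintro rfl
        exact hk hi
      exact ⟨y k, Or.inl hYk, y i, hi, hadj k i hki⟩
    · obtain ⟨u, hu, b, hb, hub⟩ := lk_end hr hi (ha i) (hpa i)
      exact ⟨u, Or.inr (mem_iUnion.2 ⟨i, hi, hu⟩), b, hb, hub⟩
  · intro v hv
    have hv' : v ∈ ⋃ j, Y j := hv.elim (fun h => hsub h) id
    obtain ⟨j, hj⟩ := mem_iUnion.1 hv'
    exact (hYsub j v hj).2.2




end Crest.Agent.R143.CtrLx723
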