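import Crest.Agent.R143.RigZ_609
import Crest.Agent.R143.R10U_930
import Crest.Agent.R143.TlH_58
import Crest.Agent.R143.Edd_798
import Crest.Agent.R143.InpJ_609
import Crest.Agent.R143.RigP_854
import Crest.Agent.R143.R10N_930

-- ▼ part R143/RigY_609
section

/-!
# Row 143 (S0194), RIG: bad sets and numbers of the last instance (helper609)

* `CEs u ε L ω` : 133's `CorEnv` for a finite list of parameters; **`bad_CEs`** : its complement has
  small probability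
* `th0 C c K u h η = C ((16 h / η) ^ c + (h / Du u K) ^ c)` (930); `th0_t3` (`η = e0`),
  `a2N`, `a2N_t3` (`η = √h`)
-/

set_option autoImplicit false

noncomputable section

open scoped Classical

namespace Crest.Agent.R143.RigYx609

open MeasureTheory Set Filter Topology
open scoped ENNReal
open Crest.ProbabilityR.Voronoi
open Crest.Agent.R143.PolyUx346 (Poly)
open Crest.Agent.R143.PolySx854 Crest.Agent.R143.PolyEx854
open Crest.Agent.R143.RigPx854
open Crest.Agent.R143.CorEx133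
open Crest.Agent.R143.LimSx133
open Crest.Agent.R143.R10Nx930 (Du Du_pos r10_lim)

/-! ### bad sets -/

/-- 133's environment for a finite list of parameters `(K1, c2, ρ0)` -/
def CEs (u : Poly) (ε : ℝ) (L : List (ℝ × ℝ × ℝ)) (ω : Sample) : Prop :=
  ∀ t ∈ L, CorEnv u ε √ε t.1 t.2.1 t.2.2 ω

/-- admissible parameters -/
def OkT (t : ℝ × ℝ × ℝ) : Prop := 0 ≤ t.1 ∧ 0 < t.2.1 ∧ 0 < t.2.2

theorem bad_CEs (u : Poly) {L : List (ℝ × ℝ × ℝ)} (hL : ∀ t ∈ L, OkT t) : ∀ η > 0,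
    ∀ᶠ ε : ℝ in 𝓝[>] 0, sampleLaw {ω | ¬ CEs u ε L ω} ≤ ENNReal.ofReal η := by
  induction L with
  | nil =>
    intro η _
    refine Eventually.of_forall fun ε => ?_
    have e : {ω | ¬ CEs u ε [] ω} = ∅ := by
      rw [Set.eq_empty_iff_forall_notMem]
      intro ω hω
      exact hω fun t ht => absurd ht List.not_mem_nil
    rw [e]
    simp
  | cons t L ih =>
    obtain ⟨h1, h2, h3⟩ := hL t List.mem_cons_self
    have h4 : ∀ η > 0, ∀ᶠ ε : ℝ in 𝓝[>] 0,
        sampleLaw {ω | ¬ CorEnv u ε √ε t.1 t.2.1 t.2.2 ω} ≤ ENNReal.ofReal η := by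
      refine bad_rate one_pos (bad := fun ε => {ω | ¬ CorEnv u ε √ε t.1 t.2.1 t.2.2 ω}) ?_
      filter_upwards [cor_env_sqrt u 1 t.1 1 t.2.1 t.2.2 h1 one_pos h2 h3] with ε h
      exact h.2
    have h5 := bad_union (B := fun ε => {ω | ¬ CorEnv u ε √ε t.1 t.2.1 t.2.2 ω})
      (B' := fun ε => {ω | ¬ CEs u ε L ω}) h4 (ih fun s hs => hL s (List.mem_cons_of_mem _ hs))
    intro η hη
    filter_upwards [h5 η hη] with ε h6
    refine (measure_mono fun ω hω => ?_).trans h6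
    by_cases h7 : CorEnv u ε √ε t.1 t.2.1 t.2.2 ω
    · right
      intro h8
      refine hω fun s hs => ?_
      rcases List.mem_cons.1 hs with rfl | hs
      · exact h7
      · exact h8 s hs
    · exact Or.inl h7

/-! ### numbers -/

/-- the bound of R10 at the precision `η` -/
def th0 (C c K : ℝ) (u : Poly) (h η : ℝ) : ℝ := C * ((16 * h / η) ^ c + (h / Du u K) ^ c)

section num

variable {C c K : ℝ} {u : Poly}











/-- the mesh conditions -/
theorem mesh_ok {x c1 : ℝ} (hx : 0 < x) (hc1 : 0 < c1) : ∀ᶠ ε : ℝ in 𝓝[>] 0,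
    √ε ≤ c1 * x ∧ 5000 * √ε ≤ x ∧ 10000 * √ε ≤ x / 100 := by
  filter_upwards [sqrt_small (mul_pos hc1 hx), sqrt_small (div_pos hx (show (0 : ℝ) < 1000000 by
    norm_num))] with ε h1 h2
  refine ⟨h1, ?_, ?_⟩
  · rw [le_div_iff₀ (by norm_num)] at h2
    nlinarith [Real.sqrt_nonneg ε]
  · rw [le_div_iff₀ (by norm_num)] at h2 ⊢
    linarith

end num

end Crest.Agent.R143.RigYx609
end
end

-- ▼ part R143/DispK_840
section

/-!
# Row 143 (S0194), RIG: the fields `idd`, `edd`, `disp`, final form for one `(u, type)` (helper840)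

* `fq_eq_fU` : the fraction of `DispJ_840` is 798's `fU`
* **`disp_in`** : layout of 416 + 279's `Inp` (window `U ⊇ u.P`) + environment (unique hits for
  every colouring with a corridor off `bad`, `P(bad) ≤ ρ g₀`) give `dd` for
  `DI u ε ω w`, `z l = zl l = gate l - gate (l + 1)`
* **`disp_mv`** : the same for `dI (mv u ε ω) i`, `w = i + 2`, `z l = gate (l + 1) - gate l`:
  the fields `idd`, `edd`, `disp` of 609's `l1d_of` with `c = cD ..`
* **`cD_t3`** : `c` is small in the triple limit (854's layout) if `θ`, `ρ` are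
-/

set_option autoImplicit false
set_option linter.unusedSectionVars false

noncomputable section

open scoped Classical

namespace Crest.Agent.R143.DispKx840

open MeasureTheory Filter Topology Set
open Crest.ProbabilityR.Voronoi
open Crest.Agent.R143.PP0x831
open Crest.Agent.R143.B0x346 Crest.Agent.R143.NetUx346 Crest.Agent.R143.NetVx346
open Crest.Agent.R143.PolyUx346
open Crest.Agent.R143.DispIx840 Crest.Agent.R143.DispJx840
open Crest.Agent.R143.MeasPx609 Crest.Agent.R143.MeasDx609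
open Crest.Agent.R143.InpIx609 (Mb Mb_pos norm_Wn)
open Crest.Agent.R143.InpJx609 (mv dv_eq)
open Crest.Agent.R143.EnvIx279
open Crest.Agent.R143.IndLoc3x279 (clr cav)
open Crest.Agent.R143.TlAx58
open Crest.Agent.R143.Layx416 (Lay rr nn al)
open Crest.Agent.R143.LayUx416 (LayU)
open Crest.Agent.R143.Dbl2x609 (Ap coe_Ap)
open Crest.Agent.R143.RigCx654 (dI tI)
open Crest.Agent.R143.Locx922 (Hol)
open Crest.Agent.R143.LocUx700 (deep)
open Crest.Agent.R143.Harx315 (pr)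
open Crest.Agent.R143.Eddx798 (fU exists_badN)

attribute [local instance] probS

/-! ### the two fractions -/

theorem pr_frac (V : Finset ℂ) (P : Finset ℂ → Prop) : pr V P = Dispx798.frac V P := by
  unfold pr Dispx798.frac
  have h1 : (Harx315.nb V P : ℝ) = ∑ T ∈ V.powerset, if P T then (1 : ℝ) else 0 := by
    rw [Finset.sum_ite, Finset.sum_const_zero, add_zero, Finset.sum_const, nsmul_eq_mul, mul_one]
    rfl
  rw [h1]

section one

variable {u : Poly} {ε d : ℝ} {Wd : Set ℂ} {ω : Sample}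

theorem fq_eq_fU (hε : 0 < ε) (hb : Bornology.IsBounded Wd) {S : Finset ℂ}
    (h1 : (S : Set ℂ) ⊆ points ε ω) (h2 : points ε ω ∩ Wd ⊆ S) (j : ZMod 3) :
    fq u ε Wd j ω = fU u √ε Wd j S := by
  unfold fU fq fracQ
  rw [pr_frac]
  unfold Vw Bw Vs Bs Vw Vs
  rw [Sw_eqW hε hb h1 h2]
  rfl

end one

/-! ### the field -/

/-- the displacement error -/
def cD (u : Poly) (h ε : ℝ) (n : ℕ) (J : Finset ℕ) (θ ρ : ℝ) : ℝ :=
  (2 * (8 * h + 2 * √ε) + ((Finset.range n \ J).card : ℝ) * h) +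
    (2 * Mb u + n * h) * (2 * θ + 3 * ρ)

section field

variable {u : Poly} {ε h : ℝ} {m M : ℕ} {p W : ℤ → ℤ × ℤ} {A e : ℤ → ℤ} {C U : Set ℂ} {n : ℕ}
  {S : Sample → Finset ℂ} {g : Set (ℂ × Bool) → ℝ} {V : ℕ → Set (ℂ × Bool) → ℂ}
  {a b : Set (ℂ × Bool) → ℕ}

/-- **`idd`, `edd`, `disp`** for `DI` -/
theorem disp_in (H : LayU u m M p W A e) (hm : (m : ℝ) * h = u.s) (w : ZMod 3) {J : Finset ℕ}
    (hJ : J ⊆ Finset.range (nn A e w)) (I : Inp ε C U n S g V a b) (hU : u.P ⊆ U) {θ ρ : ℝ}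
    (hθ : 0 ≤ θ) {bad : Set Sample} (mbad : MeasurableSet bad)
    (g0_pos : 0 < ∫ ω, g (cfg ε ω) ∂sampleLaw)
    (hbad : sampleLaw.real bad ≤ ρ * ∫ ω, g (cfg ε ω) ∂sampleLaw)
    (uq : ∀ᵐ ω ∂sampleLaw, ω ∉ bad → ∀ β ⊆ S ω, 0 < g (clr (S ω) β) →
      ∀ i, fU u √ε u.P i (S ω) ≤ θ) :
    ∃ dd : Sample → ℝ, Integrable dd sampleLaw ∧
      ∫ ω, dd ω ∂sampleLaw ≤ cD u h ε (nn A e w) J θ ρ ∧
      ∀ᵐ ω ∂sampleLaw, ‖DI u ε ω w - ∑ l ∈ J, zl h W A e w l *
          ((qo S (ta u √ε h u.P W A e w) (tb u √ε h u.P W A e w) l ω : ℝ) : ℂ)‖ ≤ dd ω := by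
  have hε := I.hε
  have hPb := (isCompact_P u).isBounded
  have hPm := (isCompact_P u).isClosed.measurableSet
  have hh := H.h_pos hm
  have hS : ∀ᵐ ω ∂sampleLaw, (S ω : Set ℂ) ⊆ points ε ω ∧ points ε ω ∩ u.P ⊆ S ω := by
    filter_upwards [I.hS] with ω h1
    exact ⟨h1.1, fun x hx => h1.2 ⟨hx.1, Or.inr (hU hx.2)⟩⟩
  obtain ⟨N, mN, N1, N2⟩ := exists_badN I (u := u) (d := √ε) hPm hU mbad uq
  have pN : sampleLaw.real N ≤ 3 * ρ := by
    have h1 : sampleLaw.real N * ∫ ω, g (cfg ε ω) ∂sampleLaw ≤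
        (3 * ρ) * ∫ ω, g (cfg ε ω) ∂sampleLaw := by nlinarith
    exact le_of_mul_le_mul_right h1 g0_pos
  have hR : ∀ v ∈ u.P, ‖v‖ ≤ Mb u := fun v hv => norm_Wn u zero_le_one (P_sub_Wn u 0 hv)
  obtain ⟨d1, d2, d3⟩ := disp_fieldW (u := u) (Wd := u.P) (w := w) (c := 8 * h + 2 * √ε)
    (R := Mb u) (θ := θ) (bad := N) hε H.lay hh.le hPb hJ (by positivity) (Mb_pos u).le hθ
    hR S hS mN (ae_of_all _ fun ω _ => TlHx58.hx_P hε H hm w ω)
    (ae_of_all _ fun ω _ => TlHx58.hy_P hε H hm w ω) (by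
      filter_upwards [hS, N1] with ω h1 h2 h3
      have h4 := h2 h3
      rw [fq_eq_fU hε hPb h1.1 h1.2, fq_eq_fU hε hPb h1.1 h1.2]
      exact ⟨h4 _, h4 _⟩)
  refine ⟨_, d1, d2.le.trans ?_, d3⟩
  unfold cD
  have q1 : 0 ≤ 2 * Mb u + nn A e w * h := by
    have := (Mb_pos u).le
    positivity
  have q2 := mul_le_mul_of_nonneg_left (show 2 * θ + sampleLaw.real N ≤ 2 * θ + 3 * ρ by
    linarith) q1
  linarith


end field

/-! ### the triple limit -/

section lim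

open Crest.Agent.R143.RigPx854 Crest.Agent.R143.PolyEx854

theorem cD_le {u : Poly} (i : ZMod 3) {N : ℕ} (hN' : u.n + 4 ≤ N) {ε θ ρ : ℝ} :
    cD u (hN N) ε (nT u i N) (JT u i N) θ ρ ≤
      ((16 + (3 * u.L + 4)) * hN N + 4 * √ε) +
        (2 * Mb u + 2 * u.L * u.s) * max (2 * θ + 3 * ρ) 0 := by
  have h0 := hN_pos N
  have h1 : ((Finset.range (nT u i N) \ JT u i N).card : ℝ) ≤ 3 * u.L + 4 := by
    have h2 := JT_card i hN'
    have h3 := Finset.card_sdiff_add_card_eq_card (JT_sub u i N)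
    rw [Finset.card_range] at h3
    have h4 : ((Finset.range (nT u i N) \ JT u i N).card : ℝ) + (JT u i N).card = nT u i N := by
      exact_mod_cast h3
    linarith
  have h5 := mul_le_mul_of_nonneg_right h1 h0.le
  have h6 := nT_le i hN'
  have h7 : (2 * Mb u + nT u i N * hN N) * (2 * θ + 3 * ρ) ≤
      (2 * Mb u + 2 * u.L * u.s) * max (2 * θ + 3 * ρ) 0 := by
    have h8 : 0 ≤ 2 * Mb u + nT u i N * hN N := by
      have := (Mb_pos u).le
      positivity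
    exact (mul_le_mul_of_nonneg_left (le_max_left _ _) h8).trans
      (mul_le_mul_of_nonneg_right (by linarith) (le_max_right _ _))
  unfold cD
  linarith

/-- **the displacement error is small in the triple limit** -/
theorem cD_t3 {u : Poly} {i : ZMod 3} {θ ρ : ℝ → ℕ → ℝ → ℝ} (hθ : T3 atTop θ)
    (hρ : T3 atTop ρ) : T3 atTop fun e0 N ε =>
      cD u (hN N) ε (nT u i N) (JT u i N) (θ e0 N ε) (ρ e0 N ε) := by
  have t1 : T3 atTop fun _ N _ => (16 + (3 * u.L + 4)) * hN N := by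
    intro η hη
    refine Eventually.of_forall fun _ => ?_
    have h1 : Tendsto (fun N : ℕ => (16 + (3 * (u.L : ℝ) + 4)) * hN N) atTop (𝓝 0) := by
      have := hN_tendsto.const_mul (16 + (3 * (u.L : ℝ) + 4))
      rwa [mul_zero] at this
    filter_upwards [h1.eventually (ge_mem_nhds hη)] with N h2
    exact Eventually.of_forall fun _ => h2
  have t2 : T3 (I := ℕ) atTop fun _ _ ε => 4 * √ε := by
    intro η hη
    refine Eventually.of_forall fun _ => Eventually.of_forall fun _ => ?_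
    have h1 : Tendsto (fun ε : ℝ => 4 * √ε) (𝓝[>] 0) (𝓝 0) := by
      have h2 := ((Real.continuous_sqrt.tendsto 0).const_mul 4)
      rw [Real.sqrt_zero, mul_zero] at h2
      exact h2.mono_left nhdsWithin_le_nhds
    exact h1.eventually (ge_mem_nhds hη)
  have t3 : T3 atTop fun e0 N ε => (2 * Mb u + 2 * u.L * u.s) *
      max (2 * θ e0 N ε + 3 * ρ e0 N ε) 0 := by
    have h1 := (Mb_pos u).le
    have h2 := u.s_pos.le
    exact (t3_max0 ((hθ.const_mul (by norm_num)).add (hρ.const_mul (by norm_num)))).const_mul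
      (by positivity)
  refine ((t1.add t2).add t3).mono ?_
  refine Eventually.of_forall fun _ => ?_
  filter_upwards [eventually_ge_atTop (u.n + 4)] with N hN'
  exact Eventually.of_forall fun _ => cD_le i hN'


end lim

end Crest.Agent.R143.DispKx840
end
end

-- ▼ part R143/DispZ_840

/-!
# Row 143 (S0194), RIG: the field `disp` for the objects of the last layer (helper840)

* `thU C c K u N = C (hN N / Du u K) ^ c` : 930's bound of the fraction without unique hit;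
  `thU_nonneg`, `thU_t3`
* `cZ` : displacement error; `cZ_nonneg`, **`cZ_t3`**
* **`dispZ`** : white label `w`, `DI u ε ω w`, `z l = -zL u w N l`
* **`dispZ'`** : type `i = w + 1`, `dI (mv u ε ω) (w + 1)`, `z l = zL u w N l`
* **`disp_op`** : the fields `disp`, `hcd` of 609's `Op`, from `PosP`, `mom`, `hbad` and 930's `Con`
  off `bad`
-/

set_option autoImplicit false
set_option linter.unusedSectionVars false

noncomputable section

open scoped Classical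

namespace Crest.Agent.R143.DispZx840

open MeasureTheory Filter Topology Set
open Crest.ProbabilityR.Voronoi
open Crest.Agent.R143.PP0x831
open Crest.Agent.R143.B0x346 Crest.Agent.R143.NetUx346 Crest.Agent.R143.NetVx346
open Crest.Agent.R143.PolyUx346
open Crest.Agent.R143.DispIx840 Crest.Agent.R143.DispJx840 Crest.Agent.R143.DispKx840
open Crest.Agent.R143.MeasPx609 Crest.Agent.R143.MeasDx609
open Crest.Agent.R143.InpJx609 (mv dv_eq)
open Crest.Agent.R143.EnvIx279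
open Crest.Agent.R143.IndLoc3x279 (clr cav)
open Crest.Agent.R143.RigCx654 (dI tI)
open Crest.Agent.R143.PolyEx854 (T3)
open Crest.Agent.R143.RigPx854 Crest.Agent.R143.RigZdx609
open Crest.Agent.R143.CorEx133 (Rp RU UU SU)
open Crest.Agent.R143.R10Nx930 (Du Du_pos Con)

/-! ### the errors -/

/-- 930's bound of the fraction of colourings without unique hit -/
def thU (C c K : ℝ) (u : Poly) (N : ℕ) : ℝ := C * (hN N / Du u K) ^ c

theorem thU_nonneg {C c K : ℝ} (hC : 0 ≤ C) (hK : 0 ≤ K) (u : Poly) (N : ℕ) :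
    0 ≤ thU C c K u N :=
  mul_nonneg hC (Real.rpow_nonneg (div_nonneg (hN_pos N).le (Du_pos u hK).le) _)

theorem thU_tendsto {C c K : ℝ} (hc : 0 < c) (u : Poly) :
    Tendsto (thU C c K u) atTop (𝓝 0) := by
  have h1 : Tendsto (fun N : ℕ => hN N / Du u K) atTop (𝓝 0) := by
    have := hN_tendsto.div_const (Du u K)
    rwa [zero_div] at this
  have h2 := (Real.continuousAt_rpow_const 0 c (Or.inr hc.le)).tendsto.comp h1
  rw [Real.zero_rpow hc.ne'] at h2
  have h3 := h2.const_mul C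
  rw [mul_zero] at h3
  exact h3

theorem thU_t3 {C c K : ℝ} (hc : 0 < c) (u : Poly) :
    T3 atTop fun _ N _ => thU C c K u N := by
  intro η hη
  refine Eventually.of_forall fun _ => ?_
  filter_upwards [(thU_tendsto (C := C) (K := K) hc u).eventually (ge_mem_nhds hη)] with N h1
  exact Eventually.of_forall fun _ => h1

/-- **the displacement error** -/
def cZ (C c K : ℝ) (u : Poly) (w : ZMod 3) (ρ : ℝ → ℕ → ℝ → ℝ) (e0 : ℝ) (N : ℕ) (ε : ℝ) : ℝ :=
  cD u (hN N) ε (nT u w N) (JT u w N) (thU C c K u N) (ρ e0 N ε)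

theorem cZ_t3 {C c K : ℝ} (hc : 0 < c) (u : Poly) (w : ZMod 3) {ρ : ℝ → ℕ → ℝ → ℝ}
    (hρ : T3 atTop ρ) : T3 atTop (cZ C c K u w ρ) :=
  cD_t3 (i := w) (thU_t3 (C := C) (K := K) hc u) hρ


/-! ### the field -/

section field

variable (Z : TData) {N : ℕ} {ε : ℝ} {u : Poly} {w : ZMod 3}

/-- **`idd`, `edd`, `disp`** at the white label `w`: `T := aI`, `D := DI w`, `z l = -zL l` -/
theorem dispZ {f : ℂ × ℂ × ℂ → ℂ} (hf : Measurable f) (hN' : u.n + 4 ≤ N) (hε : 0 < ε)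
    (V2 : ∀ l ∈ Finset.range (nT u w N),
      Integrable (fun ω => gW Z u w hN' hε (cfg ε ω) * ‖VL Z f u w ε hN' l (cfg ε ω)‖ ^ 2)
        sampleLaw)
    {C c K ρ : ℝ} (hC : 0 ≤ C) (hK : 0 ≤ K) {bad : Set Sample} (mbad : MeasurableSet bad)
    (g0_pos : 0 < g0 Z u w hN' hε) (hbad : sampleLaw.real bad ≤ ρ * g0 Z u w hN' hε)
    (con : ∀ᵐ ω ∂sampleLaw, ω ∉ bad → ∀ β ⊆ SU u ε ω,
      0 < gW Z u w hN' hε (clr (SU u ε ω) β) →
      ∃ A : ZMod 3 → Set ℂ, Con C c K u ε (hN N) ω A u.P) :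
    ∃ dd : Sample → ℝ, Integrable dd sampleLaw ∧
      ∫ ω, dd ω ∂sampleLaw ≤ cD u (hN N) ε (nT u w N) (JT u w N) (thU C c K u N) ρ ∧
      ∀ᵐ ω ∂sampleLaw, ‖DI u ε ω w - ∑ l ∈ JT u w N, -zL u w N l *
          ((qo (SU u ε) (tA u w N ε) (tB u w N ε) l ω : ℝ) : ℂ)‖ ≤ dd ω := by
  obtain ⟨dd, h1, h2, h3⟩ := disp_in (ly_spec hN') (mN_hN (u := u) (N := N) (by omega)) w
    (J := JT u w N) (JT_sub u w N) (inp Z hf hN' hε V2) subset_rfl (θ := thU C c K u N)
    (ρ := ρ) (thU_nonneg hC hK u N) mbad g0_pos hbad (by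
      filter_upwards [con] with ω h1 h2 β h3 h4 i
      obtain ⟨A, h5⟩ := h1 h2 β h3 h4
      exact h5.2 i)
  refine ⟨dd, h1, h2, ?_⟩
  filter_upwards [h3] with ω h4
  refine le_trans (le_of_eq ?_) h4
  congr 2
  refine Finset.sum_congr rfl fun l _ => ?_
  rw [zL_eq, neg_neg]
  rfl

/-- **`idd`, `edd`, `disp`** at the type `w + 1`: `D := dI (mv u ε ·) (w + 1)`, `z l = zL l` -/
theorem dispZ' {f : ℂ × ℂ × ℂ → ℂ} (hf : Measurable f) (hN' : u.n + 4 ≤ N) (hε : 0 < ε)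
    (V2 : ∀ l ∈ Finset.range (nT u w N),
      Integrable (fun ω => gW Z u w hN' hε (cfg ε ω) * ‖VL Z f u w ε hN' l (cfg ε ω)‖ ^ 2)
        sampleLaw)
    {C c K ρ : ℝ} (hC : 0 ≤ C) (hK : 0 ≤ K) {bad : Set Sample} (mbad : MeasurableSet bad)
    (g0_pos : 0 < g0 Z u w hN' hε) (hbad : sampleLaw.real bad ≤ ρ * g0 Z u w hN' hε)
    (con : ∀ᵐ ω ∂sampleLaw, ω ∉ bad → ∀ β ⊆ SU u ε ω,
      0 < gW Z u w hN' hε (clr (SU u ε ω) β) →
      ∃ A : ZMod 3 → Set ℂ, Con C c K u ε (hN N) ω A u.P) :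
    ∃ dd : Sample → ℝ, Integrable dd sampleLaw ∧
      ∫ ω, dd ω ∂sampleLaw ≤ cD u (hN N) ε (nT u w N) (JT u w N) (thU C c K u N) ρ ∧
      ∀ᵐ ω ∂sampleLaw, ‖dI (mv u ε ω) (w + 1) - ∑ l ∈ JT u w N, zL u w N l *
          ((qo (SU u ε) (tA u w N ε) (tB u w N ε) l ω : ℝ) : ℂ)‖ ≤ dd ω := by
  obtain ⟨dd, h1, h2, h3⟩ := dispZ Z hf hN' hε V2 hC hK mbad g0_pos hbad con
  refine ⟨dd, h1, h2, ?_⟩
  filter_upwards [h3] with ω h4
  rw [dv_eq]
  have ew : ∀ w : ZMod 3, w + 1 + 2 = w := by decide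
  rw [ew w]
  have e2 : ∑ l ∈ JT u w N, -zL u w N l *
        ((qo (SU u ε) (tA u w N ε) (tB u w N ε) l ω : ℝ) : ℂ) =
      -∑ l ∈ JT u w N, zL u w N l *
        ((qo (SU u ε) (tA u w N ε) (tB u w N ε) l ω : ℝ) : ℂ) := by
    rw [← Finset.sum_neg_distrib]
    exact Finset.sum_congr rfl fun l _ => neg_mul _ _
  rw [e2] at h4
  have e1 : -DI u ε ω w - ∑ l ∈ JT u w N, zL u w N l *
        ((qo (SU u ε) (tA u w N ε) (tB u w N ε) l ω : ℝ) : ℂ) =
      -(DI u ε ω w - -∑ l ∈ JT u w N, zL u w N l *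
        ((qo (SU u ε) (tA u w N ε) (tB u w N ε) l ω : ℝ) : ℂ)) := by ring
  rw [e1, norm_neg]
  exact h4

end field

/-! ### the fields of `Op` -/

section op

open Crest.Agent.R143.RigZx609
open Crest.Agent.R143.LimSx133 (msb msb_meas sub_msb msb_real dl_bad)
open Crest.Agent.R143.PolyEx854 (t3_of_dl)
open Crest.Agent.R143.SpMx169 (fP fP_meas)

/-- relative probability of the bad set (609's `Op.rho`) -/
def rhoZ (Z : TData) (u : Poly) (w : ZMod 3) (bad : ℝ → ℕ → ℝ → Set Sample) (e0 : ℝ) (N : ℕ)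
    (ε : ℝ) : ℝ := sampleLaw.real (bad e0 N ε) / gt0 Z u w N ε

theorem rhoZ_t3 {Z : TData} (hp : PosP Z) (u : Poly) (w : ZMod 3)
    {bad : ℝ → ℕ → ℝ → Set Sample}
    (hbad : ∀ᶠ e0 : ℝ in 𝓝[>] 0, ∀ᶠ N : ℕ in atTop, ∀ η > 0, ∀ᶠ ε : ℝ in 𝓝[>] 0,
      sampleLaw (bad e0 N ε) ≤ ENNReal.ofReal η) : T3 atTop (rhoZ Z u w bad) := by
  refine t3_of_dl ?_
  filter_upwards [hbad] with e0 h
  exact dl_bad (lowN hp u w) h

/-- **the fields `hcd`, `disp` of `Op`** -/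
theorem disp_op {Z : TData} (hp : PosP Z) {u : Poly} {w : ZMod 3} {C c K : ℝ} (hC : 0 ≤ C)
    (hc : 0 < c) (hK : 0 ≤ K)
    (mom : Ev u fun N ε hn he => ∀ l ∈ Finset.range (nT u w N),
      Integrable (fun ω => gW Z u w hn he (cfg ε ω) * ‖VL Z fP u w ε hn l (cfg ε ω)‖ ^ 2)
        sampleLaw) {bad : ℝ → ℕ → ℝ → Set Sample}
    (hbad : ∀ᶠ e0 : ℝ in 𝓝[>] 0, ∀ᶠ N : ℕ in atTop, ∀ η > 0, ∀ᶠ ε : ℝ in 𝓝[>] 0,
      sampleLaw (bad e0 N ε) ≤ ENNReal.ofReal η)
    (con : ∀ᶠ e0 : ℝ in 𝓝[>] 0, Ev u fun N ε hn he => ∀ᵐ ω ∂sampleLaw, ω ∉ bad e0 N ε →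
      ∀ β ⊆ SU u ε ω, 0 < gW Z u w hn he (clr (SU u ε ω) β) →
        ∃ A : ZMod 3 → Set ℂ, Con C c K u ε (hN N) ω A u.P) :
    T3 atTop (cZ C c K u w (rhoZ Z u w bad)) ∧
    ∀ᶠ e0 : ℝ in 𝓝[>] 0, Ev u fun N ε _ _ => ∃ dd : Sample → ℝ, Integrable dd sampleLaw ∧
      ∫ ω, dd ω ∂sampleLaw ≤ cZ C c K u w (rhoZ Z u w bad) e0 N ε ∧
        ∀ᵐ ω ∂sampleLaw, ‖dI (mv u ε ω) (w + 1) - ∑ l ∈ JT u w N, zL u w N l *
          (qo (SU u ε) (tA u w N ε) (tB u w N ε) l ω : ℂ)‖ ≤ dd ω := by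
  refine ⟨cZ_t3 hc u w (rhoZ_t3 hp u w hbad), ?_⟩
  filter_upwards [con] with e0 h1
  have h5 := h1.and mom
  unfold Ev at h5 ⊢
  filter_upwards [h5, lowN hp u w] with N g1 g2
  filter_upwards [g1, g2.pos] with ε k1 k2 hn he
  obtain ⟨m1, m2⟩ := k1 hn he
  have hg : 0 < g0 Z u w hn he := by
    rw [gt0_eq hn he] at k2
    exact k2
  refine dispZ' Z fP_meas hn he m2 hC hK (bad := msb (bad e0 N ε)) (msb_meas _) hg ?_ ?_
  · rw [msb_real]
    unfold rhoZ
    rw [gt0_eq hn he, div_mul_cancel₀ _ hg.ne']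
  · filter_upwards [m1] with ω p1 p2
    exact p1 fun h => p2 (sub_msb _ h)

end op

end Crest.Agent.R143.DispZx840
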