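import Crest.Agent.R143.Circ4_838
import Crest.Agent.R143.Ten_416
import Crest.Agent.R143.RE0_723

/-!
# Row 143 (S0194), CONT, (K7): labels along a grid polygon, definitions and the geometric base
(helper755)

`F` : finite set of cells (scale `s`), `Cyc F N v` : its boundary walk (`F` on the left).
* `ev v k` : direction of the boundary edge `k`; `md` : its middle
* `M`, `W`, `rg` : inner polyline ("ring") at depth `μ`
* `ctr` : centre of a cell
* `BASE` : the geometric facts (helper951)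
-/

set_option autoImplicit false

noncomputable section

namespace Crest.Agent.R143.LabDx755

open Set Complex
open Crest.Agent.R158.Sp896 Crest.Agent.R158.Jt785
open Crest.Agent.R143.ToolWx838
open Crest.Agent.R143.Tenx416 (Pg)

/-- direction of the boundary edge `k` -/
def ev (v : ℕ → V) (k : ℕ) : ℂ :=
  ⟨(((v (k + 1)).1 - (v k).1 : ℤ) : ℝ), (((v (k + 1)).2 - (v k).2 : ℤ) : ℝ)⟩

/-- middle of the boundary edge `k` -/
def md (s : ℝ) (v : ℕ → V) (k : ℕ) : ℂ := (pt s (v k) + pt s (v (k + 1))) / 2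

/-- the point at depth `μ` on the inner normal of the edge `k` -/
def M (s μ : ℝ) (v : ℕ → V) (k : ℕ) : ℂ := md s v k + μ * (I * ev v k)

/-- inner corner between the edges `k` and `k + 1` -/
def W (s μ : ℝ) (v : ℕ → V) (k : ℕ) : ℂ :=
  pt s (v (k + 1)) + μ * (I * ev v k) + μ * (I * ev v (k + 1))

/-- `M i, W i, M (i + 1), W (i + 1), .., M (i + n)` -/
def rg (s μ : ℝ) (v : ℕ → V) (i : ℕ) : ℕ → List ℂ
  | 0 => [M s μ v i]
  | n + 1 => rg s μ v i n ++ [W s μ v (i + n), M s μ v (i + n + 1)]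

/-- centre of a cell -/
def ctr (s : ℝ) (q : V) : ℂ := ⟨s * (q.1 + 1 / 2), s * (q.2 + 1 / 2)⟩

/-- inner cell of the edge `k` -/
def ic (v : ℕ → V) (k : ℕ) : V := lc (v k) (v (k + 1))

/-- the two ring segments of the piece from the edge `j` to the edge `j + 1` -/
def rs (s μ : ℝ) (v : ℕ → V) (j : ℕ) : Set ℂ :=
  segment ℝ (M s μ v j) (W s μ v j) ∪ segment ℝ (W s μ v j) (M s μ v (j + 1))

/-- the radial segment -/
def rd (s : ℝ) (v : ℕ → V) (k : ℕ) : Set ℂ := segment ℝ (md s v k) (ctr s (ic v k))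

/-- geometric facts about the polygon -/
structure Bs (s μ : ℝ) (F : Set V) (N : ℕ) (v : ℕ → V) : Prop where
  /-- (BA) -/
  ring : ∀ k, ∀ z ∈ rs s μ v k, Metric.ball z μ ⊆ Pg s F
  /-- (BB) -/
  rad : ∀ k, ∀ z ∈ segment ℝ (M s μ v k) (ctr s (ic v k)), Metric.ball z μ ⊆ Pg s F
  /-- (BC) -/
  cen : ∀ q ∈ F, ∀ q' ∈ F, Adj q q' → ∀ z ∈ segment ℝ (ctr s q) (ctr s q'),
    Metric.ball z μ ⊆ Pg s F
  /-- (BD1) radial segment and foreign ring pieces -/
  d1 : ∀ k j, j % N ≠ k % N → (j + 1) % N ≠ k % N → ∀ z ∈ rd s v k, ∀ w ∈ rs s μ v j,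
    s / 4 ≤ ‖z - w‖
  /-- (BD2) middles of different edges and radial segments -/
  d2 : ∀ k j, j % N ≠ k % N → ∀ z ∈ rd s v k, s / 4 ≤ ‖z - md s v j‖
  /-- (BD3) centre paths are far from the ring and from the middles -/
  d3 : ∀ q ∈ F, ∀ q' ∈ F, Adj q q' → ∀ z ∈ segment ℝ (ctr s q) (ctr s q'), ∀ j,
    (∀ w ∈ rs s μ v j, s / 4 ≤ ‖z - w‖) ∧ s / 4 ≤ ‖z - md s v j‖
  /-- `M` is on the radial segment -/
  mrd : ∀ k, M s μ v k ∈ rd s v k
  /-- (BE) -/
  idx : ∀ i, ∀ q ∈ F, asum (ctr s q) (rg s μ v i N) = 2 * Real.pi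

/-- **BASE** (951) -/
def BASE : Prop := ∀ (s μ : ℝ) (F : Set V) (N : ℕ) (v : ℕ → V), 0 < s → 0 < μ → 16 * μ ≤ s →
  F.Finite → (∀ q ∈ F, ∀ q' ∈ F, Con F q q') → (∀ q ∉ F, ∀ q' ∉ F, Con Fᶜ q q') →
  Cyc F N v → Bs s μ F N v

end Crest.Agent.R143.LabDx755
end
private theorem rz_c73c4c36d4 : type_of% @_root_.Crest.Agent.R143.LabDx755.rg.eq_def := @_root_.Crest.Agent.R143.LabDx755.rg.eq_def -- L42
private theorem rz_a5da8c6d0e : type_of% @_root_.Crest.Agent.R143.LabDx755.rg.eq_1 := @_root_.Crest.Agent.R143.LabDx755.rg.eq_1 -- L42
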