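import Crest.Agent.R143.LabD_755

/-!
# Row 143 (S0194), CONT (K7): labels along a grid polygon (helper755)

* polylines: `On`, `cat`, `Pl`
* `sep` : two disjoint connected sets of sites outside the polygon cannot touch the boundary walk in
  alternating order
-/

set_option autoImplicit false

noncomputable section

namespace Crest.Agent.R143.Labx755

open Set Complex
open Crest.Agent.R158.Sp896
open Crest.Agent.R143.ToolWx838 Crest.Agent.R143.ToolW3x838 Crest.Agent.R143.Blkx838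
open Crest.Agent.R143.Tenx416 (Pg)
open Crest.Agent.R143.LabDx755
open Crest.Agent.R143.B0x346 (GP)
open Crest.Agent.R143.RE0x723 (Pth)

/-! ### polylines -/

/-- points on the segments of a polyline -/
def On (l : List ℂ) : Set ℂ := {z | ∃ p ∈ prs l, z ∈ segment ℝ p.1 p.2}

/-- concatenation (the last point of `l` = the first point of `m`) -/
def cat (l m : List ℂ) : List ℂ := l ++ m.tail

/-- polyline from `a` to `b` -/
structure Pl (l : List ℂ) (a b : ℂ) : Prop where
  hd : l.head? = some a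
  lt : l.getLast? = some b

variable {l m : List ℂ} {a b c x z : ℂ}

theorem Pl.left (h : Pl l a b) : ∃ m, l = a :: m := by
  cases l with
  | nil => exact absurd h.hd (by simp)
  | cons y m =>
    have := h.hd
    rw [List.head?_cons] at this
    exact ⟨m, by rw [Option.some.inj this]⟩

theorem Pl.right (h : Pl l a b) : ∃ m, l = m ++ [b] := by
  obtain ⟨m, hm⟩ := List.getLast?_eq_some_iff.1 h.lt
  exact ⟨m, hm⟩

theorem Pl.ne (h : Pl l a b) : l ≠ [] := by
  obtain ⟨m, rfl⟩ := h.left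
  simp

theorem Pl.head (h : Pl l a b) : l.head h.ne = a := by
  have := h.hd
  rw [List.head?_eq_some_head h.ne] at this
  exact Option.some.inj this

theorem Pl.last (h : Pl l a b) : l.getLast h.ne = b := by
  have := h.lt
  rw [List.getLast?_eq_some_getLast h.ne] at this
  exact Option.some.inj this

theorem Pl.cat (h : Pl l a b) (h' : Pl m b c) : Pl (cat l m) a c := by
  obtain ⟨l0, rfl⟩ := h.right
  obtain ⟨m0, rfl⟩ := h'.left
  refine ⟨?_, ?_⟩
  · rw [← h.hd]
    unfold Labx755.cat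
    cases l0 <;> simp
  · rw [← h'.lt]
    unfold Labx755.cat
    rw [List.tail_cons, List.append_assoc, List.singleton_append, List.getLast?_append,
      List.getLast?_cons]
    rfl

theorem asum_cat (h : Pl l a b) (h' : Pl m b c) : asum x (cat l m) = asum x l + asum x m := by
  obtain ⟨l0, rfl⟩ := h.right
  obtain ⟨m0, rfl⟩ := h'.left
  unfold Labx755.cat
  rw [List.tail_cons, List.append_assoc, List.singleton_append, asum_append]

theorem on_cat (h : Pl l a b) (h' : Pl m b c) : On (cat l m) = On l ∪ On m := by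
  obtain ⟨l0, rfl⟩ := h.right
  obtain ⟨m0, rfl⟩ := h'.left
  unfold Labx755.cat On
  rw [List.tail_cons, List.append_assoc, List.singleton_append, prs_append]
  ext z
  simp only [Set.mem_ofPred_eq, List.mem_append, mem_union]
  constructor
  · rintro ⟨p, hp | hp, hz⟩
    · exact Or.inl ⟨p, hp, hz⟩
    · exact Or.inr ⟨p, hp, hz⟩
  · rintro (⟨p, hp, hz⟩ | ⟨p, hp, hz⟩)
    · exact ⟨p, Or.inl hp, hz⟩
    · exact ⟨p, Or.inr hp, hz⟩

theorem Pl.rev (h : Pl l a b) : Pl l.reverse b a :=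
  ⟨by rw [List.head?_reverse, h.lt], by rw [List.getLast?_reverse, h.hd]⟩

theorem on_rev (l : List ℂ) : On l.reverse = On l := by
  ext z
  unfold On
  rw [prs_reverse]
  simp only [Set.mem_ofPred_eq, List.mem_reverse, List.mem_map]
  constructor
  · rintro ⟨_, ⟨p, hp, rfl⟩, hz⟩
    exact ⟨p, hp, by rw [segment_symm]; exact hz⟩
  · rintro ⟨p, hp, hz⟩
    exact ⟨p.swap, ⟨p, hp, rfl⟩, by rw [segment_symm]; exact hz⟩

theorem off_iff : Off z l ↔ z ∉ On l := by
  unfold Off On
  simp only [Set.mem_ofPred_eq, not_exists, not_and]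

theorem asum_rev (h : z ∉ On l) : asum z l.reverse = - asum z l := asum_reverse (off_iff.2 h)

theorem pl_two (a b : ℂ) : Pl [a, b] a b := ⟨rfl, rfl⟩

theorem on_two (a b : ℂ) : On [a, b] = segment ℝ a b := by
  ext z
  unfold On
  simp

theorem pl_one (a : ℂ) : Pl [a] a a := ⟨rfl, rfl⟩

theorem on_one (a : ℂ) : On [a] = ∅ := by
  ext z
  unfold On
  simp

/-- the total angle of a closed polyline is constant along a polyline which does not meet it -/
theorem asum_eq_of (hl : Pl l a a) {q : List ℂ} {y y' : ℂ} (hq : Pl q y y')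
    (hd : Disjoint (On q) (On l)) : asum y l = asum y' l := by
  have h := asum_walk (l := l) (by rw [hl.hd, hl.lt]) (q := q) hq.ne (fun p hp z hz =>
    off_iff.2 fun hz' => Set.disjoint_left.1 hd ⟨p, hp, hz⟩ hz')
  rwa [hq.head, hq.last] at h

/-- polylines in a union of sets -/
theorem on_sub {D : Set ℂ} (h : ∀ p ∈ prs l, segment ℝ p.1 p.2 ⊆ D) : On l ⊆ D := by
  rintro z ⟨p, hp, hz⟩
  exact h p hp hz

/-- a polyline with the vertices in a convex set -/
theorem on_conv {D : Set ℂ} (hD : Convex ℝ D) (h : ∀ y ∈ l, y ∈ D) : On l ⊆ D :=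
  on_sub fun p hp => hD.segment_subset (h _ (mem_of_prs hp).1) (h _ (mem_of_prs hp).2)

/-! ### chains of sites -/

/-- chain of Delaunay edges inside `X` -/
theorem exists_chain {S : Finset ℂ} {X : Set ℂ} {y y' : ℂ} (h : Pth S X y y') :
    ∃ q : List ℂ, Pl q y y' ∧ (∀ x ∈ q, x ∈ X) ∧ ∀ p ∈ prs q, DE S p.1 p.2 := by
  obtain ⟨hy, h⟩ := h
  induction h with
  | refl => exact ⟨[y], pl_one y, by simpa using hy, by simp⟩
  | @tail u w _ h2 ih =>
    obtain ⟨q, h3, h4, h5⟩ := ih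
    refine ⟨Labx755.cat q [u, w], h3.cat (pl_two u w), ?_, ?_⟩
    · intro x hx
      unfold Labx755.cat at hx
      simp only [List.tail_cons, List.mem_append, List.mem_singleton] at hx
      rcases hx with hx | rfl
      · exact h4 x hx
      · exact h2.2
    · intro p hp
      obtain ⟨l0, rfl⟩ := h3.right
      unfold Labx755.cat at hp
      rw [List.tail_cons, List.append_assoc, List.singleton_append, prs_append] at hp
      rcases List.mem_append.1 hp with hp | hp
      · exact h5 p hp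
      · simp only [prs_cons, prs_one, List.mem_singleton] at hp
        rw [hp]
        exact h2.1

/-- disjoint chains do not meet -/
theorem disj_chain {S : Finset ℂ} (hS : GP (S : Set ℂ)) {q q' : List ℂ}
    (hq : ∀ p ∈ prs q, DE S p.1 p.2) (hq' : ∀ p ∈ prs q', DE S p.1 p.2)
    (h : ∀ x ∈ q, x ∉ q') : Disjoint (On q) (On q') := by
  rw [Set.disjoint_left]
  rintro z ⟨p, hp, hz⟩ ⟨r, hr, hz'⟩
  obtain ⟨x, h1, h2⟩ := common_site hS hq' hq ⟨p, hp, r, hr, z, hz, hz'⟩
  exact h x h2 h1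

/-! ### the setting -/

/-- short edges near the polygon -/
def Shr (S : Finset ℂ) (s μ : ℝ) (F : Set V) : Prop :=
  ∀ a b, DE S a b → (∃ z ∈ segment ℝ a b, z ∈ Pg s F) → ‖a - b‖ < μ

/-- a chain with sites outside the polygon does not reach the depth `μ / 2` -/
theorem shallow {S : Finset ℂ} {s μ : ℝ} {F : Set V} (hsh : Shr S s μ F) (hμ : 0 < μ) {q : List ℂ}
    (hq : ∀ p ∈ prs q, DE S p.1 p.2) (hout : ∀ x ∈ q, x ∉ Pg s F) {z : ℂ}
    (hz : Metric.ball z (μ / 2) ⊆ Pg s F) : z ∉ On q := by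
  rintro ⟨p, hp, h⟩
  have h0 : z ∈ Pg s F := hz (Metric.mem_ball_self (by linarith))
  have h1 := hsh _ _ (hq p hp) ⟨z, h, h0⟩
  have m1 := mem_of_prs hp
  obtain ⟨t, t', ht, ht', htt, rfl⟩ := h
  have e1 : dist p.1 (t • p.1 + t' • p.2) = t' * ‖p.1 - p.2‖ := by
    rw [dist_eq_norm]
    have : p.1 - (t • p.1 + t' • p.2) = t' • (p.1 - p.2) := by
      have : t = 1 - t' := by linarith
      subst this
      simp only [Complex.real_smul]; push_cast; ring
    rw [this, norm_smul, Real.norm_eq_abs, abs_of_nonneg ht']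
  have e2 : dist p.2 (t • p.1 + t' • p.2) = t * ‖p.1 - p.2‖ := by
    rw [dist_eq_norm]
    have : p.2 - (t • p.1 + t' • p.2) = -(t • (p.1 - p.2)) := by
      have : t' = 1 - t := by linarith
      subst this
      simp only [Complex.real_smul]; push_cast; ring
    rw [this, norm_neg, norm_smul, Real.norm_eq_abs, abs_of_nonneg ht]
  have h5 : 0 ≤ ‖p.1 - p.2‖ := norm_nonneg _
  rcases le_total t' (1 / 2) with h2 | h2
  · refine hout _ m1.1 (hz ?_)
    rw [Metric.mem_ball, e1]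
    nlinarith
  · refine hout _ m1.2 (hz ?_)
    rw [Metric.mem_ball, e2]
    nlinarith

/-- spoke at the boundary edge `k`: chain of sites from `y` (outside) to a site near `M k` -/
structure Spk (S : Finset ℂ) (s μ r : ℝ) (F : Set V) (v : ℕ → V) (k : ℕ) (y c : ℂ)
    (l : List ℂ) : Prop where
  pl : Pl l y c
  out : y ∉ Pg s F
  inn : ∀ x ∈ l, x ∉ Pg s F → x = y
  del : ∀ p ∈ prs l, DE S p.1 p.2
  near : ∀ x ∈ l, ‖x - md s v k‖ ≤ r
  last : ‖c - M s μ v k‖ ≤ μ / 2

theorem rg_pl (s μ : ℝ) (v : ℕ → V) (i n : ℕ) : Pl (rg s μ v i n) (M s μ v i) (M s μ v (i + n)) := by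
  induction n with
  | zero => exact pl_one _
  | succ n ih =>
    refine ⟨?_, ?_⟩
    · show (rg s μ v i n ++ _).head? = _
      obtain ⟨m, hm⟩ := ih.left
      rw [hm]; rfl
    · show (rg s μ v i n ++ [W s μ v (i + n), M s μ v (i + n + 1)]).getLast? = _
      simp [List.getLast?_append, Nat.add_assoc]

theorem rg_add (s μ : ℝ) (v : ℕ → V) (i n n' : ℕ) :
    rg s μ v i (n + n') = cat (rg s μ v i n) (rg s μ v (i + n) n') := by
  induction n' with
  | zero => simp [Labx755.cat, rg]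
  | succ n' ih =>
    rw [show n + (n' + 1) = (n + n') + 1 by ring]
    show rg s μ v i (n + n') ++ _ = _
    rw [ih]
    unfold Labx755.cat
    have : (rg s μ v (i + n) (n' + 1)).tail = (rg s μ v (i + n) n').tail ++
        [W s μ v (i + n + n'), M s μ v (i + n + n' + 1)] := by
      show (rg s μ v (i + n) n' ++ _).tail = _
      obtain ⟨m, hm⟩ := (rg_pl s μ v (i + n) n').left
      rw [hm]; rfl
    rw [this, List.append_assoc]
    simp [Nat.add_assoc]

theorem on_rg (s μ : ℝ) (v : ℕ → V) (i n : ℕ) :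
    On (rg s μ v i n) ⊆ ⋃ j ∈ Set.Ico i (i + n), rs s μ v j := by
  induction n with
  | zero =>
    show On [M s μ v i] ⊆ _
    rw [on_one]; exact empty_subset _
  | succ n ih =>
    have e : rg s μ v i (n + 1) = cat (rg s μ v i n)
        [M s μ v (i + n), W s μ v (i + n), M s μ v (i + n + 1)] := rfl
    rw [e, on_cat (rg_pl s μ v i n) (c := M s μ v (i + n + 1)) ⟨rfl, rfl⟩]
    rintro z (hz | hz)
    · obtain ⟨j, hj, h⟩ := Set.mem_iUnion₂.1 (ih hz)
      exact Set.mem_iUnion₂.2 ⟨j, ⟨hj.1, by have := hj.2; omega⟩, h⟩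
    · refine Set.mem_iUnion₂.2 ⟨i + n, ⟨by omega, by omega⟩, ?_⟩
      obtain ⟨p, hp, h⟩ := hz
      simp only [prs_cons, prs_one, List.mem_cons, List.not_mem_nil, or_false] at hp
      rcases hp with rfl | rfl
      · exact Or.inl h
      · exact Or.inr h


theorem mem_on_left (h : Pl l a b) (hne : a ≠ b) : a ∈ On l := by
  obtain ⟨m, rfl⟩ := h.left
  cases m with
  | nil =>
    have := h.lt
    simp only [List.getLast?_singleton, Option.some.injEq] at this
    exact absurd this hne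
  | cons c m => exact ⟨(a, c), by simp, left_mem_segment ℝ a c⟩

theorem mem_on_right (h : Pl l a b) (hne : a ≠ b) : b ∈ On l := by
  rw [← on_rev]
  exact mem_on_left h.rev hne.symm

section setting

variable {S : Finset ℂ} {s μ r : ℝ} {F : Set V} {N : ℕ} {v : ℕ → V}

theorem ev_norm (C : Cyc F N v) (k : ℕ) : ‖ev v k‖ = 1 := by
  have h := C.step k
  unfold ev
  rcases h with ⟨h1, h2⟩ | ⟨h1, h2⟩ | ⟨h1, h2⟩ | ⟨h1, h2⟩
  · rw [show (v (k + 1)).1 - (v k).1 = 1 by omega, show (v (k + 1)).2 - (v k).2 = 0 by omega]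
    rw [Complex.norm_eq_sqrt_sq_add_sq]; norm_num
  · rw [show (v (k + 1)).1 - (v k).1 = -1 by omega, show (v (k + 1)).2 - (v k).2 = 0 by omega]
    rw [Complex.norm_eq_sqrt_sq_add_sq]; norm_num
  · rw [show (v (k + 1)).1 - (v k).1 = 0 by omega, show (v (k + 1)).2 - (v k).2 = 1 by omega]
    rw [Complex.norm_eq_sqrt_sq_add_sq]; norm_num
  · rw [show (v (k + 1)).1 - (v k).1 = 0 by omega, show (v (k + 1)).2 - (v k).2 = -1 by omega]
    rw [Complex.norm_eq_sqrt_sq_add_sq]; norm_num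

theorem M_md (C : Cyc F N v) (hμ : 0 < μ) (k : ℕ) : ‖M s μ v k - md s v k‖ = μ := by
  unfold M
  rw [add_sub_cancel_left, norm_mul, norm_mul, ev_norm C, Complex.norm_I, Complex.norm_real,
    Real.norm_eq_abs, abs_of_pos hμ]
  ring

theorem M_per (C : Cyc F N v) (k : ℕ) : M s μ v (k + N) = M s μ v k := by
  unfold M md ev
  rw [show k + N + 1 = k + 1 + N by ring, C.per, C.per]

theorem M_rs (k : ℕ) : M s μ v k ∈ rs s μ v k := Or.inl (left_mem_segment ℝ _ _)

/-- ball around the middle -/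
abbrev nb (s r : ℝ) (v : ℕ → V) (k : ℕ) : Set ℂ := Metric.closedBall (md s v k) r

theorem Spk.nbl {k : ℕ} {y : ℂ} (h : Spk S s μ r F v k y c l) : On l ⊆ nb s r v k :=
  on_conv (convex_closedBall _ _) fun x hx => by
    rw [mem_closedBall_iff_norm]; exact h.near x hx

theorem Spk.nbc {k : ℕ} {y : ℂ} (C : Cyc F N v) (hμ : 0 < μ) (hr : μ ≤ r)
    (h : Spk S s μ r F v k y c l) : segment ℝ c (M s μ v k) ⊆ nb s r v k := by
  refine (convex_closedBall _ _).segment_subset ?_ ?_
  · rw [mem_closedBall_iff_norm]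
    exact h.near c (by obtain ⟨m, rfl⟩ := h.pl.right; simp)
  · rw [mem_closedBall_iff_norm, M_md C hμ]
    exact hr

theorem Spk.deep {k : ℕ} {y : ℂ} (B : Bs s μ F N v) (hμ : 0 < μ)
    (h : Spk S s μ r F v k y c l) {z : ℂ} (hz : z ∈ segment ℝ c (M s μ v k)) :
    Metric.ball z (μ / 2) ⊆ Pg s F := by
  have h1 : segment ℝ c (M s μ v k) ⊆ Metric.closedBall (M s μ v k) (μ / 2) :=
    (convex_closedBall _ _).segment_subset (by rw [mem_closedBall_iff_norm]; exact h.last)
      (Metric.mem_closedBall_self (by linarith))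
  have h2 := h1 hz
  refine subset_trans ?_ (B.ring k _ (M_rs k))
  refine Metric.ball_subset_ball' ?_
  rw [Metric.mem_closedBall] at h2
  linarith

theorem half_ball {z : ℂ} (hμ : 0 < μ) (h : Metric.ball z μ ⊆ Pg s F) :
    Metric.ball z (μ / 2) ⊆ Pg s F :=
  subset_trans (Metric.ball_subset_ball (by linarith)) h

/-- the centres of two cells of `F` are joined by a deep polyline -/
theorem cen_path (B : Bs s μ F N v) {q q' : V} (hq : q ∈ F) (h : Con F q q') :
    ∃ l, Pl l (ctr s q) (ctr s q') ∧ ∀ z ∈ On l, Metric.ball z μ ⊆ Pg s F ∧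
      ∀ j, (∀ w ∈ rs s μ v j, s / 4 ≤ ‖z - w‖) ∧ s / 4 ≤ ‖z - md s v j‖ := by
  have key : ∀ q', Con F q q' → q' ∈ F ∧ ∃ l, Pl l (ctr s q) (ctr s q') ∧ ∀ z ∈ On l,
      Metric.ball z μ ⊆ Pg s F ∧
      ∀ j, (∀ w ∈ rs s μ v j, s / 4 ≤ ‖z - w‖) ∧ s / 4 ≤ ‖z - md s v j‖ := by
    intro q' h
    induction h with
    | refl => exact ⟨hq, [ctr s q], pl_one _, by rw [on_one]; simp⟩
    | @tail u w _ h2 ih =>
      obtain ⟨hu, l, hl, hz⟩ := ih
      refine ⟨h2.2, cat l [ctr s u, ctr s w], hl.cat (pl_two _ _), ?_⟩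
      rw [on_cat hl (pl_two _ _), on_two]
      rintro z (h | h)
      · exact hz z h
      · exact ⟨B.cen u hu w h2.2 h2.1 z h, B.d3 u hu w h2.2 h2.1 z h⟩
  exact (key q' h).2

theorem asum_far (C : Cyc F N v) (B : Bs s μ F N v) (hμ : 0 < μ) (i : ℕ) {y u : ℂ}
    (h : ∀ z ∈ Pg s F, 0 < ((z - y) / u).re) : asum y (rg s μ v i N) = 0 := by
  have hp := rg_pl s μ v i N
  rw [M_per C] at hp
  refine asum_half_closed (u := u) (by rw [hp.hd, hp.lt]) fun a ha => h a ?_
  have key : ∀ n, ∀ a ∈ rg s μ v i n, ∃ j, a ∈ rs s μ v j := by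
    intro n
    induction n with
    | zero =>
      intro a ha
      rw [show rg s μ v i 0 = [M s μ v i] from rfl, List.mem_singleton] at ha
      exact ⟨i, ha ▸ M_rs i⟩
    | succ n ih =>
      intro a ha
      rw [show rg s μ v i (n + 1) = rg s μ v i n ++ [W s μ v (i + n), M s μ v (i + n + 1)] from rfl,
        List.mem_append] at ha
      rcases ha with ha | ha
      · exact ih a ha
      · simp only [List.mem_cons, List.not_mem_nil, or_false] at ha
        rcases ha with rfl | rfl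
        · exact ⟨i + n, Or.inl (right_mem_segment ℝ _ _)⟩
        · exact ⟨i + n + 1, M_rs _⟩
  obtain ⟨j, hj⟩ := key N a ha
  exact B.ring j a hj (Metric.mem_ball_self hμ)

theorem mod_ne {a b : ℕ} (h1 : a < b) (h2 : b < a + N) : a % N ≠ b % N := by
  intro h
  have h3 : (b - a) % N = 0 := by
    have : a ≡ b [MOD N] := h
    have h4 := (Nat.modEq_iff_dvd' h1.le).1 this
    exact Nat.mod_eq_zero_of_dvd h4
  have h5 := Nat.eq_zero_of_dvd_of_lt (Nat.dvd_of_mod_eq_zero h3) (by omega : b - a < N)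
  omega

theorem mod_ne' {a b : ℕ} (h1 : a < b) (h2 : b < a + N) : b % N ≠ a % N := (mod_ne h1 h2).symm

/-- radial walk from the site `y` of the spoke to the centre of the inner cell -/
theorem rad_path {k : ℕ} {y : ℂ} (C : Cyc F N v) (B : Bs s μ F N v) (hμ : 0 < μ) (hr : μ ≤ r)
    (h : Spk S s μ r F v k y c l) : ∃ P, Pl P y (ctr s (ic v k)) ∧
      ∀ z ∈ On P, (z ∈ On l ∧ z ∈ nb s r v k) ∨
        (Metric.ball z (μ / 2) ⊆ Pg s F ∧ (z ∈ nb s r v k ∨ z ∈ rd s v k)) := by
  refine ⟨cat (cat l [c, M s μ v k]) [M s μ v k, ctr s (ic v k)],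
    (h.pl.cat (pl_two _ _)).cat (pl_two _ _), ?_⟩
  rw [on_cat (h.pl.cat (pl_two _ _)) (pl_two _ _), on_cat h.pl (pl_two _ _), on_two, on_two]
  rintro z ((h1 | h1) | h1)
  · exact Or.inl ⟨h1, h.nbl h1⟩
  · exact Or.inr ⟨h.deep B hμ h1, Or.inl (h.nbc C hμ hr h1)⟩
  · refine Or.inr ⟨half_ball hμ (B.rad k z h1), Or.inr ?_⟩
    exact (convex_segment _ _).segment_subset (B.mrd k) (right_mem_segment ℝ _ _) h1

/-- the part of the closed polyline outside the ring -/
def tl (s μ : ℝ) (v : ℕ → V) (k1 k3 : ℕ) (c1 c3 : ℂ) (l1 l3 q : List ℂ) : List ℂ :=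
  cat (cat (cat (cat [M s μ v k3, c3] l3.reverse) q) l1) [c1, M s μ v k1]


theorem tl_on {k1 k3 : ℕ} {y1 y3 c1 c3 : ℂ} {l1 l3 q : List ℂ} (s1 : Spk S s μ r F v k1 y1 c1 l1)
    (s3 : Spk S s μ r F v k3 y3 c3 l3) (hq : Pl q y3 y1) :
    On (tl s μ v k1 k3 c1 c3 l1 l3 q) = (((segment ℝ c3 (M s μ v k3) ∪ On l3) ∪ On q) ∪ On l1) ∪
      segment ℝ c1 (M s μ v k1) := by
  unfold tl
  rw [on_cat ((((pl_two _ _).cat s3.pl.rev).cat hq).cat s1.pl) (pl_two _ _),
    on_cat (((pl_two _ _).cat s3.pl.rev).cat hq) s1.pl, on_cat ((pl_two _ _).cat s3.pl.rev) hq,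
    on_cat (pl_two _ _) s3.pl.rev, on_two, on_two, on_rev, segment_symm]

/-- a set of points is disjoint from the closed polyline -/
theorem avoid (C : Cyc F N v) (hμ : 0 < μ) (hr : μ ≤ r) {k1 k3 : ℕ} {y1 y3 c1 c3 : ℂ}
    {l1 l3 q R : List ℂ} (s1 : Spk S s μ r F v k1 y1 c1 l1)
    (s3 : Spk S s μ r F v k3 y3 c3 l3) (hq : Pl q y3 y1) {z : ℂ} (hR : z ∉ On R) (h1 : z ∉ nb s r v k1)
    (h3 : z ∉ nb s r v k3) (h : z ∉ On q) : z ∉ On R ∪ On (tl s μ v k1 k3 c1 c3 l1 l3 q) := by
  rw [tl_on s1 s3 hq]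
  rintro (h' | (((h' | h') | h') | h') | h')
  · exact hR h'
  · exact h3 (s3.nbc C hμ hr h')
  · exact h3 (s3.nbl h')
  · exact h h'
  · exact h1 (s1.nbl h')
  · exact h1 (s1.nbc C hμ hr h')

theorem nb_sep (B : Bs s μ F N v) (hr : 8 * r < s) {k j : ℕ} (hkj : j % N ≠ k % N) {z : ℂ}
    (hz : z ∈ nb s r v k ∨ z ∈ rd s v k) (hr0 : 0 < r) : z ∉ nb s r v j := by
  intro h
  rw [mem_closedBall_iff_norm] at h
  rcases hz with hz | hz
  · rw [mem_closedBall_iff_norm] at hz
    have h1 := B.d2 k j hkj (md s v k) (left_mem_segment ℝ _ _)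
    have h2 : ‖md s v k - md s v j‖ ≤ ‖z - md s v j‖ + ‖z - md s v k‖ := by
      have : md s v k - md s v j = (z - md s v j) - (z - md s v k) := by ring
      rw [this]; exact norm_sub_le _ _
    linarith
  · have h1 := B.d2 k j hkj z hz
    linarith

theorem rs_sep (B : Bs s μ F N v) (hr : 8 * r < s) {k j : ℕ} (hkj : j % N ≠ k % N)
    (hkj' : (j + 1) % N ≠ k % N) {z : ℂ} (hz : z ∈ nb s r v k ∨ z ∈ rd s v k) (hr0 : 0 < r) :
    z ∉ rs s μ v j := by
  intro h
  rcases hz with hz | hz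
  · rw [mem_closedBall_iff_norm] at hz
    have h1 := B.d1 k j hkj hkj' (md s v k) (left_mem_segment ℝ _ _) z h
    have h2 : ‖md s v k - z‖ = ‖z - md s v k‖ := norm_sub_rev _ _
    linarith
  · have h1 := B.d1 k j hkj hkj' z hz z h
    rw [sub_self, norm_zero] at h1
    linarith


end setting

end Crest.Agent.R143.Labx755
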