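import Crest.Agent.R143.Near_440
import Crest.Agent.R143.Room_991

/-!
# Row 143 (S0194): chains of sites along connected sets outside a region (helper991)

`deep S P ρ` = sites `s` with `closedBall s ρ ⊆ P` (`ρ = 2 d`, `d` the hole radius).
* `Clm S C` : sites whose cell meets `C`; `pth_conn` : joined through `Clm S C` if `C` is connected
* `off_conn` : `C ∩ P = ∅`, holes of radius `d ≤ ρ` on `C` ⟹ no site of `Clm S C` is deep
* `off_seg` : `p ∉ P`, `‖x - p‖ ≤ ρ` ⟹ no site of `Clm S [x, p]` is deep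
* `pth_out` : `x` not deep is joined off the deep sites to every site `a` of a connected set outside
* `loc_out` : the same as `Loc`
* `loc_brick` : (S5), `P` = union of closed convex cells of a tiling
-/

set_option autoImplicit false

noncomputable section

open scoped Classical

namespace Crest.Agent.R143.Segx991

open Set
open Crest.ProbabilityR.Voronoi
open Crest.Agent.R143.B0x346 Crest.Agent.R143.DelGx806 Crest.Agent.R143.B0Dx346
  Crest.Agent.R143.RE0x723 Crest.Agent.R143.G6Wx723 Crest.Agent.R143.Nearx440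
open Crest.Agent.R143.Roomx991 (Loc)

variable {S X : Finset ℂ} {P C : Set ℂ} {x y p a z : ℂ} {ρ d r : ℝ}

/-- sites whose cell meets `C` -/
def Clm (S : Finset ℂ) (C : Set ℂ) : Set ℂ :=
  {z | z ∈ S ∧ (C ∩ voronoiCell (S : Set ℂ) z).Nonempty}

theorem self_cell (z : ℂ) : z ∈ voronoiCell (S : Set ℂ) z := fun s _ => by
  rw [sub_self, norm_zero]; exact norm_nonneg _

theorem mem_clm (hz : z ∈ S) (hC : z ∈ C) : z ∈ Clm S C := ⟨hz, z, hC, self_cell z⟩

theorem Clm.mono {C' : Set ℂ} (h : C ⊆ C') : Clm S C ⊆ Clm S C' :=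
  fun _ hz => ⟨hz.1, hz.2.mono (inter_subset_inter_left _ h)⟩

/-- **the sites whose cells meet a connected set are joined through such sites** -/
theorem pth_conn (hS : GP (S : Set ℂ)) (h3 : 3 ≤ S.card) (hC : IsPreconnected C)
    (hx : x ∈ Clm S C) (hy : y ∈ Clm S C) : Pth S (Clm S C) x y := by
  refine ⟨hx, ?_⟩
  refine Relation.ReflTransGen.mono ?_ _ _ (chain_of_conn_fin hS h3 hC hx.1 hy.1 hx.2 hy.2)
  rintro u w ⟨h1, q, hq1, hq2⟩
  refine ⟨h1, h1.mem.2, q, hq2, ?_⟩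
  intro s hs
  have := hq1.2 s hs
  rw [← hq1.1]
  exact this

/-- `C` has holes of radius at most `d` -/
def Hl (S : Finset ℂ) (C : Set ℂ) (d : ℝ) : Prop := ∀ z ∈ C, ∃ s ∈ S, ‖z - s‖ ≤ d

theorem Hl.mono {C' : Set ℂ} (h : Hl S C d) (hC : C' ⊆ C) : Hl S C' d := fun z hz => h z (hC hz)

/-- the sites of `Clm S C` are near `C` -/
theorem near (h : Hl S C d) (hz : z ∈ Clm S C) : ∃ q ∈ C, ‖q - z‖ ≤ d := by
  obtain ⟨h1, q, hq, hc⟩ := hz
  obtain ⟨s, hs, h2⟩ := h q hq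
  exact ⟨q, hq, (hc s (Finset.mem_coe.2 hs)).trans h2⟩

/-- **deep sites** -/
def deep (S : Finset ℂ) (P : Set ℂ) (ρ : ℝ) : Finset ℂ :=
  S.filter fun s => Metric.closedBall s ρ ⊆ P


theorem mem_deep : x ∈ deep S P ρ ↔ x ∈ S ∧ Metric.closedBall x ρ ⊆ P := Finset.mem_filter

theorem deep_mem (h0 : 0 ≤ ρ) (h : x ∈ deep S P ρ) : x ∈ P :=
  (mem_deep.1 h).2 (Metric.mem_closedBall_self h0)

theorem exists_out (hx : x ∈ S) (h : x ∉ deep S P ρ) : ∃ p, p ∉ P ∧ ‖x - p‖ ≤ ρ := by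
  have h1 : ¬ Metric.closedBall x ρ ⊆ P := fun h' => h (mem_deep.2 ⟨hx, h'⟩)
  obtain ⟨p, hp, hpP⟩ := not_subset.1 h1
  refine ⟨p, hpP, ?_⟩
  rw [norm_sub_rev, ← dist_eq_norm]
  exact hp

theorem not_deep (hp : p ∉ P) (h : ‖x - p‖ ≤ ρ) : x ∉ deep S P ρ := fun h' => by
  refine hp ((mem_deep.1 h').2 ?_)
  rw [Metric.mem_closedBall, dist_eq_norm, norm_sub_rev]
  exact h


/-- the cells met by a segment from a site -/
theorem seg_ball (hx : x ∈ S) (hz : z ∈ Clm S (segment ℝ x p)) : ‖z - p‖ ≤ ‖x - p‖ := by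
  obtain ⟨h1, q, hq, hc⟩ := hz
  have h2 : ‖q - z‖ ≤ ‖q - x‖ := hc x (Finset.mem_coe.2 hx)
  have h3 := seg_add hq
  have h4 : ‖z - p‖ ≤ ‖z - q‖ + ‖q - p‖ := by
    have := norm_add_le (z - q) (q - p)
    rwa [sub_add_sub_cancel] at this
  rw [norm_sub_rev z q] at h4
  rw [norm_sub_rev q x] at h2
  linarith

/-- **the first leg** -/
theorem off_seg (hx : x ∈ S) (hp : p ∉ P) (h : ‖x - p‖ ≤ ρ) (hz : z ∈ Clm S (segment ℝ x p)) :
    z ∉ deep S P ρ :=
  not_deep hp ((seg_ball hx hz).trans h)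




/-! ### tilings -/

section brick

variable {ι : Type} {B : ι → Set ℂ} {F : Set ι} {b : ι} {c t e q : ℂ} {m s : ℝ}



end brick

end Crest.Agent.R143.Segx991
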