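import Crest.Agent.R143.LabB2_951
import Crest.Agent.R143.Brk_478
import Crest.Agent.R143.Lab_755
import Crest.Agent.R143.Seg_991
import Crest.Agent.R143.Ten_416
import Crest.Agent.R158.Tj1_656
import Crest.Agent.R143.LabD_755
import Crest.Agent.R143.Spk_951
import Crest.Agent.R143.NetV_346
import Crest.Agent.R143.K7D_359
import Crest.Agent.R143.ArcP_571
import Crest.Agent.R143.Comp_66
import Crest.Agent.R143.Grd_359
import Crest.Agent.R143.LabB3_951

-- ▼ part R143/Inw_165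
section

/-!
# Row 143 (S0194), CONT (K7), MARK: the shape of a brick polygon at a vertex of its boundary
(helper165)

Frame of the incoming edge `k` at the vertex `v (k + 1)`: `w = pt s (v (k + 1)) + ζ * ev v k`.
* `quad_of` : the four cells at a vertex
* `shape` : straight: `0 ≤ im`; left turn: `re ≤ 0 ≤ im`; right turn: `0 ≤ im` or `0 ≤ re`
-/

set_option autoImplicit false

noncomputable section

namespace Crest.Agent.R143.Inwx165

open Set Complex
open Crest.Agent.R158 Crest.Agent.R158.Sp896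
open Crest.Agent.R143.Tenx416 (Pg)
open Crest.Agent.R143.LabDx755
open Crest.Agent.R143.LabBx951
open Crest.Agent.R143.TentMx951 (mem_sq)
open Crest.Agent.R143.Brkx478 (Bk cells no_pinch)

theorem cell1 {s t : ℝ} (hs : 0 < s) {m n : ℤ} (h : |t| < s) (h1 : s * n ≤ s * m + t)
    (h2 : s * m + t ≤ s * (n + 1)) : (n = m ∧ 0 ≤ t) ∨ (n = m - 1 ∧ t ≤ 0) := by
  obtain ⟨h3, h4⟩ := abs_lt.1 h
  have a1 : (n : ℝ) < m + 1 := by
    have : s * (n : ℝ) < s * (m + 1) := by linarith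
    exact lt_of_mul_lt_mul_left this hs.le
  have a2 : (m : ℝ) - 2 < n := by
    have : s * ((m : ℝ) - 2) < s * n := by linarith
    exact lt_of_mul_lt_mul_left this hs.le
  have b1 : n < m + 1 := by exact_mod_cast a1
  have b2 : m - 2 < n := by exact_mod_cast a2
  have : n = m ∨ n = m - 1 := by omega
  rcases this with rfl | rfl
  · exact Or.inl ⟨rfl, by linarith⟩
  · refine Or.inr ⟨rfl, ?_⟩
    push_cast at h2
    linarith

/-- **the cells at a vertex** in the frame of an edge -/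
theorem quad_of {s : ℝ} (hs : 0 < s) {a p : V} (h : Adj a p) {w ζ : ℂ}
    (hw : w = pt s p + ζ * cv a p) (h1 : |ζ.re| < s) (h2 : |ζ.im| < s) {q : V}
    (hq : w ∈ sq s q) :
    (q = lc a p ∧ ζ.re ≤ 0 ∧ 0 ≤ ζ.im) ∨ (q = rc a p ∧ ζ.re ≤ 0 ∧ ζ.im ≤ 0) ∨
    (q = lc p (fw a p) ∧ 0 ≤ ζ.re ∧ 0 ≤ ζ.im) ∨ (q = rc p (fw a p) ∧ 0 ≤ ζ.re ∧ ζ.im ≤ 0) := by
  obtain ⟨e1, e2⟩ := lin_mul hw
  rw [mem_sq, e1, e2] at hq
  obtain ⟨g1, g2, g3, g4⟩ := hq
  obtain ⟨a1, a2⟩ := a
  obtain ⟨p1, p2⟩ := p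
  obtain ⟨q1, q2⟩ := q
  have h1' : |-ζ.re| < s := by rwa [abs_neg]
  have h2' : |-ζ.im| < s := by rwa [abs_neg]
  simp only at g1 g2 g3 g4
  rcases h with ⟨k1, k2⟩ | ⟨k1, k2⟩ | ⟨k1, k2⟩ | ⟨k1, k2⟩ <;> simp only at k1 k2 <;> subst k1 k2
  · -- `(1, 0)`
    push_cast at g1 g2 g3 g4
    have c1 := cell1 (m := a1 + 1) hs h1 (n := q1) (by push_cast; linarith) (by push_cast; linarith)
    have c2 := cell1 (m := p2) hs h2 (n := q2) (by linarith) (by linarith)
    rcases c1 with ⟨d1, d2⟩ | ⟨d1, d2⟩ <;> rcases c2 with ⟨d3, d4⟩ | ⟨d3, d4⟩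
    · right; right; left
      refine ⟨?_, d2, d4⟩
      unfold lc fw; ext <;> simp only <;> omega
    · right; right; right
      refine ⟨?_, d2, d4⟩
      unfold rc fw; ext <;> simp only <;> omega
    · left
      refine ⟨?_, d2, d4⟩
      unfold lc; ext <;> simp only <;> omega
    · right; left
      refine ⟨?_, d2, d4⟩
      unfold rc; ext <;> simp only <;> omega
  · -- `(-1, 0)`
    push_cast at g1 g2 g3 g4
    have c1 := cell1 (m := a1 - 1) hs h1' (n := q1) (by push_cast; linarith)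
      (by push_cast; linarith)
    have c2 := cell1 (m := p2) hs h2' (n := q2) (by linarith) (by linarith)
    rcases c1 with ⟨d1, d2⟩ | ⟨d1, d2⟩ <;> rcases c2 with ⟨d3, d4⟩ | ⟨d3, d4⟩
    · right; left
      refine ⟨?_, by linarith, by linarith⟩
      unfold rc; ext <;> simp only <;> omega
    · left
      refine ⟨?_, by linarith, by linarith⟩
      unfold lc; ext <;> simp only <;> omega
    · right; right; right
      refine ⟨?_, by linarith, by linarith⟩
      unfold rc fw; ext <;> simp only <;> omega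
    · right; right; left
      refine ⟨?_, by linarith, by linarith⟩
      unfold lc fw; ext <;> simp only <;> omega
  · -- `(0, 1)`
    push_cast at g1 g2 g3 g4
    have c1 := cell1 (m := p1) hs h2' (n := q1) (by linarith) (by linarith)
    have c2 := cell1 (m := a2 + 1) hs h1 (n := q2) (by push_cast; linarith)
      (by push_cast; linarith)
    rcases c1 with ⟨d1, d2⟩ | ⟨d1, d2⟩ <;> rcases c2 with ⟨d3, d4⟩ | ⟨d3, d4⟩
    · right; right; right
      refine ⟨?_, by linarith, by linarith⟩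
      unfold rc fw; ext <;> simp only <;> omega
    · right; left
      refine ⟨?_, by linarith, by linarith⟩
      unfold rc; ext <;> simp only <;> omega
    · right; right; left
      refine ⟨?_, by linarith, by linarith⟩
      unfold lc fw; ext <;> simp only <;> omega
    · left
      refine ⟨?_, by linarith, by linarith⟩
      unfold lc; ext <;> simp only <;> omega
  · -- `(0, -1)`
    push_cast at g1 g2 g3 g4
    have c1 := cell1 (m := p1) hs h2 (n := q1) (by linarith) (by linarith)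
    have c2 := cell1 (m := a2 - 1) hs h1' (n := q2) (by push_cast; linarith)
      (by push_cast; linarith)
    rcases c1 with ⟨d1, d2⟩ | ⟨d1, d2⟩ <;> rcases c2 with ⟨d3, d4⟩ | ⟨d3, d4⟩
    · left
      refine ⟨?_, by linarith, by linarith⟩
      unfold lc; ext <;> simp only <;> omega
    · right; right; left
      refine ⟨?_, by linarith, by linarith⟩
      unfold lc fw; ext <;> simp only <;> omega
    · right; left
      refine ⟨?_, by linarith, by linarith⟩
      unfold rc; ext <;> simp only <;> omega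
    · right; right; right
      refine ⟨?_, by linarith, by linarith⟩
      unfold rc fw; ext <;> simp only <;> omega

/-- a left turn goes to the left neighbour -/
theorem lt_of_cv {a p b : V} (h : cv p b = I * cv a p) : b = lt a p := by
  have e1 := congrArg Complex.re h
  have e2 := congrArg Complex.im h
  unfold cv at e1 e2
  simp at e1 e2
  have f1 : b.1 - p.1 = -(p.2 - a.2) := by exact_mod_cast (by linarith : ((b.1 : ℝ) - p.1) = -(p.2 - a.2))
  have f2 : b.2 - p.2 = p.1 - a.1 := by exact_mod_cast (by linarith : ((b.2 : ℝ) - p.2) = p.1 - a.1)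
  unfold lt
  ext <;> simp only <;> omega

/-- no checkerboard pattern in the frame of an edge -/
theorem no_pinch' {U : Set Bk} {a p : V} (h : Adj a p) (h1 : lc a p ∈ cells U)
    (h2 : rc a p ∉ cells U) (h3 : lc p (fw a p) ∉ cells U) : rc p (fw a p) ∉ cells U := by
  obtain ⟨a1, a2⟩ := a
  obtain ⟨p1, p2⟩ := p
  intro h4
  have key := no_pinch U p1 p2
  rcases h with ⟨k1, k2⟩ | ⟨k1, k2⟩ | ⟨k1, k2⟩ | ⟨k1, k2⟩ <;> simp only at k1 k2 <;> subst k1 k2
  · refine key.2 ⟨?_, ?_, ?_, ?_⟩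
    · intro h'; apply h2; convert h' using 1; unfold rc; ext <;> simp only <;> omega
    · intro h'; apply h3; convert h' using 1; unfold lc fw; ext <;> simp only <;> omega
    · convert h4 using 1; unfold rc fw; ext <;> simp only <;> omega
    · convert h1 using 1; unfold lc; ext <;> simp only <;> omega
  · refine key.2 ⟨?_, ?_, ?_, ?_⟩
    · intro h'; apply h3; convert h' using 1; unfold lc fw; ext <;> simp only <;> omega
    · intro h'; apply h2; convert h' using 1; unfold rc; ext <;> simp only <;> omega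
    · convert h1 using 1; unfold lc; ext <;> simp only <;> omega
    · convert h4 using 1; unfold rc fw; ext <;> simp only <;> omega
  · refine key.1 ⟨?_, ?_, ?_, ?_⟩
    · convert h1 using 1; unfold lc; ext <;> simp only <;> omega
    · convert h4 using 1; unfold rc fw; ext <;> simp only <;> omega
    · intro h'; apply h2; convert h' using 1; unfold rc; ext <;> simp only <;> omega
    · intro h'; apply h3; convert h' using 1; unfold lc fw; ext <;> simp only <;> omega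
  · refine key.1 ⟨?_, ?_, ?_, ?_⟩
    · convert h4 using 1; unfold rc fw; ext <;> simp only <;> omega
    · convert h1 using 1; unfold lc; ext <;> simp only <;> omega
    · intro h'; apply h3; convert h' using 1; unfold lc fw; ext <;> simp only <;> omega
    · intro h'; apply h2; convert h' using 1; unfold rc; ext <;> simp only <;> omega

/-- `P` has the shape `Q` in the box of size `s` around `p`, frame `c` -/
def Shape (s : ℝ) (P : Set ℂ) (p c : ℂ) (Q : ℂ → Prop) : Prop :=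
  ∀ ζ : ℂ, |ζ.re| < s → |ζ.im| < s → (p + ζ * c ∈ P ↔ Q ζ)

/-- **the shape at a vertex** -/
theorem shape {s : ℝ} (hs : 0 < s) {U : Set Bk} {N : ℕ} {v : ℕ → V} (hc : Cyc (cells U) N v)
    (k : ℕ) :
    (ev v (k + 1) = ev v k ∧
      Shape s (Pg s (cells U)) (pt s (v (k + 1))) (ev v k) fun ζ => 0 ≤ ζ.im) ∨
    (ev v (k + 1) = I * ev v k ∧
      Shape s (Pg s (cells U)) (pt s (v (k + 1))) (ev v k) fun ζ => ζ.re ≤ 0 ∧ 0 ≤ ζ.im) ∨
    (ev v (k + 1) = -I * ev v k ∧
      Shape s (Pg s (cells U)) (pt s (v (k + 1))) (ev v k) fun ζ => 0 ≤ ζ.im ∨ 0 ≤ ζ.re) := by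
  have hA := hc.step k
  have hB := hc.step (k + 1)
  have L := hc.left k
  have R := hc.right k
  have L' := hc.left (k + 1)
  have R' := hc.right (k + 1)
  have m1 : ∀ ζ : ℂ, ∀ q ∈ cells U, pt s (v (k + 1)) + ζ * ev v k ∈ sq s q →
      pt s (v (k + 1)) + ζ * ev v k ∈ Pg s (cells U) := fun ζ q hq h => mem_Pg hq h
  rcases turn hA hB L R' with ⟨h1, h2⟩ | ⟨h1, h2⟩ | ⟨h1, h2, h3⟩
  · refine Or.inl ⟨h1, fun ζ z1 z2 => ⟨fun h => ?_, fun h => ?_⟩⟩
    · obtain ⟨q, hq, hz⟩ := mem_iUnion₂.1 h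
      rcases quad_of hs hA rfl z1 z2 hz with ⟨e, -, h'⟩ | ⟨e, -, -⟩ | ⟨e, -, h'⟩ | ⟨e, -, -⟩
      · exact h'
      · exact absurd (e ▸ hq) R
      · exact h'
      · rw [← h2] at e
        exact absurd (e ▸ hq) R'
    · obtain ⟨a1, a2⟩ := abs_lt.1 z1
      obtain ⟨a3, a4⟩ := abs_lt.1 z2
      rcases le_total ζ.re 0 with h' | h'
      · exact m1 ζ _ L (quadLB hA rfl a1.le h' h a4.le)
      · refine m1 ζ _ ?_ (quadLF hA rfl h' a2.le h a4.le)
        rw [← h2]; exact L'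
  · have hb : v (k + 1 + 1) = lt (v k) (v (k + 1)) := lt_of_cv h1
    obtain ⟨-, -, e3⟩ := adj_lt hA
    rw [hb, e3] at R'
    have R2 := no_pinch' hA L R R'
    refine Or.inr (Or.inl ⟨h1, fun ζ z1 z2 => ⟨fun h => ?_, fun h => ?_⟩⟩)
    · obtain ⟨q, hq, hz⟩ := mem_iUnion₂.1 h
      rcases quad_of hs hA rfl z1 z2 hz with ⟨e, h4, h'⟩ | ⟨e, -, -⟩ | ⟨e, -, h'⟩ | ⟨e, -, -⟩
      · exact ⟨h4, h'⟩
      · exact absurd (e ▸ hq) R
      · exact absurd (e ▸ hq) R'
      · exact absurd (e ▸ hq) R2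
    · obtain ⟨a1, a2⟩ := abs_lt.1 z1
      obtain ⟨a3, a4⟩ := abs_lt.1 z2
      exact m1 ζ _ L (quadLB hA rfl a1.le h.1 h.2 a4.le)
  · have D := diag hc k h3
    rw [h2] at L'
    refine Or.inr (Or.inr ⟨h1, fun ζ z1 z2 => ⟨fun h => ?_, fun h => ?_⟩⟩)
    · obtain ⟨q, hq, hz⟩ := mem_iUnion₂.1 h
      rcases quad_of hs hA rfl z1 z2 hz with ⟨e, h4, h'⟩ | ⟨e, -, -⟩ | ⟨e, -, h'⟩ | ⟨e, h', -⟩
      · exact Or.inl h'
      · exact absurd (e ▸ hq) R
      · exact Or.inl h'
      · exact Or.inr h'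
    · obtain ⟨a1, a2⟩ := abs_lt.1 z1
      obtain ⟨a3, a4⟩ := abs_lt.1 z2
      rcases h with h | h
      · rcases le_total ζ.re 0 with h' | h'
        · exact m1 ζ _ L (quadLB hA rfl a1.le h' h a4.le)
        · exact m1 ζ _ D (quadLF hA rfl h' a2.le h a4.le)
      · rcases le_total 0 ζ.im with h' | h'
        · exact m1 ζ _ D (quadLF hA rfl h a2.le h' a4.le)
        · exact m1 ζ _ L' (quadRF hA rfl h a2.le a3.le h')

/-! ### balls in the frame -/

section frame

variable {s r : ℝ} {P : Set ℂ} {p c ζ : ℂ} {Q : ℂ → Prop}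

theorem ball_in (hS : Shape s P p c Q) (hc : ‖c‖ = 1) (hr : ‖ζ‖ + r < s)
    (h : ∀ ζ', ‖ζ' - ζ‖ ≤ r → Q ζ') : Metric.closedBall (p + ζ * c) r ⊆ P := by
  intro w hw
  have c0 : c ≠ 0 := by rw [← norm_pos_iff, hc]; norm_num
  have e : w = p + ((w - p) / c) * c := by field_simp; ring
  have h1 : ‖(w - p) / c - ζ‖ ≤ r := by
    have : (w - p) / c - ζ = (w - (p + ζ * c)) / c := by field_simp; ring
    rw [this, norm_div, hc, div_one]
    exact mem_closedBall_iff_norm.1 hw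
  have h2 : ‖(w - p) / c‖ < s := by
    have := norm_add_le ((w - p) / c - ζ) ζ
    rw [sub_add_cancel] at this
    linarith
  rw [e]
  exact (hS _ ((Complex.abs_re_le_norm _).trans_lt h2) ((Complex.abs_im_le_norm _).trans_lt h2)).2
    (h _ h1)

theorem ball_out (hS : Shape s P p c Q) (hc : ‖c‖ = 1) (hr : ‖ζ‖ + r < s)
    (h : Metric.closedBall (p + ζ * c) r ⊆ P) : ∀ ζ', ‖ζ' - ζ‖ ≤ r → Q ζ' := by
  intro ζ' h1
  have h2 : ‖ζ'‖ < s := by
    have := norm_add_le (ζ' - ζ) ζ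
    rw [sub_add_cancel] at this
    linarith
  refine (hS _ ((Complex.abs_re_le_norm _).trans_lt h2) ((Complex.abs_im_le_norm _).trans_lt h2)).1
    (h ?_)
  rw [mem_closedBall_iff_norm]
  have : p + ζ' * c - (p + ζ * c) = (ζ' - ζ) * c := by ring
  rw [this, norm_mul, hc, mul_one]
  exact h1

theorem im_ge {ζ' : ℂ} (h : ‖ζ' - ζ‖ ≤ r) : ζ.im - r ≤ ζ'.im := by
  have := (abs_le.1 ((Complex.abs_im_le_norm _).trans h)).1
  rw [Complex.sub_im] at this
  linarith

theorem re_ge {ζ' : ℂ} (h : ‖ζ' - ζ‖ ≤ r) : ζ.re - r ≤ ζ'.re := by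
  have := (abs_le.1 ((Complex.abs_re_le_norm _).trans h)).1
  rw [Complex.sub_re] at this
  linarith

theorem re_le {ζ' : ℂ} (h : ‖ζ' - ζ‖ ≤ r) : ζ'.re ≤ ζ.re + r := by
  have := (abs_le.1 ((Complex.abs_re_le_norm _).trans h)).2
  rw [Complex.sub_re] at this
  linarith

/-- a point outside the missing quadrant of a right turn -/
theorem quadrant {d : ℝ} (hd : 0 < d) (h : ∀ ζ', ‖ζ' - ζ‖ ≤ 2 * d → 0 ≤ ζ'.im ∨ 0 ≤ ζ'.re)
    (h1 : ζ.im < 2 * d) (h2 : ζ.re < 2 * d) : 0 < ζ.re ∧ 0 < ζ.im ∧ 2 * d ≤ ‖ζ‖ := by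
  have key : ∀ x y : ℝ, 0 ≤ x → 0 ≤ y → x + y ≤ 2 * d → ζ.re - x < 0 → ζ.im - y < 0 → False := by
    intro x y hx hy hxy h3 h4
    have := h (ζ - ⟨x, y⟩) (by
      rw [sub_sub_cancel_left, norm_neg]
      refine (Complex.norm_le_abs_re_add_abs_im _).trans ?_
      show |x| + |y| ≤ 2 * d
      rw [abs_of_nonneg hx, abs_of_nonneg hy]
      exact hxy)
    simp only [Complex.sub_im, Complex.sub_re] at this
    rcases this with h5 | h5 <;> linarith
  refine ⟨?_, ?_, ?_⟩
  · by_contra hcon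
    push Not at hcon
    rcases le_total 0 ζ.im with h3 | h3
    · exact key (2 * d - (ζ.im + 2 * d) / 2) ((ζ.im + 2 * d) / 2) (by linarith) (by linarith)
        (by linarith) (by linarith) (by linarith)
    · exact key d d hd.le hd.le (by linarith) (by linarith) (by linarith)
  · by_contra hcon
    push Not at hcon
    rcases le_total 0 ζ.re with h3 | h3
    · exact key ((ζ.re + 2 * d) / 2) (2 * d - (ζ.re + 2 * d) / 2) (by linarith) (by linarith)
        (by linarith) (by linarith) (by linarith)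
    · exact key d d hd.le hd.le (by linarith) (by linarith) (by linarith)
  · by_contra hcon
    push Not at hcon
    set δ := (2 * d - ‖ζ‖) / 2 with hδ
    have := h ⟨-δ, -δ⟩ (by
      have h3 : ‖(⟨-δ, -δ⟩ : ℂ)‖ ≤ 2 * δ := by
        refine (Complex.norm_le_abs_re_add_abs_im _).trans ?_
        show |-δ| + |-δ| ≤ 2 * δ
        rw [abs_neg, abs_of_pos (by linarith)]
        linarith
      have := norm_sub_le (⟨-δ, -δ⟩ : ℂ) ζ
      linarith)
    simp only at this
    rcases this with h5 | h5 <;> linarith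

/-- a ball in the positive quadrant far from the origin misses the negative quadrant -/
theorem far_quadrant {R : ℝ} (h1 : 0 < ζ.re) (h2 : 0 < ζ.im) (h3 : R ≤ ‖ζ‖) :
    ∀ ζ', ‖ζ' - ζ‖ ≤ R → 0 ≤ ζ'.im ∨ 0 ≤ ζ'.re := by
  intro ζ' h
  by_contra hcon
  push Not at hcon
  obtain ⟨h4, h5⟩ := hcon
  have e1 : ‖ζ' - ζ‖ ^ 2 = (ζ'.re - ζ.re) ^ 2 + (ζ'.im - ζ.im) ^ 2 := by
    rw [← Complex.normSq_eq_norm_sq, Complex.normSq_apply]
    simp only [Complex.sub_re, Complex.sub_im]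
    ring
  have e2 : ‖ζ‖ ^ 2 = ζ.re ^ 2 + ζ.im ^ 2 := by
    rw [← Complex.normSq_eq_norm_sq, Complex.normSq_apply]
    ring
  have e3 : ‖ζ‖ ^ 2 < ‖ζ' - ζ‖ ^ 2 := by
    rw [e1, e2]
    nlinarith
  have e4 := lt_of_pow_lt_pow_left₀ 2 (norm_nonneg _) e3
  linarith

end frame

/-! ### the way inwards -/

/-- way from `w` inwards to the point `G` -/
def Way (P : Set ℂ) (d : ℝ) (w G : ℂ) : Prop :=
  ∃ (e : ℂ) (T : ℝ), ‖e‖ = 1 ∧ d ≤ T ∧ T ≤ 3 * d ∧
    (∀ t, d ≤ t → t ≤ T → Metric.closedBall (w + t * e) (3 * d) ⊆ P) ∧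
    ∀ z ∈ segment ℝ (w + T * e) G, Metric.closedBall z (3 * d) ⊆ P

section way

variable {s d : ℝ} {P : Set ℂ} {p c ζ g : ℂ} {Q : ℂ → Prop}

/-- transport of a way from the frame -/
theorem way_of (hS : Shape s P p c Q) (hc : ‖c‖ = 1) (hd : 0 < d) {T : ℝ} {e : ℂ} (he : ‖e‖ = 1)
    (hT : d ≤ T) (hT3 : T ≤ 3 * d) (hζ : ‖ζ‖ + 6 * d < s) (hg : ‖g‖ + 6 * d < s)
    (h1 : ∀ t, d ≤ t → t ≤ T → ∀ ζ', ‖ζ' - (ζ + t * e)‖ ≤ 3 * d → Q ζ')
    (h2 : ∀ z ∈ segment ℝ (ζ + T * e) g, ∀ ζ', ‖ζ' - z‖ ≤ 3 * d → Q ζ') :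
    Way P d (p + ζ * c) (p + g * c) := by
  have n1 : ∀ t, 0 ≤ t → t ≤ 3 * d → ‖ζ + t * e‖ + 3 * d < s := by
    intro t h0 h3
    have := norm_add_le ζ (t * e)
    rw [norm_mul, he, mul_one, Complex.norm_real, Real.norm_of_nonneg h0] at this
    linarith
  refine ⟨e * c, T, by rw [norm_mul, he, hc, one_mul], hT, hT3, ?_, ?_⟩
  · intro t ht0 ht1
    have e1 : p + ζ * c + t * (e * c) = p + (ζ + t * e) * c := by ring
    rw [e1]
    exact ball_in hS hc (n1 t (by linarith) (by linarith)) (h1 t ht0 ht1)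
  · intro z hz
    have e1 : p + ζ * c + T * (e * c) = p + (ζ + T * e) * c := by ring
    rw [e1, segment_eq_image'] at hz
    obtain ⟨θ, hθ, rfl⟩ := hz
    set y : ℂ := (ζ + T * e) + θ • (g - (ζ + T * e)) with hy
    have e2 : p + (ζ + T * e) * c + θ • (p + g * c - (p + (ζ + T * e) * c)) = p + y * c := by
      rw [hy]
      simp only [Complex.real_smul]
      ring
    have hyseg : y ∈ segment ℝ (ζ + T * e) g := by
      rw [segment_eq_image']
      exact ⟨θ, hθ, rfl⟩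
    have hyn : ‖y‖ + 3 * d < s := by
      have h3 := n1 T (by linarith) hT3
      have h4 : y ∈ Metric.closedBall (0 : ℂ) (s - 3 * d - min (s - 3 * d - ‖ζ + T * e‖)
          (s - 3 * d - ‖g‖)) := by
        refine (convex_closedBall (0 : ℂ) _).segment_subset ?_ ?_ hyseg
        · rw [mem_closedBall_zero_iff]
          have := min_le_left (s - 3 * d - ‖ζ + T * e‖) (s - 3 * d - ‖g‖)
          linarith
        · rw [mem_closedBall_zero_iff]
          have := min_le_right (s - 3 * d - ‖ζ + T * e‖) (s - 3 * d - ‖g‖)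
          linarith
      rw [mem_closedBall_zero_iff] at h4
      have : 0 < min (s - 3 * d - ‖ζ + T * e‖) (s - 3 * d - ‖g‖) :=
        lt_min (by linarith) (by linarith)
      linarith
    beta_reduce
    rw [e2]
    exact ball_in hS hc hyn (h2 y hyseg)

theorem seg_im {a b z : ℂ} {r : ℝ} (ha : r ≤ a.im) (hb : r ≤ b.im) (hz : z ∈ segment ℝ a b) :
    r ≤ z.im := by
  obtain ⟨t, t', ht, ht', htt, rfl⟩ := hz
  simp only [Complex.add_im, Complex.real_smul, Complex.mul_im, Complex.ofReal_re,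
    Complex.ofReal_im, zero_mul, add_zero]
  have e : t * r + t' * r = r := by rw [← add_mul, htt, one_mul]
  linarith [mul_le_mul_of_nonneg_left ha ht, mul_le_mul_of_nonneg_left hb ht']

theorem seg_re {a b z : ℂ} {r : ℝ} (ha : r ≤ a.re) (hb : r ≤ b.re) (hz : z ∈ segment ℝ a b) :
    r ≤ z.re := by
  obtain ⟨t, t', ht, ht', htt, rfl⟩ := hz
  simp only [Complex.add_re, Complex.real_smul, Complex.mul_re, Complex.ofReal_re,
    Complex.ofReal_im, zero_mul, sub_zero]
  have e : t * r + t' * r = r := by rw [← add_mul, htt, one_mul]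
  linarith [mul_le_mul_of_nonneg_left ha ht, mul_le_mul_of_nonneg_left hb ht']

theorem seg_re' {a b z : ℂ} {r : ℝ} (ha : a.re ≤ r) (hb : b.re ≤ r) (hz : z ∈ segment ℝ a b) :
    z.re ≤ r := by
  obtain ⟨t, t', ht, ht', htt, rfl⟩ := hz
  simp only [Complex.add_re, Complex.real_smul, Complex.mul_re, Complex.ofReal_re,
    Complex.ofReal_im, zero_mul, sub_zero]
  have e : t * r + t' * r = r := by rw [← add_mul, htt, one_mul]
  linarith [mul_le_mul_of_nonneg_left ha ht, mul_le_mul_of_nonneg_left hb ht']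

/-- straight boundary -/
theorem way0 (hS : Shape s P p c fun ζ => 0 ≤ ζ.im) (hc : ‖c‖ = 1) (hd : 0 < d)
    (hζ : ‖ζ‖ + 6 * d < s) (hg : ‖g‖ + 6 * d < s) (hgi : 3 * d ≤ g.im)
    (h : Metric.closedBall (p + ζ * c) (2 * d) ⊆ P) : Way P d (p + ζ * c) (p + g * c) := by
  have h1 := ball_out hS hc (by linarith) h (ζ - (2 * d : ℝ) * I) (by
    rw [sub_sub_cancel_left, norm_neg, norm_mul, Complex.norm_I, mul_one, Complex.norm_real,
      Real.norm_of_nonneg (by linarith)])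
  simp at h1
  refine way_of hS hc hd (T := d) (e := I) Complex.norm_I le_rfl (by linarith) hζ hg ?_ ?_
  · intro t ht0 ht1 ζ' h3
    have := im_ge h3
    simp at this
    linarith
  · intro z hz ζ' h3
    have h4 : 3 * d ≤ z.im := seg_im (by simp; linarith) hgi hz
    have := im_ge h3
    linarith

/-- left turn -/
theorem way1 (hS : Shape s P p c fun ζ => ζ.re ≤ 0 ∧ 0 ≤ ζ.im) (hc : ‖c‖ = 1) (hd : 0 < d)
    (hζ : ‖ζ‖ + 6 * d < s) (hg : ‖g‖ + 6 * d < s) (hgi : 3 * d ≤ g.im) (hgr : g.re ≤ -(3 * d))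
    (h : Metric.closedBall (p + ζ * c) (2 * d) ⊆ P) :
    Way P d (p + ζ * c) (p + g * c) ∨ ‖ζ‖ ≤ 6 * d := by
  have h1 := ball_out hS hc (by linarith) h (ζ - (2 * d : ℝ) * I) (by
    rw [sub_sub_cancel_left, norm_neg, norm_mul, Complex.norm_I, mul_one, Complex.norm_real,
      Real.norm_of_nonneg (by linarith)])
  have h2 := ball_out hS hc (by linarith) h (ζ + (2 * d : ℝ)) (by
    rw [add_sub_cancel_left, Complex.norm_real, Real.norm_of_nonneg (by linarith)])
  simp at h1 h2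
  rcases le_or_gt ζ.re (-(3 * d)) with h3 | h3
  · left
    refine way_of hS hc hd (T := d) (e := I) Complex.norm_I le_rfl (by linarith) hζ hg ?_ ?_
    · intro t ht0 ht1 ζ' h4
      have e1 := im_ge h4
      have e2 := re_le h4
      simp at e1 e2
      exact ⟨by linarith, by linarith⟩
    · intro z hz ζ' h4
      have e1 := im_ge h4
      have e2 := re_le h4
      have e3 : 3 * d ≤ z.im := seg_im (by simp; linarith) hgi hz
      have e4 : z.re ≤ -(3 * d) := seg_re' (by simp; linarith) hgr hz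
      exact ⟨by linarith, by linarith⟩
  rcases le_or_gt (3 * d) ζ.im with h4 | h4
  · left
    refine way_of hS hc hd (T := d) (e := -1) (by simp) le_rfl (by linarith) hζ hg ?_ ?_
    · intro t ht0 ht1 ζ' h5
      have e1 := im_ge h5
      have e2 := re_le h5
      simp at e1 e2
      exact ⟨by linarith, by linarith⟩
    · intro z hz ζ' h5
      have e1 := im_ge h5
      have e2 := re_le h5
      have e3 : 3 * d ≤ z.im := seg_im (by simp; linarith) hgi hz
      have e4 : z.re ≤ -(3 * d) := seg_re' (by simp; linarith) hgr hz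
      exact ⟨by linarith, by linarith⟩
  · right
    refine (Complex.norm_le_abs_re_add_abs_im _).trans ?_
    rw [abs_of_neg (by linarith [h2.1]), abs_of_nonneg (by linarith [h1.2])]
    linarith

/-- right turn -/
theorem way2 (hS : Shape s P p c fun ζ => 0 ≤ ζ.im ∨ 0 ≤ ζ.re) (hc : ‖c‖ = 1) (hd : 0 < d)
    (hζ : ‖ζ‖ + 6 * d < s) (hg : ‖g‖ + 6 * d < s) (hgi : 3 * d ≤ g.im) (hgr : 3 * d ≤ g.re)
    (h : Metric.closedBall (p + ζ * c) (2 * d) ⊆ P) : Way P d (p + ζ * c) (p + g * c) := by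
  have hb := ball_out hS hc (by linarith) h
  rcases le_or_gt (2 * d) ζ.im with h1 | h1
  · refine way_of hS hc hd (T := d) (e := I) Complex.norm_I le_rfl (by linarith) hζ hg ?_ ?_
    · intro t ht0 ht1 ζ' h3
      have := im_ge h3
      simp at this
      exact Or.inl (by linarith)
    · intro z hz ζ' h3
      have h4 : 3 * d ≤ z.im := seg_im (by simp; linarith) hgi hz
      have := im_ge h3
      exact Or.inl (by linarith)
  rcases le_or_gt (2 * d) ζ.re with h2 | h2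
  · refine way_of hS hc hd (T := d) (e := 1) (by simp) le_rfl (by linarith) hζ hg ?_ ?_
    · intro t ht0 ht1 ζ' h3
      have := re_ge h3
      simp at this
      exact Or.inr (by linarith)
    · intro z hz ζ' h3
      have h4 : 3 * d ≤ z.re := seg_re (by simp; linarith) hgr hz
      have := re_ge h3
      exact Or.inr (by linarith)
  obtain ⟨q1, q2, q3⟩ := quadrant hd hb h1 h2
  have hn : 0 < ‖ζ‖ := by linarith
  have hn0 : (‖ζ‖ : ℂ) ≠ 0 := by exact_mod_cast hn.ne'
  have hsc : ∀ t : ℝ, ζ + t * (ζ / (‖ζ‖ : ℂ)) = ((1 + t / ‖ζ‖ : ℝ) : ℂ) * ζ := by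
    intro t
    push_cast
    field_simp
  have hpos : ∀ t : ℝ, 0 ≤ t → 0 < 1 + t / ‖ζ‖ := fun t ht => by positivity
  have hre : ∀ t : ℝ, (ζ + t * (ζ / (‖ζ‖ : ℂ))).re = (1 + t / ‖ζ‖) * ζ.re := fun t => by
    rw [hsc, Complex.re_ofReal_mul]
  have him : ∀ t : ℝ, (ζ + t * (ζ / (‖ζ‖ : ℂ))).im = (1 + t / ‖ζ‖) * ζ.im := fun t => by
    rw [hsc, Complex.im_ofReal_mul]
  have hnorm : ∀ t : ℝ, 0 ≤ t → ‖ζ + t * (ζ / (‖ζ‖ : ℂ))‖ = ‖ζ‖ + t := fun t ht => by
    rw [hsc, norm_mul, Complex.norm_real, Real.norm_of_nonneg (hpos t ht).le]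
    field_simp
  refine way_of hS hc hd (T := 3 * d) (e := ζ / (‖ζ‖ : ℂ)) ?_ (by linarith) le_rfl hζ hg ?_ ?_
  · rw [norm_div, Complex.norm_real, Real.norm_of_nonneg hn.le, div_self hn.ne']
  · intro t ht0 ht1
    have ht : 0 ≤ t := by linarith
    refine far_quadrant ?_ ?_ ?_
    · rw [hre]; exact mul_pos (hpos t ht) q1
    · rw [him]; exact mul_pos (hpos t ht) q2
    · rw [hnorm t ht]; linarith
  · have h3 : (0 : ℝ) ≤ 3 * d := by linarith
    have f1 : 0 < (ζ + (3 * d : ℝ) * (ζ / (‖ζ‖ : ℂ))).re := by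
      rw [hre]; exact mul_pos (hpos _ h3) q1
    have f2 : 0 < (ζ + (3 * d : ℝ) * (ζ / (‖ζ‖ : ℂ))).im := by
      rw [him]; exact mul_pos (hpos _ h3) q2
    have f3 : 5 * d ≤ ‖ζ + (3 * d : ℝ) * (ζ / (‖ζ‖ : ℂ))‖ := by
      rw [hnorm _ h3]; linarith
    set y : ℂ := ζ + (3 * d : ℝ) * (ζ / (‖ζ‖ : ℂ)) with hy
    intro z hz ζ' h4
    have key : 3 * d ≤ y.im ∨ 3 * d ≤ y.re := by
      by_contra hcon
      push Not at hcon
      have e2 : ‖y‖ ^ 2 = y.re ^ 2 + y.im ^ 2 := by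
        rw [← Complex.normSq_eq_norm_sq, Complex.normSq_apply]
        ring
      nlinarith [norm_nonneg y]
    rcases key with h5 | h5
    · have e4 : 3 * d ≤ z.im := seg_im h5 hgi hz
      have := im_ge h4
      exact Or.inl (by linarith)
    · have e4 : 3 * d ≤ z.re := seg_re h5 hgr hz
      have := re_ge h4
      exact Or.inr (by linarith)

end way

/-- **the alternative**: a deep point near the vertex has a way inwards to the inner corner of the
ring, or it is within `6 d` of the vertex -/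
theorem dich {s d : ℝ} {U : Set Bk} {N : ℕ} {v : ℕ → V} (hs : 0 < s) (hd : 0 < d)
    (hds : 2 ^ 6 * d ≤ s) (hc : Cyc (cells U) N v) (k : ℕ) {w : ℂ}
    (hw : Metric.closedBall w (2 * d) ⊆ Pg s (cells U))
    (hn : ‖w - pt s (v (k + 1))‖ ≤ 3 / 4 * s) :
    Way (Pg s (cells U)) d w (W s (s / 16) v k) ∨ ‖w - pt s (v (k + 1))‖ ≤ 6 * d := by
  have hcn : ‖ev v k‖ = 1 := Labx755.ev_norm hc k
  have c0 : ev v k ≠ 0 := by rw [← norm_pos_iff, hcn]; norm_num
  set p := pt s (v (k + 1)) with hp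
  set ζ : ℂ := (w - p) / ev v k with hζ
  have ew : w = p + ζ * ev v k := by rw [hζ]; field_simp; ring
  have enz : ‖ζ‖ = ‖w - p‖ := by rw [hζ, norm_div, hcn, div_one]
  have hζs : ‖ζ‖ + 6 * d < s := by rw [enz]; linarith
  rw [← enz]
  rw [ew] at hw ⊢
  rcases shape hs hc k with ⟨h1, h2⟩ | ⟨h1, h2⟩ | ⟨h1, h2⟩
  · left
    have eg : W s (s / 16) v k = p + ((s / 8 : ℝ) * I) * ev v k := by
      unfold W
      rw [h1, hp]
      push_cast
      ring
    rw [eg]
    refine way0 h2 hcn hd hζs ?_ ?_ hw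
    · rw [norm_mul, Complex.norm_I, mul_one, Complex.norm_real, Real.norm_of_nonneg (by linarith)]
      linarith
    · simp
      linarith
  · have eg : W s (s / 16) v k = p + ((s / 16 : ℝ) * (I - 1)) * ev v k := by
      unfold W
      rw [h1, hp]
      push_cast
      linear_combination (s / 16 * ev v k) * Complex.I_mul_I
    rw [eg]
    refine way1 h2 hcn hd hζs ?_ ?_ ?_ hw
    · have : ‖(I - 1 : ℂ)‖ ≤ 2 := by
        refine (norm_sub_le _ _).trans ?_
        rw [Complex.norm_I, norm_one]; norm_num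
      rw [norm_mul, Complex.norm_real, Real.norm_of_nonneg (by linarith)]
      nlinarith
    · simp
      linarith
    · simp
      linarith
  · left
    have eg : W s (s / 16) v k = p + ((s / 16 : ℝ) * (I + 1)) * ev v k := by
      unfold W
      rw [h1, hp]
      push_cast
      linear_combination (-(s / 16 * ev v k)) * Complex.I_mul_I
    rw [eg]
    refine way2 h2 hcn hd hζs ?_ ?_ ?_ hw
    · have : ‖(I + 1 : ℂ)‖ ≤ 2 := by
        refine (norm_add_le _ _).trans ?_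
        rw [Complex.norm_I, norm_one]; norm_num
      rw [norm_mul, Complex.norm_real, Real.norm_of_nonneg (by linarith)]
      nlinarith
    · simp
      linarith
    · simp
      linarith

end Crest.Agent.R143.Inwx165
end
end

-- ▼ part R143/Inw_741
section

/-!
# Row 143 (S0194), CONT (K7): inward joining of deep sites, dead corner sites (helper741)

`P = Pg s F` (closed cells), `deep S P ρ` = sites `w` with `closedBall w ρ ⊆ P`, holes of radius `d`
on `P`, `4 (ρ + d) ≤ s`.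
* `off_in`, `off_in2` : cells met by `[w, w1]`, `closedBall w1 (‖w - w1‖ + ρ) ⊆ P`, are deep; cells
  met by a set with `closedBall q (d + ρ) ⊆ P` are deep
* `lp s q a b X Y` : the point with inward coordinates `X, Y` at the corner `(a, b)` of the cell `q`
* `inward` : a deep site `w ∈ sq s q`, `q ∈ F`, can go straight to the centre of `q`, or it is in the
  corner box `[ρ, ρ + d)²` of a convex corner (`Dead`)
* `inw_chain` : the chain
-/

set_option autoImplicit false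

noncomputable section

open scoped Classical

namespace Crest.Agent.R143.Inwx741

open Set
open Crest.ProbabilityR.Voronoi
open Crest.Agent.R158 Crest.Agent.R158.Sp896
open Crest.Agent.R143.B0x346 Crest.Agent.R143.DelGx806 Crest.Agent.R143.B0Dx346
  Crest.Agent.R143.RE0x723 Crest.Agent.R143.G6Wx723 Crest.Agent.R143.Segx991
open Crest.Agent.R143.Tenx416 (Pg)

variable {S : Finset ℂ} {P C : Set ℂ} {w w1 z c : ℂ} {ρ d s : ℝ}

/-! ### cells on the way are deep -/


/-- second leg -/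
theorem off_in2 (hH : Hl S C d) (h : ∀ q ∈ C, Metric.closedBall q (d + ρ) ⊆ P)
    (hz : z ∈ Clm S C) : z ∈ deep S P ρ := by
  obtain ⟨q, hq, h1⟩ := near hH hz
  refine mem_deep.2 ⟨hz.1, fun y hy => h q hq ?_⟩
  rw [Metric.mem_closedBall, dist_eq_norm] at hy ⊢
  have h2 : ‖y - q‖ ≤ ‖y - z‖ + ‖z - q‖ := by
    have := norm_add_le (y - z) (z - q)
    rwa [sub_add_sub_cancel] at this
  rw [norm_sub_rev z q] at h2
  linarith


/-! ### inward coordinates at a corner of a cell -/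

/-- sign -/
def Sg (a : ℤ) : Prop := a = 1 ∨ a = -1

/-- the point with inward coordinates `X, Y` at the corner `(a, b)` of the cell `q` -/
def lp (s : ℝ) (q : V) (a b : ℤ) (X Y : ℝ) : ℂ :=
  ⟨s * (q.1 + (1 - a) / 2) + a * X, s * (q.2 + (1 - b) / 2) + b * Y⟩

theorem lp_sub {q : V} {a b : ℤ} {X Y X' Y' : ℝ} :
    lp s q a b X Y - lp s q a b X' Y' = ⟨a * (X - X'), b * (Y - Y')⟩ := by
  unfold lp
  apply Complex.ext
  · simp only [Complex.sub_re]; ring
  · simp only [Complex.sub_im]; ring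

theorem sg_sq {a : ℤ} (h : Sg a) : (a : ℝ) * a = 1 := by
  rcases h with rfl | rfl <;> norm_num

theorem lp_norm {q : V} {a b : ℤ} (ha : Sg a) (hb : Sg b) {X Y X' Y' : ℝ} :
    ‖lp s q a b X Y - lp s q a b X' Y'‖ ^ 2 = (X - X') ^ 2 + (Y - Y') ^ 2 := by
  rw [lp_sub, Complex.sq_norm, Complex.normSq_mk]
  have e1 := sg_sq ha
  have e2 := sg_sq hb
  linear_combination (X - X') ^ 2 * e1 + (Y - Y') ^ 2 * e2

/-- every point has inward coordinates at the corner -/
theorem exists_lp (q : V) {a b : ℤ} (ha : Sg a) (hb : Sg b) (y : ℂ) :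
    ∃ X Y, y = lp s q a b X Y := by
  refine ⟨a * (y.re - s * (q.1 + (1 - a) / 2)), b * (y.im - s * (q.2 + (1 - b) / 2)), ?_⟩
  have e1 := sg_sq ha
  have e2 := sg_sq hb
  unfold lp
  apply Complex.ext
  · simp only
    linear_combination (-(y.re - s * (q.1 + (1 - a) / 2))) * e1
  · simp only
    linear_combination (-(y.im - s * (q.2 + (1 - b) / 2))) * e2

theorem mem_q {q : V} {a b : ℤ} (ha : Sg a) (hb : Sg b) {X Y : ℝ} (h1 : 0 ≤ X) (h2 : X ≤ s)
    (h3 : 0 ≤ Y) (h4 : Y ≤ s) : lp s q a b X Y ∈ sq s q := by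
  rcases ha with rfl | rfl <;> rcases hb with rfl | rfl <;>
  · unfold lp Crest.Agent.R158.Sp896.sq
    simp only [mem_ofPred_eq]
    push_cast
    refine ⟨?_, ?_, ?_, ?_⟩ <;> nlinarith

theorem mem_h {q : V} {a b : ℤ} (ha : Sg a) (hb : Sg b) {X Y : ℝ} (h1 : X ≤ 0) (h2 : -s ≤ X)
    (h3 : 0 ≤ Y) (h4 : Y ≤ s) : lp s q a b X Y ∈ sq s (q.1 - a, q.2) := by
  rcases ha with rfl | rfl <;> rcases hb with rfl | rfl <;>
  · unfold lp Crest.Agent.R158.Sp896.sq
    simp only [mem_ofPred_eq]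
    push_cast
    refine ⟨?_, ?_, ?_, ?_⟩ <;> nlinarith

theorem mem_v {q : V} {a b : ℤ} (ha : Sg a) (hb : Sg b) {X Y : ℝ} (h1 : 0 ≤ X) (h2 : X ≤ s)
    (h3 : Y ≤ 0) (h4 : -s ≤ Y) : lp s q a b X Y ∈ sq s (q.1, q.2 - b) := by
  rcases ha with rfl | rfl <;> rcases hb with rfl | rfl <;>
  · unfold lp Crest.Agent.R158.Sp896.sq
    simp only [mem_ofPred_eq]
    push_cast
    refine ⟨?_, ?_, ?_, ?_⟩ <;> nlinarith

theorem mem_d {q : V} {a b : ℤ} (ha : Sg a) (hb : Sg b) {X Y : ℝ} (h1 : X ≤ 0) (h2 : -s ≤ X)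
    (h3 : Y ≤ 0) (h4 : -s ≤ Y) : lp s q a b X Y ∈ sq s (q.1 - a, q.2 - b) := by
  rcases ha with rfl | rfl <;> rcases hb with rfl | rfl <;>
  · unfold lp Crest.Agent.R158.Sp896.sq
    simp only [mem_ofPred_eq]
    push_cast
    refine ⟨?_, ?_, ?_, ?_⟩ <;> nlinarith




variable {F : Set V} {q : V} {a b : ℤ} {κ X Y X' Y' : ℝ}

/-- neighbour across the side `X = 0` -/
def qH (q : V) (a : ℤ) : V := (q.1 - a, q.2)
/-- neighbour across the side `Y = 0` -/
def qV (q : V) (b : ℤ) : V := (q.1, q.2 - b)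
/-- neighbour across the corner -/
def qD (q : V) (a b : ℤ) : V := (q.1 - a, q.2 - b)

theorem mem_pg (ha : Sg a) (hb : Sg b) (hq : q ∈ F) (hX1 : -s ≤ X) (hX2 : X ≤ s) (hY1 : -s ≤ Y)
    (hY2 : Y ≤ s) (hH : X < 0 → 0 ≤ Y → qH q a ∈ F) (hV : 0 ≤ X → Y < 0 → qV q b ∈ F)
    (hD : X < 0 → Y < 0 → qD q a b ∈ F) : lp s q a b X Y ∈ Pg s F := by
  unfold Tenx416.Pg
  rcases lt_or_ge X 0 with h1 | h1 <;> rcases lt_or_ge Y 0 with h2 | h2
  · exact mem_iUnion₂.2 ⟨_, hD h1 h2, mem_d ha hb h1.le hX1 h2.le hY1⟩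
  · exact mem_iUnion₂.2 ⟨_, hH h1 h2, mem_h ha hb h1.le hX1 h2 hY2⟩
  · exact mem_iUnion₂.2 ⟨_, hV h1 h2, mem_v ha hb h1 hX2 h2.le hY1⟩
  · exact mem_iUnion₂.2 ⟨_, hq, mem_q ha hb h1 hX2 h2 hY2⟩

/-- the ball of radius `κ` round the point with coordinates `X, Y` is in the region -/
structure G (F : Set V) (q : V) (a b : ℤ) (κ X Y : ℝ) : Prop where
  h : κ ≤ X ∨ qH q a ∈ F
  v : κ ≤ Y ∨ qV q b ∈ F
  d : κ ^ 2 ≤ X ^ 2 + Y ^ 2 ∨ qD q a b ∈ F

theorem G.mono (h : G F q a b κ X Y) (h1 : 0 ≤ X) (h2 : 0 ≤ Y) (h3 : X ≤ X') (h4 : Y ≤ Y') :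
    G F q a b κ X' Y' := by
  refine ⟨h.h.imp (fun e => e.trans h3) id, h.v.imp (fun e => e.trans h4) id,
    h.d.imp (fun e => e.trans ?_) id⟩
  have e1 : X ^ 2 ≤ X' ^ 2 := pow_le_pow_left₀ h1 h3 2
  have e2 : Y ^ 2 ≤ Y' ^ 2 := pow_le_pow_left₀ h2 h4 2
  linarith

theorem ball_lp (ha : Sg a) (hb : Sg b) {P : Set ℂ}
    (h : ∀ X' Y', (X' - X) ^ 2 + (Y' - Y) ^ 2 ≤ κ ^ 2 → lp s q a b X' Y' ∈ P) :
    Metric.closedBall (lp s q a b X Y) κ ⊆ P := by
  intro y hy
  obtain ⟨X', Y', rfl⟩ := exists_lp (s := s) q ha hb y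
  refine h _ _ ?_
  rw [Metric.mem_closedBall, dist_eq_norm] at hy
  rw [← lp_norm ha hb (s := s) (q := q)]
  exact pow_le_pow_left₀ (norm_nonneg _) hy 2

theorem G.ball (h : G F q a b κ X Y) (ha : Sg a) (hb : Sg b) (hq : q ∈ F) (hκ : 0 ≤ κ)
    (h1 : 0 ≤ X) (h2 : 0 ≤ Y) (h3 : X + κ ≤ s) (h4 : Y + κ ≤ s) :
    Metric.closedBall (lp s q a b X Y) κ ⊆ Pg s F := by
  refine ball_lp ha hb fun X' Y' hn => ?_
  have k1 : |X' - X| ≤ κ := abs_le_of_sq_le_sq (by nlinarith [sq_nonneg (Y' - Y)]) hκ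
  have k2 : |Y' - Y| ≤ κ := abs_le_of_sq_le_sq (by nlinarith [sq_nonneg (X' - X)]) hκ
  rw [abs_le] at k1 k2
  refine mem_pg ha hb hq (by linarith) (by linarith) (by linarith) (by linarith) ?_ ?_ ?_
  · intro e1 _
    refine h.h.resolve_left fun e2 => ?_
    linarith
  · intro _ e1
    refine h.v.resolve_left fun e2 => ?_
    linarith
  · intro e1 e2
    refine h.d.resolve_left fun e3 => ?_
    nlinarith




/-- **dead corner site**: in the box `[ρ, κ)²` at a convex corner `(a, b)` of the cell `q` -/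
structure Dead (s ρ κ : ℝ) (F : Set V) (q : V) (a b : ℤ) (w : ℂ) : Prop where
  ha : Sg a
  hb : Sg b
  hq : q ∈ F
  hH : qH q a ∉ F
  hV : qV q b ∉ F
  ex : ∃ X Y, w = lp s q a b X Y ∧ ρ ≤ X ∧ X < κ ∧ ρ ≤ Y ∧ Y < κ

/-- **good site**: it can go straight to the centre of the cell `q` -/
def Good (s ρ d : ℝ) (F : Set V) (q : V) (w : ℂ) : Prop :=
  ∃ w1, ‖w - w1‖ ≤ d ∧ Metric.closedBall w1 (‖w - w1‖ + ρ) ⊆ Pg s F ∧
    ∀ z ∈ segment ℝ w1 (LabDx755.ctr s q), Metric.closedBall z (d + ρ) ⊆ Pg s F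







end Crest.Agent.R143.Inwx741
end
end

-- ▼ part R143/Inw2_741
section

/-!
# Row 143 (S0194), CONT (K7), MARK: inward step and spokes in the deep sites (helper741)

In the form asked by helper165. `Vin S P d` = sites `x` with `closedBall x (2 d) ⊆ P`.
* `step1` (I1) : the inward step from a deep site in the direction `e`
* `step1b` (I1b) : the deep sites near a segment which is at distance `3 d` from the outside
* `nadj` (NADJ) : for the two edges at the vertex `v (k + 1)`: a deep site next to a site off the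
  deep sites near the middle of the edge, joined to the site of the inner corner `W k`
-/

set_option autoImplicit false

noncomputable section

open scoped Classical

namespace Crest.Agent.R143.Inwx741

open Set
open Crest.ProbabilityR.Voronoi
open Crest.Agent.R158 Crest.Agent.R158.Sp896
open Crest.Agent.R143.B0x346 Crest.Agent.R143.DelGx806 Crest.Agent.R143.B0Dx346
  Crest.Agent.R143.RE0x723 Crest.Agent.R143.G6Wx723 Crest.Agent.R143.Segx991
open Crest.Agent.R143.Tenx416 (Pg)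
open Crest.Agent.R143.JColx54 (Adj)
open Crest.Agent.R143.NetVx346 (Vin)

variable {S : Finset ℂ} {P C : Set ℂ} {x z c p q e : ℂ} {d T s μ : ℝ} {F : Set V} {N : ℕ}
  {v : ℕ → V}

theorem mem_vin : x ∈ Vin S P d ↔ x ∈ S ∧ Metric.closedBall x (2 * d) ⊆ P := by
  unfold NetVx346.Vin
  exact Finset.mem_filter

theorem vin_deep : Vin S P d = deep S P (2 * d) := by
  ext x
  rw [mem_vin, mem_deep]

/-- points of the segment from `x` in the direction `e` -/
theorem seg_dir (hT : 0 ≤ T) (hq : q ∈ segment ℝ x (x + T * e)) :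
    ∃ t ∈ Icc (0 : ℝ) T, q = x + t * e := by
  rw [segment_eq_image'] at hq
  obtain ⟨θ, ⟨h0, h1⟩, rfl⟩ := hq
  refine ⟨θ * T, ⟨by positivity, by nlinarith⟩, ?_⟩
  simp only [Complex.real_smul]
  push_cast
  ring

/-- **(I1)** the inward step -/
theorem step1 (hS : GP (S : Set ℂ)) (h3 : 3 ≤ S.card) (hx : x ∈ Vin S P d) (he : ‖e‖ = 1)
    (hd : 0 < d) (hdT : d ≤ T) (hol : ∀ t ∈ Icc (0 : ℝ) T, ∃ a ∈ S, ‖x + t * e - a‖ ≤ d)
    (hP : ∀ t ∈ Icc d T, Metric.closedBall (x + t * e) (3 * d) ⊆ P) (hc : c ∈ S)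
    (hcc : x + T * e ∈ voronoiCell (S : Set ℂ) c) :
    Pth S {z | z ∈ Vin S P d ∧ ∃ t ∈ Icc (0 : ℝ) T, ‖z - (x + t * e)‖ ≤ d} x c := by
  obtain ⟨hxS, hxP⟩ := mem_vin.1 hx
  have hT : 0 ≤ T := hd.le.trans hdT
  refine (pth_conn hS h3 (convex_segment x (x + T * e)).isPreconnected
    (mem_clm hxS (left_mem_segment ℝ _ _)) ⟨hc, _, right_mem_segment ℝ _ _, hcc⟩).mono ?_
  rintro z ⟨hzS, q, hq, hqz⟩
  obtain ⟨t, ht, rfl⟩ := seg_dir hT hq
  have h1 : ‖z - (x + t * e)‖ ≤ d := by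
    obtain ⟨a, ha, h2⟩ := hol t ht
    have := hqz a (Finset.mem_coe.2 ha)
    rw [norm_sub_rev]
    exact this.trans h2
  have h2 : ‖z - (x + t * e)‖ ≤ t := by
    have h4 := hqz x (Finset.mem_coe.2 hxS)
    rw [norm_sub_rev]
    refine h4.trans ?_
    rw [add_sub_cancel_left, norm_mul, he, mul_one, Complex.norm_real,
      Real.norm_of_nonneg ht.1]
  refine ⟨mem_vin.2 ⟨hzS, fun y hy => ?_⟩, t, ht, h1⟩
  rw [Metric.mem_closedBall, dist_eq_norm] at hy
  rcases le_total t d with h5 | h5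
  · refine hP d ⟨le_rfl, hdT⟩ ?_
    rw [Metric.mem_closedBall, dist_eq_norm]
    have h6 : ‖x + t * e - (x + d * e)‖ = d - t := by
      have : x + t * e - (x + d * e) = ((t - d : ℝ) : ℂ) * e := by push_cast; ring
      rw [this, norm_mul, he, mul_one, Complex.norm_real, Real.norm_eq_abs, abs_sub_comm,
        abs_of_nonneg (by linarith)]
    have h7 : ‖y - (x + d * e)‖ ≤ ‖y - z‖ + (‖z - (x + t * e)‖ + ‖x + t * e - (x + d * e)‖) := by
      have e1 := norm_add_le (y - z) (z - (x + d * e))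
      have e2 := norm_add_le (z - (x + t * e)) (x + t * e - (x + d * e))
      rw [sub_add_sub_cancel] at e1 e2
      linarith
    linarith
  · refine hP t ⟨h5, ht.2⟩ ?_
    rw [Metric.mem_closedBall, dist_eq_norm]
    have e1 := norm_add_le (y - z) (z - (x + t * e))
    rw [sub_add_sub_cancel] at e1
    linarith

/-- **(I1b)** along a preconnected set at distance `3 d` from the outside -/
theorem step1b' (hS : GP (S : Set ℂ)) (h3 : 3 ≤ S.card) (hC : IsPreconnected C)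
    (hH : Hl S C d) (hP : ∀ z ∈ C, Metric.closedBall z (3 * d) ⊆ P) {a b : ℂ} (ha : a ∈ S)
    (hb : b ∈ S) (hpC : p ∈ C) (hqC : q ∈ C) (hpa : p ∈ voronoiCell (S : Set ℂ) a)
    (hqb : q ∈ voronoiCell (S : Set ℂ) b) :
    Pth S {z | z ∈ Vin S P d ∧ ∃ w ∈ C, ‖z - w‖ ≤ d} a b := by
  refine (pth_conn hS h3 hC ⟨ha, p, hpC, hpa⟩ ⟨hb, q, hqC, hqb⟩).mono ?_
  intro z hz
  obtain ⟨w, hw, h1⟩ := near hH hz
  refine ⟨?_, w, hw, by rwa [norm_sub_rev]⟩
  rw [vin_deep]
  refine off_in2 hH (fun y hy => ?_) hz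
  have e : d + 2 * d = 3 * d := by ring
  rw [e]
  exact hP y hy

/-- **(I1b)** along a segment -/
theorem step1b (hS : GP (S : Set ℂ)) (h3 : 3 ≤ S.card) (hH : Hl S (segment ℝ p q) d)
    (hP : ∀ z ∈ segment ℝ p q, Metric.closedBall z (3 * d) ⊆ P) {a b : ℂ} (ha : a ∈ S)
    (hb : b ∈ S) (hpa : p ∈ voronoiCell (S : Set ℂ) a) (hqb : q ∈ voronoiCell (S : Set ℂ) b) :
    Pth S {z | z ∈ Vin S P d ∧ ∃ w ∈ segment ℝ p q, ‖z - w‖ ≤ d} a b :=
  step1b' hS h3 (convex_segment p q).isPreconnected hH hP ha hb (left_mem_segment ℝ p q)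
    (right_mem_segment ℝ p q) hpa hqb

/-! ### spokes -/

open Crest.Agent.R143.LabDx755 (md M W rs ev ctr)

theorem md_p0 (hs : 0 < s) (hc : Cyc F N v) (k : ℕ) :
    ‖md s v k - pt s (v (k + 1))‖ = s / 2 ∧ ‖md s v (k + 1) - pt s (v (k + 1))‖ = s / 2 := by
  have key : ∀ j, ‖pt s (v (j + 1)) - pt s (v j)‖ = s := by
    intro j
    have h := hc.step j
    have e : pt s (v (j + 1)) - pt s (v j) = s * LabDx755.ev v j := by
      unfold pt LabDx755.ev
      apply Complex.ext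
      · simp only [Complex.sub_re, Complex.mul_re, Complex.ofReal_re, Complex.ofReal_im]
        push_cast
        ring
      · simp only [Complex.sub_im, Complex.mul_im, Complex.ofReal_re, Complex.ofReal_im]
        push_cast
        ring
    rw [e, norm_mul, LabBx951.ev_eq, LabBx951.cv_norm h, mul_one, Complex.norm_real,
      Real.norm_of_nonneg hs.le]
  constructor
  · have e : md s v k - pt s (v (k + 1)) = -((pt s (v (k + 1)) - pt s (v k)) / 2) := by
      unfold LabDx755.md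
      ring
    rw [e, norm_neg, norm_div, key k, Complex.norm_ofNat]
  · have e : md s v (k + 1) - pt s (v (k + 1)) = (pt s (v (k + 1 + 1)) - pt s (v (k + 1))) / 2 := by
      unfold LabDx755.md
      ring
    rw [e, norm_div, key (k + 1), Complex.norm_ofNat]

theorem ev_norm' (hc : Cyc F N v) (k : ℕ) : ‖LabDx755.ev v k‖ = 1 := by
  rw [LabBx951.ev_eq, LabBx951.cv_norm (hc.step k)]

theorem W_p0 (hμ : 0 ≤ μ) (hc : Cyc F N v) (k : ℕ) :
    ‖LabDx755.W s μ v k - pt s (v (k + 1))‖ ≤ 2 * μ := by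
  have e : LabDx755.W s μ v k - pt s (v (k + 1)) =
      μ * (Complex.I * LabDx755.ev v k) + μ * (Complex.I * LabDx755.ev v (k + 1)) := by
    unfold LabDx755.W
    ring
  rw [e]
  refine (norm_add_le _ _).trans ?_
  rw [norm_mul, norm_mul, norm_mul, norm_mul, Complex.norm_I, ev_norm' hc, ev_norm' hc,
    Complex.norm_real, Real.norm_of_nonneg hμ]
  linarith

/-- **(NADJ)** -/
theorem nadj (hS : GP (S : Set ℂ)) (h3 : 3 ≤ S.card) (hc : Cyc F N v) (hs : 0 < s) (hd : 0 < d)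
    (hds : 64 * d ≤ s) (k : ℕ)
    (hB : ∀ z ∈ LabDx755.rs s (s / 16) v k, Metric.ball z (s / 16) ⊆ Pg s F)
    (hol : ∀ z, ‖z - pt s (v (k + 1))‖ ≤ 3 * s / 2 → ∃ a ∈ S, ‖a - z‖ < d) {g : ℂ} (hg : g ∈ S)
    (hgc : LabDx755.W s (s / 16) v k ∈ voronoiCell (S : Set ℂ) g) {j : ℕ}
    (hj : j = k ∨ j = k + 1) :
    ∃ x y, x ∈ Vin S (Pg s F) d ∧ y ∈ S ∧ y ∉ Vin S (Pg s F) d ∧ Adj S x y ∧
      ‖y - LabDx755.md s v j‖ ≤ s / 16 + 3 * d ∧
      Pth S {z | z ∈ Vin S (Pg s F) d ∧ ‖z - pt s (v (k + 1))‖ ≤ s} x g := by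
  have hμ : 0 < s / 16 := by linarith
  set p0 := pt s (v (k + 1)) with hp0
  set Mj := LabDx755.M s (s / 16) v j with hMj
  set mj := LabDx755.md s v j with hmj
  have hne : S.Nonempty := by rw [← Finset.card_pos]; omega
  have hm0 : ‖mj - p0‖ = s / 2 := by
    rcases hj with rfl | rfl
    · exact (md_p0 hs hc j).1
    · exact (md_p0 hs hc k).2
  have hMm : ‖Mj - mj‖ = s / 16 := Labx755.M_md hc hμ j
  have hM0 : ‖Mj - p0‖ ≤ s / 2 + s / 16 := by
    have := norm_add_le (Mj - mj) (mj - p0)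
    rw [sub_add_sub_cancel] at this
    linarith
  have hW0 : ‖LabDx755.W s (s / 16) v k - p0‖ ≤ s / 2 + s / 16 := by
    have := W_p0 (s := s) hμ.le hc k
    rw [← hp0] at this
    linarith
  -- the two segments
  have hC1 : segment ℝ mj Mj ⊆ Metric.closedBall mj (s / 16) :=
    (convex_closedBall _ _).segment_subset (Metric.mem_closedBall_self hμ.le)
      (by rw [mem_closedBall_iff_norm]; exact hMm.le)
  have hC1' : segment ℝ mj Mj ⊆ Metric.closedBall p0 (s / 2 + s / 16) :=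
    (convex_closedBall _ _).segment_subset
      (by rw [mem_closedBall_iff_norm]; linarith) (by rw [mem_closedBall_iff_norm]; exact hM0)
  have hC2 : segment ℝ Mj (LabDx755.W s (s / 16) v k) ⊆
      Metric.closedBall p0 (s / 2 + s / 16) :=
    (convex_closedBall _ _).segment_subset
      (by rw [mem_closedBall_iff_norm]; exact hM0) (by rw [mem_closedBall_iff_norm]; exact hW0)
  have hC2' : segment ℝ Mj (LabDx755.W s (s / 16) v k) ⊆ LabDx755.rs s (s / 16) v k := by
    rcases hj with rfl | rfl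
    · exact fun z hz => Or.inl hz
    · intro z hz
      rw [segment_symm] at hz
      exact Or.inr hz
  have hH : ∀ {C : Set ℂ}, C ⊆ Metric.closedBall p0 (s / 2 + s / 16) → Hl S C d := by
    intro C hC z hz
    have h1 := hC hz
    rw [mem_closedBall_iff_norm] at h1
    obtain ⟨a, ha, h2⟩ := hol z (by linarith)
    exact ⟨a, ha, by rw [norm_sub_rev]; exact h2.le⟩
  obtain ⟨y0, hy0, hy0c⟩ := exists_cell hne mj
  obtain ⟨c0, hc0, hc0c⟩ := exists_cell hne Mj
  have hy0V : y0 ∉ Vin S (Pg s F) d := by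
    intro h
    have h1 : ‖y0 - mj‖ < 2 * d := by
      obtain ⟨a, ha, h2⟩ := hol mj (by linarith)
      have h4 := hy0c a (Finset.mem_coe.2 ha)
      rw [norm_sub_rev mj a, norm_sub_rev mj y0] at h4
      linarith
    exact Spkx951.out_near hs hc j h1 (mem_vin.1 h).2
  have hMr : Mj ∈ LabDx755.rs s (s / 16) v k := hC2' (left_mem_segment ℝ _ _)
  have hc0V : c0 ∈ Vin S (Pg s F) d := by
    refine mem_vin.2 ⟨hc0, fun y hy => hB Mj hMr ?_⟩
    obtain ⟨a, ha, h2⟩ := hol Mj (by linarith)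
    have h4 := hc0c a (Finset.mem_coe.2 ha)
    rw [norm_sub_rev Mj a, norm_sub_rev Mj c0] at h4
    rw [Metric.mem_closedBall, dist_eq_norm] at hy
    rw [Metric.mem_ball, dist_eq_norm]
    have := norm_add_le (y - c0) (c0 - Mj)
    rw [sub_add_sub_cancel] at this
    linarith
  have h1 : Pth S (Clm S (segment ℝ mj Mj)) c0 y0 :=
    pth_conn hS h3 (convex_segment mj Mj).isPreconnected
      ⟨hc0, Mj, right_mem_segment ℝ _ _, hc0c⟩ ⟨hy0, mj, left_mem_segment ℝ _ _, hy0c⟩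
  obtain ⟨x, y, h2, h4, h5, h6⟩ := h1.exit (Q := fun w => w ∈ Vin S (Pg s F) d) hc0V hy0V
  have hnear : ∀ z ∈ Clm S (segment ℝ mj Mj), ‖z - mj‖ ≤ s / 16 + d ∧
      ‖z - p0‖ ≤ s / 2 + s / 16 + d := by
    intro z hz
    obtain ⟨w, hw, h7⟩ := near (hH hC1') hz
    have h8 := hC1 hw
    have h9 := hC1' hw
    rw [mem_closedBall_iff_norm] at h8 h9
    rw [norm_sub_rev] at h7
    have e1 := norm_add_le (z - w) (w - mj)
    have e2 := norm_add_le (z - w) (w - p0)
    rw [sub_add_sub_cancel] at e1 e2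
    constructor <;> linarith
  refine ⟨x, y, h2.snd.2, h5.1, h6, h4, ?_, ?_⟩
  · have := (hnear y h5).1
    linarith
  · have k1 : Pth S {z | z ∈ Vin S (Pg s F) d ∧ ‖z - p0‖ ≤ s} x c0 := by
      refine h2.symm.mono ?_
      rintro z ⟨hz1, hz2⟩
      refine ⟨hz2, ?_⟩
      have := (hnear z hz1).2
      linarith
    refine k1.trans ((step1b (P := Pg s F) hS h3 (hH hC2) (fun z hz y hy => ?_) hc0 hg hc0c
      hgc).mono ?_)
    · refine hB z (hC2' hz) ?_
      rw [Metric.mem_closedBall] at hy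
      rw [Metric.mem_ball]
      linarith
    · rintro z ⟨hz1, w, hw, h7⟩
      refine ⟨hz1, ?_⟩
      have h9 := hC2 hw
      rw [mem_closedBall_iff_norm] at h9
      have e2 := norm_add_le (z - w) (w - p0)
      rw [sub_add_sub_cancel] at e2
      linarith

end Crest.Agent.R143.Inwx741
end
end

-- ▼ part R143/Disp_951
section

/-!
# Row 143 (S0194), CONT, (K7), MARK : disputed sites (DISP, helper951)

* `corner` : a point near two consecutive edges is near their common vertex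
* `cover_arc` : every boundary point is on an arc
* `FH u b` : first half of the mark edge `k b`
* **`disp`** : a point at distance `≤ s / 8` from the boundary edge `k` has the position label of this
  edge, or it is near `FH u b` for some mark `b` and both labels are `≠ b + 1`
* **`lab_field`** : the field `lab` of `Mks`
-/

set_option autoImplicit false

noncomputable section

open scoped Classical

namespace Crest.Agent.R143.Dispx951

open Set
open Crest.Agent.R158.Sp896 (V lc rc pt ed sq Cyc)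
open Crest.Agent.R143.JColx54 (Adj)
open Crest.Agent.R143.K33x877 (Tr fr)
open Crest.Agent.R143.Brkx478 (Bk Nb Conn cells)
open Crest.Agent.R143.Tenx416 (Pg)
open Crest.Agent.R143.NetVx346 (Vin Bl)
open Crest.Agent.R143.PolyUx346 (Poly)
open Crest.Agent.R143.ArcPx571 Crest.Agent.R143.K7Dx359

/-! ### two consecutive edges -/

section walk

variable {F : Set V} {L : ℕ} {v : ℕ → V} {s : ℝ}

/-- a point near two consecutive edges is near their common vertex -/
theorem corner (C : Cyc F L v) (hs : 0 < s) (a : ℕ) {t t' : ℝ} (h1 : t ≤ 1) (h0' : 0 ≤ t')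
    {x : ℂ} (hx : ‖x - ep s v a t‖ < 13 / 100 * s) (hx' : ‖x - ep s v (a + 1) t'‖ < 13 / 100 * s) :
    ‖x - pt s (v (a + 1))‖ ≤ 3 / 16 * s := by
  have hne := ne_two C a
  have hne' : ¬ (((v (a + 1 + 1)).1 : ℝ) = (v a).1 ∧ ((v (a + 1 + 1)).2 : ℝ) = (v a).2) := by
    rintro ⟨e1, e2⟩
    exact hne (Prod.ext (by exact_mod_cast e1) (by exact_mod_cast e2))
  have sq1 : ∀ z : ℂ, ‖z‖ ^ 2 = z.re ^ 2 + z.im ^ 2 := by
    intro z; rw [Complex.sq_norm, Complex.normSq_apply]; ring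
  have n1 : (x - ep s v a t).re ^ 2 + (x - ep s v a t).im ^ 2 < (13 / 100 * s) ^ 2 := by
    rw [← sq1]
    have := norm_nonneg (x - ep s v a t)
    nlinarith
  have n2 : (x - ep s v (a + 1) t').re ^ 2 + (x - ep s v (a + 1) t').im ^ 2 <
      (13 / 100 * s) ^ 2 := by
    rw [← sq1]
    have := norm_nonneg (x - ep s v (a + 1) t')
    nlinarith
  have h3 : (x - pt s (v (a + 1))).re ^ 2 + (x - pt s (v (a + 1))).im ^ 2 ≤
      2 * (13 / 100 * s) ^ 2 := by
    simp only [Complex.sub_re, Complex.sub_im, ep_re, ep_im] at n1 n2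
    simp only [Complex.sub_re, Complex.sub_im, pt]
    have s1 := step_real C a
    have s2 := step_real C (a + 1)
    have hα : 0 ≤ s * (1 - t) := mul_nonneg hs.le (by linarith)
    have hβ : 0 ≤ s * t' := mul_nonneg hs.le h0'
    generalize ((v a).1 : ℝ) = x0 at *
    generalize ((v a).2 : ℝ) = y0 at *
    generalize ((v (a + 1)).1 : ℝ) = x1 at *
    generalize ((v (a + 1)).2 : ℝ) = y1 at *
    generalize ((v (a + 1 + 1)).1 : ℝ) = x2 at *
    generalize ((v (a + 1 + 1)).2 : ℝ) = y2 at *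
    have k0 : ∀ p q α β R : ℝ, 0 ≤ α → 0 ≤ β → (p + α) ^ 2 + q ^ 2 < R → (p - β) ^ 2 + q ^ 2 < R →
        p ^ 2 + q ^ 2 ≤ 2 * R := by
      intro p q α β R ha hb g1 g2
      rcases le_total 0 p with hp | hp
      · nlinarith [mul_nonneg hp ha, sq_nonneg α, sq_nonneg p, sq_nonneg q]
      · nlinarith [mul_nonneg (neg_nonneg.2 hp) hb, sq_nonneg β, sq_nonneg p, sq_nonneg q]
    have k1 : ∀ p q α β R : ℝ, (p + α) ^ 2 + q ^ 2 < R → p ^ 2 + (q + β) ^ 2 < R →
        p ^ 2 + q ^ 2 ≤ 2 * R := by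
      intro p q α β R g1 g2
      nlinarith [sq_nonneg (p + α), sq_nonneg (q + β)]
    rcases s1 with (⟨e1, e2⟩ | ⟨e1, e2⟩) | (⟨e1, e2⟩ | ⟨e1, e2⟩) <;>
      rcases s2 with (⟨g1, g2⟩ | ⟨g1, g2⟩) | (⟨g1, g2⟩ | ⟨g1, g2⟩) <;>
      subst g1 g2 <;> subst e1 e2
    · refine k0 _ _ (s * (1 - t)) (s * t') _ hα hβ ?_ ?_
      · convert n1 using 2 <;> ring
      · convert n2 using 2 <;> ring
    · exact absurd ⟨by ring, rfl⟩ hne'
    · refine k1 _ _ (s * (1 - t)) (-(s * t')) _ ?_ ?_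
      · convert n1 using 2 <;> ring
      · convert n2 using 2 <;> ring
    · refine k1 _ _ (s * (1 - t)) (s * t') _ ?_ ?_
      · convert n1 using 2 <;> ring
      · convert n2 using 2 <;> ring
    · exact absurd ⟨by ring, rfl⟩ hne'
    · refine k0 _ _ (s * t') (s * (1 - t)) _ hβ hα ?_ ?_
      · convert n2 using 2 <;> ring
      · convert n1 using 2 <;> ring
    · refine k1 _ _ (-(s * (1 - t))) (-(s * t')) _ ?_ ?_
      · convert n1 using 2 <;> ring
      · convert n2 using 2 <;> ring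
    · refine k1 _ _ (-(s * (1 - t))) (s * t') _ ?_ ?_
      · convert n1 using 2 <;> ring
      · convert n2 using 2 <;> ring
    · rw [add_comm]
      refine k1 _ _ (s * (1 - t)) (-(s * t')) _ ?_ ?_
      · rw [add_comm]; convert n1 using 2 <;> ring
      · rw [add_comm]; convert n2 using 2 <;> ring
    · rw [add_comm]
      refine k1 _ _ (s * (1 - t)) (s * t') _ ?_ ?_
      · rw [add_comm]; convert n1 using 2 <;> ring
      · rw [add_comm]; convert n2 using 2 <;> ring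
    · rw [add_comm]
      refine k0 _ _ (s * (1 - t)) (s * t') _ hα hβ ?_ ?_
      · rw [add_comm]; convert n1 using 2 <;> ring
      · rw [add_comm]; convert n2 using 2 <;> ring
    · exact absurd ⟨rfl, by ring⟩ hne'
    · rw [add_comm]
      refine k1 _ _ (-(s * (1 - t))) (-(s * t')) _ ?_ ?_
      · rw [add_comm]; convert n1 using 2 <;> ring
      · rw [add_comm]; convert n2 using 2 <;> ring
    · rw [add_comm]
      refine k1 _ _ (-(s * (1 - t))) (s * t') _ ?_ ?_
      · rw [add_comm]; convert n1 using 2 <;> ring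
      · rw [add_comm]; convert n2 using 2 <;> ring
    · exact absurd ⟨rfl, by ring⟩ hne'
    · rw [add_comm]
      refine k0 _ _ (s * t') (s * (1 - t)) _ hβ hα ?_ ?_
      · rw [add_comm]; convert n2 using 2 <;> ring
      · rw [add_comm]; convert n1 using 2 <;> ring
  rw [← sq1] at h3
  have h4 : ‖x - pt s (v (a + 1))‖ ^ 2 ≤ (3 / 16 * s) ^ 2 := by nlinarith
  exact abs_le_of_sq_le_sq' h4 (by positivity) |>.2

end walk

/-! ### arcs -/

variable {u : Poly}

/-- every boundary point is on an arc -/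
theorem cover_arc (κ : ℕ) {t : ℝ} (h0 : 0 ≤ t) (h1 : t ≤ 1) : ∃ j, bp u κ t ∈ u.Arc j := by
  have hL : 0 < u.L := by have := u.cyc.four_le; omega
  have k1 := u.k01
  have k2 := u.k12
  have k3 := u.k20
  have e0 : u.k' 0 = u.k 1 := by unfold Poly.k'; simp
  have e1 : u.k' 1 = u.k 2 := by unfold Poly.k'; simp
  have e2 : u.k' 2 = u.k 0 + u.L := by unfold Poly.k'; simp
  -- representative in `[k 0, k 0 + L)`
  obtain ⟨c, hc1, hc2, hc3⟩ : ∃ c, u.k 0 ≤ c ∧ c < u.k 0 + u.L ∧ κ ≡ c [MOD u.L] := by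
    refine ⟨u.k 0 + (κ + (u.L - u.k 0 % u.L)) % u.L, by omega,
      by have := Nat.mod_lt (κ + (u.L - u.k 0 % u.L)) hL; omega, ?_⟩
    have h3 : u.k 0 % u.L < u.L := Nat.mod_lt _ hL
    have h4 := Nat.mod_add_div (u.k 0) u.L
    unfold Nat.ModEq
    rw [Nat.add_mod_mod]
    have h5 : u.k 0 + (κ + (u.L - u.k 0 % u.L)) = κ + u.L * (u.k 0 / u.L + 1) := by
      rw [Nat.mul_add, Nat.mul_one]; omega
    rw [h5, Nat.add_mul_mod_self_left]
  have hb : bp u κ t = bp u c t := ep_mod u.cyc hc3 t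
  rw [hb]
  have c1 : (u.k 0 : ℝ) ≤ c := by exact_mod_cast hc1
  have c2 : (c : ℝ) + 1 ≤ u.k 0 + u.L := by exact_mod_cast hc2
  have k1' : (u.k 0 : ℝ) + 1 ≤ u.k 1 := by exact_mod_cast k1
  have k2' : (u.k 1 : ℝ) + 1 ≤ u.k 2 := by exact_mod_cast k2
  have k3' : (u.k 2 : ℝ) + 1 ≤ u.k 0 + u.L := by exact_mod_cast k3
  rcases le_total ((u.k 0 : ℝ) + 1 / 2) (c + t) with g | g
  · rcases le_total ((c : ℝ) + t) (u.k 1 + 1 / 2) with g1 | g1
    · exact ⟨0, arc_iff.2 ⟨c, t, h0, h1, g, by rw [e0]; exact g1, rfl⟩⟩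
    · rcases le_total ((c : ℝ) + t) (u.k 2 + 1 / 2) with g2 | g2
      · exact ⟨1, arc_iff.2 ⟨c, t, h0, h1, g1, by rw [e1]; exact g2, rfl⟩⟩
      · refine ⟨2, arc_iff.2 ⟨c, t, h0, h1, g2, ?_, rfl⟩⟩
        rw [e2]; push_cast; linarith
  · -- first half of the edge `k 0`
    have hm : c ≡ c + u.L [MOD u.L] := by unfold Nat.ModEq; simp
    refine ⟨2, arc_iff.2 ⟨c + u.L, t, h0, h1, ?_, ?_, ep_mod u.cyc hm t⟩⟩
    · push_cast; linarith
    · rw [e2]; push_cast; linarith

/-- first half of the mark edge -/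
def FH (u : Poly) (b : Fin 3) : Set ℂ := segment ℝ (pt u.s (u.v (u.k b))) (u.mid (u.k b))

theorem FH_nonempty (u : Poly) (b : Fin 3) : (FH u b).Nonempty := ⟨_, left_mem_segment ℝ _ _⟩

/-- the vertex at the beginning of the mark edge -/
theorem near_vertex {b : Fin 3} {a : ℕ} (ha : a ≡ u.k b [MOD u.L]) {x : ℂ}
    (hx : ‖x - pt u.s (u.v a)‖ ≤ 3 / 16 * u.s) : Metric.infDist x (FH u b) ≤ 3 / 16 * u.s := by
  refine (Metric.infDist_le_dist_of_mem (left_mem_segment ℝ _ _)).trans ?_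
  rw [dist_eq_norm, ← vmod u.cyc ha]
  exact hx

/-- the first half of the mark edge in parameters -/
theorem near_half {b : Fin 3} {a : ℕ} {t : ℝ} (ha : a ≡ u.k b [MOD u.L]) (h0 : 0 ≤ t)
    (h1 : t ≤ 1 / 2) {x : ℂ} (hx : ‖x - bp u a t‖ ≤ 3 / 16 * u.s) :
    Metric.infDist x (FH u b) ≤ 3 / 16 * u.s := by
  have hm : bp u a t ∈ FH u b := by
    unfold FH
    rw [mid_eq, ← ep_zero, bp, bp, seg_ep, ep_mod u.cyc ha t]
    exact ⟨t, by rw [segment_eq_Icc (by norm_num : (0 : ℝ) ≤ 1 / 2)]; exact ⟨h0, h1⟩, rfl⟩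
  refine (Metric.infDist_le_dist_of_mem hm).trans ?_
  rw [dist_eq_norm]
  exact hx

section main

variable {l : V → V → ZMod 3}

/-- label of the edge `κ` -/
abbrev lb (u : Poly) (l : V → V → ZMod 3) (κ : ℕ) : ZMod 3 := l (u.v κ) (u.v (κ + 1))

theorem lb_mod {a b : ℕ} (h : a ≡ b [MOD u.L]) : lb u l a = lb u l b := by
  unfold lb
  rw [vmod u.cyc h, vmod u.cyc (h.add_right 1)]

/-- the three intervals -/
def Int3 (u : Poly) (l : V → V → ZMod 3) : Prop :=
  ∀ (j : Fin 3) (κ : ℕ), u.k j ≤ κ → κ < u.k' j → lb u l κ = ((j : ℕ) : ZMod 3)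

theorem int3 (h0 : ∀ j, u.k 0 ≤ j → j < u.k 1 → l (u.v j) (u.v (j + 1)) = 0)
    (h1 : ∀ j, u.k 1 ≤ j → j < u.k 2 → l (u.v j) (u.v (j + 1)) = 1)
    (h2 : ∀ j, u.k 2 ≤ j → j < u.k 0 + u.L → l (u.v j) (u.v (j + 1)) = 2) : Int3 u l := by
  have e0 : u.k' 0 = u.k 1 := by unfold Poly.k'; simp
  have e1 : u.k' 1 = u.k 2 := by unfold Poly.k'; simp
  have e2 : u.k' 2 = u.k 0 + u.L := by unfold Poly.k'; simp
  intro j κ hj hj'
  have hj3 : j = 0 ∨ j = 1 ∨ j = 2 := by omega
  rcases hj3 with rfl | rfl | rfl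
  · rw [e0] at hj'; simpa using h0 κ hj hj'
  · rw [e1] at hj'; simpa using h1 κ hj hj'
  · rw [e2] at hj'; simpa using h2 κ hj hj'

/-- next mark -/
def nx (j : Fin 3) : Fin 3 := j + 1

theorem k'_mod (j : Fin 3) : u.k' j ≡ u.k (nx j) [MOD u.L] := by
  have hj3 : j = 0 ∨ j = 1 ∨ j = 2 := by omega
  unfold nx Poly.k'
  rcases hj3 with rfl | rfl | rfl
  · exact Nat.ModEq.refl _
  · exact Nat.ModEq.refl _
  · show (u.k 0 + u.L) % u.L = u.k 0 % u.L
    simp

theorem nx_cast (j : Fin 3) : (((nx j : Fin 3) : ℕ) : ZMod 3) = ((j : ℕ) : ZMod 3) + 1 := by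
  have hj3 : j = 0 ∨ j = 1 ∨ j = 2 := by omega
  rcases hj3 with rfl | rfl | rfl <;> decide

/-- label of the edge before the mark `j` -/
theorem lb_prev (h : Int3 u l) (j : Fin 3) {κ : ℕ} (hκ : κ + 1 ≡ u.k j [MOD u.L]) :
    lb u l κ = ((j : ℕ) : ZMod 3) + 2 := by
  have hL : 0 < u.L := by have := u.cyc.four_le; omega
  have k1 := u.k01
  have k2 := u.k12
  have k3 := u.k20
  have e0 : u.k' 0 = u.k 1 := by unfold Poly.k'; simp
  have e1 : u.k' 1 = u.k 2 := by unfold Poly.k'; simp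
  have e2 : u.k' 2 = u.k 0 + u.L := by unfold Poly.k'; simp
  have key : ∀ (i : Fin 3) (c : ℕ), u.k i ≤ c → c < u.k' i → c + 1 ≡ u.k j [MOD u.L] →
      lb u l κ = ((i : ℕ) : ZMod 3) := by
    intro i c h1 h2 h3
    have h4 : κ ≡ c [MOD u.L] := Nat.ModEq.add_right_cancel' 1 (hκ.trans h3.symm)
    rw [lb_mod h4]
    exact h i c h1 h2
  have hj3 : j = 0 ∨ j = 1 ∨ j = 2 := by omega
  rcases hj3 with rfl | rfl | rfl
  · rw [key 2 (u.k 0 + u.L - 1) (by omega) (by omega) (by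
      rw [Nat.sub_add_cancel (by omega)]
      show (u.k 0 + u.L) % u.L = u.k 0 % u.L
      simp)]
    decide
  · rw [key 0 (u.k 1 - 1) (by omega) (by omega) (by
      rw [Nat.sub_add_cancel (by omega)])]
    decide
  · rw [key 1 (u.k 2 - 1) (by omega) (by omega) (by
      rw [Nat.sub_add_cancel (by omega)])]
    decide

/-- label of the edge of the mark `j` -/
theorem lb_at (h : Int3 u l) (j : Fin 3) {κ : ℕ} (hκ : κ ≡ u.k j [MOD u.L]) :
    lb u l κ = ((j : ℕ) : ZMod 3) := by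
  rw [lb_mod hκ]
  exact h j _ le_rfl (k_lt j)

theorem z3b : ∀ j : Fin 3, ((j : ℕ) : ZMod 3) ≠ ((j : ℕ) : ZMod 3) + 1 := by decide
theorem z3c : ∀ j : Fin 3, ((j : ℕ) : ZMod 3) ≠ ((j : ℕ) : ZMod 3) + 1 + 1 := by decide
theorem z3d : ∀ j : Fin 3, ((j : ℕ) : ZMod 3) + 2 ≠ ((j : ℕ) : ZMod 3) + 1 := by decide
theorem z3e : ∀ j : Fin 3, ((j : ℕ) : ZMod 3) + 1 ≠ ((j : ℕ) : ZMod 3) + 1 + 1 := by decide

/-- **disputed points** -/
theorem disp (h : Int3 u l) {x : ℂ} {κ : ℕ}
    (hx : Metric.infDist x (ed u.s (u.v κ) (u.v (κ + 1))) ≤ u.s / 8) :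
    u.Lab x = l (u.v κ) (u.v (κ + 1)) ∨ ∃ b : Fin 3,
      l (u.v κ) (u.v (κ + 1)) ≠ ((b : ℕ) : ZMod 3) + 1 ∧ u.Lab x ≠ ((b : ℕ) : ZMod 3) + 1 ∧
      Metric.infDist x (FH u b) ≤ 3 / 16 * u.s := by
  have hs := u.s_pos
  have C := u.cyc
  obtain ⟨j, hnear, hlab, -⟩ := Poly.near_lab (u := u) x
  -- a point of the edge
  have hne : (ed u.s (u.v κ) (u.v (κ + 1))).Nonempty := ⟨_, left_mem_segment ℝ _ _⟩
  obtain ⟨y, hy, hxy⟩ := (Metric.infDist_lt_iff hne).1
    (lt_of_le_of_lt hx (by linarith : u.s / 8 < 13 / 100 * u.s))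
  obtain ⟨t, t0, t1, rfl⟩ := mem_ed.1 hy
  obtain ⟨i, hi⟩ := cover_arc (u := u) κ t0 t1
  -- a point of the nearest arc
  have h2 : Metric.infDist x (u.Arc j) < 13 / 100 * u.s :=
    lt_of_le_of_lt (hnear i) (lt_of_le_of_lt (Metric.infDist_le_dist_of_mem hi) hxy)
  have hne' : (u.Arc j).Nonempty := by
    refine ⟨bp u (u.k j) (1 / 2), arc_iff.2 ⟨u.k j, 1 / 2, by norm_num, by norm_num, le_rfl, ?_, rfl⟩⟩
    have : (u.k j : ℝ) ≤ u.k' j := by exact_mod_cast (k_lt j).le
    linarith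
  obtain ⟨z, hz, hxz⟩ := (Metric.infDist_lt_iff hne').1 h2
  obtain ⟨a, t', t0', t1', ha, ha', rfl⟩ := arc_iff.1 hz
  have a1 : u.k j ≤ a := by
    by_contra hcon
    push Not at hcon
    have : (a : ℝ) + 1 ≤ u.k j := by exact_mod_cast hcon
    linarith
  have a2 : a ≤ u.k' j := by
    by_contra hcon
    push Not at hcon
    have : (u.k' j : ℝ) + 1 ≤ a := by exact_mod_cast hcon
    linarith
  rw [dist_eq_norm] at hxy hxz
  have hd : ‖ep u.s u.v κ t - bp u a t'‖ < u.s / 2 := by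
    have e : ep u.s u.v κ t - bp u a t' = -(x - ep u.s u.v κ t) + (x - bp u a t') := by ring
    rw [e]
    refine lt_of_le_of_lt (norm_add_le _ _) ?_
    rw [norm_neg]
    linarith
  have hre : |(ep u.s u.v κ t).re - (ep u.s u.v a t').re| < u.s / 2 := by
    rw [← Complex.sub_re]
    exact lt_of_le_of_lt (Complex.abs_re_le_norm _) hd
  have him : |(ep u.s u.v κ t).im - (ep u.s u.v a t').im| < u.s / 2 := by
    rw [← Complex.sub_im]
    exact lt_of_le_of_lt (Complex.abs_im_le_norm _) hd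
  rw [hlab]
  rcases ep_sep C hs t0 t1 t0' t1' (by linarith) (by linarith) with g | g | g
  · -- same edge
    rcases Nat.lt_or_ge a (u.k' j) with ha3 | ha3
    · left
      exact (((lb_mod g).trans (h j a a1 ha3))).symm
    · right
      have e : a = u.k' j := le_antisymm a2 ha3
      have hm : a ≡ u.k (nx j) [MOD u.L] := by rw [e]; exact k'_mod j
      have hl : l (u.v κ) (u.v (κ + 1)) = ((j : ℕ) : ZMod 3) + 1 := by
        rw [← nx_cast]
        exact (lb_at h (nx j) (g.trans hm))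
      refine ⟨nx j, ?_, ?_, near_half hm t0' ?_ (by linarith)⟩
      · rw [hl, nx_cast]; exact z3e j
      · rw [nx_cast]; exact z3c j
      · have : (a : ℝ) = u.k' j := by rw [e]
        linarith
  · -- the edge `κ` is before the edge `a`
    rcases Nat.lt_or_ge (u.k j) a with ha3 | ha3
    · left
      have g' : κ ≡ a - 1 [MOD u.L] := by
        refine Nat.ModEq.add_right_cancel' 1 ?_
        rw [Nat.sub_add_cancel (by omega)]
        exact g
      exact ((lb_mod g').trans (h j (a - 1) (by omega) (by omega))).symm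
    · right
      have e : a = u.k j := le_antisymm ha3 a1
      have hm : a ≡ u.k j [MOD u.L] := by rw [e]
      have hl : l (u.v κ) (u.v (κ + 1)) = ((j : ℕ) : ZMod 3) + 2 := lb_prev h j (g.trans hm)
      refine ⟨j, ?_, z3b j, near_vertex (g.trans hm) ?_⟩
      · rw [hl]; exact z3d j
      · refine corner C hs κ t1 t0' hxy ?_
        rw [ep_mod C g t']
        exact hxz
  · -- the edge `κ` is after the edge `a`
    rcases Nat.lt_trichotomy (a + 1) (u.k' j) with ha3 | ha3 | ha3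
    · left
      exact ((lb_mod g).trans (h j (a + 1) (by omega) ha3)).symm
    · right
      have hm : a + 1 ≡ u.k (nx j) [MOD u.L] := by rw [ha3]; exact k'_mod j
      have hl : l (u.v κ) (u.v (κ + 1)) = ((j : ℕ) : ZMod 3) + 1 := by
        rw [← nx_cast]
        exact (lb_at h (nx j) (g.trans hm))
      refine ⟨nx j, ?_, ?_, near_vertex hm ?_⟩
      · rw [hl, nx_cast]; exact z3e j
      · rw [nx_cast]; exact z3c j
      · refine corner C hs a t1' t0 hxz ?_
        rw [← ep_mod C g t]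
        exact hxy
    · -- the end of the arc is in the first half of its last edge
      exfalso
      have e : a = u.k' j := by omega
      have e' : (a : ℝ) = u.k' j := by rw [e]
      rw [ep_mod C g t] at hre him
      rw [abs_sub_comm] at hre him
      rcases nb_sep C hs a t1' t0 (Or.inl (by linarith)) with g1 | g1 <;> linarith

variable {S : Finset ℂ} {A' : ZMod 3 → Set ℂ} {d s : ℝ} {N De : Fin 3 → Set ℂ}

/-- **the field `lab` of `Mks`** -/
theorem lab_field (hT : Tr S A') (hs : u.s = s) (hB : Bd S A' d s u.U l u.L u.v)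
    (h0 : ∀ j, u.k 0 ≤ j → j < u.k 1 → l (u.v j) (u.v (j + 1)) = 0)
    (h1 : ∀ j, u.k 1 ≤ j → j < u.k 2 → l (u.v j) (u.v (j + 1)) = 1)
    (h2 : ∀ j, u.k 2 ≤ j → j < u.k 0 + u.L → l (u.v j) (u.v (j + 1)) = 2)
    (hfr : ∀ x ∈ fr S A', x ∉ Vin S u.P d → ∀ v ∈ Vin S u.P d, ¬ Adj S x v)
    (hN : ∀ b, ∀ x ∈ S, x ∉ Vin S u.P d → Metric.infDist x (FH u b) ≤ 3 / 16 * u.s →
      ∀ v ∈ Vin S u.P d, Adj S x v → v ∈ N b ∨ v ∈ De b) :
    ∀ x ∈ S, x ∉ Vin S u.P d → (∃ v ∈ Vin S u.P d, Adj S x v) →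
      (∀ l, x ∈ A' l ↔ x ∈ Bl S (Vin S u.P d) u.Lab l) ∨
      ∃ b, (∀ v ∈ Vin S u.P d, Adj S x v → v ∈ N b ∨ v ∈ De b) ∧
        x ∉ A' (((b : ℕ) : ZMod 3) + 1) ∧
        x ∉ Bl S (Vin S u.P d) u.Lab (((b : ℕ) : ZMod 3) + 1) := by
  intro x hxS hxV hex
  subst hs
  -- the class of `x`
  obtain ⟨i, hi⟩ : ∃ i, x ∈ A' i := by
    by_contra hcon
    push Not at hcon
    obtain ⟨v, hv, hxv⟩ := hex
    exact hfr x ⟨hxS, hcon⟩ hxV v hv hxv
  have hA : ∀ l', x ∈ A' l' ↔ l' = i := by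
    intro l'
    constructor
    · intro h'
      by_contra hne
      exact Set.disjoint_left.1 (hT.disj l' i hne) h' hi
    · rintro rfl; exact hi
  have hBl : ∀ l', x ∈ Bl S (Vin S u.P d) u.Lab l' ↔ u.Lab x = l' := by
    intro l'
    constructor
    · exact fun h' => h'.2.2.2
    · exact fun h' => ⟨hxS, hxV, hex, h'⟩
  obtain ⟨κ, hκ, hd⟩ := hB.lab i x hi hex
  rcases disp (int3 h0 h1 h2) hd with h | ⟨b, hb1, hb2, hb3⟩
  · left
    intro l'
    rw [hA, hBl, h, hκ]
    exact eq_comm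
  · right
    refine ⟨b, hN b x hxS hxV hb3, ?_, ?_⟩
    · rw [hA]
      intro e
      exact hb1 (hκ.trans e.symm)
    · rw [hBl]
      exact hb2

end main

end Crest.Agent.R143.Dispx951
end
end

-- ▼ part R143/Disp2_951
section

/-!
# Row 143 (S0194), CONT, (K7), MARK : labels near the first half of a mark edge (helper951)

* `near_fh` : near `FH u b` neither the position label nor the label of an edge is `b + 1`
* `near_md` : near the middle of the edge `j` only the edge `j`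
-/

set_option autoImplicit false

noncomputable section

open scoped Classical

namespace Crest.Agent.R143.Dispx951

open Set
open Crest.Agent.R158.Sp896 (V lc rc pt ed sq Cyc)
open Crest.Agent.R143.PolyUx346 (Poly)
open Crest.Agent.R143.ArcPx571 Crest.Agent.R143.K7Dx359

variable {u : Poly} {l : V → V → ZMod 3}

/-- the first half of the mark edge in parameters -/
theorem mem_FH {b : Fin 3} {y : ℂ} : y ∈ FH u b ↔ ∃ t : ℝ, 0 ≤ t ∧ t ≤ 1 / 2 ∧ y = bp u (u.k b) t := by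
  unfold FH
  rw [mid_eq, ← ep_zero, bp, seg_ep, segment_eq_Icc (by norm_num : (0 : ℝ) ≤ 1 / 2)]
  constructor
  · rintro ⟨t, ht, rfl⟩
    exact ⟨t, ht.1, ht.2, rfl⟩
  · rintro ⟨t, h0, h1, rfl⟩
    exact ⟨t, ⟨h0, h1⟩, rfl⟩

/-- sup distance from norm -/
theorem sup_lt {z w : ℂ} {r : ℝ} (h : ‖z - w‖ < r) : |z.re - w.re| < r ∧ |z.im - w.im| < r := by
  constructor
  · rw [← Complex.sub_re]
    exact lt_of_le_of_lt (Complex.abs_re_le_norm _) h
  · rw [← Complex.sub_im]
    exact lt_of_le_of_lt (Complex.abs_im_le_norm _) h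

theorem near_pt {x : ℂ} {T : Set ℂ} (hT : T.Nonempty) {r r' : ℝ} (h : Metric.infDist x T ≤ r)
    (hr : r < r') : ∃ y ∈ T, ‖x - y‖ < r' := by
  obtain ⟨y, hy, h1⟩ := (Metric.infDist_lt_iff hT).1 (lt_of_le_of_lt h hr)
  exact ⟨y, hy, by rwa [← dist_eq_norm]⟩

/-- a boundary point near the first half of the mark edge `b` -/
theorem fh_edge {b : Fin 3} {κ : ℕ} {t t' : ℝ} (h0 : 0 ≤ t) (h1 : t ≤ 1 / 2) (h0' : 0 ≤ t')
    (h1' : t' ≤ 1) (hd : ‖bp u (u.k b) t - bp u κ t'‖ < u.s / 2) :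
    u.k b ≡ κ [MOD u.L] ∨ (κ + 1 ≡ u.k b [MOD u.L] ∧ 1 / 2 < t') := by
  have hs := u.s_pos
  have C := u.cyc
  obtain ⟨hre, him⟩ := sup_lt hd
  rcases ep_sep C hs h0 (by linarith) h0' h1' (by linarith) (by linarith) with g | g | g
  · exact Or.inl g
  · exfalso
    rw [bp, bp, ← ep_mod C g t'] at hre him
    rcases nb_sep C hs (u.k b) (by linarith) h0' (Or.inl h1) with g1 | g1 <;> linarith
  · right
    refine ⟨g.symm, ?_⟩
    by_contra hcon
    push Not at hcon
    rw [bp, bp, ep_mod C g t, abs_sub_comm] at hre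
    rw [bp, bp, ep_mod C g t, abs_sub_comm] at him
    rcases nb_sep C hs κ h1' h0 (Or.inl hcon) with g1 | g1 <;> linarith


/-- the edges with the label of the arc `j` -/
theorem near_edge (h : Int3 u l) {b : Fin 3} {x : ℂ}
    (hx : Metric.infDist x (FH u b) ≤ 3 / 16 * u.s) {κ : ℕ}
    (hκ : Metric.infDist x (ed u.s (u.v κ) (u.v (κ + 1))) ≤ u.s / 8) :
    l (u.v κ) (u.v (κ + 1)) ≠ ((b : ℕ) : ZMod 3) + 1 := by
  have hs := u.s_pos
  obtain ⟨y, hy, hxy⟩ := near_pt (FH_nonempty u b) hx (by linarith : 3 / 16 * u.s < 1 / 5 * u.s)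
  obtain ⟨z, hz, hxz⟩ := near_pt ⟨_, left_mem_segment ℝ _ _⟩ hκ (by linarith : u.s / 8 < 1 / 5 * u.s)
  obtain ⟨t, t0, t1, rfl⟩ := mem_FH.1 hy
  obtain ⟨t', t0', t1', rfl⟩ := mem_ed.1 hz
  have hd : ‖bp u (u.k b) t - bp u κ t'‖ < u.s / 2 := by
    have e : bp u (u.k b) t - bp u κ t' = -(x - bp u (u.k b) t) + (x - ep u.s u.v κ t') := by
      unfold bp; ring
    rw [e]
    refine lt_of_le_of_lt (norm_add_le _ _) ?_
    rw [norm_neg]
    linarith
  rcases fh_edge t0 t1 t0' t1' hd with g | ⟨g, -⟩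
  · have := lb_at h b g.symm
    unfold lb at this
    rw [this]
    exact z3b b
  · have := lb_prev h b g
    unfold lb at this
    rw [this]
    exact z3d b

/-- the position label near the first half of the mark edge -/
theorem near_lab' {b : Fin 3} {x : ℂ} (hx : Metric.infDist x (FH u b) ≤ 3 / 16 * u.s) :
    u.Lab x ≠ ((b : ℕ) : ZMod 3) + 1 := by
  have hs := u.s_pos
  intro hcon
  obtain ⟨j, hnear, hlab, -⟩ := Poly.near_lab (u := u) x
  rw [hlab] at hcon
  obtain ⟨y, hy, hxy⟩ := near_pt (FH_nonempty u b) hx (by linarith : 3 / 16 * u.s < 1 / 5 * u.s)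
  obtain ⟨t, t0, t1, rfl⟩ := mem_FH.1 hy
  obtain ⟨i, hi⟩ := cover_arc (u := u) (u.k b) t0 (by linarith)
  have h2 : Metric.infDist x (u.Arc j) < 1 / 5 * u.s := by
    refine lt_of_le_of_lt (hnear i) (lt_of_le_of_lt (Metric.infDist_le_dist_of_mem hi) ?_)
    rw [dist_eq_norm]; exact hxy
  have hne' : (u.Arc j).Nonempty := by
    refine ⟨bp u (u.k j) (1 / 2), arc_iff.2 ⟨u.k j, 1 / 2, by norm_num, by norm_num, le_rfl, ?_, rfl⟩⟩
    have : (u.k j : ℝ) ≤ u.k' j := by exact_mod_cast (k_lt j).le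
    linarith
  obtain ⟨z, hz, hxz⟩ := (Metric.infDist_lt_iff hne').1 h2
  rw [dist_eq_norm] at hxz
  obtain ⟨a, t', t0', t1', ha, ha', rfl⟩ := arc_iff.1 hz
  have hd : ‖bp u (u.k b) t - bp u a t'‖ < u.s / 2 := by
    have e : bp u (u.k b) t - bp u a t' = -(x - bp u (u.k b) t) + (x - bp u a t') := by ring
    rw [e]
    refine lt_of_le_of_lt (norm_add_le _ _) ?_
    rw [norm_neg]
    linarith
  have a1 : u.k j ≤ a := by
    by_contra hcon
    push Not at hcon
    have : (a : ℝ) + 1 ≤ u.k j := by exact_mod_cast hcon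
    linarith
  have a2 : a ≤ u.k' j := by
    by_contra hcon
    push Not at hcon
    have : (u.k' j : ℝ) + 1 ≤ a := by exact_mod_cast hcon
    linarith
  have k1 := u.k01
  have k2 := u.k12
  have k3 := u.k20
  have e0 : u.k' 0 = u.k 1 := by unfold Poly.k'; simp
  have e1 : u.k' 1 = u.k 2 := by unfold Poly.k'; simp
  have e2 : u.k' 2 = u.k 0 + u.L := by unfold Poly.k'; simp
  -- an index in an interval of length `< L`
  have uniq : ∀ p q : ℕ, p ≡ q [MOD u.L] → q ≤ p → p < q + u.L → p = q := by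
    intro p q h1 h2 h3
    have h4 : u.L ∣ p - q := (Nat.modEq_iff_dvd' h2).1 h1.symm
    have h5 : p - q = 0 := Nat.eq_zero_of_dvd_of_lt h4 (by omega)
    omega
  rcases fh_edge t0 t1 t0' t1' hd with g | ⟨g, g'⟩
  · -- the arc `b + 1` does not contain points of the edge `k b`
    have hb3 : b = 0 ∨ b = 1 ∨ b = 2 := by omega
    have hj3 : j = 0 ∨ j = 1 ∨ j = 2 := by omega
    rcases hb3 with rfl | rfl | rfl <;> rcases hj3 with rfl | rfl | rfl
    all_goals first
      | exact absurd hcon (by decide)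
      | skip
    · -- b = 0, j = 1
      rw [e1] at a2
      have := uniq a (u.k 0) g.symm (by omega) (by omega)
      omega
    · -- b = 1, j = 2
      rw [e2] at a2
      have := uniq a (u.k 1) g.symm (by omega) (by omega)
      omega
    · -- b = 2, j = 0
      rw [e0] at a2
      have h1 : a + u.L ≡ u.k 2 [MOD u.L] := by
        refine Nat.ModEq.trans ?_ g.symm
        show (a + u.L) % u.L = a % u.L
        simp
      have := uniq (a + u.L) (u.k 2) h1 (by omega) (by omega)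
      omega
  · -- the edge before the mark edge: only its second half is near
    have hb3 : b = 0 ∨ b = 1 ∨ b = 2 := by omega
    have hj3 : j = 0 ∨ j = 1 ∨ j = 2 := by omega
    rcases hb3 with rfl | rfl | rfl <;> rcases hj3 with rfl | rfl | rfl
    all_goals first
      | exact absurd hcon (by decide)
      | skip
    · -- b = 0, j = 1 : `a + 1 ≡ k 0`, `k 1 ≤ a ≤ k 2`
      rw [e1] at a2 ha'
      have h1 : a + 1 = u.k 0 + u.L := by
        have h2 : a + 1 ≡ u.k 0 + u.L [MOD u.L] := by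
          refine g.trans ?_
          show u.k 0 % u.L = (u.k 0 + u.L) % u.L
          simp
        rcases Nat.lt_or_ge (a + 1) (u.k 0 + u.L) with h3 | h3
        · have := uniq (u.k 0 + u.L) (a + 1) h2.symm (by omega) (by omega)
          omega
        · omega
      have h3 : a = u.k 2 := by omega
      have h4 : (a : ℝ) = u.k 2 := by rw [h3]
      linarith
    · -- b = 1, j = 2 : `a + 1 ≡ k 1`, `k 2 ≤ a ≤ k 0 + L`
      rw [e2] at a2 ha'
      have h1 : a + 1 = u.k 1 + u.L := by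
        have h2 : a + 1 ≡ u.k 1 + u.L [MOD u.L] := by
          refine g.trans ?_
          show u.k 1 % u.L = (u.k 1 + u.L) % u.L
          simp
        have := uniq (u.k 1 + u.L) (a + 1) h2.symm (by omega) (by omega)
        omega
      have h3 : a = u.k 0 + u.L := by omega
      have h4 : (a : ℝ) = ((u.k 0 + u.L : ℕ) : ℝ) := by rw [h3]
      linarith
    · -- b = 2, j = 0 : `a + 1 ≡ k 2`, `k 0 ≤ a ≤ k 1`
      rw [e0] at a2 ha'
      have h1 : a + 1 = u.k 2 := by
        have := uniq (u.k 2) (a + 1) g.symm (by omega) (by omega)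
        omega
      have h3 : a = u.k 1 := by omega
      have h4 : (a : ℝ) = u.k 1 := by rw [h3]
      linarith

/-- **near the first half of the mark edge `b` there is no label `b + 1`** -/
theorem near_fh (h : Int3 u l) {b : Fin 3} {x : ℂ}
    (hx : Metric.infDist x (FH u b) ≤ 3 / 16 * u.s) :
    u.Lab x ≠ ((b : ℕ) : ZMod 3) + 1 ∧
      ∀ κ, Metric.infDist x (ed u.s (u.v κ) (u.v (κ + 1))) ≤ u.s / 8 →
        l (u.v κ) (u.v (κ + 1)) ≠ ((b : ℕ) : ZMod 3) + 1 :=
  ⟨near_lab' hx, fun _ hκ => near_edge h hx hκ⟩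

/-- **near the middle of the edge `j` there is only the edge `j`** -/
theorem near_md {j κ : ℕ} {x : ℂ} (hx : ‖x - u.mid j‖ ≤ u.s / 8)
    (hκ : Metric.infDist x (ed u.s (u.v κ) (u.v (κ + 1))) ≤ u.s / 8) :
    j ≡ κ [MOD u.L] := by
  have hs := u.s_pos
  obtain ⟨z, hz, hxz⟩ := near_pt ⟨_, left_mem_segment ℝ _ _⟩ hκ (by linarith : u.s / 8 < 1 / 5 * u.s)
  obtain ⟨t', t0', t1', rfl⟩ := mem_ed.1 hz
  have hd : ‖ep u.s u.v κ t' - u.mid j‖ < u.s / 2 := by
    have e : ep u.s u.v κ t' - u.mid j = -(x - ep u.s u.v κ t') + (x - u.mid j) := by ring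
    rw [e]
    refine lt_of_le_of_lt (norm_add_le _ _) ?_
    rw [norm_neg]
    linarith
  obtain ⟨hre, him⟩ := sup_lt hd
  rw [mid_eq, bp] at hre him
  exact mid_sep u.cyc hs t0' t1' hre him

theorem near_md_lb {j κ : ℕ} {x : ℂ} (hx : ‖x - u.mid j‖ ≤ u.s / 8)
    (hκ : Metric.infDist x (ed u.s (u.v κ) (u.v (κ + 1))) ≤ u.s / 8) :
    l (u.v κ) (u.v (κ + 1)) = l (u.v j) (u.v (j + 1)) :=
  lb_mod (near_md hx hκ).symm

end Crest.Agent.R143.Dispx951
end
end

-- ▼ part R143/Mark_165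

/-!
# Row 143 (S0194), CONT (K7): MARK (helper165)

* `way_pth` : a deep site with a way inwards is joined inside the deep sites to the site `g` at the
  inner corner of the ring before the mark
* `Nn`, `Dd` : the sites joined to `g` near the mark, the components of the other deep sites near the
  first half of the mark edge
* `dead` : the sites of `Dd` are within `6 d` of the first vertex of the mark edge
* **`mark`** `: K7Dx359.MARK`
-/

set_option autoImplicit false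

noncomputable section

open scoped Classical

namespace Crest.Agent.R143.Markx165

open Set
open Crest.Agent.R158.Sp896 (V lc rc pt ed sq Cyc)
open Crest.ProbabilityR.Voronoi (voronoiCell)
open Crest.Agent.R143.B0x346 (GP)
open Crest.Agent.R143.JColx54 (Adj)
open Crest.Agent.R143.RE0x723 (Pth)
open Crest.Agent.R143.K33x877 (Tr fr CtrT CtrX)
open Crest.Agent.R143.Brkx478 (Bk Nb Conn cells con_cells cells_finite)
open Crest.Agent.R143.Tenx416 (Pg)
open Crest.Agent.R143.NetVx346 (Vin Bl)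
open Crest.Agent.R143.PolyUx346 (Poly)
open Crest.Agent.R143.LabDx755 (W md ev Bs rs)
open Crest.Agent.R143.Dispx951 (FH FH_nonempty int3 lb_at lb_prev lab_field Int3)
open Crest.Agent.R143.G6Wx723 (exists_cell)
open Crest.Agent.R143.Inwx741 (mem_vin step1 step1b nadj W_p0 md_p0)
open Crest.Agent.R143.Inwx165 (Way dich Shape shape)
open Crest.Agent.R143.K7Dx359

variable {S : Finset ℂ} {A A' : ZMod 3 → Set ℂ} {x0 : ℂ} {L d s C : ℝ}

/-- a deep site with a way inwards is joined to the end of the way -/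
theorem way_pth {P : Set ℂ} (hS : GP (S : Set ℂ)) (h3 : 3 ≤ S.card) (hd : 0 < d) {p : ℂ} {R : ℝ}
    (H : ∀ z, ‖z - p‖ ≤ R → ∃ a ∈ S, ‖a - z‖ < d) {w G g : ℂ} (hw : w ∈ Vin S P d)
    (hW : Way P d w G) (hwR : ‖w - p‖ + 3 * d ≤ R) (hGR : ‖G - p‖ ≤ R) (hg : g ∈ S)
    (hgG : G ∈ voronoiCell (S : Set ℂ) g) :
    Pth S {z | z ∈ Vin S P d ∧ ‖z - p‖ ≤ R + d} w g := by
  obtain ⟨e, T, he, hT, hT3, h1, h2⟩ := hW
  have hT0 : 0 ≤ T := by linarith
  have hb : ∀ t ∈ Icc (0 : ℝ) T, ‖w + t * e - p‖ ≤ R := by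
    intro t ht
    have e1 : w + t * e - p = (w - p) + t * e := by ring
    rw [e1]
    refine (norm_add_le _ _).trans ?_
    rw [norm_mul, he, mul_one, Complex.norm_real, Real.norm_of_nonneg ht.1]
    have := ht.2
    linarith
  have hne : S.Nonempty := ⟨g, hg⟩
  obtain ⟨c, hc, hcc⟩ := exists_cell hne (w + T * e)
  have q1 := step1 hS h3 hw he hd hT (fun t ht => by
    obtain ⟨a, ha, h⟩ := H _ (hb t ht)
    exact ⟨a, ha, by rw [norm_sub_rev]; exact h.le⟩) (fun t ht => h1 t ht.1 ht.2) hc hcc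
  have hseg : ∀ z ∈ segment ℝ (w + T * e) G, ‖z - p‖ ≤ R := by
    intro z hz
    have h4 : segment ℝ (w + T * e) G ⊆ Metric.closedBall p R :=
      (convex_closedBall p R).segment_subset (by
        rw [mem_closedBall_iff_norm]; exact hb T ⟨hT0, le_rfl⟩)
        (by rw [mem_closedBall_iff_norm]; exact hGR)
    have := h4 hz
    rwa [mem_closedBall_iff_norm] at this
  have q2 := step1b (a := c) (b := g) hS h3 (fun z hz => by
    obtain ⟨a, ha, h⟩ := H _ (hseg z hz)
    exact ⟨a, ha, by rw [norm_sub_rev]; exact h.le⟩) h2 hc hg hcc hgG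
  refine (q1.mono ?_).trans (q2.mono ?_)
  · rintro z ⟨hz, t, ht, h⟩
    refine ⟨hz, ?_⟩
    have e1 : z - p = (z - (w + t * e)) + (w + t * e - p) := by ring
    rw [e1]
    have := norm_add_le (z - (w + t * e)) (w + t * e - p)
    have := hb t ht
    linarith
  · rintro z ⟨hz, y, hy, h⟩
    refine ⟨hz, ?_⟩
    have e1 : z - p = (z - y) + (y - p) := by ring
    rw [e1]
    have := norm_add_le (z - y) (y - p)
    have := hseg y hy
    linarith

/-- the sites joined to `g` inside the deep sites near the mark `m` -/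
def Nn (V : Finset ℂ) (S : Finset ℂ) (m : ℂ) (r : ℝ) (g : ℂ) : Set ℂ :=
  {x | Pth S {z | z ∈ V ∧ ‖z - m‖ ≤ r} x g}

theorem nn_con {V : Finset ℂ} {m g : ℂ} {r : ℝ} : ∀ x ∈ Nn V S m r g, ∀ y ∈ Nn V S m r g,
    Pth S (Nn V S m r g) x y := by
  have key : ∀ x ∈ Nn V S m r g, Pth S (Nn V S m r g) x g := fun x hx =>
    (Pth.self hx).mono fun z hz => hz.2
  exact fun x hx y hy => (key x hx).trans (key y hy).symm

/-- a site next to `Nn` -/
theorem nn_step {V : Finset ℂ} {m g x y : ℂ} {r : ℝ} (hy : y ∈ Nn V S m r g) (hx : x ∈ V)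
    (hr : ‖x - m‖ ≤ r) (h : Adj S x y) : x ∈ Nn V S m r g :=
  (Pth.single (V := {z | z ∈ V ∧ ‖z - m‖ ≤ r}) ⟨hx, hr⟩ h hy.1).trans hy

/-- the components of the deep sites near `T` which are not in `N` -/
def Dd (V : Finset ℂ) (S : Finset ℂ) (T : Set ℂ) (r : ℝ) (N : Set ℂ) : Set ℂ :=
  {x | ∃ w ∈ V, Metric.infDist w T ≤ r ∧ w ∉ N ∧ Pth S {z | z ∈ V} w x}

/-! ### the polygon -/

variable {u : Poly} {b : Fin 3}

/-- the region is well inside the disc -/
theorem inball (hU : Cm A x0 L u.s u.U) {z : ℂ} (hz : z ∈ u.P) : ‖z - x0‖ ≤ L - 2 * u.s := by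
  obtain ⟨q, hq, hzq⟩ := mem_iUnion₂.1 hz
  have h1 := hU.sub _ hq
  refine (h1 _ (Or.inl rfl)).1 z ?_
  exact mem_iUnion₂.2 ⟨q, rfl, hzq⟩

/-- index of the edge before the mark edge -/
def ki (u : Poly) (b : Fin 3) : ℕ := u.k b + u.L - 1

theorem ki_succ (u : Poly) (b : Fin 3) : ki u b + 1 = u.k b + u.L := by
  have := u.cyc.four_le
  unfold ki
  omega

theorem v_ki (u : Poly) (b : Fin 3) : u.v (ki u b + 1) = u.v (u.k b) := by
  rw [ki_succ, u.cyc.per]

theorem v_ki' (u : Poly) (b : Fin 3) : u.v (ki u b + 1 + 1) = u.v (u.k b + 1) := by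
  rw [ki_succ, show u.k b + u.L + 1 = u.k b + 1 + u.L by ring, u.cyc.per]

/-- first vertex of the mark edge -/
def p0 (u : Poly) (b : Fin 3) : ℂ := pt u.s (u.v (u.k b))

theorem p0_eq (u : Poly) (b : Fin 3) : pt u.s (u.v (ki u b + 1)) = p0 u b := by
  rw [v_ki]; rfl

theorem p0_mem (u : Poly) (b : Fin 3) : p0 u b ∈ u.P := by
  have hs := u.s_pos
  have key : ∀ Q : ℂ → Prop, Shape u.s (Pg u.s (cells (u.U : Set Bk)))
      (pt u.s (u.v (ki u b + 1))) (ev u.v (ki u b)) Q → Q 0 → p0 u b ∈ u.P := by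
    intro Q h hQ
    have := (h 0 (by simpa using hs) (by simpa using hs)).2 hQ
    rwa [zero_mul, add_zero, p0_eq] at this
  rcases shape hs u.cyc (ki u b) with ⟨-, h⟩ | ⟨-, h⟩ | ⟨-, h⟩
  · exact key _ h (by simp)
  · exact key _ h (by simp)
  · exact key _ h (by simp)

theorem mid_p0 (u : Poly) (b : Fin 3) : ‖u.mid (u.k b) - p0 u b‖ = u.s / 2 := by
  have h := (md_p0 u.s_pos u.cyc (ki u b)).2
  rw [p0_eq] at h
  have e : md u.s u.v (ki u b + 1) = u.mid (u.k b) := by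
    unfold md Poly.mid
    rw [v_ki, v_ki']
  rwa [e] at h

theorem fh_p0 {w : ℂ} {r : ℝ} (h : Metric.infDist w (FH u b) ≤ r) :
    ‖w - p0 u b‖ ≤ r + u.s / 2 := by
  refine le_of_forall_pos_lt_add fun ε hε => ?_
  obtain ⟨y, hy, h1⟩ := (Metric.infDist_lt_iff (FH_nonempty u b)).1
    (lt_of_le_of_lt h (by linarith : r < r + ε))
  have h2 : FH u b ⊆ Metric.closedBall (p0 u b) (u.s / 2) :=
    (convex_closedBall _ _).segment_subset
      (Metric.mem_closedBall_self (by have := u.s_pos; linarith))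
      (by rw [mem_closedBall_iff_norm, mid_p0])
  have h3 := h2 hy
  rw [mem_closedBall_iff_norm] at h3
  rw [dist_eq_norm] at h1
  have e : w - p0 u b = (w - y) + (y - p0 u b) := by ring
  rw [e]
  have := norm_add_le (w - y) (y - p0 u b)
  linarith

theorem infDist_fh {w : ℂ} : Metric.infDist w (FH u b) ≤ ‖w - p0 u b‖ := by
  rw [← dist_eq_norm]
  exact Metric.infDist_le_dist_of_mem (left_mem_segment ℝ _ _)

/-! ### the marks -/

section main

variable {l : V → V → ZMod 3} {g : ℂ}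

/-- sites near the vertex of the mark -/
theorem hol (hS : Stg S A x0 L d u.s) (hU : Cm A x0 L u.s u.U) (b : Fin 3) :
    ∀ z, ‖z - p0 u b‖ ≤ 3 * u.s / 2 → ∃ a ∈ S, ‖a - z‖ < d := by
  intro z hz
  have h1 := inball hU (p0_mem u b)
  have h2 := hS.ds
  have h3 := hS.dpos
  refine hS.dns.hole z ?_
  have e : z - x0 = (z - p0 u b) + (p0 u b - x0) := by ring
  rw [e]
  have := norm_add_le (z - p0 u b) (p0 u b - x0)
  linarith

/-- **the alternative for sites** -/
theorem alt (hS : Stg S A x0 L d u.s) (hU : Cm A x0 L u.s u.U) (hg : g ∈ S)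
    (hgc : W u.s (u.s / 16) u.v (ki u b) ∈ voronoiCell (S : Set ℂ) g) {w : ℂ}
    (hw : w ∈ Vin S u.P d) (hn : ‖w - p0 u b‖ ≤ 3 / 4 * u.s) :
    w ∈ Nn (Vin S u.P d) S (u.mid (u.k b)) (2 * u.s) g ∨ ‖w - p0 u b‖ ≤ 6 * d := by
  have hs := u.s_pos
  have h2 := hS.ds
  have h3 := hS.dpos
  have hd := dich (U := (u.U : Set Bk)) hs h3 (by linarith) u.cyc (ki u b) (w := w)
    (mem_vin.1 hw).2 (by rw [p0_eq]; exact hn)
  rw [p0_eq] at hd
  rcases hd with hd | hd
  · left
    have hG := W_p0 (s := u.s) (μ := u.s / 16) (by linarith) u.cyc (ki u b)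
    rw [p0_eq] at hG
    have q := way_pth hS.dns.gp hS.card h3 (p := p0 u b) (R := u.s) (fun z hz =>
      hol hS hU b z (by linarith)) hw hd (by linarith) (by linarith) hg hgc
    refine q.mono ?_
    rintro z ⟨hz, h4⟩
    refine ⟨hz, ?_⟩
    have h5 := mid_p0 u b
    have e : z - u.mid (u.k b) = (z - p0 u b) - (u.mid (u.k b) - p0 u b) := by ring
    rw [e]
    have := norm_sub_le (z - p0 u b) (u.mid (u.k b) - p0 u b)
    linarith
  · exact Or.inr hd

/-- **dead sites are near the vertex** -/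
theorem dead (hS : Stg S A x0 L d u.s) (hU : Cm A x0 L u.s u.U) (hg : g ∈ S)
    (hgc : W u.s (u.s / 16) u.v (ki u b) ∈ voronoiCell (S : Set ℂ) g) {x : ℂ}
    (hx : x ∈ Dd (Vin S u.P d) S (FH u b) (u.s / 4)
      (Nn (Vin S u.P d) S (u.mid (u.k b)) (2 * u.s) g)) : ‖x - p0 u b‖ ≤ 6 * d := by
  have hs := u.s_pos
  have h2 := hS.ds
  have h3 := hS.dpos
  obtain ⟨w, hw, hwT, hwN, hp⟩ := hx
  have key : ‖x - p0 u b‖ ≤ 6 * d ∧
      x ∉ Nn (Vin S u.P d) S (u.mid (u.k b)) (2 * u.s) g := by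
    refine hp.ind (P := fun y => ‖y - p0 u b‖ ≤ 6 * d ∧
      y ∉ Nn (Vin S u.P d) S (u.mid (u.k b)) (2 * u.s) g) ⟨?_, hwN⟩ ?_
    · rcases alt hS hU hg hgc hw (by have := fh_p0 hwT; linarith) with h | h
      · exact absurd h hwN
      · exact h
    · rintro a a' ha ha' haa ⟨i1, i2⟩
      have h4 := hS.adj haa
      have h5 : ‖a' - p0 u b‖ ≤ 3 / 4 * u.s := by
        have e : a' - p0 u b = (a - p0 u b) - (a - a') := by ring
        rw [e]
        have := norm_sub_le (a - p0 u b) (a - a')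
        linarith
      have h6 : a' ∉ Nn (Vin S u.P d) S (u.mid (u.k b)) (2 * u.s) g := by
        intro h
        refine i2 (nn_step h ha ?_ haa)
        have h5 := mid_p0 u b
        have e : a - u.mid (u.k b) = (a - p0 u b) - (u.mid (u.k b) - p0 u b) := by ring
        rw [e]
        have := norm_sub_le (a - p0 u b) (u.mid (u.k b) - p0 u b)
        linarith
      refine ⟨?_, h6⟩
      rcases alt hS hU hg hgc ha' h5 with h | h
      · exact absurd h h6
      · exact h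
  exact key.1

theorem z3 (b : Fin 3) (i : ZMod 3) (h : i ≠ ((b : ℕ) : ZMod 3) + 1) :
    i = ((b : ℕ) : ZMod 3) ∨ i = ((b : ℕ) : ZMod 3) + 2 := by
  revert i b
  decide

/-- **MARK** -/
theorem mark : MARK := by
  intro S A A' x0 L d s C l u hC hus hS hLay hU hB h0 h1 h2
  subst hus
  have hs := u.s_pos
  have hds := hS.ds
  have hd := hS.dpos
  have hI : Int3 u l := int3 h0 h1 h2
  obtain ⟨c1, c2, -⟩ := (Compx66.comp S A x0 L d u.s hS).1 u.U hU
  -- a site next to the deep sites is deep or in a class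
  have hcl : ∀ x ∈ S, x ∉ Vin S u.P d → (∃ v ∈ Vin S u.P d, Adj S x v) → ∃ i, x ∈ A' i := by
    intro x hx hxV hv
    by_contra hcon
    push Not at hcon
    have hf : x ∈ fr S A' := ⟨hx, hcon⟩
    rw [hLay.fr] at hf
    obtain ⟨v, hv, hxv⟩ := hv
    exact hxV (c2 v hv x hf hxv.symm)
  -- the ring
  have hbase : Bs u.s (u.s / 16) (cells (u.U : Set Bk)) u.L u.v :=
    LabBx951.base u.s (u.s / 16) _ u.L u.v hs (by linarith) (by linarith)
      (cells_finite u.U.finite_toSet) (con_cells u.con)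
      (fun q hq q' hq' => by
        have := con_cells u.con' q (by rw [Brkx478.cells_compl]; exact hq) q'
          (by rw [Brkx478.cells_compl]; exact hq')
        rwa [Brkx478.cells_compl] at this) u.cyc
  have hne : S.Nonempty := by
    rw [← Finset.card_pos]
    have := hS.card
    omega
  -- the sites `g b`
  have hg : ∀ b : Fin 3, ∃ g ∈ S,
      W u.s (u.s / 16) u.v (ki u b) ∈ voronoiCell (S : Set ℂ) g := fun b => exists_cell hne _
  choose g hgS hgc using hg
  set N : Fin 3 → Set ℂ := fun b => Nn (Vin S u.P d) S (u.mid (u.k b)) (2 * u.s) (g b) with hN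
  set De : Fin 3 → Set ℂ := fun b => Dd (Vin S u.P d) S (FH u b) (u.s / 4) (N b) with hDe
  have hdead : ∀ b, ∀ x ∈ De b, ‖x - p0 u b‖ ≤ 6 * d := fun b x hx =>
    dead hS hU (hgS b) (hgc b) hx
  refine ⟨N, De, ⟨?_, ?_, ?_, ?_, ?_, ?_, ?_, ?_⟩⟩
  · -- `lab`
    refine lab_field hLay.tr rfl hB h0 h1 h2 ?_ ?_
    · intro x hx hxV v hv hxv
      obtain ⟨i, hi⟩ := hcl x hx.1 hxV ⟨v, hv, hxv⟩
      exact hx.2 i hi
    · intro b x hx hxV hxT v hv hxv
      by_cases hvN : v ∈ N b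
      · exact Or.inl hvN
      · refine Or.inr ⟨v, hv, ?_, hvN, Pth.refl hv⟩
        have h3 : Metric.infDist v (FH u b) ≤ Metric.infDist x (FH u b) + dist v x :=
          Metric.infDist_le_infDist_add_dist
        have h4 := hS.adj hxv
        rw [dist_comm, dist_eq_norm] at h3
        linarith
  · exact fun b x hx => hx.1.1
  · exact fun b => nn_con
  · exact fun b x hx => hx.1.2
  · -- `nadj`
    intro b i hi
    have key : ∀ j, j = ki u b ∨ j = ki u b + 1 → l (u.v j) (u.v (j + 1)) = i →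
        ∃ x ∈ N b, ∃ y ∈ A' i, Adj S x y := by
      intro j hj hji
      obtain ⟨x, y, hx, hy, hyV, hxy, hyn, hp⟩ := nadj hS.dns.gp hS.card u.cyc hs hd
        (by linarith) (ki u b) (fun z hz => hbase.ring _ z hz)
        (by rw [p0_eq]; exact hol hS hU b) (hgS b) (hgc b) hj
      refine ⟨x, ?_, y, ?_, hxy⟩
      · refine hp.mono ?_
        rintro z ⟨hz, h4⟩
        rw [p0_eq] at h4
        refine ⟨hz, ?_⟩
        have h5 := mid_p0 u b
        have e : z - u.mid (u.k b) = (z - p0 u b) - (u.mid (u.k b) - p0 u b) := by ring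
        rw [e]
        have := norm_sub_le (z - p0 u b) (u.mid (u.k b) - p0 u b)
        linarith
      · obtain ⟨i', hi'⟩ := hcl y hy hyV ⟨x, hx, hxy.symm⟩
        obtain ⟨κ, hκ, hκd⟩ := hB.lab i' y hi' ⟨x, hx, hxy.symm⟩
        have hm : ‖y - u.mid j‖ ≤ u.s / 8 := by
          have e : u.mid j = md u.s u.v j := rfl
          rw [e]
          linarith
        have h6 := Dispx951.near_md_lb (l := l) hm hκd
        rw [hκ, hji] at h6
        rwa [h6] at hi'
    rcases z3 b i hi with e | e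
    · refine key (ki u b + 1) (Or.inr rfl) ?_
      rw [e]
      exact lb_at hI b (by rw [ki_succ]; unfold Nat.ModEq; simp)
    · refine key (ki u b) (Or.inl rfl) ?_
      rw [e]
      exact lb_prev hI b (by rw [ki_succ]; unfold Nat.ModEq; simp)
  · rintro b x ⟨w, -, -, -, hp⟩
    exact hp.snd
  · rintro b x ⟨w, hw, hwT, hwN, hp⟩ y hy hxy
    exact ⟨w, hw, hwT, hwN, hp.tail hxy hy⟩
  · intro b x hx y hxy
    have h3 := hdead b x hx
    have hxV : x ∈ Vin S u.P d := by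
      obtain ⟨w, -, -, -, hp⟩ := hx
      exact hp.snd
    have h4 := hS.adj hxy
    have h5 : Metric.infDist y (FH u b) ≤ 3 / 16 * u.s := by
      refine (infDist_fh (u := u) (b := b)).trans ?_
      have e : y - p0 u b = (x - p0 u b) - (x - y) := by ring
      rw [e]
      have := norm_sub_le (x - p0 u b) (x - y)
      linarith
    obtain ⟨n1, n2⟩ := Dispx951.near_fh hI h5
    refine ⟨fun hyA => ?_, fun hyB => n1 hyB.2.2.2⟩
    obtain ⟨κ, hκ, hκd⟩ := hB.lab _ y hyA ⟨x, hxV, hxy.symm⟩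
    exact n2 κ hκd hκ

end main

end Crest.Agent.R143.Markx165
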