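import Crest.Agent.R143.PP0_831
import Crest.Agent.R143.G6T_408
import Crest.Agent.R202.Miranda
import Crest.Agent.R143.Neck1_921
import Crest.Agent.R143.G6W_723

-- ▼ part R143/TasI_372
section

/-!
# Row 143 (S0194), block N3: annealed RSW (Tassion), interface (helper372)

Everything at scale `1` (`cfg 1 ω`).  No E3, no ZF.

* `Bk X` : closed black region of the coloured configuration `X` (union of the closed Voronoi cells of
  the black points)
* `Jn W K A B` : a path connected subset of `W ∩ K` meets `A` and `B`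
* `ev K A B`, `Hc`, `Vc` (crossings of rectangles), `Ring`
* `IncEv E` : black-increasing events which are local up to small probability
* leaves `FKG`, `CRI`, `SYM`, `SQ`, `QI`, `POS`; result `RSW`
-/

set_option autoImplicit false

noncomputable section

namespace Crest.Agent.R143.TasIx372

open MeasureTheory Set Filter Topology
open Crest.ProbabilityR.Voronoi
open Crest.Agent.R143.PP0x831

/-- closed black region of a coloured configuration -/
def Bk (X : Set (ℂ × Bool)) : Set ℂ :=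
  {z | ∃ b : ℂ, (b, true) ∈ X ∧ ∀ p ∈ X, ‖z - b‖ ≤ ‖z - p.1‖}


/-- a path connected subset of `W ∩ K` meets `A` and `B` -/
def Jn (W K A B : Set ℂ) : Prop :=
  ∃ S : Set ℂ, IsPathConnected S ∧ S ⊆ W ∩ K ∧ (S ∩ A).Nonempty ∧ (S ∩ B).Nonempty

/-- closed rectangle -/
def Rc (x0 x1 y0 y1 : ℝ) : Set ℂ := {z | x0 ≤ z.re ∧ z.re ≤ x1 ∧ y0 ≤ z.im ∧ z.im ≤ y1}

/-- crossing event -/
def ev (K A B : Set ℂ) : Set Sample := {ω | Jn (Bk (cfg 1 ω)) K A B}

/-- horizontal black crossing of a rectangle -/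
def Hc (x0 x1 y0 y1 : ℝ) : Set Sample := ev (Rc x0 x1 y0 y1) {z | z.re = x0} {z | z.re = x1}

/-- vertical black crossing of a rectangle -/
def Vc (x0 x1 y0 y1 : ℝ) : Set Sample := ev (Rc x0 x1 y0 y1) {z | z.im = y0} {z | z.im = y1}

/-- four long crossings around `z` between the squares of half side `r` and `2 r` -/
def Ring (z : ℂ) (r : ℝ) : Set Sample :=
  Hc (z.re - 2 * r) (z.re + 2 * r) (z.im + r) (z.im + 2 * r) ∩
  Hc (z.re - 2 * r) (z.re + 2 * r) (z.im - 2 * r) (z.im - r) ∩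
  Vc (z.re - 2 * r) (z.re - r) (z.im - 2 * r) (z.im + 2 * r) ∩
  Vc (z.re + r) (z.re + 2 * r) (z.im - 2 * r) (z.im + 2 * r)











end Crest.Agent.R143.TasIx372
end
end

-- ▼ part R143/TasDual_897
section

/-!
# Row 143 (S0194), block N3: duality in a rectangle (helper897)

* `rect_dual` : a rectangle covered by two closed sets has a left-right preconnected subset in the
  first one or a bottom-top preconnected subset in the second one
* `jn_of_preconn` : a preconnected subset of a finite union of closed convex sets inside a convex set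
  gives a path connected one
-/

set_option autoImplicit false

noncomputable section

namespace Crest.Agent.R143.TasDualx897

open Set Filter Topology Metric
open Crest.Agent.R143.G6Tx408 Crest.Agent.R143.TasIx372

theorem isCompact_Rc (x0 x1 y0 y1 : ℝ) : IsCompact (Rc x0 x1 y0 y1) := by
  have h : Rc x0 x1 y0 y1 = Complex.equivRealProdCLM ⁻¹' (Icc x0 x1 ×ˢ Icc y0 y1) := by
    ext z
    simp only [Rc, mem_ofPred_eq, mem_preimage, mem_prod, mem_Icc]
    constructor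
    · rintro ⟨a, b, c, d⟩; exact ⟨⟨a, b⟩, ⟨c, d⟩⟩
    · rintro ⟨⟨a, b⟩, ⟨c, d⟩⟩; exact ⟨a, b, c, d⟩
  rw [h]
  exact Complex.equivRealProdCLM.toHomeomorph.isCompact_preimage.2
    (isCompact_Icc.prod isCompact_Icc)


/-- **duality in a rectangle** -/
theorem rect_dual {x0 x1 y0 y1 : ℝ} (hx : x0 < x1) (hy : y0 < y1) {F1 F2 : Set ℂ}
    (h1 : IsClosed F1) (h2 : IsClosed F2) (hc : Rc x0 x1 y0 y1 ⊆ F1 ∪ F2) :
    (∃ S ⊆ Rc x0 x1 y0 y1 ∩ F1, IsPreconnected S ∧ (S ∩ {z | z.re = x0}).Nonempty ∧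
      (S ∩ {z | z.re = x1}).Nonempty) ∨
    (∃ S ⊆ Rc x0 x1 y0 y1 ∩ F2, IsPreconnected S ∧ (S ∩ {z | z.im = y0}).Nonempty ∧
      (S ∩ {z | z.im = y1}).Nonempty) := by
  by_contra hcon
  push Not at hcon
  obtain ⟨c1, c2⟩ := hcon
  set K := Rc x0 x1 y0 y1 with hK
  have hKc : IsCompact K := isCompact_Rc _ _ _ _
  have clre : ∀ t : ℝ, IsClosed {z : ℂ | z.re = t} := fun t =>
    isClosed_eq Complex.continuous_re continuous_const
  have clim : ∀ t : ℝ, IsClosed {z : ℂ | z.im = t} := fun t =>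
    isClosed_eq Complex.continuous_im continuous_const
  obtain ⟨W, W', hW, hW', hWW, hWd, hWL, hWR⟩ := cut (hKc.inter_right h1) (clre x0) (clre x1)
    (fun S hS hSc hS1 => by
      rw [Set.not_nonempty_iff_eq_empty]
      exact c1 S hS hSc hS1)
  obtain ⟨V, V', hV, hV', hVV, hVd, hVB, hVT⟩ := cut (hKc.inter_right h2) (clim y0) (clim y1)
    (fun S hS hSc hS1 => by
      rw [Set.not_nonempty_iff_eq_empty]
      exact c2 S hS hSc hS1)
  have hWK : W ⊆ K ∩ F1 := hWW ▸ subset_union_left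
  have hWK' : W' ⊆ K ∩ F1 := hWW ▸ subset_union_right
  have hVK : V ⊆ K ∩ F2 := hVV ▸ subset_union_left
  have hVK' : V' ⊆ K ∩ F2 := hVV ▸ subset_union_right
  set A : Set ℂ := W ∪ K ∩ {z | z.re = x0} with hA
  set A' : Set ℂ := W' ∪ K ∩ {z | z.re = x1} with hA'
  set B : Set ℂ := V ∪ K ∩ {z | z.im = y0} with hB
  set B' : Set ℂ := V' ∪ K ∩ {z | z.im = y1} with hB'
  have hAc : IsClosed A := hW.isClosed.union (hKc.inter_right (clre x0)).isClosed
  have hAc' : IsClosed A' := hW'.isClosed.union (hKc.inter_right (clre x1)).isClosed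
  have hBc : IsClosed B := hV.isClosed.union (hKc.inter_right (clim y0)).isClosed
  have hBc' : IsClosed B' := hV'.isClosed.union (hKc.inter_right (clim y1)).isClosed
  have hAd : Disjoint A A' := by
    rw [Set.disjoint_left]
    rintro z (hz | hz) (hz' | hz')
    · exact Set.disjoint_left.1 hWd hz hz'
    · exact Set.disjoint_left.1 hWd hz (hWR ⟨hWK hz, hz'.2⟩)
    · exact Set.disjoint_left.1 hWd (hWL ⟨hWK' hz', hz.2⟩) hz'
    · have e1 : z.re = x0 := hz.2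
      have e2 : z.re = x1 := hz'.2
      linarith
  have hBd : Disjoint B B' := by
    rw [Set.disjoint_left]
    rintro z (hz | hz) (hz' | hz')
    · exact Set.disjoint_left.1 hVd hz hz'
    · exact Set.disjoint_left.1 hVd hz (hVT ⟨hVK hz, hz'.2⟩)
    · exact Set.disjoint_left.1 hVd (hVB ⟨hVK' hz', hz.2⟩) hz'
    · have e1 : z.im = y0 := hz.2
      have e2 : z.im = y1 := hz'.2
      linarith
  have hK00 : (⟨x0, y0⟩ : ℂ) ∈ K := ⟨le_refl _, hx.le, le_refl _, hy.le⟩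
  have hK11 : (⟨x1, y1⟩ : ℂ) ∈ K := ⟨hx.le, le_refl _, hy.le, le_refl _⟩
  have hAn : A.Nonempty := ⟨⟨x0, y0⟩, Or.inr ⟨hK00, rfl⟩⟩
  have hAn' : A'.Nonempty := ⟨⟨x1, y1⟩, Or.inr ⟨hK11, rfl⟩⟩
  have hBn : B.Nonempty := ⟨⟨x0, y0⟩, Or.inr ⟨hK00, rfl⟩⟩
  have hBn' : B'.Nonempty := ⟨⟨x1, y1⟩, Or.inr ⟨hK11, rfl⟩⟩
  set g : (Fin 2 → ℝ) → ℂ := fun x =>
    ⟨x0 + (x1 - x0) * ((x 0 + 1) / 2), y0 + (y1 - y0) * ((x 1 + 1) / 2)⟩ with hg
  have hgc : Continuous g := by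
    rw [hg]
    refine Complex.equivRealProdCLM.symm.continuous.comp
      (f := fun x : Fin 2 → ℝ => ((x0 + (x1 - x0) * ((x 0 + 1) / 2),
        y0 + (y1 - y0) * ((x 1 + 1) / 2)) : ℝ × ℝ)) ?_
    fun_prop
  have hgK : ∀ x ∈ Set.pi (Set.univ : Set (Fin 2)) (fun _ => Set.Icc (-1 : ℝ) 1), g x ∈ K := by
    intro x hx'
    have a0 := hx' 0 (mem_univ _)
    have a1 := hx' 1 (mem_univ _)
    rw [mem_Icc] at a0 a1
    refine ⟨?_, ?_, ?_, ?_⟩
    · show x0 ≤ x0 + (x1 - x0) * ((x 0 + 1) / 2)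
      have : 0 ≤ (x1 - x0) * ((x 0 + 1) / 2) := mul_nonneg (by linarith) (by linarith)
      linarith
    · show x0 + (x1 - x0) * ((x 0 + 1) / 2) ≤ x1
      have : (x1 - x0) * ((x 0 + 1) / 2) ≤ (x1 - x0) * 1 :=
        mul_le_mul_of_nonneg_left (by linarith) (by linarith)
      linarith
    · show y0 ≤ y0 + (y1 - y0) * ((x 1 + 1) / 2)
      have : 0 ≤ (y1 - y0) * ((x 1 + 1) / 2) := mul_nonneg (by linarith) (by linarith)
      linarith
    · show y0 + (y1 - y0) * ((x 1 + 1) / 2) ≤ y1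
      have : (y1 - y0) * ((x 1 + 1) / 2) ≤ (y1 - y0) * 1 :=
        mul_le_mul_of_nonneg_left (by linarith) (by linarith)
      linarith
  set f : (Fin 2 → ℝ) → Fin 2 → ℝ := fun x => ![infDist (g x) A - infDist (g x) A',
    infDist (g x) B - infDist (g x) B'] with hf
  have hfc : Continuous f := by
    refine continuous_pi fun i => ?_
    fin_cases i
    · exact ((continuous_infDist_pt A).comp hgc).sub ((continuous_infDist_pt A').comp hgc)
    · exact ((continuous_infDist_pt B).comp hgc).sub ((continuous_infDist_pt B').comp hgc)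
  obtain ⟨x, hxp, hx0⟩ := Crest.Agent.R202.poincare_miranda f hfc.continuousOn
    (by
      intro x hx' i hi
      fin_cases i
      · have hz : infDist (g x) A' = 0 := infDist_zero_of_mem (Or.inr ⟨hgK x hx', by
          show x0 + (x1 - x0) * ((x 0 + 1) / 2) = x1
          have hi' : x 0 = 1 := hi
          rw [hi']; ring⟩)
        show 0 ≤ infDist (g x) A - infDist (g x) A'
        rw [hz, sub_zero]; exact infDist_nonneg
      · have hz : infDist (g x) B' = 0 := infDist_zero_of_mem (Or.inr ⟨hgK x hx', by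
          show y0 + (y1 - y0) * ((x 1 + 1) / 2) = y1
          have hi' : x 1 = 1 := hi
          rw [hi']; ring⟩)
        show 0 ≤ infDist (g x) B - infDist (g x) B'
        rw [hz, sub_zero]; exact infDist_nonneg)
    (by
      intro x hx' i hi
      fin_cases i
      · have hz : infDist (g x) A = 0 := infDist_zero_of_mem (Or.inr ⟨hgK x hx', by
          show x0 + (x1 - x0) * ((x 0 + 1) / 2) = x0
          have hi' : x 0 = -1 := hi
          rw [hi']; ring⟩)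
        show infDist (g x) A - infDist (g x) A' ≤ 0
        rw [hz, zero_sub, neg_nonpos]; exact infDist_nonneg
      · have hz : infDist (g x) B = 0 := infDist_zero_of_mem (Or.inr ⟨hgK x hx', by
          show y0 + (y1 - y0) * ((x 1 + 1) / 2) = y0
          have hi' : x 1 = -1 := hi
          rw [hi']; ring⟩)
        show infDist (g x) B - infDist (g x) B' ≤ 0
        rw [hz, zero_sub, neg_nonpos]; exact infDist_nonneg)
  have e0 : infDist (g x) A - infDist (g x) A' = 0 := hx0 0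
  have e1 : infDist (g x) B - infDist (g x) B' = 0 := hx0 1
  have hgx := hgK x hxp
  rcases hc hgx with h | h
  · have : g x ∈ W ∪ W' := by rw [hWW]; exact ⟨hgx, h⟩
    rcases this with h' | h'
    · have z0 : infDist (g x) A = 0 := infDist_zero_of_mem (Or.inl h')
      rw [z0, zero_sub, neg_eq_zero] at e0
      exact Set.disjoint_left.1 hAd (Or.inl h') ((hAc'.mem_iff_infDist_zero hAn').2 e0)
    · have z0 : infDist (g x) A' = 0 := infDist_zero_of_mem (Or.inl h')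
      rw [z0, sub_zero] at e0
      exact Set.disjoint_left.1 hAd ((hAc.mem_iff_infDist_zero hAn).2 e0) (Or.inl h')
  · have : g x ∈ V ∪ V' := by rw [hVV]; exact ⟨hgx, h⟩
    rcases this with h' | h'
    · have z0 : infDist (g x) B = 0 := infDist_zero_of_mem (Or.inl h')
      rw [z0, zero_sub, neg_eq_zero] at e1
      exact Set.disjoint_left.1 hBd (Or.inl h') ((hBc'.mem_iff_infDist_zero hBn').2 e1)
    · have z0 : infDist (g x) B' = 0 := infDist_zero_of_mem (Or.inl h')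
      rw [z0, sub_zero] at e1
      exact Set.disjoint_left.1 hBd ((hBc.mem_iff_infDist_zero hBn).2 e1) (Or.inl h')


end Crest.Agent.R143.TasDualx897
end
end

-- ▼ part R143/Neck2_921
section

/-!
# Row 143, CORE-C, block V, leaf V4: probability of the neck gate (helper921)

`w ⊆ V` = white sites, `V \ w` = black sites. The white cluster of a horizontal band of seeds is explored;
two black walls confine it; a fresh white vertical chain first meets the explored set in a black site `y`.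

* `Lc`, `Lc.lv` : level of the seeds: `b0` in the gate window `(a0, a1)`, `p0` outside
* `Kl` : cluster of the seeds; `Jn` : explored set (with the whole lower part outside the gate window)
* `Dd` : the cluster does not come near the level `l1`; `Cf` : confinement to the window `(a0, a1)`
* `HB` : long black crossing; `dual_hc` : its existence, by duality
-/

set_option autoImplicit false

noncomputable section

open scoped Classical

namespace Crest.Agent.R143.Neckx921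

open Crest.ProbabilityR.Voronoi (voronoiCell)
open Crest.Agent.R143.B0x346 Crest.Agent.R143.DelGx806 Crest.Agent.R143.DelRx806
open Crest.Agent.R143.ToolWx838 Crest.Agent.R143.Blkx838 Crest.Agent.R143.ToolW2x838
open Crest.Agent.R143.ToolW3x838 Crest.Agent.R143.Circ4x838 Crest.Agent.R143.Harx315
open Crest.Agent.R143.RB0x838 Crest.Agent.R143.CircPx838 Crest.Agent.R143.Gatex838

variable {S V w w' w0 : Finset ℂ} {z0 e : ℂ}

/-- level of the seeds: `b0` in the gate window `(a0, a1)`, `p0` outside -/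
structure Lc where
  a0 : ℝ
  a1 : ℝ
  t0 : ℝ
  b0 : ℝ
  p0 : ℝ
  l1 : ℝ
  cB : ℝ
  tb : t0 ≤ b0
  bp : b0 ≤ p0
  pl : p0 < l1
  lB : l1 ≤ cB

/-- level of the seeds at the first coordinate `u` -/
def Lc.lv (L : Lc) (u : ℝ) : ℝ := if L.a0 < u ∧ u < L.a1 then L.b0 else L.p0

theorem Lc.lv_in (L : Lc) {u : ℝ} (h0 : L.a0 < u) (h1 : u < L.a1) : L.lv u = L.b0 := by
  unfold Lc.lv; rw [if_pos ⟨h0, h1⟩]

theorem Lc.lv_out (L : Lc) {u : ℝ} (h : u ≤ L.a0 ∨ L.a1 ≤ u) : L.lv u = L.p0 := by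
  unfold Lc.lv
  rw [if_neg]
  rintro ⟨h1, h2⟩
  rcases h with h | h <;> linarith

theorem Lc.lv_ge (L : Lc) (u : ℝ) : L.b0 ≤ L.lv u := by
  unfold Lc.lv; split_ifs
  · exact le_rfl
  · exact L.bp

theorem Lc.lv_le (L : Lc) (u : ℝ) : L.lv u ≤ L.p0 := by
  unfold Lc.lv; split_ifs
  · exact L.bp
  · exact le_rfl

variable {L : Lc}

/-- seeds -/
def sd (V : Finset ℂ) (z0 e : ℂ) (x0 x1 : ℝ) (L : Lc) : Finset ℂ :=
  V.filter fun s => (x0 < X z0 e s ∧ X z0 e s < x1) ∧ L.t0 ≤ Y z0 e s ∧ Y z0 e s ≤ L.lv (X z0 e s)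

/-- allowed sites -/
def us (V : Finset ℂ) (z0 e : ℂ) (x0 x1 : ℝ) (L : Lc) : Finset ℂ :=
  V.filter fun s => (x0 < X z0 e s ∧ X z0 e s < x1) ∧ L.lv (X z0 e s) < Y z0 e s ∧ Y z0 e s < L.l1

/-- always explored: the lower part outside the gate window -/
def bs (V : Finset ℂ) (z0 e : ℂ) (L : Lc) : Finset ℂ :=
  V.filter fun s => ¬ (L.a0 < X z0 e s ∧ X z0 e s < L.a1) ∧ Y z0 e s < L.cB

/-- cluster of the seeds -/
def Kl (S V : Finset ℂ) (z0 e : ℂ) (x0 x1 : ℝ) (L : Lc) (w : Finset ℂ) (s : ℂ) : Prop :=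
  Cl (DE S) (sd V z0 e x0 x1 L) (us V z0 e x0 x1 L) w s

/-- explored set -/
def Jn (S V : Finset ℂ) (z0 e : ℂ) (x0 x1 : ℝ) (L : Lc) : Finset ℂ → Finset ℂ :=
  JC (DE S) (sd V z0 e x0 x1 L) (bs V z0 e L) (us V z0 e x0 x1 L) V

variable {x0 x1 q0 q1 r0 r1 a0 a1 g0 g1 g2 g3 k0 k1 tw t0 v0 b0 p0 l0 l1 v1 p1 cB c0 c1 b1 m mN : ℝ}
  {s x y : ℂ}

theorem mem_sd' : s ∈ sd V z0 e x0 x1 L ↔ s ∈ V ∧ (x0 < X z0 e s ∧ X z0 e s < x1) ∧
    L.t0 ≤ Y z0 e s ∧ Y z0 e s ≤ L.lv (X z0 e s) := by unfold sd; simp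

theorem mem_us' : s ∈ us V z0 e x0 x1 L ↔ s ∈ V ∧ (x0 < X z0 e s ∧ X z0 e s < x1) ∧
    L.lv (X z0 e s) < Y z0 e s ∧ Y z0 e s < L.l1 := by unfold us; simp

theorem mem_bs' : s ∈ bs V z0 e L ↔ s ∈ V ∧ ¬ (L.a0 < X z0 e s ∧ X z0 e s < L.a1) ∧
    Y z0 e s < L.cB := by unfold bs; simp

theorem us_sub : us V z0 e x0 x1 L ⊆ V := Finset.filter_subset _ _

theorem kl_bd (h : Kl S V z0 e x0 x1 L w s) :
    s ∈ V ∧ (x0 < X z0 e s ∧ X z0 e s < x1) ∧ L.t0 ≤ Y z0 e s ∧ Y z0 e s < L.l1 := by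
  have k1 := L.lv_le (X z0 e s)
  have k2 := L.lv_ge (X z0 e s)
  have k3 := L.pl
  have k4 := L.tb
  rcases Cl.mem h with h | ⟨h, -⟩
  · rw [mem_sd'] at h
    exact ⟨h.1, h.2.1, h.2.2.1, by linarith [h.2.2.2]⟩
  · rw [mem_us'] at h
    exact ⟨h.1, h.2.1, by linarith [h.2.2.1], h.2.2.2⟩

theorem kl_jn (h : Kl S V z0 e x0 x1 L w s) : s ∈ Jn S V z0 e x0 x1 L w := by
  unfold Jn
  rw [mem_JC]
  refine ⟨?_, Or.inr (Or.inl h)⟩
  rcases Cl.mem h with h | ⟨h, -⟩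
  · exact (mem_sd'.1 h).1
  · exact (mem_us'.1 h).1

theorem nb_jn (h : Kl S V z0 e x0 x1 L w x) (hxy : DE S x y)
    (hy : y ∈ us V z0 e x0 x1 L) : y ∈ Jn S V z0 e x0 x1 L w := by
  unfold Jn
  rw [mem_JC]
  exact ⟨us_sub hy, Or.inr (Or.inr ⟨hy, x, h, hxy⟩)⟩

theorem bs_jn (h : s ∈ bs V z0 e L) : s ∈ Jn S V z0 e x0 x1 L w := by
  unfold Jn
  rw [mem_JC]
  exact ⟨(mem_bs'.1 h).1, Or.inl h⟩

theorem jn_cases (h : y ∈ Jn S V z0 e x0 x1 L w) : y ∈ bs V z0 e L ∨ Kl S V z0 e x0 x1 L w y ∨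
    (y ∈ us V z0 e x0 x1 L ∧ ∃ x, Kl S V z0 e x0 x1 L w x ∧ DE S x y) := by
  unfold Jn at h
  rw [mem_JC] at h
  exact h.2

theorem jn_lt (h : y ∈ Jn S V z0 e x0 x1 L w) : Y z0 e y < L.cB := by
  have := L.lB
  rcases jn_cases h with h | h | ⟨h, -⟩
  · exact (mem_bs'.1 h).2.2
  · linarith [(kl_bd h).2.2.2]
  · linarith [(mem_us'.1 h).2.2.2]

theorem jn_stop : IsStop V (Jn S V z0 e x0 x1 L) := jc_stop us_sub

/-- transfer of the cluster -/
theorem kl_tr {y0 y1 : ℝ} (h0 : x0 ≤ y0) (h1 : y1 ≤ x1)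
    (hw : ∀ s ∈ Jn S V z0 e x0 x1 L w, s ∈ w → s ∈ w')
    (h : Kl S V z0 e y0 y1 L w x) :
    Kl S V z0 e y0 y1 L w' x ∧ Kl S V z0 e x0 x1 L w x := by
  unfold Kl at h
  induction h with
  | seed hx =>
    refine ⟨Cl.seed hx, Cl.seed ?_⟩
    rw [mem_sd'] at hx ⊢
    exact ⟨hx.1, ⟨lt_of_le_of_lt h0 hx.2.1.1, lt_of_lt_of_le hx.2.1.2 h1⟩, hx.2.2⟩
  | @step x' y' hx hr hyU hyw ih =>
    have hyU' : y' ∈ us V z0 e x0 x1 L := by
      have := mem_us'.1 hyU
      exact mem_us'.2 ⟨this.1, ⟨lt_of_le_of_lt h0 this.2.1.1, lt_of_lt_of_le this.2.1.2 h1⟩, this.2.2⟩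
    exact ⟨Cl.step ih.1 hr hyU (hw _ (nb_jn ih.2 hr hyU') hyw), Cl.step ih.2 hr hyU' hyw⟩

/-- the cluster does not come near the level `l1` -/
def Dd (S V : Finset ℂ) (z0 e : ℂ) (q0 q1 : ℝ) (L : Lc) (w : Finset ℂ) : Prop :=
  ∀ x y, Kl S V z0 e q0 q1 L w x → DE S x y → q0 < X z0 e y → X z0 e y < q1 → Y z0 e y < L.l1

/-- the part of the cluster near the window `(k0, k1)` is connected to the seeds inside `(a0, a1)` -/
def Cf (S V : Finset ℂ) (z0 e : ℂ) (q0 q1 k0 k1 : ℝ) (L : Lc) (w : Finset ℂ) : Prop :=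
  ∀ x y, Kl S V z0 e q0 q1 L w x → DE S x y → k0 < X z0 e y → X z0 e y < k1 →
    L.t0 ≤ Y z0 e y → Y z0 e y < L.l1 → Kl S V z0 e L.a0 L.a1 L w x

theorem isChain_snoc {l : List ℂ} (hl : l ≠ []) (h : l.IsChain (DE S)) (hy : DE S (l.getLast hl) y) :
    (l ++ [y]).IsChain (DE S) := by
  rw [List.isChain_append]
  refine ⟨h, by simp, ?_⟩
  intro u hu v hv
  simp only [List.head?_cons, Option.mem_def, Option.some.injEq] at hv
  subst hv
  rw [List.getLast?_eq_some_getLast hl] at hu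
  simp only [Option.mem_def, Option.some.injEq] at hu
  rw [← hu]
  exact hy

theorem dd_of (hS : GP (S : Set ℂ)) (he : e ≠ 0) (hb : L.p0 ≤ l0)
    {h : List ℂ} (hh : HC S z0 e q0 q1 l0 L.l1 m (V \ w) h) : Dd S V z0 e q0 q1 L w := by
  intro x y hx hxy hy0 hy1
  by_contra hcon
  push Not at hcon
  obtain ⟨a, c, ha, hc, hlast, hcs⟩ := Cl.chain hx
  have hab : Y z0 e a ≤ l0 := ((mem_sd'.1 ha).2.2.2).trans ((L.lv_le _).trans hb)
  have hbd : ∀ s ∈ a :: c, q0 < X z0 e s ∧ X z0 e s < q1 := by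
    intro s hs
    rcases List.mem_cons.1 hs with h | h
    · rw [h]; exact (mem_sd'.1 ha).2.1
    · exact (mem_us'.1 (hcs s h).1).2.1
  have hQ : ((a :: c) ++ [y]).IsChain (DE S) := isChain_snoc (by simp) hc (by rw [hlast]; exact hxy)
  obtain ⟨t, ht1, ht2⟩ := cross_e hS he hh.ne (Q := (a :: c) ++ [y]) (by simp) hh.adj
    ((isChain_iff_prs _).1 hQ) hh.strip
    (x0 := q0) (x1 := q1) (by
      intro s hs
      rcases List.mem_append.1 hs with hs | hs
      · exact hbd s hs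
      · rw [List.mem_singleton] at hs
        rw [hs]; exact ⟨hy0, hy1⟩) hh.left hh.right (by
      simp only [List.cons_append, List.head_cons]
      exact hab) (by
      simp only [List.getLast_append_of_ne_nil _ (List.cons_ne_nil y []), List.getLast_singleton]
      exact hcon)
  have hts := hh.strip t ht1
  have htc := hh.col t ht1
  rw [Finset.mem_sdiff] at htc
  rcases List.mem_append.1 ht2 with h2 | h2
  · rcases List.mem_cons.1 h2 with h2 | h2
    · rw [h2] at hts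
      linarith [hts.1]
    · exact htc.2 (hcs t h2).2
  · rw [List.mem_singleton] at h2
    rw [h2] at hts
    linarith [hts.2]

theorem cf_of (hS : GP (S : Set ℂ)) (he : e ≠ 0) (htw : tw < L.t0)
    (hag : L.a0 ≤ g0) (hgk : g1 ≤ k0) (hkg : k1 ≤ g2) (hga : g3 ≤ L.a1)
    {lL lR : List ℂ} (hL : VC S z0 e g0 g1 tw L.l1 m (V \ w) lL)
    (hR : VC S z0 e g2 g3 tw L.l1 m (V \ w) lR) : Cf S V z0 e q0 q1 k0 k1 L w := by
  intro x y hx hxy hy0 hy1 hy2 hy3
  obtain ⟨a, c, ha, hc, hlast, hcs⟩ := Cl.chain hx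
  have L1 := L.tb
  have L2 := L.bp
  have L3 := L.pl
  have hYb : ∀ s ∈ a :: c, tw < Y z0 e s ∧ Y z0 e s < L.l1 := by
    intro s hs
    rcases List.mem_cons.1 hs with h | h
    · rw [h]
      have := (mem_sd'.1 ha).2.2
      have k := L.lv_le (X z0 e a)
      exact ⟨lt_of_lt_of_le htw this.1, by linarith [this.2]⟩
    · have := (mem_us'.1 (hcs s h).1).2.2
      have k := L.lv_ge (X z0 e s)
      exact ⟨by linarith [this.1], this.2⟩
  have hQ : ((a :: c) ++ [y]).IsChain (DE S) := isChain_snoc (by simp) hc (by rw [hlast]; exact hxy)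
  -- every site of the chain is in the window
  have key : ∀ s ∈ a :: c, L.a0 < X z0 e s ∧ X z0 e s < L.a1 := by
    intro s hs
    obtain ⟨l1', l2, hsp⟩ := List.append_of_mem hs
    have hl2 : ∀ t ∈ l2, t ∈ c := by
      intro t ht
      cases l1' with
      | nil =>
        simp only [List.nil_append, List.cons.injEq] at hsp
        rw [hsp.2]; exact ht
      | cons b l1' =>
        simp only [List.cons_append, List.cons.injEq] at hsp
        rw [hsp.2]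
        exact List.mem_append_right _ (List.mem_cons_of_mem _ ht)
    have hP : (s :: (l2 ++ [y])).IsChain (DE S) := by
      rw [hsp, List.append_assoc, List.isChain_append] at hQ
      exact hQ.2.1
    have hPd := (isChain_iff_prs _).1 hP
    have hPY : ∀ t ∈ s :: (l2 ++ [y]), tw < Y z0 e t ∧ Y z0 e t < L.l1 := by
      intro t ht
      rcases List.mem_cons.1 ht with h | h
      · rw [h]; exact hYb s hs
      · rcases List.mem_append.1 h with h | h
        · exact hYb t (List.mem_cons_of_mem _ (hl2 t h))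
        · rw [List.mem_singleton] at h
          rw [h]; exact ⟨lt_of_lt_of_le htw hy2, hy3⟩
    have hin : ∀ t ∈ s :: (l2 ++ [y]), t ≠ s → t ≠ y → t ∈ w := by
      intro t ht h1 h2
      rcases List.mem_cons.1 ht with h | h
      · exact absurd h h1
      · rcases List.mem_append.1 h with h | h
        · exact (hcs t (hl2 t h)).2
        · rw [List.mem_singleton] at h
          exact absurd h h2
    constructor
    · by_contra hcon
      push Not at hcon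
      obtain ⟨t, ht1, ht2⟩ := cross_e hS he (P := s :: (l2 ++ [y])) (by simp) hL.ne hPd hL.adj hPY
        hL.strip (by simpa using hcon.trans hag) (by
          rw [List.getLast_cons (by simp), List.getLast_append_of_ne_nil _ (by simp)]
          simp only [List.getLast_singleton]
          exact hgk.trans hy0.le) hL.left hL.right
      have hs' := hL.strip t ht2
      refine (Finset.mem_sdiff.1 (hL.col t ht2)).2 (hin t ht1 ?_ ?_)
      · rintro rfl; linarith [hs'.1]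
      · rintro rfl; linarith [hs'.2]
    · by_contra hcon
      push Not at hcon
      have hn : (s :: (l2 ++ [y])).reverse ≠ [] := by simp
      obtain ⟨t, ht1, ht2⟩ := cross_e hS he (P := (s :: (l2 ++ [y])).reverse) hn hR.ne (by
          intro p hp
          rw [prs_reverse, List.mem_reverse, List.mem_map] at hp
          obtain ⟨q, hq, rfl⟩ := hp
          exact (hPd q hq).symm) hR.adj
        (fun t ht => hPY t (by rwa [List.mem_reverse] at ht)) hR.strip (by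
          rw [List.head_reverse, List.getLast_cons (by simp),
            List.getLast_append_of_ne_nil _ (by simp)]
          simp only [List.getLast_singleton]
          exact hy1.le.trans hkg) (by
          rw [List.getLast_reverse]
          simpa using hga.trans hcon) hR.left hR.right
      rw [List.mem_reverse] at ht1
      have hs' := hR.strip t ht2
      refine (Finset.mem_sdiff.1 (hR.col t ht2)).2 (hin t ht1 ?_ ?_)
      · rintro rfl; linarith [hs'.2]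
      · rintro rfl; linarith [hs'.1]
  have k1 : ∀ s ∈ a :: c, s ∈ sd V z0 e L.a0 L.a1 L ∨ (s ∈ us V z0 e L.a0 L.a1 L ∧ s ∈ w) := by
    intro s hs
    have h1 := key s hs
    rcases List.mem_cons.1 hs with h | h
    · left
      rw [h] at h1 ⊢
      have := mem_sd'.1 ha
      exact mem_sd'.2 ⟨this.1, h1, this.2.2⟩
    · right
      have := mem_us'.1 (hcs s h).1
      exact ⟨mem_us'.2 ⟨this.1, h1, this.2.2⟩, (hcs s h).2⟩
  have k2 := cl_of_chain (R := DE S) (A := sd V z0 e L.a0 L.a1 L) (U := us V z0 e L.a0 L.a1 L)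
    (β := w) (l := a :: c) (by simp) (by
      simp only [List.head_cons]
      rcases k1 a (by simp) with h | h
      · exact Cl.seed h
      · exfalso
        linarith [(mem_us'.1 h.1).2.2.1, (mem_sd'.1 ha).2.2.2]) hc k1 x (by
      rw [← hlast]; exact List.getLast_mem _)
  exact k2

/-- the exploration event; `lR0 lR1`, `lL0 lL1` = landing zones -/
def E2 (S V : Finset ℂ) (z0 e : ℂ) (q0 q1 k0 k1 lR0 lR1 lL0 lL1 p1 m : ℝ) (L : Lc) (w : Finset ℂ) :
    Prop :=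
  (Dd S V z0 e q0 q1 L w ∧ Cf S V z0 e q0 q1 k0 k1 L w) ∧
    (∃ Q, VC S z0 e lR0 lR1 L.p0 p1 m (V \ w) Q) ∧ ∃ Q, VC S z0 e lL0 lL1 L.p0 p1 m (V \ w) Q

variable {lR0 lR1 lL0 lL1 : ℝ}

theorem e2_dec (h0 : q0 ≤ L.a0) (h1 : L.a1 ≤ q1) (hR : L.a1 ≤ lR0) (hL : lL1 ≤ L.a0)
    (hp : p1 + m < L.cB) :
    Decided V (Jn S V z0 e q0 q1 L) (E2 S V z0 e q0 q1 k0 k1 lR0 lR1 lL0 lL1 p1 m L) := by
  have key : ∀ w w', w ⊆ V → w' ⊆ V →
      w ∩ Jn S V z0 e q0 q1 L w = w' ∩ Jn S V z0 e q0 q1 L w →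
      E2 S V z0 e q0 q1 k0 k1 lR0 lR1 lL0 lL1 p1 m L w →
      E2 S V z0 e q0 q1 k0 k1 lR0 lR1 lL0 lL1 p1 m L w' := by
    intro w w' hw hw' heq hE
    have hJ := jn_stop.stop w w' hw hw' heq
    have t1 : ∀ s ∈ Jn S V z0 e q0 q1 L w, s ∈ w → s ∈ w' := by
      intro s hs hsw
      have : s ∈ w ∩ Jn S V z0 e q0 q1 L w := Finset.mem_inter.2 ⟨hsw, hs⟩
      rw [heq] at this
      exact (Finset.mem_inter.1 this).1
    have t2 : ∀ s ∈ Jn S V z0 e q0 q1 L w', s ∈ w' → s ∈ w := by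
      intro s hs hsw
      rw [hJ] at hs
      have : s ∈ w' ∩ Jn S V z0 e q0 q1 L w := Finset.mem_inter.2 ⟨hsw, hs⟩
      rw [← heq] at this
      exact (Finset.mem_inter.1 this).1
    have t3 : ∀ s ∈ bs V z0 e L, s ∈ V \ w → s ∈ V \ w' := by
      intro s hs hsw
      rw [Finset.mem_sdiff] at hsw ⊢
      exact ⟨hsw.1, fun hc => hsw.2 (t2 s (bs_jn hs) hc)⟩
    refine ⟨⟨fun x y hx hxy hy0 hy1 => hE.1.1 x y (kl_tr le_rfl le_rfl t2 hx).1 hxy hy0 hy1,
      fun x y hx hxy hy0 hy1 hy2 hy3 => ?_⟩, ?_, ?_⟩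
    · exact (kl_tr h0 h1 t1 (hE.1.2 x y (kl_tr le_rfl le_rfl t2 hx).1 hxy hy0 hy1 hy2 hy3)).1
    · obtain ⟨Q, hQ⟩ := hE.2.1
      refine ⟨Q, hQ.ne, hQ.adj, fun s hs => t3 s (mem_bs'.2 ⟨(Finset.mem_sdiff.1 (hQ.col s hs)).1,
        fun hc => ?_, ?_⟩) (hQ.col s hs), hQ.strip, hQ.loc, hQ.left, hQ.right⟩
      · linarith [hc.2, (hQ.strip s hs).1]
      · linarith [(hQ.loc s hs).2]
    · obtain ⟨Q, hQ⟩ := hE.2.2
      refine ⟨Q, hQ.ne, hQ.adj, fun s hs => t3 s (mem_bs'.2 ⟨(Finset.mem_sdiff.1 (hQ.col s hs)).1,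
        fun hc => ?_, ?_⟩) (hQ.col s hs), hQ.strip, hQ.loc, hQ.left, hQ.right⟩
      · linarith [hc.1, (hQ.strip s hs).2]
      · linarith [(hQ.loc s hs).2]
  intro w w' hw hw' h
  have hJ := jn_stop.stop w w' hw hw' h
  exact ⟨key w w' hw hw' h, key w' w hw' hw (by rw [hJ]; exact h.symm)⟩

/-! ### duality -/

/-- a chain of cells along a preconnected set, as a list of sites -/
theorem list_of_rtg {r : ℂ → ℂ → Prop} {a b : ℂ} (h : Relation.ReflTransGen r a b) :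
    ∃ l : List ℂ, ∃ hl : l ≠ [], l.head hl = a ∧ l.getLast hl = b ∧ l.IsChain r := by
  obtain ⟨l, h1, h2⟩ := List.exists_isChain_cons_of_relationReflTransGen h
  exact ⟨a :: l, by simp, rfl, h2, h1⟩

/-- long black crossing: above `b0`, outside the window `(a0, a1)` above `p0`, short horizontal steps -/
structure HB (S : Finset ℂ) (z0 e : ℂ) (x0 x1 a0 a1 b0 p0 p1 m : ℝ) (β : Finset ℂ) (l : List ℂ) :
    Prop where
  ne : l ≠ []
  adj : ∀ p ∈ prs l, DE S p.1 p.2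
  col : ∀ s ∈ l, s ∈ β
  strip : ∀ s ∈ l, b0 < Y z0 e s ∧ Y z0 e s < p1
  out : ∀ s ∈ l, (X z0 e s ≤ a0 ∨ a1 ≤ X z0 e s) → p0 < Y z0 e s
  loc : ∀ s ∈ l, x0 - m ≤ X z0 e s ∧ X z0 e s ≤ x1 + m
  left : X z0 e (l.head ne) ≤ x0
  right : x1 ≤ X z0 e (l.getLast ne)
  step : ∀ p ∈ prs l, |X z0 e p.1 - X z0 e p.2| ≤ m

/-- **black crossing of the long window** -/
theorem dual_hc (hS : GP (S : Set ℂ)) (h3 : 3 ≤ S.card) (he : e ≠ 0) (hm : 0 < m)
    (hq0 : q0 < r0 - m) (hq1 : r1 + m < q1) (hr : r0 < r1) (hv : v0 < v1) (htv : L.t0 ≤ v0 - m)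
    (hvb : v0 + m ≤ L.b0) (hlv : L.l1 ≤ v1 - m) (hvp : v1 + m < p1)
    (reg : ∀ s ∈ S, r0 - m ≤ X z0 e s → X z0 e s ≤ r1 + m → v0 - m ≤ Y z0 e s →
      Y z0 e s ≤ v1 + m → s ∈ V)
    (near : ∀ s ∈ S, ∀ z ∈ voronoiCell (S : Set ℂ) s, r0 ≤ X z0 e z → X z0 e z ≤ r1 →
      v0 ≤ Y z0 e z → Y z0 e z ≤ v1 → |X z0 e s - X z0 e z| ≤ m ∧ |Y z0 e s - Y z0 e z| ≤ m)
    (hD : Dd S V z0 e q0 q1 L w0)
    (h1 : ∀ s ∈ Jn S V z0 e q0 q1 L w0, (s ∈ w ↔ s ∈ w0)) :
    ∃ P, HB S z0 e (r0 + m) (r1 - m) L.a0 L.a1 L.b0 L.p0 p1 (2 * m) (V \ w) P := by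
  have hSn : S.Nonempty := Finset.card_pos.1 (by omega)
  set φ : ℂ → ℂ := fun ζ => z0 + e * ζ with hφ
  have hφc : Continuous φ := by rw [hφ]; fun_prop
  have hX : ∀ ζ, X z0 e (φ ζ) = ζ.re := by
    intro ζ; unfold X; rw [hφ]; simp only [add_sub_cancel_left]; rw [mul_div_cancel_left₀ _ he]
  have hY : ∀ ζ, Y z0 e (φ ζ) = ζ.im := by
    intro ζ; unfold Y; rw [hφ]; simp only [add_sub_cancel_left]; rw [mul_div_cancel_left₀ _ he]
  set B : Finset ℂ := V.filter fun s => s ∉ w ∧ s ∉ sd V z0 e q0 q1 L with hB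
  set W : Finset ℂ := V.filter fun s => s ∈ w ∨ s ∈ sd V z0 e q0 q1 L with hW
  set F1 : Set ℂ := ⋃ s ∈ ((S ∩ B : Finset ℂ) : Set ℂ), φ ⁻¹' (voronoiCell (S : Set ℂ) s) with hF1
  set F2 : Set ℂ := ⋃ s ∈ ((S ∩ W : Finset ℂ) : Set ℂ), φ ⁻¹' (voronoiCell (S : Set ℂ) s) with hF2
  have c1 : IsClosed F1 := (Finset.finite_toSet _).isClosed_biUnion fun s _ =>
    (G6Vx408.isClosed_cell _ _).preimage hφc
  have c2 : IsClosed F2 := (Finset.finite_toSet _).isClosed_biUnion fun s _ =>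
    (G6Vx408.isClosed_cell _ _).preimage hφc
  have nr : ∀ s ∈ S, ∀ ζ ∈ TasIx372.Rc r0 r1 v0 v1, φ ζ ∈ voronoiCell (S : Set ℂ) s →
      (r0 - m ≤ X z0 e s ∧ X z0 e s ≤ r1 + m) ∧ v0 - m ≤ Y z0 e s ∧ Y z0 e s ≤ v1 + m ∧
      |X z0 e s - ζ.re| ≤ m ∧ |Y z0 e s - ζ.im| ≤ m := by
    intro s hs ζ hζ hc
    obtain ⟨z1, z2, z3, z4⟩ := hζ
    have := near s hs (φ ζ) hc (by rw [hX]; exact z1) (by rw [hX]; exact z2) (by rw [hY]; exact z3)
      (by rw [hY]; exact z4)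
    rw [hX, hY] at this
    have k1 := abs_le.1 this.1
    have k2 := abs_le.1 this.2
    exact ⟨⟨by linarith, by linarith⟩, by linarith, by linarith, this⟩
  have hcov : TasIx372.Rc r0 r1 v0 v1 ⊆ F1 ∪ F2 := by
    intro ζ hζ
    obtain ⟨s, hs, hc⟩ := G6Wx723.exists_cell hSn (φ ζ)
    have k := nr s hs ζ hζ hc
    have hsV := reg s hs k.1.1 k.1.2 k.2.1 k.2.2.1
    by_cases hsw : s ∈ w ∨ s ∈ sd V z0 e q0 q1 L
    · right
      exact Set.mem_biUnion (x := s) (by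
        rw [Finset.mem_coe, Finset.mem_inter]; exact ⟨hs, Finset.mem_filter.2 ⟨hsV, hsw⟩⟩) hc
    · left
      rw [not_or] at hsw
      exact Set.mem_biUnion (x := s) (by
        rw [Finset.mem_coe, Finset.mem_inter]; exact ⟨hs, Finset.mem_filter.2 ⟨hsV, hsw⟩⟩) hc
  rcases TasDualx897.rect_dual hr hv c1 c2 hcov with ⟨C, hC1, hC2, ⟨ζ0, hζ0, e0⟩, ⟨ζ1, hζ1, e1⟩⟩ |
    ⟨C, hC1, hC2, ⟨ζ0, hζ0, e0⟩, ⟨ζ1, hζ1, e1⟩⟩
  · -- left - right crossing
    have f0 := (hC1 hζ0).2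
    have f1 := (hC1 hζ1).2
    rw [hF1, Set.mem_iUnion₂] at f0 f1
    obtain ⟨s0, hs0, hc0⟩ := f0
    obtain ⟨s1, hs1, hc1⟩ := f1
    have hch := G6Tx408.chain_of_cover (s := ((S ∩ B : Finset ℂ) : Set ℂ)) (Finset.finite_toSet _)
      (F := fun s => φ ⁻¹' (voronoiCell (S : Set ℂ) s)) (fun s _ => (G6Vx408.isClosed_cell _ _).preimage hφc)
      hC2 (fun z hz => (hC1 hz).2) hs0 hs1 ⟨ζ0, hζ0, hc0⟩ ⟨ζ1, hζ1, hc1⟩
    set A : Set ℂ := {s | (s ∈ S ∧ s ∈ B) ∧ ∃ ζ ∈ TasIx372.Rc r0 r1 v0 v1, φ ζ ∈ voronoiCell (S : Set ℂ) s}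
      with hA
    have hch2 : Relation.ReflTransGen (fun a b => (DE S a b ∧ |X z0 e a - X z0 e b| ≤ 2 * m) ∧
        a ∈ A ∧ b ∈ A) s0 s1 := by
      clear hc1 hs1 e1 hζ1
      induction hch with
      | refl => exact .refl
      | @tail u v _ h5 ih =>
        obtain ⟨hu, hv', ζ, ⟨hzu, hzv⟩, hzC⟩ := h5
        have hR := (hC1 hzC).1
        rw [Finset.mem_coe, Finset.mem_inter] at hu hv'
        by_cases huv : u = v
        · rw [← huv]; exact ih
        · have n1 := abs_le.1 (nr u hu.1 ζ hR hzu).2.2.2.1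
          have n2 := abs_le.1 (nr v hv'.1 ζ hR hzv).2.2.2.1
          exact ih.tail ⟨⟨G6Wx723.adj_of_mem hS h3 hu.1 hv'.1 huv hzu hzv,
            abs_le.2 ⟨by linarith [n1.1, n2.2], by linarith [n1.2, n2.1]⟩⟩, ⟨hu, ζ, hR, hzu⟩,
            ⟨hv', ζ, hR, hzv⟩⟩
    rw [Finset.mem_coe, Finset.mem_inter] at hs0 hs1
    have hA0 : s0 ∈ A := ⟨hs0, ζ0, (hC1 hζ0).1, hc0⟩
    obtain ⟨l, hl, hh, hla, hlc⟩ := list_of_rtg hch2
    have hmem : ∀ s ∈ l, s ∈ A := by
      intro s hs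
      cases l with
      | nil => simp at hs
      | cons a l =>
        cases l with
        | nil =>
          rw [List.mem_singleton] at hs
          rw [hs]
          simp only [List.head_cons] at hh
          rw [hh]; exact hA0
        | cons b l =>
          have key : ∀ (l : List ℂ) (a b : ℂ), (a :: b :: l).IsChain
              (fun a b => (DE S a b ∧ |X z0 e a - X z0 e b| ≤ 2 * m) ∧ a ∈ A ∧ b ∈ A) →
              ∀ s ∈ a :: b :: l, s ∈ A := by
            intro l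
            induction l with
            | nil =>
              intro a b h s hs
              rw [List.isChain_cons_cons] at h
              rcases List.mem_cons.1 hs with h' | h'
              · rw [h']; exact h.1.2.1
              · rw [List.mem_singleton] at h'
                rw [h']; exact h.1.2.2
            | cons c l ih =>
              intro a b h s hs
              rw [List.isChain_cons_cons] at h
              rcases List.mem_cons.1 hs with h' | h'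
              · rw [h']; exact h.1.2.1
              · exact ih b c h.2 s h'
          exact key l a b hlc s hs
    have hd : ∀ p ∈ prs l, DE S p.1 p.2 ∧ |X z0 e p.1 - X z0 e p.2| ≤ 2 * m :=
      (isChain_iff_prs (R := fun a b => DE S a b ∧ |X z0 e a - X z0 e b| ≤ 2 * m) _).1
        (hlc.imp fun _ _ h => h.1)
    have info : ∀ s ∈ l, (s ∈ V ∧ s ∉ w ∧ s ∉ sd V z0 e q0 q1 L) ∧
        (r0 - m ≤ X z0 e s ∧ X z0 e s ≤ r1 + m) ∧ v0 - m ≤ Y z0 e s ∧ Y z0 e s ≤ v1 + m := by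
      intro s hs
      obtain ⟨⟨hsS, hsB⟩, ζ, hζ, hc⟩ := hmem s hs
      have k := nr s hsS ζ hζ hc
      rw [hB, Finset.mem_filter] at hsB
      exact ⟨⟨hsB.1, hsB.2⟩, k.1, k.2.1, k.2.2.1⟩
    have lvl : ∀ s ∈ l, L.lv (X z0 e s) < Y z0 e s := by
      intro s hs
      obtain ⟨⟨i1, -, i2⟩, i3, i4, i5⟩ := info s hs
      by_contra hcon
      push Not at hcon
      exact i2 (mem_sd'.2 ⟨i1, ⟨by linarith [i3.1], by linarith [i3.2]⟩, by linarith, hcon⟩)
    refine ⟨l, hl, fun p hp => (hd p hp).1, fun s hs => ?_, fun s hs => ?_, fun s hs ho => ?_,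
      fun s hs => ?_, ?_, ?_, fun p hp => (hd p hp).2⟩
    · have := (info s hs).1
      exact Finset.mem_sdiff.2 ⟨this.1, this.2.1⟩
    · exact ⟨lt_of_le_of_lt (L.lv_ge _) (lvl s hs), by linarith [(info s hs).2.2.2]⟩
    · have := lvl s hs
      rwa [L.lv_out ho] at this
    · have := (info s hs).2.1
      constructor <;> linarith [this.1, this.2]
    · have k := nr s0 hs0.1 ζ0 (hC1 hζ0).1 hc0
      have := (abs_le.1 k.2.2.2.1).2
      rw [hh]
      have e0' : ζ0.re = r0 := e0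
      linarith
    · have k := nr s1 hs1.1 ζ1 (hC1 hζ1).1 hc1
      have := (abs_le.1 k.2.2.2.1).1
      rw [hla]
      have e1' : ζ1.re = r1 := e1
      linarith
  · -- bottom - top crossing: impossible
    exfalso
    have f0 := (hC1 hζ0).2
    have f1 := (hC1 hζ1).2
    rw [hF2, Set.mem_iUnion₂] at f0 f1
    obtain ⟨s0, hs0, hc0⟩ := f0
    obtain ⟨s1, hs1, hc1⟩ := f1
    have hch := G6Tx408.chain_of_cover (s := ((S ∩ W : Finset ℂ) : Set ℂ)) (Finset.finite_toSet _)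
      (F := fun s => φ ⁻¹' (voronoiCell (S : Set ℂ) s)) (fun s _ => (G6Vx408.isClosed_cell _ _).preimage hφc)
      hC2 (fun z hz => (hC1 hz).2) hs0 hs1 ⟨ζ0, hζ0, hc0⟩ ⟨ζ1, hζ1, hc1⟩
    have hK : Kl S V z0 e q0 q1 L w0 s1 := by
      have hs0' := hs0
      rw [Finset.mem_coe, Finset.mem_inter] at hs0'
      have k0 := nr s0 hs0'.1 ζ0 (hC1 hζ0).1 hc0
      have k0' := abs_le.1 k0.2.2.2.2
      have e0' : ζ0.im = v0 := e0
      have hV0 := reg s0 hs0'.1 k0.1.1 k0.1.2 k0.2.1 k0.2.2.1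
      have kl := L.lv_ge (X z0 e s0)
      have hstart : Kl S V z0 e q0 q1 L w0 s0 := Cl.seed (mem_sd'.2 ⟨hV0,
        ⟨by linarith [k0.1.1], by linarith [k0.1.2]⟩, by linarith [k0.2.1], by linarith [k0'.2]⟩)
      clear hc1 hs1 e1 hζ1
      induction hch with
      | refl => exact hstart
      | @tail u v _ h5 ih =>
        obtain ⟨hu, hv', ζ, ⟨hzu, hzv⟩, hzC⟩ := h5
        have hR := (hC1 hzC).1
        rw [Finset.mem_coe, Finset.mem_inter] at hu hv'
        by_cases huv : u = v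
        · rw [← huv]; exact ih
        · have hde : DE S u v := G6Wx723.adj_of_mem hS h3 hu.1 hv'.1 huv hzu hzv
          have k := nr v hv'.1 ζ hR hzv
          have hVv := reg v hv'.1 k.1.1 k.1.2 k.2.1 k.2.2.1
          have hx0 : q0 < X z0 e v := by linarith [k.1.1]
          have hx1 : X z0 e v < q1 := by linarith [k.1.2]
          have hYv := hD u v ih hde hx0 hx1
          rcases le_or_gt (Y z0 e v) (L.lv (X z0 e v)) with hb | hb
          · exact Cl.seed (mem_sd'.2 ⟨hVv, ⟨hx0, hx1⟩, by linarith [k.2.1], hb⟩)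
          · have hvU : v ∈ us V z0 e q0 q1 L := mem_us'.2 ⟨hVv, ⟨hx0, hx1⟩, hb, hYv⟩
            have hvW := hv'.2
            rw [hW, Finset.mem_filter] at hvW
            have hvw : v ∈ w := by
              rcases hvW.2 with h | h
              · exact h
              · exact absurd (mem_sd'.1 h).2.2.2 (not_le.2 hb)
            exact Cl.step ih hde hvU ((h1 v (nb_jn ih hde hvU)).1 hvw)
    have hs1' := hs1
    rw [Finset.mem_coe, Finset.mem_inter] at hs1'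
    have k1 := nr s1 hs1'.1 ζ1 (hC1 hζ1).1 hc1
    have k1' := abs_le.1 k1.2.2.2.2
    have e1' : ζ1.im = v1 := e1
    have := (kl_bd hK).2.2.2
    linarith [k1'.1]

end Crest.Agent.R143.Neckx921
end
end

-- ▼ part R143/Neck3_921

/-!
# Row 143, CORE-C, block V, leaf V4: probability of the neck gate, end (helper921)

* `Wl` : numerical conditions, `En` : environment
* `GE` : **gate and extensions**: a neck, a long black crossing `HB`, black vertical chains of both landing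
  zones, a long white crossing and white vertical chains of both landing zones
* `neck_det` : exploration event + fresh white chains give `GE`
* `neck_pr` : probability of `GE` is `≥ p ^ 9`
-/

set_option autoImplicit false

noncomputable section

open scoped Classical

namespace Crest.Agent.R143.Neckx921

open Crest.ProbabilityR.Voronoi (voronoiCell)
open Crest.Agent.R143.B0x346 Crest.Agent.R143.DelGx806 Crest.Agent.R143.DelRx806
open Crest.Agent.R143.ToolWx838 Crest.Agent.R143.Blkx838 Crest.Agent.R143.ToolW2x838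
open Crest.Agent.R143.ToolW3x838 Crest.Agent.R143.Circ4x838 Crest.Agent.R143.Harx315
open Crest.Agent.R143.RB0x838 Crest.Agent.R143.CircPx838 Crest.Agent.R143.Gatex838

variable {S V w w' w0 : Finset ℂ} {z0 e : ℂ}
variable {q0 q1 r0 r1 g0 g1 g2 g3 k0 k1 lR0 lR1 lL0 lL1 tw v0 l0 v1 p1 c0 c1 d0 d1 b1 m mN : ℝ}
  {L : Lc}

/-- numerical conditions: windows (first coordinate)
`q0 < r0 < lL0 < lL1 < a0 ≤ g0 < g1 ≤ k0 < k1 ≤ g2 < g3 ≤ a1 < lR0 < lR1 < r1 < q1`, levels (second coordinate)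
`tw < t0 < v0 < b0 ≤ p0 ≤ l0 < l1 < v1 < p1 < cB ≤ d0 ≤ c0 < c1 ≤ d1, c1 ≤ b1` -/
structure Wl (L : Lc) (q0 q1 r0 r1 g0 g1 g2 g3 k0 k1 lR0 lR1 lL0 lL1 tw v0 l0 v1 p1 c0 c1 d0 d1 b1 m : ℝ) :
    Prop where
  m0 : 0 < m
  q0r : q0 < r0 - m
  rq1 : r1 + m < q1
  ra : r0 + m ≤ L.a0
  ar : L.a1 ≤ r1 - m
  ag : L.a0 ≤ g0
  g01 : g0 < g1
  gk : g1 ≤ k0
  k01 : k0 < k1
  kg : k1 ≤ g2
  g23 : g2 < g3
  ga : g3 ≤ L.a1
  lR : L.a1 ≤ lR0
  lL : lL1 ≤ L.a0
  tw : tw < L.t0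
  tv : L.t0 ≤ v0 - m
  vb : v0 + m ≤ L.b0
  pl : L.p0 ≤ l0
  l01 : l0 < L.l1
  lv : L.l1 ≤ v1 - m
  vp : v1 + m < p1
  pB : p1 + m < L.cB
  Bd : L.cB ≤ d0 - m
  dc : d0 ≤ c0
  c01 : c0 < c1
  cb : c1 ≤ b1

/-- the environment hypotheses -/
structure En (S V : Finset ℂ) (z0 e : ℂ) (r0 r1 v0 v1 m : ℝ) : Prop where
  gp : GP (S : Set ℂ)
  card : 3 ≤ S.card
  reg : ∀ s ∈ S, r0 - m ≤ X z0 e s → X z0 e s ≤ r1 + m → v0 - m ≤ Y z0 e s →
      Y z0 e s ≤ v1 + m → s ∈ V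
  near : ∀ s ∈ S, ∀ z ∈ voronoiCell (S : Set ℂ) s, r0 ≤ X z0 e z → X z0 e z ≤ r1 →
      v0 ≤ Y z0 e z → Y z0 e z ≤ v1 → |X z0 e s - X z0 e z| ≤ m ∧ |Y z0 e s - Y z0 e z| ≤ m

/-- **gate and extensions** (`β` black) -/
structure GE (S V : Finset ℂ) (z0 e : ℂ) (L : Lc) (r0 r1 lR0 lR1 lL0 lL1 p1 c0 c1 d0 d1 b1 m mN : ℝ)
    (β : Finset ℂ) : Prop where
  neck : ∃ y x, NeckD S z0 e L.a0 L.a1 L.b0 b1 mN V β y x
  bl : ∃ P, HB S z0 e (r0 + m) (r1 - m) L.a0 L.a1 L.b0 L.p0 p1 (2 * m) β P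
  bR : ∃ Q, VC S z0 e lR0 lR1 L.p0 p1 m β Q
  bL : ∃ Q, VC S z0 e lL0 lL1 L.p0 p1 m β Q
  wh : ∃ U, HC S z0 e r0 r1 c0 c1 m (V \ β) U
  wR : ∃ U, VC S z0 e lR0 lR1 d0 d1 m (V \ β) U
  wL : ∃ U, VC S z0 e lL0 lL1 d0 d1 m (V \ β) U

/-- **deterministic core** -/
theorem neck_det (W : Wl L q0 q1 r0 r1 g0 g1 g2 g3 k0 k1 lR0 lR1 lL0 lL1 tw v0 l0 v1 p1 c0 c1 d0 d1 b1 m)
    (hN : L.b0 - mN ≤ L.t0) (hmN : m ≤ mN) (he : e ≠ 0) (H : En S V z0 e r0 r1 v0 v1 m)
    (hE : E2 S V z0 e q0 q1 k0 k1 lR0 lR1 lL0 lL1 p1 m L w0)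
    (h1 : ∀ s ∈ Jn S V z0 e q0 q1 L w0, (s ∈ w ↔ s ∈ w0))
    (h2 : ∀ s ∈ V, s ∉ Jn S V z0 e q0 q1 L w0 → (s ∈ w ↔ s ∈ w')) (hw' : w' ⊆ V) (hw : w ⊆ V)
    (hl' : ∃ l, VC S z0 e k0 k1 v0 b1 m w' l) (hU' : ∃ U, HC S z0 e r0 r1 c0 c1 m w' U)
    (hUR : ∃ U, VC S z0 e lR0 lR1 d0 d1 m w' U) (hUL : ∃ U, VC S z0 e lL0 lL1 d0 d1 m w' U) :
    GE S V z0 e L r0 r1 lR0 lR1 lL0 lL1 p1 c0 c1 d0 d1 b1 m mN (V \ w) := by
  obtain ⟨m0, q0r, rq1, ra, ar, ag, g01, gk, k01, kg, g23, ga, lR, lL, tw', tv, vb, pl, l01, lv, vp, pB,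
    Bd, dc, c01, cb⟩ := W
  obtain ⟨l, hl⟩ := hl'
  obtain ⟨U, hU⟩ := hU'
  have L1 := L.tb
  have L2 := L.bp
  have L3 := L.pl
  have L4 := L.lB
  set J := Jn S V z0 e q0 q1 L w0 with hJ
  have hJY : ∀ s ∈ J, Y z0 e s < L.cB := fun s hs => jn_lt hs
  have hww : ∀ s ∈ w', s ∉ J → s ∈ w := fun s hs hsJ => (h2 s (hw' hs) hsJ).2 hs
  have hVw : V \ (V \ w) = w := Finset.sdiff_sdiff_eq_self hw
  have bsw : ∀ s ∈ bs V z0 e L, s ∈ V \ w0 → s ∈ V \ w := by
    intro s hs h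
    rw [Finset.mem_sdiff] at h ⊢
    exact ⟨h.1, fun hc => h.2 ((h1 s (bs_jn hs)).1 hc)⟩
  refine ⟨?_, dual_hc H.gp H.card he m0 q0r rq1 (by linarith) (by linarith) tv vb lv vp H.reg
    H.near hE.1.1 h1, ?_, ?_, ?_, ?_, ?_⟩
  rotate_left
  · obtain ⟨Q, hQ⟩ := hE.2.1
    refine ⟨Q, hQ.ne, hQ.adj, fun s hs => bsw s (mem_bs'.2 ⟨(Finset.mem_sdiff.1 (hQ.col s hs)).1,
      fun hc => ?_, ?_⟩) (hQ.col s hs), hQ.strip, hQ.loc, hQ.left, hQ.right⟩
    · linarith [hc.2, (hQ.strip s hs).1]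
    · linarith [(hQ.loc s hs).2]
  · obtain ⟨Q, hQ⟩ := hE.2.2
    refine ⟨Q, hQ.ne, hQ.adj, fun s hs => bsw s (mem_bs'.2 ⟨(Finset.mem_sdiff.1 (hQ.col s hs)).1,
      fun hc => ?_, ?_⟩) (hQ.col s hs), hQ.strip, hQ.loc, hQ.left, hQ.right⟩
    · linarith [hc.1, (hQ.strip s hs).2]
    · linarith [(hQ.loc s hs).2]
  · rw [hVw]
    refine ⟨U, hU.ne, hU.adj, fun s hs => hww s (hU.col s hs) fun hc => ?_, hU.strip, hU.loc,
      hU.left, hU.right⟩
    have := hJY s hc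
    linarith [(hU.strip s hs).1]
  · rw [hVw]
    obtain ⟨U, hU⟩ := hUR
    refine ⟨U, hU.ne, hU.adj, fun s hs => hww s (hU.col s hs) fun hc => ?_, hU.strip, hU.loc,
      hU.left, hU.right⟩
    have := hJY s hc
    linarith [(hU.loc s hs).1]
  · rw [hVw]
    obtain ⟨U, hU⟩ := hUL
    refine ⟨U, hU.ne, hU.adj, fun s hs => hww s (hU.col s hs) fun hc => ?_, hU.strip, hU.loc,
      hU.left, hU.right⟩
    have := hJY s hc
    linarith [(hU.loc s hs).1]
  -- the neck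
  have hXq : ∀ s ∈ l, (q0 < X z0 e s ∧ X z0 e s < q1) ∧ L.a0 < X z0 e s ∧ X z0 e s < L.a1 := by
    intro s hs
    have := hl.strip s hs
    refine ⟨⟨by linarith [this.1], by linarith [this.2]⟩, by linarith [this.1], by linarith [this.2]⟩
  have hlvl : ∀ s ∈ l, L.lv (X z0 e s) = L.b0 := fun s hs => L.lv_in (hXq s hs).2.1 (hXq s hs).2.2
  have hsd : ∀ s ∈ l, Y z0 e s ≤ L.b0 → s ∈ J := by
    intro s hs hb
    exact kl_jn (Cl.seed (mem_sd'.2 ⟨hw' (hl.col _ hs), (hXq _ hs).1, by linarith [(hl.loc _ hs).1], by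
      rw [hlvl s hs]; exact hb⟩))
  have hhead : l.head hl.ne ∈ J := hsd _ (List.head_mem hl.ne) (by linarith [hl.left])
  have hlast : l.getLast hl.ne ∉ J := fun hc => by
    have := hJY _ hc
    linarith [hl.right]
  obtain ⟨n1, y, y', n2, hsp, hy, hno⟩ := last_split (P := fun s => s ∈ J) hl.ne hhead hlast
  have hmem : ∀ s ∈ y :: y' :: n2, s ∈ l := by
    intro s hs
    rw [hsp]
    exact List.mem_append_right _ hs
  have hsuf : (y :: y' :: n2).IsChain (DE S) := by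
    have h := (isChain_iff_prs (R := DE S) l).2 hl.adj
    rw [hsp, List.isChain_append] at h
    exact h.2.1
  have hyy : DE S y y' := by
    rw [List.isChain_cons_cons] at hsuf
    exact hsuf.1
  have hy'J : y' ∉ J := hno y' (by simp)
  have hy'l : y' ∈ l := hmem y' (by simp)
  have hyl : y ∈ l := hmem y (by simp)
  have hy'V : y' ∈ V := hw' (hl.col _ hy'l)
  have hyK : ¬ Kl S V z0 e q0 q1 L w0 y := by
    intro hK
    have hYy := hE.1.1 y y' hK hyy (hXq y' hy'l).1.1 (hXq y' hy'l).1.2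
    rcases le_or_gt (Y z0 e y') L.b0 with hb | hb
    · exact hy'J (hsd y' hy'l hb)
    · exact hy'J (nb_jn hK hyy (mem_us'.2 ⟨hy'V, (hXq y' hy'l).1, by rw [hlvl y' hy'l]; exact hb, hYy⟩))
  rcases jn_cases hy with h | h | ⟨hyU, x, hx, hxy⟩
  · exact absurd (hXq y hyl).2 (mem_bs'.1 h).2.1
  · exact absurd h hyK
  have hyw0 : y ∉ w0 := fun hc => hyK (Cl.step hx hxy hyU hc)
  have hyw : y ∉ w := fun hc => hyw0 ((h1 y hy).1 hc)
  have hyb := (mem_us'.1 hyU).2.2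
  rw [hlvl y hyl] at hyb
  have hxa := hE.1.2 x y hx hxy (hl.strip y hyl).1 (hl.strip y hyl).2 (by linarith [hyb.1]) hyb.2
  obtain ⟨a, c, ha, hc, hlastx, hcs⟩ := Cl.chain hxa
  have hcK : ∀ s ∈ a :: c, Kl S V z0 e L.a0 L.a1 L w0 s := by
    refine cl_of_chain (l := a :: c) (by simp) (Cl.seed ha) hc ?_
    intro t ht
    rcases List.mem_cons.1 ht with h | h
    · exact Or.inl (h ▸ ha)
    · exact Or.inr (hcs t h)
  have hcJ : ∀ s ∈ a :: c, s ∈ J := fun s hs =>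
    kl_jn (kl_tr (x0 := q0) (x1 := q1) (w' := w0) (by linarith) (by linarith) (fun _ _ h => h)
      (hcK s hs)).2
  have hab : Y z0 e a ≤ L.b0 := by
    have := mem_sd'.1 ha
    rw [← L.lv_in this.2.1.1 this.2.1.2]
    exact this.2.2.2
  set Z : List ℂ := (a :: c) ++ (y :: y' :: n2) with hZ
  have hZc : Z.IsChain (DE S) := by
    rw [hZ, List.isChain_append]
    refine ⟨hc, hsuf, ?_⟩
    intro u hu v hv
    simp only [List.head?_cons, Option.mem_def, Option.some.injEq] at hv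
    subst hv
    rw [List.getLast?_eq_some_getLast (by simp)] at hu
    simp only [Option.mem_def, Option.some.injEq] at hu
    rw [← hu, hlastx]
    exact hxy
  have hZr : (y' :: n2).reverse ++ y :: (a :: c).reverse = Z.reverse := by
    rw [hZ]; simp
  refine ⟨y, (y' :: n2).reverse.getLast (by simp), (y' :: n2).reverse, (a :: c).reverse, ?_, rfl⟩
  refine ⟨by simp, by simp, ?_, ?_, ?_, ?_, ?_, ?_, ?_, ?_, ?_⟩
  · rw [hZr]
    intro p hp
    rw [prs_reverse, List.mem_reverse, List.mem_map] at hp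
    obtain ⟨q, hq, rfl⟩ := hp
    exact ((isChain_iff_prs _).1 hZc q hq).symm
  · intro s hs
    rw [List.mem_reverse] at hs
    have hsl := hmem s (List.mem_cons_of_mem _ hs)
    have h3 := hww s (hl.col s hsl) (hno s hs)
    exact ⟨hw' (hl.col s hsl), fun hc => (Finset.mem_sdiff.1 hc).2 h3⟩
  · intro s hs hb
    rw [List.mem_reverse] at hs
    have hV := (kl_bd (hcK s hs)).1
    refine ⟨hV, fun hc' => (Finset.mem_sdiff.1 hc').2 ?_⟩
    rcases List.mem_cons.1 hs with h | h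
    · exfalso
      rw [h] at hb
      linarith
    · exact (h1 s (hcJ s hs)).2 (hcs s h).2
  · exact ⟨(mem_us'.1 hyU).1, Finset.mem_sdiff.2 ⟨(mem_us'.1 hyU).1, hyw⟩⟩
  · intro s hs
    rw [hZr, List.mem_reverse, hZ, List.mem_append] at hs
    rcases hs with hs | hs
    · have := kl_bd (hcK s hs)
      exact ⟨this.2.1, by linarith [this.2.2.1], by linarith [this.2.2.2]⟩
    · have hsl := hmem s hs
      have := hl.loc s hsl
      exact ⟨(hXq s hsl).2, by linarith [this.1], by linarith [this.2]⟩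
  · exact ⟨hyb.1, by linarith [hyb.2]⟩
  · rw [List.head_reverse]
    have : (y' :: n2).getLast (by simp) = l.getLast hl.ne := by
      have h4 : (n1 ++ y :: y' :: n2).getLast (by simp) = (y' :: n2).getLast (by simp) := by
        rw [List.getLast_append_of_ne_nil _ (List.cons_ne_nil _ _)]
        exact List.getLast_cons (List.cons_ne_nil _ _)
      simp only [hsp]
      exact h4.symm
    rw [this]
    exact hl.right
  · rw [List.getLast_reverse]
    exact hab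
  · intro s hs
    rw [List.mem_reverse] at hs
    by_contra hcon
    push Not at hcon
    exact hno s hs (hsd s (hmem s (List.mem_cons_of_mem _ hs)) hcon)

/-- **gate and extensions with probability at least `p ^ 9`** -/
theorem neck_pr (W : Wl L q0 q1 r0 r1 g0 g1 g2 g3 k0 k1 lR0 lR1 lL0 lL1 tw v0 l0 v1 p1 c0 c1 d0 d1 b1 m)
    (hN : L.b0 - mN ≤ L.t0) (hmN : m ≤ mN) (he : e ≠ 0) (H : En S V z0 e r0 r1 v0 v1 m) {p : ℝ}
    (hp : 0 ≤ p)
    (h1 : p ≤ pr V (fun β => ∃ l, HC S z0 e q0 q1 l0 L.l1 m β l))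
    (h2 : p ≤ pr V (fun β => ∃ l, VC S z0 e g0 g1 tw L.l1 m β l))
    (h3 : p ≤ pr V (fun β => ∃ l, VC S z0 e g2 g3 tw L.l1 m β l))
    (h4 : p ≤ pr V (fun β => ∃ l, VC S z0 e lR0 lR1 L.p0 p1 m β l))
    (h5 : p ≤ pr V (fun β => ∃ l, VC S z0 e lL0 lL1 L.p0 p1 m β l))
    (h6 : p ≤ pr V (fun β => ∃ l, VC S z0 e k0 k1 v0 b1 m β l))
    (h7 : p ≤ pr V (fun β => ∃ l, HC S z0 e r0 r1 c0 c1 m β l))
    (h8 : p ≤ pr V (fun β => ∃ l, VC S z0 e lR0 lR1 d0 d1 m β l))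
    (h9 : p ≤ pr V (fun β => ∃ l, VC S z0 e lL0 lL1 d0 d1 m β l)) :
    p ^ 9 ≤ pr V (GE S V z0 e L r0 r1 lR0 lR1 lL0 lL1 p1 c0 c1 d0 d1 b1 m mN) := by
  set A : Finset ℂ → Prop := GE S V z0 e L r0 r1 lR0 lR1 lL0 lL1 p1 c0 c1 d0 d1 b1 m mN with hA
  rw [← pr_flip V A]
  have hand : ∀ {A B : Finset ℂ → Prop} {a b : ℝ}, Up V A → Up V B → 0 ≤ a → 0 ≤ b → a ≤ pr V A →
      b ≤ pr V B → a * b ≤ pr V (fun β => A β ∧ B β) := by
    intro A B a b hA hB ha hb h1 h2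
    exact (mul_le_mul h1 h2 hb pr_nonneg).trans (harris_up hA hB)
  have hp2 : 0 ≤ p * p := mul_nonneg hp hp
  -- exploration event
  have a1' : p ^ 5 ≤ pr V (E2 S V z0 e q0 q1 k0 k1 lR0 lR1 lL0 lL1 p1 m L) := by
    have b1' := hand (up_vc V S z0 e g0 g1 tw L.l1 m) (up_vc V S z0 e g2 g3 tw L.l1 m) hp hp h2 h3
    have b2' := hand (up_vc V S z0 e lR0 lR1 L.p0 p1 m) (up_vc V S z0 e lL0 lL1 L.p0 p1 m) hp hp h4 h5
    have b3' := hand (up_hc V S z0 e q0 q1 l0 L.l1 m)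
      ((up_vc V S z0 e g0 g1 tw L.l1 m).and (up_vc V S z0 e g2 g3 tw L.l1 m)) hp hp2 h1 b1'
    have b4' := hand ((up_hc V S z0 e q0 q1 l0 L.l1 m).and
      ((up_vc V S z0 e g0 g1 tw L.l1 m).and (up_vc V S z0 e g2 g3 tw L.l1 m)))
      ((up_vc V S z0 e lR0 lR1 L.p0 p1 m).and (up_vc V S z0 e lL0 lL1 L.p0 p1 m))
      (mul_nonneg hp hp2) hp2 b3' b2'
    have b5 : pr V (fun β => ((∃ l, HC S z0 e q0 q1 l0 L.l1 m β l) ∧
        (∃ l, VC S z0 e g0 g1 tw L.l1 m β l) ∧ ∃ l, VC S z0 e g2 g3 tw L.l1 m β l) ∧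
        (∃ l, VC S z0 e lR0 lR1 L.p0 p1 m β l) ∧ ∃ l, VC S z0 e lL0 lL1 L.p0 p1 m β l) ≤
        pr V (E2 S V z0 e q0 q1 k0 k1 lR0 lR1 lL0 lL1 p1 m L) := by
      rw [← pr_flip V (fun β => ((∃ l, HC S z0 e q0 q1 l0 L.l1 m β l) ∧
        (∃ l, VC S z0 e g0 g1 tw L.l1 m β l) ∧ ∃ l, VC S z0 e g2 g3 tw L.l1 m β l) ∧
        (∃ l, VC S z0 e lR0 lR1 L.p0 p1 m β l) ∧ ∃ l, VC S z0 e lL0 lL1 L.p0 p1 m β l)]
      refine pr_mono fun w _ => ?_
      rintro ⟨⟨⟨h, hh⟩, ⟨lL, hL⟩, lR, hR⟩, hQ1, hQ2⟩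
      exact ⟨⟨dd_of H.gp he W.pl hh, cf_of H.gp he W.tw W.ag W.gk W.kg W.ga hL hR⟩, hQ1, hQ2⟩
    calc p ^ 5 = p * (p * p) * (p * p) := by ring
      _ ≤ _ := b4'
      _ ≤ _ := b5
  set WW : Finset ℂ → Prop := fun β => ((∃ l, VC S z0 e k0 k1 v0 b1 m β l) ∧
    ∃ l, HC S z0 e r0 r1 c0 c1 m β l) ∧ (∃ l, VC S z0 e lR0 lR1 d0 d1 m β l) ∧
    ∃ l, VC S z0 e lL0 lL1 d0 d1 m β l with hWW
  have a2 : p ^ 4 ≤ pr V WW := by
    have b1' := hand (up_vc V S z0 e k0 k1 v0 b1 m) (up_hc V S z0 e r0 r1 c0 c1 m) hp hp h6 h7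
    have b2' := hand (up_vc V S z0 e lR0 lR1 d0 d1 m) (up_vc V S z0 e lL0 lL1 d0 d1 m) hp hp h8 h9
    have b3' := hand ((up_vc V S z0 e k0 k1 v0 b1 m).and (up_hc V S z0 e r0 r1 c0 c1 m))
      ((up_vc V S z0 e lR0 lR1 d0 d1 m).and (up_vc V S z0 e lL0 lL1 d0 d1 m)) hp2 hp2 b1' b2'
    calc p ^ 4 = p * p * (p * p) := by ring
      _ ≤ _ := b3'
  have hqa : q0 ≤ L.a0 := by linarith [W.q0r, W.ra, W.m0]
  have haq : L.a1 ≤ q1 := by linarith [W.rq1, W.ar, W.m0]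
  have hG := stop_ge' (V := V) (J := Jn S V z0 e q0 q1 L) jn_stop
    (e2_dec (k0 := k0) (k1 := k1) (m := m) (lR1 := lR1) (lL0 := lL0) hqa haq W.lR W.lL W.pB)
    (B := fun β => A (V \ β))
    (b := p ^ 4) ?_
  · calc p ^ 9 = p ^ 4 * p ^ 5 := by ring
      _ ≤ p ^ 4 * pr V (E2 S V z0 e q0 q1 k0 k1 lR0 lR1 lL0 lL1 p1 m L) :=
        mul_le_mul_of_nonneg_left a1' (by positivity)
      _ ≤ _ := hG
      _ ≤ _ := pr_mono fun β _ h => h.2
  · intro w0 hw0 hE
    set J := Jn S V z0 e q0 q1 L w0 with hJ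
    have hJV : J ⊆ V := jn_stop.sub w0 hw0
    refine a2.trans ?_
    rw [pr_sum hJV (A := WW)]
    have hle : ∀ γ ∈ J.powerset, pr (V \ J) (fun β => WW (β ∪ γ)) ≤
        pr (V \ J) (fun β => A (V \ (β ∪ (w0 ∩ J)))) := by
      intro γ hγ
      rw [Finset.mem_powerset] at hγ
      refine pr_mono fun β hβ hw => ?_
      obtain ⟨⟨hl, hU⟩, hUR, hUL⟩ := hw
      have q1' : ∀ s ∈ Jn S V z0 e q0 q1 L w0, (s ∈ β ∪ (w0 ∩ J) ↔ s ∈ w0) := by
        intro s hs
        rw [← hJ] at hs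
        rw [Finset.mem_union, Finset.mem_inter]
        constructor
        · rintro (h | h)
          · exact absurd hs (Finset.mem_sdiff.1 (hβ h)).2
          · exact h.1
        · intro h
          exact Or.inr ⟨h, hs⟩
      have q2 : ∀ s ∈ V, s ∉ Jn S V z0 e q0 q1 L w0 →
          (s ∈ β ∪ (w0 ∩ J) ↔ s ∈ β ∪ γ) := by
        intro s hsV hs
        rw [← hJ] at hs
        rw [Finset.mem_union, Finset.mem_union, Finset.mem_inter]
        constructor
        · rintro (h | h)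
          · exact Or.inl h
          · exact absurd h.2 hs
        · rintro (h | h)
          · exact Or.inl h
          · exact absurd (hγ h) hs
      have hsub : β ∪ γ ⊆ V := Finset.union_subset (hβ.trans Finset.sdiff_subset) (hγ.trans hJV)
      have hsub' : β ∪ (w0 ∩ J) ⊆ V := Finset.union_subset (hβ.trans Finset.sdiff_subset)
        (Finset.inter_subset_left.trans hw0)
      exact neck_det W hN hmN he H hE q1' q2 hsub hsub' hl hU hUR hUL
    have hsum := Finset.sum_le_sum hle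
    rw [Finset.sum_const, Finset.card_powerset, nsmul_eq_mul] at hsum
    rw [div_le_iff₀ (by positivity)]
    refine hsum.trans (le_of_eq ?_)
    push_cast
    ring

end Crest.Agent.R143.Neckx921
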