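import Crest.Agent.R143.TileG_73

/-!
# Row 143, CORE-C, block V4 (c): straight tile, monotonicity and supports (helper73)

Unit: `e = η · direction`, so that `X z0 e`, `Y z0 e` are measured in `η`.
* `num` : the numbers: gate window `(-1, 1)`, levels `(-8, 8)`, black strip `(-8, 0)`, white strip
  `(2, 8)`, landing zones `(10, 12)`, `(-12, -10)`, margins `mN < 1`, `4`, `m' < 1`, region
  `-1 < X < 17`, `-17 < X < 1`, `-9 < Y < 9`
* `tileS` : the tile event of the straight tile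
* `up_extR`, `dn_extR`, .. : the extension events are increasing (black) / decreasing (white);
  `dep_extR`, .. : their supports
-/

set_option autoImplicit false

noncomputable section

open scoped Classical

namespace Crest.Agent.R143.TileGx73

open Crest.Agent.R143.B0x346 Crest.Agent.R143.DelGx806 Crest.Agent.R143.DelRx806
open Crest.Agent.R143.ToolWx838 Crest.Agent.R143.Blkx838 Crest.Agent.R143.ToolW2x838
open Crest.Agent.R143.ToolW3x838 Crest.Agent.R143.Circ4x838 Crest.Agent.R143.Harx315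
open Crest.Agent.R143.RB0x838 Crest.Agent.R143.CircPx838 Crest.Agent.R143.Gatex838
open Crest.Agent.R143.Neckx921

variable {S V β : Finset ℂ} {z0 e : ℂ} {a0 a1 b0 b1 l0 l1 r0 r1 p0 p1 q0 q1 m m' mN : ℝ}

/-- **the numbers** -/
theorem num (hN : 0 ≤ mN) (hN' : mN < 1) (hm : 0 ≤ m') (hm' : m' < 1) :
    Num (-1) 1 (-8) 8 mN (-8) 0 2 8 10 12 (-12) (-10) 4 m' (-9) 9 (-17) 17 := by
  constructor <;> linarith


/-! ### monotonicity and supports -/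

theorem ExtR.mono {A A' : Finset ℂ} {Q : List ℂ} (h : ExtR S z0 e a0 l0 l1 p0 p1 m m' A Q)
    (hA : A ⊆ A') : ExtR S z0 e a0 l0 l1 p0 p1 m m' A' Q :=
  ⟨⟨h.1.choose, h.1.choose_spec.mono hA⟩, h.2.mono hA⟩

theorem ExtL.mono {A A' : Finset ℂ} {Q : List ℂ} (h : ExtL S z0 e a1 r0 r1 p0 p1 m m' A Q)
    (hA : A ⊆ A') : ExtL S z0 e a1 r0 r1 p0 p1 m m' A' Q :=
  ⟨⟨h.1.choose, h.1.choose_spec.mono hA⟩, h.2.mono hA⟩

/-- the sites of a horizontal crossing can be restricted -/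
theorem HC.inter {A W : Finset ℂ} {x0 x1 y0 y1 : ℝ} {P : List ℂ} (h : HC S z0 e x0 x1 y0 y1 m A P)
    (hW : ∀ s ∈ A, y0 < Y z0 e s → Y z0 e s < y1 → x0 - m ≤ X z0 e s → X z0 e s ≤ x1 + m → s ∈ W) :
    HC S z0 e x0 x1 y0 y1 m (A ∩ W) P :=
  ⟨h.ne, h.adj, fun s hs => Finset.mem_inter.2 ⟨h.col s hs, hW s (h.col s hs) (h.strip s hs).1
    (h.strip s hs).2 (h.loc s hs).1 (h.loc s hs).2⟩, h.strip, h.loc, h.left, h.right⟩

theorem VC.inter {A W : Finset ℂ} {x0 x1 y0 y1 : ℝ} {P : List ℂ} (h : VC S z0 e x0 x1 y0 y1 m A P)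
    (hW : ∀ s ∈ A, x0 < X z0 e s → X z0 e s < x1 → y0 - m ≤ Y z0 e s → Y z0 e s ≤ y1 + m → s ∈ W) :
    VC S z0 e x0 x1 y0 y1 m (A ∩ W) P :=
  ⟨h.ne, h.adj, fun s hs => Finset.mem_inter.2 ⟨h.col s hs, hW s (h.col s hs) (h.strip s hs).1
    (h.strip s hs).2 (h.loc s hs).1 (h.loc s hs).2⟩, h.strip, h.loc, h.left, h.right⟩

theorem ExtR.inter {A W : Finset ℂ} {Q : List ℂ} (h : ExtR S z0 e a0 l0 l1 p0 p1 m m' A Q)
    (hW : ∀ s ∈ A, p0 < Y z0 e s → Y z0 e s < p1 → a0 - m ≤ X z0 e s → X z0 e s ≤ l1 + m → s ∈ W)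
    (hW' : ∀ s ∈ A, l0 < X z0 e s → X z0 e s < l1 → p0 - m' ≤ Y z0 e s → Y z0 e s ≤ p1 + m' → s ∈ W) :
    ExtR S z0 e a0 l0 l1 p0 p1 m m' (A ∩ W) Q :=
  ⟨⟨h.1.choose, HC.inter h.1.choose_spec hW⟩, VC.inter h.2 hW'⟩

theorem ExtL.inter {A W : Finset ℂ} {Q : List ℂ} (h : ExtL S z0 e a1 r0 r1 p0 p1 m m' A Q)
    (hW : ∀ s ∈ A, p0 < Y z0 e s → Y z0 e s < p1 → r0 - m ≤ X z0 e s → X z0 e s ≤ a1 + m → s ∈ W)
    (hW' : ∀ s ∈ A, r0 < X z0 e s → X z0 e s < r1 → p0 - m' ≤ Y z0 e s → Y z0 e s ≤ p1 + m' → s ∈ W) :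
    ExtL S z0 e a1 r0 r1 p0 p1 m m' (A ∩ W) Q :=
  ⟨⟨h.1.choose, HC.inter h.1.choose_spec hW⟩, VC.inter h.2 hW'⟩





end Crest.Agent.R143.TileGx73
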