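import Crest.Agent.R143.Har_315
import Crest.Agent.R143.TileS_73

-- ▼ part R143/PiLow_73
section

/-!
# Row 143, CORE-C, RIG: gates and tubes, lower bound of the link probability (helper73)

Fair colours of a finite set (`pr` of Har_315), a gate `G` (fully revealed box), tubes `TL`, `TR` on
its two sides.
* `markov` : `2a ≤ P(A)` implies `a ≤ P(q : a ≤ P(A | q))`, `q` = colours of `G`
* `Good C TL TR L R a q` : `C q`, and the two extensions have conditional probability at least `a`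
* `good_pr` : `a ≤ P(Good)` if `2a ≤ P(C ∧ L ∧ R)`
* `pi_ge` : for good gates `q, q'` the link event has conditional probability at least `a² p²`
  (Harris separately in the two halves `To` (white events), `Ti` (black events) of the tube)
-/

set_option autoImplicit false

noncomputable section

open scoped Classical

namespace Crest.Agent.R143.PiLowx73

open Finset
open Crest.Agent.R143.Harx315

variable {α : Type*} {V W G T TL TR To Ti : Finset α}


/-- good states of a gate: the gate event `C` and two extensions of conditional probability `≥ a` -/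
def Good (C : Finset α → Prop) (TL TR : Finset α) (L R : Finset α → Prop) (a : ℝ)
    (q : Finset α) : Prop :=
  C q ∧ a ≤ pr TL (fun τ => L (τ ∪ q)) ∧ a ≤ pr TR (fun τ => R (τ ∪ q))



/-- six events: white (decreasing) ones on `To`, black (increasing) ones on `Ti` -/
theorem six_ge {Aw Bw Cw Ab Bb Cb : Finset α → Prop} (hd : Disjoint To Ti)
    (dA : Dep T To Aw) (dB : Dep T To Bw) (dC : Dep T To Cw)
    (dA' : Dep T Ti Ab) (dB' : Dep T Ti Bb) (dC' : Dep T Ti Cb)
    (mA : Dn T Aw) (mB : Dn T Bw) (mC : Dn T Cw) (mA' : Up T Ab) (mB' : Up T Bb) (mC' : Up T Cb) :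
    (pr T Aw * pr T Ab) * (pr T Bw * pr T Bb) * (pr T Cw * pr T Cb) ≤
      pr T (fun τ => (Aw τ ∧ Bw τ ∧ Cw τ) ∧ Ab τ ∧ Bb τ ∧ Cb τ) := by
  rw [pr_indep hd (dA.and (dB.and dC)) (dA'.and (dB'.and dC'))]
  have h1 : pr T Aw * (pr T Bw * pr T Cw) ≤ pr T (fun τ => Aw τ ∧ Bw τ ∧ Cw τ) :=
    (mul_le_mul_of_nonneg_left (harris_dn mB mC) pr_nonneg).trans (harris_dn mA
      (fun β β' h1 h2 h3 => ⟨mB β β' h1 h2 h3.1, mC β β' h1 h2 h3.2⟩))
  have h2 : pr T Ab * (pr T Bb * pr T Cb) ≤ pr T (fun τ => Ab τ ∧ Bb τ ∧ Cb τ) :=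
    (mul_le_mul_of_nonneg_left (harris_up mB' mC') pr_nonneg).trans (harris_up mA'
      (fun β β' h1 h2 h3 => ⟨mB' β β' h1 h2 h3.1, mC' β β' h1 h2 h3.2⟩))
  have h3 := mul_le_mul h1 h2 (mul_nonneg pr_nonneg (mul_nonneg pr_nonneg pr_nonneg)) pr_nonneg
  refine le_trans (le_of_eq ?_) h3
  ring

/-- **link probability for good gates** : `q` good on the right, `q'` good on the left, tube
`T ⊇ To, Ti` (outer half: white events, inner half: black events) -/
theorem pi_ge {Rw Rb Mw Mb Lw Lb E : Finset α → Prop} {a p : ℝ} (ha : 0 ≤ a) (hp : 0 ≤ p)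
    {q q' : Finset α} (hd : Disjoint To Ti)
    (dR : Dep T To fun τ => Rw (τ ∪ q)) (dR' : Dep T Ti fun τ => Rb (τ ∪ q))
    (dM : Dep T To Mw) (dM' : Dep T Ti Mb)
    (dL : Dep T To fun τ => Lw (τ ∪ q')) (dL' : Dep T Ti fun τ => Lb (τ ∪ q'))
    (mR : Dn T fun τ => Rw (τ ∪ q)) (mR' : Up T fun τ => Rb (τ ∪ q))
    (mM : Dn T Mw) (mM' : Up T Mb)
    (mL : Dn T fun τ => Lw (τ ∪ q')) (mL' : Up T fun τ => Lb (τ ∪ q'))
    (h1 : a ≤ pr T (fun τ => Rw (τ ∪ q) ∧ Rb (τ ∪ q))) (h2 : p ≤ pr T Mw) (h3 : p ≤ pr T Mb)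
    (h4 : a ≤ pr T (fun τ => Lw (τ ∪ q') ∧ Lb (τ ∪ q')))
    (hE : ∀ τ, τ ⊆ T → (Rw (τ ∪ q) ∧ Mw τ ∧ Lw (τ ∪ q')) → (Rb (τ ∪ q) ∧ Mb τ ∧ Lb (τ ∪ q')) →
      E τ) : a * (p * p) * a ≤ pr T E := by
  rw [pr_indep hd dR dR'] at h1
  rw [pr_indep hd dL dL'] at h4
  have h5 := six_ge hd dR dM dL dR' dM' dL' mR mM mL mR' mM' mL'
  refine le_trans ?_ (h5.trans (pr_mono fun τ hτ h => hE τ hτ h.1 h.2))
  have h6 : p * p ≤ pr T Mw * pr T Mb := mul_le_mul h2 h3 hp pr_nonneg
  exact mul_le_mul (mul_le_mul h1 h6 (by positivity) (mul_nonneg pr_nonneg pr_nonneg)) h4 ha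
    (mul_nonneg (mul_nonneg pr_nonneg pr_nonneg) (mul_nonneg pr_nonneg pr_nonneg))

end Crest.Agent.R143.PiLowx73
end
end

-- ▼ part R143/Theta_73

/-!
# Row 143, CORE-C, block V4: quenched link probability of a tile for good gates (helper73)

`G`, `G'` the free sites of the two gate boxes, `T` the free sites of the tube, `To ⊆ T` (white half),
`Ti ⊆ T` (black half). All events are monotone predicates `E A` of the set `A` of the sites of one
colour.
* `Mo`, `Su` : monotone, supported in `W`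
* `GoodR`, `GoodL` : the conditional probability of the extension (both colours) is at least `a`
* `theta_ge` : for good `q ⊆ G`, `q' ⊆ G'` the tile event has probability at least `a (p p) a`
* `theta_w` : the same for the white half only
* `good_ge` : `P(Good) ≥ a` if the gate event and the two extensions have probability `≥ 2a`
-/

set_option autoImplicit false

noncomputable section

open scoped Classical

namespace Crest.Agent.R143.Thetax73

open Finset
open Crest.Agent.R143.Harx315 Crest.Agent.R143.PiLowx73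

variable {α : Type*} {V W G G' T To Ti : Finset α}

/-- monotone in the set of the sites of the colour -/
def Mo (E : Finset α → Prop) : Prop := ∀ A A', A ⊆ A' → E A → E A'

/-- supported in `W`, for sets inside `U` -/
def Su (U W : Finset α) (E : Finset α → Prop) : Prop := ∀ A, A ⊆ U → E A → E (A ∩ W)

theorem Su.mono {U W' : Finset α} {E : Finset α → Prop} (h : Su U W E) (hE : Mo E) (hW : W ⊆ W') :
    Su U W' E := fun A hA h1 => hE _ _ (inter_subset_inter subset_rfl hW) (h A hA h1)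

variable {E Eb Ew Fb Fw Mb Mw : Finset α → Prop} {a p : ℝ} {q q' : Finset α}

theorem upT (hE : Mo E) : Up T fun τ => E (τ ∪ q) :=
  fun _ _ h _ h1 => hE _ _ (union_subset_union h subset_rfl) h1

theorem dnT {U : Finset α} (hE : Mo E) : Dn T fun τ => E (U \ (τ ∪ q)) :=
  fun _ _ h _ h1 => hE _ _ (sdiff_subset_sdiff subset_rfl (union_subset_union h subset_rfl)) h1

theorem depB (hE : Mo E) (hG : Disjoint G T) (hW : Su (G ∪ T) (G ∪ Ti) E) (hq : q ⊆ G) :
    Dep T Ti fun τ => E (τ ∪ q) := by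
  intro τ hτ
  constructor
  · intro h
    refine hE _ _ ?_ (hW _ (union_subset (hτ.trans subset_union_right) (hq.trans
      subset_union_left)) h)
    intro s hs
    simp only [mem_inter, mem_union] at hs ⊢
    rcases hs with ⟨h1 | h1, h2 | h2⟩
    · exact absurd (hτ h1) (disjoint_left.1 hG h2)
    · exact Or.inl ⟨h1, h2⟩
    · exact Or.inr h1
    · exact Or.inr h1
  · intro h
    exact hE _ _ (union_subset_union inter_subset_left subset_rfl) h

theorem depW (hE : Mo E) (hG : Disjoint G T) (hW : Su (G ∪ T) (G ∪ To) E) :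
    Dep T To fun τ => E ((G ∪ T) \ (τ ∪ q)) := by
  intro τ hτ
  constructor
  · intro h
    exact hE _ _ (sdiff_subset_sdiff subset_rfl (union_subset_union inter_subset_left subset_rfl)) h
  · intro h
    refine hE _ _ ?_ (hW _ sdiff_subset h)
    intro s hs
    simp only [mem_inter, mem_union, mem_sdiff, not_or, not_and] at hs ⊢
    obtain ⟨⟨h1, h2, h3⟩, h4⟩ := hs
    refine ⟨h1, fun h5 => ?_, h3⟩
    rcases h4 with h4 | h4
    · exact disjoint_left.1 hG h4 (hτ h5)
    · exact h2 h5 h4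

/-- white and black extension of the gate `G` into the tube `T` have conditional probability `≥ a` -/
def Gd (G T : Finset α) (Ew Eb : Finset α → Prop) (a : ℝ) (q : Finset α) : Prop :=
  a ≤ pr T fun τ => Ew ((G ∪ T) \ (τ ∪ q)) ∧ Eb (τ ∪ q)

/-- **quenched link probability of a tile** -/
theorem theta_ge (ha : 0 ≤ a) (hp : 0 ≤ p) (hG : Disjoint G T) (hG' : Disjoint G' T)
    (hGG : Disjoint G G') (hd : Disjoint To Ti) (hq : q ⊆ G) (hq' : q' ⊆ G')
    (mEw : Mo Ew) (mEb : Mo Eb) (mFw : Mo Fw) (mFb : Mo Fb) (mMw : Mo Mw) (mMb : Mo Mb)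
    (sEw : Su (G ∪ T) (G ∪ To) Ew) (sEb : Su (G ∪ T) (G ∪ Ti) Eb)
    (sFw : Su (G' ∪ T) (G' ∪ To) Fw) (sFb : Su (G' ∪ T) (G' ∪ Ti) Fb)
    (sMw : Su T To Mw) (sMb : Su T Ti Mb)
    (h1 : Gd G T Ew Eb a q) (h2 : p ≤ pr T fun τ => Mw (T \ τ)) (h3 : p ≤ pr T Mb)
    (h4 : Gd G' T Fw Fb a q')
    (hE : ∀ β, β ⊆ G ∪ T ∪ G' → Eb β → Ew ((G ∪ T ∪ G') \ β) → Fb β → Fw ((G ∪ T ∪ G') \ β) → Mb β →
      Mw ((G ∪ T ∪ G') \ β) → E β) : a * (p * p) * a ≤ pr T fun τ => E (τ ∪ (q ∪ q')) := by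
  have sMw' : Su (∅ ∪ T) (∅ ∪ To) Mw := by simpa using sMw
  have sMb' : Su (∅ ∪ T) (∅ ∪ Ti) Mb := by simpa using sMb
  have dMw : Dep T To fun τ => Mw (T \ τ) := by
    simpa using depW (q := ∅) mMw (disjoint_empty_left T) sMw'
  have dMb : Dep T Ti fun τ => Mb τ := by
    simpa using depB (q := ∅) mMb (disjoint_empty_left T) sMb' (empty_subset _)
  have uMw : Dn T fun τ => Mw (T \ τ) := fun β β' h _ h1 =>
    mMw _ _ (sdiff_subset_sdiff subset_rfl h) h1
  have uMb : Up T fun τ => Mb τ := fun β β' h _ h1 => mMb _ _ h h1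
  refine pi_ge (T := T) (Rw := fun β => Ew ((G ∪ T) \ β)) (Rb := Eb) (Mw := fun τ => Mw (T \ τ))
    (Mb := Mb) (Lw := fun β => Fw ((G' ∪ T) \ β)) (Lb := Fb) ha hp hd (depW mEw hG sEw)
    (depB mEb hG sEb hq) dMw dMb (depW mFw hG' sFw) (depB mFb hG' sFb hq') (dnT mEw) (upT mEb)
    uMw uMb (dnT mFw) (upT mFb) h1 h2 h3 h4 ?_
  intro τ hτ hw hb
  have e1 : (G ∪ T) \ (τ ∪ q) ⊆ (G ∪ T ∪ G') \ (τ ∪ (q ∪ q')) := by
    intro s hs
    simp only [mem_sdiff, mem_union, not_or] at hs ⊢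
    refine ⟨Or.inl hs.1, hs.2.1, hs.2.2, fun h => ?_⟩
    rcases hs.1 with h5 | h5
    · exact disjoint_left.1 hGG h5 (hq' h)
    · exact disjoint_left.1 hG' (hq' h) h5
  have e2 : (G' ∪ T) \ (τ ∪ q') ⊆ (G ∪ T ∪ G') \ (τ ∪ (q ∪ q')) := by
    intro s hs
    simp only [mem_sdiff, mem_union, not_or] at hs ⊢
    refine ⟨?_, hs.2.1, fun h => ?_, hs.2.2⟩
    · rcases hs.1 with h5 | h5
      · exact Or.inr h5
      · exact Or.inl (Or.inr h5)
    · rcases hs.1 with h5 | h5
      · exact disjoint_left.1 hGG (hq h) h5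
      · exact disjoint_left.1 hG (hq h) h5
  have e3 : T \ τ ⊆ (G ∪ T ∪ G') \ (τ ∪ (q ∪ q')) := by
    intro s hs
    simp only [mem_sdiff, mem_union, not_or] at hs ⊢
    exact ⟨Or.inl (Or.inr hs.1), hs.2, fun h => disjoint_left.1 hG (hq h) hs.1,
      fun h => disjoint_left.1 hG' (hq' h) hs.1⟩
  refine hE _ ?_ (mEb _ _ ?_ hb.1) (mEw _ _ e1 hw.1) (mFb _ _ ?_ hb.2.2) (mFw _ _ e2 hw.2.2)
    (mMb _ _ subset_union_left hb.2.1) (mMw _ _ e3 hw.2.1)
  · refine union_subset (hτ.trans (subset_union_right.trans subset_union_left)) (union_subset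
      (hq.trans (subset_union_left.trans subset_union_left)) (hq'.trans subset_union_right))
  · exact union_subset_union subset_rfl subset_union_left
  · exact union_subset_union subset_rfl subset_union_right



end Crest.Agent.R143.Thetax73
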