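import Crest.Agent.R143.TileS_73
import Crest.Agent.R143.TileR0_228
import Crest.Agent.R143.Theta_73

-- ▼ part R143/TileL_345
section

/-!
# Row 143, CORE-C, box R1d: turning tiles (helper345, on top of TileG_73 and TileS_73)

Unit: `e = η · direction`, numbers of `TileGx73.num`.
* `tileL` : left turn; first gate at `z0`, direction `e`; second gate at `z0 + e c`, direction `e I`,
  `c = (T/2)(1 + I)`, `T ≥ 40`
* `tileR` : right turn; second gate at `z0 + e c`, direction `- e I`, `c = (T/2)(1 - I)`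
* mid lanes: any strips inside `(-8, 0)` (black), `(2, 8)` (white); ends `ub, wb` (black), `uw, ww`
  (white) with the inequalities needed at the corner square.
Default lanes: black strips `(-5, -3)`, white strips `(4, 6)`, margin `1`;
left turn `ub = T/2 + 5 = -wb`, `uw = T/2 - 4 = -ww`; right turn `ub = T/2 - 3 = -wb`,
`uw = T/2 + 6 = -ww`.
-/

set_option autoImplicit false

noncomputable section

open scoped Classical

namespace Crest.Agent.R143.TileLx345

open Crest.Agent.R143.B0x346 Crest.Agent.R143.DelGx806 Crest.Agent.R143.DelRx806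
open Crest.Agent.R143.ToolWx838 Crest.Agent.R143.Blkx838 Crest.Agent.R143.ToolW2x838
open Crest.Agent.R143.ToolW3x838 Crest.Agent.R143.Circ4x838 Crest.Agent.R143.Harx315
open Crest.Agent.R143.RB0x838 Crest.Agent.R143.CircPx838 Crest.Agent.R143.Gatex838
open Crest.Agent.R143.Neckx921 Crest.Agent.R143.TileGx73

variable {S V β : Finset ℂ} {z0 e : ℂ} {m' mN : ℝ}

theorem HC.lt {A : Finset ℂ} {x0 x1 y0 y1 m : ℝ} {P : List ℂ} (h : HC S z0 e x0 x1 y0 y1 m A P) :
    y0 < y1 :=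
  (h.strip _ (List.head_mem h.ne)).1.trans (h.strip _ (List.head_mem h.ne)).2



end Crest.Agent.R143.TileLx345
end
end

-- ▼ part R143/TileRR_345

/-!
# Row 143, CORE-C, box R1d: the middle of the three tile types in one statement (helper345)

Unit: `e = η · direction`. Frames of two consecutive gates: `(z, e)`, `(z', e')` with
`Fr T z e z' e'` : `z' = z + (T/2)(e + e')` and `e' = e` (straight), `e' = e I` (left turn) or
`e' = - e I` (right turn).
* `MidB`, `MidW` : the lane events (black strips `(-7,-6)`, white strips `(4,6)`, margin `1`)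
* `mid_b`, `mid_w` : the landing chains of the two gates are linked, for all three types; the landing
  zones `(10, l1)`, `(r0, -10)`, `l1 ≤ 12`, `-12 ≤ r0`, and the strips of the landing chains are
  parameters
* `half_b`, `half_w`, `tile_all` : the two halves of the tile event, the tile event
* `Wh` : white part of the tile (straight: `1 < Y`; left: `1 < Y` and `1 < Y'`; right: `1 < Y` or
  `1 < Y'`); `su_midB`, `su_midW` : supports of the lane events (form of Theta_73); `not_wh`, `wh`,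
  `not_wh'`, `wh'` : the sites near the gates
* `fr_path` : the frames `(gz (T η) W a, η ge W a)` of a lattice path satisfy `Fr`
* `rc_RR`, `rc_RR'`, `re_RR` : the two rectangles are inside `RR (9 η) ((T/2 + 1) η) (T η) W a`
-/

set_option autoImplicit false

noncomputable section

open scoped Classical

namespace Crest.Agent.R143.TileRRx345

open Crest.Agent.R143.B0x346 Crest.Agent.R143.DelGx806 Crest.Agent.R143.DelRx806
open Crest.Agent.R143.ToolWx838 Crest.Agent.R143.Blkx838 Crest.Agent.R143.ToolW2x838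
open Crest.Agent.R143.ToolW3x838 Crest.Agent.R143.Circ4x838 Crest.Agent.R143.Harx315
open Crest.Agent.R143.RB0x838 Crest.Agent.R143.CircPx838 Crest.Agent.R143.Gatex838
open Crest.Agent.R143.Neckx921 Crest.Agent.R143.TileGx73 Crest.Agent.R143.TileLx345
open Crest.Agent.R143.TileRx228 Crest.Agent.R143.Thetax73

variable {S V β A : Finset ℂ} {z e z' e' : ℂ} {m T l1 r0 p0 p1 : ℝ}

/-! ### pairs of frames -/

/-- frames of two consecutive gates at distance `T` (in units of `e`) along the path -/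
def Fr (T : ℝ) (z e z' e' : ℂ) : Prop :=
  z' = z + ((T / 2 : ℝ) : ℂ) * (e + e') ∧ (e' = e ∨ e' = e * Complex.I ∨ e' = e * -Complex.I)

/-- coordinates in the second frame -/
theorem Fr.coord (f : Fr T z e z' e') (he : e ≠ 0) :
    (e' = e ∧ (∀ s, X z' e' s = X z e s - T) ∧ ∀ s, Y z' e' s = Y z e s) ∨
    (e' = e * Complex.I ∧ (∀ s, X z' e' s = Y z e s - T / 2) ∧ ∀ s, Y z' e' s = T / 2 - X z e s) ∨
    (e' = e * -Complex.I ∧ (∀ s, X z' e' s = -(T / 2) - Y z e s) ∧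
      ∀ s, Y z' e' s = X z e s - T / 2) := by
  obtain ⟨rfl, rfl | rfl | rfl⟩ := f
  · left
    have h : z + ((T / 2 : ℝ) : ℂ) * (e' + e') = z + e' * (T : ℂ) := by push_cast; ring
    rw [h]
    exact ⟨rfl, fun s => by rw [X_shift he, Complex.ofReal_re],
      fun s => by rw [Y_shift he, Complex.ofReal_im, sub_zero]⟩
  · right; left
    have h : z + ((T / 2 : ℝ) : ℂ) * (e + e * Complex.I) =
        z + e * (⟨T / 2, T / 2⟩ : ℂ) := by
      rw [Complex.mk_eq_add_mul_I]; push_cast; ring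
    rw [h]
    exact ⟨rfl, fun s => X_left he _ s, fun s => Y_left he _ s⟩
  · right; right
    have h : z + ((T / 2 : ℝ) : ℂ) * (e + e * -Complex.I) =
        z + e * (⟨T / 2, -(T / 2)⟩ : ℂ) := by
      rw [Complex.mk_eq_add_mul_I]; push_cast; ring
    rw [h]
    exact ⟨rfl, fun s => X_right he _ s, fun s => Y_right he _ s⟩

theorem ne_I (he : e ≠ 0) : e ≠ e * Complex.I := fun h => by
  have h1 := mul_left_cancel₀ he ((mul_one e).trans h)
  have h2 := congrArg Complex.re h1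
  simp at h2

theorem ne_I' (he : e ≠ 0) : e ≠ e * -Complex.I := fun h => by
  have h1 := mul_left_cancel₀ he ((mul_one e).trans h)
  have h2 := congrArg Complex.re h1
  simp at h2

theorem ne_II (he : e ≠ 0) : e * Complex.I ≠ e * -Complex.I := fun h => by
  have h1 := mul_left_cancel₀ he h
  have h2 := congrArg Complex.im h1
  norm_num at h2

/-! ### the lanes -/

/-- black lanes of a tile -/
def MidB (S : Finset ℂ) (T : ℝ) (z e z' e' : ℂ) (A : Finset ℂ) : Prop :=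
  (e' = e → ∃ M, HC S z e 10 (T - 10) (-7) (-6) 1 A M) ∧
  (e' = e * Complex.I → (∃ M, HC S z e 10 (T / 2 + 7) (-7) (-6) 1 A M) ∧
    ∃ M, HC S z' e' (-(T / 2 + 7)) (-10) (-7) (-6) 1 A M) ∧
  (e' = e * -Complex.I → (∃ M, HC S z e 10 (T / 2 - 6) (-7) (-6) 1 A M) ∧
    ∃ M, HC S z' e' (-(T / 2 - 6)) (-10) (-7) (-6) 1 A M)

/-- white lanes of a tile -/
def MidW (S : Finset ℂ) (T : ℝ) (z e z' e' : ℂ) (A : Finset ℂ) : Prop :=
  (e' = e → ∃ M, HC S z e 10 (T - 10) 4 6 1 A M) ∧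
  (e' = e * Complex.I → (∃ M, HC S z e 10 (T / 2 - 4) 4 6 1 A M) ∧
    ∃ M, HC S z' e' (-(T / 2 - 4)) (-10) 4 6 1 A M) ∧
  (e' = e * -Complex.I → (∃ M, HC S z e 10 (T / 2 + 6) 4 6 1 A M) ∧
    ∃ M, HC S z' e' (-(T / 2 + 6)) (-10) 4 6 1 A M)

theorem hc_mono {A A' : Finset ℂ} {x0 x1 y0 y1 m : ℝ} (hA : A ⊆ A')
    (h : ∃ M, HC S z e x0 x1 y0 y1 m A M) : ∃ M, HC S z e x0 x1 y0 y1 m A' M :=
  ⟨h.choose, h.choose_spec.mono hA⟩

theorem mo_midB : Mo (MidB S T z e z' e') := fun _ _ hA h =>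
  ⟨fun k => hc_mono hA (h.1 k), fun k => ⟨hc_mono hA (h.2.1 k).1, hc_mono hA (h.2.1 k).2⟩,
    fun k => ⟨hc_mono hA (h.2.2 k).1, hc_mono hA (h.2.2 k).2⟩⟩

theorem mo_midW : Mo (MidW S T z e z' e') := fun _ _ hA h =>
  ⟨fun k => hc_mono hA (h.1 k), fun k => ⟨hc_mono hA (h.2.1 k).1, hc_mono hA (h.2.1 k).2⟩,
    fun k => ⟨hc_mono hA (h.2.2 k).1, hc_mono hA (h.2.2 k).2⟩⟩

/-! ### regions -/

/-- white part of the tile -/
def Wh (z e z' e' : ℂ) : Set ℂ :=
  {s | (e' = e * -Complex.I ∧ (1 < Y z e s ∨ 1 < Y z' e' s)) ∨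
    (e' ≠ e * -Complex.I ∧ 1 < Y z e s ∧ 1 < Y z' e' s)}

/-- the two rectangles of the tile -/
def Re (T : ℝ) (z e z' e' : ℂ) : Set ℂ :=
  Rc z e (-1) (T / 2 + 9) (-9) 9 ∪ Rc z' e' (-(T / 2 + 9)) 1 (-9) 9

/-- the sites of the middle of the tile -/
def Mi (z e z' e' : ℂ) : Set ℂ := {s | 9 ≤ X z e s ∧ X z' e' s ≤ -9}

/-! ### the middles -/

/-- the straight lane -/
theorem lane_reg (he : e ≠ 0) (k : e' = e) (f : Fr T z e z' e') {y0 y1 : ℝ}
    (h0 : -9 ≤ y0) (h1 : y1 ≤ 9) {M : List ℂ} (c : HC S z e 10 (T - 10) y0 y1 1 A M) :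
    ∀ s ∈ M, s ∈ Mi z e z' e' ∧ s ∈ Re T z e z' e' := by
  intro s hs
  have hX := (f.coord he).resolve_right (by
    rintro (⟨h, -⟩ | ⟨h, -⟩)
    · exact ne_I he (k.symm.trans h)
    · exact ne_I' he (k.symm.trans h))
  have e1 := hX.2.1 s
  have e2 := hX.2.2 s
  obtain ⟨l2, l3⟩ := c.loc s hs
  obtain ⟨l4, l5⟩ := c.strip s hs
  refine ⟨⟨by linarith, by linarith⟩, ?_⟩
  rcases lt_or_ge (X z e s) (T / 2 + 9) with h5 | h5
  · exact Or.inl ⟨⟨by linarith, h5⟩, by linarith, by linarith⟩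
  · exact Or.inr ⟨⟨by linarith, by linarith⟩, by linarith, by linarith⟩

/-- the regions of the lanes of a turn -/
theorem lane_turn (hT : 40 ≤ T) (he : e ≠ 0) (k : e' ≠ e) (f : Fr T z e z' e') {y0 y1 u w : ℝ}
    (h0 : -9 ≤ y0) (h1 : y1 ≤ 9) (hu : u < T / 2 + 8) (hw : -(T / 2 + 8) < w) :
    (∀ M, HC S z e 10 u y0 y1 1 A M → ∀ s ∈ M, s ∈ Mi z e z' e' ∧ s ∈ Re T z e z' e') ∧
    ∀ M, HC S z' e' w (-10) y0 y1 1 A M → ∀ s ∈ M, s ∈ Mi z e z' e' ∧ s ∈ Re T z e z' e' := by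
  have hf : (∀ s, -9 < Y z e s → Y z e s < 9 → X z' e' s ≤ -9) ∧
      ∀ s, -9 < Y z' e' s → Y z' e' s < 9 → 9 ≤ X z e s := by
    rcases f.coord he with ⟨h, -⟩ | ⟨-, hX, hY⟩ | ⟨-, hX, hY⟩
    · exact absurd h k
    · exact ⟨fun s h1 h2 => by linarith [hX s], fun s h1 h2 => by linarith [hY s]⟩
    · exact ⟨fun s h1 h2 => by linarith [hX s], fun s h1 h2 => by linarith [hY s]⟩
  refine ⟨fun M c s hs => ?_, fun M c s hs => ?_⟩
  · obtain ⟨l2, l3⟩ := c.loc s hs
    obtain ⟨l4, l5⟩ := c.strip s hs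
    exact ⟨⟨by linarith, hf.1 s (by linarith) (by linarith)⟩,
      Or.inl ⟨⟨by linarith, by linarith⟩, by linarith, by linarith⟩⟩
  · obtain ⟨l2, l3⟩ := c.loc s hs
    obtain ⟨l4, l5⟩ := c.strip s hs
    exact ⟨⟨hf.2 s (by linarith) (by linarith), by linarith⟩,
      Or.inr ⟨⟨by linarith, by linarith⟩, by linarith, by linarith⟩⟩

/-- **black middle** : the landing chains are linked -/
theorem mid_b (hS : GP (S : Set ℂ)) (he : e ≠ 0) (hT : 40 ≤ T) (f : Fr T z e z' e')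
    {Q Q' : List ℂ} {R : Set ℂ} (v : VC S z e 10 l1 p0 p1 m A Q)
    (v' : VC S z' e' r0 (-10) p0 p1 m A Q') (hl : l1 ≤ 12) (hr : -12 ≤ r0) (hp0 : p0 ≤ -7)
    (hp1 : -6 ≤ p1) (h : MidB S T z e z' e' A)
    (hR : ∀ s ∈ A, s ∈ Mi z e z' e' → s ∈ Re T z e z' e' → s ∈ R) :
    ∃ t ∈ Q, ∃ t' ∈ Q', Lk S {s | s ∈ A ∧ s ∈ R} t t' := by
  obtain ⟨hz, k | k | k⟩ := id f
  · obtain ⟨M, c⟩ := h.1 k
    have hM := fun s hs => hR s (c.col s hs) (lane_reg he k f (by norm_num) (by norm_num) c s hs).1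
      (lane_reg he k f (by norm_num) (by norm_num) c s hs).2
    subst k
    have h1 : z' = z + e' * (T : ℂ) := by rw [hz]; push_cast; ring
    subst h1
    exact midS hS he v v' (by convert c using 1; ring) hp0 hp1 (by linarith) (by linarith) hM
  · obtain ⟨⟨M, c⟩, M', c'⟩ := h.2.1 k
    obtain ⟨g, g'⟩ := lane_turn (S := S) (A := A) (u := T / 2 + 7) (w := -(T / 2 + 7)) hT he
      (by rw [k]; exact (ne_I he).symm) f (y0 := -7) (y1 := -6) (by norm_num) (by norm_num)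
      (by linarith) (by linarith)
    have hM := fun s hs => hR s (c.col s hs) (g M c s hs).1 (g M c s hs).2
    have hM' := fun s hs => hR s (c'.col s hs) (g' M' c' s hs).1 (g' M' c' s hs).2
    subst k
    have h1 : z' = z + e * (⟨T / 2, T / 2⟩ : ℂ) := by
      rw [hz, Complex.mk_eq_add_mul_I]; push_cast; ring
    subst h1
    exact midL hS he v v' c c' hp0 hp1 (by linarith) hp0 hp1 (by linarith) (by dsimp only; linarith)
      (by dsimp only; linarith) (by dsimp only; linarith) (by dsimp only; linarith) hM hM'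
  · obtain ⟨⟨M, c⟩, M', c'⟩ := h.2.2 k
    obtain ⟨g, g'⟩ := lane_turn (S := S) (A := A) (u := T / 2 - 6) (w := -(T / 2 - 6)) hT he
      (by rw [k]; exact (ne_I' he).symm) f (y0 := -7) (y1 := -6) (by norm_num) (by norm_num)
      (by linarith) (by linarith)
    have hM := fun s hs => hR s (c.col s hs) (g M c s hs).1 (g M c s hs).2
    have hM' := fun s hs => hR s (c'.col s hs) (g' M' c' s hs).1 (g' M' c' s hs).2
    subst k
    have h1 : z' = z + e * (⟨T / 2, -(T / 2)⟩ : ℂ) := by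
      rw [hz, Complex.mk_eq_add_mul_I]; push_cast; ring
    subst h1
    exact midR hS he v v' c c' hp0 hp1 (by linarith) hp0 hp1 (by linarith) (by dsimp only; linarith)
      (by dsimp only; linarith) (by dsimp only; linarith) (by dsimp only; linarith) hM hM'

/-- **white middle** : the landing chains are linked -/
theorem mid_w (hS : GP (S : Set ℂ)) (he : e ≠ 0) (hT : 40 ≤ T) (f : Fr T z e z' e')
    {Q Q' : List ℂ} {R : Set ℂ} (v : VC S z e 10 l1 p0 p1 m A Q)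
    (v' : VC S z' e' r0 (-10) p0 p1 m A Q') (hl : l1 ≤ 12) (hr : -12 ≤ r0) (hp0 : p0 ≤ 4)
    (hp1 : 6 ≤ p1) (h : MidW S T z e z' e' A)
    (hR : ∀ s ∈ A, s ∈ Mi z e z' e' → s ∈ Re T z e z' e' → s ∈ R) :
    ∃ t ∈ Q, ∃ t' ∈ Q', Lk S {s | s ∈ A ∧ s ∈ R} t t' := by
  obtain ⟨hz, k | k | k⟩ := id f
  · obtain ⟨M, c⟩ := h.1 k
    have hM := fun s hs => hR s (c.col s hs) (lane_reg he k f (by norm_num) (by norm_num) c s hs).1
      (lane_reg he k f (by norm_num) (by norm_num) c s hs).2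
    subst k
    have h1 : z' = z + e' * (T : ℂ) := by rw [hz]; push_cast; ring
    subst h1
    exact midS hS he v v' (by convert c using 1; ring) hp0 hp1 (by linarith) (by linarith) hM
  · obtain ⟨⟨M, c⟩, M', c'⟩ := h.2.1 k
    obtain ⟨g, g'⟩ := lane_turn (S := S) (A := A) (u := T / 2 - 4) (w := -(T / 2 - 4)) hT he
      (by rw [k]; exact (ne_I he).symm) f (y0 := 4) (y1 := 6) (by norm_num) (by norm_num)
      (by linarith) (by linarith)
    have hM := fun s hs => hR s (c.col s hs) (g M c s hs).1 (g M c s hs).2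
    have hM' := fun s hs => hR s (c'.col s hs) (g' M' c' s hs).1 (g' M' c' s hs).2
    subst k
    have h1 : z' = z + e * (⟨T / 2, T / 2⟩ : ℂ) := by
      rw [hz, Complex.mk_eq_add_mul_I]; push_cast; ring
    subst h1
    exact midL hS he v v' c c' hp0 hp1 (by linarith) hp0 hp1 (by linarith) (by dsimp only; linarith)
      (by dsimp only; linarith) (by dsimp only; linarith) (by dsimp only; linarith) hM hM'
  · obtain ⟨⟨M, c⟩, M', c'⟩ := h.2.2 k
    obtain ⟨g, g'⟩ := lane_turn (S := S) (A := A) (u := T / 2 + 6) (w := -(T / 2 + 6)) hT he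
      (by rw [k]; exact (ne_I' he).symm) f (y0 := 4) (y1 := 6) (by norm_num) (by norm_num)
      (by linarith) (by linarith)
    have hM := fun s hs => hR s (c.col s hs) (g M c s hs).1 (g M c s hs).2
    have hM' := fun s hs => hR s (c'.col s hs) (g' M' c' s hs).1 (g' M' c' s hs).2
    subst k
    have h1 : z' = z + e * (⟨T / 2, -(T / 2)⟩ : ℂ) := by
      rw [hz, Complex.mk_eq_add_mul_I]; push_cast; ring
    subst h1
    exact midR hS he v v' c c' hp0 hp1 (by linarith) hp0 hp1 (by linarith) (by dsimp only; linarith)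
      (by dsimp only; linarith) (by dsimp only; linarith) (by dsimp only; linarith) hM hM'

/-- **black half of the tile event** -/
theorem half_b (hS : GP (S : Set ℂ)) (he : e ≠ 0) (hT : 40 ≤ T) (f : Fr T z e z' e')
    {Q Q' : List ℂ} {R : Set ℂ} {y y' : ℂ} (v : VC S z e 10 l1 p0 p1 m β Q)
    (v' : VC S z' e' r0 (-10) p0 p1 m β Q') (hl : l1 ≤ 12) (hr : -12 ≤ r0) (hp0 : p0 ≤ -7)
    (hp1 : -6 ≤ p1) (h : MidB S T z e z' e' β)
    (h1 : ∀ t ∈ Q, Lk S {s | s ∈ β ∧ s ∈ R} y t) (h2 : ∀ t ∈ Q', Lk S {s | s ∈ β ∧ s ∈ R} y' t)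
    (hR : ∀ s ∈ β, s ∈ Mi z e z' e' → s ∈ Re T z e z' e' → s ∈ R) :
    Lk S {s | s ∈ β ∧ s ∈ R} y y' := by
  obtain ⟨t, ht, t', ht', k⟩ := mid_b hS he hT f v v' hl hr hp0 hp1 h hR
  exact ((h1 t ht).trans k).trans (h2 t' ht').symm

/-- **white half of the tile event** -/
theorem half_w (hS : GP (S : Set ℂ)) (he : e ≠ 0) (hT : 40 ≤ T) (f : Fr T z e z' e')
    {Q Q' : List ℂ} {R : Set ℂ} {x x' : ℂ} (v : VC S z e 10 l1 p0 p1 m (V \ β) Q)
    (v' : VC S z' e' r0 (-10) p0 p1 m (V \ β) Q') (hl : l1 ≤ 12) (hr : -12 ≤ r0) (hp0 : p0 ≤ 4)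
    (hp1 : 6 ≤ p1) (h : MidW S T z e z' e' (V \ β))
    (h1 : ∀ t ∈ Q, Lk S {s | (s ∈ V ∧ s ∉ β) ∧ s ∈ R} x t)
    (h2 : ∀ t ∈ Q', Lk S {s | (s ∈ V ∧ s ∉ β) ∧ s ∈ R} x' t)
    (hR : ∀ s ∈ V, s ∈ Mi z e z' e' → s ∈ Re T z e z' e' → s ∈ R) :
    Lk S {s | (s ∈ V ∧ s ∉ β) ∧ s ∈ R} x x' := by
  obtain ⟨t, ht, t', ht', k⟩ := mid_w hS he hT f v v' hl hr hp0 hp1 h
    fun s hs => hR s (Finset.mem_sdiff.1 hs).1
  exact ((h1 t ht).trans (k.mono fun s hs => ⟨Finset.mem_sdiff.1 hs.1, hs.2⟩)).trans (h2 t' ht').symm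

/-- **the tile event for the three types** -/
theorem tile_all {R : Set ℂ} {y x y' x' : ℂ} (hb : Lk S {s | s ∈ β ∧ s ∈ R} y y')
    (hw : Lk S {s | (s ∈ V ∧ s ∉ β) ∧ s ∈ R} x x') : Tile S V β R y x y' x' := ⟨hb, hw⟩

/-! ### supports -/

theorem hc_inter {A W : Finset ℂ} {x0 x1 y0 y1 m : ℝ} (h : ∃ M, HC S z e x0 x1 y0 y1 m A M)
    (hW : ∀ M, HC S z e x0 x1 y0 y1 m A M → ∀ s ∈ M, s ∈ W) :
    ∃ M, HC S z e x0 x1 y0 y1 m (A ∩ W) M := by
  obtain ⟨M, h⟩ := h
  exact ⟨M, h.ne, h.adj, fun s hs => Finset.mem_inter.2 ⟨h.col s hs, hW M h s hs⟩, h.strip, h.loc,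
    h.left, h.right⟩

/-- **support of the black lanes** -/
theorem su_midB (he : e ≠ 0) (hT : 40 ≤ T) (f : Fr T z e z' e') {U W : Finset ℂ}
    (hW : ∀ s ∈ U, s ∉ Wh z e z' e' → s ∈ Mi z e z' e' → s ∈ Re T z e z' e' → s ∈ W) :
    Su U W (MidB S T z e z' e') := by
  intro A hA h
  rcases f.coord he with ⟨k, hX, hY⟩ | ⟨k, hX, hY⟩ | ⟨k, hX, hY⟩
  · have n1 : e' ≠ e * Complex.I := by rw [k]; exact ne_I he
    have n2 : e' ≠ e * -Complex.I := by rw [k]; exact ne_I' he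
    refine ⟨fun _ => hc_inter (h.1 k) fun M c s hs => hW s (hA (c.col s hs)) ?_
      (lane_reg he k f (by norm_num) (by norm_num) c s hs).1
      (lane_reg he k f (by norm_num) (by norm_num) c s hs).2, fun k' => absurd k' n1,
      fun k' => absurd k' n2⟩
    rintro (⟨k', -⟩ | ⟨-, h5, -⟩)
    · exact n2 k'
    · linarith [(c.strip s hs).2]
  · have n1 : e' ≠ e := by rw [k]; exact (ne_I he).symm
    have n2 : e' ≠ e * -Complex.I := by rw [k]; exact ne_II he
    obtain ⟨g, g'⟩ := lane_turn (S := S) (A := A) (u := T / 2 + 7) (w := -(T / 2 + 7)) hT he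
      n1 f (y0 := -7) (y1 := -6) (by norm_num) (by norm_num) (by linarith) (by linarith)
    refine ⟨fun k' => absurd k' n1, fun _ =>
      ⟨hc_inter (h.2.1 k).1 fun M c s hs => hW s (hA (c.col s hs)) ?_ (g M c s hs).1 (g M c s hs).2,
      hc_inter (h.2.1 k).2 fun M c s hs => hW s (hA (c.col s hs)) ?_ (g' M c s hs).1
        (g' M c s hs).2⟩, fun k' => absurd k' n2⟩
    · rintro (⟨k', -⟩ | ⟨-, h5, -⟩)
      · exact n2 k'
      · linarith [(c.strip s hs).2]
    · rintro (⟨k', -⟩ | ⟨-, -, h5⟩)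
      · exact n2 k'
      · linarith [(c.strip s hs).2]
  · have n1 : e' ≠ e := by rw [k]; exact (ne_I' he).symm
    have n2 : e' ≠ e * Complex.I := by rw [k]; exact (ne_II he).symm
    obtain ⟨g, g'⟩ := lane_turn (S := S) (A := A) (u := T / 2 - 6) (w := -(T / 2 - 6)) hT he
      n1 f (y0 := -7) (y1 := -6) (by norm_num) (by norm_num) (by linarith) (by linarith)
    refine ⟨fun k' => absurd k' n1, fun k' => absurd k' n2, fun _ =>
      ⟨hc_inter (h.2.2 k).1 fun M c s hs => hW s (hA (c.col s hs)) ?_ (g M c s hs).1 (g M c s hs).2,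
      hc_inter (h.2.2 k).2 fun M c s hs => hW s (hA (c.col s hs)) ?_ (g' M c s hs).1
        (g' M c s hs).2⟩⟩
    · have h6 := hY s
      have h7 := (c.strip s hs).2
      have h8 := (c.loc s hs).2
      rintro (⟨-, h5 | h5⟩ | ⟨k', -⟩)
      · linarith
      · linarith
      · exact k' k
    · have h6 := hX s
      have h7 := (c.strip s hs).2
      have h8 := (c.loc s hs).1
      rintro (⟨-, h5 | h5⟩ | ⟨k', -⟩)
      · linarith
      · linarith
      · exact k' k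

/-- **support of the white lanes** -/
theorem su_midW (he : e ≠ 0) (hT : 40 ≤ T) (f : Fr T z e z' e') {U W : Finset ℂ}
    (hW : ∀ s ∈ U, s ∈ Wh z e z' e' → s ∈ Mi z e z' e' → s ∈ Re T z e z' e' → s ∈ W) :
    Su U W (MidW S T z e z' e') := by
  intro A hA h
  rcases f.coord he with ⟨k, hX, hY⟩ | ⟨k, hX, hY⟩ | ⟨k, hX, hY⟩
  · have n1 : e' ≠ e * Complex.I := by rw [k]; exact ne_I he
    have n2 : e' ≠ e * -Complex.I := by rw [k]; exact ne_I' he
    refine ⟨fun _ => hc_inter (h.1 k) fun M c s hs => hW s (hA (c.col s hs)) ?_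
      (lane_reg he k f (by norm_num) (by norm_num) c s hs).1
      (lane_reg he k f (by norm_num) (by norm_num) c s hs).2, fun k' => absurd k' n1,
      fun k' => absurd k' n2⟩
    have h7 := (c.strip s hs).1
    exact Or.inr ⟨n2, by linarith, by linarith [hY s]⟩
  · have n1 : e' ≠ e := by rw [k]; exact (ne_I he).symm
    have n2 : e' ≠ e * -Complex.I := by rw [k]; exact ne_II he
    obtain ⟨g, g'⟩ := lane_turn (S := S) (A := A) (u := T / 2 - 4) (w := -(T / 2 - 4)) hT he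
      n1 f (y0 := 4) (y1 := 6) (by norm_num) (by norm_num) (by linarith) (by linarith)
    refine ⟨fun k' => absurd k' n1, fun _ =>
      ⟨hc_inter (h.2.1 k).1 fun M c s hs => hW s (hA (c.col s hs)) ?_ (g M c s hs).1 (g M c s hs).2,
      hc_inter (h.2.1 k).2 fun M c s hs => hW s (hA (c.col s hs)) ?_ (g' M c s hs).1
        (g' M c s hs).2⟩, fun k' => absurd k' n2⟩
    · have h6 := hY s
      have h7 := (c.strip s hs).1
      have h8 := (c.loc s hs).2
      exact Or.inr ⟨n2, by linarith, by linarith⟩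
    · have h6 := hX s
      have h7 := (c.strip s hs).1
      have h8 := (c.loc s hs).1
      exact Or.inr ⟨n2, by linarith, by linarith⟩
  · have n1 : e' ≠ e := by rw [k]; exact (ne_I' he).symm
    have n2 : e' ≠ e * Complex.I := by rw [k]; exact (ne_II he).symm
    obtain ⟨g, g'⟩ := lane_turn (S := S) (A := A) (u := T / 2 + 6) (w := -(T / 2 + 6)) hT he
      n1 f (y0 := 4) (y1 := 6) (by norm_num) (by norm_num) (by linarith) (by linarith)
    refine ⟨fun k' => absurd k' n1, fun k' => absurd k' n2, fun _ =>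
      ⟨hc_inter (h.2.2 k).1 fun M c s hs => hW s (hA (c.col s hs)) ?_ (g M c s hs).1 (g M c s hs).2,
      hc_inter (h.2.2 k).2 fun M c s hs => hW s (hA (c.col s hs)) ?_ (g' M c s hs).1
        (g' M c s hs).2⟩⟩
    · exact Or.inl ⟨k, Or.inl (by linarith [(c.strip s hs).1])⟩
    · exact Or.inl ⟨k, Or.inr (by linarith [(c.strip s hs).1])⟩

/-- sites near the first gate, black side -/
theorem not_wh (he : e ≠ 0) (hT : 40 ≤ T) (f : Fr T z e z' e') {s : ℂ} (h1 : Y z e s < 1)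
    (h2 : X z e s ≤ 18) : s ∉ Wh z e z' e' := by
  rcases f.coord he with ⟨k, hX, hY⟩ | ⟨k, hX, hY⟩ | ⟨k, hX, hY⟩
  · rintro (⟨-, h5 | h5⟩ | ⟨-, h5, -⟩)
    · linarith
    · linarith [hY s]
    · linarith
  · rintro (⟨k', -⟩ | ⟨-, h5, -⟩)
    · rw [k] at k'; exact ne_II he k'
    · linarith
  · rintro (⟨-, h5 | h5⟩ | ⟨k', -⟩)
    · linarith
    · linarith [hY s]
    · exact k' k

/-- sites near the first gate, white side -/
theorem wh (he : e ≠ 0) (hT : 40 ≤ T) (f : Fr T z e z' e') {s : ℂ} (h1 : 1 < Y z e s)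
    (h2 : X z e s ≤ 18) : s ∈ Wh z e z' e' := by
  rcases f.coord he with ⟨k, hX, hY⟩ | ⟨k, hX, hY⟩ | ⟨k, hX, hY⟩
  · refine Or.inr ⟨by rw [k]; exact ne_I' he, h1, by linarith [hY s]⟩
  · refine Or.inr ⟨by rw [k]; exact ne_II he, h1, by linarith [hY s]⟩
  · exact Or.inl ⟨k, Or.inl h1⟩

/-- sites near the second gate, black side -/
theorem not_wh' (he : e ≠ 0) (hT : 40 ≤ T) (f : Fr T z e z' e') {s : ℂ} (h1 : Y z' e' s < 1)
    (h2 : -18 ≤ X z' e' s) : s ∉ Wh z e z' e' := by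
  rcases f.coord he with ⟨k, hX, hY⟩ | ⟨k, hX, hY⟩ | ⟨k, hX, hY⟩
  · rintro (⟨-, h5 | h5⟩ | ⟨-, -, h5⟩)
    · linarith [hY s]
    · linarith
    · linarith
  · rintro (⟨k', -⟩ | ⟨-, -, h5⟩)
    · rw [k] at k'; exact ne_II he k'
    · linarith
  · rintro (⟨-, h5 | h5⟩ | ⟨k', -⟩)
    · linarith [hX s]
    · linarith
    · exact k' k

/-- sites near the second gate, white side -/
theorem wh' (he : e ≠ 0) (hT : 40 ≤ T) (f : Fr T z e z' e') {s : ℂ} (h1 : 1 < Y z' e' s)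
    (h2 : -18 ≤ X z' e' s) : s ∈ Wh z e z' e' := by
  rcases f.coord he with ⟨k, hX, hY⟩ | ⟨k, hX, hY⟩ | ⟨k, hX, hY⟩
  · refine Or.inr ⟨by rw [k]; exact ne_I' he, by linarith [hY s], h1⟩
  · refine Or.inr ⟨by rw [k]; exact ne_II he, by linarith [hX s], h1⟩
  · exact Or.inl ⟨k, Or.inr h1⟩

/-! ### lattice paths -/

variable {N : ℕ} {W : ℤ → ℤ × ℤ} {a : ℤ} {η : ℝ}














end Crest.Agent.R143.TileRRx345
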