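import Crest.Agent.R143.LayK_341_Mg
import Crest.Agent.R143.RigP_854
import Crest.Agent.R143.Mark_165
import Crest.Agent.R143.RigZ_609
import Crest.Agent.R143.TileG2_73
import Crest.Agent.R143.Neck3_921
import Crest.Agent.R143.RBm_838
import Crest.Agent.R143.RBE_723
import Crest.Agent.R143.TileRR_345
import Crest.Agent.R143.EnvH_653
import Crest.Agent.R143.WLoc8_713

-- ▼ part R143/FinG_894
section

/-!
# Row 143 (S0194): the row from 854's contracts (helper894)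

`RigAll κ` : for every labelled polygon and type the contract `RigPx854.RigIn` (mean end points of
the points in `u.P`, 609). `LAYER`, `THR`, `MARK`, `RigAll κ` give the leaf.
-/

set_option autoImplicit false

noncomputable section

namespace Crest.Agent.R143.FinGx894

open Crest.ProbabilityR.Voronoi
open Crest.Agent.R143.Finx894 Crest.Agent.R143.FinCx894 Crest.Agent.R143.PolyUx346
open Crest.Agent.R143.K7Dx359 (LAYER THR MARK K7)




/-- the row from `LAYER`, `THR`, `MARK` and RIG -/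
theorem leaf (h1 : LAYER) (h2 : THR) (h3 : MARK) (h4 : Rig) : Leaf894 :=
  Mabx377.leaf_lmt h1 h2 h3 h4






end Crest.Agent.R143.FinGx894
end
end

-- ▼ part R143/FinH_894
section

/-!
# Row 143 (S0194): CONT is closed, the row from RIG alone (helper894)

`k7 : K7` (359, with LAYER 341, GRID 359, COMP 54, CENT 723, THR 755, MARK 165),
`contB : ContB`, `contD : ContD` (no hypothesis), `leaf_rig : Rig → Leaf894`,
`leaf_of_all : RigAll κ → Leaf894`.
-/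

set_option autoImplicit false

noncomputable section

namespace Crest.Agent.R143.FinHx894

open Crest.ProbabilityR.Voronoi
open Crest.Agent.R143.Finx894 Crest.Agent.R143.FinCx894 Crest.Agent.R143.FinGx894

/-- **(K7)** -/
theorem k7 : K7Dx359.K7 := Mabx377.k7_lmt LayKx341.layer Thrx755.thr Markx165.mark

/-- **CONT, weight `e`** -/
theorem contB : ContB := FinFx894.contB k7

/-- **CONT, weight `conj e`** -/
theorem contD : ContD := FinFx894.contD k7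

/-- **the row from RIG** -/
theorem leaf_rig (h : Rig) : Leaf894 := leaf_frozen contB contD h


end Crest.Agent.R143.FinHx894
end
end

-- ▼ part R143/TDat_58
section

/-!
# Row 143 (S0194), RIG, box (11): the template family of `RigZ` (helper58)

* `PosI` : output of 653's `PosF` : template data for all units `η` and meshes `ε` with ABSOLUTE
  constants `cc`, `cb`
* `PosI.Z : TData` : the family of `RigZd_609` (unit `et N = hN N / 100`); `c_eq`, `tpl_c`, `h_eq`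
* **`PosI.aepos`** : 978's `AePos` eventually in the mesh, for all widths
* `lint_A` : `∫ A = P (A ≠ 0)`; **`PosI.posP`** : `PosP Z` (input of `rig_of_op`)
-/

set_option autoImplicit false
set_option linter.style.haveILetI false

noncomputable section

open scoped Classical

namespace Crest.Agent.R143.TDatx58

open MeasureTheory Set Filter Topology
open scoped ENNReal
open Crest.ProbabilityR.Voronoi
open Crest.Agent.R143.PP0x831 Crest.Agent.R143.Poisx304 Crest.Agent.R143.Janx304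
open Crest.Agent.R143.IndLocx279 Crest.Agent.R143.IndLoc3x279
open Crest.Agent.R143.PWx978 Crest.Agent.R143.Tplx978
open Crest.Agent.R143.PthFx765 Crest.Agent.R143.TplIx204 Crest.Agent.R143.RigPx854
open Crest.Agent.R143.GPosCx348 (NumC)
open Crest.Agent.R143.RigZdx609 Crest.Agent.R143.RigZx609




/-- **output of 653's `PosF`**: data for all units and meshes, absolute constants -/
structure PosI where
  /-- data at the unit `η` and mesh `ε` -/
  D : ℝ → ℝ → DT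
  num : ∀ η ε, 0 < η → NumC (D η ε) η
  /-- lower bound of the tiles -/
  cc : ℝ≥0∞
  /-- probability of a good gate -/
  cb : ℝ≥0∞
  c0 : cc ≠ 0
  c1 : cc ≤ 1
  b0 : cb ≠ 0
  pos : ∀ η, 0 < η → η ≤ 1 / 10 → ∀ᶠ ε : ℝ in 𝓝[>] 0, ∀ he : 0 < ε,
    ((D η ε).raw ε he cc c0 c1).AePos ∧ cb ≤ sampleLaw {ω | (D η ε).wA (cfg ε ω) ≠ 0}

namespace PosI

variable (I : PosI) {N : ℕ} {ε : ℝ}

/-- **the template family** of `RigZd_609` -/
def Z : TData where
  D N ε := I.D (et N) ε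
  c _ _ := I.cc
  c0 _ _ := I.c0
  c1 _ _ := I.c1
  num N ε := I.num _ ε (et_pos N)

@[simp] theorem Z_D : I.Z.D N ε = I.D (et N) ε := rfl

@[simp] theorem Z_c : I.Z.c N ε = I.cc := rfl

















end PosI

end Crest.Agent.R143.TDatx58
end
end

-- ▼ part R143/WTile_120
section

/-!
# Row 143, CORE-C, box R1e (form E1): white half of the gate extensions (helper120)

Neck gates (Neck1_921), extension events of Neck3_921.  All numbers are free.
* `HC.narrow`, `VC.narrow` : change of window / strip of a crossing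
* `linkR`, `linkL` : the last site `x` of the upper arm is linked by white sites to every site of the
  white landing chain on the right / left side of the gate; horizontal chain over `(u0, u1)` in the strip
  `(c0, c1)`, landing chain spanning `(d0, d1) ⊇ (c0, c1)` (the fields `wh`, `wR`, `wL` of `GE`)
* `hb_meet`, `hb_low` : the long black crossing passes every neck, so `Y y < p1`
* `ge_whiteR`, `ge_whiteL` : `GE` gives the white landing chains and the links from `x`, for EVERY gate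
  dart `(y, x)` of the window
-/

set_option autoImplicit false

noncomputable section

open scoped Classical

namespace Crest.Agent.R143.WTilex120

open Crest.Agent.R143.B0x346 Crest.Agent.R143.DelGx806 Crest.Agent.R143.DelRx806
open Crest.Agent.R143.ToolWx838 Crest.Agent.R143.Blkx838 Crest.Agent.R143.ToolW2x838
open Crest.Agent.R143.ToolW3x838 Crest.Agent.R143.Circ4x838 Crest.Agent.R143.Harx315
open Crest.Agent.R143.RB0x838 Crest.Agent.R143.CircPx838 Crest.Agent.R143.Gatex838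
open Crest.Agent.R143.Neckx921 Crest.Agent.R143.TileGx73

variable {S V β : Finset ℂ} {z0 e : ℂ}
variable {a0 a1 b0 b1 mN u0 u1 l0 l1 r0 r1 c0 c1 d0 d1 m m' : ℝ}

/-! ### windows and strips of a crossing -/



/-! ### landing links -/

/-- **white link on the right side of a gate** -/
theorem linkR (hS : GP (S : Set ℂ)) (he : e ≠ 0) {y x : ℂ}
    (g : NeckD S z0 e a0 a1 b0 b1 mN V β y x) {U Q : List ℂ}
    (hU : HC S z0 e u0 u1 c0 c1 m (V \ β) U) (hQ : VC S z0 e l0 l1 d0 d1 m' (V \ β) Q)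
    (hy : Y z0 e y ≤ c0) (h0 : u0 ≤ a0) (h1 : a1 ≤ l0) (h2 : l1 ≤ u1) (h3 : a1 ≤ l1)
    (hdc : d0 ≤ c0) (hcd : c1 ≤ d1) (hcb : c1 ≤ b1) {R : Set ℂ}
    (hR : ∀ s ∈ V, a0 < X z0 e s → X z0 e s ≤ u1 + m → c0 < Y z0 e s → Y z0 e s < c1 → s ∈ R)
    (hR0 : ∀ s ∈ V, a0 < X z0 e s → X z0 e s < a1 → b0 < Y z0 e s → Y z0 e s < c1 → s ∈ R)
    (hR1 : ∀ s ∈ V, l0 < X z0 e s → X z0 e s < l1 → d0 - m' ≤ Y z0 e s → Y z0 e s ≤ d1 + m' → s ∈ R)
    {t : ℂ} (ht : t ∈ Q) : Lk S {s | (s ∈ V ∧ s ∉ β) ∧ s ∈ R} x t := by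
  obtain ⟨up, dn, hN, rfl⟩ := g
  obtain ⟨up1, M, hM, hu, hM1⟩ := up_low hN hcb
  have hcol : ∀ s ∈ U, s ∈ V ∧ s ∉ β := fun s hs => Finset.mem_sdiff.1 (hU.col s hs)
  obtain ⟨t0, T, hT, ht0, hTT⟩ := last_mark (M := fun s => s ∈ M) (A := fun s => X z0 e s ≤ a0) U
    (meetw' hN hM hu hS he hy hU.ne hU.adj (fun s hs => (hcol s hs).2) hU.strip
      (hU.left.trans h0) ((h3.trans h2).trans hU.right))
    (fun s T hT hs => meetw' hN hM hu hS he hy (by simp)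
      (fun p hp => hU.adj p (prs_suffix hT p hp))
      (fun u hu => (hcol u (hT.subset hu)).2) (fun u hu => hU.strip u (hT.subset hu))
      (by simpa using hs) (by rw [suffix_last hT hU.ne]; exact (h3.trans h2).trans hU.right))
  have hup0 : t0 ∈ up := ((List.suffix_cons up1 M).trans hM).subset ht0
  have hwin := hN.win t0 (List.mem_append_left _ hup0)
  have hX : ∀ s ∈ t0 :: T, a0 < X z0 e s := by
    intro s hs
    rcases List.mem_cons.1 hs with rfl | hs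
    · exact hwin.1.1
    · exact not_le.1 (hTT s hs).2
  obtain ⟨s, hs1, hs2⟩ := cross_e hS he (P := t0 :: T) (Q := Q) (by simp) hQ.ne
    (fun p hp => hU.adj p (prs_suffix hT p hp)) hQ.adj (fun u hu => hU.strip u (hT.subset hu))
    hQ.strip (by simpa using (hwin.1.2.le.trans h1))
    (by rw [suffix_last hT hU.ne]; exact h2.trans hU.right) (hQ.left.trans hdc)
    (hcd.trans hQ.right)
  have k0 := low_link hN hM hM1 hN.upb hR0 ht0
  have k1 : Lk S {s | (s ∈ V ∧ s ∉ β) ∧ s ∈ R} t0 s := by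
    refine lk_list (fun p hp => hU.adj p (prs_suffix hT p hp)) (fun u hu => ?_)
      (by simp) hs1
    have hu' := hT.subset hu
    exact ⟨hcol u hu', hR u (hcol u hu').1 (hX u hu) (hU.loc u hu').2 (hU.strip u hu').1
      (hU.strip u hu').2⟩
  refine (k0.trans k1).trans (lk_list (A := {s | (s ∈ V ∧ s ∉ β) ∧ s ∈ R}) hQ.adj
    (fun u hu => ?_) hs2 ht)
  have hu' := Finset.mem_sdiff.1 (hQ.col u hu)
  exact ⟨hu', hR1 u hu'.1 (hQ.strip u hu).1 (hQ.strip u hu).2 (hQ.loc u hu).1 (hQ.loc u hu).2⟩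

/-- **white link on the left side of a gate** -/
theorem linkL (hS : GP (S : Set ℂ)) (he : e ≠ 0) {y x : ℂ}
    (g : NeckD S z0 e a0 a1 b0 b1 mN V β y x) {U Q : List ℂ}
    (hU : HC S z0 e u0 u1 c0 c1 m (V \ β) U) (hQ : VC S z0 e r0 r1 d0 d1 m' (V \ β) Q)
    (hy : Y z0 e y ≤ c0) (h0 : a1 ≤ u1) (h1 : r1 ≤ a0) (h2 : u0 ≤ r0) (h3 : r0 ≤ a0)
    (hdc : d0 ≤ c0) (hcd : c1 ≤ d1) (hcb : c1 ≤ b1) {R : Set ℂ}
    (hR : ∀ s ∈ V, X z0 e s < a1 → u0 - m ≤ X z0 e s → c0 < Y z0 e s → Y z0 e s < c1 → s ∈ R)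
    (hR0 : ∀ s ∈ V, a0 < X z0 e s → X z0 e s < a1 → b0 < Y z0 e s → Y z0 e s < c1 → s ∈ R)
    (hR1 : ∀ s ∈ V, r0 < X z0 e s → X z0 e s < r1 → d0 - m' ≤ Y z0 e s → Y z0 e s ≤ d1 + m' → s ∈ R)
    {t : ℂ} (ht : t ∈ Q) : Lk S {s | (s ∈ V ∧ s ∉ β) ∧ s ∈ R} x t := by
  obtain ⟨up, dn, hN, rfl⟩ := g
  obtain ⟨up1, M, hM, hu, hM1⟩ := up_low hN hcb
  have hcol : ∀ s ∈ U, s ∈ V ∧ s ∉ β := fun s hs => Finset.mem_sdiff.1 (hU.col s hs)
  have hex : ∃ s ∈ U.reverse, s ∈ M := by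
    obtain ⟨s, h2, h3⟩ := meetw' hN hM hu hS he hy hU.ne hU.adj (fun s hs => (hcol s hs).2) hU.strip
      ((hU.left.trans h2).trans h3) (h0.trans hU.right)
    exact ⟨s, List.mem_reverse.2 h2, h3⟩
  obtain ⟨t0, T, hT, ht0, hTT⟩ := last_mark (M := fun s => s ∈ M) (A := fun s => a1 ≤ X z0 e s)
    U.reverse hex
    (fun s T hT hs => by
      obtain ⟨w, h4, h5⟩ := meetw' hN hM hu hS he hy (P := (s :: T).reverse) (by simp)
        (prs_rev fun p hp => prs_rev hU.adj p (prs_suffix hT p hp))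
        (fun u hu => (hcol u (List.mem_reverse.1 (hT.subset (List.mem_reverse.1 hu)))).2)
        (fun u hu => hU.strip u (List.mem_reverse.1 (hT.subset (List.mem_reverse.1 hu))))
        (by rw [suffix_rev_head hT hU.ne]; exact (hU.left.trans h2).trans h3) (by simpa using hs)
      exact ⟨w, List.mem_reverse.1 h4, h5⟩)
  have hup0 : t0 ∈ up := ((List.suffix_cons up1 M).trans hM).subset ht0
  have hwin := hN.win t0 (List.mem_append_left _ hup0)
  have hX : ∀ s ∈ t0 :: T, X z0 e s < a1 := by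
    intro s hs
    rcases List.mem_cons.1 hs with rfl | hs
    · exact hwin.1.2
    · exact not_le.1 (hTT s hs).2
  have dT : ∀ p ∈ prs (t0 :: T), DE S p.1 p.2 := fun p hp =>
    prs_rev hU.adj p (prs_suffix hT p hp)
  have mT : ∀ u ∈ t0 :: T, u ∈ U := fun u hu => List.mem_reverse.1 (hT.subset hu)
  obtain ⟨s, hs1, hs2⟩ := cross_e hS he (P := (t0 :: T).reverse) (Q := Q) (by simp) hQ.ne
    (prs_rev dT) hQ.adj (fun u hu => hU.strip u (mT u (List.mem_reverse.1 hu))) hQ.strip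
    (by rw [suffix_rev_head hT hU.ne]; exact hU.left.trans h2)
    (by simpa using (h1.trans hwin.1.1.le)) (hQ.left.trans hdc) (hcd.trans hQ.right)
  rw [List.mem_reverse] at hs1
  have k0 := low_link hN hM hM1 hN.upb hR0 ht0
  have k1 : Lk S {s | (s ∈ V ∧ s ∉ β) ∧ s ∈ R} t0 s := by
    refine lk_list dT (fun u hu => ?_) (by simp) hs1
    have hu' := mT u hu
    exact ⟨hcol u hu', hR u (hcol u hu').1 (hX u hu) (hU.loc u hu').1 (hU.strip u hu').1
      (hU.strip u hu').2⟩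
  refine (k0.trans k1).trans (lk_list (A := {s | (s ∈ V ∧ s ∉ β) ∧ s ∈ R}) hQ.adj
    (fun u hu => ?_) hs2 ht)
  have hu' := Finset.mem_sdiff.1 (hQ.col u hu)
  exact ⟨hu', hR1 u hu'.1 (hQ.strip u hu).1 (hQ.strip u hu).2 (hQ.loc u hu).1 (hQ.loc u hu).2⟩

/-! ### from `GE` -/

/-- **the long black crossing passes the neck** -/
theorem hb_meet (hS : GP (S : Set ℂ)) (he : e ≠ 0) {y x : ℂ}
    (g : NeckD S z0 e a0 a1 b0 b1 mN V β y x) {x0 x1 p0 p1 : ℝ} {P : List ℂ}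
    (h : HB S z0 e x0 x1 a0 a1 b0 p0 p1 m β P) (h0 : x0 ≤ a0) (h1 : a1 ≤ x1) (hp : p1 ≤ b1) :
    y ∈ P := by
  obtain ⟨up, dn, hN, rfl⟩ := g
  exact hN.meet hS he h.ne h.adj h.col (fun s hs => ⟨(h.strip s hs).1, (h.strip s hs).2.trans_le hp⟩)
    (h.left.trans h0) (h1.trans h.right)

/-- the neck is below the black strip -/
theorem hb_low (hS : GP (S : Set ℂ)) (he : e ≠ 0) {y x : ℂ}
    (g : NeckD S z0 e a0 a1 b0 b1 mN V β y x) {x0 x1 p0 p1 : ℝ} {P : List ℂ}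
    (h : HB S z0 e x0 x1 a0 a1 b0 p0 p1 m β P) (h0 : x0 ≤ a0) (h1 : a1 ≤ x1) (hp : p1 ≤ b1) :
    Y z0 e y < p1 := (h.strip y (hb_meet hS he g h h0 h1 hp)).2



end Crest.Agent.R143.WTilex120
end
namespace Crest.Agent.R143.WTilex120.HC
end Crest.Agent.R143.WTilex120.HC
namespace Crest.Agent.R143.WTilex120.VC
end Crest.Agent.R143.WTilex120.VC
end

-- ▼ part R143/RbE_838
section

/-!
# Row 143: `RBm` in scaled frames (helper838)

Frame `(z0, e)` with `e ≠ 0` arbitrary (`‖e‖` = unit of length, coordinates `X z0 e`, `Y z0 e`).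

* `hc_scale`, `vc_scale` : change of the unit
* `rb_all` : horizontal and vertical crossings, black and white, of all rectangles with coordinates
  `≤ k`, sides `≥ 1 / k`, width `≤ 2 ρ / ‖e‖`, with probability `≥ p`, from one environment at the scale `ρ`
-/

set_option autoImplicit false

noncomputable section

open scoped Classical

namespace Crest.Agent.R143.RbEx838

open Crest.Agent.R143.B0x346 Crest.Agent.R143.DelGx806 Crest.Agent.R143.DelRx806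
open Crest.Agent.R143.ToolWx838 Crest.Agent.R143.Blkx838 Crest.Agent.R143.ToolW2x838
open Crest.Agent.R143.ToolW3x838 Crest.Agent.R143.Circ4x838 Crest.Agent.R143.Harx315
open Crest.Agent.R143.RB0x838 Crest.Agent.R143.CircPx838 Crest.Agent.R143.Gatex838
open Crest.Agent.R143.CBx838 Crest.Agent.R143.Multix838 Crest.Agent.R143.RBpx838
open Crest.Agent.R143.RBmx838

variable {S V β : Finset ℂ} {z0 e : ℂ} {x0 x1 y0 y1 m : ℝ} {l : List ℂ}

theorem X_scale (z0 u s : ℂ) {r : ℝ} (_ : 0 < r) : X z0 (u * (r : ℂ)) s = X z0 u s / r := by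
  unfold X
  rw [← div_div, Complex.div_ofReal_re]

theorem Y_scale (z0 u s : ℂ) {r : ℝ} (_ : 0 < r) : Y z0 (u * (r : ℂ)) s = Y z0 u s / r := by
  unfold Y
  rw [← div_div, Complex.div_ofReal_im]

theorem hc_scale {u : ℂ} {r : ℝ} (hr : 0 < r)
    (h : HC S z0 u (x0 * r) (x1 * r) (y0 * r) (y1 * r) (m * r) β l) :
    HC S z0 (u * (r : ℂ)) x0 x1 y0 y1 m β l := by
  refine ⟨h.ne, h.adj, h.col, fun s hs => ?_, fun s hs => ?_, ?_, ?_⟩
  · rw [Y_scale z0 u s hr, lt_div_iff₀ hr, div_lt_iff₀ hr]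
    exact h.strip s hs
  · rw [X_scale z0 u s hr, le_div_iff₀ hr, div_le_iff₀ hr]
    have := h.loc s hs
    constructor <;> nlinarith [this.1, this.2]
  · rw [X_scale z0 u _ hr, div_le_iff₀ hr]
    exact h.left
  · rw [X_scale z0 u _ hr, le_div_iff₀ hr]
    exact h.right

theorem vc_scale {u : ℂ} {r : ℝ} (hr : 0 < r)
    (h : VC S z0 u (x0 * r) (x1 * r) (y0 * r) (y1 * r) (m * r) β l) :
    VC S z0 (u * (r : ℂ)) x0 x1 y0 y1 m β l := by
  refine ⟨h.ne, h.adj, h.col, fun s hs => ?_, fun s hs => ?_, ?_, ?_⟩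
  · rw [X_scale z0 u s hr, lt_div_iff₀ hr, div_lt_iff₀ hr]
    exact h.strip s hs
  · rw [Y_scale z0 u s hr, le_div_iff₀ hr, div_le_iff₀ hr]
    have := h.loc s hs
    constructor <;> nlinarith [this.1, this.2]
  · rw [Y_scale z0 u _ hr, div_le_iff₀ hr]
    exact h.left
  · rw [Y_scale z0 u _ hr, le_div_iff₀ hr]
    exact h.right

/-- shape of a rectangle in the frame of unit `‖e‖`, width `w` of the strip -/
structure Shp (k x0 x1 y0 y1 w m : ℝ) : Prop where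
  bx0 : |x0| ≤ k
  bx1 : |x1| ≤ k
  by0 : |y0| ≤ k
  by1 : |y1| ≤ k
  sx : 1 ≤ k * (x1 - x0)
  sy : 1 ≤ k * (y1 - y0)
  mg : w / 2 ≤ m

/-- **all rectangles at one scale**, black and white -/
theorem rb_all (hRB : RBm) : ∀ k : ℝ, 1 ≤ k → ∀ C4 : ℝ, 0 ≤ C4 →
    ∃ p c1 c2 K : ℝ, 0 < p ∧ p ≤ 1 ∧ 0 < c1 ∧ 0 < c2 ∧ c2 ≤ 1 ∧ 0 < K ∧
    ∀ (S : Finset ℂ) (z0 e : ℂ) (ρ d : ℝ), 0 < ‖e‖ → ‖e‖ ≤ ρ → ρ ≤ k * ‖e‖ →
      NvA S z0 (K * ρ) c2 ρ d C4 → d ≤ c1 * ρ →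
      ∀ V : Finset ℂ, V ⊆ S → ∀ x0 x1 y0 y1 m : ℝ,
      (Shp k x0 x1 y0 y1 (y1 - y0) m → (y1 - y0) * ‖e‖ ≤ 2 * ρ →
        (∀ s ∈ S, y0 < Y z0 e s → Y z0 e s < y1 → x0 - m ≤ X z0 e s → X z0 e s ≤ x1 + m → s ∈ V) →
        p ≤ pr V (fun β => ∃ l, HC S z0 e x0 x1 y0 y1 m β l) ∧
          p ≤ pr V (fun β => ∃ l, HC S z0 e x0 x1 y0 y1 m (V \ β) l)) ∧
      (Shp k x0 x1 y0 y1 (x1 - x0) m → (x1 - x0) * ‖e‖ ≤ 2 * ρ →
        (∀ s ∈ S, x0 < X z0 e s → X z0 e s < x1 → y0 - m ≤ Y z0 e s → Y z0 e s ≤ y1 + m → s ∈ V) →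
        p ≤ pr V (fun β => ∃ l, VC S z0 e x0 x1 y0 y1 m β l) ∧
          p ≤ pr V (fun β => ∃ l, VC S z0 e x0 x1 y0 y1 m (V \ β) l)) := by
  intro k hk C4 hC4
  obtain ⟨p1, a1, b1, K1, hp1, ha1, hb1, hb1', hK1, H1⟩ := rb_hcm hRB (k ^ 2) (by nlinarith) C4 hC4
  obtain ⟨p2, a2, b2, K2, hp2, ha2, hb2, hb2', hK2, H2⟩ := rb_vcm hRB (k ^ 2) (by nlinarith) C4 hC4
  refine ⟨min 1 (min p1 p2), min a1 a2, min b1 b2, K1 + K2, lt_min one_pos (lt_min hp1 hp2),
    min_le_left _ _, lt_min ha1 ha2, lt_min hb1 hb2, (min_le_left _ _).trans hb1',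
    by positivity, ?_⟩
  intro S z0 e ρ d he heρ hρe hN hd V hV x0 x1 y0 y1 m
  have hρ : 0 < ρ := lt_of_lt_of_le he heρ
  have hk0 : 0 < k := by linarith
  have hpp1 : min 1 (min p1 p2) ≤ p1 := (min_le_right _ _).trans (min_le_left _ _)
  have hpp2 : min 1 (min p1 p2) ≤ p2 := (min_le_right _ _).trans (min_le_right _ _)
  have hN1 : NvA S z0 (K1 * ρ) b1 ρ d C4 := by
    refine ⟨LDns.mono hN.dns (by nlinarith), ?_⟩
    have h1 : MeshA S z0 (K1 * ρ) (min b1 b2) ρ C4 :=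
      hN.mesh.shift (by rw [sub_self, norm_zero]; nlinarith)
    exact h1.sub (mul_le_mul_of_nonneg_right (min_le_left _ _) hρ.le) le_rfl
  have hN2 : NvA S z0 (K2 * ρ) b2 ρ d C4 := by
    refine ⟨LDns.mono hN.dns (by nlinarith), ?_⟩
    have h1 : MeshA S z0 (K2 * ρ) (min b1 b2) ρ C4 :=
      hN.mesh.shift (by rw [sub_self, norm_zero]; nlinarith)
    exact h1.sub (mul_le_mul_of_nonneg_right (min_le_right _ _) hρ.le) le_rfl
  have hd1 : d ≤ a1 * ρ := hd.trans (mul_le_mul_of_nonneg_right (min_le_left _ _) hρ.le)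
  have hd2 : d ≤ a2 * ρ := hd.trans (mul_le_mul_of_nonneg_right (min_le_right _ _) hρ.le)
  set u : ℂ := e / (‖e‖ : ℂ) with hu
  have he0 : (‖e‖ : ℂ) ≠ 0 := by exact_mod_cast he.ne'
  have hue : u * (‖e‖ : ℂ) = e := by rw [hu, div_mul_cancel₀ _ he0]
  have hun : ‖u‖ = 1 := by
    rw [hu, norm_div, Complex.norm_real, norm_norm, div_self he.ne']
  have hX : ∀ s, X z0 e s = X z0 u s / ‖e‖ := fun s => by rw [← X_scale z0 u s he, hue]
  have hY : ∀ s, Y z0 e s = Y z0 u s / ‖e‖ := fun s => by rw [← Y_scale z0 u s he, hue]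
  -- bounds
  have bd : ∀ x : ℝ, |x| ≤ k → |x * ‖e‖| ≤ k ^ 2 * ρ := by
    intro x hx
    rw [abs_mul, abs_of_pos he]
    have h1 : |x| * ‖e‖ ≤ k * ρ := mul_le_mul hx heρ he.le hk0.le
    nlinarith [mul_nonneg hk0.le hρ.le]
  have bs : ∀ x y : ℝ, 1 ≤ k * (y - x) → ρ ≤ k ^ 2 * (y * ‖e‖ - x * ‖e‖) := by
    intro x y hxy
    have h1 : k * ‖e‖ * 1 ≤ k * ‖e‖ * (k * (y - x)) :=
      mul_le_mul_of_nonneg_left hxy (mul_nonneg hk0.le he.le)
    nlinarith
  constructor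
  · intro hs hw hreg
    have h1 := H1 S z0 ρ d hρ hN1 hd1 u (x0 * ‖e‖) (x1 * ‖e‖) (y0 * ‖e‖) (y1 * ‖e‖) (m * ‖e‖) hun
      (bd _ hs.bx0) (bd _ hs.bx1) (bd _ hs.by0) (bd _ hs.by1) (bs _ _ hs.sx) (bs _ _ hs.sy)
      (by linarith [hw]) (by have := hs.mg; nlinarith) V hV
      (fun s hs' g1 g2 g3 g4 => hreg s hs' (by rw [hY, lt_div_iff₀ he]; exact g1)
        (by rw [hY, div_lt_iff₀ he]; exact g2) (by rw [hX, le_div_iff₀ he]; nlinarith)
        (by rw [hX, div_le_iff₀ he]; nlinarith))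
    have h2 : min 1 (min p1 p2) ≤ pr V (fun β => ∃ l, HC S z0 e x0 x1 y0 y1 m β l) := by
      refine hpp1.trans (h1.trans (pr_mono fun β _ ⟨l, hl⟩ => ⟨l, ?_⟩))
      have := hc_scale he hl
      rwa [hue] at this
    exact ⟨h2, by rw [pr_flip V (fun β => ∃ l, HC S z0 e x0 x1 y0 y1 m β l)]; exact h2⟩
  · intro hs hw hreg
    have h1 := H2 S z0 ρ d hρ hN2 hd2 u (x0 * ‖e‖) (x1 * ‖e‖) (y0 * ‖e‖) (y1 * ‖e‖) (m * ‖e‖) hun
      (bd _ hs.bx0) (bd _ hs.bx1) (bd _ hs.by0) (bd _ hs.by1) (bs _ _ hs.sx) (bs _ _ hs.sy)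
      (by linarith [hw]) (by have := hs.mg; nlinarith) V hV
      (fun s hs' g1 g2 g3 g4 => hreg s hs' (by rw [hX, lt_div_iff₀ he]; exact g1)
        (by rw [hX, div_lt_iff₀ he]; exact g2) (by rw [hY, le_div_iff₀ he]; nlinarith)
        (by rw [hY, div_le_iff₀ he]; nlinarith))
    have h2 : min 1 (min p1 p2) ≤ pr V (fun β => ∃ l, VC S z0 e x0 x1 y0 y1 m β l) := by
      refine hpp2.trans (h1.trans (pr_mono fun β _ ⟨l, hl⟩ => ⟨l, ?_⟩))
      have := vc_scale he hl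
      rwa [hue] at this
    exact ⟨h2, by rw [pr_flip V (fun β => ∃ l, VC S z0 e x0 x1 y0 y1 m β l)]; exact h2⟩

end Crest.Agent.R143.RbEx838
end
end

-- ▼ part R143/GEpr_838
section

/-!
# Row 143, R1d (N): quenched numbers of the neck gate (helper838)

Unit `‖e‖`; numbers of helper921: gate window `(-1, 1)`, margin `1 / 20`, levels `-9 .. b1`, black strip
`(-8, -47/10)`, white strip `(2, 8)`, landing zones `(10, 101/10)`, `(-101/10, -10)`.

* `L0`, `GEn` : the numbers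
* `env_en` : `LDns` gives the environment hypotheses `En`
* `nums` : one environment `NvA` at the scale `5 ‖e‖` gives `p ^ 9 ≤ pr V GEn` and `p ≤` probability of
  the horizontal and vertical, black and white crossings of all rectangles of bounded shape
-/

set_option autoImplicit false

noncomputable section

open scoped Classical

namespace Crest.Agent.R143.GEprx838

open Crest.ProbabilityR.Voronoi (voronoiCell)
open Crest.Agent.R143.B0x346 Crest.Agent.R143.DelGx806 Crest.Agent.R143.DelRx806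
open Crest.Agent.R143.ToolWx838 Crest.Agent.R143.Blkx838 Crest.Agent.R143.ToolW2x838
open Crest.Agent.R143.ToolW3x838 Crest.Agent.R143.Circ4x838 Crest.Agent.R143.Harx315
open Crest.Agent.R143.RB0x838 Crest.Agent.R143.CircPx838 Crest.Agent.R143.Gatex838
open Crest.Agent.R143.RBmx838 Crest.Agent.R143.RbEx838 Crest.Agent.R143.Neckx921

variable {S V : Finset ℂ} {z0 e : ℂ} {d : ℝ}

/-- **numbers** (levels) -/
def L0 : Lc where
  a0 := -1
  a1 := 1
  t0 := -(92 / 10)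
  b0 := -9
  p0 := -8
  l1 := -(49 / 10)
  cB := -4
  tb := by norm_num
  bp := by norm_num
  pl := by norm_num
  lB := by norm_num

theorem wl0 {b1 : ℝ} (hb : 9 ≤ b1) : Wl L0 (-13) 13 (-12) 12 (-(7 / 10)) (-(6 / 10)) (6 / 10)
    (7 / 10) (-(1 / 20)) (1 / 20) 10 (101 / 10) (-(101 / 10)) (-10) (-(93 / 10)) (-(91 / 10)) (-5)
    (-(48 / 10)) (-(47 / 10)) (49 / 10) 5 2 8 b1 (1 / 20) := by
  constructor <;> first | linarith | norm_num [L0]

/-- **gate and extensions**, numbers; `b1` = upper level of the neck (`9 ≤ b1 ≤ 11`) -/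
def GEn (S V : Finset ℂ) (z0 e : ℂ) (b1 : ℝ) (β : Finset ℂ) : Prop :=
  GE S V z0 e L0 (-12) 12 10 (101 / 10) (-(101 / 10)) (-10) (-(47 / 10)) (49 / 10) 5 2 8 b1 (1 / 20) 1 β

theorem norm_le_XY (he : e ≠ 0) (z : ℂ) : ‖z - z0‖ ≤ ‖e‖ * (|X z0 e z| + |Y z0 e z|) := by
  have h : z - z0 = e * ((z - z0) / e) := by field_simp
  rw [h, norm_mul]
  refine mul_le_mul_of_nonneg_left ?_ (norm_nonneg e)
  exact Complex.norm_le_abs_re_add_abs_im _

theorem XY_diff (s z : ℂ) : |X z0 e s - X z0 e z| ≤ ‖s - z‖ / ‖e‖ ∧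
    |Y z0 e s - Y z0 e z| ≤ ‖s - z‖ / ‖e‖ := by
  have h : (s - z0) / e - (z - z0) / e = (s - z) / e := by ring
  unfold X Y
  rw [← Complex.sub_re, ← Complex.sub_im, h, ← norm_div]
  exact ⟨Complex.abs_re_le_norm _, Complex.abs_im_le_norm _⟩

/-- the environment hypotheses of the neck -/
theorem env_en (he : e ≠ 0) {R : ℝ} (hD : LDns S z0 R d) (hR : 25 * ‖e‖ ≤ R)
    (hd : d ≤ 1 / 20 * ‖e‖)
    (hV : ∀ s ∈ S, |X z0 e s| ≤ 14 → |Y z0 e s| ≤ 12 → s ∈ V) :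
    En S V z0 e (-12) 12 (-(91 / 10)) (-(48 / 10)) (1 / 20) := by
  have he0 : 0 < ‖e‖ := norm_pos_iff.2 he
  refine ⟨hD.gp, ?_, ?_, ?_⟩
  · have pt : ∀ t : ℝ, |t| ≤ 10 → ∃ s ∈ S, ‖s - (z0 + t * e)‖ < d := by
      intro t ht
      refine hD.hole _ ?_
      rw [add_sub_cancel_left, norm_mul, Complex.norm_real, Real.norm_eq_abs]
      nlinarith
    obtain ⟨s1, h1, k1⟩ := pt 0 (by norm_num)
    obtain ⟨s2, h2, k2⟩ := pt 5 (by norm_num)
    obtain ⟨s3, h3, k3⟩ := pt 10 (by norm_num)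
    have ne : ∀ {a b : ℂ} {t t' : ℝ}, 5 ≤ |t - t'| → ‖a - (z0 + t * e)‖ < d →
        ‖b - (z0 + t' * e)‖ < d → a ≠ b := by
      rintro a b t t' ht ha hb rfl
      have h4 : ‖((t - t' : ℝ) : ℂ) * e‖ ≤ ‖a - (z0 + t * e)‖ + ‖a - (z0 + t' * e)‖ := by
        have : ((t - t' : ℝ) : ℂ) * e = (a - (z0 + t' * e)) - (a - (z0 + t * e)) := by
          push_cast; ring
        rw [this]
        exact (norm_sub_le _ _).trans (by linarith)
      rw [norm_mul, Complex.norm_real, Real.norm_eq_abs] at h4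
      nlinarith
    exact Finset.two_lt_card.2 ⟨s1, h1, s2, h2, s3, h3, ne (by norm_num) k1 k2,
      ne (by norm_num) k1 k3, ne (by norm_num) k2 k3⟩
  · intro s hs h1 h2 h3 h4
    exact hV s hs (by rw [abs_le]; constructor <;> linarith) (by rw [abs_le]; constructor <;> linarith)
  · intro s hs z hz h1 h2 h3 h4
    obtain ⟨s', hs', hh⟩ := hD.hole z (by
      refine (norm_le_XY he z).trans (le_trans ?_ hR)
      have a1 : |X z0 e z| ≤ 12 := by rw [abs_le]; constructor <;> linarith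
      have a2 : |Y z0 e z| ≤ 10 := by rw [abs_le]; constructor <;> linarith
      nlinarith)
    have h5 : ‖s - z‖ ≤ d := by
      have h6 := hz s' hs'
      rw [norm_sub_rev s z]
      rw [norm_sub_rev s' z] at hh
      have : ‖z - s‖ ≤ ‖z - s'‖ := h6
      linarith
    have h6 : ‖s - z‖ / ‖e‖ ≤ 1 / 20 := by
      rw [div_le_iff₀ he0]; linarith
    have h7 := XY_diff (z0 := z0) (e := e) s z
    exact ⟨h7.1.trans h6, h7.2.trans h6⟩

theorem nva_sub {R R' ρ c c' C4 : ℝ} (h : NvA S z0 R c ρ d C4) (hR : R' ≤ R) (hρ : 0 ≤ ρ)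
    (hc : c ≤ c') : NvA S z0 R' c' ρ d C4 :=
  ⟨LDns.mono h.dns hR, (h.mesh.shift (by rw [sub_self, norm_zero]; linarith)).sub
    (mul_le_mul_of_nonneg_right hc hρ) le_rfl⟩

/-- all crossings of the rectangle `x0 < X < x1`, `y0 < Y < y1` with margin `m` and free sites `V` have
probability at least `p` -/
def AllX (S : Finset ℂ) (z0 e : ℂ) (p : ℝ) : Prop :=
  ∀ V : Finset ℂ, V ⊆ S → ∀ x0 x1 y0 y1 m : ℝ, |x0| ≤ 200 → |x1| ≤ 200 → |y0| ≤ 200 → |y1| ≤ 200 →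
    x0 + 1 / 20 ≤ x1 → y0 + 1 / 20 ≤ y1 →
    (y1 - y0 ≤ 10 → (y1 - y0) / 2 ≤ m →
      (∀ s ∈ S, y0 < Y z0 e s → Y z0 e s < y1 → x0 - m ≤ X z0 e s → X z0 e s ≤ x1 + m → s ∈ V) →
      p ≤ pr V (fun β => ∃ l, HC S z0 e x0 x1 y0 y1 m β l) ∧
        p ≤ pr V (fun β => ∃ l, HC S z0 e x0 x1 y0 y1 m (V \ β) l)) ∧
    (x1 - x0 ≤ 10 → (x1 - x0) / 2 ≤ m →
      (∀ s ∈ S, x0 < X z0 e s → X z0 e s < x1 → y0 - m ≤ Y z0 e s → Y z0 e s ≤ y1 + m → s ∈ V) →
      p ≤ pr V (fun β => ∃ l, VC S z0 e x0 x1 y0 y1 m β l) ∧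
        p ≤ pr V (fun β => ∃ l, VC S z0 e x0 x1 y0 y1 m (V \ β) l))

/-- the site set of the gate -/
def BoxIn (S V : Finset ℂ) (z0 e : ℂ) : Prop := ∀ s ∈ S, |X z0 e s| ≤ 14 → |Y z0 e s| ≤ 12 → s ∈ V

/-- probability of the gate from the crossings -/
theorem ge_of (he : e ≠ 0) {p b1 : ℝ} (hp : 0 ≤ p) (hb : 9 ≤ b1) (hb' : b1 ≤ 11)
    (hA : AllX S z0 e p)
    (hE : En S V z0 e (-12) 12 (-(91 / 10)) (-(48 / 10)) (1 / 20)) (hV : V ⊆ S)
    (hB : BoxIn S V z0 e) : p ^ 9 ≤ pr V (GEn S V z0 e b1) := by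
  have H : ∀ x0 x1 y0 y1 : ℝ, |x0| ≤ 13 → |x1| ≤ 13 → |y0| ≤ 19 / 2 → |y1| ≤ 11 →
      x0 + 1 / 20 ≤ x1 → y0 + 1 / 20 ≤ y1 → y1 - y0 ≤ 1 / 10 →
      p ≤ pr V (fun β => ∃ l, HC S z0 e x0 x1 y0 y1 (1 / 20) β l) := by
    intro x0 x1 y0 y1 a0 a1 b0 b1 hx hy hw
    rw [abs_le] at a0 a1 b0 b1
    refine ((hA V hV x0 x1 y0 y1 (1 / 20) ?_ ?_ ?_ ?_ hx hy).1 (by linarith) (by linarith) ?_).1
    all_goals first
      | (rw [abs_le]; constructor <;> linarith)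
      | (intro s hs g1 g2 g3 g4
         exact hB s hs (by rw [abs_le]; constructor <;> linarith)
          (by rw [abs_le]; constructor <;> linarith))
  have K : ∀ x0 x1 y0 y1 : ℝ, |x0| ≤ 13 → |x1| ≤ 13 → |y0| ≤ 19 / 2 → |y1| ≤ 11 →
      x0 + 1 / 20 ≤ x1 → y0 + 1 / 20 ≤ y1 → x1 - x0 ≤ 1 / 10 →
      p ≤ pr V (fun β => ∃ l, VC S z0 e x0 x1 y0 y1 (1 / 20) β l) := by
    intro x0 x1 y0 y1 a0 a1 b0 b1 hx hy hw
    rw [abs_le] at a0 a1 b0 b1
    refine ((hA V hV x0 x1 y0 y1 (1 / 20) ?_ ?_ ?_ ?_ hx hy).2 (by linarith) (by linarith) ?_).1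
    all_goals first
      | (rw [abs_le]; constructor <;> linarith)
      | (intro s hs g1 g2 g3 g4
         exact hB s hs (by rw [abs_le]; constructor <;> linarith)
          (by rw [abs_le]; constructor <;> linarith))
  have bd : ∀ {x b : ℝ}, -b ≤ x → x ≤ b → |x| ≤ b := fun h1 h2 => abs_le.2 ⟨h1, h2⟩
  refine neck_pr (wl0 hb) (by norm_num [L0]) (by norm_num) he hE hp ?_ ?_ ?_ ?_ ?_ ?_ ?_ ?_ ?_
  · exact H _ _ _ _ (bd (by norm_num) (by norm_num)) (bd (by norm_num) (by norm_num))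
      (bd (by norm_num) (by norm_num)) (bd (by norm_num [L0]) (by norm_num [L0])) (by norm_num)
      (by norm_num [L0]) (by norm_num [L0])
  · exact K _ _ _ _ (bd (by norm_num) (by norm_num)) (bd (by norm_num) (by norm_num))
      (bd (by norm_num) (by norm_num)) (bd (by norm_num [L0]) (by norm_num [L0])) (by norm_num)
      (by norm_num [L0]) (by norm_num [L0])
  · exact K _ _ _ _ (bd (by norm_num) (by norm_num)) (bd (by norm_num) (by norm_num))
      (bd (by norm_num) (by norm_num)) (bd (by norm_num [L0]) (by norm_num [L0])) (by norm_num)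
      (by norm_num [L0]) (by norm_num [L0])
  · exact K _ _ _ _ (bd (by norm_num) (by norm_num)) (bd (by norm_num) (by norm_num))
      (bd (by norm_num [L0]) (by norm_num [L0])) (bd (by norm_num) (by norm_num)) (by norm_num)
      (by norm_num [L0]) (by norm_num [L0])
  · exact K _ _ _ _ (bd (by norm_num) (by norm_num)) (bd (by norm_num) (by norm_num))
      (bd (by norm_num [L0]) (by norm_num [L0])) (bd (by norm_num) (by norm_num)) (by norm_num)
      (by norm_num [L0]) (by norm_num [L0])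
  · exact K _ _ _ _ (bd (by norm_num) (by norm_num)) (bd (by norm_num) (by norm_num))
      (bd (by norm_num) (by norm_num)) (bd (by linarith) hb') (by norm_num)
      (by linarith) (by norm_num)
  · exact H _ _ _ _ (bd (by norm_num) (by norm_num)) (bd (by norm_num) (by norm_num))
      (bd (by norm_num) (by norm_num)) (bd (by norm_num) (by norm_num)) (by norm_num)
      (by norm_num) (by norm_num)
  · exact K _ _ _ _ (bd (by norm_num) (by norm_num)) (bd (by norm_num) (by norm_num))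
      (bd (by norm_num) (by norm_num)) (bd (by norm_num) (by norm_num)) (by norm_num)
      (by norm_num) (by norm_num)
  · exact K _ _ _ _ (bd (by norm_num) (by norm_num)) (bd (by norm_num) (by norm_num))
      (bd (by norm_num) (by norm_num)) (bd (by norm_num) (by norm_num)) (by norm_num)
      (by norm_num) (by norm_num)

/-- **QUENCHED NUMBERS** -/
theorem nums : ∀ C4 : ℝ, 0 ≤ C4 → ∃ p c1 c2 K : ℝ, 0 < p ∧ p ≤ 1 ∧ 0 < c1 ∧ c1 ≤ 1 / 20 ∧
    0 < c2 ∧ c2 ≤ 1 ∧ 20 ≤ K ∧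
    ∀ (S : Finset ℂ) (z0 e : ℂ) (d : ℝ), e ≠ 0 → NvA S z0 (K * (5 * ‖e‖)) c2 (5 * ‖e‖) d C4 →
      d ≤ c1 * ‖e‖ → AllX S z0 e p ∧ ∀ V : Finset ℂ, V ⊆ S → BoxIn S V z0 e →
        En S V z0 e (-12) 12 (-(91 / 10)) (-(48 / 10)) (1 / 20) ∧
        ∀ b1 : ℝ, 9 ≤ b1 → b1 ≤ 11 → p ^ 9 ≤ pr V (GEn S V z0 e b1) := by
  intro C4 hC4
  obtain ⟨p, a1, b1, K1, hp, hp1, ha1, hb1, hb1', hK1, H⟩ :=
    rb_all RBEx723.rbm 200 (by norm_num) C4 hC4
  refine ⟨p, min a1 (1 / 20), b1, K1 + 20, hp, hp1, lt_min ha1 (by norm_num), min_le_right _ _,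
    hb1, hb1', by linarith, ?_⟩
  intro S z0 e d he hN hd
  have he0 : 0 < ‖e‖ := norm_pos_iff.2 he
  have hN' : NvA S z0 (K1 * (5 * ‖e‖)) b1 (5 * ‖e‖) d C4 :=
    nva_sub hN (by nlinarith) (by positivity) le_rfl
  have hd' : d ≤ a1 * (5 * ‖e‖) := by
    have h1 := hd.trans (mul_le_mul_of_nonneg_right (min_le_left a1 (1 / 20)) he0.le)
    nlinarith
  have hd2 : d ≤ 1 / 20 * ‖e‖ := hd.trans (mul_le_mul_of_nonneg_right (min_le_right _ _) he0.le)
  have hA : AllX S z0 e p := by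
    intro V hV x0 x1 y0 y1 m h1 h2 h3 h4 h5 h6
    have key := H S z0 e (5 * ‖e‖) d he0 (by linarith) (by linarith) hN' hd' V hV x0 x1 y0 y1 m
    refine ⟨fun h7 h8 h9 => key.1 ⟨h1, h2, h3, h4, by linarith, by linarith, h8⟩ ?_ h9,
      fun h7 h8 h9 => key.2 ⟨h1, h2, h3, h4, by linarith, by linarith, h8⟩ ?_ h9⟩
    · nlinarith
    · nlinarith
  refine ⟨hA, fun V hV hB => ?_⟩
  have hE : En S V z0 e (-12) 12 (-(91 / 10)) (-(48 / 10)) (1 / 20) :=
    env_en he hN.dns (by nlinarith) hd2 hB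
  exact ⟨hE, fun b1 h1 h2 => ge_of he hp.le h1 h2 hA hE hV hB⟩

end Crest.Agent.R143.GEprx838
end
end

-- ▼ part R143/Gm_838

/-!
# Row 143, R1d (E): the middle lanes of a tile for fresh points (helper838)

`S` = all sites of the sample in a big disc, `M` = any finite set in general position which agrees with
the sample in the region `D` of the tube, `V` = sites of `M` in `D`.

* `hc_loc`, `lane_tr` : transport of a lane from `DE S` to `DE M`
* `midB_pr`, `midW_pr` : `p ^ 2 ≤ pr V (MidB M ..)`, `p ^ 2 ≤ pr V (fun τ => MidW M .. (V \ τ))`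
* `Gm` : environment event; `gm_pr` : its complement has small probability
* `gm_mid`, `gm_ge` : the lanes and the gate on `Gm`
-/

set_option autoImplicit false

noncomputable section

open scoped Classical

namespace Crest.Agent.R143.Gmx838

open MeasureTheory Filter Topology
open Crest.ProbabilityR.Voronoi
open Crest.Agent.R143.B0x346 Crest.Agent.R143.DelGx806 Crest.Agent.R143.DelRx806
open Crest.Agent.R143.ToolWx838 Crest.Agent.R143.Blkx838 Crest.Agent.R143.ToolW2x838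
open Crest.Agent.R143.ToolW3x838 Crest.Agent.R143.Circ4x838 Crest.Agent.R143.Harx315
open Crest.Agent.R143.RB0x838 Crest.Agent.R143.CircPx838 Crest.Agent.R143.Gatex838
open Crest.Agent.R143.RBmx838 Crest.Agent.R143.RbEx838 Crest.Agent.R143.Neckx921
open Crest.Agent.R143.GEprx838 Crest.Agent.R143.TileRRx345 Crest.Agent.R143.Thetax73
open Crest.Agent.R143.Locx922 Crest.Agent.R143.EnvHx653 Crest.Agent.R143.CBx838
open Crest.Agent.R143.TileGx73 Crest.Agent.R143.PP1x831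
open scoped ENNReal

variable {S M V A : Finset ℂ} {z e z' e' : ℂ} {T p d : ℝ} {W : Set ℂ}

/-! ### transport -/

theorem hc_loc {x0 x1 y0 y1 m : ℝ} {l : List ℂ} (h : HC S z e x0 x1 y0 y1 m A l)
    (hl : ∀ s ∈ l, s ∈ W) (hde : ∀ u ∈ W, ∀ v, DE S u v → DE M u v) :
    HC M z e x0 x1 y0 y1 m A l :=
  ⟨h.ne, fun q hq => hde q.1 (hl _ (mem_of_prs hq).1) _ (h.adj q hq), h.col, h.strip, h.loc, h.left,
    h.right⟩

/-- **transport of a lane** -/
theorem lane_tr (hA : AllX S z e p) {x0 x1 y0 y1 m : ℝ} (h1 : |x0| ≤ 200) (h2 : |x1| ≤ 200)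
    (h3 : |y0| ≤ 200) (h4 : |y1| ≤ 200) (h5 : x0 + 1 / 20 ≤ x1) (h6 : y0 + 1 / 20 ≤ y1)
    (h7 : y1 - y0 ≤ 10) (h8 : (y1 - y0) / 2 ≤ m)
    (hW : ∀ s, y0 < Y z e s → Y z e s < y1 → x0 - m ≤ X z e s → X z e s ≤ x1 + m → s ∈ W)
    (hV : ∀ s ∈ S, s ∈ W → s ∈ V) (hde : ∀ u ∈ W, ∀ v, DE S u v → DE M u v) :
    p ≤ pr V (fun β => ∃ l, HC M z e x0 x1 y0 y1 m β l) := by
  have hsub : S.filter (· ∈ W) ⊆ V := fun s hs => by
    rw [Finset.mem_filter] at hs; exact hV s hs.1 hs.2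
  have k1 := ((hA (S.filter (· ∈ W)) (Finset.filter_subset _ _) x0 x1 y0 y1 m h1 h2 h3 h4 h5 h6).1 h7
    h8 (fun s hs g1 g2 g3 g4 => Finset.mem_filter.2 ⟨hs, hW s g1 g2 g3 g4⟩)).1
  refine (k1.trans (pr_mono fun β hβ ⟨l, hl⟩ => ⟨l, hc_loc hl (fun s hs =>
    (Finset.mem_filter.1 (hβ (hl.col s hs))).2) hde⟩)).trans
    (pr_le_of_sub hsub fun β β' hb ⟨l, hl⟩ => ⟨l, hl.mono hb⟩)

/-! ### supports of the lanes -/

theorem regS (he : e ≠ 0) (k : e' = e) (f : Fr T z e z' e') {y0 y1 : ℝ}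
    (h0 : -9 ≤ y0) (h1 : y1 ≤ 9) (s : ℂ) (l4 : y0 < Y z e s) (l5 : Y z e s < y1)
    (l2 : 10 - 1 ≤ X z e s) (l3 : X z e s ≤ T - 10 + 1) :
    s ∈ Mi z e z' e' ∩ Re T z e z' e' := by
  have hX := (f.coord he).resolve_right (by
    rintro (⟨h, -⟩ | ⟨h, -⟩)
    · exact ne_I he (k.symm.trans h)
    · exact ne_I' he (k.symm.trans h))
  have e1 := hX.2.1 s
  have e2 := hX.2.2 s
  refine ⟨⟨by linarith, by linarith⟩, ?_⟩
  rcases lt_or_ge (X z e s) (T / 2 + 9) with h5 | h5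
  · exact Or.inl ⟨⟨by linarith, h5⟩, by linarith, by linarith⟩
  · exact Or.inr ⟨⟨by linarith, by linarith⟩, by linarith, by linarith⟩

theorem regT (hT : 40 ≤ T) (he : e ≠ 0) (k : e' ≠ e) (f : Fr T z e z' e') {y0 y1 u w : ℝ}
    (h0 : -9 ≤ y0) (h1 : y1 ≤ 9) (hu : u < T / 2 + 8) (hw : -(T / 2 + 8) < w) (s : ℂ) :
    (y0 < Y z e s → Y z e s < y1 → 10 - 1 ≤ X z e s → X z e s ≤ u + 1 →
      s ∈ Mi z e z' e' ∩ Re T z e z' e') ∧
    (y0 < Y z' e' s → Y z' e' s < y1 → w - 1 ≤ X z' e' s → X z' e' s ≤ -10 + 1 →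
      s ∈ Mi z e z' e' ∩ Re T z e z' e') := by
  have hf : (-9 < Y z e s → Y z e s < 9 → X z' e' s ≤ -9) ∧
      (-9 < Y z' e' s → Y z' e' s < 9 → 9 ≤ X z e s) := by
    rcases f.coord he with ⟨h, -⟩ | ⟨-, hX, hY⟩ | ⟨-, hX, hY⟩
    · exact absurd h k
    · exact ⟨fun h1 h2 => by linarith [hX s], fun h1 h2 => by linarith [hY s]⟩
    · exact ⟨fun h1 h2 => by linarith [hX s], fun h1 h2 => by linarith [hY s]⟩
  refine ⟨fun l4 l5 l2 l3 => ?_, fun l4 l5 l2 l3 => ?_⟩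
  · exact ⟨⟨by linarith, hf.1 (by linarith) (by linarith)⟩,
      Or.inl ⟨⟨by linarith, by linarith⟩, by linarith, by linarith⟩⟩
  · exact ⟨⟨hf.2 (by linarith) (by linarith), by linarith⟩,
      Or.inr ⟨⟨by linarith, by linarith⟩, by linarith, by linarith⟩⟩

theorem two {A B : Finset ℂ → Prop} (hp : 0 ≤ p) (hA : Up V A) (hB : Up V B) (h1 : p ≤ pr V A)
    (h2 : p ≤ pr V B) : p ^ 2 ≤ pr V (fun β => A β ∧ B β) := by
  rw [sq]
  exact (mul_le_mul h1 h2 hp pr_nonneg).trans (harris_up hA hB)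

/-- one leg or two legs of lanes -/
theorem mid_pr (hp : 0 ≤ p) (hp1 : p ≤ 1) (he : e ≠ 0) (hT : 40 ≤ T) (hT' : T ≤ 150)
    (f : Fr T z e z' e') (A1 : AllX S z e p) (A2 : AllX S z' e' p)
    (hV : ∀ s ∈ S, s ∈ Mi z e z' e' → s ∈ Re T z e z' e' → s ∈ V)
    (hde : ∀ u ∈ Mi z e z' e' ∩ Re T z e z' e', ∀ v, DE S u v → DE M u v)
    {y0 y1 uL uR : ℝ} (h0 : -9 ≤ y0) (h1 : y1 ≤ 9) (h2 : y0 + 1 / 20 ≤ y1) (h3 : y1 - y0 ≤ 2)
    (a1 : 12 ≤ uL) (a2 : uL < T / 2 + 8) (a3 : 12 ≤ uR) (a4 : uR < T / 2 + 8) :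
    p ^ 2 ≤ pr V (fun A => (e' = e → ∃ l, HC M z e 10 (T - 10) y0 y1 1 A l) ∧
      (e' = e * Complex.I → (∃ l, HC M z e 10 uL y0 y1 1 A l) ∧
        ∃ l, HC M z' e' (-uL) (-10) y0 y1 1 A l) ∧
      (e' = e * -Complex.I → (∃ l, HC M z e 10 uR y0 y1 1 A l) ∧
        ∃ l, HC M z' e' (-uR) (-10) y0 y1 1 A l)) := by
  have hV' : ∀ s ∈ S, s ∈ Mi z e z' e' ∩ Re T z e z' e' → s ∈ V := fun s hs h => hV s hs h.1 h.2
  have by0 : |y0| ≤ 200 := abs_le.2 ⟨by linarith, by linarith⟩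
  have by1 : |y1| ≤ 200 := abs_le.2 ⟨by linarith, by linarith⟩
  rcases f.coord he with ⟨k, -⟩ | ⟨k, -⟩ | ⟨k, -⟩
  · have n1 : e' ≠ e * Complex.I := by rw [k]; exact ne_I he
    have n2 : e' ≠ e * -Complex.I := by rw [k]; exact ne_I' he
    have g := lane_tr (V := V) (M := M) (W := Mi z e z' e' ∩ Re T z e z' e') A1 (x0 := 10)
      (x1 := T - 10) (y0 := y0) (y1 := y1) (m := 1) (by norm_num)
      (abs_le.2 ⟨by linarith, by linarith⟩) by0 by1 (by linarith) h2 (by linarith) (by linarith)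
      (fun s => regS he k f h0 h1 s) hV' hde
    refine le_trans ?_ (g.trans (pr_mono fun β _ h => ⟨fun _ => h, fun h' => absurd h' n1,
      fun h' => absurd h' n2⟩))
    nlinarith
  · have n1 : e' ≠ e := by rw [k]; exact (ne_I he).symm
    have n2 : e' ≠ e * -Complex.I := by rw [k]; exact ne_II he
    have r := regT (z := z) (z' := z') (y0 := y0) (y1 := y1) (u := uL) (w := -uL) hT he n1 f h0 h1 a2
      (by linarith)
    have g1 := lane_tr (V := V) (M := M) (W := Mi z e z' e' ∩ Re T z e z' e') A1 (x0 := 10)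
      (x1 := uL) (y0 := y0) (y1 := y1) (m := 1) (by norm_num)
      (abs_le.2 ⟨by linarith, by linarith⟩) by0 by1 (by linarith) h2 (by linarith) (by linarith)
      (fun s => (r s).1) hV' hde
    have g2 := lane_tr (V := V) (M := M) (W := Mi z e z' e' ∩ Re T z e z' e') A2 (x0 := -uL)
      (x1 := -10) (y0 := y0) (y1 := y1) (m := 1) (abs_le.2 ⟨by linarith, by linarith⟩)
      (by norm_num) by0 by1 (by linarith) h2 (by linarith) (by linarith)
      (fun s => (r s).2) hV' hde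
    refine (two hp (up_hc V M z e 10 uL y0 y1 1) (up_hc V M z' e' (-uL) (-10) y0 y1 1) g1 g2).trans
      (pr_mono fun β _ h => ⟨fun h' => absurd h' n1, fun _ => h, fun h' => absurd h' n2⟩)
  · have n1 : e' ≠ e := by rw [k]; exact (ne_I' he).symm
    have n2 : e' ≠ e * Complex.I := by rw [k]; exact (ne_II he).symm
    have r := regT (z := z) (z' := z') (y0 := y0) (y1 := y1) (u := uR) (w := -uR) hT he n1 f h0 h1 a4
      (by linarith)
    have g1 := lane_tr (V := V) (M := M) (W := Mi z e z' e' ∩ Re T z e z' e') A1 (x0 := 10)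
      (x1 := uR) (y0 := y0) (y1 := y1) (m := 1) (by norm_num)
      (abs_le.2 ⟨by linarith, by linarith⟩) by0 by1 (by linarith) h2 (by linarith) (by linarith)
      (fun s => (r s).1) hV' hde
    have g2 := lane_tr (V := V) (M := M) (W := Mi z e z' e' ∩ Re T z e z' e') A2 (x0 := -uR)
      (x1 := -10) (y0 := y0) (y1 := y1) (m := 1) (abs_le.2 ⟨by linarith, by linarith⟩)
      (by norm_num) by0 by1 (by linarith) h2 (by linarith) (by linarith)
      (fun s => (r s).2) hV' hde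
    refine (two hp (up_hc V M z e 10 uR y0 y1 1) (up_hc V M z' e' (-uR) (-10) y0 y1 1) g1 g2).trans
      (pr_mono fun β _ h => ⟨fun h' => absurd h' n1, fun h' => absurd h' n2, fun _ => h⟩)

/-- **black lanes** -/
theorem midB_pr (hp : 0 ≤ p) (hp1 : p ≤ 1) (he : e ≠ 0) (hT : 40 ≤ T) (hT' : T ≤ 150)
    (f : Fr T z e z' e') (A1 : AllX S z e p) (A2 : AllX S z' e' p)
    (hV : ∀ s ∈ S, s ∈ Mi z e z' e' → s ∈ Re T z e z' e' → s ∈ V)
    (hde : ∀ u ∈ Mi z e z' e' ∩ Re T z e z' e', ∀ v, DE S u v → DE M u v) :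
    p ^ 2 ≤ pr V (MidB M T z e z' e') :=
  mid_pr hp hp1 he hT hT' f A1 A2 hV hde (y0 := -7) (y1 := -6) (uL := T / 2 + 7)
    (uR := T / 2 - 6) (by norm_num) (by norm_num) (by norm_num) (by norm_num) (by linarith)
    (by linarith) (by linarith) (by linarith)

/-- **white lanes** -/
theorem midW_pr (hp : 0 ≤ p) (hp1 : p ≤ 1) (he : e ≠ 0) (hT : 40 ≤ T) (hT' : T ≤ 150)
    (f : Fr T z e z' e') (A1 : AllX S z e p) (A2 : AllX S z' e' p)
    (hV : ∀ s ∈ S, s ∈ Mi z e z' e' → s ∈ Re T z e z' e' → s ∈ V)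
    (hde : ∀ u ∈ Mi z e z' e' ∩ Re T z e z' e', ∀ v, DE S u v → DE M u v) :
    p ^ 2 ≤ pr V (fun τ => MidW M T z e z' e' (V \ τ)) := by
  rw [pr_flip V (MidW M T z e z' e')]
  exact mid_pr hp hp1 he hT hT' f A1 A2 hV hde (y0 := 4) (y1 := 6) (uL := T / 2 - 4)
    (uR := T / 2 + 6) (by norm_num) (by norm_num) (by norm_num) (by norm_num) (by linarith)
    (by linarith) (by linarith) (by linarith)

/-! ### the environment event -/

/-- environment event: `EnvH` at the scales `≥ 5 η`, general position, finitely many points in the disc -/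
def Gm (R0 ε d K c2 η : ℝ) (ω : Sample) : Prop :=
  EnvH R0 ε d K c2 (5 * η) ω ∧ GP (points ε ω) ∧ (points ε ω ∩ Metric.closedBall 0 R0).Finite

theorem gm_pr (R0 A : ℝ) : ∃ C : ℝ, 0 < C ∧ ∀ K c1 c2 η : ℝ, 0 ≤ K → 0 < c1 → 0 < c2 → 0 < η →
    ∀ᶠ ε : ℝ in 𝓝[>] 0, (0 < rad C ε ∧ rad C ε ≤ c1 * η) ∧
      sampleLaw {ω | ¬ Gm R0 ε (rad C ε) K c2 η ω} ≤ ENNReal.ofReal (ε ^ A) := by
  obtain ⟨C, hC, H⟩ := env_h R0 A
  refine ⟨C, hC, fun K c1 c2 η hK hc1 hc2 hη => ?_⟩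
  filter_upwards [H K (c1 / 5) c2 (5 * η) hK (by positivity) hc2 (by positivity),
    (eventually_mem_nhdsWithin : ∀ᶠ ε : ℝ in 𝓝[>] 0, ε ∈ Set.Ioi 0)] with ε h1 h0
  refine ⟨⟨h1.1.1, by linarith [h1.1.2]⟩, ?_⟩
  have h3a : sampleLaw {ω | ¬ (GP (points ε ω) ∧
      (points ε ω ∩ Metric.closedBall 0 R0).Finite)} = 0 := by
    have h := PoisM3x930.m3a ε h0
    have h' : ∀ᵐ ω ∂sampleLaw, GP (points ε ω) ∧
        (points ε ω ∩ Metric.closedBall 0 R0).Finite := by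
      filter_upwards [h] with ω hω
      exact ⟨hω.1, hω.2.2 R0⟩
    exact ae_iff.1 h'
  calc sampleLaw {ω | ¬ Gm R0 ε (rad C ε) K c2 η ω}
      ≤ sampleLaw ({ω | ¬ EnvH R0 ε (rad C ε) K c2 (5 * η) ω} ∪ {ω | ¬ (GP (points ε ω) ∧
      (points ε ω ∩ Metric.closedBall 0 R0).Finite)}) := by
        refine measure_mono fun ω hω => ?_
        by_contra hc
        simp only [Set.mem_union, not_or, Set.mem_ofPred_eq, not_not] at hc
        exact hω ⟨hc.1, hc.2⟩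
    _ ≤ _ := measure_union_le _ _
    _ ≤ ENNReal.ofReal (ε ^ A) := by rw [h3a, add_zero]; exact h1.2

theorem Re_norm (he : e ≠ 0) (hT : T ≤ 150) (hT0 : 0 ≤ T) {w : ℂ} (h : w ∈ Re T z e z' e') :
    ‖w - z‖ ≤ 94 * ‖e‖ ∨ (e' ≠ 0 → ‖w - z'‖ ≤ 94 * ‖e'‖) := by
  rcases h with ⟨⟨h1, h2⟩, h3, h4⟩ | ⟨⟨h1, h2⟩, h3, h4⟩
  · left
    refine (norm_le_XY he w).trans ?_
    have a1 : |X z e w| ≤ T / 2 + 9 := abs_le.2 ⟨by linarith, by linarith⟩
    have a2 : |Y z e w| ≤ 9 := abs_le.2 ⟨by linarith, by linarith⟩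
    have := norm_nonneg e
    nlinarith
  · right
    intro he'
    refine (norm_le_XY he' w).trans ?_
    have a1 : |X z' e' w| ≤ T / 2 + 9 := abs_le.2 ⟨by linarith, by linarith⟩
    have a2 : |Y z' e' w| ≤ 9 := abs_le.2 ⟨by linarith, by linarith⟩
    have := norm_nonneg e'
    nlinarith

theorem Fr.norm (f : Fr T z e z' e') : ‖e'‖ = ‖e‖ := by
  rcases f.2 with h | h | h <;> rw [h] <;> simp

/-- **the environment of a tile and of a gate** -/
theorem gm : ∃ p c1 c2 K : ℝ, 0 < p ∧ p ≤ 1 ∧ 0 < c1 ∧ c1 ≤ 1 / 20 ∧ 0 < c2 ∧ c2 ≤ 1 ∧ 20 ≤ K ∧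
    (∀ (R0 ε d η T : ℝ) (ω : Sample) (z e z' e' : ℂ), Gm R0 ε d K c2 η ω → 0 < d → d ≤ c1 * η →
      0 < η → 10 * η ≤ 1 → 40 ≤ T → T ≤ 150 → ‖e‖ = η → Fr T z e z' e' →
      ‖z‖ + (K + 1) * (5 * η) + 2 * d ≤ R0 → ‖z'‖ + (K + 1) * (5 * η) + 2 * d ≤ R0 →
      ∀ D : Set ℂ, (∀ w, w ∈ Mi z e z' e' → w ∈ Re T z e z' e' → ∀ s, ‖s - w‖ < 2 * d → s ∈ D) →
      ∀ M V : Finset ℂ, (∀ s ∈ D, (s ∈ M ↔ s ∈ points ε ω)) →
      (∀ s ∈ D, s ∈ points ε ω → s ∈ V) →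
      p ≤ pr V (MidB M T z e z' e') ∧ p ≤ pr V (fun τ => MidW M T z e z' e' (V \ τ))) ∧
    (∀ (R0 ε d η : ℝ) (ω : Sample) (z e : ℂ), Gm R0 ε d K c2 η ω → 0 < d → d ≤ c1 * η → 0 < η →
      10 * η ≤ 1 → ‖e‖ = η → ‖z‖ + (K + 1) * (5 * η) + 2 * d ≤ R0 →
      ∀ S : Finset ℂ, GP (S : Set ℂ) →
      (∀ s : ℂ, ‖s - z‖ ≤ (K + 1) * (5 * η) + 2 * d → (s ∈ points ε ω ↔ s ∈ S)) →
      NvA S z (K * (5 * η)) c2 (5 * η) d Cab ∧ AllX S z e p ∧
      ∀ V : Finset ℂ, V ⊆ S → BoxIn S V z e →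
        En S V z e (-12) 12 (-(91 / 10)) (-(48 / 10)) (1 / 20) ∧
        ∀ b1 : ℝ, 9 ≤ b1 → b1 ≤ 11 → p ≤ pr V (GEn S V z e b1)) := by
  obtain ⟨p, c1, c2, K, hp, hp1, hc1, hc1', hc2, hc2', hK, H⟩ := nums Cab Cab_pos.le
  have hq : p ^ 9 ≤ p ^ 2 := pow_le_pow_of_le_one hp.le hp1 (by norm_num)
  have hq1 : p ^ 9 ≤ p := by
    calc p ^ 9 ≤ p ^ 1 := pow_le_pow_of_le_one hp.le hp1 (by norm_num)
      _ = p := pow_one p
  -- crossings for a set which agrees with the sample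
  have key : ∀ (R0 ε d η : ℝ) (ω : Sample) (z e : ℂ), Gm R0 ε d K c2 η ω → 0 < d → d ≤ c1 * η →
      0 < η → 10 * η ≤ 1 → ‖e‖ = η → ‖z‖ + (K + 1) * (5 * η) + 2 * d ≤ R0 →
      ∀ S : Finset ℂ, GP (S : Set ℂ) →
      (∀ s : ℂ, ‖s - z‖ ≤ (K + 1) * (5 * η) + 2 * d → (s ∈ points ε ω ↔ s ∈ S)) →
      NvA S z (K * (5 * η)) c2 (5 * η) d Cab ∧ AllX S z e p ∧
      ∀ V : Finset ℂ, V ⊆ S → BoxIn S V z e →
        En S V z e (-12) 12 (-(91 / 10)) (-(48 / 10)) (1 / 20) ∧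
        ∀ b1 : ℝ, 9 ≤ b1 → b1 ≤ 11 → p ^ 9 ≤ pr V (GEn S V z e b1) := by
    intro R0 ε d η ω z e hG hd hd1 hη hη1 he hR S hS hA
    have he0 : e ≠ 0 := by rintro rfl; rw [norm_zero] at he; linarith
    have hN := hG.1 S z (5 * η) hS le_rfl (by linarith) hR hA
    have h1 := H S z e d he0 (by rw [he]; exact hN) (by rw [he]; exact hd1)
    exact ⟨hN, h1⟩
  refine ⟨p ^ 9, c1, c2, K, by positivity, pow_le_one₀ hp.le hp1, hc1, hc1', hc2, hc2', hK, ?_, ?_⟩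
  · intro R0 ε d η T ω z e z' e' hG hd hd1 hη hη1 hT hT' he f hR hR' D hD M V hM hV
    have he0 : e ≠ 0 := by rintro rfl; rw [norm_zero] at he; linarith
    have he' : ‖e'‖ = η := (Fr.norm f).trans he
    have he0' : e' ≠ 0 := by rintro rfl; rw [norm_zero] at he'; linarith
    have hfin := hG.2.2
    set S : Finset ℂ := hfin.toFinset with hSdef
    have hS1 : ∀ s, s ∈ S ↔ s ∈ points ε ω ∧ ‖s‖ ≤ R0 := by
      intro s
      rw [hSdef, Set.Finite.mem_toFinset, Set.mem_inter_iff, mem_closedBall_zero_iff]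
    have hSgp : GP (S : Set ℂ) := by
      refine Locx922.GP.mono hG.2.1 fun s hs => ?_
      exact ((hS1 s).1 (Finset.mem_coe.1 hs)).1
    have agr : ∀ y : ℂ, ‖y‖ + (K + 1) * (5 * η) + 2 * d ≤ R0 →
        ∀ s : ℂ, ‖s - y‖ ≤ (K + 1) * (5 * η) + 2 * d → (s ∈ points ε ω ↔ s ∈ S) := by
      intro y hy s hs
      rw [hS1]
      refine ⟨fun h => ⟨h, ?_⟩, fun h => h.1⟩
      have := norm_add_le (s - y) y
      rw [sub_add_cancel] at this
      linarith
    obtain ⟨N1, A1, -⟩ := key R0 ε d η ω z e hG hd hd1 hη hη1 he hR S hSgp (agr z hR)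
    obtain ⟨N2, A2, -⟩ := key R0 ε d η ω z' e' hG hd hd1 hη hη1 he' hR' S hSgp (agr z' hR')
    have hc1η : c1 * η ≤ 1 / 20 * η := mul_le_mul_of_nonneg_right hc1' hη.le
    have hKη : 100 * η ≤ K * (5 * η) := by nlinarith
    have near : ∀ w ∈ Mi z e z' e' ∩ Re T z e z' e', ∃ y : ℂ, (y = z ∨ y = z') ∧
        ‖w - y‖ ≤ 94 * η := by
      rintro w ⟨-, hw⟩
      rcases Re_norm he0 hT' (by linarith) hw with h | h
      · exact ⟨z, Or.inl rfl, by rwa [he] at h⟩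
      · exact ⟨z', Or.inr rfl, by have := h he0'; rwa [he'] at this⟩
    have hH : Hol (S : Set ℂ) (Mi z e z' e' ∩ Re T z e z' e') d := by
      intro w hw x hx
      obtain ⟨y, hy, hwy⟩ := near w hw
      have h1 : ‖x - y‖ ≤ K * (5 * η) := by
        have := norm_sub_le_norm_sub_add_norm_sub x w y
        linarith
      rcases hy with rfl | rfl
      · exact N1.dns.hole x h1
      · exact N2.dns.hole x h1
    have hAg : Agr (S : Set ℂ) (M : Set ℂ) (Mi z e z' e' ∩ Re T z e z' e') (2 * d) := by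
      intro w hw s hs
      have h1 := hD w hw.1 hw.2 s hs
      obtain ⟨y, hy, hwy⟩ := near w hw
      have h2 : ‖s - y‖ ≤ (K + 1) * (5 * η) + 2 * d := by
        have := norm_sub_le_norm_sub_add_norm_sub s w y
        nlinarith
      rw [Finset.mem_coe, Finset.mem_coe, hM s h1]
      rcases hy with rfl | rfl
      · exact (agr _ hR s h2).symm
      · exact (agr _ hR' s h2).symm
    have hde : ∀ u ∈ Mi z e z' e' ∩ Re T z e z' e', ∀ v, DE S u v → DE M u v :=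
      fun u hu v h => (WLocx713.de_loc hd hH hAg hu).1 h
    have hV' : ∀ s ∈ S, s ∈ Mi z e z' e' → s ∈ Re T z e z' e' → s ∈ V := by
      intro s hs h1 h2
      exact hV s (hD s h1 h2 s (by rw [sub_self, norm_zero]; linarith)) ((hS1 s).1 hs).1
    exact ⟨hq.trans (midB_pr hp.le hp1 he0 hT hT' f A1 A2 hV' hde),
      hq.trans (midW_pr hp.le hp1 he0 hT hT' f A1 A2 hV' hde)⟩
  · intro R0 ε d η ω z e hG hd hd1 hη hη1 he hR S hS hA
    obtain ⟨h1, h2, h3⟩ := key R0 ε d η ω z e hG hd hd1 hη hη1 he hR S hS hA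
    refine ⟨h1, ?_, h3⟩
    intro V hV x0 x1 y0 y1 m g1 g2 g3 g4 g5 g6
    have h4 := h2 V hV x0 x1 y0 y1 m g1 g2 g3 g4 g5 g6
    refine ⟨fun a b c => ?_, fun a b c => ?_⟩
    · exact ⟨hq1.trans (h4.1 a b c).1, hq1.trans (h4.1 a b c).2⟩
    · exact ⟨hq1.trans (h4.2 a b c).1, hq1.trans (h4.2 a b c).2⟩

end Crest.Agent.R143.Gmx838
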