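import Crest.Agent.R143.Neck1_921

/-!
# Row 143, CORE-C, block V4 (c): deterministic gluing of the tile events (helper73)

Coordinates `X z0 e`, `Y z0 e`, crossings `HC`, `VC` of GateA_838, neck gates of Neck1_921.
* `last_mark` : last marked site of a list
* `Neck.meetw` : a white horizontal crossing above the neck meets the upper arm
* `black_right`, `white_right`, `black_left`, `white_left` : the sites of a landing chain (vertical
  crossing of the landing zone) are linked to `y` (to the upper arm) on the right side of the window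
* `midS`, `midL`, `midR` : the landing chains of two gates are linked by thin crossings (straight
  tile, left turn, right turn)
* `tile_of` : the tile event
-/

set_option autoImplicit false

noncomputable section

open scoped Classical

namespace Crest.Agent.R143.TileGx73

open Crest.Agent.R143.B0x346 Crest.Agent.R143.DelGx806 Crest.Agent.R143.DelRx806
open Crest.Agent.R143.ToolWx838 Crest.Agent.R143.Blkx838 Crest.Agent.R143.ToolW2x838
open Crest.Agent.R143.ToolW3x838 Crest.Agent.R143.Circ4x838 Crest.Agent.R143.Harx315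
open Crest.Agent.R143.RB0x838 Crest.Agent.R143.CircPx838 Crest.Agent.R143.Gatex838
open Crest.Agent.R143.Neckx921

variable {S V β : Finset ℂ} {z0 e : ℂ} {a0 a1 b0 b1 l0 l1 r0 r1 p0 p1 q0 q1 m m' mN : ℝ}

/-! ### lists -/

theorem prs_suffix {P Q : List ℂ} (h : Q <:+ P) : ∀ p ∈ prs Q, p ∈ prs P := by
  obtain ⟨L, rfl⟩ := h
  intro p hp
  cases Q with
  | nil => simp at hp
  | cons a Q =>
    rw [prs_append]
    exact List.mem_append_right _ hp

theorem prs_rev {P : List ℂ} (h : ∀ p ∈ prs P, DE S p.1 p.2) : ∀ p ∈ prs P.reverse, DE S p.1 p.2 := by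
  intro p hp
  rw [prs_reverse, List.mem_reverse, List.mem_map] at hp
  obtain ⟨q, hq, rfl⟩ := hp
  exact (h q hq).symm

/-- last marked site: after it no marked site and no site of `A` -/
theorem last_mark {M A : ℂ → Prop} (P : List ℂ) (hex : ∃ s ∈ P, M s)
    (hsuf : ∀ s Q, (s :: Q) <:+ P → A s → ∃ t ∈ s :: Q, M t) :
    ∃ t Q, (t :: Q) <:+ P ∧ M t ∧ ∀ u ∈ Q, ¬ M u ∧ ¬ A u := by
  induction P with
  | nil => obtain ⟨s, hs, -⟩ := hex; simp at hs
  | cons a P ih =>
    by_cases h1 : ∃ s ∈ P, M s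
    · obtain ⟨t, Q, h2, h3, h4⟩ := ih h1 fun s Q h5 h6 => hsuf s Q (h5.trans (List.suffix_cons a P)) h6
      exact ⟨t, Q, h2.trans (List.suffix_cons a P), h3, h4⟩
    · have h1' : ∀ s ∈ P, ¬ M s := fun s hs h => h1 ⟨s, hs, h⟩
      have ha : M a := by
        obtain ⟨s, hs, hM⟩ := hex
        rcases List.mem_cons.1 hs with rfl | hs
        · exact hM
        · exact absurd hM (h1' s hs)
      refine ⟨a, P, List.suffix_rfl, ha, fun u hu => ⟨h1' u hu, fun hA => ?_⟩⟩
      obtain ⟨L, Q, rfl⟩ := List.append_of_mem hu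
      obtain ⟨t, ht, hM⟩ := hsuf u Q ((List.suffix_append L (u :: Q)).trans (List.suffix_cons a _)) hA
      exact h1' t (List.mem_append_right _ ht) hM

theorem suffix_last {P Q : List ℂ} {t : ℂ} (h : (t :: Q) <:+ P) (hP : P ≠ []) :
    (t :: Q).getLast (by simp) = P.getLast hP := by
  obtain ⟨L, rfl⟩ := h
  rw [List.getLast_append_of_ne_nil _ (by simp)]

/-! ### the neck and white crossings -/


/-! ### extension of a gate to the right -/



/-! ### extension of a gate to the left -/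

theorem suffix_rev_head {P T : List ℂ} {t : ℂ} (h : (t :: T) <:+ P.reverse) (hP : P ≠ []) :
    (t :: T).reverse.head (by simp) = P.head hP := by
  rw [List.head_reverse, suffix_last h (by simpa using hP), List.getLast_reverse]




/-! ### frames -/

theorem X_shift (he : e ≠ 0) (c s : ℂ) : X (z0 + e * c) e s = X z0 e s - c.re := by
  unfold X
  have h : (s - (z0 + e * c)) / e = (s - z0) / e - c := by field_simp; ring
  rw [h, Complex.sub_re]

theorem Y_shift (he : e ≠ 0) (c s : ℂ) : Y (z0 + e * c) e s = Y z0 e s - c.im := by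
  unfold Y
  have h : (s - (z0 + e * c)) / e = (s - z0) / e - c := by field_simp; ring
  rw [h, Complex.sub_im]

theorem X_left (he : e ≠ 0) (c s : ℂ) : X (z0 + e * c) (e * Complex.I) s = Y z0 e s - c.im := by
  rw [X_turn, Y_shift he]

theorem Y_left (he : e ≠ 0) (c s : ℂ) : Y (z0 + e * c) (e * Complex.I) s = c.re - X z0 e s := by
  rw [Y_turn, X_shift he]; ring

theorem X_turn' (z e s : ℂ) : X z (e * -Complex.I) s = -Y z e s := by
  unfold X Y
  rw [mul_neg, div_neg, Complex.neg_re, ← div_div, div_I]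
  simp

theorem Y_turn' (z e s : ℂ) : Y z (e * -Complex.I) s = X z e s := by
  unfold X Y
  rw [mul_neg, div_neg, Complex.neg_im, ← div_div, div_I]
  simp

theorem X_right (he : e ≠ 0) (c s : ℂ) : X (z0 + e * c) (e * -Complex.I) s = c.im - Y z0 e s := by
  rw [X_turn', Y_shift he]; ring

theorem Y_right (he : e ≠ 0) (c s : ℂ) : Y (z0 + e * c) (e * -Complex.I) s = X z0 e s - c.re := by
  rw [Y_turn', X_shift he]

/-- rectangle in the frame `(z0, e)` -/
def Rc (z0 e : ℂ) (x0 x1 y0 y1 : ℝ) : Set ℂ :=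
  {s | (x0 < X z0 e s ∧ X z0 e s < x1) ∧ y0 < Y z0 e s ∧ Y z0 e s < y1}

/-! ### the middle of a tile -/

variable {A : Finset ℂ} {R : Set ℂ} {s0 s1 s0' s1' u1 w0 : ℝ}

/-- **straight tile** : the landing chains are linked -/
theorem midS (hS : GP (S : Set ℂ)) (he : e ≠ 0) {T : ℝ} {Q Q' M : List ℂ}
    (v : VC S z0 e l0 l1 p0 p1 m A Q) (v' : VC S (z0 + e * (T : ℂ)) e r0 r1 p0 p1 m A Q')
    (hM : HC S z0 e l0 (T + r1) s0 s1 m' A M) (h0 : p0 ≤ s0) (h1 : s1 ≤ p1) (h2 : l1 ≤ T + r1)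
    (h3 : l0 ≤ T + r0) (hR : ∀ s ∈ M, s ∈ R) :
    ∃ t ∈ Q, ∃ t' ∈ Q', Lk S {s | s ∈ A ∧ s ∈ R} t t' := by
  obtain ⟨t, ht, ht'⟩ := hM.meet hS he v le_rfl h2 h0 h1
  have v2 : VC S z0 e (T + r0) (T + r1) p0 p1 m A Q' := by
    refine ⟨v'.ne, v'.adj, v'.col, fun s hs => ?_, fun s hs => ?_, ?_, ?_⟩
    · have := v'.strip s hs
      rw [X_shift he, Complex.ofReal_re] at this
      constructor <;> linarith [this.1, this.2]
    · have := v'.loc s hs
      rw [Y_shift he, Complex.ofReal_im, sub_zero] at this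
      exact this
    · have := v'.left
      rw [Y_shift he, Complex.ofReal_im, sub_zero] at this
      exact this
    · have := v'.right
      rw [Y_shift he, Complex.ofReal_im, sub_zero] at this
      exact this
  obtain ⟨u, hu, hu'⟩ := hM.meet hS he v2 h3 le_rfl h0 h1
  exact ⟨t, ht', u, hu',
    lk_list (A := {s | s ∈ A ∧ s ∈ R}) hM.adj (fun s hs => ⟨hM.col s hs, hR s hs⟩) ht hu⟩

/-- **left turn** : second frame `(z0 + e c, e I)` -/
theorem midL (hS : GP (S : Set ℂ)) (he : e ≠ 0) {c : ℂ} {Q Q' M M' : List ℂ}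
    (v : VC S z0 e l0 l1 p0 p1 m A Q)
    (v' : VC S (z0 + e * c) (e * Complex.I) r0 r1 p0 p1 m A Q')
    (hM : HC S z0 e l0 u1 s0 s1 m' A M)
    (hM' : HC S (z0 + e * c) (e * Complex.I) w0 r1 s0' s1' m' A M')
    (h0 : p0 ≤ s0) (h1 : s1 ≤ p1) (h2 : l1 ≤ u1) (h0' : p0 ≤ s0') (h1' : s1' ≤ p1) (h3 : w0 ≤ r0)
    (k0 : l0 ≤ c.re - s1') (k1 : c.re - s0' ≤ u1) (k2 : w0 + c.im ≤ s0) (k3 : s1 ≤ r1 + c.im)
    (hR : ∀ s ∈ M, s ∈ R) (hR' : ∀ s ∈ M', s ∈ R) :
    ∃ t ∈ Q, ∃ t' ∈ Q', Lk S {s | s ∈ A ∧ s ∈ R} t t' := by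
  obtain ⟨t, ht, ht'⟩ := hM.meet hS he v le_rfl h2 h0 h1
  obtain ⟨u, hu, hu'⟩ := hM'.meet hS (mul_ne_zero he Complex.I_ne_zero) v' h3 le_rfl h0' h1'
  obtain ⟨w, hw, hw'⟩ := cross_e hS he (P := M) (Q := M') hM.ne hM'.ne hM.adj hM'.adj hM.strip
    (x0 := c.re - s1') (x1 := c.re - s0')
    (fun s hs => by
      have := hM'.strip s hs
      rw [Y_left he] at this
      constructor <;> linarith [this.1, this.2])
    (hM.left.trans k0) (k1.trans hM.right)
    (by
      have := hM'.left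
      rw [X_left he] at this
      linarith)
    (by
      have := hM'.right
      rw [X_left he] at this
      linarith)
  exact ⟨t, ht', u, hu',
    (lk_list (A := {s | s ∈ A ∧ s ∈ R}) hM.adj (fun s hs => ⟨hM.col s hs, hR s hs⟩) ht hw).trans
    (lk_list (A := {s | s ∈ A ∧ s ∈ R}) hM'.adj (fun s hs => ⟨hM'.col s hs, hR' s hs⟩) hw' hu)⟩

/-- **right turn** : second frame `(z0 + e c, - e I)` -/
theorem midR (hS : GP (S : Set ℂ)) (he : e ≠ 0) {c : ℂ} {Q Q' M M' : List ℂ}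
    (v : VC S z0 e l0 l1 p0 p1 m A Q)
    (v' : VC S (z0 + e * c) (e * -Complex.I) r0 r1 p0 p1 m A Q')
    (hM : HC S z0 e l0 u1 s0 s1 m' A M)
    (hM' : HC S (z0 + e * c) (e * -Complex.I) w0 r1 s0' s1' m' A M')
    (h0 : p0 ≤ s0) (h1 : s1 ≤ p1) (h2 : l1 ≤ u1) (h0' : p0 ≤ s0') (h1' : s1' ≤ p1) (h3 : w0 ≤ r0)
    (k0 : l0 ≤ c.re + s0') (k1 : c.re + s1' ≤ u1) (k2 : w0 ≤ c.im - s1) (k3 : c.im - r1 ≤ s0)
    (hR : ∀ s ∈ M, s ∈ R) (hR' : ∀ s ∈ M', s ∈ R) :
    ∃ t ∈ Q, ∃ t' ∈ Q', Lk S {s | s ∈ A ∧ s ∈ R} t t' := by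
  obtain ⟨t, ht, ht'⟩ := hM.meet hS he v le_rfl h2 h0 h1
  obtain ⟨u, hu, hu'⟩ := hM'.meet hS (mul_ne_zero he (neg_ne_zero.2 Complex.I_ne_zero)) v' h3 le_rfl
    h0' h1'
  have hr : M'.reverse ≠ [] := by simpa using hM'.ne
  obtain ⟨w, hw, hw'⟩ := cross_e hS he (P := M) (Q := M'.reverse) hM.ne hr hM.adj
    (prs_rev hM'.adj) hM.strip (x0 := c.re + s0') (x1 := c.re + s1')
    (fun s hs => by
      have := hM'.strip s (List.mem_reverse.1 hs)
      rw [Y_right he] at this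
      constructor <;> linarith [this.1, this.2])
    (hM.left.trans k0) (k1.trans hM.right)
    (by
      have := hM'.right
      rw [X_right he] at this
      rw [List.head_reverse]
      linarith)
    (by
      have := hM'.left
      rw [X_right he] at this
      rw [List.getLast_reverse]
      linarith)
  rw [List.mem_reverse] at hw'
  exact ⟨t, ht', u, hu',
    (lk_list (A := {s | s ∈ A ∧ s ∈ R}) hM.adj (fun s hs => ⟨hM.col s hs, hR s hs⟩) ht hw).trans
    (lk_list (A := {s | s ∈ A ∧ s ∈ R}) hM'.adj (fun s hs => ⟨hM'.col s hs, hR' s hs⟩) hw' hu)⟩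

/-! ### the tile event -/

/-- extension of a gate to the right: horizontal crossing of the strip over the window and the landing
zone `(l0, l1)`, vertical crossing `Q` of the landing zone -/
def ExtR (S : Finset ℂ) (z0 e : ℂ) (a0 l0 l1 p0 p1 m m' : ℝ) (A : Finset ℂ) (Q : List ℂ) : Prop :=
  (∃ P, HC S z0 e a0 l1 p0 p1 m A P) ∧ VC S z0 e l0 l1 p0 p1 m' A Q

/-- extension of a gate to the left -/
def ExtL (S : Finset ℂ) (z0 e : ℂ) (a1 r0 r1 p0 p1 m m' : ℝ) (A : Finset ℂ) (Q : List ℂ) : Prop :=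
  (∃ P, HC S z0 e r0 a1 p0 p1 m A P) ∧ VC S z0 e r0 r1 p0 p1 m' A Q

/-- numbers of a gate: window `(a0, a1)`, levels `b0, b1`, margin `mN` of the neck, black strip
`(p0, p1)`, white strip `(q0, q1)`, landing zones `(l0, l1)`, `(r0, r1)`, margins `m` (horizontal
crossings), `m'` (vertical crossings), vertical bounds `Y0, Y1`, horizontal bounds `W0`, `W1` -/
structure Num (a0 a1 b0 b1 mN p0 p1 q0 q1 l0 l1 r0 r1 m m' Y0 Y1 W0 W1 : ℝ) : Prop where
  bp : b0 ≤ p0
  pq : p1 ≤ q0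
  qb : q1 ≤ b1
  al : a1 ≤ l0
  ll : l0 < l1
  rr : r0 < r1
  ra : r1 ≤ a0
  W1 : l1 + m < W1
  W0 : W0 < r0 - m
  Ya : Y0 < b0 - mN
  Yb : b1 + mN < Y1
  Yc : Y0 < p0 - m'
  Yd : q1 + m' < Y1
  pp : p0 < p1
  qq : q0 < q1
  mN : 0 ≤ mN
  m : 0 ≤ m
  m' : 0 ≤ m'

variable {Y0 Y1 W0 W1 : ℝ}




end Crest.Agent.R143.TileGx73
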