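import Crest.Agent.R143.RBm_838
import Crest.Agent.R143.TileG_73

/-!
# Row 143, CORE-C, block V4: probability of lanes in the scaled frame (helper73)

* `X_scale`, `Y_scale`, `hc_scale`, `vc_scale` : frame `(z0, η e)`, `‖e‖ = 1`
* `lane_h`, `lane_v` : crossings of rectangles given by numbers (unit `η`), black version
* `lane_hw`, `lane_vw` : white version
* `two_up`, `two_dn` : two crossings together (Harris)
-/

set_option autoImplicit false

noncomputable section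

open scoped Classical

namespace Crest.Agent.R143.LanePrx73

open Crest.Agent.R143.B0x346 Crest.Agent.R143.DelGx806 Crest.Agent.R143.DelRx806
open Crest.Agent.R143.ToolWx838 Crest.Agent.R143.Blkx838 Crest.Agent.R143.ToolW2x838
open Crest.Agent.R143.ToolW3x838 Crest.Agent.R143.Circ4x838 Crest.Agent.R143.Harx315
open Crest.Agent.R143.RB0x838 Crest.Agent.R143.CircPx838 Crest.Agent.R143.Gatex838
open Crest.Agent.R143.CBx838 Crest.Agent.R143.Multix838 Crest.Agent.R143.RBpx838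
open Crest.Agent.R143.RBmx838

variable {S V β : Finset ℂ} {z0 e : ℂ} {η x0 x1 y0 y1 m : ℝ} {l : List ℂ}

theorem XY_scale (hη : η ≠ 0) (z0 e s : ℂ) : (s - z0) / ((η : ℂ) * e) = (η⁻¹ : ℝ) * ((s - z0) / e) := by
  have h : (η : ℂ) ≠ 0 := by exact_mod_cast hη
  rw [div_mul_eq_div_div_swap, div_eq_inv_mul _ (η : ℂ)]
  push_cast
  ring

theorem X_scale (hη : η ≠ 0) (z0 e s : ℂ) : X z0 ((η : ℂ) * e) s = η⁻¹ * X z0 e s := by
  unfold X
  rw [XY_scale hη, Complex.re_ofReal_mul]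

theorem Y_scale (hη : η ≠ 0) (z0 e s : ℂ) : Y z0 ((η : ℂ) * e) s = η⁻¹ * Y z0 e s := by
  unfold Y
  rw [XY_scale hη, Complex.im_ofReal_mul]

theorem inv_le_iff' (hη : 0 < η) {x y : ℝ} : η⁻¹ * x ≤ y ↔ x ≤ η * y := by
  rw [inv_mul_le_iff₀ hη]

theorem le_inv_iff' (hη : 0 < η) {x y : ℝ} : y ≤ η⁻¹ * x ↔ η * y ≤ x := by
  rw [le_inv_mul_iff₀ hη]

theorem inv_lt_iff' (hη : 0 < η) {x y : ℝ} : η⁻¹ * x < y ↔ x < η * y := by
  rw [inv_mul_lt_iff₀ hη]

theorem lt_inv_iff' (hη : 0 < η) {x y : ℝ} : y < η⁻¹ * x ↔ η * y < x := by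
  rw [lt_inv_mul_iff₀ hη]


theorem vc_scale (hη : 0 < η)
    (h : VC S z0 e (η * x0) (η * x1) (η * y0) (η * y1) (η * m) β l) :
    VC S z0 ((η : ℂ) * e) x0 x1 y0 y1 m β l := by
  refine ⟨h.ne, h.adj, h.col, fun s hs => ?_, fun s hs => ?_, ?_, ?_⟩
  · rw [X_scale hη.ne', lt_inv_iff' hη, inv_lt_iff' hη]
    exact h.strip s hs
  · rw [Y_scale hη.ne', le_inv_iff' hη, inv_le_iff' hη, mul_sub, mul_add]
    exact h.loc s hs
  · rw [Y_scale hη.ne', inv_le_iff' hη]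
    exact h.left
  · rw [Y_scale hη.ne', le_inv_iff' hη]
    exact h.right

/-- numbers of a rectangle -/
structure Box (k x0 x1 y0 y1 : ℝ) : Prop where
  ax0 : |x0| ≤ k
  ax1 : |x1| ≤ k
  ay0 : |y0| ≤ k
  ay1 : |y1| ≤ k
  wx : 1 ≤ k * (x1 - x0)
  wy : 1 ≤ k * (y1 - y0)






end Crest.Agent.R143.LanePrx73
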