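import Crest.Agent.R143.GPm_653
import Crest.Agent.R143.TplI_204
import Crest.Agent.R143.WLoc11_713
import Crest.Agent.R143.Theta_73
import Crest.Agent.R143.Fair_653
import Crest.Agent.R143.LanePr_73

-- ▼ part R143/Pos_653
section

/-!
# R143 (helper653), box R1 (C): the lower bound of the tiles given good gates, and `P(good) ≥ b`

* `wE_mono` : full tile implies white tile
* `QTile P t RH LH a p S T` : quenched tile bound for the fresh positions `T` (form of 120's `TileQ2`)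
* `aepos_t` : from `QTile` on a set of samples of probability `≥ 1 - d`: almost surely good gates give
  `p (a² - d) ≤ Rs ε (P.D t) (P.wE (t, b)) (cfg ε ω)`
* `aepos` : 978's `Raw.AePos`
* `mass` : `b ≤ P (P.wA ≠ 0)`
-/

set_option autoImplicit false

noncomputable section

open scoped Classical

namespace Crest.Agent.R143.Posx653

open MeasureTheory Set ProbabilityTheory
open Crest.ProbabilityR.Voronoi
open Crest.Agent.R143.B0x346 (GP)
open Crest.Agent.R143.PP0x831 Crest.Agent.R143.Poisx304 Crest.Agent.R143.Janx304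
open Crest.Agent.R143.IndLocx279 Crest.Agent.R143.IndLoc2x279 Crest.Agent.R143.IndLoc3x279
open Crest.Agent.R143.IndLoc4x279 Crest.Agent.R143.PWx978 Crest.Agent.R143.Tplx978
open Crest.Agent.R143.Fairx653 Crest.Agent.R143.GPmx653 Crest.Agent.R143.TplIx204
open Crest.Agent.R143.PthFx765 Crest.Agent.R143.WLocx713
open Crest.Agent.R143.Harx315 (pr nb)
open scoped ENNReal

variable {ε : ℝ} {P : DT} {t : Tn} {RH LH K : Cf → Prop} {CR CL : Set ℂ} {a b p : ℝ}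

/-! ## white tiles -/

theorem TB_mono {A : Set ℂ} {St En : Set (ℂ × Bool) → ℂ × ℂ → Prop} {X : Set (ℂ × Bool)} {b : Bool}
    (h : TB true A St En X) : TB b A St En X :=
  TB_of (TB_true.1 h)

theorem wE_mono (b : Bool) (X : Cf) : P.wE (t, true) X ≤ P.wE (t, b) X := by
  show ind (P.TE (t, true) X) ≤ ind (P.TE (t, b) X)
  unfold ind
  by_cases h : P.TE (t, true) X
  · have h' : P.TE (t, b) X := TB_mono h
    rw [if_pos h, if_pos h']
  · rw [if_neg h]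
    exact zero_le

/-! ## the tile -/

/-- existence of the gate dart -/
def KG (P : DT) (X : Cf) : Prop := (X ∩ ovr P.Q).Finite ∧ ∃ p, LG P.g P.Q (X ∩ ovr P.Q) p

lemma KG_local : LocalOn P.Q (KG P) := by
  intro S
  show KG P S = KG P (S ∩ ovr P.Q)
  unfold KG
  rw [inter_ovr2]

lemma KG_fm : FinMeas (KG P) := by
  have h1 : FinMeas fun X : Cf => X.Finite ∧ ∃ p, LG P.g P.Q X p := LGx_fme P.Q_meas P.g
  exact fm_interP h1 P.Q_meas

/-- quenched tile bound: `S` = configuration of the gates (both gate darts exist), `T` = fresh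
positions -/
def QTile (P : DT) (t : Tn) (RH LH : Cf → Prop) (a p : ℝ) (S : Cf) (T : Finset ℂ) : Prop :=
  KG P S → tr (nxt P.h t).e (KG P) S → a ≤ pr T (fun τ => RH (S ∪ clr T τ)) → a ≤ pr T (fun τ => tr (nxt P.h t).e LH (S ∪ clr T τ)) →
    p ≤ pr T fun τ => P.TE (t, true) (S ∪ clr T τ)

lemma ind_local {B : Set ℂ} (h : LocalOn B K) : LocalOn B fun X => ind (K X) :=
  IndLocx279.LocalOn.comp h ind

lemma fs_fin {A : Set ℂ} (h : A.Finite) : (fs A : Set ℂ) = A := by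
  ext z
  rw [Finset.mem_coe, mem_fs h]

lemma cavE_one {f : Cf → ℝ≥0∞} {T : Finset ℂ} (h : ∀ τ, τ ⊆ T → 1 ≤ f (clr T τ)) :
    1 ≤ cavE f T := by
  unfold cavE
  calc (1 : ℝ≥0∞) = (2⁻¹ : ℝ≥0∞) ^ T.card * ∑ τ ∈ T.powerset, 1 := by
        rw [Finset.sum_const, Finset.card_powerset, nsmul_eq_mul, mul_one]
        push_cast
        rw [← mul_pow, ENNReal.inv_mul_cancel (by norm_num) (by norm_num), one_pow]
    _ ≤ _ := mul_le_mul_right (Finset.sum_le_sum fun τ hτ => h τ (Finset.mem_powerset.1 hτ)) _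

/-- **the lower bound of a tile given good gates, almost surely** -/
theorem aepos_t (hε : 0 < ε) (hCR : MeasurableSet CR) (hCL : MeasurableSet CL)
    (hR : CR ⊆ P.D t) (hL : (nxt P.h t).e.symm ⁻¹' CL ⊆ P.D t) (hCLb : Bornology.IsBounded CL)
    (hd : Disjoint CR ((nxt P.h t).e.symm ⁻¹' CL))
    (lR : LocalOn (P.Q ∪ CR) RH) (lL : LocalOn (P.Q ∪ CL) LH) (fR : FinMeas RH) (fL : FinMeas LH)
    (hGd : ∀ X, P.Gd X → gd ε (ENNReal.ofReal a + ENNReal.ofReal a) CR CL RH LH X)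
    (hp : p ≤ 1) {Gm : Set Sample} {d : ℝ≥0∞} (hGm : sampleLaw Gmᶜ ≤ d)
    (hq : ∀ ω ∈ Gm, ∀ S : Cf, S.Finite → S ⊆ ovr (P.Q ∪ P.Qn t) → Sc S →
      GP (psn S ∪ (points ε ω ∩ P.D t)) → QTile P t RH LH a p S (fs (points ε ω ∩ P.D t))) :
    ∀ᵐ ω ∂sampleLaw, P.wA (cfg ε ω) ≠ 0 → tr (nxt P.h t).e P.wA (cfg ε ω) ≠ 0 →
      ENNReal.ofReal p * (ENNReal.ofReal a * ENNReal.ofReal a - d) ≤
        Rs ε (P.D t) (P.wE (t, true)) (cfg ε ω) := by
  set f := nxt P.h t with hf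
  set a' := ENNReal.ofReal a with ha'
  set CL' : Set ℂ := f.e.symm ⁻¹' CL with hCL'
  have hCL'm : MeasurableSet CL' := f.e.symm.measurable hCL
  have hCL'b : Bornology.IsBounded CL' := f.bdd' _ hCLb
  have hCRb : Bornology.IsBounded CR := (P.D_bdd t).subset hR
  have dD : Disjoint (P.Q ∪ P.Qn t) (P.D t) := P.D_disj t
  have dQ : Disjoint P.Q (P.D t) := Disjoint.mono_left subset_union_left dD
  have dQn : Disjoint (P.Qn t) (P.D t) := Disjoint.mono_left subset_union_right dD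
  have l1 : LocalOn (P.Q ∪ CR) fun X => ind (RH X) := ind_local lR
  have l2 : LocalOn (P.Qn t ∪ CL') (tr f.e fun X => ind (LH X)) :=
    tr_local f.e (ind_local lL)
  have m1 : FinMeas fun X => ind (RH X) := ind_fm fR
  have m2' : FinMeas fun X => ind (LH X) := ind_fm fL
  have m2 : FinMeas (tr f.e fun X => ind (LH X)) := tr_fm f.e m2'
  set A : Cf → Prop := fun S => (KG P S ∧ tr f.e (KG P) S) ∧
    a' + a' ≤ Rs ε CR (fun X => ind (RH X)) S ∧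
    a' + a' ≤ Rs ε CL' (tr f.e fun X => ind (LH X)) S with hA
  have lK : LocalOn (P.Qn t) (tr f.e (KG P)) := tr_local f.e KG_local
  have dQCR : Disjoint P.Q CR := Disjoint.mono_right hR dQ
  have dQCL : Disjoint (P.Qn t) CL' := Disjoint.mono_right hL dQn
  have hBm : MeasurableSet (P.Q ∪ P.Qn t) := P.Q_meas.union (P.Qn_meas t)
  have hBb : Bornology.IsBounded (P.Q ∪ P.Qn t) := P.Q_bdd.union (P.Qn_bdd t)
  have hZb : Bornology.IsBounded (P.Z t) := hBb.union (P.D_bdd t)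
  have key : ∀ᵐ ω ∂sampleLaw, A (cfg ε ω) →
      ENNReal.ofReal p * (a' * a' - d) ≤ Rs ε (P.D t) (P.wE (t, true)) (cfg ε ω) := by
    refine force_of (D := P.Z t) hε hBm hBb (P.Z_meas t) hZb (P.D_meas t) (P.D_bdd t) dD
      subset_rfl (P.wE_local (t, true)) (P.wE_fm (t, true)) ?_ ?_
    · intro S S' hSS h
      have e1 : S ∩ ovr P.Q = S' ∩ ovr P.Q := by
        have := congrArg (fun X => X ∩ ovr P.Q) hSS
        simp only [inter_assoc] at this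
        have e : ovr (P.Q ∪ P.Qn t) ∩ ovr P.Q = ovr P.Q := by
          ext q; simp only [ovr, mem_inter_iff, mem_ofPred_eq, mem_union]; tauto
        rwa [e] at this
      have e2 : S ∩ ovr (P.Qn t) = S' ∩ ovr (P.Qn t) := by
        have := congrArg (fun X => X ∩ ovr (P.Qn t)) hSS
        simp only [inter_assoc] at this
        have e : ovr (P.Q ∪ P.Qn t) ∩ ovr (P.Qn t) = ovr (P.Qn t) := by
          ext q; simp only [ovr, mem_inter_iff, mem_ofPred_eq, mem_union]; tauto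
        rwa [e] at this
      have e3 : KG P S = KG P S' := by
        rw [KG_local S, KG_local S']
        exact congrArg (KG P) e1
      have e4 : tr f.e (KG P) S = tr f.e (KG P) S' := by
        rw [lK S, lK S']
        exact congrArg (tr f.e (KG P)) e2
      exact ⟨⟨e3 ▸ h.1.1, e4 ▸ h.1.2⟩, (Rs_local' l1 e1 dQCR) ▸ h.2.1,
        (Rs_local' l2 e2 dQCL) ▸ h.2.2⟩
    · intro S hS hSB hSc hAS
      have hm : FinMeas fun X => P.wE (t, true) X + gpE (P.Z t) X := fun n =>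
        (P.wE_fm (t, true) n).add (gpE_fm (P.Z_meas t) n)
      refine tile' (B1 := P.Q) (B2 := P.Qn t) hε (P.D_meas t) (P.D_bdd t) hCR hCL'm hd hR hL dQ dQn
        l1 l2 hm m1 m2 (fun X => ind_le _) (fun X => ind_le _) hS hAS.2.1 hAS.2.2 hGm ?_
      intro ω hω h1 h2
      set A0 : Set ℂ := points ε ω ∩ P.D t with hA0
      set T : Finset ℂ := fs A0 with hT
      have hfin : A0.Finite := pts_fin hε (P.D_bdd t) ω
      have eS : S ∩ ovr (P.D t)ᶜ = S := by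
        rw [inter_eq_left]
        intro q hq hq'
        exact Set.disjoint_left.1 dD (hSB hq) hq'
      have e1 : qn (P.D t) (fun X => ind (RH X)) S A0 =
          ENNReal.ofReal (pr T fun τ => RH (S ∪ clr T τ)) := by
        have := qn_pr (C := P.D t) RH S A0
        rw [eS] at this
        exact this
      have e2 : qn (P.D t) (tr f.e fun X => ind (LH X)) S A0 =
          ENNReal.ofReal (pr T fun τ => tr f.e LH (S ∪ clr T τ)) := by
        have := qn_pr (C := P.D t) (tr f.e LH) S A0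
        rw [eS] at this
        exact this
      rw [e1] at h1
      rw [e2] at h2
      have h1' := (ENNReal.ofReal_le_ofReal_iff (Harx315.pr_nonneg)).1 h1
      have h2' := (ENNReal.ofReal_le_ofReal_iff (Harx315.pr_nonneg)).1 h2
      by_cases hgp : GP (psn S ∪ A0)
      · have h3 := hq ω hω S hS hSB hSc hgp hAS.1.1 hAS.1.2 h1' h2'
        have e3 : qn (P.D t) (P.wE (t, true)) S A0 =
            ENNReal.ofReal (pr T fun τ => P.TE (t, true) (S ∪ clr T τ)) := by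
          have := qn_pr (C := P.D t) (P.TE (t, true)) S A0
          rw [eS] at this
          exact this
        calc ENNReal.ofReal p ≤ qn (P.D t) (P.wE (t, true)) S A0 := by
              rw [e3]; exact ENNReal.ofReal_le_ofReal h3
          _ ≤ _ := qn_mono (fun X => le_self_add) S A0
      · refine (ENNReal.ofReal_le_one.2 hp).trans ?_
        unfold qn
        refine cavE_one fun τ _ => ?_
        rw [eS]
        have e4 : psn (S ∪ clr (fs A0) τ) ∩ P.Z t = psn S ∪ A0 := by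
          have e5 : psn (S ∪ clr (fs A0) τ) = psn S ∪ A0 := by
            unfold psn
            rw [image_union]
            have := psn_clr (fs A0) τ
            unfold psn at this
            rw [this, fs_fin hfin]
          rw [e5, inter_eq_left]
          rintro z (hz | hz)
          · obtain ⟨q, hq, rfl⟩ := hz
            exact Or.inl (hSB hq)
          · exact Or.inr hz.2
        have e6 : gpE (P.Z t) (S ∪ clr (fs A0) τ) = 1 := by
          unfold gpE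
          rw [e4, if_neg hgp]
        show 1 ≤ P.wE (t, true) (S ∪ clr (fs A0) τ) + gpE (P.Z t) (S ∪ clr (fs A0) τ)
        rw [e6]
        exact le_add_self
  filter_upwards [key] with ω hω h1 h2
  refine hω ⟨⟨(ind_ne.1 h1).1, (ind_ne.1 h2).1⟩, ?_, ?_⟩
  · have h3 : P.GA (cfg ε ω) := ind_ne.1 h1
    have h4 := hGd _ h3.2
    rw [gd_cut hε hCR hCRb hCL hCLb lR lL] at h4
    exact h4.1
  · have h3 : P.GA (mv f.e.symm (cfg ε ω)) := ind_ne.1 h2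
    have h4 := hGd _ h3.2
    rw [gd_cut hε hCR hCRb hCL hCLb lR lL] at h4
    have h5 := h4.2
    have h6 := Raw.Rs_tr_cfg (B := P.Q ∪ CL) hε f hCL hCLb (P.Q_bdd.union hCLb) m2' (ind_local lL) ω
    rw [hCL', h6]
    exact h5

/-- **978's `AePos`** -/
theorem aepos (hε : 0 < ε) (hCR : MeasurableSet CR) (hCL : MeasurableSet CL)
    (hR : ∀ t, CR ⊆ P.D t) (hL : ∀ t, (nxt P.h t).e.symm ⁻¹' CL ⊆ P.D t)
    (hCLb : Bornology.IsBounded CL) (hd : ∀ t, Disjoint CR ((nxt P.h t).e.symm ⁻¹' CL))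
    (lR : LocalOn (P.Q ∪ CR) RH) (lL : LocalOn (P.Q ∪ CL) LH) (fR : FinMeas RH) (fL : FinMeas LH)
    (hGd : ∀ X, P.Gd X → gd ε (ENNReal.ofReal a + ENNReal.ofReal a) CR CL RH LH X)
    (hp : p ≤ 1) {Gm : Set Sample} {d : ℝ≥0∞} (hGm : sampleLaw Gmᶜ ≤ d)
    (hq : ∀ t, ∀ ω ∈ Gm, ∀ S : Cf, S.Finite → S ⊆ ovr (P.Q ∪ P.Qn t) → Sc S →
      GP (psn S ∪ (points ε ω ∩ P.D t)) → QTile P t RH LH a p S (fs (points ε ω ∩ P.D t)))
    {c : ℝ≥0∞} (c0 : c ≠ 0) (c1 : c ≤ 1)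
    (hc : c ≤ ENNReal.ofReal p * (ENNReal.ofReal a * ENNReal.ofReal a - d)) :
    (P.raw ε hε c c0 c1).AePos := by
  rintro ⟨t, b⟩
  filter_upwards [aepos_t hε hCR hCL (hR t) (hL t) hCLb (hd t) lR lL fR fL hGd hp hGm (hq t)]
    with ω hω h1 h2
  exact (hc.trans (hω h1 h2)).trans (Rs_mono (fun X => wE_mono b X) _)

/-! ## the gate -/

/-- gate event and both extensions -/
def FG (P : DT) (RH LH : Cf → Prop) (X : Cf) : Prop := KG P X ∧ RH X ∧ LH X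

lemma FG_fm (fR : FinMeas RH) (fL : FinMeas LH) : FinMeas (FG P RH LH) :=
  fm_and KG_fm (fm_and fR fL)

lemma FG_local (lR : LocalOn (P.Q ∪ CR) RH) (lL : LocalOn (P.Q ∪ CL) LH) :
    LocalOn (P.Q ∪ (CR ∪ CL)) (FG P RH LH) := by
  have h1 : LocalOn (P.Q ∪ (CR ∪ CL)) (KG P) := LocalOn.mono subset_union_left KG_local
  have h2 : LocalOn (P.Q ∪ (CR ∪ CL)) RH :=
    LocalOn.mono (union_subset_union_right _ subset_union_left) lR
  have h3 : LocalOn (P.Q ∪ (CR ∪ CL)) LH :=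
    LocalOn.mono (union_subset_union_right _ subset_union_right) lL
  intro S
  unfold FG
  rw [← h1 S, ← h2 S, ← h3 S]

/-- **good gates have positive probability** (annealed form of the input) -/
theorem mass_of (hε : 0 < ε) (hCR : MeasurableSet CR) (hCRb : Bornology.IsBounded CR)
    (hCL : MeasurableSet CL) (hCLb : Bornology.IsBounded CL) (hd : Disjoint CR CL)
    (hdR : Disjoint P.Q CR) (hdL : Disjoint P.Q CL)
    (lR : LocalOn (P.Q ∪ CR) RH) (lL : LocalOn (P.Q ∪ CL) LH) (fR : FinMeas RH) (fL : FinMeas LH)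
    {a b : ℝ≥0∞} (ha : a ≠ 0) (hGd : ∀ X, gd ε a CR CL RH LH X → P.Gd X)
    (h : a + b ≤ ∫⁻ ω, ind (FG P RH LH (cfg ε ω)) ∂sampleLaw) :
    b ≤ sampleLaw {ω | P.wA (cfg ε ω) ≠ 0} := by
  set F : Cf → ℝ≥0∞ := fun X => ind (FG P RH LH X) with hF
  have hFm : FinMeas F := ind_fm (FG_fm fR fL)
  have hFl : LocalOn (P.Q ∪ (CR ∪ CL)) F := ind_local (FG_local lR lL)
  have hCm : MeasurableSet (CR ∪ CL) := hCR.union hCL
  have hCb : Bornology.IsBounded (CR ∪ CL) := hCRb.union hCLb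
  have hdB : Disjoint P.Q (CR ∪ CL) := disjoint_union_right.2 ⟨hdR, hdL⟩
  refine (markov hε (P.Q_meas.union hCm) (P.Q_bdd.union hCb) hCm hCb hFl hFm (fun X => ind_le _)
    h).trans (measure_mono fun ω hω => ?_)
  have hω' : a ≤ Rs ε (CR ∪ CL) F (cfg ε ω) := hω
  set S0 : Cf := cfg ε ω ∩ ovr P.Q with hS0
  have hfin : S0.Finite := cfg_finite hε P.Q_bdd ω
  have l0 : LocalOn P.Q (Rs ε (CR ∪ CL) F) := by
    refine LocalOn.mono ?_ (Rs_local hε hCm hCb hFl)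
    rintro z ⟨hz | hz, hz'⟩
    · exact hz
    · exact absurd hz hz'
  have e0 : Rs ε (CR ∪ CL) F (cfg ε ω) = Rs ε (CR ∪ CL) F S0 := l0 _
  rw [e0] at hω'
  have hFR : ∀ X, F X ≤ ind (RH X) := by
    intro X
    simp only [hF]
    unfold ind
    by_cases h1 : FG P RH LH X
    · rw [if_pos h1, if_pos h1.2.1]
    · rw [if_neg h1]; exact zero_le
  have hFL : ∀ X, F X ≤ ind (LH X) := by
    intro X
    simp only [hF]
    unfold ind
    by_cases h1 : FG P RH LH X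
    · rw [if_pos h1, if_pos h1.2.2]
    · rw [if_neg h1]; exact zero_le
  have g1 : gd ε a CR CL RH LH S0 := by
    constructor
    · rw [← Rs_drop hε hCRb hCL hCLb hd (ind_local lR) (disjoint_union_left.2 ⟨hdL, hd⟩)
        (ind_fm fR) hfin]
      exact hω'.trans (Rs_mono hFR _)
    · rw [← Rs_drop hε hCLb hCR hCRb hd.symm (ind_local lL) (disjoint_union_left.2 ⟨hdR, hd.symm⟩)
        (ind_fm fL) hfin, union_comm]
      exact hω'.trans (Rs_mono hFL _)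
  have g2 : KG P (cfg ε ω) := by
    by_contra hK
    have h2 : Rs ε (CR ∪ CL) F S0 = 0 := by
      have := finite_mu' hε hCb
      unfold Rs
      have h3 : J (mu ε (CR ∪ CL)) (fun T => F ((S0 ∩ ovr (CR ∪ CL)ᶜ) ∪ T)) =
          J (mu ε (CR ∪ CL)) fun _ => 0 := by
        refine J_congr_ovr hε hCm hCb fun T hT => ?_
        simp only [hF]
        unfold ind
        rw [if_neg]
        intro h4
        apply hK
        have h5 : KG P ((S0 ∩ ovr (CR ∪ CL)ᶜ) ∪ T) = KG P (cfg ε ω) := by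
          refine local_eq' KG_local ?_
          ext q
          have h6 : q.1 ∈ P.Q → q.1 ∉ CR ∪ CL := fun h h' => Set.disjoint_left.1 hdB h h'
          have h7 : q ∈ T → q.1 ∈ CR ∪ CL := fun h => hT h
          simp only [hS0, ovr, mem_inter_iff, mem_union, mem_ofPred_eq, mem_compl_iff] at h6 h7 ⊢
          tauto
        rw [← h5]
        exact h4.1
      rw [h3, J_const]
    rw [h2] at hω'
    exact ha (le_antisymm hω' zero_le)
  show P.wA (cfg ε ω) ≠ 0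
  unfold DT.wA
  rw [ind_ne]
  exact ⟨g2, hGd _ g1⟩

/-- **annealed from quenched**: `V ω` = any finite set of points containing the points near the gate -/
theorem lint_FG (hε : 0 < ε) (hCR : MeasurableSet CR) (hCRb : Bornology.IsBounded CR)
    (hCL : MeasurableSet CL) (hCLb : Bornology.IsBounded CL)
    (lR : LocalOn (P.Q ∪ CR) RH) (lL : LocalOn (P.Q ∪ CL) LH) (fR : FinMeas RH) (fL : FinMeas LH)
    {V : Sample → Finset ℂ} (hV : ∀ᵐ ω ∂sampleLaw, (V ω : Set ℂ) ⊆ points ε ω ∧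
      points ε ω ∩ (P.Q ∪ (CR ∪ CL)) ⊆ V ω) {c : ℝ} {Gm : Set Sample} {d : ℝ≥0∞}
    (hGm : sampleLaw Gmᶜ ≤ d)
    (hq : ∀ ω ∈ Gm, c ≤ pr (V ω) fun β => FG P RH LH (clr (V ω) β)) :
    ENNReal.ofReal c * (1 - d) ≤ ∫⁻ ω, ind (FG P RH LH (cfg ε ω)) ∂sampleLaw := by
  have h1 := lint_ge (F := fun X => ind (FG P RH LH X)) (p := ENNReal.ofReal c) (Gd := Gm) hε
    (P.Q_meas.union (hCR.union hCL)) (P.Q_bdd.union (hCRb.union hCLb))
    (ind_local (FG_local lR lL)) (ind_fm (FG_fm fR fL)) hV ?_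
  · refine (mul_le_mul_right ?_ _).trans h1
    rw [tsub_le_iff_right]
    calc (1 : ℝ≥0∞) = sampleLaw univ := measure_univ.symm
      _ ≤ sampleLaw (Gm ∪ Gmᶜ) := by rw [union_compl_self]
      _ ≤ sampleLaw Gm + sampleLaw Gmᶜ := measure_union_le _ _
      _ ≤ sampleLaw Gm + d := add_le_add_right hGm _
  · intro ω hω
    have h2 := cavE_pr (FG P RH LH) (V ω)
    have h3 : cavE (fun X => ind (FG P RH LH X)) (V ω) =
        ENNReal.ofReal (pr (V ω) fun β => FG P RH LH (clr (V ω) β)) := h2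
    rw [h3]
    exact ENNReal.ofReal_le_ofReal (hq ω hω)

/-- **`P(A) ≥ b`** from the quenched gate probability -/
theorem mass (hε : 0 < ε) (hCR : MeasurableSet CR) (hCRb : Bornology.IsBounded CR)
    (hCL : MeasurableSet CL) (hCLb : Bornology.IsBounded CL) (hd : Disjoint CR CL)
    (hdR : Disjoint P.Q CR) (hdL : Disjoint P.Q CL)
    (lR : LocalOn (P.Q ∪ CR) RH) (lL : LocalOn (P.Q ∪ CL) LH) (fR : FinMeas RH) (fL : FinMeas LH)
    {a b : ℝ≥0∞} (ha : a ≠ 0) (hGd : ∀ X, gd ε a CR CL RH LH X → P.Gd X)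
    {V : Sample → Finset ℂ} (hV : ∀ᵐ ω ∂sampleLaw, (V ω : Set ℂ) ⊆ points ε ω ∧
      points ε ω ∩ (P.Q ∪ (CR ∪ CL)) ⊆ V ω) {c : ℝ} {Gm : Set Sample} {d : ℝ≥0∞}
    (hGm : sampleLaw Gmᶜ ≤ d)
    (hq : ∀ ω ∈ Gm, c ≤ pr (V ω) fun β => FG P RH LH (clr (V ω) β))
    (hab : a + b ≤ ENNReal.ofReal c * (1 - d)) :
    b ≤ sampleLaw {ω | P.wA (cfg ε ω) ≠ 0} :=
  mass_of hε hCR hCRb hCL hCLb hd hdR hdL lR lL fR fL ha hGd
    (hab.trans (lint_FG hε hCR hCRb hCL hCLb lR lL fR fL hV hGm hq))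

end Crest.Agent.R143.Posx653
end
end

-- ▼ part R143/RH_73
section

/-!
# Row 143, CORE-C, box R1d: half events of a gate in link form (helper73)

* `Hf S z0 e l0 l1 p0 p1 m K P A` : a vertical chain of sites of `A` in the landing zone, all its sites
  linked in `A ∩ K` to the gate sites `P`; `Hf.mo`, `Hf.su` (support), `Hf.tr` (other triangulation)
* `Dg F r S` : grid density; `Dg.hol`
* `HX` : half event of a configuration (black and white), `HX_fme`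
* `hx` : the half event of the cut configuration, as a functional; `hx_local`, `hx_fm`, `hx_le`
* `sX_clr`, `bX_clr`, `wX_clr`, `LG_clr`, `HX_clr` : the configuration `clr V β` of the sites `V`
* `Hf.up` : from the cut configuration to a larger one
* `gd_of_hx` : **quenched half event `≥ a` gives `Gd` of `Theta_73`** for the events
  `Hf M .. Kb ..`, `Hf M .. Kw ..` of the larger triangulation `M`
* `qn_hx` : the quenched mean of `hx` as `pr`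
-/

set_option autoImplicit false

noncomputable section

open scoped Classical

namespace Crest.Agent.R143.RHx73

open Set MeasureTheory
open Crest.Agent.R143.B0x346 Crest.Agent.R143.DelGx806 Crest.Agent.R143.DelRx806
open Crest.Agent.R143.ToolWx838 Crest.Agent.R143.Blkx838
open Crest.Agent.R143.Gatex838 Crest.Agent.R143.Harx315
open Crest.Agent.R143.Neckx921 (Neck NeckD Tile Lk)
open Crest.Agent.R143.Thetax73 (Mo Su)
open Crest.Agent.R143.WLocx713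
open Crest.Agent.R143.Locx922
open Crest.Agent.R143.PP0x831 Crest.Agent.R143.Poisx304 Crest.Agent.R143.Janx304
open Crest.Agent.R143.Prodx609 Crest.Agent.R143.FinMx609 Crest.Agent.R143.FinM2x609
open Crest.Agent.R143.IndLocx279 Crest.Agent.R143.IndLoc3x279
open Crest.Agent.R143.PWx978 (Cf fm_inter localOn_of)
open Crest.Agent.R143.Fairx653
open scoped ENNReal

variable {S S' A : Finset ℂ} {z0 e : ℂ} {l0 l1 p0 p1 m : ℝ} {K P : Set ℂ}

/-! ## one colour -/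

/-- one colour of the half event: `P` = the gate sites of this colour -/
def Hf (S : Finset ℂ) (z0 e : ℂ) (l0 l1 p0 p1 m : ℝ) (K P : Set ℂ) (A : Finset ℂ) : Prop :=
  ∃ l, VC S z0 e l0 l1 p0 p1 m A l ∧ ∀ y ∈ P, ∀ s ∈ l, Lk S {v | v ∈ A ∧ v ∈ K} y s

theorem Hf.mo : Mo (Hf S z0 e l0 l1 p0 p1 m K P) := by
  rintro A A' hA ⟨l, h1, h2⟩
  exact ⟨l, h1.mono hA, fun y hy s hs => (h2 y hy s hs).mono fun v hv => ⟨hA hv.1, hv.2⟩⟩

/-- support: the sites of the region `K` and of the landing zone -/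
theorem Hf.su {U W : Finset ℂ} (hK : ∀ s ∈ U, s ∈ K → s ∈ W)
    (hZ : ∀ s ∈ U, l0 < X z0 e s → X z0 e s < l1 → p0 - m ≤ Y z0 e s → Y z0 e s ≤ p1 + m → s ∈ W) :
    Su U W (Hf S z0 e l0 l1 p0 p1 m K P) := by
  rintro A hA ⟨l, h1, h2⟩
  refine ⟨l, TileGx73.VC.inter h1 fun s hs => hZ s (hA hs), fun y hy s hs => ?_⟩
  exact (h2 y hy s hs).mono fun v hv => ⟨Finset.mem_inter.2 ⟨hv.1, hK v (hA hv.1) hv.2⟩, hv.2⟩

theorem lk_tr {B : Set ℂ} (h : ∀ u v, u ∈ B → v ∈ B → DE S u v → DE S' u v) {u v : ℂ}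
    (hl : Lk S B u v) : Lk S' B u v := by
  obtain ⟨h1, h2⟩ := hl
  exact ⟨h1, Relation.ReflTransGen.mono (fun a b h3 => ⟨h a b h3.2.1 h3.2.2 h3.1, h3.2⟩) _ _ h2⟩

/-- another triangulation which has the same edges inside `K` and the landing zone -/
theorem Hf.tr (h : ∀ u v, u ∈ A → v ∈ A → u ∈ K → v ∈ K → DE S u v → DE S' u v)
    (hZ : ∀ s ∈ A, l0 < X z0 e s → X z0 e s < l1 → p0 - m ≤ Y z0 e s → Y z0 e s ≤ p1 + m → s ∈ K)
    (hf : Hf S z0 e l0 l1 p0 p1 m K P A) : Hf S' z0 e l0 l1 p0 p1 m K P A := by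
  obtain ⟨l, h1, h2⟩ := hf
  have hl : ∀ s ∈ l, s ∈ K := fun s hs => hZ s (h1.col s hs) (h1.strip s hs).1 (h1.strip s hs).2
    (h1.loc s hs).1 (h1.loc s hs).2
  refine ⟨l, ⟨h1.ne, fun p hp => ?_, h1.col, h1.strip, h1.loc, h1.left, h1.right⟩,
    fun y hy s hs => lk_tr (fun u v hu hv h3 => h u v hu.1 hv.1 hu.2 hv.2 h3) (h2 y hy s hs)⟩
  obtain ⟨m1, m2⟩ := prs_mem hp
  exact h _ _ (h1.col _ m1) (h1.col _ m2) (hl _ m1) (hl _ m2) (h1.adj p hp)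


/-! ## density -/

/-- grid density -/
def Dg (F : Finset ℂ) (r : ℝ) (S : Set ℂ) : Prop := ∀ z ∈ F, ∃ s ∈ S, ‖s - z‖ < r

theorem Dg.mono {F : Finset ℂ} {r : ℝ} {S S' : Set ℂ} (h : Dg F r S) (hS : S ⊆ S') : Dg F r S' :=
  fun z hz => by obtain ⟨s, hs, h1⟩ := h z hz; exact ⟨s, hS hs, h1⟩

/-- grid density gives density: `F` is an `r`-net of the `d`-neighbourhood of `W`, `2 r ≤ d` -/
theorem Dg.hol {F : Finset ℂ} {r d : ℝ} {S W : Set ℂ} (h : Dg F r S)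
    (hF : ∀ w ∈ W, ∀ z, ‖z - w‖ ≤ d → ∃ f ∈ F, ‖f - z‖ ≤ d - r) : Hol S W d := by
  intro w hw z hz
  obtain ⟨f, hf, h1⟩ := hF w hw z hz
  obtain ⟨s, hs, h2⟩ := h f hf
  refine ⟨s, hs, ?_⟩
  have h3 : ‖s - z‖ ≤ ‖s - f‖ + ‖f - z‖ := by
    have := norm_add_le (s - f) (f - z)
    rwa [sub_add_sub_cancel] at this
  linarith

theorem dg_fme (F : Finset ℂ) (r : ℝ) : FMe fun X : Set (ℂ × Bool) => Dg F r (ps X) := by
  intro n
  have h : ∀ z ∈ F, MeasurableSet {w : Fin n → ℂ × Bool | ∃ s ∈ ps (range w), ‖s - z‖ < r} := by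
    intro z _
    have e : {w : Fin n → ℂ × Bool | ∃ s ∈ ps (range w), ‖s - z‖ < r} =
        ⋃ i : Fin n, {w : Fin n → ℂ × Bool | ‖(w i).1 - z‖ < r} := by
      ext w
      simp only [mem_ofPred_eq, mem_iUnion]
      constructor
      · rintro ⟨s, ⟨_, ⟨i, rfl⟩, rfl⟩, hs⟩
        exact ⟨i, hs⟩
      · rintro ⟨i, hi⟩
        exact ⟨_, ⟨w i, ⟨i, rfl⟩, rfl⟩, hi⟩
    rw [e]
    refine MeasurableSet.iUnion fun i => ?_
    have hm : Measurable fun w : Fin n → ℂ × Bool => ‖(w i).1 - z‖ :=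
      ((meas_pos n i).sub measurable_const).norm
    exact measurableSet_lt hm measurable_const
  have h2 : MeasurableSet {w : Fin n → ℂ × Bool | Dg F r (ps (range w))} := by
    have e : {w : Fin n → ℂ × Bool | Dg F r (ps (range w))} =
        ⋂ z ∈ F, {w : Fin n → ℂ × Bool | ∃ s ∈ ps (range w), ‖s - z‖ < r} := by
      ext w
      simp only [Dg, mem_ofPred_eq, mem_iInter]
    rw [e]
    exact Finset.measurableSet_biInter F h
  exact measurable_to_prop (by simpa [preimage] using h2)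

/-! ## the half event of a configuration -/

/-- numbers of a landing zone: black chain over `(p0, p1)`, white chain over `(q0, q1)` -/
structure LZ where
  l0 : ℝ
  l1 : ℝ
  p0 : ℝ
  p1 : ℝ
  q0 : ℝ
  q1 : ℝ
  m : ℝ

/-- the Borel sets of a vertical crossing -/
def UV (z0 e : ℂ) (l0 l1 p0 p1 m : ℝ) : Fin 3 → Set ℂ :=
  ![{s | (l0 < X z0 e s ∧ X z0 e s < l1) ∧ p0 - m ≤ Y z0 e s ∧ Y z0 e s ≤ p1 + m},
    {s | Y z0 e s ≤ p0}, {s | p1 ≤ Y z0 e s}]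

theorem UV_meas (i : Fin 3) : MeasurableSet (UV z0 e l0 l1 p0 p1 m i) := by
  have hX := meas_X (z0 := z0) (e := e)
  have hY := meas_Y (z0 := z0) (e := e)
  fin_cases i
  · exact ((measurableSet_lt measurable_const hX).inter (measurableSet_lt hX measurable_const)).inter
      ((measurableSet_le measurable_const hY).inter (measurableSet_le hY measurable_const))
  · exact measurableSet_le hY measurable_const
  · exact measurableSet_le measurable_const hY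

/-- white sites of a configuration -/
def wX (X : Set (ℂ × Bool)) : Finset ℂ := sX X \ bX X

/-- **half event of a configuration** -/
def HX (g : GPar) (Z : LZ) (Q Kb Kw : Set ℂ) (F : Finset ℂ) (r : ℝ) (X : Set (ℂ × Bool)) : Prop :=
  (X.Finite ∧ Dg F r (ps X)) ∧
    Hf (sX X) g.z0 g.e Z.l0 Z.l1 Z.p0 Z.p1 Z.m Kb {y | ∃ p, LG g Q X p ∧ p.1 = y} (bX X) ∧
    Hf (sX X) g.z0 g.e Z.l0 Z.l1 Z.q0 Z.q1 Z.m Kw {x | ∃ p, LG g Q X p ∧ p.2 = x} (wX X)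

section transport

variable {ι κ : Type*} [Finite ι] [Finite κ] {U : ι → Set ℂ} {R : κ → ℂ × ℂ × ℂ → Prop}
  {X X' : Set (ℂ × Bool)} {f : ℂ → ℂ}

theorem iso_vc (hX : X.Finite) (hX' : X'.Finite) (he : PIso U R X X' f)
    (hU : ∀ i, ∃ a, U a = UV z0 e l0 l1 p0 p1 m i) {A A' : Finset ℂ} (hA : ∀ s ∈ A, s ∈ ps X)
    (hAA : ∀ s ∈ ps X, s ∈ A → f s ∈ A') {l : List ℂ} (h : VC (sX X) z0 e l0 l1 p0 p1 m A l) :
    VC (sX X') z0 e l0 l1 p0 p1 m A' (l.map f) := by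
  have h1 : ∀ s ∈ l, s ∈ ps X := fun s hs => hA s (h.col s hs)
  have loc : ∀ i, ∀ s ∈ l, s ∈ UV z0 e l0 l1 p0 p1 m i ↔ f s ∈ UV z0 e l0 l1 p0 p1 m i := by
    intro i s hs
    obtain ⟨a, ha⟩ := hU i
    rw [← ha]
    exact he.loc s (h1 s hs) a
  have hne : l.map f ≠ [] := by simpa using h.ne
  have w : ∀ s' ∈ l.map f, s' ∈ UV z0 e l0 l1 p0 p1 m 0 := by
    intro s' hs'
    obtain ⟨s, hs, rfl⟩ := List.mem_map.1 hs'
    exact (loc 0 s hs).1 (And.intro (h.strip s hs) (h.loc s hs))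
  refine ⟨hne, iso_adj hX hX' he h.adj, ?_, fun s hs => (w s hs).1, fun s hs => (w s hs).2, ?_, ?_⟩
  · intro s' hs'
    obtain ⟨s, hs, rfl⟩ := List.mem_map.1 hs'
    exact hAA s (h1 s hs) (h.col s hs)
  · rw [List.head_map]
    exact (loc 1 _ (List.head_mem h.ne)).1 h.left
  · rw [List.getLast_map]
    exact (loc 2 _ (List.getLast_mem h.ne)).1 h.right

theorem iso_lkA (hX : X.Finite) (hX' : X'.Finite) (he : PIso U R X X' f) {B B' : Set ℂ}
    (hB : ∀ s ∈ B, s ∈ ps X) (hBB : ∀ s ∈ ps X, s ∈ B → f s ∈ B') {u v : ℂ}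
    (h : Lk (sX X) B u v) : Lk (sX X') B' (f u) (f v) :=
  iso_lk hX hX' he hBB (hB u h.1.1) (hB v h.1.2) h

theorem iso_hf (hX : X.Finite) (hX' : X'.Finite) (he : PIso U R X X' f)
    (hU : ∀ i, ∃ a, U a = UV z0 e l0 l1 p0 p1 m i) (hK : ∃ a, U a = K) {A A' : Finset ℂ}
    (hA : ∀ s ∈ A, s ∈ ps X) (hAA : ∀ s ∈ ps X, s ∈ A → f s ∈ A') {P P' : Set ℂ}
    (hP : ∀ y' ∈ P', ∃ y ∈ P, y ∈ ps X ∧ f y = y') (h : Hf (sX X) z0 e l0 l1 p0 p1 m K P A) :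
    Hf (sX X') z0 e l0 l1 p0 p1 m K P' A' := by
  obtain ⟨l, h1, h2⟩ := h
  obtain ⟨a, rfl⟩ := hK
  refine ⟨l.map f, iso_vc hX hX' he hU hA hAA h1, ?_⟩
  intro y' hy' s' hs'
  obtain ⟨y, hy, hy1, rfl⟩ := hP y' hy'
  obtain ⟨s, hs, rfl⟩ := List.mem_map.1 hs'
  exact iso_lkA hX hX' he (B := {v | v ∈ A ∧ v ∈ U a}) (B' := {v | v ∈ A' ∧ v ∈ U a}) (fun s hs => hA s hs.1)
    (fun s hs h3 => ⟨hAA s hs h3.1, (he.loc s hs a).1 h3.2⟩) (h2 y hy s hs)

end transport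

/-- the Borel sets of a half event -/
def UH (g : GPar) (Z : LZ) (Q Kb Kw : Set ℂ) : Fin 5 ⊕ Fin 3 ⊕ Fin 3 ⊕ Fin 3 → Set ℂ :=
  Sum.elim g.U (Sum.elim (UV g.z0 g.e Z.l0 Z.l1 Z.p0 Z.p1 Z.m)
    (Sum.elim (UV g.z0 g.e Z.l0 Z.l1 Z.q0 Z.q1 Z.m) ![Q, Kb, Kw]))

theorem UH_meas {g : GPar} {Z : LZ} {Q Kb Kw : Set ℂ} (hQ : MeasurableSet Q)
    (hb : MeasurableSet Kb) (hw : MeasurableSet Kw) : ∀ i, MeasurableSet (UH g Z Q Kb Kw i) := by
  rintro (i | i | i | i)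
  · exact UN_meas i
  · exact UV_meas i
  · exact UV_meas i
  · fin_cases i
    · exact hQ
    · exact hb
    · exact hw

/-- **measurability of the half event** -/
theorem HX_fme (g : GPar) (Z : LZ) {Q Kb Kw : Set ℂ} (hQ : MeasurableSet Q)
    (hb : MeasurableSet Kb) (hw : MeasurableSet Kw) (F : Finset ℂ) (r : ℝ) :
    FMe (HX g Z Q Kb Kw F r) := by
  set U := UC (UH g Z Q Kb Kw) with hUdef
  set R : Unit → ℂ × ℂ × ℂ → Prop := fun _ => RG g with hR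
  have hUm : ∀ a, MeasurableSet (U a) := fun a => UC_meas (UH_meas hQ hb hw) a
  have hRm : ∀ a, MeasurableSet {t | R a t} := fun _ => RG_meas g
  have us : ∀ b, U {b} = UH g Z Q Kb Kw b := fun b => UC_single _ b
  have hG : GInv U R (LG g Q) := LG_ginv (UC_cl _)
    (fun i => ⟨{Sum.inl i}, us _⟩)
    ⟨{Sum.inr (Sum.inr (Sum.inr 0))}, us _⟩ ⟨(), rfl⟩
  have h2 : FMe fun X : Set (ℂ × Bool) =>
      Hf (sX X) g.z0 g.e Z.l0 Z.l1 Z.p0 Z.p1 Z.m Kb {y | ∃ p, LG g Q X p ∧ p.1 = y} (bX X) ∧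
      Hf (sX X) g.z0 g.e Z.l0 Z.l1 Z.q0 Z.q1 Z.m Kw {x | ∃ p, LG g Q X p ∧ p.2 = x} (wX X) := by
    refine finMeas_iso hUm hRm (P := fun X : Set (ℂ × Bool) =>
      Hf (sX X) g.z0 g.e Z.l0 Z.l1 Z.p0 Z.p1 Z.m Kb {y | ∃ p, LG g Q X p ∧ p.1 = y} (bX X) ∧
      Hf (sX X) g.z0 g.e Z.l0 Z.l1 Z.q0 Z.q1 Z.m Kw {x | ∃ p, LG g Q X p ∧ p.2 = x} (wX X)) ?_
    rintro X X' hX hX' f he ⟨h3, h4⟩
    constructor
    · refine iso_hf hX hX' he (fun i => ⟨{Sum.inr (Sum.inl i)}, us _⟩)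
        ⟨{Sum.inr (Sum.inr (Sum.inr 1))}, us _⟩
        (fun s hs => ((mem_bX hX).1 hs).1) (fun s hs h5 => (iso_bX hX hX' he hs).1 h5) ?_ h3
      rintro y' ⟨p, hp, rfl⟩
      obtain ⟨m1, m2⟩ := hG.mem X' p hp
      obtain ⟨u, hu, hu'⟩ := he.bij.surjOn m1
      obtain ⟨v, hv, hv'⟩ := he.bij.surjOn m2
      refine ⟨u, ⟨(u, v), (hG.iff hX hX' he (p := (u, v)) hu hv).2 ?_, rfl⟩, hu, hu'⟩
      have e1 : mp f (u, v) = p := Prod.ext hu' hv'
      rw [e1]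
      exact hp
    · refine iso_hf hX hX' he
        (fun i => ⟨{Sum.inr (Sum.inr (Sum.inl i))}, us _⟩)
        ⟨{Sum.inr (Sum.inr (Sum.inr 2))}, us _⟩
        (fun s hs => (mem_sX hX).1 (Finset.mem_sdiff.1 hs).1) (fun s hs h5 => ?_) ?_ h4
      · change s ∈ sX X \ bX X at h5
        show f s ∈ sX X' \ bX X'
        rw [Finset.mem_sdiff] at h5 ⊢
        rw [← iso_sX hX hX' he hs, ← iso_bX hX hX' he hs]
        exact h5
      rintro x' ⟨p, hp, rfl⟩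
      obtain ⟨m1, m2⟩ := hG.mem X' p hp
      obtain ⟨u, hu, hu'⟩ := he.bij.surjOn m1
      obtain ⟨v, hv, hv'⟩ := he.bij.surjOn m2
      refine ⟨v, ⟨(u, v), (hG.iff hX hX' he (p := (u, v)) hu hv).2 ?_, rfl⟩, hv, hv'⟩
      have e1 : mp f (u, v) = p := Prod.ext hu' hv'
      rw [e1]
      exact hp
  intro n
  have h3 : Measurable fun w : Fin n → ℂ × Bool => Dg F r (ps (range w)) := dg_fme F r n
  have h4 := h2 n
  have e : (fun w : Fin n → ℂ × Bool => HX g Z Q Kb Kw F r (range w)) = fun w =>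
      Dg F r (ps (range w)) ∧ (Hf (sX (range w)) g.z0 g.e Z.l0 Z.l1 Z.p0 Z.p1 Z.m Kb
        {y | ∃ p, LG g Q (range w) p ∧ p.1 = y} (bX (range w)) ∧
      Hf (sX (range w)) g.z0 g.e Z.l0 Z.l1 Z.q0 Z.q1 Z.m Kw
        {x | ∃ p, LG g Q (range w) p ∧ p.2 = x} (wX (range w))) := by
    funext w
    unfold HX
    simp only [finite_range, true_and]
  rw [e]
  exact h3.and h4

/-- the half event of the configuration in `D`, as a functional -/
def hx (g : GPar) (Z : LZ) (Q Kb Kw : Set ℂ) (F : Finset ℂ) (r : ℝ) (D : Set ℂ) (X : Cf) : ℝ≥0∞ :=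
  if HX g Z Q Kb Kw F r (X ∩ ovr D) then 1 else 0




/-! ## configurations given by sites and black sites -/

theorem ps_clr (V β : Finset ℂ) : ps (clr V β) = V := psn_clr V β

theorem sX_clr (V β : Finset ℂ) : sX (clr V β) = V := by
  rw [← Finset.coe_inj, coe_sX (clr_finite V β), ps_clr]

theorem bX_clr {V β : Finset ℂ} (h : β ⊆ V) : bX (clr V β) = β := by
  ext v
  rw [mem_bX (clr_finite V β), ps_clr, cX]
  constructor
  · rintro ⟨h1, h2⟩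
    by_contra h3
    rw [if_neg (fun h4 => h3 (h4.2.1 rfl))] at h2
    exact absurd h2 (by decide)
  · intro h1
    refine ⟨h h1, if_pos ⟨h h1, by simp [h1]⟩⟩

theorem wX_clr {V β : Finset ℂ} (h : β ⊆ V) : wX (clr V β) = V \ β := by
  rw [wX, sX_clr, bX_clr h]

/-- the gate darts only depend on the configuration in the box -/
theorem LG_clr {g : GPar} {Q : Set ℂ} {G T q τ : Finset ℂ} (_hG : ∀ s ∈ G, s ∈ Q)
    (hT : ∀ s ∈ T, s ∉ Q) (_hq : q ⊆ G) (hτ : τ ⊆ T) (p : ℂ × ℂ) :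
    LG g Q (clr (G ∪ T) (q ∪ τ)) p ↔ LG g Q (clr G q) p := by
  have e : clr (G ∪ T) (q ∪ τ) ∩ ovr Q = clr G q ∩ ovr Q := by
    ext ⟨v, c⟩
    constructor
    · rintro ⟨⟨h1, h2⟩, h3⟩
      have hv : v ∈ G := by
        rcases Finset.mem_union.1 h1 with h4 | h4
        · exact h4
        · exact absurd h3 (hT v h4)
      refine ⟨⟨hv, h2.trans ?_⟩, h3⟩
      rw [Finset.mem_union]
      exact ⟨fun h => h.resolve_right fun h5 => hT v (hτ h5) h3, Or.inl⟩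
    · rintro ⟨⟨h1, h2⟩, h3⟩
      refine ⟨⟨Finset.mem_union_left _ h1, h2.trans ?_⟩, h3⟩
      rw [Finset.mem_union]
      exact ⟨Or.inl, fun h => h.resolve_right fun h5 => hT v (hτ h5) h3⟩
  unfold LG
  rw [e]

/-- black gate sites -/
def Pb (g : GPar) (Q : Set ℂ) (X : Cf) : Set ℂ := {y | ∃ p, LG g Q X p ∧ p.1 = y}

/-- white gate sites -/
def Pw (g : GPar) (Q : Set ℂ) (X : Cf) : Set ℂ := {x | ∃ p, LG g Q X p ∧ p.2 = x}

theorem HX_clr {g : GPar} {Z : LZ} {Q Kb Kw : Set ℂ} {F : Finset ℂ} {r : ℝ} {G T q τ : Finset ℂ}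
    (hG : ∀ s ∈ G, s ∈ Q) (hT : ∀ s ∈ T, s ∉ Q) (hq : q ⊆ G) (hτ : τ ⊆ T) :
    HX g Z Q Kb Kw F r (clr (G ∪ T) (q ∪ τ)) ↔ Dg F r (G ∪ T : Finset ℂ) ∧
      Hf (G ∪ T) g.z0 g.e Z.l0 Z.l1 Z.p0 Z.p1 Z.m Kb (Pb g Q (clr G q)) (q ∪ τ) ∧
      Hf (G ∪ T) g.z0 g.e Z.l0 Z.l1 Z.q0 Z.q1 Z.m Kw (Pw g Q (clr G q)) ((G ∪ T) \ (q ∪ τ)) := by
  unfold HX Pb Pw
  rw [ps_clr, sX_clr, bX_clr (Finset.union_subset_union hq hτ),
    wX_clr (Finset.union_subset_union hq hτ)]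
  simp only [LG_clr hG hT hq hτ, clr_finite, true_and]

/-- **from the cut configuration to a larger one** -/
theorem Hf.up {V M A' : Finset ℂ} {d : ℝ} (hd : 0 < d) (hH : Hol (V : Set ℂ) K d)
    (hA : Agr (V : Set ℂ) (M : Set ℂ) K (2 * d)) (hAA : A ⊆ A')
    (hZ : ∀ s ∈ A, l0 < X z0 e s → X z0 e s < l1 → p0 - m ≤ Y z0 e s → Y z0 e s ≤ p1 + m → s ∈ K)
    (hf : Hf V z0 e l0 l1 p0 p1 m K P A) : Hf M z0 e l0 l1 p0 p1 m K P A' :=
  Hf.mo _ _ hAA (Hf.tr (fun _ _ _ _ hu _ h => (de_loc hd hH hA hu).1 h) hZ hf)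

/-- the landing zone (black) -/
def Zn (z0 e : ℂ) (l0 l1 p0 p1 m : ℝ) : Set ℂ :=
  {s | (l0 < X z0 e s ∧ X z0 e s < l1) ∧ p0 - m ≤ Y z0 e s ∧ Y z0 e s ≤ p1 + m}

open Crest.Agent.R143.Thetax73 (Gd)

/-- **the quenched half event gives `Gd` of `Theta_73`**: `G`, `q` = sites and black sites of the gate
box, `T` = sites of the tube, `T1 ⊆ T` those of the landing box, `M` = all sites -/
theorem gd_of_hx {g : GPar} {Z : LZ} {Q Kb Kw : Set ℂ} {F : Finset ℂ} {r a d : ℝ}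
    {G T T1 q M : Finset ℂ} (hG : ∀ s ∈ G, s ∈ Q) (hT : ∀ s ∈ T, s ∉ Q) (hq : q ⊆ G)
    (hT1 : T1 ⊆ T) (hd : 0 < d)
    (hF : ∀ w ∈ Kb ∪ Kw, ∀ z, ‖z - w‖ ≤ d → ∃ f ∈ F, ‖f - z‖ ≤ d - r)
    (hM : Agr ((G ∪ T1 : Finset ℂ) : Set ℂ) (M : Set ℂ) (Kb ∪ Kw) (2 * d))
    (zb : Zn g.z0 g.e Z.l0 Z.l1 Z.p0 Z.p1 Z.m ⊆ Kb) (zw : Zn g.z0 g.e Z.l0 Z.l1 Z.q0 Z.q1 Z.m ⊆ Kw)
    (h : a ≤ pr T fun τ => HX g Z Q Kb Kw F r (clr (G ∪ T1) (q ∪ (τ ∩ T1)))) :
    Gd G T (Hf M g.z0 g.e Z.l0 Z.l1 Z.q0 Z.q1 Z.m Kw (Pw g Q (clr G q)))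
      (Hf M g.z0 g.e Z.l0 Z.l1 Z.p0 Z.p1 Z.m Kb (Pb g Q (clr G q))) a q := by
  have hGT : ∀ s ∈ G, s ∉ T := fun s hs h1 => hT s h1 (hG s hs)
  refine h.trans (pr_mono fun τ hτ h1 => ?_)
  rw [HX_clr hG (fun s hs => hT s (hT1 hs)) hq Finset.inter_subset_right] at h1
  obtain ⟨h1, h2, h3⟩ := h1
  have hH : Hol ((G ∪ T1 : Finset ℂ) : Set ℂ) (Kb ∪ Kw) d := Dg.hol h1 hF
  refine ⟨Hf.up hd (hH.mono subset_union_right) (fun w hw => hM w (Or.inr hw)) ?_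
    (fun s _ a1 a2 a3 a4 => zw ⟨⟨a1, a2⟩, a3, a4⟩) h3,
    Hf.up hd (hH.mono subset_union_left) (fun w hw => hM w (Or.inl hw)) ?_
    (fun s _ a1 a2 a3 a4 => zb ⟨⟨a1, a2⟩, a3, a4⟩) h2⟩
  · intro s hs
    simp only [Finset.mem_sdiff, Finset.mem_union, Finset.mem_inter, not_or, not_and] at hs ⊢
    obtain ⟨h4, h5, h6⟩ := hs
    refine ⟨h4.imp id fun h7 => hT1 h7, fun h7 => ?_, h5⟩
    rcases h4 with h8 | h8
    · exact hGT s h8 (hτ h7)
    · exact h6 h7 h8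
  · intro s hs
    rw [Finset.mem_union] at hs ⊢
    rcases hs with h4 | h4
    · exact Or.inr h4
    · exact Or.inl (Finset.mem_inter.1 h4).1


end Crest.Agent.R143.RHx73
end
end

-- ▼ part R143/Half_73

/-!
# Row 143, CORE-C, box R1d: half events of a gate, literal form (helper73)

* `HX_mv` : rigid motions
* `hf_scale` : the frame `(z0, η e)`
* `gd_gen` : configuration form of `RHx73.gd_of_hx`
* `hx_cut` : from the full configuration to the cut configuration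
* `g0`, `ZR`, `ZL`, `Q0`, `KBR`, `KWR`, `KBL`, `KWL`, `CR`, `CL`, `net` : the numbers
* `RH`, `LH` : **right and left half event of the gate in standard position**; `RH_fm`, `RH_local`, ..
* `gdR`, `gdL` : quenched half events of the gate and of the next gate give `Gd` of `Theta_73`
* `rh_of`, `lh_of` : from the full configuration
-/

set_option autoImplicit false

noncomputable section

open scoped Classical

namespace Crest.Agent.R143.Halfx73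

open Set MeasureTheory
open Crest.Agent.R143.B0x346 Crest.Agent.R143.DelGx806 Crest.Agent.R143.DelRx806
open Crest.Agent.R143.ToolWx838 Crest.Agent.R143.Blkx838
open Crest.Agent.R143.Gatex838 Crest.Agent.R143.Harx315
open Crest.Agent.R143.Neckx921 (Neck NeckD Tile Lk)
open Crest.Agent.R143.Thetax73 (Su Gd)
open Crest.Agent.R143.WLocx713
open Crest.Agent.R143.Locx922
open Crest.Agent.R143.PP0x831 Crest.Agent.R143.Poisx304 Crest.Agent.R143.Janx304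
open Crest.Agent.R143.Prodx609 Crest.Agent.R143.FinMx609 Crest.Agent.R143.FinM2x609
open Crest.Agent.R143.IndLocx279 Crest.Agent.R143.IndLoc3x279
open Crest.Agent.R143.PWx978 (Cf fm_inter localOn_of)
open Crest.Agent.R143.Fairx653 Crest.Agent.R143.RHx73
open Crest.Agent.R143.TplIx204 Crest.Agent.R143.PthFx765 Crest.Agent.R143.TileRx228
open scoped ENNReal

variable {S S' A : Finset ℂ} {z0 e : ℂ} {l0 l1 p0 p1 m : ℝ} {K P : Set ℂ}

/-! ## rigid motions -/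

section mv

variable {φ : ℂ ≃ ℂ} {c : ℂ} {X : Cf}

theorem vc_mv (hX : X.Finite) (h : CovBx126.Mo φ c) {A' : Finset ℂ}
    (hAA : ∀ s ∈ A, φ s ∈ A') {l : List ℂ} (hl : VC (sX X) z0 e l0 l1 p0 p1 m A l) :
    VC (sX (mvX φ X)) (φ z0) (c * e) l0 l1 p0 p1 m A' (l.map φ) := by
  have hX' : (mvX φ X).Finite := hX.image _
  have hne : l.map φ ≠ [] := by simpa using hl.ne
  refine ⟨hne, iso_adj hX hX' (piso_mv h) hl.adj, ?_, ?_, ?_, ?_, ?_⟩
  · intro s' hs'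
    obtain ⟨s, hs, rfl⟩ := List.mem_map.1 hs'
    exact hAA s (hl.col s hs)
  · intro s' hs'
    obtain ⟨s, hs, rfl⟩ := List.mem_map.1 hs'
    rw [WLocx713.X_mv h]
    exact hl.strip s hs
  · intro s' hs'
    obtain ⟨s, hs, rfl⟩ := List.mem_map.1 hs'
    rw [WLocx713.Y_mv h]
    exact hl.loc s hs
  · rw [List.head_map, WLocx713.Y_mv h]
    exact hl.left
  · rw [List.getLast_map, WLocx713.Y_mv h]
    exact hl.right

theorem hf_mv (hX : X.Finite) (h : CovBx126.Mo φ c) {A' : Finset ℂ} {K' P' : Set ℂ}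
    (hA : ∀ s ∈ A, s ∈ ps X) (hAA : ∀ s ∈ A, φ s ∈ A') (hK : ∀ s ∈ K, φ s ∈ K')
    (hP : ∀ y' ∈ P', ∃ y ∈ P, φ y = y') (hf : Hf (sX X) z0 e l0 l1 p0 p1 m K P A) :
    Hf (sX (mvX φ X)) (φ z0) (c * e) l0 l1 p0 p1 m K' P' A' := by
  obtain ⟨l, h1, h2⟩ := hf
  refine ⟨l.map φ, vc_mv hX h hAA h1, ?_⟩
  intro y' hy' s' hs'
  obtain ⟨y, hy, rfl⟩ := hP y' hy'
  obtain ⟨s, hs, rfl⟩ := List.mem_map.1 hs'
  exact iso_lkA hX (hX.image _) (piso_mv h) (B := {v | v ∈ A ∧ v ∈ K})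
    (B' := {v | v ∈ A' ∧ v ∈ K'}) (fun s hs => hA s hs.1)
    (fun s _ h3 => ⟨hAA s h3.1, hK s h3.2⟩) (h2 y hy s hs)

theorem dg_mv (h : CovBx126.Mo φ c) {F : Finset ℂ} {r : ℝ} {T : Set ℂ} (hD : Dg F r T) :
    Dg (F.image φ) r (φ '' T) := by
  intro z' hz'
  obtain ⟨z, hz, rfl⟩ := Finset.mem_image.1 hz'
  obtain ⟨s, hs, h1⟩ := hD z hz
  refine ⟨φ s, ⟨s, hs, rfl⟩, ?_⟩
  rw [h.sub, norm_mul, h.ne, one_mul]
  exact h1

/-- **rigid motions move half events** -/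
theorem HX_mv (h : CovBx126.Mo φ c) {g : GPar} {Z : LZ} {Q Q' Kb Kb' Kw Kw' : Set ℂ}
    {F : Finset ℂ} {r : ℝ} (hQ : ∀ s, φ s ∈ Q' ↔ s ∈ Q) (hb : ∀ s ∈ Kb, φ s ∈ Kb')
    (hw : ∀ s ∈ Kw, φ s ∈ Kw') (hx : HX g Z Q Kb Kw F r X) :
    HX (g.mv φ c) Z Q' Kb' Kw' (F.image φ) r (mvX φ X) := by
  obtain ⟨⟨hX, h1⟩, h2, h3⟩ := hx
  have hX' : (mvX φ X).Finite := hX.image _
  have key : ∀ p', LG (g.mv φ c) Q' (mvX φ X) p' → ∃ p, LG g Q X p ∧ mp φ p = p' := by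
    rintro ⟨u', v'⟩ hp
    obtain ⟨u, rfl⟩ := φ.surjective u'
    obtain ⟨v, rfl⟩ := φ.surjective v'
    exact ⟨(u, v), (LG_mv h g hQ (u, v)).1 hp, rfl⟩
  refine ⟨⟨hX', by rw [ps_mvX]; exact dg_mv h h1⟩, ?_, ?_⟩
  · refine hf_mv hX h (fun s hs => ((mem_bX hX).1 hs).1) (fun s hs => ?_) hb ?_ h2
    · exact (iso_bX hX hX' (piso_mv h) ((mem_bX hX).1 hs).1).1 hs
    · rintro y' ⟨p', hp', rfl⟩
      obtain ⟨p, hp, rfl⟩ := key p' hp'
      exact ⟨p.1, ⟨p, hp, rfl⟩, rfl⟩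
  · refine hf_mv hX h (fun s hs => (mem_sX hX).1 (Finset.mem_sdiff.1 hs).1) (fun s hs => ?_) hw ?_ h3
    · change s ∈ sX X \ bX X at hs
      show φ s ∈ sX (mvX φ X) \ bX (mvX φ X)
      rw [Finset.mem_sdiff] at hs ⊢
      have hs' := (mem_sX hX).1 hs.1
      rw [← iso_sX hX hX' (piso_mv h) hs', ← iso_bX hX hX' (piso_mv h) hs']
      exact hs
    · rintro y' ⟨p', hp', rfl⟩
      obtain ⟨p, hp, rfl⟩ := key p' hp'
      exact ⟨p.2, ⟨p, hp, rfl⟩, rfl⟩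

end mv

/-! ## scaled frame -/

theorem hf_scale {η : ℝ} (hη : 0 < η)
    (h : Hf S z0 e (η * l0) (η * l1) (η * p0) (η * p1) (η * m) K P A) :
    Hf S z0 ((η : ℂ) * e) l0 l1 p0 p1 m K P A := by
  obtain ⟨l, h1, h2⟩ := h
  exact ⟨l, LanePrx73.vc_scale hη h1, h2⟩

/-! ## configuration form -/



theorem mem_sx {X : Cf} (hX : X.Finite) {v : ℂ} : v ∈ sx X ↔ v ∈ ps X := mem_sX hX


/-- sites of `X` in `Q` -/
def gS (X : Cf) (Q : Set ℂ) : Finset ℂ := (sx X).filter (· ∈ Q)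

/-- black sites of `X` in `Q` -/
def gB (X : Cf) (Q : Set ℂ) : Finset ℂ := (bk X).filter (· ∈ Q)

theorem gB_sub {X : Cf} (hX : X.Finite) (Q : Set ℂ) : gB X Q ⊆ gS X Q :=
  Finset.filter_subset_filter _ (bk_sub hX)

theorem inter_gS {X : Cf} (hX : X.Finite) (hc : Sc X) (Q : Set ℂ) :
    X ∩ ovr Q = clr (gS X Q) (gB X Q) := by
  ext ⟨v, c⟩
  have h := Set.ext_iff.1 (eq_clr hX hc) (v, c)
  rw [mem_clr] at h ⊢
  unfold gS gB
  simp only [Finset.mem_filter, mem_inter_iff]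
  rw [h]
  change (_ ∧ _) ∧ v ∈ Q ↔ _
  tauto

/-- the configuration in `Q ∪ C1` of `S ∪ clr T τ` -/
theorem cut_eq {X : Cf} (hX : X.Finite) (hc : Sc X) {Q C1 : Set ℂ} {T τ : Finset ℂ}
    (hXC : ∀ s ∈ ps X, s ∉ C1) (hTQ : ∀ s ∈ T, s ∉ Q) (hτ : τ ⊆ T) :
    (X ∪ clr T τ) ∩ ovr (Q ∪ C1) =
      clr (gS X Q ∪ T.filter (· ∈ C1)) (gB X Q ∪ (τ ∩ T.filter (· ∈ C1))) := by
  have h0 := inter_gS hX hc Q
  ext ⟨v, c⟩
  have hv := Set.ext_iff.1 h0 (v, c)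
  rw [mem_clr] at hv ⊢
  have a1 : v ∈ gS X Q → v ∈ Q := fun h => (Finset.mem_filter.1 h).2
  have a2 : v ∈ gB X Q → v ∈ gS X Q := fun h => gB_sub hX Q h
  have a3 : v ∈ T → v ∉ Q := hTQ v
  have a4 : v ∈ τ → v ∈ T := fun h => hτ h
  have a5 : (v, c) ∈ X → v ∉ C1 := fun h => hXC v ⟨(v, c), h, rfl⟩
  simp only [ovr, mem_inter_iff, mem_union, mem_ofPred_eq, Finset.mem_union,
    Finset.mem_filter, Finset.mem_inter, mem_clr] at hv ⊢
  constructor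
  · rintro ⟨h2 | h2, h3⟩
    · rcases h3 with h3 | h3
      · obtain ⟨b1, b2⟩ := hv.1 ⟨h2, h3⟩
        refine ⟨Or.inl b1, b2.trans ⟨Or.inl, ?_⟩⟩
        rintro (h | h)
        · exact h
        · exact absurd h3 (a3 (a4 h.1))
      · exact absurd h3 (a5 h2)
    · rcases h3 with h3 | h3
      · exact absurd h3 (a3 h2.1)
      · refine ⟨Or.inr ⟨h2.1, h3⟩, h2.2.trans ⟨fun h => Or.inr ⟨h, h2.1, h3⟩, ?_⟩⟩
        rintro (h | h)
        · exact absurd (a1 (a2 h)) (a3 h2.1)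
        · exact h.1
  · rintro ⟨h2 | h2, h3⟩
    · have h5 := hv.2 ⟨h2, h3.trans ⟨?_, Or.inl⟩⟩
      · exact ⟨Or.inl h5.1, Or.inl h5.2⟩
      · rintro (h | h)
        · exact h
        · exact absurd (a1 h2) (a3 (a4 h.1))
    · refine ⟨Or.inr ⟨h2.1, h3.trans ⟨?_, fun h => Or.inr ⟨h, h2⟩⟩⟩, Or.inr h2.2⟩
      rintro (h | h)
      · exact absurd (a1 (a2 h)) (a3 h2.1)
      · exact h.1

/-- **quenched half event gives `Gd`**, configuration form: `X` outside the tube, `T` sites of the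
tube, `M` all sites -/
theorem gd_gen {g : GPar} {Z : LZ} {Q Kb Kw C1 : Set ℂ} {F : Finset ℂ} {r a d : ℝ} {X : Cf}
    {T : Finset ℂ} (hX : X.Finite) (hc : Sc X) (hXC : ∀ s ∈ ps X, s ∉ C1)
    (hTQ : ∀ s ∈ T, s ∉ Q) (hd : 0 < d)
    (hF : ∀ w ∈ Kb ∪ Kw, ∀ z, ‖z - w‖ ≤ d → ∃ f ∈ F, ‖f - z‖ ≤ d - r)
    (hK : ∀ w ∈ Kb ∪ Kw, ∀ s, ‖s - w‖ < 2 * d → s ∈ Q ∪ C1)
    (zb : Zn g.z0 g.e Z.l0 Z.l1 Z.p0 Z.p1 Z.m ⊆ Kb) (zw : Zn g.z0 g.e Z.l0 Z.l1 Z.q0 Z.q1 Z.m ⊆ Kw)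
    (h : a ≤ pr T fun τ => HX g Z Q Kb Kw F r ((X ∪ clr T τ) ∩ ovr (Q ∪ C1))) :
    Gd (gS X Q) T (Hf (sx X ∪ T) g.z0 g.e Z.l0 Z.l1 Z.q0 Z.q1 Z.m Kw
        (Pw g Q (clr (gS X Q) (gB X Q))))
      (Hf (sx X ∪ T) g.z0 g.e Z.l0 Z.l1 Z.p0 Z.p1 Z.m Kb (Pb g Q (clr (gS X Q) (gB X Q)))) a
      (gB X Q) := by
  refine gd_of_hx (T1 := T.filter (· ∈ C1)) (F := F) (r := r) (d := d)
    (fun s hs => (Finset.mem_filter.1 hs).2) hTQ (gB_sub hX Q) (Finset.filter_subset _ _) hd hF ?_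
    zb zw ?_
  · intro w hw s hs
    have h1 := hK w hw s hs
    simp only [gS, Finset.coe_union, mem_union, Finset.mem_coe, Finset.mem_filter]
    constructor
    · rintro (h2 | h2)
      · exact Or.inl h2.1
      · exact Or.inr h2.1
    · rintro (h2 | h2)
      · refine Or.inl ⟨h2, h1.resolve_right fun h3 => hXC s ((mem_sx hX).1 h2) h3⟩
      · exact Or.inr ⟨h2, h1.resolve_left (hTQ s h2)⟩
  · refine h.trans (pr_mono fun τ hτ h1 => ?_)
    rwa [cut_eq hX hc hXC hTQ hτ] at h1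

/-- **from the full configuration to the cut configuration** -/
theorem hx_cut {g : GPar} {Z : LZ} {Q Kb Kw D1 : Set ℂ} {F : Finset ℂ} {r d : ℝ} {X : Cf}
    (hX : X.Finite) (hd : 0 < d) (hH : Hol (ps X) (Kb ∪ Kw) d) (hQ : Q ⊆ D1)
    (hK : ∀ w ∈ Kb ∪ Kw, ∀ s, ‖s - w‖ < 2 * d → s ∈ D1)
    (hF : ∀ f ∈ F, ∀ s, ‖s - f‖ < r → s ∈ D1) (hD : Dg F r (ps X))
    (zb : Zn g.z0 g.e Z.l0 Z.l1 Z.p0 Z.p1 Z.m ⊆ Kb) (zw : Zn g.z0 g.e Z.l0 Z.l1 Z.q0 Z.q1 Z.m ⊆ Kw)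
    (h1 : Hf (sX X) g.z0 g.e Z.l0 Z.l1 Z.p0 Z.p1 Z.m Kb (Pb g Q X) (bX X))
    (h2 : Hf (sX X) g.z0 g.e Z.l0 Z.l1 Z.q0 Z.q1 Z.m Kw (Pw g Q X) (wX X)) :
    HX g Z Q Kb Kw F r (X ∩ ovr D1) := by
  have hY : (X ∩ ovr D1).Finite := hX.subset inter_subset_left
  have hc : (sX (X ∩ ovr D1) : Set ℂ) = ps X ∩ D1 := by rw [coe_sX hY, ps_inter]
  have hA : Agr (sX X : Set ℂ) (sX (X ∩ ovr D1) : Set ℂ) (Kb ∪ Kw) (2 * d) := by
    intro w hw s hs
    rw [hc, coe_sX hX]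
    exact ⟨fun h => ⟨h, hK w hw s hs⟩, fun h => h.1⟩
  have hwR : ∀ s ∈ Kb ∪ Kw, s ∈ D1 := fun s hs => hK s hs s (by simpa using hd)
  have hH' : Hol (sX X : Set ℂ) (Kb ∪ Kw) d := by rw [coe_sX hX]; exact hH
  have eb : {y | ∃ p, LG g Q (X ∩ ovr D1) p ∧ p.1 = y} = Pb g Q X := by
    unfold Pb
    simp only [LG_cut hQ]
  have ew : {y | ∃ p, LG g Q (X ∩ ovr D1) p ∧ p.2 = y} = Pw g Q X := by
    unfold Pw
    simp only [LG_cut hQ]
  refine ⟨⟨hY, ?_⟩, ?_, ?_⟩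
  · intro f hf
    obtain ⟨s, hs, h3⟩ := hD f hf
    exact ⟨s, by rw [ps_inter]; exact ⟨hs, hF f hf s h3⟩, h3⟩
  · rw [eb]
    set W := (sX X).filter (· ∈ Kb) with hW
    have h3 := Hf.su (U := bX X) (W := W) (K := Kb) (P := Pb g Q X) (S := sX X) (z0 := g.z0)
      (e := g.e) (l0 := Z.l0) (l1 := Z.l1) (p0 := Z.p0) (p1 := Z.p1) (m := Z.m)
      (fun s hs hk => Finset.mem_filter.2 ⟨(Finset.mem_filter.1 hs).1, hk⟩)
      (fun s hs a1 a2 a3 a4 => Finset.mem_filter.2 ⟨(Finset.mem_filter.1 hs).1,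
        zb ⟨⟨a1, a2⟩, a3, a4⟩⟩) (bX X) subset_rfl h1
    refine Hf.up hd (hH'.mono subset_union_left) (fun w hw => hA w (Or.inl hw)) ?_
      (fun s _ a1 a2 a3 a4 => zb ⟨⟨a1, a2⟩, a3, a4⟩) h3
    intro s hs
    rw [Finset.mem_inter, hW, Finset.mem_filter] at hs
    have hs3 := hwR s (Or.inl hs.2.2)
    rw [mem_bX hY, ps_inter, cX_inter hs3]
    have := (mem_bX hX).1 hs.1
    exact ⟨⟨this.1, hs3⟩, this.2⟩
  · rw [ew]
    set W := (sX X).filter (· ∈ Kw) with hW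
    have h3 := Hf.su (U := wX X) (W := W) (K := Kw) (P := Pw g Q X) (S := sX X) (z0 := g.z0)
      (e := g.e) (l0 := Z.l0) (l1 := Z.l1) (p0 := Z.q0) (p1 := Z.q1) (m := Z.m)
      (fun s hs hk => Finset.mem_filter.2 ⟨(Finset.mem_sdiff.1 hs).1, hk⟩)
      (fun s hs a1 a2 a3 a4 => Finset.mem_filter.2 ⟨(Finset.mem_sdiff.1 hs).1,
        zw ⟨⟨a1, a2⟩, a3, a4⟩⟩) (wX X) subset_rfl h2
    refine Hf.up hd (hH'.mono subset_union_right) (fun w hw => hA w (Or.inr hw)) ?_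
      (fun s _ a1 a2 a3 a4 => zw ⟨⟨a1, a2⟩, a3, a4⟩) h3
    intro s hs
    rw [Finset.mem_inter, hW, Finset.mem_filter] at hs
    have hs3 := hwR s (Or.inr hs.2.2)
    have h4 : s ∈ sX X \ bX X := hs.1
    show s ∈ sX (X ∩ ovr D1) \ bX (X ∩ ovr D1)
    rw [Finset.mem_sdiff] at h4 ⊢
    rw [mem_sX hY, mem_bX hY, ps_inter, cX_inter hs3]
    rw [mem_sX hX, mem_bX hX] at h4
    exact ⟨⟨h4.1, hs3⟩, fun h5 => h4.2 ⟨h4.1, h5.2⟩⟩

/-! ## the numbers -/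

/-- the gate in standard position, unit `η` -/
def g0 (η : ℝ) : GPar := ⟨0, 1, -η, η, -(9 * η), 10 * η, η⟩

/-- right landing zone -/
def ZR (η : ℝ) : LZ :=
  ⟨η * 10, η * (101 / 10), η * -8, η * -(47 / 10), η * 2, η * 8, η * (1 / 20)⟩

/-- left landing zone -/
def ZL (η : ℝ) : LZ :=
  ⟨η * -(101 / 10), η * -10, η * -8, η * -(47 / 10), η * 2, η * 8, η * (1 / 20)⟩

/-- gate box -/
def Q0 (η : ℝ) : Set ℂ := {z | |z.re| < 2 * η ∧ |z.im| < 12 * η}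

/-- right landing box -/
def CR (η : ℝ) : Set ℂ := {z | (2 * η ≤ z.re ∧ z.re < 13 * η) ∧ |z.im| < 12 * η}

/-- left landing box -/
def CL (η : ℝ) : Set ℂ := {z | (-(13 * η) < z.re ∧ z.re ≤ -(2 * η)) ∧ |z.im| < 12 * η}

/-- region of the black links, right -/
def KBR (η : ℝ) : Set ℂ :=
  {z | (-η < z.re ∧ z.re < 11 * η) ∧ |z.im| < 9 * η ∧ (2 * η ≤ z.re → z.im < η)}

/-- region of the white links, right -/
def KWR (η : ℝ) : Set ℂ :=
  {z | (-η < z.re ∧ z.re < 11 * η) ∧ |z.im| < 9 * η ∧ (2 * η ≤ z.re → η < z.im)}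

/-- region of the black links, left -/
def KBL (η : ℝ) : Set ℂ :=
  {z | (-(11 * η) < z.re ∧ z.re < η) ∧ |z.im| < 9 * η ∧ (z.re ≤ -(2 * η) → z.im < η)}

/-- region of the white links, left -/
def KWL (η : ℝ) : Set ℂ :=
  {z | (-(11 * η) < z.re ∧ z.re < η) ∧ |z.im| < 9 * η ∧ (z.re ≤ -(2 * η) → η < z.im)}

theorem WQ_Q0 (η h : ℝ) : WQ (12 * η) (h / 2 + 2 * η) h = Q0 η := by
  unfold WQ Q0
  simp only [add_sub_cancel_left]

/-- box -/
def Bx (x0 x1 y0 y1 : ℝ) : Set ℂ := {z | (x0 ≤ z.re ∧ z.re ≤ x1) ∧ y0 ≤ z.im ∧ z.im ≤ y1}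

theorem bx_bdd (x0 x1 y0 y1 : ℝ) : Bornology.IsBounded (Bx x0 x1 y0 y1) := by
  refine (Metric.isBounded_closedBall (x := (0 : ℂ)) (r := |x0| + |x1| + (|y0| + |y1|))).subset ?_
  rintro z ⟨⟨h1, h2⟩, h3, h4⟩
  rw [mem_closedBall_zero_iff]
  have h5 : |z.re| ≤ |x0| + |x1| := by
    rw [abs_le]
    have := neg_abs_le x0
    have := le_abs_self x1
    have := abs_nonneg x0
    have := abs_nonneg x1
    constructor <;> linarith
  have h6 : |z.im| ≤ |y0| + |y1| := by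
    rw [abs_le]
    have := neg_abs_le y0
    have := le_abs_self y1
    have := abs_nonneg y0
    have := abs_nonneg y1
    constructor <;> linarith
  have h7 := Complex.norm_le_abs_re_add_abs_im z
  linarith

/-- closed neighbourhood -/
def nbh (W : Set ℂ) (d : ℝ) : Set ℂ := {z | ∃ w ∈ W, ‖z - w‖ ≤ d}

theorem nbh_bdd {W : Set ℂ} (hW : Bornology.IsBounded W) (d : ℝ) :
    Bornology.IsBounded (nbh W d) := by
  obtain ⟨R, hR⟩ := hW.subset_closedBall 0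
  refine (Metric.isBounded_closedBall (x := (0 : ℂ)) (r := R + d)).subset ?_
  rintro z ⟨w, hw, h⟩
  have h1 := hR hw
  rw [mem_closedBall_zero_iff] at h1 ⊢
  calc ‖z‖ = ‖w + (z - w)‖ := by rw [add_sub_cancel]
    _ ≤ ‖w‖ + ‖z - w‖ := norm_add_le _ _
    _ ≤ R + d := add_le_add h1 h

theorem net_ex {W : Set ℂ} (hW : Bornology.IsBounded W) {d : ℝ} (hd : 0 < d) :
    ∃ F : Finset ℂ, (∀ z ∈ nbh W d, ∃ f ∈ F, ‖f - z‖ ≤ d / 2) ∧ ∀ f ∈ F, f ∈ nbh W d := by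
  have h1 : TotallyBounded (nbh W d) :=
    (nbh_bdd hW d).isCompact_closure.totallyBounded.subset subset_closure
  obtain ⟨t, hf, h2⟩ := Metric.totallyBounded_iff.1 h1 (d / 4) (by positivity)
  -- replace the centres by points of the set
  set T := hf.toFinset with hT
  set F : Finset ℂ := T.image fun y => if h : ∃ z ∈ nbh W d, z ∈ Metric.ball y (d / 4)
    then h.choose else y with hF
  refine ⟨F.filter (· ∈ nbh W d), fun z hz => ?_, fun f hf => (Finset.mem_filter.1 hf).2⟩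
  obtain ⟨y, hy, hzy⟩ := mem_iUnion₂.1 (h2 hz)
  have hex : ∃ z ∈ nbh W d, z ∈ Metric.ball y (d / 4) := ⟨z, hz, hzy⟩
  refine ⟨hex.choose, Finset.mem_filter.2 ⟨Finset.mem_image.2 ⟨y, hf.mem_toFinset.2 hy, ?_⟩,
    hex.choose_spec.1⟩, ?_⟩
  · rw [dif_pos hex]
  · have h3 := hex.choose_spec.2
    rw [Metric.mem_ball, dist_eq_norm] at h3 hzy
    calc ‖hex.choose - z‖ = ‖(hex.choose - y) - (z - y)‖ := by ring_nf
      _ ≤ ‖hex.choose - y‖ + ‖z - y‖ := norm_sub_le _ _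
      _ ≤ d / 2 := by linarith

/-- a net of the closed neighbourhood -/
def net (W : Set ℂ) (d : ℝ) : Finset ℂ :=
  if h : ∃ F : Finset ℂ, (∀ z ∈ nbh W d, ∃ f ∈ F, ‖f - z‖ ≤ d / 2) ∧ ∀ f ∈ F, f ∈ nbh W d
  then h.choose else ∅

theorem net_near {W : Set ℂ} (hW : Bornology.IsBounded W) {d : ℝ} (hd : 0 < d) :
    ∀ w ∈ W, ∀ z, ‖z - w‖ ≤ d → ∃ f ∈ net W d, ‖f - z‖ ≤ d - d / 2 := by
  intro w hw z hz
  have h := net_ex hW hd
  unfold net
  rw [dif_pos h, sub_half]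
  exact h.choose_spec.1 z ⟨w, hw, hz⟩

theorem net_mem {W : Set ℂ} (hW : Bornology.IsBounded W) {d : ℝ} (hd : 0 < d) {f : ℂ}
    (hf : f ∈ net W d) : f ∈ nbh W d := by
  have h := net_ex hW hd
  unfold net at hf
  rw [dif_pos h] at hf
  exact h.choose_spec.2 f hf

/-! ## the literal half events -/

/-- **right half event** -/
def RH (η d : ℝ) (X : Cf) : Prop :=
  HX (g0 η) (ZR η) (Q0 η) (KBR η) (KWR η) (net (KBR η ∪ KWR η) d) (d / 2)
    (X ∩ ovr (Q0 η ∪ CR η))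

/-- **left half event** -/
def LH (η d : ℝ) (X : Cf) : Prop :=
  HX (g0 η) (ZL η) (Q0 η) (KBL η) (KWL η) (net (KBL η ∪ KWL η) d) (d / 2)
    (X ∩ ovr (Q0 η ∪ CL η))

variable {η d : ℝ}

theorem meas_re : Measurable fun z : ℂ => z.re := Complex.measurable_re
theorem meas_im : Measurable fun z : ℂ => z.im := Complex.measurable_im

theorem Q0_meas : MeasurableSet (Q0 η) :=
  (measurableSet_lt meas_re.abs measurable_const).inter (measurableSet_lt meas_im.abs measurable_const)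

theorem CR_meas : MeasurableSet (CR η) :=
  ((measurableSet_le measurable_const meas_re).inter (measurableSet_lt meas_re measurable_const)).inter
    (measurableSet_lt meas_im.abs measurable_const)

theorem CL_meas : MeasurableSet (CL η) :=
  ((measurableSet_lt measurable_const meas_re).inter (measurableSet_le meas_re measurable_const)).inter
    (measurableSet_lt meas_im.abs measurable_const)

theorem imp_meas {p q : ℂ → Prop} (hp : MeasurableSet {z | p z}) (hq : MeasurableSet {z | q z}) :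
    MeasurableSet {z | p z → q z} := by
  have e : {z : ℂ | p z → q z} = {z | p z}ᶜ ∪ {z | q z} := by
    ext z
    simp only [mem_ofPred_eq, mem_union, mem_compl_iff]
    tauto
  rw [e]
  exact hp.compl.union hq

theorem KBR_meas : MeasurableSet (KBR η) :=
  ((measurableSet_lt measurable_const meas_re).inter (measurableSet_lt meas_re measurable_const)).inter
    ((measurableSet_lt meas_im.abs measurable_const).inter
      (imp_meas (measurableSet_le measurable_const meas_re) (measurableSet_lt meas_im measurable_const)))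

theorem KWR_meas : MeasurableSet (KWR η) :=
  ((measurableSet_lt measurable_const meas_re).inter (measurableSet_lt meas_re measurable_const)).inter
    ((measurableSet_lt meas_im.abs measurable_const).inter
      (imp_meas (measurableSet_le measurable_const meas_re) (measurableSet_lt measurable_const meas_im)))

theorem KBL_meas : MeasurableSet (KBL η) :=
  ((measurableSet_lt measurable_const meas_re).inter (measurableSet_lt meas_re measurable_const)).inter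
    ((measurableSet_lt meas_im.abs measurable_const).inter
      (imp_meas (measurableSet_le meas_re measurable_const) (measurableSet_lt meas_im measurable_const)))

theorem KWL_meas : MeasurableSet (KWL η) :=
  ((measurableSet_lt measurable_const meas_re).inter (measurableSet_lt meas_re measurable_const)).inter
    ((measurableSet_lt meas_im.abs measurable_const).inter
      (imp_meas (measurableSet_le meas_re measurable_const) (measurableSet_lt measurable_const meas_im)))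


theorem CR_bdd : Bornology.IsBounded (CR η) := by
  refine (bx_bdd (2 * η) (13 * η) (-(12 * η)) (12 * η)).subset ?_
  rintro z ⟨h1, h2⟩
  rw [abs_lt] at h2
  exact ⟨⟨h1.1, h1.2.le⟩, h2.1.le, h2.2.le⟩

theorem CL_bdd : Bornology.IsBounded (CL η) := by
  refine (bx_bdd (-(13 * η)) (-(2 * η)) (-(12 * η)) (12 * η)).subset ?_
  rintro z ⟨h1, h2⟩
  rw [abs_lt] at h2
  exact ⟨⟨h1.1.le, h1.2⟩, h2.1.le, h2.2.le⟩

theorem KR_sub : KBR η ∪ KWR η ⊆ Bx (-η) (11 * η) (-(9 * η)) (9 * η) := by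
  rintro z (⟨h1, h2, _⟩ | ⟨h1, h2, _⟩) <;> rw [abs_lt] at h2 <;>
    exact ⟨⟨h1.1.le, h1.2.le⟩, h2.1.le, h2.2.le⟩

theorem KL_sub : KBL η ∪ KWL η ⊆ Bx (-(11 * η)) η (-(9 * η)) (9 * η) := by
  rintro z (⟨h1, h2, _⟩ | ⟨h1, h2, _⟩) <;> rw [abs_lt] at h2 <;>
    exact ⟨⟨h1.1.le, h1.2.le⟩, h2.1.le, h2.2.le⟩

theorem KR_bdd : Bornology.IsBounded (KBR η ∪ KWR η) := (bx_bdd _ _ _ _).subset KR_sub

theorem KL_bdd : Bornology.IsBounded (KBL η ∪ KWL η) := (bx_bdd _ _ _ _).subset KL_sub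

theorem HX_fm (g : GPar) (Z : LZ) {Q Kb Kw : Set ℂ} (hQ : MeasurableSet Q)
    (hb : MeasurableSet Kb) (hw : MeasurableSet Kw) (F : Finset ℂ) (r : ℝ) :
    FinMeas (HX g Z Q Kb Kw F r) := HX_fme g Z hQ hb hw F r

theorem RH_fm (η d : ℝ) : FinMeas (RH η d) :=
  fm_interP (HX_fm _ _ Q0_meas KBR_meas KWR_meas _ _) (Q0_meas.union CR_meas)

theorem LH_fm (η d : ℝ) : FinMeas (LH η d) :=
  fm_interP (HX_fm _ _ Q0_meas KBL_meas KWL_meas _ _) (Q0_meas.union CL_meas)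

theorem RH_local (η d : ℝ) : LocalOn (Q0 η ∪ CR η) (RH η d) := by
  refine localOn_of fun S T h => ?_
  unfold RH
  rw [h]

theorem LH_local (η d : ℝ) : LocalOn (Q0 η ∪ CL η) (LH η d) := by
  refine localOn_of fun S T h => ?_
  unfold LH
  rw [h]

/-! ## geometry of the regions -/

theorem X01 (s : ℂ) : X 0 1 s = s.re := by unfold X; simp

theorem Y01 (s : ℂ) : Y 0 1 s = s.im := by unfold Y; simp

theorem zbR (_hη : 0 < η) : Zn (g0 η).z0 (g0 η).e (ZR η).l0 (ZR η).l1 (ZR η).p0 (ZR η).p1 (ZR η).m ⊆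
    KBR η := by
  rintro s ⟨⟨h1, h2⟩, h3, h4⟩
  change η * 10 < X 0 1 s at h1
  change X 0 1 s < η * (101 / 10) at h2
  change η * -8 - η * (1 / 20) ≤ Y 0 1 s at h3
  change Y 0 1 s ≤ η * -(47 / 10) + η * (1 / 20) at h4
  rw [X01] at h1 h2
  rw [Y01] at h3 h4
  refine ⟨⟨by linarith, by linarith⟩, ?_, fun _ => by linarith⟩
  rw [abs_lt]
  constructor <;> linarith

theorem zwR (_hη : 0 < η) : Zn (g0 η).z0 (g0 η).e (ZR η).l0 (ZR η).l1 (ZR η).q0 (ZR η).q1 (ZR η).m ⊆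
    KWR η := by
  rintro s ⟨⟨h1, h2⟩, h3, h4⟩
  change η * 10 < X 0 1 s at h1
  change X 0 1 s < η * (101 / 10) at h2
  change η * 2 - η * (1 / 20) ≤ Y 0 1 s at h3
  change Y 0 1 s ≤ η * 8 + η * (1 / 20) at h4
  rw [X01] at h1 h2
  rw [Y01] at h3 h4
  refine ⟨⟨by linarith, by linarith⟩, ?_, fun _ => by linarith⟩
  rw [abs_lt]
  constructor <;> linarith

theorem zbL (_hη : 0 < η) : Zn (g0 η).z0 (g0 η).e (ZL η).l0 (ZL η).l1 (ZL η).p0 (ZL η).p1 (ZL η).m ⊆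
    KBL η := by
  rintro s ⟨⟨h1, h2⟩, h3, h4⟩
  change η * -(101 / 10) < X 0 1 s at h1
  change X 0 1 s < η * -10 at h2
  change η * -8 - η * (1 / 20) ≤ Y 0 1 s at h3
  change Y 0 1 s ≤ η * -(47 / 10) + η * (1 / 20) at h4
  rw [X01] at h1 h2
  rw [Y01] at h3 h4
  refine ⟨⟨by linarith, by linarith⟩, ?_, fun _ => by linarith⟩
  rw [abs_lt]
  constructor <;> linarith

theorem zwL (_hη : 0 < η) : Zn (g0 η).z0 (g0 η).e (ZL η).l0 (ZL η).l1 (ZL η).q0 (ZL η).q1 (ZL η).m ⊆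
    KWL η := by
  rintro s ⟨⟨h1, h2⟩, h3, h4⟩
  change η * -(101 / 10) < X 0 1 s at h1
  change X 0 1 s < η * -10 at h2
  change η * 2 - η * (1 / 20) ≤ Y 0 1 s at h3
  change Y 0 1 s ≤ η * 8 + η * (1 / 20) at h4
  rw [X01] at h1 h2
  rw [Y01] at h3 h4
  refine ⟨⟨by linarith, by linarith⟩, ?_, fun _ => by linarith⟩
  rw [abs_lt]
  constructor <;> linarith

theorem bx_near {x0 x1 y0 y1 r : ℝ} {w s : ℂ} (hw : w ∈ Bx x0 x1 y0 y1) (hs : ‖s - w‖ ≤ r) :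
    s ∈ Bx (x0 - r) (x1 + r) (y0 - r) (y1 + r) := by
  have h1 := (Complex.abs_re_le_norm (s - w)).trans hs
  have h2 := (Complex.abs_im_le_norm (s - w)).trans hs
  rw [Complex.sub_re, abs_le] at h1
  rw [Complex.sub_im, abs_le] at h2
  obtain ⟨⟨h3, h4⟩, h5, h6⟩ := hw
  exact ⟨⟨by linarith, by linarith⟩, by linarith, by linarith⟩

theorem bx_mono {x0 x1 y0 y1 x0' x1' y0' y1' : ℝ} (h0 : x0' ≤ x0) (h1 : x1 ≤ x1') (h2 : y0' ≤ y0)
    (h3 : y1 ≤ y1') : Bx x0 x1 y0 y1 ⊆ Bx x0' x1' y0' y1' :=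
  fun _ h => ⟨⟨h0.trans h.1.1, h.1.2.trans h1⟩, h2.trans h.2.1, h.2.2.trans h3⟩

/-- the right box is contained in `Q0 ∪ CR` -/
theorem bxR (hη : 0 < η) : Bx (-(3 / 2 * η)) (12 * η) (-(11 * η)) (11 * η) ⊆ Q0 η ∪ CR η := by
  rintro z ⟨⟨h1, h2⟩, h3, h4⟩
  have h5 : |z.im| < 12 * η := by
    rw [abs_lt]
    constructor <;> linarith
  rcases lt_or_ge z.re (2 * η) with h | h
  · refine Or.inl ⟨?_, h5⟩
    rw [abs_lt]
    constructor <;> linarith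
  · exact Or.inr ⟨⟨h, by linarith⟩, h5⟩

theorem bxL (hη : 0 < η) : Bx (-(12 * η)) (3 / 2 * η) (-(11 * η)) (11 * η) ⊆ Q0 η ∪ CL η := by
  rintro z ⟨⟨h1, h2⟩, h3, h4⟩
  have h5 : |z.im| < 12 * η := by
    rw [abs_lt]
    constructor <;> linarith
  rcases lt_or_ge (-(2 * η)) z.re with h | h
  · refine Or.inl ⟨?_, h5⟩
    rw [abs_lt]
    constructor <;> linarith
  · exact Or.inr ⟨⟨by linarith, h⟩, h5⟩

/-- points near the right link regions -/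
theorem nearR (hη : 0 < η) {w s : ℂ} (hw : w ∈ KBR η ∪ KWR η) (hs : ‖s - w‖ ≤ η / 2) :
    s ∈ Bx (-(3 / 2 * η)) (12 * η) (-(11 * η)) (11 * η) :=
  bx_mono (by linarith) (by linarith) (by linarith) (by linarith) (bx_near (KR_sub hw) hs)

theorem nearL (hη : 0 < η) {w s : ℂ} (hw : w ∈ KBL η ∪ KWL η) (hs : ‖s - w‖ ≤ η / 2) :
    s ∈ Bx (-(12 * η)) (3 / 2 * η) (-(11 * η)) (11 * η) :=
  bx_mono (by linarith) (by linarith) (by linarith) (by linarith) (bx_near (KL_sub hw) hs)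

/-! ## `Gd` for the literal half events -/

/-- **right half of the first gate** -/
theorem gdR {a : ℝ} (hη : 0 < η) (hd : 0 < d) (hdη : 4 * d ≤ η) {X : Cf} (hX : X.Finite)
    (hc : Sc X) {T : Finset ℂ} (hXC : ∀ s ∈ ps X, s ∉ CR η) (hTQ : ∀ s ∈ T, s ∉ Q0 η)
    (h : a ≤ pr T fun τ => RH η d (X ∪ clr T τ)) :
    Gd (gS X (Q0 η)) T
      (Hf (sx X ∪ T) 0 (η : ℂ) 10 (101 / 10) 2 8 (1 / 20) (KWR η)
        (Pw (g0 η) (Q0 η) (clr (gS X (Q0 η)) (gB X (Q0 η)))))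
      (Hf (sx X ∪ T) 0 (η : ℂ) 10 (101 / 10) (-8) (-(47 / 10)) (1 / 20) (KBR η)
        (Pb (g0 η) (Q0 η) (clr (gS X (Q0 η)) (gB X (Q0 η))))) a (gB X (Q0 η)) := by
  have h1 := gd_gen (g := g0 η) (Z := ZR η) (Q := Q0 η) (Kb := KBR η) (Kw := KWR η) (C1 := CR η)
    (F := net (KBR η ∪ KWR η) d) (r := d / 2) (a := a) (d := d) hX hc hXC hTQ hd
    (net_near KR_bdd hd) (fun w hw s hs => bxR hη (nearR hη hw (by linarith))) (zbR hη) (zwR hη) h
  refine h1.trans (pr_mono fun τ _ h2 => ?_)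
  refine ⟨?_, ?_⟩
  · have h3 := hf_scale (z0 := 0) (e := 1) hη h2.1
    rwa [mul_one] at h3
  · have h3 := hf_scale (z0 := 0) (e := 1) hη h2.2
    rwa [mul_one] at h3

/-- half events of a moved gate -/
theorem gd_mv {φ : ℂ ≃ ℂ} {c : ℂ} (h : CovBx126.Mo φ c) {g : GPar} {Z : LZ} {Q Kb Kw C1 : Set ℂ}
    {F : Finset ℂ} {r a : ℝ} {X : Cf} {T : Finset ℂ} (hX : X.Finite) (hc : Sc X)
    (hXC : ∀ s ∈ ps X, φ.symm s ∉ C1) (hTQ : ∀ s ∈ T, φ.symm s ∉ Q) (hd : 0 < d)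
    (hF : ∀ w ∈ Kb ∪ Kw, ∀ z, ‖z - w‖ ≤ d → ∃ f ∈ F, ‖f - z‖ ≤ d - r)
    (hK : ∀ w ∈ Kb ∪ Kw, ∀ s, ‖s - w‖ < 2 * d → s ∈ Q ∪ C1)
    (zb : Zn g.z0 g.e Z.l0 Z.l1 Z.p0 Z.p1 Z.m ⊆ Kb) (zw : Zn g.z0 g.e Z.l0 Z.l1 Z.q0 Z.q1 Z.m ⊆ Kw)
    (hh : a ≤ pr T fun τ => HX g Z Q Kb Kw F r (mvX φ.symm (X ∪ clr T τ) ∩ ovr (Q ∪ C1))) :
    Gd (gS X (φ.symm ⁻¹' Q)) T
      (Hf (sx X ∪ T) (φ g.z0) (c * g.e) Z.l0 Z.l1 Z.q0 Z.q1 Z.m (φ.symm ⁻¹' Kw)
        (Pw (g.mv φ c) (φ.symm ⁻¹' Q) (clr (gS X (φ.symm ⁻¹' Q)) (gB X (φ.symm ⁻¹' Q)))))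
      (Hf (sx X ∪ T) (φ g.z0) (c * g.e) Z.l0 Z.l1 Z.p0 Z.p1 Z.m (φ.symm ⁻¹' Kb)
        (Pb (g.mv φ c) (φ.symm ⁻¹' Q) (clr (gS X (φ.symm ⁻¹' Q)) (gB X (φ.symm ⁻¹' Q))))) a
      (gB X (φ.symm ⁻¹' Q)) := by
  have hiso : ∀ z w : ℂ, ‖φ z - φ w‖ = ‖z - w‖ := fun z w => by
    rw [h.sub, norm_mul, h.ne, one_mul]
  have hzn : ∀ {p0 p1 : ℝ} {K : Set ℂ}, Zn g.z0 g.e Z.l0 Z.l1 p0 p1 Z.m ⊆ K →
      Zn (g.mv φ c).z0 (g.mv φ c).e Z.l0 Z.l1 p0 p1 Z.m ⊆ φ.symm ⁻¹' K := by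
    intro p0 p1 K hK s hs
    obtain ⟨s, rfl⟩ := φ.surjective s
    obtain ⟨⟨h1, h2⟩, h3, h4⟩ := hs
    change Z.l0 < Gatex838.X (φ g.z0) (c * g.e) (φ s) at h1
    change Gatex838.X (φ g.z0) (c * g.e) (φ s) < Z.l1 at h2
    change p0 - Z.m ≤ Gatex838.Y (φ g.z0) (c * g.e) (φ s) at h3
    change Gatex838.Y (φ g.z0) (c * g.e) (φ s) ≤ p1 + Z.m at h4
    rw [WLocx713.X_mv h] at h1 h2
    rw [WLocx713.Y_mv h] at h3 h4
    rw [mem_preimage, φ.symm_apply_apply]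
    exact hK ⟨⟨h1, h2⟩, h3, h4⟩
  refine gd_gen (g := g.mv φ c) (Z := Z) (Q := φ.symm ⁻¹' Q) (Kb := φ.symm ⁻¹' Kb)
    (Kw := φ.symm ⁻¹' Kw) (C1 := φ.symm ⁻¹' C1) (F := F.image φ) (r := r) (d := d) hX hc hXC hTQ hd
    ?_ ?_ (hzn zb) (hzn zw) ?_
  · intro w hw z hz
    obtain ⟨w, rfl⟩ := φ.surjective w
    obtain ⟨z, rfl⟩ := φ.surjective z
    rw [← preimage_union, mem_preimage, φ.symm_apply_apply] at hw
    rw [hiso] at hz
    obtain ⟨f, hf, h1⟩ := hF w hw z hz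
    exact ⟨φ f, Finset.mem_image_of_mem _ hf, by rwa [hiso]⟩
  · intro w hw z hz
    obtain ⟨w, rfl⟩ := φ.surjective w
    obtain ⟨z, rfl⟩ := φ.surjective z
    rw [← preimage_union, mem_preimage, φ.symm_apply_apply] at hw
    rw [hiso] at hz
    rw [← preimage_union, mem_preimage, φ.symm_apply_apply]
    exact hK w hw z hz
  · refine hh.trans (pr_mono fun τ _ h1 => ?_)
    have h2 := HX_mv h (Q' := φ.symm ⁻¹' Q) (Kb' := φ.symm ⁻¹' Kb) (Kw' := φ.symm ⁻¹' Kw)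
      (fun s => by rw [mem_preimage, φ.symm_apply_apply])
      (fun s hs => by rwa [mem_preimage, φ.symm_apply_apply])
      (fun s hs => by rwa [mem_preimage, φ.symm_apply_apply]) h1
    have h3 : mvX φ (mvX φ.symm (X ∪ clr T τ) ∩ ovr (Q ∪ C1)) =
        (X ∪ clr T τ) ∩ ovr (φ.symm ⁻¹' Q ∪ φ.symm ⁻¹' C1) := by
      rw [← mvX_inter (φ := φ) (Q := Q ∪ C1) (Q' := φ.symm ⁻¹' (Q ∪ C1))
        (fun s => by rw [mem_preimage, φ.symm_apply_apply]), preimage_union]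
      congr 1
      have h4 := mvX_symm (φ := φ.symm) (X := X ∪ clr T τ)
      rwa [φ.symm_symm] at h4
    rwa [h3] at h2

/-- **left half of the next gate** -/
theorem gdL {a h : ℝ} {t : Tn} (hη : 0 < η) (hd : 0 < d) (hdη : 4 * d ≤ η) {X : Cf}
    (hX : X.Finite) (hc : Sc X) {T : Finset ℂ}
    (hXC : ∀ s ∈ ps X, s ∉ (nxt h t).e.symm ⁻¹' CL η)
    (hTQ : ∀ s ∈ T, s ∉ (nxt h t).e.symm ⁻¹' Q0 η)
    (hh : a ≤ pr T fun τ => Tplx978.tr (nxt h t).e (LH η d) (X ∪ clr T τ)) :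
    Gd (gS X ((nxt h t).e.symm ⁻¹' Q0 η)) T
      (Hf (sx X ∪ T) ((nxt h t).e 0) ((η : ℂ) * rot t) (-(101 / 10)) (-10) 2 8 (1 / 20)
        ((nxt h t).e.symm ⁻¹' KWL η)
        (Pw ((g0 η).mv (nxt h t).e (rot t)) ((nxt h t).e.symm ⁻¹' Q0 η)
          (clr (gS X ((nxt h t).e.symm ⁻¹' Q0 η)) (gB X ((nxt h t).e.symm ⁻¹' Q0 η)))))
      (Hf (sx X ∪ T) ((nxt h t).e 0) ((η : ℂ) * rot t) (-(101 / 10)) (-10) (-8) (-(47 / 10)) (1 / 20)
        ((nxt h t).e.symm ⁻¹' KBL η)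
        (Pb ((g0 η).mv (nxt h t).e (rot t)) ((nxt h t).e.symm ⁻¹' Q0 η)
          (clr (gS X ((nxt h t).e.symm ⁻¹' Q0 η)) (gB X ((nxt h t).e.symm ⁻¹' Q0 η))))) a
      (gB X ((nxt h t).e.symm ⁻¹' Q0 η)) := by
  have h1 := gd_mv (φ := (nxt h t).e.toEquiv) (c := rot t) (mo_nxt h t) (g := g0 η) (Z := ZL η)
    (Q := Q0 η) (Kb := KBL η) (Kw := KWL η) (C1 := CL η) (F := net (KBL η ∪ KWL η) d) (r := d / 2)
    (a := a) (d := d) hX hc hXC hTQ hd (net_near KL_bdd hd)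
    (fun w hw s hs => bxL hη (nearL hη hw (by linarith))) (zbL hη) (zwL hη) hh
  refine h1.trans (pr_mono fun τ _ h2 => ?_)
  refine ⟨?_, ?_⟩
  · have h3 := hf_scale (z0 := (nxt h t).e 0) (e := rot t * 1) hη h2.1
    rwa [mul_one] at h3
  · have h3 := hf_scale (z0 := (nxt h t).e 0) (e := rot t * 1) hη h2.2
    rwa [mul_one] at h3

/-! ## from the full configuration -/

theorem vc_unscale {η x0 x1 y0 y1 : ℝ} (hη : 0 < η) {β : Finset ℂ} {l : List ℂ}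
    (h : VC S z0 ((η : ℂ) * e) x0 x1 y0 y1 m β l) :
    VC S z0 e (η * x0) (η * x1) (η * y0) (η * y1) (η * m) β l := by
  refine ⟨h.ne, h.adj, h.col, fun s hs => ?_, fun s hs => ?_, ?_, ?_⟩
  · have := h.strip s hs
    rwa [LanePrx73.X_scale hη.ne', LanePrx73.lt_inv_iff' hη, LanePrx73.inv_lt_iff' hη] at this
  · have := h.loc s hs
    rwa [LanePrx73.Y_scale hη.ne', LanePrx73.le_inv_iff' hη, LanePrx73.inv_le_iff' hη, mul_sub,
      mul_add] at this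
  · have := h.left
    rwa [LanePrx73.Y_scale hη.ne', LanePrx73.inv_le_iff' hη] at this
  · have := h.right
    rwa [LanePrx73.Y_scale hη.ne', LanePrx73.le_inv_iff' hη] at this

theorem hf_unscale {η : ℝ} (hη : 0 < η) (h : Hf S z0 ((η : ℂ) * e) l0 l1 p0 p1 m K P A) :
    Hf S z0 e (η * l0) (η * l1) (η * p0) (η * p1) (η * m) K P A := by
  obtain ⟨l, h1, h2⟩ := h
  exact ⟨l, vc_unscale hη h1, h2⟩

/-- **the right half event from the full configuration** -/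
theorem rh_of (hη : 0 < η) (hd : 0 < d) (hdη : 4 * d ≤ η) {X : Cf} (hX : X.Finite)
    (hD : ∀ z ∈ Bx (-(2 * η)) (12 * η) (-(11 * η)) (11 * η), ∃ s ∈ ps X, ‖s - z‖ < d / 2)
    (hb : Hf (sX X) 0 (η : ℂ) 10 (101 / 10) (-8) (-(47 / 10)) (1 / 20) (KBR η)
      (Pb (g0 η) (Q0 η) X) (bX X))
    (hw : Hf (sX X) 0 (η : ℂ) 10 (101 / 10) 2 8 (1 / 20) (KWR η)
      (Pw (g0 η) (Q0 η) X) (wX X)) : RH η d X := by
  have hn : ∀ {w s : ℂ}, w ∈ KBR η ∪ KWR η → ‖s - w‖ ≤ η / 2 →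
      s ∈ Bx (-(2 * η)) (12 * η) (-(11 * η)) (11 * η) := fun hw hs =>
    bx_mono (by linarith) le_rfl le_rfl le_rfl (nearR hη hw hs)
  refine hx_cut (d := d) hX hd ?_ subset_union_left
    (fun w hw s hs => bxR hη (nearR hη hw (by linarith))) ?_ ?_ (zbR hη) (zwR hη) ?_ ?_
  · intro w hw z hz
    obtain ⟨s, hs, h1⟩ := hD z (hn hw (by linarith))
    exact ⟨s, hs, by linarith⟩
  · intro f hf s hs
    obtain ⟨w, hw, h1⟩ := net_mem KR_bdd hd hf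
    refine bxR hη (nearR hη hw ?_)
    calc ‖s - w‖ = ‖(s - f) + (f - w)‖ := by rw [sub_add_sub_cancel]
      _ ≤ ‖s - f‖ + ‖f - w‖ := norm_add_le _ _
      _ ≤ η / 2 := by linarith
  · intro f hf
    obtain ⟨w, hw, h1⟩ := net_mem KR_bdd hd hf
    exact hD f (hn hw (by linarith))
  · refine hf_unscale (e := 1) hη ?_
    rw [mul_one]
    exact hb
  · refine hf_unscale (e := 1) hη ?_
    rw [mul_one]
    exact hw

/-- **the left half event from the full configuration** -/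
theorem lh_of (hη : 0 < η) (hd : 0 < d) (hdη : 4 * d ≤ η) {X : Cf} (hX : X.Finite)
    (hD : ∀ z ∈ Bx (-(12 * η)) (2 * η) (-(11 * η)) (11 * η), ∃ s ∈ ps X, ‖s - z‖ < d / 2)
    (hb : Hf (sX X) 0 (η : ℂ) (-(101 / 10)) (-10) (-8) (-(47 / 10)) (1 / 20) (KBL η)
      (Pb (g0 η) (Q0 η) X) (bX X))
    (hw : Hf (sX X) 0 (η : ℂ) (-(101 / 10)) (-10) 2 8 (1 / 20) (KWL η)
      (Pw (g0 η) (Q0 η) X) (wX X)) : LH η d X := by
  have hn : ∀ {w s : ℂ}, w ∈ KBL η ∪ KWL η → ‖s - w‖ ≤ η / 2 →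
      s ∈ Bx (-(12 * η)) (2 * η) (-(11 * η)) (11 * η) := fun hw hs =>
    bx_mono le_rfl (by linarith) le_rfl le_rfl (nearL hη hw hs)
  refine hx_cut (d := d) hX hd ?_ subset_union_left
    (fun w hw s hs => bxL hη (nearL hη hw (by linarith))) ?_ ?_ (zbL hη) (zwL hη) ?_ ?_
  · intro w hw z hz
    obtain ⟨s, hs, h1⟩ := hD z (hn hw (by linarith))
    exact ⟨s, hs, by linarith⟩
  · intro f hf s hs
    obtain ⟨w, hw, h1⟩ := net_mem KL_bdd hd hf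
    refine bxL hη (nearL hη hw ?_)
    calc ‖s - w‖ = ‖(s - f) + (f - w)‖ := by rw [sub_add_sub_cancel]
      _ ≤ ‖s - f‖ + ‖f - w‖ := norm_add_le _ _
      _ ≤ η / 2 := by linarith
  · intro f hf
    obtain ⟨w, hw, h1⟩ := net_mem KL_bdd hd hf
    exact hD f (hn hw (by linarith))
  · refine hf_unscale (e := 1) hη ?_
    rw [mul_one]
    exact hb
  · refine hf_unscale (e := 1) hη ?_
    rw [mul_one]
    exact hw

end Crest.Agent.R143.Halfx73
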