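import Crest.Agent.R143.Neck4_921
import Crest.Agent.R143.LanePr_73
import Crest.Agent.R143.Gm_838_Mg
import Crest.Agent.R143.Half_73_Mg
import Crest.Agent.R143.GLIa_126
import Crest.Agent.R143.TplG_204
import Crest.Agent.R143.QTb_653
import Crest.Agent.R143.DispZ_840_Mg
import Crest.Agent.R143.RigN_377
import Crest.Agent.R143.QuenI_597
import Crest.Agent.R143.RigZ_609
import Crest.Agent.R143.RigQ_377

-- ▼ part R143/Neck5_921
section

/-!
# Row 143, CORE-C, block V4: the gate event gives the black links (helper921)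

* `Neck.scale`, `neckD_scale` : frame `(z0, η e)`
* `ge_blackR`, `ge_blackL` : **black landing from `GE`**, for every gate dart `(y, x)` (white halves:
  120's `ge_whiteR`, `ge_whiteL`)
-/

set_option autoImplicit false

noncomputable section

open scoped Classical

namespace Crest.Agent.R143.Neckx921

open Crest.Agent.R143.B0x346 Crest.Agent.R143.DelGx806 Crest.Agent.R143.DelRx806
open Crest.Agent.R143.ToolWx838 Crest.Agent.R143.Blkx838 Crest.Agent.R143.ToolW2x838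
open Crest.Agent.R143.ToolW3x838 Crest.Agent.R143.Circ4x838 Crest.Agent.R143.Harx315
open Crest.Agent.R143.RB0x838 Crest.Agent.R143.CircPx838 Crest.Agent.R143.Gatex838
open Crest.Agent.R143.LanePrx73 (X_scale Y_scale inv_le_iff' le_inv_iff' inv_lt_iff' lt_inv_iff')

variable {S V β : Finset ℂ} {z0 e : ℂ}
variable {a0 a1 b0 b1 p1 r0 r1 c0 c1 d0 d1 lR0 lR1 lL0 lL1 m mN η : ℝ}

/-! ### scaling -/

theorem Neck.scale (hη : 0 < η) {up dn : List ℂ} {y : ℂ} :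
    Neck S z0 ((η : ℂ) * e) a0 a1 b0 b1 m V β up y dn ↔
      Neck S z0 e (η * a0) (η * a1) (η * b0) (η * b1) (η * m) V β up y dn := by
  have e1 : ∀ s, X z0 ((η : ℂ) * e) s = η⁻¹ * X z0 e s := X_scale hη.ne' z0 e
  have e2 : ∀ s, Y z0 ((η : ℂ) * e) s = η⁻¹ * Y z0 e s := Y_scale hη.ne' z0 e
  constructor
  · intro h
    refine ⟨h.nu, h.nd, h.adj, h.cu, fun s hs hb => h.cd s hs ?_, h.cy, fun s hs => ?_, ?_, ?_, ?_,
      fun s hs => ?_⟩
    · rw [e2, lt_inv_iff' hη]; exact hb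
    · have := h.win s hs
      rw [e1, e2, lt_inv_iff' hη, inv_lt_iff' hη, le_inv_iff' hη, inv_le_iff' hη, mul_sub,
        mul_add] at this
      exact this
    · have := h.yb
      rw [e2, lt_inv_iff' hη, inv_lt_iff' hη] at this
      exact this
    · have := h.top
      rw [e2, le_inv_iff' hη] at this
      exact this
    · have := h.bot
      rw [e2, inv_le_iff' hη] at this
      exact this
    · have := h.upb s hs
      rw [e2, lt_inv_iff' hη] at this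
      exact this
  · intro h
    refine ⟨h.nu, h.nd, h.adj, h.cu, fun s hs hb => h.cd s hs ?_, h.cy, fun s hs => ?_, ?_, ?_, ?_,
      fun s hs => ?_⟩
    · rw [e2, lt_inv_iff' hη] at hb; exact hb
    · rw [e1, e2, lt_inv_iff' hη, inv_lt_iff' hη, le_inv_iff' hη, inv_le_iff' hη, mul_sub,
        mul_add]
      exact h.win s hs
    · rw [e2, lt_inv_iff' hη, inv_lt_iff' hη]
      exact h.yb
    · rw [e2, le_inv_iff' hη]
      exact h.top
    · rw [e2, inv_le_iff' hη]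
      exact h.bot
    · rw [e2, lt_inv_iff' hη]
      exact h.upb s hs

theorem neckD_scale (hη : 0 < η) {y x : ℂ} :
    NeckD S z0 ((η : ℂ) * e) a0 a1 b0 b1 m V β y x ↔
      NeckD S z0 e (η * a0) (η * a1) (η * b0) (η * b1) (η * m) V β y x := by
  unfold NeckD
  constructor
  · rintro ⟨up, dn, h, rfl⟩
    exact ⟨up, dn, (Neck.scale hη).1 h, rfl⟩
  · rintro ⟨up, dn, h, rfl⟩
    exact ⟨up, dn, (Neck.scale hη).2 h, rfl⟩

/-! ### black links from `GE` -/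

/-- **black landing on the right from `GE`**, for every gate dart `(y, x)` -/
theorem ge_blackR {L : Lc} (hS : GP (S : Set ℂ)) (he : e ≠ 0)
    (h : GE S V z0 e L r0 r1 lR0 lR1 lL0 lL1 p1 c0 c1 d0 d1 b1 m mN β) {y x : ℂ}
    (g : NeckD S z0 e L.a0 L.a1 L.b0 b1 mN V β y x) (k0 : r0 + m ≤ L.a0) (k1 : lR1 ≤ r1 - m)
    (hpb : p1 ≤ b1) (h1 : L.a1 + 2 * m ≤ lR0) (h2 : lR0 < lR1) (h3 : L.a0 < lR1) {R : Set ℂ}
    (hR : ∀ s ∈ β, L.a0 < X z0 e s → X z0 e s ≤ lR1 + 2 * m → L.b0 < Y z0 e s → Y z0 e s < p1 →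
      s ∈ R)
    (hR1 : ∀ s ∈ β, lR0 < X z0 e s → X z0 e s < lR1 → L.p0 - m ≤ Y z0 e s → Y z0 e s ≤ p1 + m →
      s ∈ R) :
    ∃ Q, VC S z0 e lR0 lR1 L.p0 p1 m β Q ∧ ∀ t ∈ Q, Lk S {s | s ∈ β ∧ s ∈ R} y t := by
  obtain ⟨Q, ⟨P, hP⟩, hQ⟩ := h.extRB k0 h3 k1
  obtain ⟨up, dn, hN, rfl⟩ := g
  exact ⟨Q, hQ, fun t ht => black_rightH hN hS he hP hQ hpb h1 h2 hR
    (fun s hs => hR1 s (hQ.col s hs) (hQ.strip s hs).1 (hQ.strip s hs).2 (hQ.loc s hs).1
      (hQ.loc s hs).2) ht⟩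

/-- **black landing on the left from `GE`**, for every gate dart `(y, x)` -/
theorem ge_blackL {L : Lc} (hS : GP (S : Set ℂ)) (he : e ≠ 0)
    (h : GE S V z0 e L r0 r1 lR0 lR1 lL0 lL1 p1 c0 c1 d0 d1 b1 m mN β) {y x : ℂ}
    (g : NeckD S z0 e L.a0 L.a1 L.b0 b1 mN V β y x) (k0 : r0 + m ≤ lL0) (k1 : L.a1 ≤ r1 - m)
    (hpb : p1 ≤ b1) (h1 : lL1 + 2 * m ≤ L.a0) (h2 : lL0 < lL1) (h3 : lL0 < L.a1) {R : Set ℂ}
    (hR : ∀ s ∈ β, X z0 e s < L.a1 → lL0 - 2 * m ≤ X z0 e s → L.b0 < Y z0 e s → Y z0 e s < p1 →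
      s ∈ R)
    (hR1 : ∀ s ∈ β, lL0 < X z0 e s → X z0 e s < lL1 → L.p0 - m ≤ Y z0 e s → Y z0 e s ≤ p1 + m →
      s ∈ R) :
    ∃ Q, VC S z0 e lL0 lL1 L.p0 p1 m β Q ∧ ∀ t ∈ Q, Lk S {s | s ∈ β ∧ s ∈ R} y t := by
  obtain ⟨Q, ⟨P, hP⟩, hQ⟩ := h.extLB k0 h3 k1
  obtain ⟨up, dn, hN, rfl⟩ := g
  exact ⟨Q, hQ, fun t ht => black_leftH hN hS he hP hQ hpb h1 h2 hR
    (fun s hs => hR1 s (hQ.col s hs) (hQ.strip s hs).1 (hQ.strip s hs).2 (hQ.loc s hs).1
      (hQ.loc s hs).2) ht⟩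

end Crest.Agent.R143.Neckx921
end
end

-- ▼ part R143/GeH_345
section

/-!
# Row 143, CORE-C, box R1d: the gate event gives the half events (helper345)

* `GE10` : helper921's event `GE` with helper838's numbers, upper level of the window `10`
* `bR`, `bL`, `wR`, `wL` : black / white landing chains on the right / left, all their sites linked to
  the gate dart inside a region `K` (unit `e`)
* `lg_ex`, `lg_neck` : the selected gate dart exists; it is a neck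
* `rh_ge`, `lh_ge` : helper73's half events `RH`, `LH` of the configuration `clr V β`
* `fg_ge` : helper653's `FG`; `fg_pr` : its probability
-/

set_option autoImplicit false

noncomputable section

open scoped Classical

namespace Crest.Agent.R143.GeHx345

open Crest.Agent.R143.B0x346 Crest.Agent.R143.DelGx806 Crest.Agent.R143.DelRx806
open Crest.Agent.R143.ToolWx838 Crest.Agent.R143.Blkx838 Crest.Agent.R143.ToolW2x838
open Crest.Agent.R143.ToolW3x838 Crest.Agent.R143.Circ4x838 Crest.Agent.R143.Harx315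
open Crest.Agent.R143.RB0x838 Crest.Agent.R143.CircPx838 Crest.Agent.R143.Gatex838
open Crest.Agent.R143.RBmx838 Crest.Agent.R143.RbEx838 Crest.Agent.R143.Neckx921
open Crest.Agent.R143.GEprx838 Crest.Agent.R143.WTilex120 Crest.Agent.R143.RHx73
open Crest.Agent.R143.Halfx73 Crest.Agent.R143.WLocx713 Crest.Agent.R143.Locx922
open Crest.Agent.R143.IndLocx279 Crest.Agent.R143.IndLoc3x279 Crest.Agent.R143.Janx304
open Crest.Agent.R143.PWx978 (Cf)
open Crest.Agent.R143.FinMx609 Crest.Agent.R143.Fairx653 Crest.Agent.R143.IndLoc2x279 Crest.Agent.R143.IndLoc4x279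
open Crest.Agent.R143.Posx653 (FG KG)

variable {V β : Finset ℂ} {z0 e : ℂ} {η d r R : ℝ}

/-- the gate event with its numbers, levels of the window `-9`, `10` -/
def GE10 (V : Finset ℂ) (z0 e : ℂ) (β : Finset ℂ) : Prop :=
  GE V V z0 e L0 (-12) 12 10 (101 / 10) (-(101 / 10)) (-10) (-(47 / 10)) (49 / 10) 5 2 8 10 (1 / 20) 1 β

/-- short Delaunay edges near the gate -/
def St (V : Finset ℂ) (z0 e : ℂ) : Prop := ∀ u v, DE V u v → |X z0 e u| ≤ 13 → |Y z0 e u| ≤ 13 →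
  |X z0 e u - X z0 e v| ≤ 1 / 10

theorem st_of {e : ℂ} (he : e ≠ 0) (hD : LDns V z0 R d) (hR : 27 * ‖e‖ ≤ R) (hd : 20 * d ≤ ‖e‖) :
    St V z0 e := by
  intro u v h h1 h2
  have he0 : 0 < ‖e‖ := norm_pos_iff.2 he
  have h3 : ‖u - z0‖ ≤ 26 * ‖e‖ := by
    refine (norm_le_XY he u).trans ?_
    nlinarith
  have h4 := Crest.Agent.R143.GLIx126.de_len hD h (Or.inl (by linarith))
  refine (XY_diff (z0 := z0) (e := e) u v).1.trans ?_
  rw [div_le_iff₀ he0]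
  linarith

/-- black, right -/
theorem bR (hS : GP (V : Set ℂ)) (he : e ≠ 0) (h : GE10 V z0 e β) {y x : ℂ}
    (g : NeckD V z0 e (-1) 1 (-9) 10 1 V β y x) {K : Set ℂ}
    (hK : ∀ s, -1 < X z0 e s → X z0 e s < 11 → -9 < Y z0 e s → Y z0 e s < -4 → s ∈ K) :
    ∃ l, VC V z0 e 10 (101 / 10) (-8) (-(47 / 10)) (1 / 20) β l ∧
      ∀ t ∈ l, Lk V {s | s ∈ β ∧ s ∈ K} y t := by
  have a0 : L0.a0 = -1 := rfl
  have a1 : L0.a1 = 1 := rfl
  have b0 : L0.b0 = -9 := rfl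
  have p0 : L0.p0 = -8 := rfl
  refine ge_blackR hS he h g (by rw [a0]; norm_num) (by norm_num) (by norm_num)
    (by rw [a1]; norm_num) (by norm_num) (by rw [a0]; norm_num) ?_ ?_
  · intro s _ h1 h2 h3 h4
    rw [a0] at h1
    rw [b0] at h3
    exact hK s h1 (by linarith) h3 (by linarith)
  · intro s _ h1 h2 h3 h4
    rw [p0] at h3
    exact hK s (by linarith) (by linarith) (by linarith) (by linarith)

/-- black, left -/
theorem bL (hS : GP (V : Set ℂ)) (he : e ≠ 0) (h : GE10 V z0 e β) {y x : ℂ}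
    (g : NeckD V z0 e (-1) 1 (-9) 10 1 V β y x) {K : Set ℂ}
    (hK : ∀ s, -11 < X z0 e s → X z0 e s < 1 → -9 < Y z0 e s → Y z0 e s < -4 → s ∈ K) :
    ∃ l, VC V z0 e (-(101 / 10)) (-10) (-8) (-(47 / 10)) (1 / 20) β l ∧
      ∀ t ∈ l, Lk V {s | s ∈ β ∧ s ∈ K} y t := by
  have a0 : L0.a0 = -1 := rfl
  have a1 : L0.a1 = 1 := rfl
  have b0 : L0.b0 = -9 := rfl
  have p0 : L0.p0 = -8 := rfl
  refine ge_blackL hS he h g (by norm_num) (by rw [a1]; norm_num) (by norm_num)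
    (by rw [a0]; norm_num) (by norm_num) (by rw [a1]; norm_num) ?_ ?_
  · intro s _ h1 h2 h3 h4
    rw [a1] at h1
    rw [b0] at h3
    exact hK s (by linarith) h1 h3 (by linarith)
  · intro s _ h1 h2 h3 h4
    rw [p0] at h3
    exact hK s (by linarith) (by linarith) (by linarith) (by linarith)

/-- the neck is below the level `-4` -/
theorem low (hS : GP (V : Set ℂ)) (he : e ≠ 0) (h : GE10 V z0 e β) {y x : ℂ}
    (g : NeckD V z0 e (-1) 1 (-9) 10 1 V β y x) : Y z0 e y ≤ 2 := by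
  obtain ⟨P, hP⟩ := h.bl
  have := hb_low hS he g hP (by norm_num) (by norm_num) (by norm_num)
  linarith

/-- white, right -/
theorem wR (hS : GP (V : Set ℂ)) (he : e ≠ 0) (h : GE10 V z0 e β) (hst : St V z0 e) {y x : ℂ}
    (g : NeckD V z0 e (-1) 1 (-9) 10 1 V β y x) {K : Set ℂ}
    (hK : ∀ s, -1 < X z0 e s → X z0 e s < 11 → -9 < Y z0 e s → Y z0 e s < 9 →
      (1 ≤ X z0 e s → 1 < Y z0 e s) → s ∈ K) :
    ∃ l, VC V z0 e 10 (101 / 10) 2 8 (1 / 20) (V \ β) l ∧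
      ∀ t ∈ l, Lk V {s | (s ∈ V ∧ s ∉ β) ∧ s ∈ K} x t := by
  have a0 : L0.a0 = -1 := rfl
  obtain ⟨l, ⟨U, hU⟩, hl⟩ := GE.extRW h (by rw [a0]; norm_num) (by rw [a0]; norm_num) (by norm_num)
    (by norm_num) (by norm_num) (fun u v a _ _ h3 h4 h5 h6 => (hst u v a
      (abs_le.2 ⟨by linarith, by linarith⟩) (abs_le.2 ⟨by linarith, by linarith⟩)).trans (by norm_num))
  refine ⟨l, hl, fun t ht => linkR hS he g hU hl (low hS he h g) (by rw [a0]) (by norm_num) le_rfl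
    (by norm_num) le_rfl le_rfl (by norm_num) ?_ ?_ ?_ ht⟩
  · intro s _ h1 h2 h3 h4
    exact hK s h1 (by linarith) (by linarith) (by linarith) fun _ => by linarith
  · intro s _ h1 h2 h3 h4
    exact hK s h1 (by linarith) h3 (by linarith) fun h5 => by linarith
  · intro s _ h1 h2 h3 h4
    exact hK s (by linarith) (by linarith) (by linarith) (by linarith) fun _ => by linarith

/-- white, left -/
theorem wL (hS : GP (V : Set ℂ)) (he : e ≠ 0) (h : GE10 V z0 e β) (hst : St V z0 e) {y x : ℂ}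
    (g : NeckD V z0 e (-1) 1 (-9) 10 1 V β y x) {K : Set ℂ}
    (hK : ∀ s, -11 < X z0 e s → X z0 e s < 1 → -9 < Y z0 e s → Y z0 e s < 9 →
      (X z0 e s ≤ -1 → 1 < Y z0 e s) → s ∈ K) :
    ∃ l, VC V z0 e (-(101 / 10)) (-10) 2 8 (1 / 20) (V \ β) l ∧
      ∀ t ∈ l, Lk V {s | (s ∈ V ∧ s ∉ β) ∧ s ∈ K} x t := by
  have a1 : L0.a1 = 1 := rfl
  obtain ⟨l, ⟨U, hU⟩, hl⟩ := GE.extLW h (by norm_num) (by rw [a1]; norm_num) (by rw [a1]; norm_num)
    (by norm_num) (by norm_num) (fun u v a _ _ h3 h4 h5 h6 => (hst u v a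
      (abs_le.2 ⟨by linarith, by linarith⟩) (abs_le.2 ⟨by linarith, by linarith⟩)).trans (by norm_num))
  refine ⟨l, hl, fun t ht => linkL hS he g hU hl (low hS he h g) (by rw [a1]) (by norm_num) le_rfl
    (by norm_num) le_rfl le_rfl (by norm_num) ?_ ?_ ?_ ht⟩
  · intro s _ h1 h2 h3 h4
    exact hK s (by linarith) h1 (by linarith) (by linarith) fun _ => by linarith
  · intro s _ h1 h2 h3 h4
    exact hK s (by linarith) h2 h3 (by linarith) fun h5 => by linarith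
  · intro s _ h1 h2 h3 h4
    exact hK s (by linarith) (by linarith) (by linarith) (by linarith) fun _ => by linarith

/-! ## the configuration `clr V β` -/

theorem Xη (s : ℂ) : X 0 (η : ℂ) s = s.re / η := by
  unfold X
  rw [sub_zero, Complex.div_ofReal_re]

theorem Yη (s : ℂ) : Y 0 (η : ℂ) s = s.im / η := by
  unfold Y
  rw [sub_zero, Complex.div_ofReal_im]

theorem neck_iff (hη : 0 < η) {y x : ℂ} :
    NeckD V (g0 η).z0 (g0 η).e (g0 η).a0 (g0 η).a1 (g0 η).b0 (g0 η).b1 (g0 η).m V β y x ↔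
      NeckD V 0 (η : ℂ) (-1) 1 (-9) 10 1 V β y x := by
  have h := neckD_scale (S := V) (V := V) (β := β) (z0 := 0) (e := 1) (a0 := -1) (a1 := 1)
    (b0 := -9) (b1 := 10) (m := 1) hη (y := y) (x := x)
  rw [mul_one (η : ℂ)] at h
  rw [h]
  have e0 : g0 η = ⟨0, 1, η * -1, η * 1, η * -9, η * 10, η * 1⟩ := by
    unfold g0
    congr 1 <;> ring
  rw [e0]

/-- points near the window are dense and are in the box of the gate -/
theorem win_hol (_hη : 0 < η) (hd : 0 < d) (hdη : 4 * d ≤ η) (hD : LDns V 0 R r) (hR : 27 * η ≤ R)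
    (hr : r ≤ d) : Hol (ps (clr V β)) (g0 η).win d := by
  rw [ps_clr]
  rintro w ⟨⟨h1, h2⟩, h3, h4⟩ z hz
  change -η < X 0 1 w at h1
  change X 0 1 w < η at h2
  change -(9 * η) - η ≤ Y 0 1 w at h3
  change Y 0 1 w ≤ 10 * η + η at h4
  rw [X01] at h1 h2
  rw [Y01] at h3 h4
  have h5 : ‖w‖ ≤ 12 * η := by
    refine (Complex.norm_le_abs_re_add_abs_im w).trans ?_
    have a1 : |w.re| ≤ η := abs_le.2 ⟨by linarith, by linarith⟩
    have a2 : |w.im| ≤ 11 * η := abs_le.2 ⟨by linarith, by linarith⟩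
    linarith
  obtain ⟨s, hs, h6⟩ := hD.hole z (by
    rw [sub_zero]
    have : ‖z‖ ≤ ‖z - w‖ + ‖w‖ := by
      have := norm_add_le (z - w) w
      rwa [sub_add_cancel] at this
    linarith)
  exact ⟨s, hs, by linarith⟩

theorem win_Q (hη : 0 < η) (hdη : 4 * d ≤ η) :
    ∀ w ∈ (g0 η).win, ∀ s, ‖s - w‖ < 2 * d → s ∈ Q0 η := by
  rintro w ⟨⟨h1, h2⟩, h3, h4⟩ s hs
  change -η < X 0 1 w at h1
  change X 0 1 w < η at h2
  change -(9 * η) - η ≤ Y 0 1 w at h3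
  change Y 0 1 w ≤ 10 * η + η at h4
  rw [X01] at h1 h2
  rw [Y01] at h3 h4
  have h5 := (Complex.abs_re_le_norm (s - w)).trans hs.le
  have h6 := (Complex.abs_im_le_norm (s - w)).trans hs.le
  rw [Complex.sub_re, abs_le] at h5
  rw [Complex.sub_im, abs_le] at h6
  refine ⟨abs_lt.2 ⟨?_, ?_⟩, abs_lt.2 ⟨?_, ?_⟩⟩ <;> linarith

/-- **the selected gate dart exists** -/
theorem lg_ex (hη : 0 < η) (hd : 0 < d) (hdη : 4 * d ≤ η) (hβ : β ⊆ V) (hD : LDns V 0 R r)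
    (hR : 27 * η ≤ R) (hr : r ≤ d) (h : GE10 V 0 (η : ℂ) β) :
    ∃ p, LG (g0 η) (Q0 η) (clr V β) p := by
  have hX := clr_finite V β
  refine (LG_exists (g := g0 η) one_ne_zero hX).2 ?_
  obtain ⟨y, x, hN⟩ := h.neck
  refine ⟨(y, x), (NX_cut hX hd (win_hol hη hd hdη hD hR hr) (win_Q hη hdη)).2 ⟨hX, ?_⟩⟩
  rw [sX_clr, bX_clr hβ]
  exact (neck_iff hη).2 hN

/-- **the selected gate dart is a neck** -/
theorem lg_neck (hη : 0 < η) (hd : 0 < d) (hdη : 4 * d ≤ η) (hβ : β ⊆ V) (hD : LDns V 0 R r)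
    (hR : 27 * η ≤ R) (hr : r ≤ d) {p : ℂ × ℂ} (hp : LG (g0 η) (Q0 η) (clr V β) p) :
    NeckD V 0 (η : ℂ) (-1) 1 (-9) 10 1 V β p.1 p.2 := by
  have h := LG_neck (clr_finite V β) hd (win_hol hη hd hdη hD hR hr) (win_Q hη hdη) hp
  rw [sX_clr, bX_clr hβ] at h
  exact (neck_iff hη).1 h

/-- one half from a landing chain -/
theorem hf_of {S A : Finset ℂ} {l0 l1 p0 p1 m : ℝ} {K : Set ℂ} {f : ℂ × ℂ → ℂ} {X : Cf}
    {p : ℂ × ℂ} (hp : LG (g0 η) (Q0 η) X p)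
    (h : ∃ l, VC S z0 e l0 l1 p0 p1 m A l ∧ ∀ t ∈ l, Lk S {v | v ∈ A ∧ v ∈ K} (f p) t) :
    Hf S z0 e l0 l1 p0 p1 m K {y | ∃ q, LG (g0 η) (Q0 η) X q ∧ f q = y} A := by
  obtain ⟨l, h1, h2⟩ := h
  refine ⟨l, h1, ?_⟩
  rintro y ⟨q, hq, rfl⟩ s hs
  rw [hp.uniq hq]
  exact h2 s hs

theorem wh_of {S : Finset ℂ} {l0 l1 p0 p1 m : ℝ} {K : Set ℂ} {x : ℂ}
    (h : ∃ l, VC S z0 e l0 l1 p0 p1 m (V \ β) l ∧
      ∀ t ∈ l, Lk S {s | (s ∈ V ∧ s ∉ β) ∧ s ∈ K} x t) :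
    ∃ l, VC S z0 e l0 l1 p0 p1 m (V \ β) l ∧ ∀ t ∈ l, Lk S {v | v ∈ V \ β ∧ v ∈ K} x t := by
  obtain ⟨l, h1, h2⟩ := h
  exact ⟨l, h1, fun t ht => (h2 t ht).mono fun s hs => ⟨Finset.mem_sdiff.2 hs.1, hs.2⟩⟩

/-- density in the boxes of the half events -/
theorem bx_den (hη : 0 < η) (hD : LDns V 0 R r) (hR : 27 * η ≤ R) (hr : 2 * r ≤ d)
    (x0 x1 : ℝ) (h0 : -(12 * η) ≤ x0) (h1 : x1 ≤ 12 * η) :
    ∀ z ∈ Bx x0 x1 (-(11 * η)) (11 * η), ∃ s ∈ ps (clr V β), ‖s - z‖ < d / 2 := by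
  rintro z ⟨⟨a1, a2⟩, a3, a4⟩
  rw [ps_clr]
  obtain ⟨s, hs, h6⟩ := hD.hole z (by
    rw [sub_zero]
    refine (Complex.norm_le_abs_re_add_abs_im z).trans ?_
    have b1 : |z.re| ≤ 12 * η := abs_le.2 ⟨by linarith, by linarith⟩
    have b2 : |z.im| ≤ 11 * η := abs_le.2 ⟨by linarith, by linarith⟩
    linarith)
  exact ⟨s, hs, by linarith⟩

theorem nη (hη : 0 < η) : (η : ℂ) ≠ 0 := by exact_mod_cast hη.ne'

theorem nnη (hη : 0 < η) : ‖(η : ℂ)‖ = η := by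
  rw [Complex.norm_real, Real.norm_eq_abs, abs_of_pos hη]

/-- **right half event** -/
theorem rh_ge (hη : 0 < η) (hd : 0 < d) (hdη : 4 * d ≤ η) (hβ : β ⊆ V) (hD : LDns V 0 R r)
    (hR : 27 * η ≤ R) (hr : 2 * r ≤ d) (hr' : 20 * r ≤ η) (h : GE10 V 0 (η : ℂ) β) :
    RH η d (clr V β) := by
  have hrd : r ≤ d := by linarith [hD.dpos]
  obtain ⟨p, hp⟩ := lg_ex hη hd hdη hβ hD hR hrd h
  have hN := lg_neck hη hd hdη hβ hD hR hrd hp
  have hst : St V 0 (η : ℂ) := st_of (nη hη) hD (by rwa [nnη hη]) (by rwa [nnη hη])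
  refine rh_of hη hd hdη (clr_finite V β) (bx_den hη hD hR hr _ _ (by linarith) le_rfl) ?_ ?_
  · rw [sX_clr, bX_clr hβ]
    refine hf_of (f := Prod.fst) hp (bR hD.gp (nη hη) h hN ?_)
    intro s h1 h2 h3 h4
    rw [Xη, lt_div_iff₀ hη] at h1
    rw [Xη, div_lt_iff₀ hη] at h2
    rw [Yη, lt_div_iff₀ hη] at h3
    rw [Yη, div_lt_iff₀ hη] at h4
    exact ⟨⟨by linarith, h2⟩, abs_lt.2 ⟨by linarith, by linarith⟩, fun _ => by linarith⟩
  · rw [sX_clr, wX_clr hβ]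
    refine hf_of (f := Prod.snd) hp (wh_of (wR hD.gp (nη hη) h hst hN ?_))
    intro s h1 h2 h3 h4 h5
    rw [Xη, lt_div_iff₀ hη] at h1
    rw [Xη, div_lt_iff₀ hη] at h2
    rw [Yη, lt_div_iff₀ hη] at h3
    rw [Yη, div_lt_iff₀ hη] at h4
    rw [Xη, le_div_iff₀ hη, Yη, lt_div_iff₀ hη] at h5
    exact ⟨⟨by linarith, h2⟩, abs_lt.2 ⟨by linarith, h4⟩, fun h6 => by linarith [h5 (by linarith)]⟩

/-- **left half event** -/
theorem lh_ge (hη : 0 < η) (hd : 0 < d) (hdη : 4 * d ≤ η) (hβ : β ⊆ V) (hD : LDns V 0 R r)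
    (hR : 27 * η ≤ R) (hr : 2 * r ≤ d) (hr' : 20 * r ≤ η) (h : GE10 V 0 (η : ℂ) β) :
    LH η d (clr V β) := by
  have hrd : r ≤ d := by linarith [hD.dpos]
  obtain ⟨p, hp⟩ := lg_ex hη hd hdη hβ hD hR hrd h
  have hN := lg_neck hη hd hdη hβ hD hR hrd hp
  have hst : St V 0 (η : ℂ) := st_of (nη hη) hD (by rwa [nnη hη]) (by rwa [nnη hη])
  refine lh_of hη hd hdη (clr_finite V β) (bx_den hη hD hR hr _ _ le_rfl (by linarith)) ?_ ?_
  · rw [sX_clr, bX_clr hβ]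
    refine hf_of (f := Prod.fst) hp (bL hD.gp (nη hη) h hN ?_)
    intro s h1 h2 h3 h4
    rw [Xη, lt_div_iff₀ hη] at h1
    rw [Xη, div_lt_iff₀ hη] at h2
    rw [Yη, lt_div_iff₀ hη] at h3
    rw [Yη, div_lt_iff₀ hη] at h4
    exact ⟨⟨by linarith, by linarith⟩, abs_lt.2 ⟨by linarith, by linarith⟩, fun _ => by linarith⟩
  · rw [sX_clr, wX_clr hβ]
    refine hf_of (f := Prod.snd) hp (wh_of (wL hD.gp (nη hη) h hst hN ?_))
    intro s h1 h2 h3 h4 h5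
    rw [Xη, lt_div_iff₀ hη] at h1
    rw [Xη, div_lt_iff₀ hη] at h2
    rw [Yη, lt_div_iff₀ hη] at h3
    rw [Yη, div_lt_iff₀ hη] at h4
    rw [Xη, div_le_iff₀ hη, Yη, lt_div_iff₀ hη] at h5
    exact ⟨⟨by linarith, by linarith⟩, abs_lt.2 ⟨by linarith, h4⟩,
      fun h6 => by linarith [h5 (by linarith)]⟩

/-- **helper653's gate event** -/
theorem fg_ge {P : TplIx204.DT} (hg : P.g = g0 η) (hQ : P.Q = Q0 η) (hη : 0 < η) (hd : 0 < d)
    (hdη : 4 * d ≤ η) (hβ : β ⊆ V) (hD : LDns V 0 R r) (hR : 27 * η ≤ R) (hr : 2 * r ≤ d)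
    (hr' : 20 * r ≤ η) (h : GE10 V 0 (η : ℂ) β) : FG P (RH η d) (LH η d) (clr V β) := by
  have hrd : r ≤ d := by linarith [hD.dpos]
  obtain ⟨p, hp⟩ := lg_ex hη hd hdη hβ hD hR hrd h
  refine ⟨⟨(clr_finite V β).subset Set.inter_subset_left, p, ?_⟩,
    rh_ge hη hd hdη hβ hD hR hr hr' h, lh_ge hη hd hdη hβ hD hR hr hr' h⟩
  rw [hg, hQ]
  exact (LG_cut subset_rfl p).2 hp

/-- **probability of helper653's gate event** -/
theorem fg_pr {P : TplIx204.DT} (hg : P.g = g0 η) (hQ : P.Q = Q0 η) (hη : 0 < η) (hd : 0 < d)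
    (hdη : 4 * d ≤ η) (hD : LDns V 0 R r) (hR : 27 * η ≤ R) (hr : 2 * r ≤ d)
    (hr' : 20 * r ≤ η) {c : ℝ} (h : c ≤ pr V (GEn V V 0 (η : ℂ) 10)) :
    c ≤ pr V fun β => FG P (RH η d) (LH η d) (clr V β) :=
  h.trans (pr_mono fun _ hβ h1 => fg_ge hg hQ hη hd hdη hβ hD hR hr hr' h1)

/-- the same from helper838's environment -/
theorem fg_nva {P : TplIx204.DT} (hg : P.g = g0 η) (hQ : P.Q = Q0 η) (hη : 0 < η) (hd : 0 < d)
    (hdη : 4 * d ≤ η) {K c2 C4 : ℝ} (hK : 20 ≤ K) (hN : NvA V 0 (K * (5 * η)) c2 (5 * η) r C4)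
    (hr : 2 * r ≤ d) (hr' : 20 * r ≤ η) {c : ℝ} (h : c ≤ pr V (GEn V V 0 (η : ℂ) 10)) :
    c ≤ pr V fun β => FG P (RH η d) (LH η d) (clr V β) :=
  fg_pr hg hQ hη hd hdη hN.dns (by nlinarith) hr hr' h

end Crest.Agent.R143.GeHx345
end
end

-- ▼ part R143/MassF_73
section

/-!
# Row 143, CORE-C, box R1d: `P(A ≥ b)` with one constant for all units (helper73)

* `MidH`, `GateH` : the two halves of 838's `gm`, named
* `mass_F` : `GateH` + `Gm` on a set of probability `≥ 1 - δ` ⟹ `b ≤ P (P.wA ≠ 0)` for every `P : DT`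
  with `g = g0 η`, `Q = Q0 η` whose `Gd` is implied by 73's goodness with `RH η d`, `LH η d`
-/

set_option autoImplicit false

noncomputable section

open scoped Classical

namespace Crest.Agent.R143.MassFx73

open Set MeasureTheory
open Crest.ProbabilityR.Voronoi
open Crest.Agent.R143.B0x346 Crest.Agent.R143.Blkx838
open Crest.Agent.R143.Gatex838 Crest.Agent.R143.Harx315
open Crest.Agent.R143.PP0x831 Crest.Agent.R143.Poisx304
open Crest.Agent.R143.Fairx653 Crest.Agent.R143.Halfx73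
open Crest.Agent.R143.TplIx204 (DT gd)
open Crest.Agent.R143.IndLocx279
open Crest.Agent.R143.RBmx838 (NvA)
open Crest.Agent.R143.EnvHx653 (Cab)
open Crest.Agent.R143.Posx653 Crest.Agent.R143.Gmx838 Crest.Agent.R143.GEprx838
open Crest.Agent.R143.TileRRx345 Crest.Agent.R143.ToolW2x838 Crest.Agent.R143.Neckx921
open Crest.Agent.R143.IndLoc3x279
open scoped ENNReal

/-- first half of 838's `gm` -/
def MidH (p c1 c2 K : ℝ) : Prop :=
  ∀ (R0 ε d η T : ℝ) (ω : Sample) (z e z' e' : ℂ), Gm R0 ε d K c2 η ω → 0 < d → d ≤ c1 * η →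
      0 < η → 10 * η ≤ 1 → 40 ≤ T → T ≤ 150 → ‖e‖ = η → Fr T z e z' e' →
      ‖z‖ + (K + 1) * (5 * η) + 2 * d ≤ R0 → ‖z'‖ + (K + 1) * (5 * η) + 2 * d ≤ R0 →
      ∀ D : Set ℂ, (∀ w, w ∈ Mi z e z' e' → w ∈ Re T z e z' e' → ∀ s, ‖s - w‖ < 2 * d → s ∈ D) →
      ∀ M V : Finset ℂ, (∀ s ∈ D, (s ∈ M ↔ s ∈ points ε ω)) →
      (∀ s ∈ D, s ∈ points ε ω → s ∈ V) →
      p ≤ pr V (MidB M T z e z' e') ∧ p ≤ pr V (fun τ => MidW M T z e z' e' (V \ τ))

/-- second half of 838's `gm` -/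
def GateH (p c1 c2 K : ℝ) : Prop :=
  ∀ (R0 ε d η : ℝ) (ω : Sample) (z e : ℂ), Gm R0 ε d K c2 η ω → 0 < d → d ≤ c1 * η → 0 < η →
      10 * η ≤ 1 → ‖e‖ = η → ‖z‖ + (K + 1) * (5 * η) + 2 * d ≤ R0 →
      ∀ S : Finset ℂ, GP (S : Set ℂ) →
      (∀ s : ℂ, ‖s - z‖ ≤ (K + 1) * (5 * η) + 2 * d → (s ∈ points ε ω ↔ s ∈ S)) →
      NvA S z (K * (5 * η)) c2 (5 * η) d Cab ∧ AllX S z e p ∧
      ∀ V : Finset ℂ, V ⊆ S → BoxIn S V z e →
        En S V z e (-12) 12 (-(91 / 10)) (-(48 / 10)) (1 / 20) ∧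
        ∀ b1 : ℝ, 9 ≤ b1 → b1 ≤ 11 → p ≤ pr V (GEn S V z e b1)

theorem gm' : ∃ p c1 c2 K : ℝ, 0 < p ∧ p ≤ 1 ∧ 0 < c1 ∧ c1 ≤ 1 / 20 ∧ 0 < c2 ∧ c2 ≤ 1 ∧ 20 ≤ K ∧
    MidH p c1 c2 K ∧ GateH p c1 c2 K := gm

variable {ε η p c1 c2 K r d R0 : ℝ} {P : DT}

/-- the sites of the sample in the big disc -/
def VR (ε R0 : ℝ) (ω : Sample) : Finset ℂ := fs (points ε ω ∩ Metric.closedBall 0 R0)

theorem coe_VR (hε : 0 < ε) (R0 : ℝ) (ω : Sample) :
    (VR ε R0 ω : Set ℂ) = points ε ω ∩ Metric.closedBall 0 R0 :=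
  fs_fin (pts_fin hε Metric.isBounded_closedBall ω)

theorem mem_VR (hε : 0 < ε) {ω : Sample} {s : ℂ} :
    s ∈ VR ε R0 ω ↔ s ∈ points ε ω ∧ ‖s‖ ≤ R0 := by
  have h := Set.ext_iff.1 (coe_VR hε R0 ω) s
  rw [Finset.mem_coe, mem_inter_iff, mem_closedBall_zero_iff] at h
  exact h

theorem box_sub (hη : 0 < η) (hR : 26 * η ≤ R0) {z : ℂ} (hz : z ∈ Q0 η ∪ (CR η ∪ CL η)) :
    ‖z‖ ≤ R0 := by
  have h1 := Complex.norm_le_abs_re_add_abs_im z
  have h2 : |z.re| ≤ 13 * η ∧ |z.im| ≤ 12 * η := by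
    rcases hz with ⟨a, b⟩ | ⟨⟨a, b⟩, c⟩ | ⟨⟨a, b⟩, c⟩
    · exact ⟨by linarith, b.le⟩
    · exact ⟨abs_le.2 ⟨by linarith, by linarith⟩, c.le⟩
    · exact ⟨abs_le.2 ⟨by linarith, by linarith⟩, c.le⟩
  linarith [h2.1, h2.2]

/-- **good gates have probability `≥ b`**, `b` does not depend on the unit -/
theorem mass_F (H : GateH p c1 c2 K) (hc1 : c1 ≤ 1 / 20) (hK : 20 ≤ K) (hg : P.g = g0 η)
    (hQ : P.Q = Q0 η) (hε : 0 < ε) (hη : 0 < η) (hη1 : 10 * η ≤ 1) (hr : 0 < r) (hr1 : r ≤ c1 * η)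
    (hrd : 2 * r ≤ d) (hd : 4 * d ≤ η) (hR : (K + 1) * (5 * η) + 2 * r ≤ R0) {δ : ℝ≥0∞}
    (hGm : sampleLaw {ω | ¬ Gm R0 ε r K c2 η ω} ≤ δ) {a b : ℝ≥0∞} (ha : a ≠ 0)
    (hGd : ∀ X, gd ε a (CR η) (CL η) (RH η d) (LH η d) X → P.Gd X)
    (hab : a + b ≤ ENNReal.ofReal p * (1 - δ)) : b ≤ sampleLaw {ω | P.wA (cfg ε ω) ≠ 0} := by
  have hd0 : 0 < d := by linarith
  have hR26 : 26 * η ≤ R0 := by nlinarith
  have mR : MeasurableSet (CR η) := TplIx204.CR_meas (η := η)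
  have mL : MeasurableSet (CL η) := TplIx204.CL_meas (η := η)
  have bR : Bornology.IsBounded (CR η) := TplIx204.CR_bdd (η := η) hη
  have bL : Bornology.IsBounded (CL η) := TplIx204.CL_bdd (η := η) hη
  have dRL : Disjoint (CR η) (CL η) := TplIx204.CR_CL (η := η) hη
  have dQR : Disjoint P.Q (CR η) := by
    rw [hQ, ← WQ_Q0 η (100 * η)]; exact TplIx204.Q_CR
  have dQL : Disjoint P.Q (CL η) := by
    rw [hQ, ← WQ_Q0 η (100 * η)]; exact TplIx204.Q_CL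
  have lR : LocalOn (P.Q ∪ CR η) (RH η d) := by rw [hQ]; exact RH_local η d
  have lL : LocalOn (P.Q ∪ CL η) (LH η d) := by rw [hQ]; exact LH_local η d
  refine mass (V := VR ε R0) (c := p) hε mR bR mL bL dRL dQR dQL lR lL (RH_fm η d) (LH_fm η d)
    ha hGd (Filter.Eventually.of_forall fun ω => ⟨?_, ?_⟩) (Gm := {ω | Gm R0 ε r K c2 η ω}) hGm ?_ hab
  · rw [coe_VR hε]; exact inter_subset_left
  · rintro z ⟨hz, hz'⟩
    rw [hQ] at hz'
    rw [Finset.mem_coe, mem_VR hε]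
    exact ⟨hz, box_sub hη hR26 hz'⟩
  · intro ω hω
    have hgp : GP ((VR ε R0 ω : Finset ℂ) : Set ℂ) := by
      refine Locx922.GP.mono hω.2.1 fun s hs => ?_
      exact ((mem_VR hε).1 (Finset.mem_coe.1 hs)).1
    have he : ‖((η : ℝ) : ℂ)‖ = η := by rw [Complex.norm_real, Real.norm_of_nonneg hη.le]
    have h1 := H R0 ε r η ω 0 (η : ℂ) hω hr hr1 hη hη1 he (by rw [norm_zero]; linarith)
      (VR ε R0 ω) hgp (fun s hs => by
        rw [mem_VR hε]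
        rw [sub_zero] at hs
        exact ⟨fun h => ⟨h, hs.trans hR⟩, fun h => h.1⟩)
    have h2 := (h1.2.2 (VR ε R0 ω) subset_rfl fun s hs _ _ => hs).2 10 (by norm_num) (by norm_num)
    exact GeHx345.fg_nva hg hQ hη hd0 hd hK h1.1 hrd (by nlinarith) h2

end Crest.Agent.R143.MassFx73
end
end

-- ▼ part R143/PosF_653
section

/-!
# R143 (helper653), box R1 (C): the template has positive constants

* `Dx η d a ε hε` : data of the template (73's gate `g0 η`, half events `RH η d`, `LH η d`; sizes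
  `9 η`, `51 η`, `12 η`, `52 η`, side `100 η`; goodness level `2 a`)
* `aepos_Dx`, `mass_Dx`, `wA_meas`, `lint_wA`
* `mids` : the lanes of a tile for the fresh positions (838)
* `TQ` : the quenched tile bound (120)
* `cC`, `ca`, `cc`, `cb` : **absolute constants**; `Dt η ε`, `Tr η ε` : the template
* `posF_of` : `TQ` gives `AePos` and `cb ≤ E wA`, eventually in `ε`, for every unit `η ≤ 1 / 10`
-/

set_option autoImplicit false

noncomputable section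

open scoped Classical

namespace Crest.Agent.R143.PosFx653

open MeasureTheory Set ProbabilityTheory Filter Topology
open Crest.ProbabilityR.Voronoi
open Crest.Agent.R143.B0x346 (GP)
open Crest.Agent.R143.PP0x831 Crest.Agent.R143.Poisx304 Crest.Agent.R143.Janx304
open Crest.Agent.R143.IndLocx279 Crest.Agent.R143.IndLoc3x279
open Crest.Agent.R143.PWx978 Crest.Agent.R143.Tplx978
open Crest.Agent.R143.Fairx653 Crest.Agent.R143.Posx653 Crest.Agent.R143.TplIx204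
open Crest.Agent.R143.QTbx653 Crest.Agent.R143.CBx838
open Crest.Agent.R143.PthFx765 Crest.Agent.R143.WLocx713 Crest.Agent.R143.TileRx228
open Crest.Agent.R143.Harx315 (pr pr_mono)
open Crest.Agent.R143.PP1x831 (rad)
open Crest.Agent.R143.Halfx73 (g0 RH LH RH_fm LH_fm RH_local LH_local Q0 WQ_Q0 gS gB)
open scoped ENNReal

variable {η d a ε : ℝ}

/-- **the data of the template** -/
def Dx (η d a ε : ℝ) (hε : 0 < ε) (hη : 0 < η) : DT where
  g := g0 η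
  A := 9 * η
  B := 51 * η
  A' := 12 * η
  B' := 52 * η
  h := 100 * η
  Gd := gd ε (ENNReal.ofReal a + ENNReal.ofReal a) (TplIx204.CR η) (TplIx204.CL η) (RH η d) (LH η d)
  Gm := gd_fm hε CR_meas (CR_bdd hη) CL_meas (CL_bdd hη) (RH_fm η d) (LH_fm η d)

section geo

variable (hε : 0 < ε) (hη : 0 < η)

theorem dA : (Dx η d a ε hε hη).A' = 12 * η := rfl

theorem dB : (Dx η d a ε hε hη).B' = (Dx η d a ε hε hη).h / 2 + 2 * η := by
  show 52 * η = 100 * η / 2 + 2 * η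
  ring

theorem dh : 60 * η ≤ (Dx η d a ε hε hη).h := by
  show 60 * η ≤ 100 * η
  linarith

theorem dQ : (Dx η d a ε hε hη).Q = Q0 η := by
  rw [DT.Q_eq (dA hε hη) (dB hε hη), WQ_Q0]

end geo

/-- **978's `AePos` for the template** -/
theorem aepos_Dx (hε : 0 < ε) (hη : 0 < η) {p : ℝ} (hp : p ≤ 1) {Gm : Set Sample} {δ : ℝ≥0∞}
    (hGm : sampleLaw Gmᶜ ≤ δ)
    (hq : ∀ t, ∀ ω ∈ Gm, ∀ S : Cf, S.Finite →
      S ⊆ ovr ((Dx η d a ε hε hη).Q ∪ (Dx η d a ε hε hη).Qn t) → Sc S →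
      GP (psn S ∪ (points ε ω ∩ (Dx η d a ε hε hη).D t)) →
      QTile (Dx η d a ε hε hη) t (RH η d) (LH η d) a p S
        (fs (points ε ω ∩ (Dx η d a ε hε hη).D t)))
    {c : ℝ≥0∞} (c0 : c ≠ 0) (c1 : c ≤ 1)
    (hc : c ≤ ENNReal.ofReal p * (ENNReal.ofReal a * ENNReal.ofReal a - δ)) :
    ((Dx η d a ε hε hη).raw ε hε c c0 c1).AePos := by
  have hA := dA (d := d) (a := a) hε hη
  have hB := dB (d := d) (a := a) hε hη
  have hh := dh (d := d) (a := a) hε hη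
  refine aepos (CR := TplIx204.CR η) (CL := TplIx204.CL η) (RH := RH η d) (LH := LH η d) (a := a)
    hε CR_meas CL_meas (fun t => DT.CRD hA hB hη hh t) (fun t => DT.CLD hA hB hη hh t) (CL_bdd hη)
    (fun t => CR_CLn hη hh t) ?_ ?_ (RH_fm η d) (LH_fm η d) (fun X h => h) hp hGm hq c0 c1 hc
  · rw [dQ]
    exact RH_local η d
  · rw [dQ]
    exact LH_local η d


/-- the weight of the gate is measurable -/
theorem wA_meas (P : DT) (hε : 0 < ε) : Measurable fun ω => P.wA (cfg ε ω) := by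
  have h := Prodx609.meas_cfg hε P.Q_meas P.Q_bdd P.wA_fm
  have e : (fun ω => P.wA (cfg ε ω)) = fun ω => P.wA (cfg ε ω ∩ ovr P.Q) :=
    funext fun ω => P.wA_local _
  rw [e]
  exact h

/-- the mean of the weight of the gate -/
theorem lint_wA (P : DT) (hε : 0 < ε) :
    ∫⁻ ω, P.wA (cfg ε ω) ∂sampleLaw = sampleLaw {ω | P.wA (cfg ε ω) ≠ 0} := by
  have hm := wA_meas P hε
  have hs : MeasurableSet {ω | P.wA (cfg ε ω) ≠ 0} := (hm (measurableSet_singleton 0)).compl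
  rw [← lintegral_indicator_one hs]
  refine lintegral_congr fun ω => ?_
  by_cases h : P.wA (cfg ε ω) ≠ 0
  · rw [Set.indicator_of_mem (by exact h)]
    have h1 : P.GA (cfg ε ω) := ind_ne.1 h
    show ind (P.GA (cfg ε ω)) = 1
    exact ind_of h1
  · rw [Set.indicator_of_notMem (by exact h)]
    exact not_not.1 h

/-! ### the middles -/

section mid

open Crest.Agent.R143.Gatex838 Crest.Agent.R143.TileRRx345 Crest.Agent.R143.Gmx838

theorem X_zero (η : ℝ) (s : ℂ) : X 0 (η : ℂ) s = s.re / η := by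
  unfold X
  rw [sub_zero, Complex.div_ofReal_re]

theorem Y_zero (η : ℝ) (s : ℂ) : Y 0 (η : ℂ) s = s.im / η := by
  unfold Y
  rw [sub_zero, Complex.div_ofReal_im]

theorem nxt_symm (h : ℝ) (t : Tn) (s : ℂ) :
    (nxt h t).e.symm s = (s - (nxt h t).e 0) / rot t := by
  have e : s - (nxt h t).e 0 = (nxt h t).e ((nxt h t).e.symm s) - (nxt h t).e 0 := by
    rw [(nxt h t).e.apply_symm_apply]
  rw [e, nxt_apply, nxt_apply]
  have h0 : rot t ≠ 0 := by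
    intro h1
    have := norm_rot t
    rw [h1, norm_zero] at this
    exact zero_ne_one this
  field_simp
  ring

theorem X_nxt (η : ℝ) (h : ℝ) (t : Tn) (s : ℂ) :
    X ((nxt h t).e 0) (rot t * (η : ℂ)) s = ((nxt h t).e.symm s).re / η := by
  unfold X
  rw [nxt_symm, ← Complex.div_ofReal_re, div_div]

theorem Y_nxt (η : ℝ) (h : ℝ) (t : Tn) (s : ℂ) :
    Y ((nxt h t).e 0) (rot t * (η : ℂ)) s = ((nxt h t).e.symm s).im / η := by
  unfold Y
  rw [nxt_symm, ← Complex.div_ofReal_im, div_div]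

theorem near_abs {w s : ℂ} {r : ℝ} (h : ‖s - w‖ < r) : |s.re - w.re| < r ∧ |s.im - w.im| < r := by
  have h1 := Complex.abs_re_le_norm (s - w)
  have h2 := Complex.abs_im_le_norm (s - w)
  rw [Complex.sub_re] at h1
  rw [Complex.sub_im] at h2
  exact ⟨h1.trans_lt h, h2.trans_lt h⟩

/-- points near the middle of the tile are in the tube box -/
theorem mi_D (hη : 0 < η) (hd : 4 * d ≤ η) (t : Tn) {w s : ℂ}
    (h1 : w ∈ Mi 0 (η : ℂ) ((nxt (100 * η) t).e 0) (rot t * (η : ℂ)))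
    (h2 : w ∈ Re 100 0 (η : ℂ) ((nxt (100 * η) t).e 0) (rot t * (η : ℂ)))
    (hs : ‖s - w‖ < 2 * d) : s ∈ WD (12 * η) (52 * η) (100 * η) t := by
  have hs' : ‖(nxt (100 * η) t).e.symm s - (nxt (100 * η) t).e.symm w‖ < 2 * d := by
    rw [mo_symm_norm (mo_nxt (100 * η) t)]
    exact hs
  obtain ⟨k1, k2⟩ := near_abs hs
  obtain ⟨k3, k4⟩ := near_abs hs'
  rw [abs_lt] at k1 k2 k3 k4
  obtain ⟨m1, m2⟩ := h1
  rw [X_zero η, le_div_iff₀ hη] at m1
  rw [X_nxt η, div_le_iff₀ hη] at m2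
  refine ⟨?_, ?_⟩
  · rcases h2 with ⟨⟨a1, a2⟩, a3, a4⟩ | ⟨⟨a1, a2⟩, a3, a4⟩
    · rw [X_zero η, lt_div_iff₀ hη] at a1
      rw [X_zero η, div_lt_iff₀ hη] at a2
      rw [Y_zero η, lt_div_iff₀ hη] at a3
      rw [Y_zero η, div_lt_iff₀ hη] at a4
      refine Or.inl ⟨⟨by linarith, by linarith⟩, ?_⟩
      rw [abs_lt]
      constructor <;> linarith
    · rw [X_nxt η, lt_div_iff₀ hη] at a1
      rw [X_nxt η, div_lt_iff₀ hη] at a2
      rw [Y_nxt η, lt_div_iff₀ hη] at a3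
      rw [Y_nxt η, div_lt_iff₀ hη] at a4
      refine Or.inr ⟨⟨by linarith, by linarith⟩, ?_⟩
      rw [abs_lt]
      constructor <;> linarith
  · rintro (⟨a1, -⟩ | ⟨a1, -⟩)
    · rw [abs_lt] at a1
      linarith
    · rw [abs_lt] at a1
      linarith

theorem norm_nx (hη : 0 < η) (hη1 : 10 * η ≤ 1) (t : Tn) : ‖(nxt (100 * η) t).e 0‖ ≤ 10 := by
  rw [nxt_zero, norm_mul, Complex.norm_real, Real.norm_eq_abs, abs_of_pos (by positivity)]
  have h1 : ‖1 + rot t‖ ≤ 2 := by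
    refine (norm_add_le _ _).trans ?_
    rw [norm_one, norm_rot]
    norm_num
  have h2 : 100 * η / 2 * ‖1 + rot t‖ ≤ 100 * η / 2 * 2 :=
    mul_le_mul_of_nonneg_left h1 (by positivity)
  linarith

/-- **the middles of a tile for the fresh positions** -/
theorem mids {p c1 c2 K r R0 : ℝ} (H : MassFx73.MidH p c1 c2 K) (hc1 : c1 ≤ 1 / 20)
    (hε : 0 < ε) (hη : 0 < η) (hη1 : 10 * η ≤ 1) (hr : 0 < r) (hr1 : r ≤ c1 * η)
    (hR : 10 + (K + 1) * (5 * η) + 2 * r ≤ R0) {ω : Sample}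
    (hω : Gmx838.Gm R0 ε r K c2 η ω) (t : Tn) (S : Cf) :
    p ≤ pr (fs (points ε ω ∩ (Dx η d a ε hε hη).D t))
      (MidB (gS S (Dx η d a ε hε hη).Q ∪ fs (points ε ω ∩ (Dx η d a ε hε hη).D t) ∪
        gS S ((Dx η d a ε hε hη).Qn t)) 100 0 (η : ℂ) ((nxt (100 * η) t).e 0)
        (rot t * (η : ℂ))) ∧
    p ≤ pr (fs (points ε ω ∩ (Dx η d a ε hε hη).D t)) (fun τ =>
      MidW (gS S (Dx η d a ε hε hη).Q ∪ fs (points ε ω ∩ (Dx η d a ε hε hη).D t) ∪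
        gS S ((Dx η d a ε hε hη).Qn t)) 100 0 (η : ℂ) ((nxt (100 * η) t).e 0)
        (rot t * (η : ℂ)) (fs (points ε ω ∩ (Dx η d a ε hε hη).D t) \ τ)) := by
  set P := Dx η d a ε hε hη with hP
  set V := fs (points ε ω ∩ P.D t) with hV
  have hVm : ∀ s, s ∈ V ↔ s ∈ points ε ω ∧ s ∈ P.D t := fun s =>
    mem_fs (pts_fin hε (P.D_bdd t) ω)
  have he : ‖((η : ℝ) : ℂ)‖ = η := by rw [Complex.norm_real, Real.norm_of_nonneg hη.le]
  have hnx := norm_nx hη hη1 t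
  have dD : Disjoint (P.Q ∪ P.Qn t) (P.D t) := P.D_disj t
  have hc : c1 * η ≤ 1 / 20 * η := mul_le_mul_of_nonneg_right hc1 hη.le
  refine H R0 ε r η 100 ω 0 (η : ℂ) _ _ hω hr hr1 hη hη1 (by norm_num) (by norm_num) he
    (fr_nxt η 100 t) (by rw [norm_zero]; linarith) (by linarith) (P.D t) ?_ _ V ?_
    (fun s h1 h2 => (hVm s).2 ⟨h2, h1⟩)
  · intro w h1 h2 s hs
    exact mi_D hη (d := r) (by linarith) t h1 h2 hs
  · intro s hs
    rw [Finset.mem_union, Finset.mem_union]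
    constructor
    · rintro ((h | h) | h)
      · exact absurd hs (fun h' => Set.disjoint_left.1 dD (Or.inl (gS_mem h)) h')
      · exact ((hVm s).1 h).1
      · exact absurd hs (fun h' => Set.disjoint_left.1 dD (Or.inr (gS_mem h)) h')
    · intro h
      exact Or.inl (Or.inr ((hVm s).2 ⟨h, hs⟩))

end mid

/-! ### the constants -/

/-- the quenched tile bound (120) -/
def TQ : Prop := ∀ (η d a p ε : ℝ) (hε : 0 < ε) (hη : 0 < η), 0 < d → 4 * d ≤ η → 0 ≤ a → 0 ≤ p →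
  ∀ (t : Tn) (S : Cf) (T : Finset ℂ), S.Finite → Sc S →
  S ⊆ ovr ((Dx η d a ε hε hη).Q ∪ (Dx η d a ε hε hη).Qn t) →
  (∀ s ∈ T, s ∈ (Dx η d a ε hε hη).D t) → GP (psn S ∪ T) →
  p ≤ pr T (TileRRx345.MidB (gS S (Dx η d a ε hε hη).Q ∪ T ∪
        gS S ((Dx η d a ε hε hη).Qn t)) 100 0 (η : ℂ) ((nxt (100 * η) t).e 0)
        (rot t * (η : ℂ))) →
  p ≤ pr T (fun τ => TileRRx345.MidW (gS S (Dx η d a ε hε hη).Q ∪ T ∪
        gS S ((Dx η d a ε hε hη).Qn t)) 100 0 (η : ℂ) ((nxt (100 * η) t).e 0)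
        (rot t * (η : ℂ)) (T \ τ)) →
  QTile (Dx η d a ε hε hη) t (RH η d) (LH η d) a (a * (p * p) * a) S T

/-- **THE TEMPLATE HAS POSITIVE CONSTANTS** (the constants do not depend on the unit `η`) -/
theorem pos_ex : ∃ (C a : ℝ) (c b : ℝ≥0∞), (0 < C ∧ 0 < a ∧ c ≠ 0 ∧ c ≤ 1 ∧ b ≠ 0 ∧ b ≤ 1) ∧ (TQ →
    ∀ η : ℝ, 0 < η → 10 * η ≤ 1 → ∀ᶠ ε : ℝ in 𝓝[>] 0, 0 < rad C ε ∧ 8 * rad C ε ≤ η ∧
      ∀ (hε : 0 < ε) (hη : 0 < η) (c0 : c ≠ 0) (c1 : c ≤ 1),
        ((Dx η (2 * rad C ε) a ε hε hη).raw ε hε c c0 c1).AePos ∧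
        b ≤ sampleLaw {ω | (Dx η (2 * rad C ε) a ε hε hη).wA (cfg ε ω) ≠ 0}) := by
  obtain ⟨p, c1, c2, K, hp, hp1, hc1, hc1', hc2, hc2', hK, HM, HG⟩ := MassFx73.gm'
  obtain ⟨C, hC, HC⟩ := Gmx838.gm_pr (11 + (K + 1)) 1
  set a : ℝ := p / 4 with ha
  have ha0 : 0 < a := by positivity
  have ha1 : a ≤ 1 / 4 := by rw [ha]; linarith
  set δ : ℝ := a ^ 2 / 2 with hδ
  have hδ0 : 0 < δ := by positivity
  have hδ1 : δ ≤ 1 / 4 := by rw [hδ]; nlinarith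
  set p' : ℝ := a * (p * p) * a with hp'
  have hp'0 : 0 < p' := by positivity
  have hp'1 : p' ≤ 1 := by
    rw [hp']
    have h1 : p * p ≤ 1 := by nlinarith
    have h2 : a * (p * p) ≤ 1 / 4 := by nlinarith [mul_pos hp hp]
    nlinarith [mul_pos ha0 (mul_pos hp hp)]
  refine ⟨C, a, ENNReal.ofReal (p' * δ), ENNReal.ofReal (p / 4), ⟨hC, ha0,
    (ENNReal.ofReal_pos.2 (by positivity)).ne', ?_, (ENNReal.ofReal_pos.2 (by positivity)).ne', ?_⟩, ?_⟩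
  · rw [ENNReal.ofReal_le_one]
    nlinarith
  · rw [ENNReal.ofReal_le_one]
    linarith
  intro HT η hη hη1
  have hsm : ∀ᶠ ε : ℝ in 𝓝[>] 0, ε ≤ δ :=
    (tendsto_nhdsWithin_of_tendsto_nhds tendsto_id).eventually (Iic_mem_nhds hδ0)
  filter_upwards [HC K (min c1 (1 / 16)) c2 η (by linarith) (by positivity) hc2 hη, hsm,
    eventually_mem_nhdsWithin] with ε h1 h2 hε'
  obtain ⟨⟨hr, hr1⟩, hGm⟩ := h1
  have hra : rad C ε ≤ c1 * η := hr1.trans (mul_le_mul_of_nonneg_right (min_le_left _ _) hη.le)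
  have hrb : rad C ε ≤ 1 / 16 * η := hr1.trans (mul_le_mul_of_nonneg_right (min_le_right _ _) hη.le)
  refine ⟨hr, by linarith, ?_⟩
  intro hε hη' c0' c1'
  have hKη : (K + 1) * (5 * η) ≤ (K + 1) / 2 := by nlinarith
  have hR : 10 + (K + 1) * (5 * η) + 2 * rad C ε ≤ 11 + (K + 1) := by linarith
  have hGd : sampleLaw {ω | ¬ Gmx838.Gm (11 + (K + 1)) ε (rad C ε) K c2 η ω} ≤ ENNReal.ofReal δ := by
    refine hGm.trans (ENNReal.ofReal_le_ofReal ?_)
    rw [Real.rpow_one]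
    exact h2
  constructor
  · refine aepos_Dx hε hη' hp'1 (Gm := {ω | Gmx838.Gm (11 + (K + 1)) ε (rad C ε) K c2 η ω}) hGd ?_
      c0' c1' ?_
    · intro t ω hω S hS hSQ hc hgp
      set P := Dx η (2 * rad C ε) a ε hε hη' with hP
      have hVm : ∀ s, s ∈ fs (points ε ω ∩ P.D t) ↔ s ∈ points ε ω ∧ s ∈ P.D t := fun s =>
        mem_fs (pts_fin hε (P.D_bdd t) ω)
      obtain ⟨m1, m2⟩ := mids (d := 2 * rad C ε) (a := a) HM hc1' hε hη' hη1 hr hra hR hω t S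
      refine HT η (2 * rad C ε) a p ε hε hη' (by linarith) (by linarith) ha0.le hp.le t S _ hS hc hSQ
        (fun s hs => ((hVm s).1 hs).2) ?_ m1 m2
      rw [fs_fin (pts_fin hε (P.D_bdd t) ω)]
      exact hgp
    · rw [← ENNReal.ofReal_mul ha0.le, ← ENNReal.ofReal_sub _ hδ0.le, ← ENNReal.ofReal_mul hp'0.le]
      refine ENNReal.ofReal_le_ofReal ?_
      refine mul_le_mul_of_nonneg_left ?_ hp'0.le
      rw [hδ]
      nlinarith
  · refine MassFx73.mass_F (P := Dx η (2 * rad C ε) a ε hε hη') HG hc1' hK rfl (dQ hε hη') hε hη hη1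
      hr hra (d := 2 * rad C ε) le_rfl (by linarith) (by linarith) hGd
      (a := ENNReal.ofReal a + ENNReal.ofReal a) ?_ (fun X h => h) ?_
    · rw [← ENNReal.ofReal_add ha0.le ha0.le]
      exact (ENNReal.ofReal_pos.2 (by linarith)).ne'
    · rw [← ENNReal.ofReal_one, ← ENNReal.ofReal_sub _ hδ0.le, ← ENNReal.ofReal_mul hp.le,
        ← ENNReal.ofReal_add ha0.le ha0.le, ← ENNReal.ofReal_add (by linarith) (by positivity)]
      refine ENNReal.ofReal_le_ofReal ?_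
      rw [ha]
      nlinarith

/-- the constant of the density radius `rad cC ε` -/
def cC : ℝ := pos_ex.choose

/-- the goodness level (`gd` at the level `2 ca`) -/
def ca : ℝ := pos_ex.choose_spec.choose

/-- **the constant of the tiles** -/
def cc : ℝ≥0∞ := pos_ex.choose_spec.choose_spec.choose

/-- **the constant of the gates** -/
def cb : ℝ≥0∞ := pos_ex.choose_spec.choose_spec.choose_spec.choose

theorem cs : 0 < cC ∧ 0 < ca ∧ cc ≠ 0 ∧ cc ≤ 1 ∧ cb ≠ 0 ∧ cb ≤ 1 :=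
  pos_ex.choose_spec.choose_spec.choose_spec.choose_spec.1



theorem cc_ne : cc ≠ 0 := cs.2.2.1

theorem cc_le : cc ≤ 1 := cs.2.2.2.1

theorem cb_ne : cb ≠ 0 := cs.2.2.2.2.1

theorem cb_le : cb ≤ 1 := cs.2.2.2.2.2

/-- **data of the template** at the unit `η` and intensity `ε` -/
def Dt (η ε : ℝ) (hε : 0 < ε) (hη : 0 < η) : DT := Dx η (2 * rad cC ε) ca ε hε hη

/-- **the template** -/
def Tr (η ε : ℝ) (hε : 0 < ε) (hη : 0 < η) : Raw ε (Tn × Bool) :=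
  (Dt η ε hε hη).raw ε hε cc cc_ne cc_le

/-- **THE TEMPLATE HAS POSITIVE CONSTANTS** -/
theorem posF_of (HT : TQ) {η : ℝ} (hη : 0 < η) (hη1 : 10 * η ≤ 1) :
    ∀ᶠ ε : ℝ in 𝓝[>] 0, 0 < rad cC ε ∧ 8 * rad cC ε ≤ η ∧ ∀ (hε : 0 < ε) (hη : 0 < η),
      (Tr η ε hε hη).AePos ∧ cb ≤ sampleLaw {ω | (Dt η ε hε hη).wA (cfg ε ω) ≠ 0} ∧
      cb ≤ ∫⁻ ω, (Dt η ε hε hη).wA (cfg ε ω) ∂sampleLaw := by
  filter_upwards [pos_ex.choose_spec.choose_spec.choose_spec.choose_spec.2 HT η hη hη1] with ε h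
  refine ⟨h.1, h.2.1, fun hε hη => ?_⟩
  obtain ⟨h1, h2⟩ := h.2.2 hε hη cc_ne cc_le
  exact ⟨h1, h2, by rw [lint_wA _ hε]; exact h2⟩

end Crest.Agent.R143.PosFx653
end
end

-- ▼ part R143/TQ_653
section

/-!
# R143 (helper653), box R1 (C): the quenched tile bound at the template

* `tq : TQ`, from `theta_ge` (73), the middles (345) and the half events `gdR`, `gdL` (73)
* `posF` : the template has positive constants
-/

set_option autoImplicit false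

noncomputable section

open scoped Classical

namespace Crest.Agent.R143.PosFx653

open MeasureTheory Set ProbabilityTheory Filter Topology
open Crest.ProbabilityR.Voronoi
open Crest.Agent.R143.B0x346 (GP)
open Crest.Agent.R143.PP0x831 Crest.Agent.R143.Poisx304 Crest.Agent.R143.Janx304
open Crest.Agent.R143.IndLocx279 Crest.Agent.R143.IndLoc3x279
open Crest.Agent.R143.PWx978 Crest.Agent.R143.Tplx978
open Crest.Agent.R143.Fairx653 Crest.Agent.R143.Posx653 Crest.Agent.R143.TplIx204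
open Crest.Agent.R143.QTbx653 Crest.Agent.R143.CBx838
open Crest.Agent.R143.PthFx765 Crest.Agent.R143.WLocx713 Crest.Agent.R143.TileRx228
open Crest.Agent.R143.Harx315 (pr pr_mono)
open Crest.Agent.R143.PP1x831 (rad)
open Crest.Agent.R143.Gatex838 Crest.Agent.R143.TileRRx345
open Crest.Agent.R143.Neckx921 (Tile Lk)
open Crest.Agent.R143.Thetax73 (Su theta_ge)
open Crest.Agent.R143.RHx73 (Hf Pb Pw)
open Crest.Agent.R143.Halfx73 (g0 RH LH Q0 WQ_Q0 gS gB gB_sub KBR KWR KBL KWL gdR gdL)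
open scoped ENNReal

variable {η d a ε : ℝ}

/-- the rectangles of the tile are in the tile region -/
theorem re_WR (hη : 0 < η) (t : Tn) {w : ℂ}
    (h2 : w ∈ Re 100 0 (η : ℂ) ((nxt (100 * η) t).e 0) (rot t * (η : ℂ))) :
    w ∈ WR (9 * η) (51 * η) (100 * η) t := by
  rcases h2 with ⟨⟨a1, a2⟩, a3, a4⟩ | ⟨⟨a1, a2⟩, a3, a4⟩
  · rw [X_zero η, lt_div_iff₀ hη] at a1
    rw [X_zero η, div_lt_iff₀ hη] at a2
    rw [Y_zero η, lt_div_iff₀ hη] at a3
    rw [Y_zero η, div_lt_iff₀ hη] at a4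
    refine Or.inl ⟨⟨by linarith, by linarith⟩, ?_⟩
    rw [abs_lt]
    constructor <;> linarith
  · rw [X_nxt η, lt_div_iff₀ hη] at a1
    rw [X_nxt η, div_lt_iff₀ hη] at a2
    rw [Y_nxt η, lt_div_iff₀ hη] at a3
    rw [Y_nxt η, div_lt_iff₀ hη] at a4
    refine Or.inr ⟨⟨by linarith, by linarith⟩, ?_⟩
    rw [abs_lt]
    constructor <;> linarith

/-- a link region at the first gate -/
theorem kr_WR (hη : 0 < η) (t : Tn) {w : ℂ} (h : w ∈ KBR η ∪ KWR η) :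
    w ∈ WR (9 * η) (51 * η) (100 * η) t := by
  rcases h with ⟨⟨h1, h2⟩, h3, -⟩ | ⟨⟨h1, h2⟩, h3, -⟩ <;>
    exact Or.inl ⟨⟨by linarith, by linarith⟩, h3⟩

/-- a link region at the second gate -/
theorem kl_WR (hη : 0 < η) (t : Tn) {w : ℂ}
    (h : w ∈ (nxt (100 * η) t).e.symm ⁻¹' (KBL η ∪ KWL η)) :
    w ∈ WR (9 * η) (51 * η) (100 * η) t := by
  rcases h with ⟨⟨h1, h2⟩, h3, -⟩ | ⟨⟨h1, h2⟩, h3, -⟩ <;>
    exact Or.inr ⟨⟨by linarith, by linarith⟩, h3⟩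

/-- outside the gate box a point of a link region is beyond `2 η` -/
theorem off_Q0 (hη : 0 < η) {w : ℂ} (h : w ∉ Q0 η) (h1 : -η < w.re) (h2 : |w.im| < 9 * η) :
    2 * η ≤ w.re := by
  by_contra h3
  refine h ⟨?_, by linarith⟩
  rw [abs_lt]
  constructor <;> linarith

theorem off_Q0' (hη : 0 < η) {w : ℂ} (h : w ∉ Q0 η) (h1 : w.re < η) (h2 : |w.im| < 9 * η) :
    w.re ≤ -(2 * η) := by
  by_contra h3
  refine h ⟨?_, by linarith⟩
  rw [abs_lt]
  constructor <;> linarith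

/-- **the quenched tile bound** -/
theorem tq : TQ := by
  intro η d a p ε hε hη hd hdη ha hp t S T hS hc hSQ hT hgp mB mW
  set P := Dx η d a ε hε hη with hP
  have hA := dA (d := d) (a := a) hε hη
  have hB := dB (d := d) (a := a) hε hη
  have hh := dh (d := d) (a := a) hε hη
  have eQ : P.Q = Q0 η := dQ hε hη
  have dD : Disjoint (P.Q ∪ P.Qn t) (P.D t) := P.D_disj t
  refine qtile_of hS hc hSQ hT ?_
  intro b b' hb hb' h1 h2
  -- frames
  set z' : ℂ := (nxt (100 * η) t).e 0 with hz'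
  set e' : ℂ := rot t * (η : ℂ) with he'
  have he : (η : ℂ) ≠ 0 := by exact_mod_cast hη.ne'
  have f : Fr 100 0 (η : ℂ) z' e' := fr_nxt η 100 t
  -- sets of sites
  set G := gS S P.Q with hG
  set G' := gS S (P.Qn t) with hG'
  set q := gB S P.Q with hq
  set q' := gB S (P.Qn t) with hq'
  set M := G ∪ T ∪ G' with hM
  have hT1 : ∀ s ∈ T, s ∉ P.Q := fun s hs h => Set.disjoint_left.1 dD (Or.inl h) (hT s hs)
  have hT2 : ∀ s ∈ T, s ∉ P.Qn t := fun s hs h => Set.disjoint_left.1 dD (Or.inr h) (hT s hs)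
  have dG : Disjoint G T := gs_disj hT1
  have dG' : Disjoint G' T := gs_disj hT2
  have dGG : Disjoint G G' := gs_gs (DT.QQn hA hB hη hh t)
  have eM : sx S ∪ T = M := sx_gS hS hSQ
  have gM : GP (M : Set ℂ) := by rw [hM, coe_gS hS hSQ]; exact hgp
  set To := T.filter (· ∈ Wh 0 (η : ℂ) z' e') with hTo
  set Ti := T.filter (fun s => ¬ s ∈ Wh 0 (η : ℂ) z' e') with hTi
  have hoi : Disjoint To Ti := by
    rw [Finset.disjoint_left]
    intro s h3 h4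
    exact (Finset.mem_filter.1 h4).2 (Finset.mem_filter.1 h3).2
  -- the half events
  have g1 := gdR (T := T) (a := a) hη hd hdη hS hc (fun s hs h3 => by
    obtain ⟨v, hv, rfl⟩ := hs
    exact Set.disjoint_left.1 dD (hSQ hv) (DT.CRD hA hB hη hh t h3)) (fun s hs => by
      rw [← eQ]; exact hT1 s hs) h1
  have g2 := gdL (T := T) (a := a) (h := 100 * η) (t := t) hη hd hdη hS hc (fun s hs h3 => by
    obtain ⟨v, hv, rfl⟩ := hs
    exact Set.disjoint_left.1 dD (hSQ hv) (DT.CLD hA hB hη hh t h3)) (fun s hs h3 => by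
      refine hT2 s hs ?_
      show (nxt (100 * η) t).e.symm s ∈ P.Q
      rw [eQ]; exact h3) h2
  rw [eM] at g1 g2
  rw [← eQ] at g1 g2
  rw [mul_comm (η : ℂ) (rot t)] at g2
  -- supports
  have K1 : ∀ s ∈ T, s ∈ KBR η → s ∈ Ti := fun s hs h3 => by
    refine Finset.mem_filter.2 ⟨hs, not_wh he (by norm_num) f ?_ ?_⟩
    · rw [Y_zero, div_lt_iff₀ hη]
      have := h3.2.2 (off_Q0 hη (by rw [← eQ]; exact hT1 s hs) h3.1.1 h3.2.1)
      linarith
    · rw [X_zero, div_le_iff₀ hη]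
      linarith [h3.1.2]
  have K2 : ∀ s ∈ T, s ∈ KWR η → s ∈ To := fun s hs h3 => by
    refine Finset.mem_filter.2 ⟨hs, wh he (by norm_num) f ?_ ?_⟩
    · rw [Y_zero, lt_div_iff₀ hη]
      have := h3.2.2 (off_Q0 hη (by rw [← eQ]; exact hT1 s hs) h3.1.1 h3.2.1)
      linarith
    · rw [X_zero, div_le_iff₀ hη]
      linarith [h3.1.2]
  have oQn : ∀ s ∈ T, (nxt (100 * η) t).e.symm s ∉ Q0 η := fun s hs h3 => by
    refine hT2 s hs ?_
    show (nxt (100 * η) t).e.symm s ∈ P.Q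
    rw [eQ]
    exact h3
  have K3 : ∀ s ∈ T, s ∈ (nxt (100 * η) t).e.symm ⁻¹' KBL η → s ∈ Ti := fun s hs h3 => by
    refine Finset.mem_filter.2 ⟨hs, not_wh' he (by norm_num) f ?_ ?_⟩
    · rw [Y_nxt, div_lt_iff₀ hη]
      have := h3.2.2 (off_Q0' hη (oQn s hs) h3.1.2 h3.2.1)
      linarith
    · rw [X_nxt, le_div_iff₀ hη]
      linarith [h3.1.1]
  have K4 : ∀ s ∈ T, s ∈ (nxt (100 * η) t).e.symm ⁻¹' KWL η → s ∈ To := fun s hs h3 => by
    refine Finset.mem_filter.2 ⟨hs, wh' he (by norm_num) f ?_ ?_⟩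
    · rw [Y_nxt, lt_div_iff₀ hη]
      have := h3.2.2 (off_Q0' hη (oQn s hs) h3.1.2 h3.2.1)
      linarith
    · rw [X_nxt, le_div_iff₀ hη]
      linarith [h3.1.1]
  have Z1 : ∀ s ∈ T, 10 < X 0 (η : ℂ) s → X 0 (η : ℂ) s < 101 / 10 → (-8 : ℝ) - 1 / 20 ≤ Y 0 (η : ℂ) s →
      Y 0 (η : ℂ) s ≤ -(47 / 10) + 1 / 20 → s ∈ Ti := fun s hs a1 a2 a3 a4 =>
    Finset.mem_filter.2 ⟨hs, not_wh he (by norm_num) f (by linarith) (by linarith)⟩
  have Z2 : ∀ s ∈ T, 10 < X 0 (η : ℂ) s → X 0 (η : ℂ) s < 101 / 10 → (2 : ℝ) - 1 / 20 ≤ Y 0 (η : ℂ) s →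
      Y 0 (η : ℂ) s ≤ 8 + 1 / 20 → s ∈ To := fun s hs a1 a2 a3 a4 =>
    Finset.mem_filter.2 ⟨hs, wh he (by norm_num) f (by linarith) (by linarith)⟩
  have Z3 : ∀ s ∈ T, -(101 / 10) < X z' e' s → X z' e' s < -10 → (-8 : ℝ) - 1 / 20 ≤ Y z' e' s →
      Y z' e' s ≤ -(47 / 10) + 1 / 20 → s ∈ Ti := fun s hs a1 a2 a3 a4 =>
    Finset.mem_filter.2 ⟨hs, not_wh' he (by norm_num) f (by linarith) (by linarith)⟩
  have Z4 : ∀ s ∈ T, -(101 / 10) < X z' e' s → X z' e' s < -10 → (2 : ℝ) - 1 / 20 ≤ Y z' e' s →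
      Y z' e' s ≤ 8 + 1 / 20 → s ∈ To := fun s hs a1 a2 a3 a4 =>
    Finset.mem_filter.2 ⟨hs, wh' he (by norm_num) f (by linarith) (by linarith)⟩
  have su : ∀ {G0 W : Finset ℂ} {z e : ℂ} {l0 l1 p0 p1 m : ℝ} {K P0 : Set ℂ},
      (∀ s ∈ T, s ∈ K → s ∈ W) → (∀ s ∈ T, l0 < X z e s → X z e s < l1 → p0 - m ≤ Y z e s →
        Y z e s ≤ p1 + m → s ∈ W) → Su (G0 ∪ T) (G0 ∪ W) (Hf M z e l0 l1 p0 p1 m K P0) := by
    intro G0 W z e l0 l1 p0 p1 m K P0 k1 k2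
    refine Hf.su (fun s hs hk => ?_) (fun s hs b1 b2 b3 b4 => ?_)
    · rw [Finset.mem_union] at hs ⊢
      exact hs.imp id fun h => k1 s h hk
    · rw [Finset.mem_union] at hs ⊢
      exact hs.imp id fun h => k2 s h b1 b2 b3 b4
  refine theta_ge (To := To) (Ti := Ti) (Mw := MidW M 100 0 (η : ℂ) z' e')
    (Mb := MidB M 100 0 (η : ℂ) z' e')
    (E := fun β => Tile M M β (WR P.A P.B P.h t) b.1 b.2 b'.1 b'.2) ha hp dG dG' dGG hoi
    (gB_sub hS _) (gB_sub hS _) Hf.mo Hf.mo Hf.mo Hf.mo mo_midW mo_midB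
    (su K2 Z2) (su K1 Z1) (su K4 Z4) (su K3 Z3)
    (su_midW he (by norm_num) f fun s hs h3 _ _ => Finset.mem_filter.2 ⟨hs, h3⟩)
    (su_midB he (by norm_num) f fun s hs h3 _ _ => Finset.mem_filter.2 ⟨hs, h3⟩)
    g1 mW mB g2 ?_
  -- the deterministic part
  rintro β hβ ⟨l1, v1, k1⟩ ⟨l2, v2, k2⟩ ⟨l3, v3, k3⟩ ⟨l4, v4, k4⟩ hMb hMw
  have w1 : ∀ t0 ∈ l1, Lk M {s | s ∈ β ∧ s ∈ WR P.A P.B P.h t} b.1 t0 := fun t0 ht0 =>
    (k1 b.1 ⟨b, hb, rfl⟩ t0 ht0).mono fun s hs => ⟨hs.1, kr_WR hη t (Or.inl hs.2)⟩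
  have w2 : ∀ t0 ∈ l2, Lk M {s | (s ∈ M ∧ s ∉ β) ∧ s ∈ WR P.A P.B P.h t} b.2 t0 := fun t0 ht0 =>
    (k2 b.2 ⟨b, hb, rfl⟩ t0 ht0).mono fun s hs =>
      ⟨Finset.mem_sdiff.1 hs.1, kr_WR hη t (Or.inr hs.2)⟩
  have w3 : ∀ t0 ∈ l3, Lk M {s | s ∈ β ∧ s ∈ WR P.A P.B P.h t} b'.1 t0 := fun t0 ht0 =>
    (k3 b'.1 ⟨b', hb', rfl⟩ t0 ht0).mono fun s hs => ⟨hs.1, kl_WR hη t (Or.inl hs.2)⟩
  have w4 : ∀ t0 ∈ l4, Lk M {s | (s ∈ M ∧ s ∉ β) ∧ s ∈ WR P.A P.B P.h t} b'.2 t0 := fun t0 ht0 =>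
    (k4 b'.2 ⟨b', hb', rfl⟩ t0 ht0).mono fun s hs =>
      ⟨Finset.mem_sdiff.1 hs.1, kl_WR hη t (Or.inr hs.2)⟩
  exact tile_all
    (half_b gM he (by norm_num) f v1 v3 (by norm_num) (by norm_num) (by norm_num) (by norm_num)
      hMb w1 w3 fun s _ _ h3 => re_WR hη t h3)
    (half_w gM he (by norm_num) f v2 v4 (by norm_num) (by norm_num) (by norm_num) (by norm_num)
      hMw w2 w4 fun s _ _ h3 => re_WR hη t h3)


end Crest.Agent.R143.PosFx653
end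
end

-- ▼ part R143/RigX_609
section

/-!
# Row 143 (S0194), RIG: the last instance (helper609)

Numbers of 377 (`√h` precision): `a2 u`, `th u`, `rF 13`, `k = 18 et N`, `c = 3`; bad set = complement
of a finite list `L N` of 133's environments; displacement of 840.

* `Mom Z u w C1`, `Qok Z u w C3 Q` : the fields `mom`, `hQ` (854, 377)
* `Inn Z u w L Q` : **the inner input** (597): a.e. in the environments of the list, `QuenX` and `Con`
* **`op_of`**, **`rig_of_inn`** : `POLY Poly.T Poly.T'`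
-/

set_option autoImplicit false

noncomputable section

open scoped Classical

namespace Crest.Agent.R143.RigXx609

open MeasureTheory Set Filter Topology
open scoped ENNReal
open Crest.ProbabilityR.Voronoi
open Crest.Agent.R143.PP0x831 Crest.Agent.R143.B0x346
open Crest.Agent.R143.PolyUx346 (Poly)
open Crest.Agent.R143.AsmNx758 (POLY)
open Crest.Agent.R143.IndLoc3x279 (clr)
open Crest.Agent.R143.InpJx609 (mv)
open Crest.Agent.R143.RigCx654 (tI)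
open Crest.Agent.R143.PolySx854 Crest.Agent.R143.PolyEx854
open Crest.Agent.R143.RigPx854
open Crest.Agent.R143.RigZdx609 Crest.Agent.R143.RigZx609 Crest.Agent.R143.RigYx609
open Crest.Agent.R143.CorEx133 (RU UU SU)
open Crest.Agent.R143.QuenSx654 (SmE)
open Crest.Agent.R143.SpMx169 (fP fP_meas)
open Crest.Agent.R143.R10Nx930 (Con)
open Crest.Agent.R143.RigNx377

/-- field `mom` -/
def Mom (Z : TData) (u : Poly) (w : ZMod 3) (C1 : ℝ) : Prop :=
  Ev u fun N ε hn he => ∀ l ∈ Finset.range (nT u w N),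
    Integrable (fun ω => gW Z u w hn he (cfg ε ω) * ‖VL Z fP u w ε hn l (cfg ε ω)‖ ^ 2)
      sampleLaw ∧
    ∫ ω, gW Z u w hn he (cfg ε ω) * ‖VL Z fP u w ε hn l (cfg ε ω)‖ ^ 2 ∂sampleLaw ≤
      (C1 * hN N) ^ 2 * g0 Z u w hn he

/-- field `hQ` -/
def Qok (Z : TData) (u : Poly) (w : ZMod 3) (C3 : ℝ) (Q : ℕ → ℝ → Sample → ℝ) : Prop :=
  Ev u fun N ε hn he => (∀ ω, 0 ≤ Q N ε ω) ∧ Integrable (Q N ε) sampleLaw ∧
    ∫ ω, Q N ε ω ∂sampleLaw ≤ C3 ^ 2 * hN N * g0 Z u w hn he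

/-- **the inner input** at one `(N, ε, ω)` -/
def InnP (Z : TData) (u : Poly) (w : ZMod 3) (Q : ℕ → ℝ → Sample → ℝ) (e0 : ℝ) (N : ℕ) (ε : ℝ)
    (hn : u.n + 4 ≤ N) (he : 0 < ε) (ω : Sample) : Prop :=
  (∀ E : ℝ, SmE ε ω (UU u) (18 * et N) E →
    QuenX (nT u w N) (rF 13 N) 3 (SU u ε ω) (gW Z u w hn he) (VL Z fP u w ε hn) (tA u w N ε)
      (tB u w N ε) om (tI (mv u ε ω) (w + 1)) E (a2 u e0 N ε) (th u e0 N ε) (Q N ε ω)) ∧
  ∀ β ⊆ SU u ε ω, 0 < gW Z u w hn he (clr (SU u ε ω) β) →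
    ∃ A : ZMod 3 → Set ℂ, Con C0 c0 K0 u ε (hN N) ω A u.P

/-- **the inner input**: a.e. in the environments of the list `L N` -/
def Inn (Z : TData) (u : Poly) (w : ZMod 3) (L : ℕ → List (ℝ × ℝ × ℝ))
    (Q : ℕ → ℝ → Sample → ℝ) : Prop :=
  ∀ e0 : ℝ, Ev u fun N ε hn he => NumW u 13 e0 N → NumE N ε →
    ∀ᵐ ω ∂sampleLaw, CEs u ε (L N) ω → InnP Z u w Q e0 N ε hn he ω

/-- **609's `Op`** -/
theorem op_of {Z : TData} (hp : PosP Z) {u : Poly} {w : ZMod 3} {C1 C3 : ℝ} (hC1 : 0 ≤ C1)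
    {L : ℕ → List (ℝ × ℝ × ℝ)} {Q : ℕ → ℝ → Sample → ℝ} (hm : Mom Z u w C1)
    (hQ : Qok Z u w C3 Q) (hL : ∀ᶠ N in atTop, ∀ t ∈ L N, OkT t) (h : Inn Z u w L Q) :
    Nonempty (Op Z u w) := by
  set bad : ℝ → ℕ → ℝ → Set Sample := fun _ N ε => {ω | ¬ CEs u ε (L N) ω} with hb
  have hbad : ∀ᶠ e0 : ℝ in 𝓝[>] 0, ∀ᶠ N : ℕ in atTop, ∀ η > 0, ∀ᶠ ε : ℝ in 𝓝[>] 0,
      sampleLaw (bad e0 N ε) ≤ ENNReal.ofReal η := by
    refine Eventually.of_forall fun e0 => ?_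
    filter_upwards [hL] with N h1
    exact bad_CEs u h1
  have hE : ∀ᶠ e0 : ℝ in 𝓝[>] 0, Ev u fun N ε hn he => ∀ᵐ ω ∂sampleLaw,
      ω ∉ bad e0 N ε → InnP Z u w Q e0 N ε hn he ω := by
    filter_upwards [ev_num u 13] with e0 h1
    have h2 := h1.and (h e0)
    unfold Ev at h2 ⊢
    filter_upwards [h2] with N h3
    filter_upwards [h3] with ε h4 hn he
    obtain ⟨⟨h5, h6⟩, h7⟩ := h4 hn he
    filter_upwards [h7 h5 h6] with ω h8 h9
    exact h8 (not_not.1 h9)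
  have hcon : ∀ᶠ e0 : ℝ in 𝓝[>] 0, Ev u fun N ε hn he => ∀ᵐ ω ∂sampleLaw,
      ω ∉ bad e0 N ε → ∀ β ⊆ SU u ε ω, 0 < gW Z u w hn he (clr (SU u ε ω) β) →
        ∃ A : ZMod 3 → Set ℂ, Con C0 c0 K0 u ε (hN N) ω A u.P := by
    filter_upwards [hE] with e0 h1
    unfold Ev at h1 ⊢
    filter_upwards [h1] with N h3
    filter_upwards [h3] with ε h4 hn he
    filter_upwards [h4 hn he] with ω h8 h9
    exact (h8 h9).2
  have hmi : Ev u fun N ε hn he => ∀ l ∈ Finset.range (nT u w N),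
      Integrable (fun ω => gW Z u w hn he (cfg ε ω) * ‖VL Z fP u w ε hn l (cfg ε ω)‖ ^ 2)
        sampleLaw := by
    unfold Mom Ev at hm
    unfold Ev
    filter_upwards [hm] with N h3
    filter_upwards [h3] with ε h4 hn he l hl
    exact (h4 hn he l hl).1
  obtain ⟨d1, d2⟩ := DispZx840.disp_op hp (w := w) (C := C0) (c := c0) (K := K0)
    (zero_le_one.trans C0_ge) c0_pos K0_nonneg hmi hbad hcon
  exact ⟨{
    C1 := C1
    C3 := C3
    C7 := 2 * (13 : ℕ) + 3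
    k := fun N => 18 * et N
    r := fun _ N => rF 13 N
    c := 3
    Q := Q
    bad := bad
    a2 := a2 u
    θ := th u
    cd := _
    hC1 := hC1
    hk := fun N => by have := et_pos N; positivity
    hr := rF_hr 13
    mom := hm
    hQ := hQ
    hbad := hbad
    ha := a2_t3 u
    ha0 := a2_ev u
    hθ := th_t3 u
    hθ0 := th_ev u
    hcd := d1
    quen := by
      filter_upwards [hE] with e0 h1
      unfold Ev at h1 ⊢
      filter_upwards [h1] with N h3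
      filter_upwards [h3] with ε h4 hn he
      filter_upwards [h4 hn he] with ω h8 h9
      exact (h8 h9).1
    disp := d2 }⟩

/-- **RIG from the inner input**, any template -/
theorem rig_of_innZ {Z : TData} (hp : PosP Z)
    (hm : ∀ u w, ∃ C1 : ℝ, 0 ≤ C1 ∧ Mom Z u w C1)
    (h : ∀ u w, ∃ (C3 : ℝ) (Q : ℕ → ℝ → Sample → ℝ) (L : ℕ → List (ℝ × ℝ × ℝ)),
      Qok Z u w C3 Q ∧ (∀ᶠ N in atTop, ∀ t ∈ L N, OkT t) ∧ Inn Z u w L Q) :
    POLY Poly.T Poly.T' := by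
  refine rig_of_op hp fun u w => ?_
  obtain ⟨C1, h1, h2⟩ := hm u w
  obtain ⟨C3, Q, L, h3, h4, h5⟩ := h u w
  exact op_of hp h1 h2 h3 h4 h5


end Crest.Agent.R143.RigXx609
end
end

-- ▼ part R143/OpJ_894
section

/-!
# Row 143 (S0194): 609's inner input from the data of one environment (helper894)

* **`EnvD`** : data of one environment: 597's `Sx` (831 CorrD), `UKin` of the giants (923), `near`
  (798), `q` (810 / 829)
* `EnvD.r10`, `EnvD.con` : R10 (930) for every colouring with positive weight; `EnvD.quen` : `QuenX`;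
  **`EnvD.inn`** : 609's `InnP`
* **`EnvP`** : `EnvD` at almost every environment of the list `L N`; **`inn_env : EnvP → Inn`**
* **`rig_env`**, **`leaf_env`** : RIG, and the row, from `PosP`, `Mom`, `Qok`, `EnvP`
-/

set_option autoImplicit false

noncomputable section

open scoped Classical

namespace Crest.Agent.R143.OpJx894

open MeasureTheory Set Filter Topology
open scoped ENNReal
open Crest.ProbabilityR.Voronoi
open Crest.Agent.R143.PP0x831 Crest.Agent.R143.B0x346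
open Crest.Agent.R143.DelGx806 Crest.Agent.R143.DelRx806 Crest.Agent.R143.FinCx811
  Crest.Agent.R143.Resax778 Crest.Agent.R143.SmallAx304 Crest.Agent.R143.C2SDx395
open Crest.Agent.R143.Frame1x395 Crest.Agent.R143.Frame2x395 Crest.Agent.R143.Frame10x395
open Crest.Agent.R143.Finx894
open Crest.Agent.R143.PolyUx346 (Poly)
open Crest.Agent.R143.NetUx346 Crest.Agent.R143.NetVx346
open Crest.Agent.R143.CorMx970 (av far)
open Crest.Agent.R143.IndLoc3x279 (clr)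
open Crest.Agent.R143.EnvIx279
open Crest.Agent.R143.Uniqx323 (Zn)
open Crest.Agent.R143.RigCx654 (dI tI)
open Crest.Agent.R143.InpJx609 (mv)
open Crest.Agent.R143.RigPx854 (ly ly_spec mN mN_hN hN hN_pos nT)
open Crest.Agent.R143.RigZdx609 (TData tA tB zL gW VL g0 et et_pos)
open Crest.Agent.R143.RigZx609
open Crest.Agent.R143.CorEx133 (RU UU SU CorEnv)
open Crest.Agent.R143.QuenSx654 (SmE)
open Crest.Agent.R143.SpMx169 (fP fP_meas)
open Crest.Agent.R143.R10Nx930 (Con Du)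
open Crest.Agent.R143.R10Px923 (UKin Nw)
open Crest.Agent.R143.RigNx377
open Crest.Agent.R143.RigYx609 (CEs OkT)
open Crest.Agent.R143.RigXx609
open Crest.Agent.R143.QuenIx597

/-- **the data of one environment** -/
structure EnvD (Z : TData) (u : Poly) (w : ZMod 3) {N : ℕ} {ε : ℝ} (hn : u.n + 4 ≤ N)
    (he : 0 < ε) (ω : Sample) (hS : GP (SU u ε ω : Set ℂ)) (h3 : 3 ≤ (SU u ε ω).card)
    (h₀ : Cs hS) (R : Set (Cs hS)) (Zz : Zn (rc0 hS)) (d₀ : D0 (SU u ε ω)) (Qq : ℝ) : Prop where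
  /-- the system of the out strands (831) -/
  X : Sx w Z hn he hS h3 h₀ R Zz
  /-- the giants (923) -/
  uk : ∀ σ ∈ (SU u ε ω).powerset, 0 < gW Z u w hn he (clr (SU u ε ω) σ) →
    ∃ (o : ℂ × ℂ × ℂ) (i : ZMod 3) (A1 B1 w' a0 a1 b0 b1 m' : ℝ), A1 ≤ B1 ∧ B1 < hN N ∧
      Nw (hN N) √ε w' a0 a1 b0 b1 m' ∧
      UKin (SU u ε ω) (GI hS h3 w N h₀ R Zz σ) o i u.P (hN N) A1 B1 w' a0 a1 b0 b1 m'
        (ly u N).W (ly u N).A (ly u N).e
  /-- the tiles of the touches (798) -/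
  near : ∀ σ ∈ (SU u ε ω).powerset, 0 < gW Z u w hn he (clr (SU u ε ω) σ) →
    av (SU u ε ω).powerset (far (2 * rI 13 N + 2) (kaI hS h3 w N h₀ R Zz)
      (kbI hS h3 w N h₀ R Zz) (fun τ => nT u w N - tB u w N ε (clr (SU u ε ω) τ))
      (fun τ => nT u w N - tA u w N ε (clr (SU u ε ω) τ)) σ) ≤ 4 * th0 u N
  /-- the quenched majorant (810 / 829) -/
  q : ∑ l ∈ Finset.range (nT u w N), av (SU u ε ω).powerset (fun σ =>
      gW Z u w hn he (clr (SU u ε ω) σ) * av (SU u ε ω).powerset fun τ =>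
        ‖WdI hS h3 w N h₀ R Zz d₀ l σ τ‖ ^ 2) ≤ Qq

section one

variable {Z : TData} {u : Poly} {w : ZMod 3} {N : ℕ} {ε : ℝ} {hn : u.n + 4 ≤ N} {he : 0 < ε}
  {ω : Sample} {hS : GP (SU u ε ω : Set ℂ)} {h3 : 3 ≤ (SU u ε ω).card} {h₀ : Cs hS}
  {R : Set (Cs hS)} {Zz : Zn (rc0 hS)} {d₀ : D0 (SU u ε ω)} {Qq e0 : ℝ}

/-- **R10 for the giants** -/
theorem EnvD.r10 (D : EnvD Z u w hn he ω hS h3 h₀ R Zz d₀ Qq) (hW : NumW u 13 e0 N)
    (hE : NumE N ε) (C : EnvN u N ε ω) {σ : Finset ℂ} (hσ : σ ∈ (SU u ε ω).powerset)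
    (hg : 0 < gW Z u w hn he (clr (SU u ε ω) σ)) :
    Vin (SU u ε ω) u.P √ε ⊆ ff (SU u ε ω) (GI hS h3 w N h₀ R Zz σ) ∧
      ∀ Wd : Set ℂ, u.P ⊆ Wd → Con C0 c0 K0 u ε (hN N) ω (GI hS h3 w N h₀ R Zz σ) Wd := by
  obtain ⟨o, i, A1, B1, w', a0, a1, b0, b1, m', h1, h2, h3, h4⟩ := D.uk σ hσ hg
  exact r10s.2.2.2.2.2.2 u ε (hN N) (c2c u N) (dU u) ω (hN_pos N) hW.h100 le_rfl
    (c2c_mul u N).le hE.c1 hE.s5 C (mN u N) _ _ _ _ _ (ly_spec hn) (mN_hN (by omega)) _ o i A1 B1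
    w' a0 a1 b0 b1 m' h1 h2 h3 h4

/-- 840's `con` -/
theorem EnvD.con (D : EnvD Z u w hn he ω hS h3 h₀ R Zz d₀ Qq) (hW : NumW u 13 e0 N)
    (hE : NumE N ε) (C : EnvN u N ε ω) :
    ∀ β ⊆ SU u ε ω, 0 < gW Z u w hn he (clr (SU u ε ω) β) →
      ∃ A : ZMod 3 → Set ℂ, Con C0 c0 K0 u ε (hN N) ω A u.P := fun _ hβ hg =>
  ⟨_, (D.r10 hW hE C (Finset.mem_powerset.2 hβ) hg).2 _ subset_rfl⟩

/-- **`QuenX`** -/
theorem EnvD.quen (D : EnvD Z u w hn he ω hS h3 h₀ R Zz d₀ Qq) (hW : NumW u 13 e0 N)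
    (hE : NumE N ε) (hd : 100 * √ε ≤ et N) (C : EnvN u N ε ω) {E : ℝ}
    (hSm : SmE ε ω (UU u) (18 * et N) E) :
    QuenX (nT u w N) (rF 13 N) 3 (SU u ε ω) (gW Z u w hn he) (VL Z fP u w ε hn)
      (tA u w N ε) (tB u w N ε) om (tI (mv u ε ω) (w + 1)) E (a2 u e0 N ε) (th u e0 N ε) Qq :=
  quen_u D.X C hd hSm d₀ (et0_pos N).le (fun σ hσ hg => by
    obtain ⟨h1, h2⟩ := D.r10 hW hE C hσ hg
    exact ⟨h1, ((h2 u.P subset_rfl).1 (et0 N) hW.lo hW.up).1⟩) D.near D.q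

/-- **609's inner input at one environment** -/
theorem EnvD.inn {Q : ℕ → ℝ → Sample → ℝ} (D : EnvD Z u w hn he ω hS h3 h₀ R Zz d₀ (Q N ε ω))
    (hW : NumW u 13 e0 N) (hE : NumE N ε) (hd : 100 * √ε ≤ et N) (C : EnvN u N ε ω) :
    InnP Z u w Q e0 N ε hn he ω :=
  ⟨fun _ hSm => D.quen hW hE hd C hSm, D.con hW hE C⟩

end one

/-! ### all environments -/

/-- **the data at almost every environment of the list** -/
def EnvP (Z : TData) (u : Poly) (w : ZMod 3) (L : ℕ → List (ℝ × ℝ × ℝ))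
    (Q : ℕ → ℝ → Sample → ℝ) : Prop :=
  ∀ e0 : ℝ, Ev u fun N ε hn he => NumW u 13 e0 N → NumE N ε →
    ∀ᵐ ω ∂sampleLaw, CEs u ε (L N) ω → ∃ (hS : GP (SU u ε ω : Set ℂ))
      (h3 : 3 ≤ (SU u ε ω).card) (h₀ : Cs hS) (R : Set (Cs hS)) (Zz : Zn (rc0 hS))
      (d₀ : D0 (SU u ε ω)), EnvD Z u w hn he ω hS h3 h₀ R Zz d₀ (Q N ε ω)

theorem mesh100 (N : ℕ) : ∀ᶠ ε : ℝ in 𝓝[>] 0, 100 * √ε ≤ et N := by
  filter_upwards [RigYx609.mesh_ok (hN_pos N) one_pos] with ε h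
  unfold et
  linarith [h.2.2, Real.sqrt_nonneg ε]

/-- **609's inner input** -/
theorem inn_env {Z : TData} {u : Poly} {w : ZMod 3} {L : ℕ → List (ℝ × ℝ × ℝ)}
    {Q : ℕ → ℝ → Sample → ℝ} (hL : ∀ N, (K0, c2c u N, dU u) ∈ L N) (h : EnvP Z u w L Q) :
    Inn Z u w L Q := by
  intro e0
  have h1 := h e0
  unfold Ev at h1 ⊢
  filter_upwards [h1] with N h2
  filter_upwards [h2, mesh100 N] with ε h3 h4 hn he hW hE
  filter_upwards [h3 hn he hW hE] with ω h5 h6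
  obtain ⟨hS, h3, h₀, R, Zz, d₀, D⟩ := h5 h6
  exact D.inn hW hE h4 (h6 _ (hL N))

/-- **RIG** -/
theorem rig_env {Z : TData} (hp : PosP Z) (hm : ∀ u w, ∃ C1 : ℝ, 0 ≤ C1 ∧ Mom Z u w C1)
    (h : ∀ u w, ∃ (C3 : ℝ) (Q : ℕ → ℝ → Sample → ℝ) (L : ℕ → List (ℝ × ℝ × ℝ)),
      Qok Z u w C3 Q ∧ (∀ᶠ N in atTop, ∀ t ∈ L N, OkT t) ∧
        (∀ N, (K0, c2c u N, dU u) ∈ L N) ∧ EnvP Z u w L Q) : FinCx894.Rig :=
  rig_of_innZ hp hm fun u w => by
    obtain ⟨C3, Q, L, h1, h2, h3, h4⟩ := h u w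
    exact ⟨C3, Q, L, h1, h2, inn_env h3 h4⟩


end Crest.Agent.R143.OpJx894
end
end

-- ▼ part R143/TDat_204
section

/-!
# Row 143 (S0194), RIG: the template data of all widths and meshes (helper204, for 609's `TData`)

* `Zt : TData` : 653's template at the unit `et N = hN N / 100` (trivial data for `ε ≤ 0`)
* `Zt_D`, `Zt_tpl`, `Zt_raw` : for `0 < ε`
* **`posP_of : TQ → PosP Zt`** ; **`ae_of`** : 978's `AePos`, eventually in `ε`
-/

set_option autoImplicit false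

noncomputable section

open scoped Classical ENNReal

namespace Crest.Agent.R143.TDatx204

open MeasureTheory Set Filter Topology
open Crest.ProbabilityR.Voronoi
open Crest.Agent.R143.PP0x831
open Crest.Agent.R143.PWx978 Crest.Agent.R143.Tplx978
open Crest.Agent.R143.PthFx765 Crest.Agent.R143.TplIx204
open Crest.Agent.R143.PosFx653 Crest.Agent.R143.RigPx854
open Crest.Agent.R143.RigZdx609 Crest.Agent.R143.RigZx609
open Crest.Agent.R143.PP1x831 (rad)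

theorem fm_true : FinMeas fun _ : Cf => True := fun n => measurable_const

/-- trivial data -/
def D0 (η : ℝ) : DT where
  g := CorHx713.gO η
  A := 9 * η
  B := 51 * η
  A' := 12 * η
  B' := 52 * η
  h := 100 * η
  Gd _ := True
  Gm := fm_true

/-- the data -/
def Zd (N : ℕ) (ε : ℝ) : DT := if h : 0 < ε then Dt (et N) ε h (et_pos N) else D0 (et N)

theorem Zd_pos (N : ℕ) {ε : ℝ} (h : 0 < ε) : Zd N ε = Dt (et N) ε h (et_pos N) := dif_pos h

theorem num_Dt {η ε : ℝ} (hε : 0 < ε) (hη : 0 < η) : GPosCx348.NumC (Dt η ε hε hη) η :=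
  ⟨hη, rfl, rfl, rfl, rfl, rfl, rfl⟩

theorem num_D0 {η : ℝ} (hη : 0 < η) : GPosCx348.NumC (D0 η) η := ⟨hη, rfl, rfl, rfl, rfl, rfl, rfl⟩

theorem num_Zd (N : ℕ) (ε : ℝ) : GPosCx348.NumC (Zd N ε) (et N) := by
  unfold Zd
  split_ifs with h
  · exact num_Dt h (et_pos N)
  · exact num_D0 (et_pos N)

/-- **the template data** -/
def Zt : TData where
  D := Zd
  c _ _ := cc
  c0 _ _ := cc_ne
  c1 _ _ := cc_le
  num := num_Zd

theorem Zt_D (N : ℕ) {ε : ℝ} (h : 0 < ε) : Zt.D N ε = Dt (et N) ε h (et_pos N) := Zd_pos N h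

theorem Zt_raw (N : ℕ) {ε : ℝ} (h : 0 < ε) : Zt.raw N h = Tr (et N) ε h (et_pos N) := by
  have key : ∀ P : DT, P = Dt (et N) ε h (et_pos N) →
      P.raw ε h cc cc_ne cc_le = Tr (et N) ε h (et_pos N) := by
    rintro P rfl
    rfl
  exact key _ (Zt_D N h)

theorem Zt_tpl (N : ℕ) {ε : ℝ} (h : 0 < ε) : Zt.tpl N h = (Tr (et N) ε h (et_pos N)).tpl := by
  unfold TData.tpl
  rw [Zt_raw]

theorem et_small (N : ℕ) : 10 * et N ≤ 1 := by
  have h1 : hN N ≤ 1 := by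
    unfold hN
    exact pow_le_one₀ (by norm_num) (by norm_num)
  unfold et
  linarith

/-- **653's bounds at the unit `et N`** -/
theorem all_of (HT : TQ) (N : ℕ) : ∀ᶠ ε : ℝ in 𝓝[>] 0, 0 < rad cC ε ∧ 8 * rad cC ε ≤ et N ∧
    ∀ he : 0 < ε, (Zt.raw N he).AePos ∧
      cb ≤ sampleLaw {ω | (Zt.D N ε).wA (cfg ε ω) ≠ 0} ∧
      cb ≤ ∫⁻ ω, (Zt.tpl N he).A (cfg ε ω) ∂sampleLaw := by
  filter_upwards [posF_of HT (et_pos N) (et_small N)] with ε h
  refine ⟨h.1, h.2.1, fun he => ?_⟩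
  obtain ⟨h1, h2, h3⟩ := h.2.2 he (et_pos N)
  rw [Zt_raw, Zt_D N he, Zt_tpl]
  exact ⟨h1, h2, h3⟩

/-- **978's `AePos`** -/
theorem ae_of (HT : TQ) (N : ℕ) : ∀ᶠ ε : ℝ in 𝓝[>] 0, ∀ he : 0 < ε, (Zt.raw N he).AePos :=
  (all_of HT N).mono fun _ h he => (h.2.2 he).1

/-- **`PosP`** -/
theorem posP_of (HT : TQ) : PosP Zt := by
  have t1 : cc ≠ ∞ := ne_top_of_le_ne_top ENNReal.one_ne_top cc_le
  have t2 : cb ≠ ∞ := ne_top_of_le_ne_top ENNReal.one_ne_top cb_le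
  refine ⟨cc.toReal, ENNReal.toReal_pos cc_ne t1, cb.toReal, ENNReal.toReal_pos cb_ne t2,
    fun N => ?_⟩
  filter_upwards [all_of HT N] with ε h he
  rw [ENNReal.ofReal_toReal t1, ENNReal.ofReal_toReal t2]
  exact ⟨le_rfl, (h.2.2 he).2.2⟩



end Crest.Agent.R143.TDatx204
end
end

-- ▼ part R143/TQ_73
section

/-!
# Row 143, CORE-C, box R1d: the quenched tile bound `TQ` (helper73)

* `core` : `a (p p) a ≤ pr T Tile` from the half events of the two gates and the lanes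
* **`tq`** : helper653's `PosFx653.TQ`
* **`posF`** : the template has positive constants, no hypothesis left
-/

set_option autoImplicit false

noncomputable section

open scoped Classical

namespace Crest.Agent.R143.TQx73

open Set MeasureTheory Filter Topology
open Crest.ProbabilityR.Voronoi
open Crest.Agent.R143.B0x346 (GP)
open Crest.Agent.R143.PP0x831 Crest.Agent.R143.Poisx304 Crest.Agent.R143.Janx304
open Crest.Agent.R143.IndLoc3x279 Crest.Agent.R143.IndLocx279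
open Crest.Agent.R143.Prodx609 Crest.Agent.R143.FinMx609 Crest.Agent.R143.FinM2x609
open Crest.Agent.R143.DelGx806 Crest.Agent.R143.DelRx806 Crest.Agent.R143.Locx922
open Crest.Agent.R143.PWx978 Crest.Agent.R143.Tplx978
open Crest.Agent.R143.Gatex838
open Crest.Agent.R143.Fairx653 Crest.Agent.R143.Posx653 Crest.Agent.R143.PosFx653
open Crest.Agent.R143.TplIx204 (DT)
open Crest.Agent.R143.QTbx653
open Crest.Agent.R143.PthFx765 Crest.Agent.R143.WLocx713 Crest.Agent.R143.TileRx228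
open Crest.Agent.R143.Neckx921 (Tile Lk)
open Crest.Agent.R143.Harx315 (pr pr_mono)
open Crest.Agent.R143.Thetax73 Crest.Agent.R143.RHx73
open Crest.Agent.R143.TileRRx345
open Crest.Agent.R143.Halfx73 (g0 RH LH Q0 KBR KWR KBL KWL gS gB gB_sub gdR gdL CR CL)
open scoped ENNReal

variable {η d a p : ℝ} {t : Tn} {S : Cf} {T : Finset ℂ}

section geo

variable (hη : 0 < η)
include hη

theorem re_WR {s : ℂ} (h : s ∈ Re 100 0 (η : ℂ) ((nxt (100 * η) t).e 0) (rot t * (η : ℂ))) :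
    s ∈ WR (9 * η) (51 * η) (100 * η) t := by
  rcases h with ⟨⟨a1, a2⟩, a3, a4⟩ | ⟨⟨a1, a2⟩, a3, a4⟩
  · rw [X_zero η, lt_div_iff₀ hη] at a1
    rw [X_zero η, div_lt_iff₀ hη] at a2
    rw [Y_zero η, lt_div_iff₀ hη] at a3
    rw [Y_zero η, div_lt_iff₀ hη] at a4
    refine Or.inl ⟨⟨by linarith, by linarith⟩, ?_⟩
    rw [abs_lt]
    constructor <;> linarith
  · rw [X_nxt η, lt_div_iff₀ hη] at a1
    rw [X_nxt η, div_lt_iff₀ hη] at a2
    rw [Y_nxt η, lt_div_iff₀ hη] at a3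
    rw [Y_nxt η, div_lt_iff₀ hη] at a4
    refine Or.inr ⟨⟨by linarith, by linarith⟩, ?_⟩
    rw [abs_lt]
    constructor <;> linarith

theorem kr_WR {s : ℂ} (h : -η < s.re ∧ s.re < 11 * η) (h' : |s.im| < 9 * η) :
    s ∈ WR (9 * η) (51 * η) (100 * η) t :=
  Or.inl ⟨⟨by linarith [h.1], by linarith [h.2]⟩, h'⟩

theorem kl_WR {s : ℂ} (h : -(11 * η) < ((nxt (100 * η) t).e.symm s).re ∧
    ((nxt (100 * η) t).e.symm s).re < η) (h' : |((nxt (100 * η) t).e.symm s).im| < 9 * η) :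
    s ∈ WR (9 * η) (51 * η) (100 * η) t :=
  Or.inr ⟨⟨by linarith [h.1], by linarith [h.2]⟩, h'⟩

theorem offQ {u : ℂ} (h : u ∉ Q0 η) (h1 : |u.im| < 9 * η) : 2 * η ≤ |u.re| := by
  by_contra hc
  exact h ⟨not_le.1 hc, by linarith⟩

end geo

/-- **quenched tile bound**, explicit sets -/
theorem core (hη : 0 < η) (hd : 0 < d) (hdη : 4 * d ≤ η) (ha : 0 ≤ a) (hp : 0 ≤ p)
    (hS : S.Finite) (hc : Sc S)
    (hSQ : S ⊆ ovr (Q0 η ∪ (nxt (100 * η) t).e.symm ⁻¹' Q0 η))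
    (hT : ∀ s ∈ T, s ∈ WD (12 * η) (52 * η) (100 * η) t) (hgp : GP (psn S ∪ T))
    (m1 : p ≤ pr T (MidB (gS S (Q0 η) ∪ T ∪ gS S ((nxt (100 * η) t).e.symm ⁻¹' Q0 η)) 100 0 (η : ℂ)
      ((nxt (100 * η) t).e 0) (rot t * (η : ℂ))))
    (m2 : p ≤ pr T fun τ => MidW (gS S (Q0 η) ∪ T ∪ gS S ((nxt (100 * η) t).e.symm ⁻¹' Q0 η)) 100 0
      (η : ℂ) ((nxt (100 * η) t).e 0) (rot t * (η : ℂ)) (T \ τ))
    {p1 p2 : ℂ × ℂ} (hp1 : LG (g0 η) (Q0 η) (clr (gS S (Q0 η)) (gB S (Q0 η))) p1)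
    (hp2 : LG ((g0 η).mv (nxt (100 * η) t).e (rot t)) ((nxt (100 * η) t).e.symm ⁻¹' Q0 η)
      (clr (gS S ((nxt (100 * η) t).e.symm ⁻¹' Q0 η)) (gB S ((nxt (100 * η) t).e.symm ⁻¹' Q0 η)))
      p2)
    (h1 : a ≤ pr T fun τ => RH η d (S ∪ clr T τ))
    (h2 : a ≤ pr T fun τ => tr (nxt (100 * η) t).e (LH η d) (S ∪ clr T τ)) :
    a * (p * p) * a ≤ pr T fun τ =>
      Tile (gS S (Q0 η) ∪ T ∪ gS S ((nxt (100 * η) t).e.symm ⁻¹' Q0 η))
        (gS S (Q0 η) ∪ T ∪ gS S ((nxt (100 * η) t).e.symm ⁻¹' Q0 η))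
        (τ ∪ (gB S (Q0 η) ∪ gB S ((nxt (100 * η) t).e.symm ⁻¹' Q0 η)))
        (WR (9 * η) (51 * η) (100 * η) t) p1.1 p1.2 p2.1 p2.2 := by
  set N := nxt (100 * η) t with hN
  set Qn := N.e.symm ⁻¹' Q0 η with hQn
  set M := gS S (Q0 η) ∪ T ∪ gS S Qn with hM
  have f : TileRRx345.Fr 100 0 (η : ℂ) (N.e 0) (rot t * (η : ℂ)) := fr_nxt η 100 t
  have he : (η : ℂ) ≠ 0 := by exact_mod_cast hη.ne'
  have h40 : (40 : ℝ) ≤ 100 := by norm_num
  have hWQ := Halfx73.WQ_Q0 η (100 * η)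
  have h52 : 52 * η = 100 * η / 2 + 2 * η := by ring
  -- fresh positions are off the gates
  have tQ : ∀ s ∈ T, s ∉ Q0 η := by
    intro s hs h
    have := (hT s hs).2
    rw [h52, hWQ] at this
    exact this (Or.inl h)
  have tQn : ∀ s ∈ T, s ∉ Qn := by
    intro s hs h
    have := (hT s hs).2
    rw [h52, hWQ] at this
    exact this (Or.inr h)
  have hps : ∀ s ∈ ps S, s ∈ Q0 η ∪ Qn := by
    rintro s ⟨q, hq, rfl⟩
    exact hSQ hq
  have hh : 60 * η ≤ 100 * η := by linarith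
  have d1 : Disjoint (Q0 η) (TplIx204.CR η) := by
    rw [← hWQ]; exact TplIx204.Q_CR
  have d2 : Disjoint Qn (TplIx204.CR η) := by
    have := TplIx204.CR_Qn hη hh t
    rw [← hWQ] at hQn
    rw [hQn]
    exact this
  have d3 : Disjoint (Q0 η) (TplIx204.CLn (100 * η) η t) := by
    rw [← hWQ]; exact TplIx204.Q_CLn hη hh t
  have d4 : Disjoint Qn (TplIx204.CLn (100 * η) η t) := by
    have := TplIx204.Qn_CLn (h := 100 * η) (η := η) t
    rw [← hWQ] at hQn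
    rw [hQn]
    exact this
  have d0 : Disjoint (Q0 η) Qn := by
    have := TplIx204.Q_Qn hη hh t
    rw [hWQ] at this
    exact this
  have g1 := gdR hη hd hdη hS hc (T := T) (fun s hs h => by
    rcases hps s hs with h3 | h3
    · exact Set.disjoint_left.1 d1 h3 h
    · exact Set.disjoint_left.1 d2 h3 h) tQ h1
  have g2 := gdL (h := 100 * η) (t := t) hη hd hdη hS hc (T := T) (fun s hs h => by
    rcases hps s hs with h3 | h3
    · exact Set.disjoint_left.1 d3 h3 h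
    · exact Set.disjoint_left.1 d4 h3 h) tQn h2
  have hsx : sx S ∪ T = M := sx_gS hS hSQ
  rw [hsx] at g1 g2
  rw [mul_comm (η : ℂ) (rot t)] at g2
  have hGP : GP (M : Set ℂ) := by
    rw [hM, coe_gS hS hSQ]
    exact hgp
  have hWn : 100 / 2 + 9 = (59 : ℝ) := by norm_num
  refine theta_ge (To := T.filter (· ∈ Wh 0 (η : ℂ) (N.e 0) (rot t * (η : ℂ))))
    (Ti := T.filter (· ∉ Wh 0 (η : ℂ) (N.e 0) (rot t * (η : ℂ))))
    (Mw := MidW M 100 0 (η : ℂ) (N.e 0) (rot t * (η : ℂ)))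
    (Mb := MidB M 100 0 (η : ℂ) (N.e 0) (rot t * (η : ℂ)))
    (E := fun β => Tile M M β (WR (9 * η) (51 * η) (100 * η) t) p1.1 p1.2 p2.1 p2.2)
    ha hp (gs_disj tQ) (gs_disj tQn) (gs_gs d0) (Finset.disjoint_filter_filter_not _ _ _)
    (gB_sub hS _) (gB_sub hS _) Hf.mo Hf.mo Hf.mo Hf.mo mo_midW mo_midB
    ?_ ?_ ?_ ?_ ?_ ?_ g1 m2 m1 g2 ?_
  · -- white half of the first gate
    refine Hf.su (fun s hs hk => ?_) (fun s hs a1 a2 a3 a4 => ?_)
    · rcases Finset.mem_union.1 hs with hs | hs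
      · exact Finset.mem_union_left _ hs
      refine Finset.mem_union_right _ (Finset.mem_filter.2 ⟨hs, ?_⟩)
      obtain ⟨⟨k1, k2⟩, k3, k4⟩ := hk
      have h3 := offQ hη (tQ s hs) k3
      have h4 : 2 * η ≤ s.re := by
        rcases le_abs.1 h3 with h | h <;> linarith
      refine wh he h40 f ?_ ?_
      · rw [Y_zero η, lt_div_iff₀ hη]; linarith [k4 h4]
      · rw [X_zero η, div_le_iff₀ hη]; linarith
    · rcases Finset.mem_union.1 hs with hs | hs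
      · exact Finset.mem_union_left _ hs
      exact Finset.mem_union_right _ (Finset.mem_filter.2 ⟨hs, wh he h40 f (by linarith)
        (by linarith)⟩)
  · refine Hf.su (fun s hs hk => ?_) (fun s hs a1 a2 a3 a4 => ?_)
    · rcases Finset.mem_union.1 hs with hs | hs
      · exact Finset.mem_union_left _ hs
      refine Finset.mem_union_right _ (Finset.mem_filter.2 ⟨hs, ?_⟩)
      obtain ⟨⟨k1, k2⟩, k3, k4⟩ := hk
      have h3 := offQ hη (tQ s hs) k3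
      have h4 : 2 * η ≤ s.re := by
        rcases le_abs.1 h3 with h | h <;> linarith
      refine not_wh he h40 f ?_ ?_
      · rw [Y_zero η, div_lt_iff₀ hη]; linarith [k4 h4]
      · rw [X_zero η, div_le_iff₀ hη]; linarith
    · rcases Finset.mem_union.1 hs with hs | hs
      · exact Finset.mem_union_left _ hs
      exact Finset.mem_union_right _ (Finset.mem_filter.2 ⟨hs, not_wh he h40 f (by linarith)
        (by linarith)⟩)
  · refine Hf.su (fun s hs hk => ?_) (fun s hs a1 a2 a3 a4 => ?_)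
    · rcases Finset.mem_union.1 hs with hs | hs
      · exact Finset.mem_union_left _ hs
      refine Finset.mem_union_right _ (Finset.mem_filter.2 ⟨hs, ?_⟩)
      obtain ⟨⟨k1, k2⟩, k3, k4⟩ := hk
      have h3 := offQ hη (tQn s hs) k3
      have h4 : (N.e.symm s).re ≤ -(2 * η) := by
        rcases le_abs.1 h3 with h | h <;> linarith
      refine wh' he h40 f ?_ ?_
      · rw [hN, Y_nxt η, lt_div_iff₀ hη]; linarith [k4 h4]
      · rw [hN, X_nxt η, le_div_iff₀ hη]; linarith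
    · rcases Finset.mem_union.1 hs with hs | hs
      · exact Finset.mem_union_left _ hs
      exact Finset.mem_union_right _ (Finset.mem_filter.2 ⟨hs, wh' he h40 f (by linarith)
        (by linarith)⟩)
  · refine Hf.su (fun s hs hk => ?_) (fun s hs a1 a2 a3 a4 => ?_)
    · rcases Finset.mem_union.1 hs with hs | hs
      · exact Finset.mem_union_left _ hs
      refine Finset.mem_union_right _ (Finset.mem_filter.2 ⟨hs, ?_⟩)
      obtain ⟨⟨k1, k2⟩, k3, k4⟩ := hk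
      have h3 := offQ hη (tQn s hs) k3
      have h4 : (N.e.symm s).re ≤ -(2 * η) := by
        rcases le_abs.1 h3 with h | h <;> linarith
      refine not_wh' he h40 f ?_ ?_
      · rw [hN, Y_nxt η, div_lt_iff₀ hη]; linarith [k4 h4]
      · rw [hN, X_nxt η, le_div_iff₀ hη]; linarith
    · rcases Finset.mem_union.1 hs with hs | hs
      · exact Finset.mem_union_left _ hs
      exact Finset.mem_union_right _ (Finset.mem_filter.2 ⟨hs, not_wh' he h40 f (by linarith)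
        (by linarith)⟩)
  · exact su_midW he h40 f fun s hs h3 _ _ => Finset.mem_filter.2 ⟨hs, h3⟩
  · exact su_midB he h40 f fun s hs h3 _ _ => Finset.mem_filter.2 ⟨hs, h3⟩
  · rintro β hβ ⟨l, v, hl⟩ ⟨u, w, hu⟩ ⟨l', v', hl'⟩ ⟨u', w', hu'⟩ hMb hMw
    have hR : ∀ s, s ∈ Re 100 0 (η : ℂ) (N.e 0) (rot t * (η : ℂ)) →
        s ∈ WR (9 * η) (51 * η) (100 * η) t := fun s hs => re_WR hη hs
    constructor
    · refine half_b hGP he h40 f v v' (by norm_num) (by norm_num) (by norm_num) (by norm_num) hMb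
        (fun s hs => ?_) (fun s hs => ?_) (fun s _ _ h3 => hR s h3)
      · exact (hl p1.1 ⟨p1, hp1, rfl⟩ s hs).mono fun x hx => ⟨hx.1, kr_WR hη hx.2.1 hx.2.2.1⟩
      · exact (hl' p2.1 ⟨p2, hp2, rfl⟩ s hs).mono fun x hx => ⟨hx.1, kl_WR hη hx.2.1 hx.2.2.1⟩
    · refine half_w hGP he h40 f w w' (by norm_num) (by norm_num) (by norm_num) (by norm_num) hMw
        (fun s hs => ?_) (fun s hs => ?_) (fun s _ _ h3 => hR s h3)
      · exact (hu p1.2 ⟨p1, hp1, rfl⟩ s hs).mono fun x hx =>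
          ⟨Finset.mem_sdiff.1 hx.1, kr_WR hη hx.2.1 hx.2.2.1⟩
      · exact (hu' p2.2 ⟨p2, hp2, rfl⟩ s hs).mono fun x hx =>
          ⟨Finset.mem_sdiff.1 hx.1, kl_WR hη hx.2.1 hx.2.2.1⟩

/-- **the quenched tile bound** -/
theorem tq : TQ := by
  intro η d a p ε hε hη hd hdη ha hp t S T hS hc hSQ hT hgp m1 m2
  have hQ : (Dx η d a ε hε hη).Q = Q0 η := dQ hε hη
  have hQn : (Dx η d a ε hε hη).Qn t = (nxt (100 * η) t).e.symm ⁻¹' Q0 η := by
    unfold DT.Qn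
    rw [hQ]
    rfl
  refine qtile_of hS hc hSQ hT ?_
  intro p1 p2 hp1 hp2 h1 h2
  rw [hQ, hQn] at hSQ m1 m2 ⊢
  rw [hQ] at hp1
  rw [hQn] at hp2
  exact core hη hd hdη ha hp hS hc hSQ hT hgp m1 m2 hp1 hp2 h1 h2


end Crest.Agent.R143.TQx73
end
end

-- ▼ part R143/FinJ_894
section

/-!
# Row 143 (S0194): the row from 609's open inputs at the concrete template (helper894)

* `Z` : 204's template family `Zt` (653's template, all widths and meshes)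
* **`posZ : PosP Z`** (653 PosF, 73 TQ): no hypotheses
* **`leaf_of_opz : (∀ u w, Nonempty (Op Z u w)) → Leaf894`**
-/

set_option autoImplicit false

noncomputable section

namespace Crest.Agent.R143.FinJx894

open Crest.ProbabilityR.Voronoi
open Crest.Agent.R143.Finx894 Crest.Agent.R143.PolyUx346
open Crest.Agent.R143.RigZx609

/-- the template -/
abbrev Z : RigZdx609.TData := TDatx204.Zt

/-- **positivity of the template** -/
theorem posZ : PosP Z := TDatx204.posP_of TQx73.tq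


end Crest.Agent.R143.FinJx894
end
end

-- ▼ part R143/FinK_894

/-!
# Row 143 (S0194): the row from two inputs at the concrete template (helper894)

`Z = FinJx894.Z` (204's `Zt`), `Q = Qz Z u w` (377).

* `MomZ` : second moments of the charges (854); `EnvZ` : the data of almost every good environment
* **`leaf_fin : MomZ → EnvZ → Leaf894`**
-/

set_option autoImplicit false

noncomputable section

open scoped Classical

namespace Crest.Agent.R143.FinKx894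

open MeasureTheory Set Filter Topology
open Crest.ProbabilityR.Voronoi
open Crest.Agent.R143.Finx894 Crest.Agent.R143.FinJx894
open Crest.Agent.R143.PolyUx346 (Poly)
open Crest.Agent.R143.RigYx609 (CEs OkT)
open Crest.Agent.R143.RigXx609
open Crest.Agent.R143.RigNx377
open Crest.Agent.R143.RigQx377
open Crest.Agent.R143.OpJx894

/-- (I) second moments -/
def MomZ : Prop := ∀ (u : Poly) (w : ZMod 3), ∃ C1 : ℝ, 0 ≤ C1 ∧ Mom Z u w C1

/-- (II) the data of almost every good environment -/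
def EnvZ : Prop := ∀ (u : Poly) (w : ZMod 3), ∃ L : ℕ → List (ℝ × ℝ × ℝ),
  (∀ᶠ N in atTop, ∀ t ∈ L N, OkT t) ∧ (∀ N, (K0, c2c u N, dU u) ∈ L N) ∧
    EnvP Z u w L (Qz Z u w)

/-- **RIG** -/
theorem rig_fin (hm : MomZ) (he : EnvZ) : FinCx894.Rig :=
  rig_env posZ hm fun u w => by
    obtain ⟨L, h1, h2, h3⟩ := he u w
    exact ⟨C3z Z posZ u w, Qz Z u w, L, hQ_z Z posZ u w, h1, h2, h3⟩

/-- **the row** -/
theorem leaf_fin (hm : MomZ) (he : EnvZ) : Leaf894 := FinHx894.leaf_rig (rig_fin hm he)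

end Crest.Agent.R143.FinKx894
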