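import Crest.Agent.R143.TilU_496_Mg
import Crest.Agent.R143.InnP_643

/-!
# Row 143 (S0194), RIG, LOCX: the closed curtain on the fine path, definitions (helper776)

Lengths: unit `η`, `h = 100 η`, gate `g` with the frame `gz (100 η) W g`, `ge W g`.
* `Wn η W g x y0 y1` : window `|X| ≤ x`, `y0 ≤ Y ≤ y1` of the gate `g`
* `Off S A B h W` : the sites off all strips
* `Strg A g` : the gate `g` is between two corners, `A k + 3 ≤ g`, `g + 2 ≤ A (k + 1)`
* `En` : fine path, sites without holes of radius `d` near the strips and in the polygon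
* `VCh` : a vertical chain at the gate `g`
-/

set_option autoImplicit false

noncomputable section

open scoped Classical

namespace Crest.Agent.R143.LocTx776

open Set
open Crest.Agent.R158.Sp896
open Crest.Agent.R143.B0x346
open Crest.Agent.R143.Tenx416 (Pg)
open Crest.Agent.R143.TileRx228
open Crest.Agent.R143.Gatex838 (X Y)
open Crest.Agent.R143.Finex422 (Fine)
open Crest.Agent.R143.Blkx838 (DE)
open Crest.Agent.R143.Neckx921 (Lk)

/-- window of the gate `g` -/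
def Wn (η : ℝ) (W : ℤ → V) (g : ℤ) (x y0 y1 : ℝ) : Set ℂ :=
  {s | |X (gz (100 * η) W g) (ge W g) s| ≤ x ∧ y0 ≤ Y (gz (100 * η) W g) (ge W g) s ∧
    Y (gz (100 * η) W g) (ge W g) s ≤ y1}

/-- the sites off all strips -/
def Off (S : Finset ℂ) (A B h : ℝ) (W : ℤ → V) : Set ℂ := {s | s ∈ S ∧ ∀ c : ℤ, s ∉ RR A B h W c}

/-- the gate `g` is between two corners -/
def Strg (A : ℤ → ℤ) (g : ℤ) : Prop := ∃ k, A k + 3 ≤ g ∧ g + 2 ≤ A (k + 1)

/-- fine path and environment -/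
structure En (S : Finset ℂ) (F : Set V) (n m : ℕ) (p : ℤ → V) (M : ℕ) (W : ℤ → V) (A : ℤ → ℤ)
    (η d : ℝ) : Prop where
  fine : Fine F n (m : ℤ) p M W A
  con : ∀ q ∈ F, ∀ q' ∈ F, Con F q q'
  cou : ∀ q ∉ F, ∀ q' ∉ F, Con Fᶜ q q'
  m10 : 10 ≤ m
  e0 : 0 < η
  d0 : 0 < d
  de : 100 * d ≤ η
  gp : GP (S : Set ℂ)
  h3 : 3 ≤ S.card
  /-- no holes within `100 η` of the strips -/
  hol : ∀ a : ℤ, ∀ w ∈ RR (9 * η) (51 * η) (100 * η) W a, ∀ z, ‖z - w‖ ≤ 100 * η →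
    ∃ s ∈ S, ‖s - z‖ < d
  /-- no holes in the polygon -/
  holP : ∀ z ∈ Pg (m * (100 * η)) F, ∃ s ∈ S, ‖s - z‖ < d

/-- **vertical chain at the gate `g`**, from `s` (below) to `t` (above) -/
structure VCh (S : Finset ℂ) (η : ℝ) (W : ℤ → V) (g : ℤ) (VV : Set ℂ) (s t : ℂ) : Prop where
  lk : Lk S VV s t
  sub : ∀ v ∈ VV, v ∈ S
  win : ∀ v ∈ VV, |X (gz (100 * η) W g) (ge W g) v| < 102 * η
  rr : ∀ v ∈ VV, v ∈ RR (12 * η) (53 * η) (100 * η) W (g - 1) ∨
    v ∈ RR (12 * η) (53 * η) (100 * η) W g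
  s1 : s ∈ Wn η W g η (-(10 * η)) (-(9 * η))
  t1 : t ∈ Wn η W g η (10 * η) (11 * η)

end Crest.Agent.R143.LocTx776
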