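import Crest.Agent.R143.TilU_496_Mg
import Crest.Agent.R143.TileR2_228
import Crest.Agent.R143.RegB_523
import Crest.Agent.R143.LocT_776
import Crest.Agent.R143.REw_838
import Crest.Agent.R143.Neck1_921
import Crest.Agent.R143.CorE_133
import Crest.Agent.R143.LnkG_372
import Crest.Agent.R143.OutP_571
import Crest.Agent.R143.LnkG_927
import Crest.Agent.R143.PthF_765
import Crest.Agent.R143.InnP_643

-- ▼ part R143/CurG_496
section

/-!
# Row 143 (S0194), RIG, LOCX: the geometric fields of 776's closed curtain (helper496)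

Separator gates `gL`, `gR` of a fine path, six straight tiles around each, `gL + 6 ≤ gR`,
`gR + 6 ≤ gL + M`. Regions `RR A B h W j`, margin `κ` (`A + B + 2 κ < h`), short edges `δ ≤ κ`.

* `Short`, `short_of_hol` : a Delaunay edge which meets a tile is short
* `off5` : the long window of a gate (`|X| < 3 h / 2`, `|Y| < A + κ`) is off the tiles which are not
  `g - 2, …, g + 1`
* `Ci`, `Co` : inner / outer tiles with a piece of the axis of `gR`
* `Win`, `WinN`, `Off` : long window, its lower part, sites off all tiles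
* **`cur`** : the structure `Cur`, from the four links and `VR ⊆ Win gR`, `VL ⊆ Win gL`, `VF ⊆ Off`,
  `VK ⊆ Off ∪ WinN gL ∪ WinN gR`
-/

set_option autoImplicit false

noncomputable section

open scoped Classical

namespace Crest.Agent.R143.CurGx496

open Crest.Agent.R143.B0x346 Crest.Agent.R143.DelGx806 Crest.Agent.R143.DelRx806
open Crest.Agent.R143.Blkx838 (DE)
open Crest.Agent.R143.Neckx921 (Lk)
open Crest.Agent.R143.Gatex838 (X Y)
open Crest.Agent.R143.TileRx228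
open Crest.Agent.R143.TilUx496 (Str6 cin_pre cout_pre sep)
open Crest.Agent.R143.LocDx776 (Cur)
open Crest.Agent.R143.Locx922 (Hol InD del_small)

variable {S : Finset ℂ} {M : ℕ} {W : ℤ → ℤ × ℤ} {A B h κ δ d : ℝ} {g gL gR i j : ℤ} {u v w z : ℂ}

/-! ### short edges -/

/-- the Delaunay edges which meet a tile are short -/
def Short (S : Finset ℂ) (A B h : ℝ) (W : ℤ → ℤ × ℤ) (δ : ℝ) : Prop :=
  ∀ u v, DE S u v → ∀ w ∈ segment ℝ u v, ∀ j, w ∈ RR A B h W j → ‖u - w‖ ≤ δ ∧ ‖v - w‖ ≤ δ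

theorem inD_seg {a b c : ℂ} (hw : w ∈ segment ℝ a b) : InD w a b c := by
  intro o h1 _
  obtain ⟨r, s, hr, hs, hrs, rfl⟩ := hw
  have e : r • a + s • b - o = r • (a - o) + s • (b - o) := by
    have : o = (r + s) • o := by rw [hrs, one_smul]
    conv_lhs => rw [this]
    rw [add_smul, smul_sub, smul_sub]
    abel
  rw [e]
  refine (norm_add_le _ _).trans ?_
  rw [norm_smul, norm_smul, Real.norm_of_nonneg hr, Real.norm_of_nonneg hs, h1, ← add_mul, hrs,
    one_mul]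

theorem short_of_hol (hd : 0 < d) (hH : Hol (S : Set ℂ) (⋃ j : ℤ, RR A B h W j) d) :
    Short S A B h W (2 * d) := by
  intro u v huv w hw j hj
  have hwm : w ∈ ⋃ j : ℤ, RR A B h W j := Set.mem_iUnion.2 ⟨j, hj⟩
  rcases huv with ⟨x, hx⟩ | ⟨x, hx⟩
  · obtain ⟨o, -, -, -, -, -, h1, h2, -⟩ := del_small hd hH hwm (inD_seg hw) (mem_delT.1 hx)
    exact ⟨h1.le, h2.le⟩
  · rw [segment_symm] at hw
    obtain ⟨o, -, -, -, -, -, h1, h2, -⟩ := del_small hd hH hwm (inD_seg hw) (mem_delT.1 hx)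
    exact ⟨h2.le, h1.le⟩

/-! ### frames -/

/-- the straight tiles in the frame of the gate -/
theorem str_frame (P : FPath M W) (H : Str6 W g) (h1 : g - 3 ≤ i) (h2 : i ≤ g + 2) (hA : 0 < A)
    (hAB : A ≤ B) : z ∈ RR A B h W i ↔
      (h * (i - g) + h / 2 - B < X (gz h W g) (ge W g) z ∧
        X (gz h W g) (ge W g) z < h * (i - g) + h / 2 + B) ∧ |Y (gz h W g) (ge W g) z| < A := by
  have e1 : ge W (i + 1) = ge W i := H i h1 h2
  have e2 : ge W i = ge W g := H.ge h1 (by omega)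
  have e3 : gz h W i = gz h W g + ge W g * ((h * (i - g) : ℝ) : ℂ) := by
    have h3 := TilUx496.cen_str H.lt (k := g) (i := i) (by omega) (by omega) (by omega) (by omega) h
    have h4 := TilUx496.cen_gz h W i
    rw [h3, e2] at h4
    have h5 : gz h W i = gz h W g + ge W g * ((h * (i - g) + h / 2 : ℝ) : ℂ) -
        ge W g * ((h / 2 : ℝ) : ℂ) := by rw [h4]; ring
    rw [h5]
    push_cast
    ring
  have hX : X (gz h W i) (ge W i) z = X (gz h W g) (ge W g) z - h * (i - g) := by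
    unfold X
    rw [e2, e3]
    have : (z - (gz h W g + ge W g * ((h * (i - g) : ℝ) : ℂ))) / ge W g =
        (z - gz h W g) / ge W g - ((h * (i - g) : ℝ) : ℂ) := by
      have := ge_ne P g
      field_simp
      ring
    rw [this, Complex.sub_re, Complex.ofReal_re]
  have hY : Y (gz h W i) (ge W i) z = Y (gz h W g) (ge W g) z := by
    unfold Y
    rw [e2, e3]
    have : (z - (gz h W g + ge W g * ((h * (i - g) : ℝ) : ℂ))) / ge W g =
        (z - gz h W g) / ge W g - ((h * (i - g) : ℝ) : ℂ) := by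
      have := ge_ne P g
      field_simp
      ring
    rw [this, Complex.sub_im, Complex.ofReal_im, sub_zero]
  rw [frame_S P hA hAB e1, hX, hY]
  constructor
  · rintro ⟨⟨a1, a2⟩, a3⟩
    exact ⟨⟨by linarith, by linarith⟩, a3⟩
  · rintro ⟨⟨a1, a2⟩, a3⟩
    exact ⟨⟨by linarith, by linarith⟩, a3⟩

/-- long window -/
def Win (h : ℝ) (W : ℤ → ℤ × ℤ) (A κ : ℝ) (g : ℤ) : Set ℂ :=
  {z | |X (gz h W g) (ge W g) z| < 3 * h / 2 ∧ |Y (gz h W g) (ge W g) z| < A + κ}

/-- lower part of the long window -/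
def WinN (h : ℝ) (W : ℤ → ℤ × ℤ) (A κ : ℝ) (g : ℤ) : Set ℂ :=
  {z | |X (gz h W g) (ge W g) z| < 3 * h / 2 ∧ -(A + κ) < Y (gz h W g) (ge W g) z ∧
    Y (gz h W g) (ge W g) z < 0}

/-- off all tiles -/
def Off (A B h : ℝ) (W : ℤ → ℤ × ℤ) (δ : ℝ) : Set ℂ := {z | ∀ j, z ∉ RR (A + δ) (B + δ) h W j}

theorem winN_sub (hA : 0 < A + κ) : WinN h W A κ g ⊆ Win h W A κ g := fun _ hz =>
  ⟨hz.1, abs_lt.2 ⟨hz.2.1, hz.2.2.trans hA⟩⟩

theorem win_seg (hu : u ∈ Win h W A κ g) (hv : v ∈ Win h W A κ g) (hw : w ∈ segment ℝ u v) :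
    w ∈ Win h W A κ g := by
  obtain ⟨r, s, hr, hs, hrs, rfl⟩ := hw
  obtain ⟨u1, u2⟩ := hu
  obtain ⟨v1, v2⟩ := hv
  rw [abs_lt] at u1 u2 v1 v2
  refine ⟨abs_lt.2 ⟨?_, ?_⟩, abs_lt.2 ⟨?_, ?_⟩⟩
  · rw [TilUx496.X_comb _ _ _ _ hrs]; exact TilUx496.cv_gt hr hs hrs u1.1 v1.1
  · rw [TilUx496.X_comb _ _ _ _ hrs]; exact TilUx496.cv_lt hr hs hrs u1.2 v1.2
  · rw [TilUx496.Y_comb _ _ _ _ hrs]; exact TilUx496.cv_gt hr hs hrs u2.1 v2.1
  · rw [TilUx496.Y_comb _ _ _ _ hrs]; exact TilUx496.cv_lt hr hs hrs u2.2 v2.2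

theorem neg_seg (hu : Y (gz h W g) (ge W g) u < 0) (hv : Y (gz h W g) (ge W g) v < 0)
    (hw : w ∈ segment ℝ u v) : Y (gz h W g) (ge W g) w < 0 := by
  obtain ⟨r, s, hr, hs, hrs, rfl⟩ := hw
  rw [TilUx496.Y_comb _ _ _ _ hrs]
  exact TilUx496.cv_lt hr hs hrs hu hv

/-- a point of the long window is in one of the four tiles (enlarged) -/
theorem win_tile (P : FPath M W) (H : Str6 W g) (hA : 0 < A) (hκ : 0 ≤ κ) (hAB : A ≤ B)
    (hB : h / 2 < B) (hz : z ∈ Win h W A κ g) :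
    ∃ i, g - 2 ≤ i ∧ i ≤ g + 1 ∧ z ∈ RR (A + κ) (B + κ) h W i := by
  obtain ⟨h1, h2⟩ := hz
  have h1' := abs_lt.1 h1
  set x := X (gz h W g) (ge W g) z with hx
  have key : ∀ i : ℤ, g - 2 ≤ i → i ≤ g + 1 → h * (i - g) + h / 2 - (B + κ) < x →
      x < h * (i - g) + h / 2 + (B + κ) → ∃ i, g - 2 ≤ i ∧ i ≤ g + 1 ∧
        z ∈ RR (A + κ) (B + κ) h W i := fun i a1 a2 a3 a4 =>
    ⟨i, a1, a2, (str_frame P H (by omega) (by omega) (by linarith) (by linarith)).2
      ⟨⟨a3, a4⟩, h2⟩⟩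
  rcases lt_or_ge x (-h) with c1 | c1
  · exact key (g - 2) (by omega) (by omega) (by push_cast; linarith) (by push_cast; linarith)
  rcases lt_or_ge x 0 with c2 | c2
  · exact key (g - 1) (by omega) (by omega) (by push_cast; linarith) (by push_cast; linarith)
  rcases lt_or_ge x h with c3 | c3
  · exact key g (by omega) (by omega) (by linarith) (by linarith)
  · exact key (g + 1) (by omega) (by omega) (by push_cast; linarith) (by push_cast; linarith)

/-- **the long window of a gate is off the far tiles** -/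
theorem off5 (P : FPath M W) (H : Str6 W g) (hA : 0 < A) (hκ : 0 ≤ κ) (hAB : A ≤ B)
    (hB : h / 2 < B) (hh : A + B + 2 * κ < h) (hz : z ∈ Win h W A κ g)
    (hj : ∀ i, g - 2 ≤ i → i ≤ g + 1 → ¬ (M : ℤ) ∣ j - i) : z ∉ RR A B h W j := by
  intro hzj
  obtain ⟨i, i1, i2, hi⟩ := win_tile P H hA hκ hAB hB hz
  have h0 : z ∈ RR (A + κ) (B + κ) h W j := RR_mono (by linarith) (by linarith) h W j hzj
  obtain ⟨h1, h2⟩ := hz
  rw [abs_lt] at h1
  rcases sep P (by linarith) (by linarith) (by linarith) hi h0 with h3 | h3 | h3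
  · exact hj i i1 i2 h3
  · rcases eq_or_lt_of_le i2 with h4 | h4
    · have h5 : z ∈ RR A B h W (g + 2) := by
        rw [RegBx523.RR_cong P (a := g + 2) (b := j) (by rwa [h4, show g + 1 + 1 = g + 2 by ring] at h3)] at hzj
        exact hzj
      have h6 := ((str_frame P H (by omega) (by omega) hA hAB).1 h5).1.1
      push_cast at h6
      linarith
    · exact hj (i + 1) (by omega) (by omega) h3
  · rcases eq_or_lt_of_le i1 with h4 | h4
    · have h5 : z ∈ RR A B h W (g - 3) := by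
        rw [RegBx523.RR_cong P (a := g - 3) (b := j) (by rwa [← h4, show g - 2 - 1 = g - 3 by ring] at h3)] at hzj
        exact hzj
      have h6 := ((str_frame P H (by omega) (by omega) hA hAB).1 h5).1.2
      push_cast at h6
      linarith
    · exact hj (i - 1) (by omega) (by omega) h3

/-! ### the sets -/

/-- inner set -/
def Ci (A B h : ℝ) (W : ℤ → ℤ × ℤ) (gL gR : ℤ) : Set ℂ :=
  (⋃ j ∈ Set.Icc (gL + 2) (gR - 3), RR A B h W j) ∪
    {z | ∃ x, -2 * h ≤ x ∧ x ≤ -h - h / 2 ∧ z = TilUx496.ax h W gR x}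

/-- outer set -/
def Co (A B h : ℝ) (W : ℤ → ℤ × ℤ) (M : ℕ) (gL gR : ℤ) : Set ℂ :=
  (⋃ j ∈ Set.Icc (gR + 2) (gL - 3 + M), RR A B h W j) ∪
    {z | ∃ x, h + h / 2 ≤ x ∧ x ≤ 2 * h ∧ z = TilUx496.ax h W gR x}

/-- the parameters -/
structure Geo (S : Finset ℂ) (M : ℕ) (W : ℤ → ℤ × ℤ) (A B h κ δ : ℝ) (gL gR : ℤ) : Prop where
  fp : FPath M W
  A0 : 0 < A
  AB : A ≤ B
  Bh : h / 2 < B
  δ0 : 0 ≤ δ
  δκ : δ ≤ κ
  hh : A + B + 2 * κ < h
  sL : Str6 W gL
  sR : Str6 W gR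
  g1 : gL + 6 ≤ gR
  g2 : gR + 6 ≤ gL + M
  short : Short S A B h W δ

theorem ndvd_of {x : ℤ} (h1 : 0 < x) (h2 : x < M) : ¬ (M : ℤ) ∣ x := fun h =>
  absurd (Int.le_of_dvd h1 h) (not_le.2 h2)

theorem ndvd_of' {x : ℤ} (h1 : x < 0) (h2 : -(M : ℤ) < x) : ¬ (M : ℤ) ∣ x := by
  intro h
  have := (dvd_neg (a := (M : ℤ)) (b := x)).2 h
  exact absurd (Int.le_of_dvd (by omega) this) (by omega)

variable (G : Geo S M W A B h κ δ gL gR)

include G

theorem Geo.hpos : 0 < h := by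
  have := G.A0
  have := G.AB
  have := G.δ0
  have := G.δκ
  have := G.hh
  linarith

theorem Geo.Bh' : B ≤ h := by
  have := G.A0
  have := G.δ0
  have := G.δκ
  have := G.hh
  linarith

/-- a point of the axis of `gR` is in a tile `gR - 2, …, gR + 1` -/
theorem Geo.ax_tile {x : ℝ} (h1 : -2 * h ≤ x) (h2 : x ≤ 2 * h) :
    ∃ i, gR - 2 ≤ i ∧ i ≤ gR + 1 ∧ TilUx496.ax h W gR x ∈ RR A B h W i := by
  have hh := G.hpos
  have hB := G.Bh
  have key : ∀ i : ℤ, gR - 2 ≤ i → i ≤ gR + 1 → |x - (h * (i - gR) + h / 2)| < B →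
      ∃ i, gR - 2 ≤ i ∧ i ≤ gR + 1 ∧ TilUx496.ax h W gR x ∈ RR A B h W i := fun i a1 a2 a3 =>
    ⟨i, a1, a2, G.sR.mem G.fp G.A0 (by omega) (by omega) a3⟩
  rcases lt_or_ge x (-h) with c1 | c1
  · exact key (gR - 2) (by omega) (by omega) (by push_cast; rw [abs_lt]; constructor <;> linarith)
  rcases lt_or_ge x 0 with c2 | c2
  · exact key (gR - 1) (by omega) (by omega) (by push_cast; rw [abs_lt]; constructor <;> linarith)
  rcases lt_or_ge x h with c3 | c3
  · exact key gR (by omega) (by omega) (by rw [abs_lt]; constructor <;> linarith)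
  · exact key (gR + 1) (by omega) (by omega) (by push_cast; rw [abs_lt]; constructor <;> linarith)

/-- every point of `Ci`, `Co` and of the wall is in a tile -/
theorem Geo.tile_of (hw : w ∈ Ci A B h W gL gR ∨ w ∈ Co A B h W M gL gR ∨
    ∃ x, -(3 * h / 2) ≤ x ∧ x ≤ 3 * h / 2 ∧ w = TilUx496.ax h W gR x) : ∃ j, w ∈ RR A B h W j := by
  have hh := G.hpos
  rcases hw with (hw | ⟨x, h1, h2, rfl⟩) | (hw | ⟨x, h1, h2, rfl⟩) | ⟨x, h1, h2, rfl⟩
  · simp only [Set.mem_iUnion, exists_prop] at hw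
    obtain ⟨j, -, hj⟩ := hw
    exact ⟨j, hj⟩
  · obtain ⟨i, -, -, hi⟩ := G.ax_tile (x := x) h1 (by linarith)
    exact ⟨i, hi⟩
  · simp only [Set.mem_iUnion, exists_prop] at hw
    obtain ⟨j, -, hj⟩ := hw
    exact ⟨j, hj⟩
  · obtain ⟨i, -, -, hi⟩ := G.ax_tile (x := x) (by linarith) h2
    exact ⟨i, hi⟩
  · obtain ⟨i, -, -, hi⟩ := G.ax_tile (x := x) (by linarith) (by linarith)
    exact ⟨i, hi⟩

/-- the tiles of `Ci`, `Co`, and the axis of `gR` are off the long window of `gL` -/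
theorem Geo.offL (hw : w ∈ Ci A B h W gL gR ∨ w ∈ Co A B h W M gL gR ∨
    ∃ x, -(3 * h / 2) ≤ x ∧ x ≤ 3 * h / 2 ∧ w = TilUx496.ax h W gR x) :
    w ∉ Win h W A κ gL := by
  have hh := G.hpos
  have hκ : 0 ≤ κ := G.δ0.trans G.δκ
  have g1 := G.g1
  have g2 := G.g2
  have ax : ∀ x, -2 * h ≤ x → x ≤ 2 * h → TilUx496.ax h W gR x ∉ Win h W A κ gL := by
    intro x h1 h2 hc
    obtain ⟨i, i1, i2, hi⟩ := G.ax_tile (x := x) h1 h2
    exact off5 G.fp G.sL G.A0 hκ G.AB G.Bh G.hh hc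
      (fun k k1 k2 => ndvd_of (by omega) (by omega)) hi
  rcases hw with (hw | ⟨x, h1, h2, rfl⟩) | (hw | ⟨x, h1, h2, rfl⟩) | ⟨x, h1, h2, rfl⟩
  · simp only [Set.mem_iUnion, Set.mem_Icc, exists_prop] at hw
    obtain ⟨j, ⟨j1, j2⟩, hj⟩ := hw
    exact fun hc => off5 G.fp G.sL G.A0 hκ G.AB G.Bh G.hh hc
      (fun k k1 k2 => ndvd_of (by omega) (by omega)) hj
  · exact ax x h1 (by linarith)
  · simp only [Set.mem_iUnion, Set.mem_Icc, exists_prop] at hw
    obtain ⟨j, ⟨j1, j2⟩, hj⟩ := hw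
    exact fun hc => off5 G.fp G.sL G.A0 hκ G.AB G.Bh G.hh hc
      (fun k k1 k2 => ndvd_of (by omega) (by omega)) hj
  · exact ax x (by linarith) h2
  · exact ax x (by linarith) (by linarith)

/-- `Ci`, `Co` are off the long window of `gR` -/
theorem Geo.offR (hw : w ∈ Ci A B h W gL gR ∨ w ∈ Co A B h W M gL gR) : w ∉ Win h W A κ gR := by
  have hh := G.hpos
  have hκ : 0 ≤ κ := G.δ0.trans G.δκ
  have g1 := G.g1
  have g2 := G.g2
  rcases hw with (hw | ⟨x, h1, h2, rfl⟩) | (hw | ⟨x, h1, h2, rfl⟩)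
  · simp only [Set.mem_iUnion, Set.mem_Icc, exists_prop] at hw
    obtain ⟨j, ⟨j1, j2⟩, hj⟩ := hw
    exact fun hc => off5 G.fp G.sR G.A0 hκ G.AB G.Bh G.hh hc
      (fun k k1 k2 => ndvd_of' (by omega) (by omega)) hj
  · intro hc
    have := hc.1
    rw [TilUx496.X_ax G.fp, abs_lt] at this
    linarith [this.1]
  · simp only [Set.mem_iUnion, Set.mem_Icc, exists_prop] at hw
    obtain ⟨j, ⟨j1, j2⟩, hj⟩ := hw
    exact fun hc => off5 G.fp G.sR G.A0 hκ G.AB G.Bh G.hh hc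
      (fun k k1 k2 => ndvd_of (by omega) (by omega)) hj
  · intro hc
    have := hc.1
    rw [TilUx496.X_ax G.fp, abs_lt] at this
    linarith [this.2]

/-- an edge with an end off all tiles does not meet the tiles -/
theorem Geo.off_edge (huv : DE S u v) (ho : u ∈ Off A B h W δ ∨ v ∈ Off A B h W δ)
    (hw : ∃ j, w ∈ RR A B h W j) : w ∉ segment ℝ u v := by
  intro hs
  obtain ⟨j, hj⟩ := hw
  obtain ⟨h1, h2⟩ := G.short u v huv w hs j hj
  rcases ho with ho | ho
  · exact ho j (TilUx496.thick G.fp hj h1)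
  · exact ho j (TilUx496.thick G.fp hj h2)

/-- no tile is near both long windows -/
theorem Geo.no_both (huv : DE S u v) (hu : u ∈ Win h W A κ gL) (hv : v ∈ Win h W A κ gR)
    (hw : ∃ j, w ∈ RR A B h W j) : w ∉ segment ℝ u v := by
  intro hs
  obtain ⟨j, hj⟩ := hw
  have hκ : 0 ≤ κ := G.δ0.trans G.δκ
  have hδ := G.δκ
  have hh := G.hh
  have g1 := G.g1
  have g2 := G.g2
  have hA := G.A0
  have hAB := G.AB
  obtain ⟨h1, h2⟩ := G.short u v huv w hs j hj
  have k1 : u ∈ RR (A + κ) (B + κ) h W j := TilUx496.thick G.fp hj (h1.trans hδ)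
  have k2 : v ∈ RR (A + κ) (B + κ) h W j := TilUx496.thick G.fp hj (h2.trans hδ)
  obtain ⟨i, i1, i2, hi⟩ := win_tile G.fp G.sL G.A0 hκ G.AB G.Bh hu
  obtain ⟨l, l1, l2, hl⟩ := win_tile G.fp G.sR G.A0 hκ G.AB G.Bh hv
  have s1 := sep G.fp (by linarith) (by linarith) (by linarith) hi k1
  have s2 := sep G.fp (by linarith) (by linarith) (by linarith) hl k2
  -- `l - i` is within `2` of a multiple of `M`
  have e : ∃ t : ℤ, -2 ≤ t ∧ t ≤ 2 ∧ (M : ℤ) ∣ l - i + t := by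
    have key : ∀ p q t : ℤ, (M : ℤ) ∣ p → (M : ℤ) ∣ q → p - q = l - i + t →
        (M : ℤ) ∣ l - i + t := fun p q t hp hq e => e ▸ dvd_sub hp hq
    rcases s1 with s1 | s1 | s1 <;> rcases s2 with s2 | s2 | s2
    · exact ⟨0, by omega, by omega, key _ _ _ s1 s2 (by ring)⟩
    · exact ⟨1, by omega, by omega, key _ _ _ s1 s2 (by ring)⟩
    · exact ⟨-1, by omega, by omega, key _ _ _ s1 s2 (by ring)⟩
    · exact ⟨-1, by omega, by omega, key _ _ _ s1 s2 (by ring)⟩
    · exact ⟨0, by omega, by omega, key _ _ _ s1 s2 (by ring)⟩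
    · exact ⟨-2, by omega, by omega, key _ _ _ s1 s2 (by ring)⟩
    · exact ⟨1, by omega, by omega, key _ _ _ s1 s2 (by ring)⟩
    · exact ⟨2, by omega, by omega, key _ _ _ s1 s2 (by ring)⟩
    · exact ⟨0, by omega, by omega, key _ _ _ s1 s2 (by ring)⟩
  obtain ⟨t, t1, t2, ht⟩ := e
  exact ndvd_of (by omega) (by omega) ht


end Crest.Agent.R143.CurGx496
end
end

-- ▼ part R143/CurH_496
section

/-!
# Row 143 (S0194), RIG, LOCX: the closed curtain on the fine path, instance (helper496)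

776's list, items (C4) and (C8). Unit `η`, `h = 100 η`, environment `En`.
* `Sg A g` : `A k + 4 ≤ g`, `g + 3 ≤ A (k + 1)` (from 416's `WdA.gl`, `gr`); `str6_of`, `sg_strg`
* `above_off` : a point above a gate is off all strips; `up_off` (C4 (a))
* `Geo.cur2` : `CurG_496.Geo.cur` with sites of `VF` in the upper parts of the long windows
* **`geo_of_en`** : `Geo S M W (13 η) (54 η) (100 η) (16 η) (2 d) gL gR`
* `up_or`, `off_or`, `dn_or`, `pg_off`, `vch_win` : the sets of 66, 643, 336, 686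
* **`curtain`** : the structure `Cur` (C8); `mem_Ci`, `mem_Co`
-/

set_option autoImplicit false

noncomputable section

open scoped Classical

namespace Crest.Agent.R143.CurHx496

open Crest.Agent.R158.Sp896 (V)
open Crest.Agent.R143.B0x346 Crest.Agent.R143.DelGx806 Crest.Agent.R143.DelRx806
open Crest.Agent.R143.Blkx838 (DE)
open Crest.Agent.R143.Neckx921 (Lk)
open Crest.Agent.R143.Gatex838 (X Y)
open Crest.Agent.R143.Tenx416 (Pg)
open Crest.Agent.R143.TileRx228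
open Crest.Agent.R143.Finex422 (Fine)
open Crest.Agent.R143.TilUx496 (Str6 cin_pre cout_pre sep)
open Crest.Agent.R143.LocDx776 (Cur)
open Crest.Agent.R143.LocTx776 (Wn Strg En VCh)
open Crest.Agent.R143.RegEx523 (Kin RR_shrink RR_Kin)
open Crest.Agent.R143.Locx922 (Hol)
open Crest.Agent.R143.CurGx496

variable {S : Finset ℂ} {F : Set V} {n m M : ℕ} {p W : ℤ → V} {A : ℤ → ℤ} {h η d : ℝ}
  {g gL gR j : ℤ} {u v w z : ℂ}

/-! ### straight gates -/

/-- the gate `g` is inside a straight run -/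
def Sg (A : ℤ → ℤ) (g : ℤ) : Prop := ∃ k, A k + 4 ≤ g ∧ g + 3 ≤ A (k + 1)

theorem sg_strg (h : Sg A g) : Strg A g := by
  obtain ⟨k, h1, h2⟩ := h
  exact ⟨k, by omega, by omega⟩

theorem str6_of (hF : Fine F n (m : ℤ) p M W A) (h : Sg A g) : Str6 W g := by
  obtain ⟨k, h1, h2⟩ := h
  intro j j1 j2
  have e1 := hF.step k j (by omega) (by omega)
  have e2 := hF.step k (j - 1) (by omega) (by omega)
  rw [sub_add_cancel] at e2
  unfold ge
  rw [add_sub_cancel_right, e1, e2]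

/-! ### above and below -/

/-- **a point above a gate is off all strips** -/
theorem above_off (hF : Fine F n (m : ℤ) p M W A) (hh : 0 < h) (hg : Sg A g) {A' B' : ℝ}
    (hB : 0 ≤ B') (hBh : B' ≤ h) (hx : |X (gz h W g) (ge W g) v| < 3 / 2 * h - A')
    (hy1 : A' ≤ Y (gz h W g) (ge W g) v) (hy2 : Y (gz h W g) (ge W g) v < (m - 2) * h - A') (c : ℤ) :
    v ∉ RR A' B' h W c := by
  intro hc
  obtain ⟨A'', h1, h2⟩ := RR_shrink hc
  obtain ⟨k, g1, g2⟩ := hg
  obtain ⟨x, hx', x1, x2⟩ := LnkGx927.rr_near hF hh hB hBh h2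
  have h3 := LnkGx927.gate_far (ρ := h + A'') hF hh g1 g2 (s := v) (by linarith) (by linarith)
    (by linarith) x hx'
  exact absurd (max_le x1 x2) (not_le.2 h3)

variable {gL' gR' : ℤ}

/-- a point near the polygon is off all strips -/
theorem pg_off (hF : Fine F n (m : ℤ) p M W A) (hm : 0 < m) (hh : 0 < h) {A' B' r : ℝ} (hB : 0 ≤ B')
    (hBh : B' ≤ h) (hr : r ≤ h - A') (hv : v ∈ Kin r (Pg (m * h) F)) (c : ℤ) :
    v ∉ RR A' B' h W c := fun hc => RR_Kin hF hm hh hB hBh hr hc hv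

/-- a point below a gate is off all strips -/
theorem below_off (hF : Fine F n (m : ℤ) p M W A) (hm : 0 < m) (hh : 0 < h) (hg : Sg A g)
    {A' B' : ℝ} (hB : 0 ≤ B') (hBh : B' ≤ h) (hA : A' ≤ h)
    (hx : |X (gz h W g) (ge W g) v| ≤ 5 / 2 * h) (hy1 : Y (gz h W g) (ge W g) v ≤ -A')
    (hy2 : -h - m * h ≤ Y (gz h W g) (ge W g) v) (c : ℤ) : v ∉ RR A' B' h W c := by
  obtain ⟨k, g1, g2⟩ := hg
  rcases le_or_gt (-h) (Y (gz h W g) (ge W g) v) with h1 | h1
  · have h2 := InnPx643.foot_mem hF hh g1 g2 hx h1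
    exact pg_off hF hm hh hB hBh (by linarith) h2 c
  · have h2 := InnPx643.below_pt hF hh g1 g2 hx hy2 h1.le
    rw [InnPx643.pt_eq hF.fpath] at h2
    exact pg_off hF hm hh hB hBh (r := 0) (by linarith) (RegEx523.sub_Kin le_rfl h2) c

/-! ### the curtain with upper windows -/

/-- upper part of the long window -/
def WinP (h : ℝ) (W : ℤ → ℤ × ℤ) (A κ : ℝ) (g : ℤ) : Set ℂ :=
  {z | |X (gz h W g) (ge W g) z| < 3 * h / 2 ∧ 0 < Y (gz h W g) (ge W g) z ∧
    Y (gz h W g) (ge W g) z < A + κ}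

theorem winP_sub {A κ : ℝ} (hA : 0 < A + κ) : WinP h W A κ g ⊆ Win h W A κ g := fun _ hz =>
  ⟨hz.1, abs_lt.2 ⟨by linarith [hz.2.1], hz.2.2⟩⟩

theorem pos_seg (hu : 0 < Y (gz h W g) (ge W g) u) (hv : 0 < Y (gz h W g) (ge W g) v)
    (hw : w ∈ segment ℝ u v) : 0 < Y (gz h W g) (ge W g) w := by
  obtain ⟨r, s, hr, hs, hrs, rfl⟩ := hw
  rw [TilUx496.Y_comb _ _ _ _ hrs]
  exact TilUx496.cv_gt hr hs hrs hu hv

/-- the points of the closed curtain -/
def Pt (A B h : ℝ) (W : ℤ → ℤ × ℤ) (M : ℕ) (gL gR : ℤ) : Set ℂ :=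
  {w | w ∈ Ci A B h W gL gR ∨ w ∈ Co A B h W M gL gR ∨
    ∃ x, -(3 * h / 2) ≤ x ∧ x ≤ 3 * h / 2 ∧ w = TilUx496.ax h W gR x}

variable {A0 B0 κ δ : ℝ}

/-- a set of sites which are off all tiles or in a signed part of the long windows -/
theorem Geo.signed (G : Geo S M W A0 B0 h κ δ gL gR) {V0 : Set ℂ} {PL PR : Set ℂ}
    (hL : PL ⊆ Win h W A0 κ gL) (hR : PR ⊆ Win h W A0 κ gR)
    (hw0 : ∀ u ∈ PR, ∀ v ∈ PR, ∀ w ∈ segment ℝ u v, Y (gz h W gR) (ge W gR) w ≠ 0)
    (hV : ∀ s ∈ V0, s ∈ Off A0 B0 h W δ ∨ s ∈ PL ∨ s ∈ PR) :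
    ∀ u v, DE S u v → u ∈ V0 → v ∈ V0 → ∀ w ∈ Pt A0 B0 h W M gL gR, w ∉ segment ℝ u v := by
  intro u v huv hu hv w hw
  have ht := G.tile_of hw
  rcases hV u hu with h1 | h1 | h1
  · exact G.off_edge huv (Or.inl h1) ht
  · rcases hV v hv with h2 | h2 | h2
    · exact G.off_edge huv (Or.inr h2) ht
    · exact fun hs => G.offL hw (win_seg (hL h1) (hL h2) hs)
    · exact G.no_both huv (hL h1) (hR h2) ht
  · rcases hV v hv with h2 | h2 | h2
    · exact G.off_edge huv (Or.inr h2) ht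
    · rw [segment_symm]
      exact G.no_both huv.symm (hL h2) (hR h1) ht
    · intro hs
      have h3 := win_seg (hR h1) (hR h2) hs
      rcases hw with hw | hw | ⟨x, -, -, rfl⟩
      · exact G.offR (Or.inl hw) h3
      · exact G.offR (Or.inr hw) h3
      · exact hw0 u h1 v h2 _ hs (TilUx496.Y_ax G.fp h gR x)

/-- **the closed curtain**, `VF` also in the upper windows -/
theorem Geo.cur2 (G : Geo S M W A0 B0 h κ δ gL gR) {VR VF VL VK : Set ℂ} {a b b' a' : ℂ}
    (lR : Lk S VR a b) (lF : Lk S VF b b') (lL : Lk S VL b' a') (lK : Lk S VK a' a)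
    (hR : VR ⊆ Win h W A0 κ gR) (hL : VL ⊆ Win h W A0 κ gL)
    (hF : ∀ s ∈ VF, s ∈ Off A0 B0 h W δ ∨ s ∈ WinP h W A0 κ gL ∨ s ∈ WinP h W A0 κ gR)
    (hK : ∀ s ∈ VK, s ∈ Off A0 B0 h W δ ∨ s ∈ WinN h W A0 κ gL ∨ s ∈ WinN h W A0 κ gR)
    (ha : Y (gz h W gR) (ge W gR) a < 0) (hb : 0 < Y (gz h W gR) (ge W gR) b) :
    Cur S (gz h W gR) (ge W gR) (-(3 * h / 2)) (3 * h / 2) VR VF VL VK (Ci A0 B0 h W gL gR)
      (Co A0 B0 h W M gL gR) a b b' a' := by
  have hh := G.hpos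
  have hκ : 0 ≤ κ := G.δ0.trans G.δκ
  have hAκ : 0 < A0 + κ := by linarith [G.A0]
  have g1 := G.g1
  have g2 := G.g2
  have hKK := Geo.signed G (winN_sub hAκ) (winN_sub hAκ)
    (fun u hu v hv w hw => (neg_seg hu.2.2 hv.2.2 hw).ne) hK
  have hFF := Geo.signed G (winP_sub hAκ) (winP_sub hAκ)
    (fun u hu v hv w hw => (pos_seg hu.2.1 hv.2.1 hw).ne') hF
  have hLL : ∀ u v, u ∈ VL → v ∈ VL → ∀ w ∈ Pt A0 B0 h W M gL gR, w ∉ segment ℝ u v :=
    fun u v hu hv w hw hs => G.offL hw (win_seg (hL hu) (hL hv) hs)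
  refine
    { he := ge_ne G.fp gR
      lR := lR
      lF := lF
      lL := lL
      lK := lK
      h01 := by linarith
      hRx := fun s hs => abs_lt.1 (hR hs).1
      ha := ha
      hb := hb
      hw := ?_
      hCi := cin_pre G.fp G.sR G.A0 G.Bh G.Bh' hh (by omega) (by linarith)
      hCo := cout_pre G.fp G.sR G.A0 G.Bh G.Bh' hh (by omega) (by linarith)
      hi := Or.inr ⟨-(3 * h / 2), by linarith, by linarith, rfl⟩
      ho := Or.inr ⟨3 * h / 2, by linarith, by linarith, rfl⟩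
      hC := ?_ }
  · intro u v huv hc x h1 h2
    have hw : TilUx496.ax h W gR x ∈ Pt A0 B0 h W M gL gR := Or.inr (Or.inr ⟨x, h1, h2, rfl⟩)
    rcases hc with ⟨hu, hv⟩ | ⟨hu, hv⟩ | ⟨hu, hv⟩
    · exact hFF u v huv hu hv _ hw
    · exact hLL u v hu hv _ hw
    · exact hKK u v huv hu hv _ hw
  · intro w hw u v huv hc
    have hw' : w ∈ Pt A0 B0 h W M gL gR := hw.imp_right Or.inl
    rcases hc with ⟨hu, hv⟩ | ⟨hu, hv⟩ | ⟨hu, hv⟩ | ⟨hu, hv⟩
    · exact fun hs => G.offR hw (win_seg (hR hu) (hR hv) hs)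
    · exact hFF u v huv hu hv _ hw'
    · exact hLL u v hu hv _ hw'
    · exact hKK u v huv hu hv _ hw'

/-! ### the environment -/

/-- no holes near the tiles -/
theorem hol_of_en (E : En S F n m p M W A η d) :
    Hol (S : Set ℂ) (⋃ j : ℤ, RR (13 * η) (54 * η) (100 * η) W j) d := by
  have h0 := E.e0
  have h1 := E.de
  intro w hw z hz
  obtain ⟨j, hj⟩ := Set.mem_iUnion.1 hw
  have h2 := RegBx523.RR_ball E.fine.fpath hj
  rw [max_eq_right (by linarith)] at h2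
  obtain ⟨s, hs, h3⟩ := E.hol j (cen (100 * η) W j) (TilUx496.cen_RR (by linarith) (by linarith) _ _ _) z
    (by
      have e : z - cen (100 * η) W j = (z - w) + (w - cen (100 * η) W j) := by ring
      rw [e]
      refine (norm_add_le _ _).trans ?_
      linarith)
  exact ⟨s, hs, h3⟩

/-- **the geometry of the curtain** -/
theorem geo_of_en (E : En S F n m p M W A η d) (sL : Sg A gL) (sR : Sg A gR) (g1 : gL + 6 ≤ gR)
    (g2 : gR + 6 ≤ gL + M) : Geo S M W (13 * η) (54 * η) (100 * η) (16 * η) (2 * d) gL gR := by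
  have h0 := E.e0
  have h1 := E.de
  have h2 := E.d0
  exact
    { fp := E.fine.fpath
      A0 := by linarith
      AB := by linarith
      Bh := by linarith
      δ0 := by linarith
      δκ := by linarith
      hh := by linarith
      sL := str6_of E.fine sL
      sR := str6_of E.fine sR
      g1 := g1
      g2 := g2
      short := short_of_hol h2 (hol_of_en E) }

/-- (C4 (a)) a point above the gate is off all strips -/
theorem up_off (E : En S F n m p M W A η d) (sg : Sg A g) {x A' B' : ℝ} (hx : x ≤ 20 * η)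
    (hA : A' ≤ 30 * η) (hB : 0 ≤ B') (hBh : B' ≤ 100 * η) {y1 : ℝ} (hy1 : y1 ≤ 100 * η)
    (hv : v ∈ Wn η W g x A' y1) (c : ℤ) : v ∉ RR A' B' (100 * η) W c := by
  have h0 := E.e0
  obtain ⟨v1, v2, v3⟩ := hv
  have hm : (10 : ℝ) ≤ m := by exact_mod_cast E.m10
  refine above_off E.fine (by linarith) sg hB hBh (by linarith) v2 ?_ c
  nlinarith

/-- 66's sites above a gate -/
theorem up_or (E : En S F n m p M W A η d) (sg : Sg A g)
    (hv : v ∈ Wn η W g (2 * η) (9 * η) (30 * η)) :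
    v ∈ Off (13 * η) (54 * η) (100 * η) W (2 * d) ∨ v ∈ WinP (100 * η) W (13 * η) (16 * η) g := by
  have h0 := E.e0
  have h1 := E.de
  have h2 := E.d0
  obtain ⟨v1, v2, v3⟩ := hv
  rcases lt_or_ge (Y (gz (100 * η) W g) (ge W g) v) (29 * η) with h3 | h3
  · exact Or.inr ⟨by linarith, by linarith, by linarith⟩
  · exact Or.inl fun c => up_off E sg (x := 2 * η) (y1 := 30 * η) (by linarith) (by linarith) (by linarith)
      (by linarith) (by linarith) ⟨v1, by linarith, v3⟩ c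

/-- sites off the wider strips -/
theorem off_or (E : En S F n m p M W A η d)
    (hv : v ∈ LocTx776.Off S (14 * η) (55 * η) (100 * η) W) :
    v ∈ Off (13 * η) (54 * η) (100 * η) W (2 * d) := by
  have h0 := E.e0
  have h1 := E.de
  intro c hc
  exact hv.2 c (RR_mono (by linarith) (by linarith) _ W c hc)

/-- 643's sites below a gate -/
theorem dn_or (E : En S F n m p M W A η d) (sg : Sg A g)
    (hv : v ∈ Wn η W g (2 * η) (-(101 * η)) (-(9 * η))) :
    v ∈ Off (13 * η) (54 * η) (100 * η) W (2 * d) ∨ v ∈ WinN (100 * η) W (13 * η) (16 * η) g := by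
  have h0 := E.e0
  have h1 := E.de
  have h2 := E.d0
  have hm : (10 : ℝ) ≤ m := by exact_mod_cast E.m10
  obtain ⟨v1, v2, v3⟩ := hv
  rcases lt_or_ge (-(29 * η)) (Y (gz (100 * η) W g) (ge W g) v) with h3 | h3
  · exact Or.inr ⟨by linarith, by linarith, by linarith⟩
  · refine Or.inl fun c => below_off E.fine (by have := E.m10; omega) (by linarith) sg
      (by linarith) (by linarith) (by linarith) (by linarith) (by linarith) ?_ c
    nlinarith

/-- sites near the polygon -/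
theorem near_or (E : En S F n m p M W A η d) {x : ℂ} (hx : x ∈ Pg (m * (100 * η)) F)
    (hv : ‖v - x‖ < d) : v ∈ Off (13 * η) (54 * η) (100 * η) W (2 * d) := by
  have h0 := E.e0
  have h1 := E.de
  have h2 := E.d0
  exact fun c => pg_off E.fine (by have := E.m10; omega) (by linarith) (by linarith) (by linarith)
    (r := d) (by linarith) (RegEx523.Kin_of_dist hx hv.le) c

/-- the vertical chains -/
theorem vch_win (E : En S F n m p M W A η d) (sg : Sg A g) {VV : Set ℂ} {s t : ℂ}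
    (C : VCh S η W g VV s t) : VV ⊆ Win (100 * η) W (13 * η) (16 * η) g := by
  have h0 := E.e0
  intro v hv
  have h1 := C.win v hv
  refine ⟨by linarith, ?_⟩
  have st := str6_of E.fine sg
  have key : |Y (gz (100 * η) W g) (ge W g) v| < 12 * η := by
    rcases C.rr v hv with h2 | h2
    · exact ((str_frame E.fine.fpath st (by omega) (by omega) (by linarith) (by linarith)).1 h2).2
    · exact ((str_frame E.fine.fpath st (by omega) (by omega) (by linarith) (by linarith)).1 h2).2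
  linarith

/-- **(C8) the closed curtain** -/
theorem curtain (E : En S F n m p M W A η d) (sL : Sg A gL) (sR : Sg A gR) (g1 : gL + 6 ≤ gR)
    (g2 : gR + 6 ≤ gL + M) {VR VF VL VK : Set ℂ} {aR bR bL aL : ℂ}
    (cR : VCh S η W gR VR aR bR) (cL : VCh S η W gL VL aL bL) (lF : Lk S VF bR bL)
    (hF : ∀ v ∈ VF, v ∈ LocTx776.Off S (14 * η) (55 * η) (100 * η) W ∨
      v ∈ Wn η W gR (2 * η) (10 * η) (30 * η) ∨ v ∈ Wn η W gL (2 * η) (10 * η) (30 * η))
    (lK : Lk S VK aL aR)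
    (hK : ∀ v ∈ VK, (∃ x ∈ Pg (m * (100 * η)) F, ‖v - x‖ < d) ∨
      v ∈ Wn η W gR (2 * η) (-(101 * η)) (-(9 * η)) ∨
      v ∈ Wn η W gL (2 * η) (-(101 * η)) (-(9 * η))) :
    Cur S (gz (100 * η) W gR) (ge W gR) (-(3 * (100 * η) / 2)) (3 * (100 * η) / 2) VR VF VL VK
      (Ci (13 * η) (54 * η) (100 * η) W gL gR) (Co (13 * η) (54 * η) (100 * η) W M gL gR)
      aR bR bL aL := by
  have h0 := E.e0
  refine Geo.cur2 (geo_of_en E sL sR g1 g2) cR.lk lF cL.lk.symm lK (vch_win E sR cR)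
    (vch_win E sL cL) ?_ ?_ ?_ ?_
  · intro v hv
    rcases hF v hv with h1 | h1 | h1
    · exact Or.inl (off_or E h1)
    · rcases up_or E sR ⟨h1.1, by linarith [h1.2.1], h1.2.2⟩ with h2 | h2
      · exact Or.inl h2
      · exact Or.inr (Or.inr h2)
    · rcases up_or E sL ⟨h1.1, by linarith [h1.2.1], h1.2.2⟩ with h2 | h2
      · exact Or.inl h2
      · exact Or.inr (Or.inl h2)
  · intro v hv
    rcases hK v hv with ⟨x, hx, h1⟩ | h1 | h1
    · exact Or.inl (near_or E hx h1)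
    · rcases dn_or E sR h1 with h2 | h2
      · exact Or.inl h2
      · exact Or.inr (Or.inr h2)
    · rcases dn_or E sL h1 with h2 | h2
      · exact Or.inl h2
      · exact Or.inr (Or.inl h2)
  · linarith [cR.s1.2.2]
  · linarith [cR.t1.2.1]

theorem mem_Ci {A B : ℝ} (h1 : gL + 2 ≤ j) (h2 : j ≤ gR - 3) (hv : v ∈ RR A B h W j) :
    v ∈ Ci A B h W gL gR := by
  refine Or.inl ?_
  simp only [Set.mem_iUnion, Set.mem_Icc, exists_prop]
  exact ⟨j, ⟨h1, h2⟩, hv⟩

theorem mem_Co {A B : ℝ} (h1 : gR + 2 ≤ j) (h2 : j ≤ gL - 3 + M) (hv : v ∈ RR A B h W j) :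
    v ∈ Co A B h W M gL gR := by
  refine Or.inl ?_
  simp only [Set.mem_iUnion, Set.mem_Icc, exists_prop]
  exact ⟨j, ⟨h1, h2⟩, hv⟩

end Crest.Agent.R143.CurHx496
end
end

-- ▼ part R143/Walk_336
section

/-!
# Row 143 (S0194): straight walks (helper336)

* `lk_of_pth` : 723's paths are 921's links
* **`walk`** : from a site `v` in the direction `u` (`‖u‖ = 1`) up to the distance `T`: the sites of
  the chain own a point `v + t u` of the segment, at distance `≤ t` and `< κ` from it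
* **`walk_up`**, **`walk_down`** : 776's form in the frame `(z0, e)`; `walk_right`, `walk_left`
-/

set_option autoImplicit false

noncomputable section

open scoped Classical

namespace Crest.Agent.R143.Walkx336

open Crest.ProbabilityR.Voronoi
open Crest.Agent.R143.B0x346 Crest.Agent.R143.DelGx806 Crest.Agent.R143.DelRx806
open Crest.Agent.R143.RE0x723 (Pth)
open Crest.Agent.R143.Blkx838 (DE)
open Crest.Agent.R143.Gatex838 (X Y)
open Crest.Agent.R143.Neckx921 (Lk)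

variable {S : Finset ℂ}

theorem lk_of_pth {A : Set ℂ} {x y : ℂ} (h : Pth S A x y) : Lk S A x y := by
  obtain ⟨hx, h⟩ := h
  induction h with
  | refl => exact Lk.refl hx
  | tail _ h1 ih => exact ih.trans ⟨⟨ih.1.2, h1.2⟩, .single ⟨h1.1, ih.1.2, h1.2⟩⟩

/-- the sites met by a walk of length `T` from `v` in the direction `u` -/
def WS (S : Finset ℂ) (v u : ℂ) (T κ : ℝ) : Set ℂ :=
  {q | q ∈ S ∧ ∃ t : ℝ, 0 ≤ t ∧ t ≤ T + κ ∧ ‖q - (v + (t : ℂ) * u)‖ ≤ t ∧
    ‖q - (v + (t : ℂ) * u)‖ < κ}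

/-- **straight walk** -/
theorem walk (gp : GP (S : Set ℂ)) (h3 : 3 ≤ S.card) {v u : ℂ} (hu : ‖u‖ = 1) (hv : v ∈ S)
    {T κ : ℝ} (hκ : 0 < κ) (hT : 0 ≤ T)
    (holes : ∀ t : ℝ, 0 ≤ t → t ≤ T + κ → ∃ s ∈ S, ‖s - (v + (t : ℂ) * u)‖ < κ) :
    ∃ w, Lk S (WS S v u T κ) v w ∧ ‖w - (v + ((T + κ : ℝ) : ℂ) * u)‖ < κ := by
  set f : ℝ → ℂ := fun t => v + (t : ℂ) * u with hf
  set C : Set ℂ := f '' Set.Icc 0 (T + κ) with hC
  have hfc : Continuous f := by
    rw [hf]
    exact continuous_const.add (Complex.continuous_ofReal.mul continuous_const)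
  have hCc : IsPreconnected C := isPreconnected_Icc.image f hfc.continuousOn
  have hne : S.Nonempty := ⟨v, hv⟩
  obtain ⟨w, hw, hwc⟩ := G6Wx723.exists_cell hne (f (T + κ))
  have hdist : ∀ t : ℝ, 0 ≤ t → ‖v - f t‖ = t := by
    intro t ht
    rw [hf]
    simp only
    rw [show v - (v + (t : ℂ) * u) = -((t : ℂ) * u) by ring, norm_neg, norm_mul, hu, mul_one,
      Complex.norm_real, Real.norm_eq_abs, abs_of_nonneg ht]
  have key : ∀ q t, 0 ≤ t → t ≤ T + κ → f t ∈ voronoiCell (S : Set ℂ) q →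
      ‖q - f t‖ ≤ t ∧ ‖q - f t‖ < κ := by
    intro q t h0 h1 hq
    obtain ⟨s, hs, hs'⟩ := holes t h0 h1
    have e1 := hq v (Finset.mem_coe.2 hv)
    have e2 := hq s (Finset.mem_coe.2 hs)
    rw [norm_sub_rev (f t) q] at e1 e2
    rw [norm_sub_rev (f t) v, hdist t h0] at e1
    rw [norm_sub_rev (f t) s] at e2
    exact ⟨e1, lt_of_le_of_lt e2 hs'⟩
  have hP := REwx838.pth_of_set gp h3 hCc (V := WS S v u T κ) hv hw
    (z1 := f 0) (z2 := f (T + κ))
    ⟨⟨0, ⟨le_rfl, by linarith⟩, rfl⟩, by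
      have e0 : f 0 = v := by rw [hf]; simp
      rw [e0]
      exact REwx838.self_cell v⟩
    ⟨⟨T + κ, ⟨by linarith, le_rfl⟩, rfl⟩, hwc⟩ (by
      rintro q hq ⟨z, ⟨t, ⟨h0, h1⟩, rfl⟩, hz⟩
      obtain ⟨g1, g2⟩ := key q t h0 h1 hz
      exact ⟨hq, t, h0, h1, g1, g2⟩)
  exact ⟨w, lk_of_pth hP, (key w (T + κ) (by linarith) le_rfl hwc).2⟩

/-! ### frames -/

variable {z0 e : ℂ}



theorem X_sub (a b : ℂ) : X z0 e a - X z0 e b = ((a - b) / e).re := by
  unfold X
  rw [← Complex.sub_re, ← sub_div]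
  congr 2
  ring

theorem Y_sub (a b : ℂ) : Y z0 e a - Y z0 e b = ((a - b) / e).im := by
  unfold Y
  rw [← Complex.sub_im, ← sub_div]
  congr 2
  ring

/-- the walk in the direction `u = ‖e‖⁻¹ c e`, `c` one of `1, -1, I, -I` -/
theorem walk_c (gp : GP (S : Set ℂ)) (h3 : 3 ≤ S.card) (he : e ≠ 0) {v c : ℂ} (hc : ‖c‖ = 1)
    (hv : v ∈ S) {T κ : ℝ} (hκ : 0 < κ) (hT : 0 ≤ T)
    (holes : ∀ t : ℝ, 0 ≤ t → t ≤ T + κ → ∃ s ∈ S, ‖s - (v + (t : ℂ) * (c * e))‖ < κ * ‖e‖) :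
    ∃ w, Lk S {q | q ∈ S ∧ ∃ t : ℝ, 0 ≤ t ∧ t ≤ T + κ ∧ ‖(q - v) / e - (t : ℂ) * c‖ ≤ t ∧
      ‖(q - v) / e - (t : ℂ) * c‖ < κ} v w ∧ ‖(w - v) / e - ((T + κ : ℝ) : ℂ) * c‖ < κ := by
  have hn : 0 < ‖e‖ := norm_pos_iff.2 he
  have hnc : (‖e‖ : ℂ) ≠ 0 := by exact_mod_cast hn.ne'
  set u : ℂ := c * e / ‖e‖ with hu
  have hu1 : ‖u‖ = 1 := by
    rw [hu, norm_div, norm_mul, hc, one_mul, Complex.norm_real, Real.norm_eq_abs, abs_of_pos hn,
      div_self hn.ne']
  have hpt : ∀ t : ℝ, v + ((t * ‖e‖ : ℝ) : ℂ) * u = v + (t : ℂ) * (c * e) := by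
    intro t
    rw [hu]
    push_cast
    field_simp
  have hsc : ∀ (q : ℂ) (t : ℝ), ‖q - (v + ((t * ‖e‖ : ℝ) : ℂ) * u)‖ =
      ‖(q - v) / e - (t : ℂ) * c‖ * ‖e‖ := by
    intro q t
    rw [hpt, ← norm_mul]
    congr 1
    field_simp
    ring
  obtain ⟨w, h1, h2⟩ := walk gp h3 (T := T * ‖e‖) (κ := κ * ‖e‖) hu1 hv (mul_pos hκ hn)
    (mul_nonneg hT hn.le) (by
      intro t ht0 ht1
      obtain ⟨s, hs, hs'⟩ := holes (t / ‖e‖) (div_nonneg ht0 hn.le) (by
        rw [div_le_iff₀ hn]; linarith)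
      refine ⟨s, hs, ?_⟩
      have := hpt (t / ‖e‖)
      rw [div_mul_cancel₀ t hn.ne'] at this
      rw [this]
      exact hs')
  refine ⟨w, h1.mono ?_, ?_⟩
  · rintro q ⟨hq, t, ht0, ht1, g1, g2⟩
    have e1 : t / ‖e‖ * ‖e‖ = t := div_mul_cancel₀ t hn.ne'
    have e2 := hsc q (t / ‖e‖)
    rw [e1] at e2
    rw [e2] at g1 g2
    refine ⟨hq, t / ‖e‖, div_nonneg ht0 hn.le, ?_, ?_, ?_⟩
    · rw [div_le_iff₀ hn]; linarith
    · rw [le_div_iff₀ hn]; exact g1
    · exact lt_of_mul_lt_mul_right g2 hn.le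
  · have e2 := hsc w (T + κ)
    rw [show T * ‖e‖ + κ * ‖e‖ = (T + κ) * ‖e‖ by ring, e2] at h2
    exact lt_of_mul_lt_mul_right h2 hn.le





end Crest.Agent.R143.Walkx336
end
end

-- ▼ part R143/CurO_66
section

/-!
# Row 143 (S0194), RIG, LOCX: the outer part of the closed curtain (helper66)

* `seg_near` : an edge of the Delaunay triangulation which passes through a point of a dense region
  has both ends within `2 d` of it; **`seg_off`** : an edge with one end off the strips `RR A' B'` does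
  not meet the strips `RR A1 B1` (`A1 + 2 d ≤ A'`, `B1 + 2 d ≤ B'`)
* `OutP` : the outer part `V` of a curtain, from `b` to `b'`: links off the strips through the hull;
  all its cells are in `Ext` of every blocking set in the strips: `OutP.ext`, `OutP.ok`
* `out_of` : from two paths to a site of the hull; **`outerU`** : at a good environment, for the tops of
  the columns of two gates inside coarse edges; `segU`
-/

set_option autoImplicit false

noncomputable section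

open scoped Classical

namespace Crest.Agent.R143.CurOx66

open Crest.ProbabilityR.Voronoi
open Crest.Agent.R143.B0x346 Crest.Agent.R143.DelGx806 Crest.Agent.R143.DelRx806
open Crest.Agent.R143.Blkx838 (DE)
open Crest.Agent.R143.Neckx921 (Lk)
open Crest.Agent.R143.ToolW2x838 Crest.Agent.R143.ToolW3x838 Crest.Agent.R143.Gatex838
open Crest.Agent.R143.Locx922 (Hol InD del_small)
open Crest.Agent.R143.TileRx228 (FPath gz ge RR)
open Crest.Agent.R143.Extx358 (Ad Ext Bd)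
open Crest.Agent.R143.Frame10x395
open Crest.Agent.R143.FinCx811 (Cs rc0 cs)
open Crest.Agent.R143.RcTx422 (Hc RC)
open Crest.Agent.R143.RE0x723 (Pth)
open Crest.Agent.R143.PolyUx346 Crest.Agent.R143.LayUx416
open Crest.Agent.R143.LocDx776 (Ok ext_lk)
open Crest.Agent.R143.CorEx133
open Crest.Agent.R143.Brkx478 (Bk cells)
open Crest.Agent.R143.OutCx571 (Far)

variable {S : Finset ℂ} {M : ℕ} {W : ℤ → ℤ × ℤ} {d h A1 B1 A' B' : ℝ}

/-! ### edges -/

/-- an edge through a point of a dense region is short -/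
theorem seg_near {K : Set ℂ} {u v w : ℂ} (hd : 0 < d) (hH : Hol (S : Set ℂ) K d) (hw : w ∈ K)
    (h : DE S u v) (hs : w ∈ segment ℝ u v) : ‖u - w‖ < 2 * d ∧ ‖v - w‖ < 2 * d := by
  have key : ∀ a b : ℂ, w ∈ segment ℝ a b → (∃ c, (a, b, c) ∈ delT S) →
      ‖a - w‖ < 2 * d ∧ ‖b - w‖ < 2 * d := by
    rintro a b hs ⟨c, hc⟩
    have hI : InD w a b c := by
      intro o h1 _
      have h2 : segment ℝ a b ⊆ Metric.closedBall o ‖a - o‖ :=
        (convex_closedBall o _).segment_subset (by simp [dist_eq_norm])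
          (by simp [dist_eq_norm, h1])
      have h3 := h2 hs
      rwa [Metric.mem_closedBall, dist_eq_norm] at h3
    obtain ⟨o, -, -, -, -, -, h1, h2, -⟩ := del_small hd hH hw hI (mem_delT.1 hc)
    exact ⟨h1, h2⟩
  rcases h with h | h
  · exact key u v hs h
  · have h1 := key v u (by rwa [segment_symm]) h
    exact ⟨h1.2, h1.1⟩

/-- **an edge with one end off the large strips does not meet the small strips** -/
theorem seg_off (P : FPath M W) (hd : 0 < d)
    (hH : Hol (S : Set ℂ) {w | ∃ a, w ∈ RR A1 B1 h W a} d) (hA : A1 + 2 * d ≤ A')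
    (hB : B1 + 2 * d ≤ B') {u v : ℂ} (hde : DE S u v) (hu : ∀ a, u ∉ RR A' B' h W a) {w : ℂ}
    {a : ℤ} (hw : w ∈ RR A1 B1 h W a) : w ∉ segment ℝ u v := by
  intro hs
  have h1 := (seg_near hd hH ⟨a, hw⟩ hde hs).1
  have h2 := TilUx496.thick P hw h1.le
  exact hu a (TileRx228.RR_mono hA hB h W a h2)

/-! ### the outer part -/

/-- sites off the strips -/
def Of (S : Finset ℂ) (A' B' h : ℝ) (W : ℤ → ℤ × ℤ) : Set ℂ :=
  {q | q ∈ S ∧ ∀ a, q ∉ RR A' B' h W a}

/-- the outer part of a curtain -/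
structure OutP (S : Finset ℂ) (A' B' h : ℝ) (W : ℤ → ℤ × ℤ) (V : Set ℂ) (b b' : ℂ) : Prop where
  lk : Lk S V b b'
  off : ∀ q ∈ V, q ∈ Of S A' B' h W
  hull : ∀ q ∈ V, ∃ x, OnHull S x ∧ Lk S (Of S A' B' h W) q x

/-- links stay in the set of the sites linked to the end -/
theorem lk_to {O : Set ℂ} {b x : ℂ} (h : Lk S O b x) : Lk S {q | Lk S O q x} b x := by
  obtain ⟨⟨hb, hx⟩, h⟩ := h
  induction h using Relation.ReflTransGen.head_induction_on with
  | refl => exact Lk.refl (Lk.refl hx)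
  | @head a c h1 h2 ih =>
    have h3 := ih h1.2.2
    have h4 : Lk S O a x := ⟨⟨h1.2.1, hx⟩, .head h1 h2⟩
    exact ⟨⟨h4, h3.1.2⟩, .head ⟨h1.1, h4, h3.1.1⟩ h3.2⟩


/-- the blocking cells are cells of inner sites of the strips -/
def BlkS {hS : GP (S : Set ℂ)} (A' B' h : ℝ) (W : ℤ → ℤ × ℤ) (Y : Set (Cs hS)) : Prop :=
  ∀ c ∈ Y, ∃ t, ¬ OnHull S t ∧ (∃ a, t ∈ RR A' B' h W a) ∧ c.1 = Quot.mk (hullE S) t

theorem BlkS.union {hS : GP (S : Set ℂ)} {Y Y' : Set (Cs hS)} (h1 : BlkS A' B' h W Y)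
    (h2 : BlkS A' B' h W Y') : BlkS A' B' h W (Y ∪ Y') := fun c hc => hc.elim (h1 c) (h2 c)

theorem BlkS.mono {hS : GP (S : Set ℂ)} {Y Y' : Set (Cs hS)} (h1 : BlkS A' B' h W Y)
    (h2 : Y' ⊆ Y) : BlkS A' B' h W Y' := fun c hc => h1 c (h2 hc)


theorem BlkS.off {hS : GP (S : Set ℂ)} {Y : Set (Cs hS)} (hY : BlkS A' B' h W Y) {s : ℂ}
    (hs : s ∈ Of S A' B' h W) {c : Cs hS} (e : c.1 = Quot.mk (hullE S) s) : c ∉ Y := by
  intro hc
  obtain ⟨t, h1, ⟨a, h2⟩, h3⟩ := hY c hc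
  have h4 : s = t := quot_inner hS h1 (h3.symm.trans e)
  exact hs.2 a (h4 ▸ h2)

variable {V : Set ℂ} {b b' : ℂ}

/-- **the cells of the outer part are in `Ext`** -/
theorem OutP.ext (O : OutP S A' B' h W V b b') {hS : GP (S : Set ℂ)} {Y : Set (Cs hS)}
    (hY : BlkS A' B' h W Y) {q : ℂ} (hq : q ∈ V) {c : Cs hS} (e : c.1 = Quot.mk (hullE S) q) :
    Ext (rc0 hS) (Hc hS) Y c := by
  obtain ⟨x, hx, hl⟩ := O.hull q hq
  refine ext_lk (A := Of S A' B' h W) (fun s hs c e => hY.off hs e) hl.symm ?_ e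
  intro c e'
  exact Ext.hull ⟨x, hx, e'⟩ (hY.off hl.1.2 e')


/-- the edges of the outer part do not meet the small strips -/
theorem OutP.seg (O : OutP S A' B' h W V b b') (P : FPath M W) (hd : 0 < d)
    (hH : Hol (S : Set ℂ) {w | ∃ a, w ∈ RR A1 B1 h W a} d) (hA : A1 + 2 * d ≤ A')
    (hB : B1 + 2 * d ≤ B') {u v : ℂ} (hde : DE S u v) (hu : u ∈ V) {w : ℂ} {a : ℤ}
    (hw : w ∈ RR A1 B1 h W a) : w ∉ segment ℝ u v :=
  seg_off P hd hH hA hB hde (O.off u hu).2 hw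

/-! ### at a good environment -/

section env

variable {u : Poly} {m : ℕ} {p : ℤ → ℤ × ℤ} {A e : ℤ → ℤ} {ε K1 c2 ρ0 : ℝ} {ω : Sample}







end env

end Crest.Agent.R143.CurOx66
end
end

-- ▼ part R143/CurV_66
section

/-!
# Row 143 (S0194), RIG, LOCX: the outer part of the closed curtain, final form (helper66; 776's (C2))

* `gate_far4`, `strg_ge` : a gate between two corners (`Strg`)
* `win_off` : the column above a gate is off the strips; `walk_y` : straight walk up, with bounds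
* **`vf`** : the outer part of the curtain between the tops of two vertical chains
* **`up_ext`** : a site above a gate is linked to a far site off the strips
-/

set_option autoImplicit false

noncomputable section

open scoped Classical

namespace Crest.Agent.R143.CurVx66

open Set
open Crest.ProbabilityR.Voronoi
open Crest.Agent.R158.Sp896
open Crest.Agent.R143.B0x346
open Crest.Agent.R143.RE0x723 (Pth)
open Crest.Agent.R143.Tenx416 (Pg)
open Crest.Agent.R143.OutCx571 Crest.Agent.R143.TileRx228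
open Crest.Agent.R143.Gatex838 (X Y)
open Crest.Agent.R143.Finex422 (Fine ro adj_un)
open Crest.Agent.R143.Blkx838 (DE)
open Crest.Agent.R143.Neckx921 (Lk)
open Crest.Agent.R143.LnkGx927 (far_of_cell Sml sml_of_hol out_path)
open Crest.Agent.R143.LocTx776

variable {δ ρ h : ℝ} {F : Set V} {n m M : ℕ} {p : ℤ → V} {W : ℤ → V} {A : ℤ → ℤ}

/-- **a point above a gate inside a straight run is far from the polygon** -/
theorem gate_far4 (hF : Fine F n (m : ℤ) p M W A) (hh : 0 < h) {k a : ℤ} (h1 : A k + 3 ≤ a)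
    (h2 : a + 2 ≤ A (k + 1)) {s : ℂ} (hx : |X (gz h W a) (ge W a) s| < 3 / 2 * h - ρ)
    (hy1 : ρ - h < Y (gz h W a) (ge W a) s) (hy2 : Y (gz h W a) (ge W a) s < (m - 1) * h - ρ) :
    s ∈ Far (m * h) ρ F := by
  have hm : (0 : ℝ) ≤ m := Nat.cast_nonneg m
  obtain ⟨t, g1, g2, g3⟩ := hF.exact k (a - 1) (by omega) (by omega)
  have hst := hF.step k (a - 1) (by omega) (by omega)
  rw [sub_add_cancel] at hst
  have sg1 := hF.seg k (a - 1) (by omega) (by omega)
  have sg2 := hF.seg k (A (k + 1)) (by omega) le_rfl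
  have v1 := hF.vert k
  have v2 := hF.vert (k + 1)
  have hd := adj_un (hF.cl.step k)
  have hl := hF.cl.left k
  have e0 : p (k + 1) = p k + (p (k + 1) - p k) := by abel
  -- bounds of `t`
  have hW : W a = W (a - 1) + (p (k + 1) - p k) := by rw [← hst]; abel
  have ge' : ge W a = cz (p (k + 1) - p k) := by rw [ge, hst]
  have gzr : (gz h W a).re = h * (((W (a - 1)).1 : ℝ) + (p (k + 1) - p k).1 / 2) := by
    have : (cz (W a)).re = ((W (a - 1)).1 : ℝ) + (p (k + 1) - p k).1 := by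
      rw [hW]; simp [cz]
    have h3 : (gz h W a).re = h * (((cz (W (a - 1))).re + (cz (W a)).re) / 2) := by
      simp [gz]
    rw [h3, this]
    simp only [cz]
    ring
  have gzi : (gz h W a).im = h * (((W (a - 1)).2 : ℝ) + (p (k + 1) - p k).2 / 2) := by
    have : (cz (W a)).im = ((W (a - 1)).2 : ℝ) + (p (k + 1) - p k).2 := by
      rw [hW]; simp [cz]
    have h3 : (gz h W a).im = h * (((cz (W (a - 1))).im + (cz (W a)).im) / 2) := by
      simp [gz]
    rw [h3, this]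
    simp only [cz]
    ring
  rw [ge', FineDx576.X_eq hd] at hx
  rw [ge', FineDx576.Y_eq hd] at hy1 hy2
  rw [gzr, gzi] at hx hy1 hy2
  rw [sg2] at v2
  rw [g3] at sg1
  rw [g3] at hx hy1 hy2
  rw [e0] at hl v2
  simp only [abs_le] at v1 v2
  rw [abs_lt] at hx
  generalize p (k + 1) - p k = D at *
  generalize W (A k) = w at *
  generalize p k = P at *
  obtain ⟨x, y⟩ := P
  obtain ⟨w1, w2⟩ := w
  rw [Prod.ext_iff] at sg1
  obtain ⟨s1, s2⟩ := sg1
  clear hW ge' gzr gzi hst g3 e0 sg2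
  rcases hd with rfl | rfl | rfl | rfl
  · have e : lc (x, y) ((x, y) + (1, 0)) = (x, y) := by
      simp only [lc, Prod.mk_add_mk, Prod.mk.injEq]; omega
    rw [e] at hl
    simp [ro] at s1 s2 v1 v2 hx hy1 hy2
    have t2 : 1 ≤ t := by linarith [v1.1.1, v1.1.2, v1.2.1, v1.2.2]
    have t3 : t ≤ m - 2 := by linarith [v2.1.1, v2.1.2, v2.2.1, v2.2.2]
    have t2' : (1 : ℝ) ≤ t := by exact_mod_cast t2
    have t3' : (t : ℝ) ≤ m - 2 := by exact_mod_cast t3
    have q1 : h * 1 ≤ h * t := mul_le_mul_of_nonneg_left t2' hh.le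
    have q2 : h * t ≤ h * (m - 2) := mul_le_mul_of_nonneg_left t3' hh.le
    refine far_of_cell (by positivity) hl ?_ ?_ ?_ ?_ <;> push_cast <;>
      linarith [hx.1, hx.2]
  · have e : lc (x, y) ((x, y) + (0, 1)) = (x - 1, y) := by
      simp only [lc, Prod.mk_add_mk, Prod.mk.injEq]; omega
    rw [e] at hl
    simp [ro] at s1 s2 v1 v2 hx hy1 hy2
    have t2 : 1 ≤ t := by linarith [v1.1.1, v1.1.2, v1.2.1, v1.2.2]
    have t3 : t ≤ m - 2 := by linarith [v2.1.1, v2.1.2, v2.2.1, v2.2.2]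
    have t2' : (1 : ℝ) ≤ t := by exact_mod_cast t2
    have t3' : (t : ℝ) ≤ m - 2 := by exact_mod_cast t3
    have q1 : h * 1 ≤ h * t := mul_le_mul_of_nonneg_left t2' hh.le
    have q2 : h * t ≤ h * (m - 2) := mul_le_mul_of_nonneg_left t3' hh.le
    refine far_of_cell (by positivity) hl ?_ ?_ ?_ ?_ <;> push_cast <;>
      linarith [hx.1, hx.2]
  · have e : lc (x, y) ((x, y) + (-1, 0)) = (x - 1, y - 1) := by
      simp only [lc, Prod.mk_add_mk, Prod.mk.injEq]; omega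
    rw [e] at hl
    simp [ro] at s1 s2 v1 v2 hx hy1 hy2
    have t2 : 1 ≤ t := by linarith [v1.1.1, v1.1.2, v1.2.1, v1.2.2]
    have t3 : t ≤ m - 2 := by linarith [v2.1.1, v2.1.2, v2.2.1, v2.2.2]
    have t2' : (1 : ℝ) ≤ t := by exact_mod_cast t2
    have t3' : (t : ℝ) ≤ m - 2 := by exact_mod_cast t3
    have q1 : h * 1 ≤ h * t := mul_le_mul_of_nonneg_left t2' hh.le
    have q2 : h * t ≤ h * (m - 2) := mul_le_mul_of_nonneg_left t3' hh.le
    refine far_of_cell (by positivity) hl ?_ ?_ ?_ ?_ <;> push_cast <;>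
      linarith [hx.1, hx.2]
  · have e : lc (x, y) ((x, y) + (0, -1)) = (x, y - 1) := by
      simp only [lc, Prod.mk_add_mk, Prod.mk.injEq]; omega
    rw [e] at hl
    simp [ro] at s1 s2 v1 v2 hx hy1 hy2
    have t2 : 1 ≤ t := by linarith [v1.1.1, v1.1.2, v1.2.1, v1.2.2]
    have t3 : t ≤ m - 2 := by linarith [v2.1.1, v2.1.2, v2.2.1, v2.2.2]
    have t2' : (1 : ℝ) ≤ t := by exact_mod_cast t2
    have t3' : (t : ℝ) ≤ m - 2 := by exact_mod_cast t3
    have q1 : h * 1 ≤ h * t := mul_le_mul_of_nonneg_left t2' hh.le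
    have q2 : h * t ≤ h * (m - 2) := mul_le_mul_of_nonneg_left t3' hh.le
    refine far_of_cell (by positivity) hl ?_ ?_ ?_ ?_ <;> push_cast <;>
      linarith [hx.1, hx.2]

/-- **the tiles `g - 2, …, g + 1` of a gate between two corners are straight** -/
theorem strg_ge {m : ℤ} (hF : Fine F n m p M W A) {g : ℤ} (hg : Strg A g) {j : ℤ} (h1 : g - 2 ≤ j)
    (h2 : j ≤ g + 1) : ge W (j + 1) = ge W j := by
  obtain ⟨k, k1, k2⟩ := hg
  have e1 := hF.step k j (by omega) (by omega)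
  have e2 := hF.step k (j - 1) (by omega) (by omega)
  rw [sub_add_cancel] at e2
  unfold ge
  rw [add_sub_cancel_right, e1, e2]

/-! ### the column above a gate -/

variable {S : Finset ℂ} {η d : ℝ}

/-- **the column above a gate is off the strips** -/
theorem win_off {m : ℤ} (hF : Fine F n m p M W A) (e0 : 0 < η) {g : ℤ} (hg : Strg A g) {A' B' : ℝ}
    (hA : 0 < A') (hAB : A' ≤ B') (hA2 : A' ≤ 32 * η) (hB2 : B' ≤ 60 * η) {q : ℂ}
    (hX : |X (gz (100 * η) W g) (ge W g) q| ≤ 3 * η) (hY : A' ≤ Y (gz (100 * η) W g) (ge W g) q)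
    (hY2 : Y (gz (100 * η) W g) (ge W g) q ≤ 31 * η) (c : ℤ) : q ∉ RR A' B' (100 * η) W c := by
  intro hc
  have P := hF.fpath
  have hYa : |Y (gz (100 * η) W g) (ge W g) q| < 32 * η := by
    rw [abs_lt]; constructor <;> linarith
  have hXa : |X (gz (100 * η) W g) (ge W g) q| < 60 * η - 100 * η / 2 := by linarith
  have m1 : q ∈ RR (32 * η) (60 * η) (100 * η) W (g - 1) := by
    refine win_left P (by linarith) (by linarith) ?_ ?_
    · rw [sub_add_cancel]; exact hXa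
    · rw [sub_add_cancel]; exact hYa
  have m2 : q ∈ RR (32 * η) (60 * η) (100 * η) W g :=
    win_right P (by linarith) (by linarith) hXa hYa
  have m3 : q ∈ RR (32 * η) (60 * η) (100 * η) W c := RR_mono hA2 hB2 _ W c hc
  by_cases h0 : (M : ℤ) ∣ g - c
  · rw [← PthFx765.RR_dvd P h0] at hc
    have h1 := ((frame_S P hA hAB (strg_ge hF hg (by omega) (by omega))).1 hc).2
    rw [abs_lt] at h1
    linarith
  by_cases h1 : (M : ℤ) ∣ g - (c + 1)
  · have h1' : (M : ℤ) ∣ (g - 1) - c := by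
      rwa [show g - 1 - c = g - (c + 1) by ring]
    rw [← PthFx765.RR_dvd P h1'] at hc
    have hs := strg_ge hF hg (j := g - 1) (by omega) (by omega)
    have h2 := ((frame_S P hA hAB hs).1 hc).2
    have h3 := (next_S P hs (100 * η) q).2
    rw [sub_add_cancel] at h3
    rw [← h3, abs_lt] at h2
    linarith
  · exact far P (by linarith) (by linarith) (by linarith) h0 h1 m1 m2 m3

/-- points near a gate are near the strips -/
theorem hole_near (E : En S F n m p M W A η d) {g : ℤ} {z : ℂ}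
    (hX : |X (gz (100 * η) W g) (ge W g) z| ≤ 40 * η)
    (hY : |Y (gz (100 * η) W g) (ge W g) z| ≤ 50 * η) : ∃ s ∈ S, ‖s - z‖ < d := by
  have P := E.fine.fpath
  have e0 := E.e0
  have h1 := (TilUx496.gate_mem P (A := 9 * η) (B := 51 * η) (h := 100 * η) (by linarith)
    (by linarith) (by linarith) (g - 1)).2
  rw [sub_add_cancel] at h1
  refine E.hol g _ h1 z ?_
  have h2 := RegBx523.norm_le_XY (c := gz (100 * η) W g) (u := ge W g) (s := z) (TilUx496.ge_norm P g)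
  linarith

/-- **straight walk up in the column of a gate**, from `v` to the height `Y v + T` -/
theorem walk_y (E : En S F n m p M W A η d) {g : ℤ} {v : ℂ} (hv : v ∈ S) {T : ℝ} (hT : 0 ≤ T)
    (hX : |X (gz (100 * η) W g) (ge W g) v| ≤ 2 * η) (hY : 0 ≤ Y (gz (100 * η) W g) (ge W g) v)
    (hY2 : Y (gz (100 * η) W g) (ge W g) v + T ≤ 30 * η) :
    ∃ w, Lk S {q | q ∈ S ∧ |X (gz (100 * η) W g) (ge W g) q -
        X (gz (100 * η) W g) (ge W g) v| ≤ d ∧
        Y (gz (100 * η) W g) (ge W g) v ≤ Y (gz (100 * η) W g) (ge W g) q ∧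
        Y (gz (100 * η) W g) (ge W g) q ≤ Y (gz (100 * η) W g) (ge W g) v + T + 2 * d} v w ∧
      Y (gz (100 * η) W g) (ge W g) v + T ≤ Y (gz (100 * η) W g) (ge W g) w := by
  have P := E.fine.fpath
  have e0 := E.e0
  have d0 := E.d0
  have de := E.de
  have hn := TilUx496.ge_norm P g
  have hne := TilUx496.ge_ne P g
  set z0 := gz (100 * η) W g with hz0
  set e := ge W g with he
  obtain ⟨w, h1, h2⟩ := Walkx336.walk_c E.gp E.h3 hne (c := Complex.I) (T := T) (by simp) hv d0 hT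
    (by
      intro t ht0 ht1
      rw [hn, mul_one]
      have k1 := Walkx336.X_sub (z0 := z0) (e := e) (v + (t : ℂ) * (Complex.I * e)) v
      have k2 := Walkx336.Y_sub (z0 := z0) (e := e) (v + (t : ℂ) * (Complex.I * e)) v
      have k3 : (v + (t : ℂ) * (Complex.I * e) - v) / e = (t : ℂ) * Complex.I := by
        field_simp
        ring
      rw [k3] at k1 k2
      simp at k1 k2
      refine hole_near E (g := g) ?_ ?_
      · rw [← hz0, ← he]
        have : X z0 e (v + (t : ℂ) * (Complex.I * e)) = X z0 e v := by linarith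
        rw [this]; linarith
      · rw [← hz0, ← he, abs_le]
        constructor <;> linarith)
  refine ⟨w, h1.mono ?_, ?_⟩
  · rintro q ⟨hq, t, ht0, ht1, g1, g2⟩
    have k1 := Complex.abs_re_le_norm ((q - v) / e - (t : ℂ) * Complex.I)
    have k2 := Complex.abs_im_le_norm ((q - v) / e - (t : ℂ) * Complex.I)
    have k3 := Walkx336.X_sub (z0 := z0) (e := e) q v
    have k4 := Walkx336.Y_sub (z0 := z0) (e := e) q v
    simp at k1 k2
    refine ⟨hq, ?_, ?_, ?_⟩
    · rw [k3]; exact k1.trans g2.le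
    · have := (abs_le.1 (k2.trans g1)).1
      linarith
    · have := (abs_le.1 (k2.trans g2.le)).2
      linarith
  · have k2 := Complex.abs_im_le_norm ((w - v) / e - ((T + d : ℝ) : ℂ) * Complex.I)
    have k4 := Walkx336.Y_sub (z0 := z0) (e := e) w v
    simp at k2 h2
    have := (abs_le.1 (k2.trans h2.le)).1
    linarith

/-- density of the fat strips -/
theorem holB (E : En S F n m p M W A η d) :
    Locx922.Hol (S : Set ℂ) (⋃ c : ℤ, RR (14 * η) (55 * η) (100 * η) W c) d := by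
  have P := E.fine.fpath
  have e0 := E.e0
  have de := E.de
  intro w hw z hz
  obtain ⟨c, hc⟩ := mem_iUnion.1 hw
  have h1 := TileRx228.ball P (by linarith) hc
  have h2 := TilUx496.cen_RR (A := 9 * η) (B := 51 * η) (by linarith) (by linarith) (100 * η) W c
  refine E.hol c _ h2 z ?_
  have h3 : ‖w - cen (100 * η) W c‖ ≤ 90 * η := by
    rw [← abs_of_pos (by linarith : (0 : ℝ) < 90 * η), ← Real.sqrt_sq_eq_abs]
    refine Real.le_sqrt_of_sq_le ?_
    rw [Complex.sq_norm, Complex.normSq_apply]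
    have h4 := abs_lt.1 h1.1
    have h5 := abs_lt.1 h1.2
    nlinarith [h4.1, h4.2, h5.1, h5.2]
  have h4 : z - cen (100 * η) W c = (z - w) + (w - cen (100 * η) W c) := by ring
  rw [h4]
  have := norm_add_le (z - w) (w - cen (100 * η) W c)
  linarith

/-! ### the outer part -/

/-- **two far sites are linked off the fat strips** -/
theorem far_lk (E : En S F n m p M W A η d) {a b : ℂ} (ha : a ∈ S) (hb : b ∈ S)
    (h1 : a ∈ Far (m * (100 * η)) (100 * η + 14 * η + d) F)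
    (h2 : b ∈ Far (m * (100 * η)) (100 * η + 14 * η + d) F) :
    Lk S (Off S (14 * η) (55 * η) (100 * η) W) a b := by
  have e0 := E.e0
  have de := E.de
  have d0 := E.d0
  have hm : (10 : ℝ) ≤ m := by exact_mod_cast E.m10
  have hm' : 10 * (100 * η) ≤ m * (100 * η) := mul_le_mul_of_nonneg_right hm (by linarith)
  exact Walkx336.lk_of_pth (out_path E.fine E.cou (by linarith) (by linarith) (by linarith)
    (by linarith) (by linarith) (sml_of_hol d0 (holB E)) E.gp E.h3 ha hb h1 h2)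

/-- the column of a gate, up to a far site -/
theorem col_up (E : En S F n m p M W A η d) {g : ℤ} (hg : Strg A g) {v w0 : ℂ} (hv : v ∈ S)
    (hw0 : w0 ∈ S) (hf : w0 ∈ Far (m * (100 * η)) (100 * η + 14 * η + d) F)
    (hX : |X (gz (100 * η) W g) (ge W g) v| ≤ 2 * η)
    (hY : 19 / 2 * η ≤ Y (gz (100 * η) W g) (ge W g) v)
    (hY2 : Y (gz (100 * η) W g) (ge W g) v ≤ 11 * η) :
    Lk S {q | q ∈ Off S (19 / 2 * η) (103 / 2 * η) (100 * η) W ∧
      (q ∈ Off S (14 * η) (55 * η) (100 * η) W ∨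
        (|X (gz (100 * η) W g) (ge W g) q - X (gz (100 * η) W g) (ge W g) v| ≤ d ∧
          Y (gz (100 * η) W g) (ge W g) v ≤ Y (gz (100 * η) W g) (ge W g) q ∧
          Y (gz (100 * η) W g) (ge W g) q ≤ 30 * η))} v w0 := by
  have e0 := E.e0
  have de := E.de
  have d0 := E.d0
  have hm : (10 : ℝ) ≤ m := by exact_mod_cast E.m10
  have hm' : 10 * (100 * η) ≤ m * (100 * η) := mul_le_mul_of_nonneg_right hm (by linarith)
  obtain ⟨w, h1, h2⟩ := walk_y E hv (T := 13 / 2 * η) (by linarith) hX (by linarith) (by linarith)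
  obtain ⟨w1, w2, w3, w4⟩ := h1.1.2
  have hXw : |X (gz (100 * η) W g) (ge W g) w| ≤ 3 * η := by
    have := abs_sub_abs_le_abs_sub (X (gz (100 * η) W g) (ge W g) w)
      (X (gz (100 * η) W g) (ge W g) v)
    linarith
  obtain ⟨k, k1, k2⟩ := hg
  have h3 : w ∈ Far (m * (100 * η)) (100 * η + 14 * η + d) F :=
    gate_far4 E.fine (by linarith) k1 k2 (by linarith) (by linarith) (by linarith)
  refine (h1.mono ?_).trans ((far_lk E w1 hw0 h3 hf).mono ?_)
  · rintro q ⟨q1, q2, q3, q4⟩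
    have hXq : |X (gz (100 * η) W g) (ge W g) q| ≤ 3 * η := by
      have := abs_sub_abs_le_abs_sub (X (gz (100 * η) W g) (ge W g) q)
        (X (gz (100 * η) W g) (ge W g) v)
      linarith
    exact ⟨⟨q1, fun c => win_off E.fine e0 ⟨k, k1, k2⟩ (by linarith) (by linarith) (by linarith)
      (by linarith) hXq (by linarith) (by linarith) c⟩, Or.inr ⟨q2, q3, by linarith⟩⟩
  · rintro q hq
    exact ⟨⟨hq.1, fun c hc => hq.2 c (RR_mono (by linarith) (by linarith) _ W c hc)⟩, Or.inl hq⟩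

/-- **sites above a gate are linked to the far site off the strips** -/
theorem up_ext (E : En S F n m p M W A η d) {g : ℤ} (hg : Strg A g) {v w0 : ℂ} (hv : v ∈ S)
    (hw0 : w0 ∈ S) (hf : w0 ∈ Far (m * (100 * η)) (100 * η + 14 * η + d) F)
    (hW : v ∈ Wn η W g (2 * η) (19 / 2 * η) (11 * η)) :
    Lk S (Off S (19 / 2 * η) (103 / 2 * η) (100 * η) W) w0 v :=
  ((col_up E hg hv hw0 hf hW.1 hW.2.1 hW.2.2).mono fun _ hq => hq.1).symm

/-- **the outer part of the curtain** (776's (C2)) -/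
theorem vf (E : En S F n m p M W A η d) {gR gL : ℤ} (sR : Strg A gR) (sL : Strg A gL)
    {tR tL w0 : ℂ} (hR : tR ∈ S) (hL : tL ∈ S) (hw0 : w0 ∈ S)
    (wR : tR ∈ Wn η W gR η (10 * η) (11 * η)) (wL : tL ∈ Wn η W gL η (10 * η) (11 * η))
    (hf : w0 ∈ Far (m * (100 * η)) (100 * η + 14 * η + d) F) :
    ∃ VF : Set ℂ, Lk S VF tR tL ∧ ∀ v ∈ VF, v ∈ S ∧
      (v ∈ Off S (14 * η) (55 * η) (100 * η) W ∨ v ∈ Wn η W gR (2 * η) (10 * η) (30 * η) ∨
        v ∈ Wn η W gL (2 * η) (10 * η) (30 * η)) ∧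
      Lk S (Off S (19 / 2 * η) (103 / 2 * η) (100 * η) W) w0 v := by
  have e0 := E.e0
  have de := E.de
  have d0 := E.d0
  set O : Set ℂ := {q | q ∈ Off S (19 / 2 * η) (103 / 2 * η) (100 * η) W ∧
    (q ∈ Off S (14 * η) (55 * η) (100 * η) W ∨ q ∈ Wn η W gR (2 * η) (10 * η) (30 * η) ∨
      q ∈ Wn η W gL (2 * η) (10 * η) (30 * η))} with hO
  have key : ∀ {g : ℤ}, Strg A g → ∀ {t : ℂ}, t ∈ S → t ∈ Wn η W g η (10 * η) (11 * η) →
      (∀ q, q ∈ Wn η W g (2 * η) (10 * η) (30 * η) → q ∈ Wn η W gR (2 * η) (10 * η) (30 * η) ∨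
        q ∈ Wn η W gL (2 * η) (10 * η) (30 * η)) → Lk S O t w0 := by
    intro g hg t ht hW hsub
    refine (col_up E hg ht hw0 hf (by linarith [hW.1]) (by linarith [hW.2.1]) hW.2.2).mono ?_
    rintro q ⟨q1, q2⟩
    refine ⟨q1, q2.imp_right ?_⟩
    rintro ⟨q3, q4, q5⟩
    refine hsub q ⟨?_, by linarith [hW.2.1], q5⟩
    have := abs_sub_abs_le_abs_sub (X (gz (100 * η) W g) (ge W g) q)
      (X (gz (100 * η) W g) (ge W g) t)
    linarith [hW.1]
  have lR := key sR hR wR fun q hq => Or.inl hq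
  have lL := key sL hL wL fun q hq => Or.inr hq
  refine ⟨{q | Lk S O q w0}, (CurOx66.lk_to lR).trans (CurOx66.lk_to lL).symm, fun v hv => ?_⟩
  exact ⟨hv.1.1.1.1, hv.1.1.2, (hv.mono fun _ hq => hq.1).symm⟩

end Crest.Agent.R143.CurVx66
end
end

-- ▼ part R143/InnZ_643
section

/-!
# Row 143 (S0194), LOCX: the inner path in the closed curtain (helper643)

* **`zn_off`** : the sites of `Zn` (`InnP_643`) are in `Off` or in the lower windows of the two gates
  (`CurG_496`)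
* `zn_kin` : they are in `Kin (h - A - κ)` or at height `> -(A + κ)` in a column
-/
namespace Crest.Agent.R143.InnZx643
end Crest.Agent.R143.InnZx643
end

-- ▼ part R143/CurK_643
section

/-!
# Row 143 (S0194), LOCX: (C3) of 776's list, the inner part of the closed curtain (helper643)

* `Stg A g` : strong form of `Strg`, `A k + 4 ≤ g`, `g + 3 ≤ A (k + 1)` (416's `WdA.gl`, `gr`)
* `str6_of` : 496's `Str6`; `gate_hol` : no holes below the gate
* **`vk`** : the inner part `VK`; **`vk_K0`** : its sites are in `Kin (90 η)` or in the window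
  `-(10 η) ≤ Y ≤ -(9 η)`; `vk_off` : they are off the tiles or in the lower windows
-/

set_option autoImplicit false
set_option linter.unusedVariables false

noncomputable section

open scoped Classical

namespace Crest.Agent.R143.CurKx643

open Set
open Crest.Agent.R158.Sp896
open Crest.Agent.R143.B0x346
open Crest.Agent.R143.Tenx416 (Pg)
open Crest.Agent.R143.TileRx228
open Crest.Agent.R143.Gatex838 (X Y)
open Crest.Agent.R143.Finex422 (Fine)
open Crest.Agent.R143.Neckx921 (Lk)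
open Crest.Agent.R143.RegEx523 (Kin Kin_mono sub_Kin RR_Kin)
open Crest.Agent.R143.InnPx643 Crest.Agent.R143.InnZx643
open Crest.Agent.R143.TilUx496 (Str6)
open Crest.Agent.R143.LocTx776 (Wn Strg En)
open Crest.Agent.R143.CurGx496 (WinN)

variable {S : Finset ℂ} {F : Set V} {n m M : ℕ} {p W : ℤ → V} {A : ℤ → ℤ} {η d : ℝ}
  {g gL gR : ℤ} {v : ℂ}

/-- **the gate `g` is inside a straight run** -/
def Stg (A : ℤ → ℤ) (g : ℤ) : Prop := ∃ k, A k + 4 ≤ g ∧ g + 3 ≤ A (k + 1)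



theorem str6_of {m : ℤ} (hF : Fine F n m p M W A) (hg : Stg A g) : Str6 W g := by
  obtain ⟨k, h1, h2⟩ := hg
  have key : ∀ j, A k ≤ j - 1 → j ≤ A (k + 1) → ge W j = cz (p (k + 1) - p k) := fun j a b => by
    have := hF.step k (j - 1) a (by omega)
    rw [sub_add_cancel] at this
    unfold ge
    rw [this]
  intro j a b
  rw [key j (by omega) (by omega), key (j + 1) (by omega) (by omega)]

/-- **no holes below a gate** -/
theorem gate_hol (E : En S F n m p M W A η d) (hg : Stg A g) {z : ℂ}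
    (hx : |X (gz (100 * η) W g) (ge W g) z| ≤ 100 * η / 4)
    (hy : |Y (gz (100 * η) W g) (ge W g) z| ≤ 100 * η) : ∃ s ∈ S, ‖s - z‖ < d := by
  have h0 := E.e0
  have P := E.fine.fpath
  have H6 := str6_of E.fine hg
  set x := X (gz (100 * η) W g) (ge W g) z with hxe
  have hx' := abs_le.1 hx
  have hm : ∃ i, TilUx496.ax (100 * η) W g x ∈ RR (9 * η) (51 * η) (100 * η) W i := by
    rcases le_or_gt 0 x with h1 | h1
    · refine ⟨g, H6.mem P (by linarith) (by omega) (by omega) ?_⟩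
      rw [abs_lt]
      push_cast
      constructor <;> linarith
    · refine ⟨g - 1, H6.mem P (by linarith) (by omega) (by omega) ?_⟩
      rw [abs_lt]
      push_cast
      constructor <;> linarith
  obtain ⟨i, hi⟩ := hm
  refine E.hol i _ hi z ?_
  have hz := RegEx523.frame_eq (h := 100 * η) P g z
  have e : z - TilUx496.ax (100 * η) W g x =
      ((Y (gz (100 * η) W g) (ge W g) z : ℝ) : ℂ) * (Complex.I * ge W g) := by
    have key : ∀ q : ℂ, q = gz (100 * η) W g + ((x : ℂ) +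
        (Y (gz (100 * η) W g) (ge W g) z : ℝ) * Complex.I) * ge W g →
        q - TilUx496.ax (100 * η) W g x =
          ((Y (gz (100 * η) W g) (ge W g) z : ℝ) : ℂ) * (Complex.I * ge W g) := by
      rintro q rfl
      unfold TilUx496.ax
      ring
    exact key z hz
  rw [e, norm_mul, norm_mul, Complex.norm_I, one_mul, InnPx643.norm_ge P g, mul_one, Complex.norm_real,
    Real.norm_eq_abs]
  exact hy

theorem gate_hol' (E : En S F n m p M W A η d) (hg : Stg A g) (z : ℂ)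
    (hx : |X (gz (100 * η) W g) (ge W g) z| ≤ 100 * η / 4)
    (h1 : -(100 * η) ≤ Y (gz (100 * η) W g) (ge W g) z)
    (h2 : Y (gz (100 * η) W g) (ge W g) z ≤ 0) : ∃ s ∈ S, ‖s - z‖ < d :=
  gate_hol E hg hx (abs_le.2 ⟨h1, h2.trans (by have := E.e0; linarith)⟩)


/-- **(C3)** the inner part of the closed curtain -/
theorem vk (E : En S F n m p M W A η d) (sR : Stg A gR) (sL : Stg A gL) {aR aL : ℂ} (hR : aR ∈ S)
    (hL : aL ∈ S) (wR : aR ∈ Wn η W gR η (-(10 * η)) (-(9 * η)))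
    (wL : aL ∈ Wn η W gL η (-(10 * η)) (-(9 * η))) :
    ∃ VK : Set ℂ, Lk S VK aL aR ∧ ∀ v ∈ VK, v ∈ S ∧ ((∃ x ∈ Pg (m * (100 * η)) F, ‖v - x‖ < d) ∨
      v ∈ Wn η W gR (2 * η) (-(101 * η)) (-(9 * η)) ∨
      v ∈ Wn η W gL (2 * η) (-(101 * η)) (-(9 * η))) := by
  have h0 := E.e0
  have d0 := E.d0
  have de := E.de
  have hR' := sR
  have hL' := sL
  obtain ⟨k2, a2, b2⟩ := sR
  obtain ⟨k1, a1, b1⟩ := sL
  obtain ⟨x2, y2, y2'⟩ := wR
  obtain ⟨x1, y1, y1'⟩ := wL
  refine ⟨_, inn_path E.fine E.con (by linarith) E.m10 d0 (by linarith) E.gp E.h3 a1 b1 a2 b2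
    E.holP (gate_hol' E hL') (gate_hol' E hR') hL hR (by linarith) (by linarith) (by linarith)
    (by linarith) (by linarith) (by linarith), ?_⟩
  have win : ∀ {x y : ℝ}, |x| ≤ η → |y - x| < d → |y| ≤ 2 * η := by
    intro x y h1 h2
    have e : y = (y - x) + x := by ring
    rw [e]
    refine (abs_add_le _ _).trans ?_
    linarith
  rintro v ⟨hv, h1 | ⟨c1, c2, c3⟩ | ⟨c1, c2, c3⟩⟩
  · exact ⟨hv, Or.inl h1⟩
  · exact ⟨hv, Or.inr (Or.inr ⟨win x1 c1, by linarith, c2.trans y1'⟩)⟩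
  · exact ⟨hv, Or.inr (Or.inl ⟨win x2 c1, by linarith, c2.trans y2'⟩)⟩

/-- the low part of the window is in `Kin` -/
theorem win_kin (E : En S F n m p M W A η d) (hg : Stg A g)
    (hv : v ∈ Wn η W g (2 * η) (-(101 * η)) (-(9 * η))) {r : ℝ} (hr : 0 ≤ r)
    (hy : Y (gz (100 * η) W g) (ge W g) v ≤ r - 100 * η) :
    v ∈ Kin r (Pg (m * (100 * η)) F) := by
  have h0 := E.e0
  have hh : 0 < 100 * η := by linarith
  obtain ⟨k, a1, b1⟩ := hg
  obtain ⟨x1, y1, y2⟩ := hv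
  have hm : (10 : ℝ) ≤ m := by exact_mod_cast E.m10
  have hX : |X (gz (100 * η) W g) (ge W g) v| ≤ 5 / 2 * (100 * η) := by linarith
  rcases le_or_gt (-(100 * η)) (Y (gz (100 * η) W g) (ge W g) v) with h1 | h1
  · exact Kin_mono (by linarith) (foot_mem E.fine hh a1 b1 hX h1)
  · have h3 := below_pt E.fine hh a1 b1 (y := Y (gz (100 * η) W g) (ge W g) v) hX (by nlinarith)
      h1.le
    rw [pt_eq E.fine.fpath g v] at h3
    exact sub_Kin hr h3

/-- a site next to the polygon -/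
theorem near_kin {P : Set ℂ} (h : ∃ x ∈ P, ‖v - x‖ < d) {r : ℝ} (hr : d ≤ r) : v ∈ Kin r P := by
  obtain ⟨x, hx, hxd⟩ := h
  refine ⟨x, hx, ?_, ?_⟩
  · rw [← Complex.sub_re]; exact (Complex.abs_re_le_norm _).trans (hxd.le.trans hr)
  · rw [← Complex.sub_im]; exact (Complex.abs_im_le_norm _).trans (hxd.le.trans hr)

/-- **(C3)** the sites of the inner part are in `Kin (90 η)` or in the two lower windows -/
theorem vk_K0 (E : En S F n m p M W A η d) (sR : Stg A gR) (sL : Stg A gL)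
    (hv : (∃ x ∈ Pg (m * (100 * η)) F, ‖v - x‖ < d) ∨
      v ∈ Wn η W gR (2 * η) (-(101 * η)) (-(9 * η)) ∨
      v ∈ Wn η W gL (2 * η) (-(101 * η)) (-(9 * η))) :
    v ∈ Kin (90 * η) (Pg (m * (100 * η)) F) ∨ v ∈ Wn η W gR (2 * η) (-(10 * η)) (-(9 * η)) ∨
      v ∈ Wn η W gL (2 * η) (-(10 * η)) (-(9 * η)) := by
  have h0 := E.e0
  have de := E.de
  have key : ∀ {g : ℤ}, Stg A g → v ∈ Wn η W g (2 * η) (-(101 * η)) (-(9 * η)) →
      v ∈ Kin (90 * η) (Pg (m * (100 * η)) F) ∨ v ∈ Wn η W g (2 * η) (-(10 * η)) (-(9 * η)) := by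
    intro g hg hw
    rcases le_or_gt (Y (gz (100 * η) W g) (ge W g) v) (90 * η - 100 * η) with h1 | h1
    · exact Or.inl (win_kin E hg hw (by linarith) h1)
    · exact Or.inr ⟨hw.1, by linarith, hw.2.2⟩
  rcases hv with h1 | h1 | h1
  · exact Or.inl (near_kin h1 (by linarith))
  · rcases key sR h1 with h2 | h2
    · exact Or.inl h2
    · exact Or.inr (Or.inl h2)
  · rcases key sL h1 with h2 | h2
    · exact Or.inl h2
    · exact Or.inr (Or.inr h2)


end Crest.Agent.R143.CurKx643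
end
namespace Crest.Agent.R143.CurKx643.Stg
end Crest.Agent.R143.CurKx643.Stg
end

-- ▼ part R143/LocY_776

/-!
# Row 143 (S0194), RIG, LOCX: assembly on a fixed set of sites (helper776)

* `GD hS Z η W g` : gate data: a vertical chain at the gate `g` whose sites are in `Z`, or not in
  `Ext Z`, or above the strips, or linked to the top of the chain by sites off `Z` in the window; the
  sites just below the gate are not in `Ext Z`; `GD.cong` : periodic
* **`lx_S`** : LOCX for the window between two gates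
-/

set_option autoImplicit false

noncomputable section

open scoped Classical

namespace Crest.Agent.R143.LocYx776

open Set
open Crest.Agent.R158.Sp896
open Crest.Agent.R143.B0x346 Crest.Agent.R143.DelGx806 Crest.Agent.R143.DelRx806
open Crest.Agent.R143.Frame1x395 Crest.Agent.R143.Frame2x395 Crest.Agent.R143.Frame3x395
  Crest.Agent.R143.Frame4x395 Crest.Agent.R143.Frame8x395 Crest.Agent.R143.Frame9x395
  Crest.Agent.R143.Frame10x395 Crest.Agent.R143.Frame11x395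
open Crest.Agent.R143.Tenx416 (Pg)
open Crest.Agent.R143.OutCx571 (Far)
open Crest.Agent.R143.TileRx228
open Crest.Agent.R143.Gatex838 (X Y)
open Crest.Agent.R143.Finex422 (Fine)
open Crest.Agent.R143.Blkx838 (DE)
open Crest.Agent.R143.Neckx921 (Lk)
open Crest.Agent.R143.RegEx523 (Kin)
open Crest.Agent.R143.Extx358 (Ad Ext Bd)
open Crest.Agent.R143.FinCx811 (Cs rc0 cs rcol)
open Crest.Agent.R143.RcTx422 (Hc)
open Crest.Agent.R143.LocTx776
open Crest.Agent.R143.LocDx776 (Cur Ok ext_lk)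
open Crest.Agent.R143.CurOx66 (BlkS)
open Crest.Agent.R143.CurGx496 (Ci Co Geo Win)
open Crest.Agent.R143.CurHx496 (Sg sg_strg str6_of geo_of_en curtain mem_Ci mem_Co)
open Crest.Agent.R143.CurVx66 (vf up_ext)
open Crest.Agent.R143.CurKx643 (vk vk_K0 Stg)

variable {S : Finset ℂ} {hS : GP (S : Set ℂ)} {F : Set V} {n m M : ℕ} {p W : ℤ → V} {A : ℤ → ℤ}
  {η d : ℝ} {Z Z' T : Set (Cs hS)} {g g' gL gR : ℤ} {w0 : ℂ}

/-- **gate data** -/
structure GD (hS : GP (S : Set ℂ)) (Z : Set (Cs hS)) (η : ℝ) (W : ℤ → V) (g : ℤ) : Prop where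
  ex : ∃ VV s t, VCh S η W g VV s t ∧ ∀ v ∈ VV, ∀ c : Cs hS, c.1 = Quot.mk (hullE S) v →
    c ∈ Z ∨ ¬ Ext (rc0 hS) (Hc hS) Z c ∨ v ∈ Wn η W g (2 * η) (19 / 2 * η) (11 * η) ∨
      Lk S {w | w ∈ Wn η W g η (-(10 * η)) (11 * η) ∧
        ∀ c' : Cs hS, c'.1 = Quot.mk (hullE S) w → c' ∉ Z} t v
  low : ∀ v ∈ S, v ∈ Wn η W g (2 * η) (-(10 * η)) (-(9 * η)) → ∀ c : Cs hS,
    c.1 = Quot.mk (hullE S) v → ¬ Ext (rc0 hS) (Hc hS) Z c

theorem Wn_cong (P : FPath M W) (h : (M : ℤ) ∣ g' - g) (x y0 y1 : ℝ) :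
    Wn η W g' x y0 y1 = Wn η W g x y0 y1 := by
  unfold Wn
  rw [RegBx523.gz_cong P h, RegBx523.ge_cong P h]

theorem VCh_cong (P : FPath M W) (h : (M : ℤ) ∣ g' - g) {VV : Set ℂ} {s t : ℂ}
    (C : VCh S η W g VV s t) : VCh S η W g' VV s t where
  lk := C.lk
  sub := C.sub
  win := by
    rw [RegBx523.gz_cong P h, RegBx523.ge_cong P h]
    exact C.win
  rr := by
    rw [RegBx523.RR_cong P (a := g) (b := g') h, RegBx523.RR_cong P (a := g - 1) (b := g' - 1)
      (by rwa [show g' - 1 - (g - 1) = g' - g by ring])]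
    exact C.rr
  s1 := by rw [Wn_cong P h]; exact C.s1
  t1 := by rw [Wn_cong P h]; exact C.t1

/-- **periodicity** -/
theorem GD.cong (D : GD hS Z η W g) (P : FPath M W) (h : (M : ℤ) ∣ g' - g) : GD hS Z η W g' where
  ex := by
    obtain ⟨VV, s, t, h1, h2⟩ := D.ex
    refine ⟨VV, s, t, VCh_cong P h h1, ?_⟩
    rw [Wn_cong P h, Wn_cong P h]
    exact h2
  low := by
    rw [Wn_cong P h]
    exact D.low

/-- sites linked to a hull site off the strips -/
theorem ext_top {A' B' : ℝ} {Y : Set (Cs hS)} (hY : BlkS A' B' (100 * η) W Y)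
    (hw0 : OnHull S w0) {v : ℂ} (hl : Lk S (Off S A' B' (100 * η) W) w0 v) {c : Cs hS}
    (e : c.1 = Quot.mk (hullE S) v) : Ext (rc0 hS) (Hc hS) Y c := by
  refine ext_lk (A := Off S A' B' (100 * η) W) (fun s hs c e => hY.off hs e) hl ?_ e
  intro c e'
  exact Ext.hull ⟨w0, hw0, e'⟩ (hY.off hl.1.1 e')

/-- **LOCX between the gates `gL`, `gR`** -/
theorem lx_S (E : En S F n m p M W A η d) (hZ : Z' ⊆ Z)
    (bZ : BlkS (19 / 2 * η) (103 / 2 * η) (100 * η) W Z)
    (sL : Sg A gL) (sR : Sg A gR) (g1 : gL + 6 ≤ gR) (g2 : gR + 6 ≤ gL + M) (hw0 : OnHull S w0)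
    (hf : w0 ∈ Far (m * (100 * η)) (100 * η + 14 * η + d) F) (DgL : GD hS Z η W gL)
    (DgR : GD hS Z η W gR)
    (nK : ∀ v ∈ S, v ∈ Kin (90 * η) (Pg (m * (100 * η)) F) → ∀ c : Cs hS,
      c.1 = Quot.mk (hullE S) v → ¬ Ext (rc0 hS) (Hc hS) Z c)
    (hT : ∀ c ∈ T, ∃ t ∈ S, ¬ OnHull S t ∧ c.1 = Quot.mk (hullE S) t ∧ ∃ j : ℤ, gL + 2 ≤ j ∧
      j ≤ gR - 3 ∧ t ∈ RR (19 / 2 * η) (103 / 2 * η) (100 * η) W j) :
    (∀ (c : Cs hS) (s : ℂ), c.1 = Quot.mk (hullE S) s →
      ((∃ j : ℤ, gR + 2 ≤ j ∧ j ≤ gL - 3 + M ∧ s ∈ RR (13 * η) (54 * η) (100 * η) W j) ∨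
        OnHull S s) → Ext (rc0 hS) (Hc hS) Z c → Ext (rc0 hS) (Hc hS) (Z' ∪ T) c) ∧
    ∀ (c : Cs hS) (s : ℂ), c.1 = Quot.mk (hullE S) s → ¬ OnHull S s →
      (∀ u, DE S s u → (∃ j : ℤ, gR + 2 ≤ j ∧ j ≤ gL - 3 + M ∧
        u ∈ RR (13 * η) (54 * η) (100 * η) W j) ∨ OnHull S u) →
      c ∈ Bd (rc0 hS) (Hc hS) Z → ∃ e, Ext (rc0 hS) (Hc hS) (Z' ∪ T) e ∧ Ad (rc0 hS) e c := by
  have e0 := E.e0
  have d0 := E.d0
  have de := E.de
  have hw0S : w0 ∈ S := RcTx422.hull_mem hw0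
  obtain ⟨VR, aR, bR, cR, okR⟩ := DgR.ex
  obtain ⟨VL, aL, bL, cL, okL⟩ := DgL.ex
  obtain ⟨VF, lF, hF⟩ := vf E (sg_strg sR) (sg_strg sL) (cR.sub _ cR.lk.1.2) (cL.sub _ cL.lk.1.2)
    hw0S cR.t1 cL.t1 hf
  obtain ⟨VK, lK, hK⟩ := vk E (gR := gR) (gL := gL) sR sL (cR.sub _ cR.lk.1.1)
    (cL.sub _ cL.lk.1.1) cR.s1 cL.s1
  have K := curtain E sL sR g1 g2 cR cL lF (fun v hv => (hF v hv).2.1) lK
    (fun v hv => (hK v hv).2)
  have G := geo_of_en E sL sR g1 g2
  -- the window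
  have hT' : ∀ c ∈ T, ∃ t ∈ S, ¬ OnHull S t ∧ t ∈ Ci (13 * η) (54 * η) (100 * η) W gL gR ∧
      c.1 = Quot.mk (hullE S) t := by
    intro c hc
    obtain ⟨t, h1, h2, h3, j, j1, j2, h4⟩ := hT c hc
    exact ⟨t, h1, h2, mem_Ci j1 j2 (RR_mono (by linarith) (by linarith) _ W j h4), h3⟩
  have bT : BlkS (19 / 2 * η) (103 / 2 * η) (100 * η) W (Z' ∪ T) := by
    refine (bZ.mono hZ).union ?_
    intro c hc
    obtain ⟨t, h1, h2, h3, j, j1, j2, h4⟩ := hT c hc
    exact ⟨t, h2, ⟨j, h4⟩, h3⟩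
  -- sites of the windows of the gates are off `T`
  have offT : ∀ g, (g = gL ∨ g = gR) → ∀ w ∈ Wn η W g η (-(10 * η)) (11 * η), ∀ c : Cs hS,
      c.1 = Quot.mk (hullE S) w → c ∉ T := by
    intro g hg w hw c e hc
    obtain ⟨t, -, h2, h3, h4⟩ := hT' c hc
    have h5 : w = t := quot_inner hS h2 (h4.symm.trans e)
    have h6 : w ∈ Win (100 * η) W (13 * η) (16 * η) g := by
      obtain ⟨k1, k2, k3⟩ := hw
      refine ⟨by linarith, abs_lt.2 ⟨by linarith, by linarith⟩⟩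
    rw [h5] at h6
    rcases hg with rfl | rfl
    · exact G.offL (Or.inl h3) h6
    · exact G.offR (Or.inl h3) h6
  -- the vertical chains
  have okV : ∀ g, (g = gL ∨ g = gR) → Strg A g → ∀ (VV : Set ℂ) (s t : ℂ), VCh S η W g VV s t →
      (∀ v ∈ VV, ∀ c : Cs hS, c.1 = Quot.mk (hullE S) v →
        c ∈ Z ∨ ¬ Ext (rc0 hS) (Hc hS) Z c ∨ v ∈ Wn η W g (2 * η) (19 / 2 * η) (11 * η) ∨
          Lk S {w | w ∈ Wn η W g η (-(10 * η)) (11 * η) ∧
            ∀ c' : Cs hS, c'.1 = Quot.mk (hullE S) w → c' ∉ Z} t v) →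
      ∀ v ∈ VV, Ok hS Z Z' T v := by
    intro g hg sg VV s t C h v hv c e
    rcases h v hv c e with h1 | h1 | h1 | h1
    · exact Or.inl h1
    · exact Or.inr (Or.inl h1)
    · exact Or.inr (Or.inr (ext_top bT hw0 (up_ext E sg (C.sub v hv) hw0S hf h1) e))
    · refine Or.inr (Or.inr (ext_lk ?_ h1 ?_ e))
      · rintro w ⟨w1, w2⟩ c' e' hc'
        rcases hc' with hc' | hc'
        · exact w2 c' e' (hZ hc')
        · exact offT g hg w w1 c' e' hc'
      · intro c' e'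
        refine ext_top bT hw0 (up_ext E sg (C.sub _ C.lk.1.2) hw0S hf ?_) e'
        exact ⟨by linarith [C.t1.1], by linarith [C.t1.2.1], C.t1.2.2⟩
  have hV : ∀ s, s ∈ VR ∨ s ∈ VF ∨ s ∈ VL ∨ s ∈ VK → Ok hS Z Z' T s := by
    rintro v (hv | hv | hv | hv)
    · exact okV gR (Or.inr rfl) (sg_strg sR) VR aR bR cR okR v hv
    · intro c e
      exact Or.inr (Or.inr (ext_top bT hw0 (hF v hv).2.2 e))
    · exact okV gL (Or.inl rfl) (sg_strg sL) VL aL bL cL okL v hv
    · intro c e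
      refine Or.inr (Or.inl ?_)
      rcases vk_K0 E (gR := gR) (gL := gL) sR sL (hK v hv).2 with h1 | h1 | h1
      · exact nK v (hK v hv).1 h1 c e
      · exact DgR.low v (hK v hv).1 h1 c e
      · exact DgL.low v (hK v hv).1 h1 c e
  constructor
  · intro c s e hs h
    refine K.loc hZ hT' hV ?_ h
    rcases hs with ⟨j, j1, j2, h1⟩ | h1
    · exact Or.inl ⟨s, mem_Co j1 j2 h1, e⟩
    · exact Or.inr ⟨s, h1, e⟩
  · intro c s e hs hn h
    refine K.loc_bd hZ hT' hV e hs (fun u hu => ?_) h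
    rcases hn u hu with ⟨j, j1, j2, h1⟩ | h1
    · exact Or.inl (mem_Co j1 j2 h1)
    · exact Or.inr h1

end Crest.Agent.R143.LocYx776
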