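import Crest.Agent.R143.X0B_683

/-!
# Row 143 (S0194), block X: ABSTRACT MIXING with winding labels (`MixAbs2`) and the concrete LEAVES
`GAPO`, `GAPI`, `INDEP`, `EXT`, `REG` (helper683)

Plan (messages 19965, 20182, 20330, 20367, 20386, 20455 of row 143):
* outer / inner gap `GAPO`, `GAPI`: a second leg comes `δ ρ`-close to the tip of an explored leg with
  probability `≤ K δ ^ c` (smooth annuli around the tip, explored sites blackened)
* `EXT`: extension between separated outer tips (radius `R_i / 4`) and separated inner tips (radius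
  `R_j / 64`): cost `c(δ) * c0 ^ (j - i)`, `c0` absolute
* `REG`: regeneration at the scale `j`
-/

set_option autoImplicit false

noncomputable section

open scoped Classical

namespace Crest.Agent.R143.X0Cx683

open Crest.Agent.R143.B0x346 Crest.Agent.R143.DelGx806 Crest.Agent.R143.DelRx806
open Crest.Agent.R143.ToolWx838 Crest.Agent.R143.Blkx838 Crest.Agent.R143.Harx315
open Crest.Agent.R143.RB0x838 Crest.Agent.R143.Planarx54 Crest.Agent.R143.X0Bx683

/-! ### abstract mixing with labels -/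

/-- common regeneration data of two systems: weights `reg j b`, values `Y j b s k`, inner-good scales
`inn j s` -/
structure RegD (F B : Type) where
  reg : ℕ → B → ℝ
  Y : ℕ → B → F → ℤ → ℝ
  inn : ℕ → F → Prop
  reg_nonneg : ∀ j b, 0 ≤ reg j b
  reg_fin : ∀ j, (Function.support (reg j)).Finite
  Y_nonneg : ∀ j b s k, 0 ≤ Y j b s k
  Y_fin : ∀ j b s, (Function.support (Y j b s)).Finite

/-- one system with `m` steps; `X j a s k` = value of the state `a` at the scale `j` for the face `s`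
and the winding label `k`; next states `nx j a i`, `i ∈ I j`, with the weights `p j i`; regenerated
next states: `att j a i`, with the type `lb j a i` and the label `ln j a i` -/
structure Sys2 (A F B ι : Type) (D : RegD F B) (m : ℕ) (c C : ℝ) where
  I : ℕ → Finset ι
  p : ℕ → ι → ℝ
  nx : ℕ → A → ι → A
  st : ℕ → A → Prop
  good : ℕ → A → Prop
  X : ℕ → A → F → ℤ → ℝ
  att : ℕ → A → ι → Prop
  lb : ℕ → A → ι → B
  ln : ℕ → A → ι → ℤ
  w : ℕ → A → ℤ → ℝ
  p_nonneg : ∀ j i, 0 ≤ p j i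
  X_nonneg : ∀ j a s k, 0 ≤ X j a s k
  X_fin : ∀ j a s, (Function.support (X j a s)).Finite
  w_nonneg : ∀ j a n, 0 ≤ w j a n
  w_fin : ∀ j a, (Function.support (w j a)).Finite
  st_nx : ∀ j < m, ∀ a, st j a → ∀ i ∈ I j, st (j + 1) (nx j a i)
  step : ∀ j < m, ∀ a, st j a → ∀ s k, X j a s k = ∑ i ∈ I j, p j i * X (j + 1) (nx j a i) s k
  att_val : ∀ j < m, ∀ a, st j a → ∀ i ∈ I j, att j a i → ∀ s k,
    X (j + 1) (nx j a i) s k = D.Y j (lb j a i) s (k - ln j a i)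
  lo : ∀ j < m, ∀ a, st j a → good j a → ∀ b n,
    c * w j a n * D.reg j b ≤
      ∑ i ∈ (I j).filter (fun i => att j a i ∧ lb j a i = b ∧ ln j a i = n), p j i
  up : ∀ j < m, ∀ a, st j a → good j a → ∀ s, D.inn j s →
    ∑ᶠ k, X j a s k ≤ C * (∑ᶠ n, w j a n) * ∑ᶠ b, D.reg j b * ∑ᶠ k, D.Y j b s k

variable {A F B ι : Type} {D : RegD F B} {m : ℕ} {c C : ℝ}

/-- total value -/
def Sys2.V (Z : Sys2 A F B ι D m c C) (j : ℕ) (a : A) (s : F) : ℝ := ∑ᶠ k, Z.X j a s k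

/-- weight of the paths of length `n` from `a` (at the scale `j`) with at least `k` bad states -/
def Sys2.Bd (Z : Sys2 A F B ι D m c C) : ℕ → ℕ → ℕ → A → F → ℝ
  | 0, j, k, a, s => if k = 0 ∨ (k = 1 ∧ ¬ Z.good j a) then Z.V j a s else 0
  | n + 1, j, k, a, s => ∑ i ∈ Z.I j,
      Z.p j i * Z.Bd n (j + 1) (k - if Z.good j a then 0 else 1) (Z.nx j a i) s


/-! ### concrete leaves -/





/-- two worlds with the same inside -/
structure Pair (S S' : Finset ℂ) (N N' : Net ℂ) (z0 : ℂ) (R R1 d b0 C4 r : ℝ) (f : Fc S N z0 r)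
    (f' : Fc S' N' z0 r) : Prop where
  w : World S N z0 R R1 d b0 C4
  w' : World S' N' z0 R R1 d b0 C4
  same : ∀ s : ℂ, ‖s - z0‖ < 2 * R → (s ∈ S ↔ s ∈ S')
  T : f.T = f'.T
  s0 : f.s0 = f'.s0
  gam : f.gam = f'.gam
  pt : f.pt = f'.pt
  a0 : f.a0 = f'.a0

/-- regeneration at the scale `j` for the world `(S, N, f)` with the data `reg`, `Y`: `Att J n` = the
outer legs of `J` are attached to the three gates of a loop of `J` in the annulus
`Rj j / 16 ≤ |z - z0| < Rj j / 8`, winding label `n` -/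
structure RegW {S : Finset ℂ} {N : Net ℂ} {z0 : ℂ} {r : ℝ} (f : Fc S N z0 r) (R : ℝ) (j : ℕ)
    (δ c : ℝ) (reg : Finset (ℂ × ℂ) → ℝ) (Y : Finset (ℂ × ℂ) → ℂ × ℂ × ℂ → ℤ → ℝ)
    (Att : Finset (ℂ × ℂ) → ℤ → Prop) : Prop where
  uniq : ∀ J n n', Att J n → Att J n' → n = n'
  val : ∀ J ∈ N.tj f.s0, ∀ n, Att J n → ∀ t ∈ f.T, ∀ k,
    f.XK (Rj R (j + 1)) J t k = Y (restr z0 (Rj R (j + 1)) (Rj R j / 8) J) t (k - n)
  lo : ∀ J ∈ N.tj f.s0, ∃ w : ℤ → ℝ, (∀ n, 0 ≤ w n) ∧ (Function.support w).Finite ∧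
    ∑ᶠ n, w n = pr (Fs S z0 (Rj R j)) (fun β => GO N f.s0 z0 (Rj R j / 4) δ (flip N.toTrg J β)) ∧
    ∀ b n, c * w n * reg b ≤ pr (Ann S z0 (Rj R (j + 1)) (Rj R j)) fun β =>
      Att (flip N.toTrg J β) n ∧ restr z0 (Rj R (j + 1)) (Rj R j / 8) (flip N.toTrg J β) = b
  up : ∀ J ∈ N.tj f.s0, ∀ t ∈ f.T,
    c * f.g (Rj R j) (Rj R j / 64) δ J t ≤ ∑ᶠ b, reg b * ∑ᶠ k, Y b t k


end Crest.Agent.R143.X0Cx683
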