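import Crest.Agent.R143.Planar2_54
import Crest.Agent.R143.Loc_922
import Crest.Agent.R143.X0C_683
import Crest.Agent.R143.B1g_991
import Crest.Agent.R143.Circ_63
import Crest.Agent.R143.JWalk_872

-- ▼ part R143/XL_903
section

/-!
# Row 143 (S0194), block X, lifts (helper903)

* `exists_lift` : the directions of the three marks of an `HNet`, seen from a point strictly inside
  the hull, have a lift (they are in counterclockwise order)
* `lift_move` : a lift at `z0` is transported to `x` by the small angles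
  `arg ((mid (ex k) - x) / (mid (ex k) - z0))`
-/

set_option autoImplicit false

noncomputable section

open scoped Classical

namespace Crest.Agent.R143.XLx903

open Complex Set Filter Topology
open Crest.ProbabilityR.Voronoi
open Crest.Agent.R143.B0x346 Crest.Agent.R143.B0Dx346
open Crest.Agent.R143.DelGx806 Crest.Agent.R143.Planar2x54 Crest.Agent.R143.Locx922

variable {S : Finset ℂ} {N : Net ℂ} {x z0 : ℂ} {lf : ℤ → ℝ}





/-- direction of the mark `k` seen from `x` -/
def dm (N : Net ℂ) (x : ℂ) (k : ZMod 3) : ℂ := mid (N.ex k) - x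

/-- vector of the hull edge of the mark `k` -/
def ev (N : Net ℂ) (k : ZMod 3) : ℂ := (N.ex k).2 - (N.ex k).1







/-- lifted directions -/
structure LiftM (u : ZMod 3 → ℂ) (lf : ℤ → ℝ) : Prop where
  mono : StrictMono lf
  per : ∀ k, lf (k + 3) = lf k + 2 * Real.pi
  dir : ∀ k : ℤ, ∃ r : ℝ, 0 < r ∧ u (k : ZMod 3) = (r : ℂ) * Complex.exp (lf k * Complex.I)

theorem LiftM.shift {u : ZMod 3 → ℂ} {j : ℤ} {lf : ℤ → ℝ}
    (h : LiftM (fun k => u (k + (j : ZMod 3))) lf) : LiftM u (fun n => lf (n - j)) where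
  mono := fun a b hab => h.mono (by omega)
  per := fun k => by
    have := h.per (k - j)
    rw [show k + 3 - j = k - j + 3 by ring]
    exact this
  dir := fun k => by
    obtain ⟨r, hr, hd⟩ := h.dir (k - j)
    refine ⟨r, hr, ?_⟩
    simp only [Int.cast_sub, sub_add_cancel] at hd
    exact hd





/-- a lift is defined up to `2π` -/
theorem Lift.sub {m : ℤ} (h : Lift N x lf) : Lift N x (fun k => lf k - m * (2 * Real.pi)) where
  mono := fun a b hab => by
    have := h.mono hab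
    simp only
    linarith
  per := fun k => by
    have := h.per k
    rw [this]; ring
  dir := fun k => by
    obtain ⟨r, hr, hd⟩ := h.dir k
    refine ⟨r, hr, ?_⟩
    rw [hd]
    congr 1
    rw [Complex.exp_eq_exp_iff_exists_int]
    refine ⟨m, ?_⟩
    push_cast
    ring



/-- the transported lift -/
def mv (N : Net ℂ) (z0 : ℂ) (lf : ℤ → ℝ) (x : ℂ) (k : ℤ) : ℝ :=
  lf k + ((mid (N.ex (k : ZMod 3)) - x) / (mid (N.ex (k : ZMod 3)) - z0)).arg





end Crest.Agent.R143.XLx903
end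
end

-- ▼ part R143/XF_903

/-!
# Row 143 (S0194), block X: the face data `Fc` (helper903)

* `one_isJoin` : the join which consists of one edge (odd at the two triangles)
* `Univ A s0 t` : a reference path from `s0` to `t` through the triangles of `A`: the same set of
  edges is a join in EVERY network which contains the triangles of `A` (with live sides)
* `exists_gam` : reference paths in a `World`
* `exists_fc` : the face data, for one world; `exists_fc2` : for two worlds with the same triangles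
  near `z0` (the same faces, paths, base points)
-/

set_option autoImplicit false

noncomputable section

open scoped Classical

namespace Crest.Agent.R143.XFx903

open Complex Set Filter Topology
open Crest.Agent.R143.B0x346 Crest.Agent.R143.B0Dx346
open Crest.Agent.R143.DelGx806 Crest.Agent.R143.Planarx54 Crest.Agent.R143.Planar2x54
open Crest.Agent.R143.Locx922 Crest.Agent.R143.Circx63 Crest.Agent.R143.Oscx63
open Crest.Agent.R143.X0Bx683 Crest.Agent.R143.RB0x838 Crest.Agent.R143.XLx903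

/-! ### one edge -/

section abs

variable {V : Type} {G : Trg V} {kl : Set (V × V)}

/-- indicator of a side -/
def iv (J : Finset (V × V)) (p : V × V) : ℕ := if p ∈ J then 1 else 0

theorem tri_ne {a b c : V} (h : (a, b, c) ∈ G.T) : a ≠ b ∧ b ≠ c ∧ c ≠ a :=
  ⟨G.ne h, G.ne (G.rot h), G.ne (G.rot (G.rot h))⟩

theorem rots_mem_rot {a b c : V} {t : V × V × V} : (a, b, c) ∈ rots t ↔ (b, c, a) ∈ rots t := by
  obtain ⟨x, y, z⟩ := t
  simp only [rots, Set.mem_insert_iff, Set.mem_singleton_iff, Prod.mk.injEq]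
  tauto


theorem not_mem_opp {a b c e : V} (h1 : (a, b, c) ∈ G.T) (h2 : (b, a, e) ∈ G.T) :
    (a, b, c) ∉ rots (b, a, e) := by
  intro h
  have n1 := tri_ne h1
  have n2 := tri_ne h2
  rcases rots_cases h with h | h | h
  · exact n1.1 (congrArg Prod.fst h)
  · have h3 : b = e := congrArg (fun p => p.2.1) h
    exact n2.2.2 h3.symm
  · have h3 : a = e := congrArg Prod.fst h
    exact n2.2.1 h3

theorem one_par {a b c e : V} (h1 : (a, b, c) ∈ G.T) (h2 : (b, a, e) ∈ G.T) {x y w : V}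
    (h : (x, y, w) ∈ G.T) (hx : (x, y) ∈ ({(a, b), (b, a)} : Finset (V × V))) :
    (iv {(a, b), (b, a)} (x, y) + iv {(a, b), (b, a)} (y, w) + iv {(a, b), (b, a)} (w, x)) % 2 =
      if (x, y, w) ∈ symmDiff (rots (a, b, c)) (rots (b, a, e)) then 1 else 0 := by
  rw [Finset.mem_insert, Finset.mem_singleton, Prod.mk.injEq, Prod.mk.injEq] at hx
  have n := tri_ne h
  have j0 : iv {(a, b), (b, a)} (x, y) = 1 := by
    unfold iv
    rw [if_pos]
    rw [Finset.mem_insert, Finset.mem_singleton, Prod.mk.injEq, Prod.mk.injEq]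
    exact hx
  have j1 : iv {(a, b), (b, a)} (y, w) = 0 := by
    unfold iv
    rw [if_neg]
    rw [Finset.mem_insert, Finset.mem_singleton, Prod.mk.injEq, Prod.mk.injEq]
    rintro (⟨q1, q2⟩ | ⟨q1, q2⟩) <;> rcases hx with ⟨r1, r2⟩ | ⟨r1, r2⟩
    · exact n.1 (r1.trans q1.symm)
    · exact n.2.2 (q2.trans r1.symm)
    · exact n.2.2 (q2.trans r1.symm)
    · exact n.1 (r1.trans q1.symm)
  have j2 : iv {(a, b), (b, a)} (w, x) = 0 := by
    unfold iv
    rw [if_neg]
    rw [Finset.mem_insert, Finset.mem_singleton, Prod.mk.injEq, Prod.mk.injEq]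
    rintro (⟨q1, q2⟩ | ⟨q1, q2⟩) <;> rcases hx with ⟨r1, r2⟩ | ⟨r1, r2⟩
    · exact n.1 ((q2.trans r2.symm))
    · exact n.2.1 (r2.trans q1.symm)
    · exact n.2.1 (r2.trans q1.symm)
    · exact n.1 (q2.trans r2.symm)
  rw [j0, j1, j2, if_pos]
  rcases hx with ⟨rfl, rfl⟩ | ⟨rfl, rfl⟩
  · have hw := G.uniq h h1
    subst hw
    exact Or.inl ⟨mem_rots_self _, not_mem_opp h1 h2⟩
  · have hw := G.uniq h h2
    subst hw
    exact Or.inr ⟨mem_rots_self _, not_mem_opp h2 h1⟩

/-- **one edge** -/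
theorem one_isJoin {a b c e : V} (h1 : (a, b, c) ∈ G.T) (h2 : (b, a, e) ∈ G.T)
    (k1 : (a, b) ∉ kl) (k2 : (b, a) ∉ kl) :
    IsJoin G kl (symmDiff (rots (a, b, c)) (rots (b, a, e))) ∅ {(a, b), (b, a)} := by
  have hm : ∀ x y : V, (x, y) ∈ ({(a, b), (b, a)} : Finset (V × V)) ↔
      (x = a ∧ y = b) ∨ (x = b ∧ y = a) := by
    intro x y
    rw [Finset.mem_insert, Finset.mem_singleton, Prod.mk.injEq, Prod.mk.injEq]
  refine ⟨?_, ?_, ?_, ?_, ?_, ?_⟩
  · rintro ⟨x, y⟩ hx
    unfold Trg.E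
    rw [Finset.mem_union, Finset.mem_image, Finset.mem_image]
    rcases (hm x y).1 hx with ⟨rfl, rfl⟩ | ⟨rfl, rfl⟩
    · exact Or.inl ⟨_, h1, rfl⟩
    · exact Or.inl ⟨_, h2, rfl⟩
  · intro x y _ _
    rw [hm, hm]; tauto
  · intro x y h
    exact absurd h (by simp)
  · intro x y h _
    rw [hm, hm]
    constructor
    · rintro (⟨rfl, rfl⟩ | ⟨rfl, rfl⟩)
      · exact h _ h2
      · exact h _ h1
    · rintro (⟨rfl, rfl⟩ | ⟨rfl, rfl⟩)
      · exact h _ h1
      · exact h _ h2
  · intro x y h _ _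
    rw [hm, hm]
    constructor
    · rintro (⟨rfl, rfl⟩ | ⟨rfl, rfl⟩)
      · exact k1 h
      · exact k2 h
    · rintro (⟨rfl, rfl⟩ | ⟨rfl, rfl⟩)
      · exact k2 h
      · exact k1 h
  · intro x y w h
    change (iv {(a, b), (b, a)} (x, y) + iv {(a, b), (b, a)} (y, w) +
      iv {(a, b), (b, a)} (w, x)) % 2 = _
    have hr : ∀ p : V × V × V, ∀ q : V × V × V, ((p.1, p.2.1, p.2.2) ∈ rots q ↔
        (p.2.1, p.2.2, p.1) ∈ rots q) := fun p q => rots_mem_rot
    by_cases c0 : (x, y) ∈ ({(a, b), (b, a)} : Finset (V × V))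
    · exact one_par h1 h2 h c0
    by_cases c1 : (y, w) ∈ ({(a, b), (b, a)} : Finset (V × V))
    · have := one_par h1 h2 (G.rot h) c1
      have e1 : ((x, y, w) ∈ symmDiff (rots (a, b, c)) (rots (b, a, e))) =
          ((y, w, x) ∈ symmDiff (rots (a, b, c)) (rots (b, a, e))) := by
        rw [Set.mem_symmDiff, Set.mem_symmDiff]
        rw [rots_mem_rot (t := (a, b, c)) (a := x), rots_mem_rot (t := (b, a, e)) (a := x)]
      rw [e1, ← this]
      congr 1
      ring
    by_cases c2 : (w, x) ∈ ({(a, b), (b, a)} : Finset (V × V))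
    · have := one_par h1 h2 (G.rot (G.rot h)) c2
      have e1 : ((x, y, w) ∈ symmDiff (rots (a, b, c)) (rots (b, a, e))) =
          ((w, x, y) ∈ symmDiff (rots (a, b, c)) (rots (b, a, e))) := by
        rw [Set.mem_symmDiff, Set.mem_symmDiff]
        rw [← rots_mem_rot (t := (a, b, c)) (a := w), ← rots_mem_rot (t := (b, a, e)) (a := w)]
      rw [e1, ← this]
      congr 1
      ring
    · have i0 : iv {(a, b), (b, a)} (x, y) = 0 := if_neg c0
      have i1 : iv {(a, b), (b, a)} (y, w) = 0 := if_neg c1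
      have i2 : iv {(a, b), (b, a)} (w, x) = 0 := if_neg c2
      rw [i0, i1, i2, if_neg]
      rw [Set.mem_symmDiff]
      rw [hm] at c0 c1 c2
      rintro (⟨h3, -⟩ | ⟨h3, -⟩)
      · rcases rots_cases h3 with h4 | h4 | h4 <;>
          simp only [Prod.mk.injEq] at h4 <;> tauto
      · rcases rots_cases h3 with h4 | h4 | h4 <;>
          simp only [Prod.mk.injEq] at h4 <;> tauto

/-! ### reference paths -/

/-- `p` is a side of `t` (in one of the two directions) -/
def Sd (t : V × V × V) (e : V × V) : Prop :=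
  e = (t.1, t.2.1) ∨ e = (t.2.1, t.2.2) ∨ e = (t.2.2, t.1) ∨
    e = (t.2.1, t.1) ∨ e = (t.2.2, t.2.1) ∨ e = (t.1, t.2.2)

/-- a reference path from `s` to `t`, valid in every network which contains `A` -/
def Univ (A : Finset (V × V × V)) (s t : V × V × V) : Prop :=
  ∃ gam : Finset (V × V), (∀ p ∈ gam, ∃ t ∈ A, Sd t p) ∧
    ∀ (G : Trg V) (kl : Set (V × V)), (∀ t ∈ A, t ∈ G.T) → (∀ t ∈ A, ∀ e, Sd t e → e ∉ kl) →
      IsJoin G kl (symmDiff (rots s) (rots t)) ∅ gam

theorem empty_isJoin : IsJoin G kl ∅ ∅ ∅ where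
  sub := by simp
  sym := by simp
  mark := by simp
  bdr := by simp
  kill := by simp
  par := by simp

theorem Univ.refl (A : Finset (V × V × V)) (s : V × V × V) : Univ A s s := by
  refine ⟨∅, by simp, fun G kl _ _ => ?_⟩
  rw [symmDiff_self]
  exact empty_isJoin

theorem Univ.rots {A : Finset (V × V × V)} {s t t' : V × V × V} (h : Univ A s t)
    (ht : t' ∈ rots t) : Univ A s t' := by
  obtain ⟨gam, h1, h2⟩ := h
  refine ⟨gam, h1, fun G kl h3 h4 => ?_⟩
  rw [rots_eq ht]
  exact h2 G kl h3 h4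

theorem Sd.rots {t t' : V × V × V} (h : t' ∈ B0x346.rots t) {e : V × V} : Sd t' e ↔ Sd t e := by
  obtain ⟨a, b, c⟩ := t
  unfold Sd
  rcases rots_cases h with rfl | rfl | rfl
  · rfl
  · simp only; tauto
  · simp only; tauto

/-- a side of a triangle, oriented along the triangle: the triangle can be rotated -/
theorem Sd.cases {t : V × V × V} {e : V × V} (h : Sd t e) :
    (∃ c, (e.1, e.2, c) ∈ B0x346.rots t) ∨ ∃ c, (e.2, e.1, c) ∈ B0x346.rots t := by
  obtain ⟨a, b, c⟩ := t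
  simp only [Sd] at h
  rcases h with rfl | rfl | rfl | rfl | rfl | rfl
  · exact Or.inl ⟨c, by simp [B0x346.rots]⟩
  · exact Or.inl ⟨a, by simp [B0x346.rots]⟩
  · exact Or.inl ⟨b, by simp [B0x346.rots]⟩
  · exact Or.inr ⟨c, by simp [B0x346.rots]⟩
  · exact Or.inr ⟨a, by simp [B0x346.rots]⟩
  · exact Or.inr ⟨b, by simp [B0x346.rots]⟩

theorem rot_closed {t t' : V × V × V} (h : t' ∈ B0x346.rots t) (ht : t ∈ G.T) : t' ∈ G.T := by
  obtain ⟨a, b, c⟩ := t
  rcases rots_cases h with rfl | rfl | rfl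
  · exact ht
  · exact G.rot ht
  · exact G.rot (G.rot ht)

/-- one step of the reference path: `t` and `t'` are two triangles of `A` with the common side `e` -/
theorem Univ.step {A : Finset (V × V × V)} {s t t' : V × V × V} (hA : ∀ t ∈ A, t ∈ G.T)
    (h : Univ A s t) (ht : t ∈ A) (ht' : t' ∈ A) {e : V × V} (he : Sd t e) (he' : Sd t' e) :
    Univ A s t' := by
  -- opposite orientations
  have key : ∀ {a b c c' : V}, (a, b, c) ∈ B0x346.rots t → (b, a, c') ∈ B0x346.rots t' →
      Univ A s t' := by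
    intro a b c c' h1 h2
    obtain ⟨gam, g1, g2⟩ := h
    refine ⟨symmDiff gam {(a, b), (b, a)}, ?_, fun G' kl' h3 h4 => ?_⟩
    · intro p hp
      rw [Finset.mem_symmDiff, Finset.mem_insert, Finset.mem_singleton] at hp
      rcases hp with ⟨hp, -⟩ | ⟨hp, -⟩
      · exact g1 p hp
      · refine ⟨t, ht, (Sd.rots h1).1 ?_⟩
        rcases hp with rfl | rfl
        · exact Or.inl rfl
        · exact Or.inr (Or.inr (Or.inr (Or.inl rfl)))
    · have j1 := g2 G' kl' h3 h4
      have t1 := rot_closed h1 (h3 t ht)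
      have t2 := rot_closed h2 (h3 t' ht')
      have k1 : (a, b) ∉ kl' := h4 t ht _ ((Sd.rots h1).1 (Or.inl rfl))
      have k2 : (b, a) ∉ kl' := h4 t' ht' _ ((Sd.rots h2).1 (Or.inl rfl))
      have j2 := one_isJoin t1 t2 k1 k2
      have j3 := JCardx872.xor_isJoin j2 (by simp) j1
      rw [rots_eq h1, rots_eq h2] at j3
      have e1 : symmDiff (symmDiff (B0x346.rots s) (B0x346.rots t))
          (symmDiff (B0x346.rots t) (B0x346.rots t')) =
          symmDiff (B0x346.rots s) (B0x346.rots t') := by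
        rw [symmDiff_assoc, symmDiff_symmDiff_cancel_left]
      rw [e1] at j3
      rw [symmDiff_comm gam]
      exact j3
  -- equal orientations
  have same : ∀ {a b c c' : V}, (a, b, c) ∈ B0x346.rots t → (a, b, c') ∈ B0x346.rots t' →
      Univ A s t' := by
    intro a b c c' h1 h2
    have := G.uniq (rot_closed h1 (hA t ht)) (rot_closed h2 (hA t' ht'))
    subst this
    refine h.rots ?_
    rw [← rots_eq h1]
    exact rots_symm h2
  rcases he.cases with ⟨c, hc⟩ | ⟨c, hc⟩ <;> rcases he'.cases with ⟨c', hc'⟩ | ⟨c', hc'⟩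
  · exact same hc hc'
  · exact key hc hc'
  · exact key hc hc'
  · exact same hc hc'

/-- a connected family of sides gives a reference path -/
theorem univ_conn {N : Net V} {A : Finset (V × V × V)} (hA : ∀ t ∈ A, t ∈ N.T) {s : V × V × V}
    (hs : s ∈ A) {e0 e : V × V} (he0 : LSide N s e0) (h : Conn N A e0 e) :
    ∀ t ∈ A, LSide N t e → Univ A s t := by
  have hsd : ∀ {t : V × V × V} {e : V × V}, LSide N t e → Sd t e := fun h => h.2
  induction h with
  | refl =>
    intro t ht he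
    exact (Univ.refl A s).step (G := N.toTrg) hA hs ht (hsd he0) (hsd he)
  | tail _ h2 ih =>
    intro t ht he
    obtain ⟨u, hu, h3, h4⟩ := h2
    exact (ih u hu h3).step (G := N.toTrg) hA hu ht (hsd h4) (hsd he)

end abs

/-! ### geometry -/

variable {S S' : Finset ℂ} {N N' : Net ℂ} {z0 : ℂ}

/-- a site in a closed triangle is a vertex -/
theorem site_inT (hS : GP (S : Set ℂ)) {a b c x : ℂ} (ht : (a, b, c) ∈ delT S)
    (hx : InT x a b c) (hxS : x ∈ S) : x = a ∨ x = b ∨ x = c := by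
  obtain ⟨o, h⟩ := mem_delT_iff.1 ht
  by_contra hcon
  push Not at hcon
  have h1 := h.out hS hxS (Ne.symm hcon.1) (Ne.symm hcon.2.1) (Ne.symm hcon.2.2)
  have h2 := DelRx806.pw_nonpos h hx
  linarith

theorem not_site (hS : GP (S : Set ℂ)) {t : ℂ × ℂ × ℂ} (ht : t ∈ delT S) {x : ℂ}
    (hx : InO' x t) : x ∉ S := by
  intro hxS
  obtain ⟨a, b, c⟩ := t
  obtain ⟨h1, h2, h3⟩ := hx
  rcases site_inT hS ht ⟨le_of_lt h1, le_of_lt h2, le_of_lt h3⟩ hxS with rfl | rfl | rfl
  · unfold Lft at h1; rw [cr_left] at h1; exact lt_irrefl _ h1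
  · unfold Lft at h2; rw [cr_left] at h2; exact lt_irrefl _ h2
  · unfold Lft at h3; rw [cr_left] at h3; exact lt_irrefl _ h3

/-- the centroid -/
def gc (t : ℂ × ℂ × ℂ) : ℂ := (t.1 + t.2.1 + t.2.2) / 3

theorem gc_in {t : ℂ × ℂ × ℂ} (ht : t ∈ delT S) : InO' (gc t) t := by
  obtain ⟨a, b, c⟩ := t
  obtain ⟨o, h⟩ := mem_delT_iff.1 ht
  have hp := h.pos
  unfold InO' Lft gc
  simp only
  have e1 : cr (b - a) ((a + b + c) / 3 - a) = cr (b - a) (c - a) / 3 := by
    unfold cr
    simp only [Complex.sub_re, Complex.sub_im, Complex.add_re, Complex.add_im,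
      Complex.div_ofNat_re, Complex.div_ofNat_im]
    ring
  have e2 : cr (c - b) ((a + b + c) / 3 - b) = cr (b - a) (c - a) / 3 := by
    unfold cr
    simp only [Complex.sub_re, Complex.sub_im, Complex.add_re, Complex.add_im,
      Complex.div_ofNat_re, Complex.div_ofNat_im]
    ring
  have e3 : cr (a - c) ((a + b + c) / 3 - c) = cr (b - a) (c - a) / 3 := by
    unfold cr
    simp only [Complex.sub_re, Complex.sub_im, Complex.add_re, Complex.add_im,
      Complex.div_ofNat_re, Complex.div_ofNat_im]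
    ring
  rw [e1, e2, e3]
  exact ⟨by linarith, by linarith, by linarith⟩

/-- corners in the disc -/
def Cor (z0 : ℂ) (r : ℝ) (t : ℂ × ℂ × ℂ) : Prop :=
  ‖t.1 - z0‖ < r ∧ ‖t.2.1 - z0‖ < r ∧ ‖t.2.2 - z0‖ < r

theorem gc_near {t : ℂ × ℂ × ℂ} {r : ℝ} (h : Cor z0 r t) : ‖gc t - z0‖ < r := by
  have e : gc t - z0 = ((t.1 - z0) + (t.2.1 - z0) + (t.2.2 - z0)) / 3 := by
    unfold gc; ring
  rw [e, norm_div, Complex.norm_ofNat, div_lt_iff₀ (by norm_num)]
  have h1 := norm_add_le ((t.1 - z0) + (t.2.1 - z0)) (t.2.2 - z0)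
  have h2 := norm_add_le (t.1 - z0) (t.2.1 - z0)
  obtain ⟨a, b, c⟩ := h
  linarith

theorem isOpen_inO (t : ℂ × ℂ × ℂ) : IsOpen {x | InO' x t} := by
  have hc : ∀ a b : ℂ, Continuous fun x : ℂ => cr (b - a) (x - a) := continuous_cr
  unfold InO' Lft
  exact (isOpen_lt continuous_const (hc _ _)).inter
    ((isOpen_lt continuous_const (hc _ _)).inter (isOpen_lt continuous_const (hc _ _)))

/-- a segment without sites -/
theorem exists_seg {x0 p : ℂ} (h0 : x0 ∉ S) {U : Set ℂ} (hU : IsOpen U) (hp : p ∈ U) :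
    ∃ x1 ∈ U, ∀ x ∈ segment ℝ x0 x1, x ∉ S := by
  by_cases hpx : p = x0
  · refine ⟨p, hp, fun x hx => ?_⟩
    rw [hpx, segment_same, Set.mem_singleton_iff] at hx
    rw [hx]; exact h0
  set u : ℂ := p - x0 with hu
  have hu0 : u ≠ 0 := sub_ne_zero.2 hpx
  have hn : 0 < ‖u‖ := norm_pos_iff.2 hu0
  obtain ⟨e, he, hball⟩ := Metric.isOpen_iff.1 hU p hp
  set e' : ℝ := e / (2 * ‖u‖) with he'
  have he0 : 0 < e' := by positivity
  set q : ℝ → ℂ := fun l => p + ((l * e' : ℝ) : ℂ) * (Complex.I * u) with hq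
  have hqU : ∀ l ∈ Icc (0 : ℝ) 1, q l ∈ U := by
    intro l hl
    apply hball
    rw [Metric.mem_ball, dist_eq_norm, hq]
    simp only [add_sub_cancel_left, norm_mul, Complex.norm_I, one_mul, Complex.norm_real,
      Real.norm_eq_abs]
    rw [abs_of_nonneg hl.1, abs_of_nonneg he0.le]
    have : l * e' * ‖u‖ = l * (e / 2) := by
      rw [he']; field_simp
    rw [this]
    nlinarith [hl.1, hl.2]
  by_contra hcon
  push Not at hcon
  have hbad : ∀ l ∈ Icc (0 : ℝ) 1, ∃ x ∈ segment ℝ x0 (q l), x ∈ S := fun l hl =>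
    hcon (q l) (hqU l hl)
  choose! f hf1 hf2 using hbad
  have hinf : (Icc (0 : ℝ) 1).Infinite := Icc_infinite one_pos
  obtain ⟨l, hl, l', hl', hne, hfe⟩ := hinf.exists_ne_map_eq_of_mapsTo (t := (S : Set ℂ))
    (fun l hl => hf2 l hl) S.finite_toSet
  have h1 := hf1 l hl
  have h2 := hf1 l' hl'
  rw [← hfe] at h2
  have hs := hf2 l hl
  rw [segment_eq_image'] at h1 h2
  obtain ⟨m, -, hm⟩ := h1
  obtain ⟨m', -, hm'⟩ := h2
  simp only [Complex.real_smul] at hm hm'
  have e1 : q l - x0 = u * ((1 : ℂ) + ((l * e' : ℝ) : ℂ) * Complex.I) := by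
    rw [hq, hu]; ring
  have e2 : q l' - x0 = u * ((1 : ℂ) + ((l' * e' : ℝ) : ℂ) * Complex.I) := by
    rw [hq, hu]; ring
  rw [e1] at hm
  rw [e2] at hm'
  have h3 : u * ((m : ℂ) * (1 + ((l * e' : ℝ) : ℂ) * Complex.I)) =
      u * ((m' : ℂ) * (1 + ((l' * e' : ℝ) : ℂ) * Complex.I)) := by
    linear_combination hm - hm'
  have h4 := mul_left_cancel₀ hu0 h3
  have hre := congrArg Complex.re h4
  have him := congrArg Complex.im h4
  simp only [Complex.mul_re, Complex.mul_im, Complex.add_re, Complex.add_im, Complex.one_re,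
    Complex.one_im, Complex.ofReal_re, Complex.ofReal_im, Complex.I_re, Complex.I_im] at hre him
  ring_nf at hre him
  have hm0 : m ≠ 0 := by
    rintro rfl
    apply h0
    rw [Complex.ofReal_zero, zero_mul, add_zero] at hm
    rw [hm]
    exact hs
  rw [← hre] at him
  have h5 : m * e' * (l - l') = 0 := by linear_combination him
  rcases mul_eq_zero.1 h5 with h6 | h6
  · rcases mul_eq_zero.1 h6 with h7 | h7
    · exact hm0 h7
    · exact he0.ne' h7
  · exact hne (by linarith)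

theorem hol_ldns {R' d ρ : ℝ} (h : LDns S z0 R' d) (hρ : ρ + d ≤ R') :
    Hol (S : Set ℂ) (Metric.closedBall z0 ρ) d := by
  intro w hw z hz
  rw [Metric.mem_closedBall, dist_eq_norm] at hw
  refine h.hole z ?_
  have e : z - z0 = (z - w) + (w - z0) := by ring
  rw [e]
  exact (norm_add_le _ _).trans (by linarith)

/-- the triangles with corners in the disc -/
def Af (S : Finset ℂ) (z0 : ℂ) (r : ℝ) : Finset (ℂ × ℂ × ℂ) := (delT S).filter (Cor z0 r)

/-- **reference paths** near `z0` -/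
theorem exists_gam {R R1 d r0 r : ℝ} (hN : N.T = delT S) (hD : LDns S z0 R1 d)
    (hlive : ∀ a b : ℂ, ‖a - z0‖ < R → (a, b) ∉ N.kl) (h : r0 + 2 * d ≤ r)
    (hr : r ≤ R) (hR1 : R ≤ R1) {s t : ℂ × ℂ × ℂ} (hs : s ∈ delT S) (ht : t ∈ delT S) (hs0 : Cor z0 r0 s)
    (ht0 : Cor z0 r0 t) : Univ (Af S z0 r) s t := by
  have hS := hD.gp
  have hd := hD.dpos
  have hr0 : 0 < r0 := lt_of_le_of_lt (norm_nonneg _) hs0.1
  have hH : Hol (S : Set ℂ) (Metric.closedBall z0 r0) d := hol_ldns hD (by linarith)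
  -- the segment
  set U : Set ℂ := {x | InO' x t} ∩ Metric.ball z0 r0 with hU
  have hUo : IsOpen U := (isOpen_inO t).inter Metric.isOpen_ball
  have hgU : gc t ∈ U := ⟨gc_in ht, by
    rw [Metric.mem_ball, dist_eq_norm]; exact gc_near ht0⟩
  obtain ⟨x1, hx1, hseg⟩ := exists_seg (not_site hS hs (gc_in hs)) hUo hgU
  have hx0 : gc s ∈ Metric.closedBall z0 r0 := by
    rw [Metric.mem_closedBall, dist_eq_norm]; exact (gc_near hs0).le
  have hsub : segment ℝ (gc s) x1 ⊆ Metric.closedBall z0 r0 :=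
    (convex_closedBall z0 r0).segment_subset hx0 (Metric.ball_subset_closedBall hx1.2)
  -- triangles which meet the segment are near
  have hnear : ∀ t' ∈ delT S, ∀ x ∈ segment ℝ (gc s) x1, x ∈ cT t' → Cor z0 r t' := by
    intro t' ht' x hx hxt
    have hp := B1gx991.tri_pos ht'
    have hDel : Del (S : Set ℂ) t'.1 t'.2.1 t'.2.2 := mem_delT.1 ht'
    obtain ⟨o, -, -, -, -, -, ga, gb, gc'⟩ := del_small hd hH (hsub hx) (InT.inD hp hxt) hDel
    have hxn : ‖x - z0‖ ≤ r0 := by
      have := hsub hx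
      rwa [Metric.mem_closedBall, dist_eq_norm] at this
    have n1 := norm_tri t'.1 x z0
    have n2 := norm_tri t'.2.1 x z0
    have n3 := norm_tri t'.2.2 x z0
    exact ⟨by linarith, by linarith, by linarith⟩
  have hsr : Cor z0 r s := ⟨by linarith [hs0.1], by linarith [hs0.2.1], by linarith [hs0.2.2]⟩
  have htr : Cor z0 r t := ⟨by linarith [ht0.1], by linarith [ht0.2.1], by linarith [ht0.2.2]⟩
  have hsA : s ∈ Af S z0 r := Finset.mem_filter.2 ⟨hs, hsr⟩
  have htA : t ∈ Af S z0 r := Finset.mem_filter.2 ⟨ht, htr⟩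
  have hAT : ∀ t ∈ Af S z0 r, t ∈ N.T := fun t ht => by
    rw [hN]; exact (Finset.mem_filter.1 ht).1
  have les : LSide N s (s.1, s.2.1) :=
    ⟨hlive _ _ (by linarith [hsr.1]), Or.inl rfl⟩
  have let' : LSide N t (t.1, t.2.1) :=
    ⟨hlive _ _ (by linarith [htr.1]), Or.inl rfl⟩
  have inT_of : ∀ {x : ℂ} {t : ℂ × ℂ × ℂ}, InO' x t → x ∈ cT t := fun h =>
    ⟨le_of_lt h.1, le_of_lt h.2.1, le_of_lt h.2.2⟩
  have hconn := conn_all (N := N) hS (C := segment ℝ (gc s) x1)
    (convex_segment _ _).isPreconnected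
    (fun x hx => by
      obtain ⟨a, b, c, h1, h2⟩ := exists_tri_W hS hd hH (hsub hx)
      exact ⟨(a, b, c), h1, h2⟩)
    hseg
    (fun u v w huv x hx hxs => by
      have hc := hnear _ huv x hx (B1gx991.side_inT (B1gx991.tri_pos huv) hxs)
      exact hlive _ _ (by linarith [hc.1]))
    (A := Af S z0 r)
    (fun t' ht' hne => by
      obtain ⟨x, hxt, hx⟩ := hne
      exact ⟨t', Finset.mem_filter.2 ⟨ht', hnear t' ht' x hx hxt⟩, mem_rots_self t'⟩)
    hs ⟨gc s, inT_of (gc_in hs), left_mem_segment _ _ _⟩ ht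
    ⟨x1, inT_of hx1.1, right_mem_segment _ _ _⟩ les let'
  exact univ_conn hAT hsA les hconn t htA let'

/-! ### the face data -/


/-- sides of the triangles of `Af` are near -/
theorem sd_near {r : ℝ} {A : Finset (ℂ × ℂ × ℂ)} (hA : ∀ t ∈ A, Cor z0 r t) {t : ℂ × ℂ × ℂ}
    (ht : t ∈ A) {e : ℂ × ℂ} (he : Sd t e) : ‖e.1 - z0‖ < r ∧ ‖e.2 - z0‖ < r := by
  obtain ⟨h1, h2, h3⟩ := hA t ht
  rcases he with rfl | rfl | rfl | rfl | rfl | rfl
  · exact ⟨h1, h2⟩
  · exact ⟨h2, h3⟩
  · exact ⟨h3, h1⟩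
  · exact ⟨h2, h1⟩
  · exact ⟨h3, h2⟩
  · exact ⟨h1, h3⟩

/-- the middles of the marks are far -/
theorem mark_far {R1 d ρ : ℝ} (H : HNet S N) (hD : LDns S z0 R1 d) (hρ : ρ + d ≤ R1)
    (k : ZMod 3) : ρ < ‖mid (N.ex k) - z0‖ := by
  by_contra hcon
  push Not at hcon
  have h1 := lft_hull hD.dpos (hol_ldns hD hρ) (w := mid (N.ex k))
    (by rw [Metric.mem_closedBall, dist_eq_norm]; exact hcon) (H.hex k)
  unfold Lft at h1
  have e : cr ((N.ex k).2 - (N.ex k).1) (mid (N.ex k) - (N.ex k).1) = 0 := by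
    unfold cr mid
    simp only [Complex.sub_re, Complex.sub_im, Complex.add_re, Complex.add_im,
      Complex.div_ofNat_re, Complex.div_ofNat_im]
    ring
  rw [e] at h1
  exact lt_irrefl _ h1






end Crest.Agent.R143.XFx903
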