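import Crest.Agent.R143.XG_343
import Crest.Agent.R143.X0B_683

/-!
# Row 143 (S0194), block X: explored legs and the tube exit (helper126)

Object-free, for outer legs (starts = marks) and inner legs (starts = sides of the odd triangle).

* `Starts` : occupied starting positions with nothing behind them
* `Seen` : states of the explored part of a leg (between the start and the tip)
* `back_wk` : backward determinism along a walk
* `leadsO_of` : every state between the start and the tip is in the explored part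
* `explored` : if the continuation of the leg `i` visits an edge of the explored part of the leg `j`
  then `j ≠ i` and it has visited `(q j).swap` before
* `exists_cont` : the leg can be continued to its end
* `tube_exit2` : a leg which starts inside a family of closed chains leaves the union through the gate
-/

set_option autoImplicit false

noncomputable section

open scoped Classical

namespace Crest.Agent.R143.XLegx126

open Crest.Agent.R143.B0x346 Crest.Agent.R143.DelGx806 Crest.Agent.R143.DelRx806
open Crest.Agent.R143.ToolWx838 Crest.Agent.R143.Blkx838 Crest.Agent.R143.Planarx54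
open Crest.Agent.R143.XGx343 Crest.Agent.R143.X0Bx683 Crest.Agent.R143.JCardx872
open Crest.Agent.R143.JWalkx872 Crest.Agent.R143.JCol2x54

variable {S : Finset ℂ} {G : Trg ℂ} {kl : Set (ℂ × ℂ)} {O : Set (ℂ × ℂ × ℂ)} {D : Set (ℂ × ℂ)}
  {J : Finset (ℂ × ℂ)} {W : Set ℂ} {ι : Type}

/-! ### backward determinism -/

theorem step_back (hJ : IsJoin G kl O D J) (hO : RotInv O) {p p' q : ℂ × ℂ} (hp : p ∈ J)
    (hp' : p' ∈ J) (h : Step G O D J p q) (h' : Step G O D J p' q) : p = p' := by
  have h1 := step_det (step_rev hJ hO hp h) (step_rev hJ hO hp' h')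
  rw [Prod.mk.injEq] at h1
  exact Prod.ext h1.2 h1.1

/-- nothing leads to a start -/
theorem no_pre (hJ : IsJoin G kl O D J) (hO : RotInv O) {s p : ℂ × ℂ}
    (hs : Term G O D J s.swap) (hp : p ∈ J) : ¬ Step G O D J p s := fun h =>
  term_noStep hs (step_rev hJ hO hp h)

theorem leads_start (hJ : IsJoin G kl O D J) (hO : RotInv O) {s p : ℂ × ℂ}
    (hs : Term G O D J s.swap) (hp : p ∈ J) (h : Leads G O D J p s) : p = s := by
  rcases Relation.ReflTransGen.cases_tail h with h | ⟨r, hr, hrs⟩
  · exact h.symm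
  · exact absurd hrs (no_pre hJ hO hs (leads_step_mem hJ hp hr hrs))

theorem Wk.memJ (hJ : IsJoin G kl O D J) {n : ℕ} {p : ℕ → ℂ × ℂ} (hW : Wk G O D J n p)
    (h0 : p 0 ∈ J) {k : ℕ} (hk : k < n) : p k ∈ J :=
  leads_step_mem hJ h0 (hW.leads k hk.le) (hW k hk)

/-- backward determinism along a walk -/
theorem back_wk (hJ : IsJoin G kl O D J) (hO : RotInv O) {n : ℕ} {p : ℕ → ℂ × ℂ}
    (hW : Wk G O D J n p) (h0 : p 0 ∈ J) {x e : ℂ × ℂ} (hx : x ∈ J) (h : Leads G O D J x e) :
    ∀ k, k ≤ n → p k = e → (∃ k', k' ≤ k ∧ p k' = x) ∨ Leads G O D J x (p 0) := by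
  induction h with
  | refl => intro k _ hk; exact Or.inl ⟨k, le_rfl, hk⟩
  | tail h1 h2 ih =>
    rename_i y z
    intro k hkn hk
    rcases k with _ | k
    · right
      rw [hk]
      exact Relation.ReflTransGen.tail h1 h2
    · have h3 : Step G O D J (p k) z := by
        rw [← hk]
        exact hW k (by omega)
      have h4 : p k ∈ J := Wk.memJ hJ hW h0 (by omega)
      have h5 : y ∈ J := leads_step_mem hJ hx h1 h2
      have h6 : p k = y := step_back hJ hO h4 h5 h3 h2
      rcases ih k (by omega) h6 with ⟨k', hk', h7⟩ | h7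
      · exact Or.inl ⟨k', by omega, h7⟩
      · exact Or.inr h7

theorem back_cmp (hJ : IsJoin G kl O D J) (hO : RotInv O) {s s' e : ℂ × ℂ} (hs : s ∈ J)
    (hs' : s' ∈ J) (h : Leads G O D J s e) (h' : Leads G O D J s' e) :
    Leads G O D J s s' ∨ Leads G O D J s' s := by
  obtain ⟨n, p, hW, h0, hn⟩ := exists_wk h
  rcases back_wk hJ hO hW (by rw [h0]; exact hs) hs' h' n le_rfl hn with ⟨k, hk, h1⟩ | h1
  · left
    have := hW.leads k hk
    rw [h0, h1] at this
    exact this
  · right
    rw [h0] at h1
    exact h1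

/-! ### starts -/

/-- occupied starting positions with nothing behind them -/
structure Starts (G : Trg ℂ) (O : Set (ℂ × ℂ × ℂ)) (D : Set (ℂ × ℂ)) (J : Finset (ℂ × ℂ))
    (st0 : ι → ℂ × ℂ) : Prop where
  occ : ∀ i, st0 i ∈ J
  term : ∀ i, Term G O D J (st0 i).swap
  inj : Function.Injective st0

variable {st0 q : ι → ℂ × ℂ}

theorem Starts.eq (hJ : IsJoin G kl O D J) (hO : RotInv O) (h : Starts G O D J st0) {i j : ι}
    {e : ℂ × ℂ} (hi : Leads G O D J (st0 i) e) (hj : Leads G O D J (st0 j) e) : i = j := by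
  apply h.inj
  rcases back_cmp hJ hO (h.occ i) (h.occ j) hi hj with h1 | h1
  · exact leads_start hJ hO (h.term j) (h.occ i) h1
  · exact (leads_start hJ hO (h.term i) (h.occ j) h1).symm


/-! ### the explored part -/


theorem LeadsO.out_right {p q : ℂ × ℂ} (h : LeadsO G O D J W p q) : OutP W q := by
  obtain ⟨h1, h⟩ := h
  rcases Relation.ReflTransGen.cases_tail h with h | ⟨r, -, hr⟩
  · rw [h]; exact h1
  · exact hr.2

theorem LeadsO.tail_cases {p q : ℂ × ℂ} (h : LeadsO G O D J W p q) :
    q = p ∨ ∃ r, LeadsO G O D J W p r ∧ Step G O D J r q := by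
  obtain ⟨h1, h⟩ := h
  rcases Relation.ReflTransGen.cases_tail h with h | ⟨r, h2, hr⟩
  · exact Or.inl h
  · exact Or.inr ⟨r, ⟨h1, h2⟩, hr.1⟩





/-! ### continuation -/


/-- the middle of the state is inside the chain -/
def Ins (l : List ℂ) (e : ℂ × ℂ) : Prop := Avoid l e ∧ asum (mid e) l ≠ 0

theorem mid_sw (e : ℂ × ℂ) : mid e.swap = mid e := by unfold mid; simp [add_comm]

theorem Ins.swap {l : List ℂ} {e : ℂ × ℂ} (h : Ins l e) : Ins l e.swap :=
  ⟨h.1.swap, by rw [mid_sw]; exact h.2⟩


/-! ### the two kinds of starts -/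







end Crest.Agent.R143.XLegx126
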