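import Crest.Agent.R143.J8_872
import Crest.Agent.R143.XF_903
import Crest.Agent.R143.XLeg_126
import Crest.Agent.R143.G6W_723

/-!
# Row 143 (S0194), block X, GAUGE part 1 (helper950): mod 2 functions on the Delaunay edges

* `it t T` : `1` at the rotations of `t`; `ds g a b c` : sum over the sides; `oc J a b` : occupied
* `join_of` : a symmetric function with the right values is a join
* `Cn` : two triangles connected by a path of edges with an end in `B`; `Cn.fan`, `Cn.chain`,
  `Cn.seg` : along a segment (greedy site path)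
* `hull_const` : a function which is constant along the hull edges is constant on the hull
* `flip_eq` : two joins of the same type differ by a colouring
-/

set_option autoImplicit false

noncomputable section

open scoped Classical

namespace Crest.Agent.R143.Gax950

open Crest.Agent.R143.B0x346 Crest.Agent.R143.DelGx806 Crest.Agent.R143.DelRx806
open Crest.Agent.R143.JColx54 Crest.Agent.R143.JCol2x54 Crest.Agent.R143.Planarx54
open Crest.Agent.R143.X0Bx683 Crest.Agent.R143.JCardx872 Crest.Agent.R143.JWalkx872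
open Crest.Agent.R143.Circx63

variable {S : Finset ℂ} {G : Trg ℂ} {kl : Set (ℂ × ℂ)} {O : Set (ℂ × ℂ × ℂ)} {D : Set (ℂ × ℂ)}
  {J : Finset (ℂ × ℂ)}

/-- indicator of the rotations of `t` -/
def it (t T : ℂ × ℂ × ℂ) : ZMod 2 := if T ∈ rots t then 1 else 0

/-- sum over the sides -/
def ds (g : ℂ → ℂ → ZMod 2) (a b c : ℂ) : ZMod 2 := g a b + g b c + g c a


theorem z2 (u : ZMod 2) : u = 0 ∨ u = 1 := by revert u; decide

theorem z2_self (u : ZMod 2) : u + u = 0 := by revert u; decide








theorem it_rot {t t' : ℂ × ℂ × ℂ} (h : t' ∈ rots t) (T : ℂ × ℂ × ℂ) : it t' T = it t T := by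
  unfold it
  rw [← rots_eq h]



/-! ### connected triangles -/

/-- the two triangles are connected by a path of edges with an end in `B` -/
def Cn (S : Finset ℂ) (B : Set ℂ) (t t' : ℂ × ℂ × ℂ) : Prop :=
  ∃ g : ℂ → ℂ → ZMod 2, (∀ a b, g b a = g a b) ∧
    (∀ a b, g a b ≠ 0 → Adj S a b ∧ (a ∈ B ∨ b ∈ B)) ∧
    ∀ a b c, (a, b, c) ∈ delT S → ds g a b c = it t (a, b, c) + it t' (a, b, c)

theorem Cn.refl {B : Set ℂ} (t : ℂ × ℂ × ℂ) : Cn S B t t :=
  ⟨fun _ _ => 0, fun _ _ => rfl, fun _ _ h => absurd rfl h, fun a b c _ => by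
    rw [z2_self]; rfl⟩

theorem Cn.symm {B : Set ℂ} {t t' : ℂ × ℂ × ℂ} (h : Cn S B t t') : Cn S B t' t := by
  obtain ⟨g, h1, h2, h3⟩ := h
  exact ⟨g, h1, h2, fun a b c h => by rw [h3 a b c h, add_comm]⟩

theorem Cn.trans {B : Set ℂ} {t t' t'' : ℂ × ℂ × ℂ} (h : Cn S B t t') (h' : Cn S B t' t'') :
    Cn S B t t'' := by
  obtain ⟨g, h1, h2, h3⟩ := h
  obtain ⟨g', h1', h2', h3'⟩ := h'
  refine ⟨fun a b => g a b + g' a b, fun a b => by simp only [h1 a b, h1' a b], fun a b h => ?_,
    fun a b c h => ?_⟩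
  · by_cases h0 : g a b = 0
    · refine h2' a b fun h' => h ?_
      simp only [h0, h', add_zero]
    · exact h2 a b h0
  · have e1 := h3 a b c h
    have e2 := h3' a b c h
    unfold ds at e1 e2 ⊢
    have : g a b + g' a b + (g b c + g' b c) + (g c a + g' c a) =
        (g a b + g b c + g c a) + (g' a b + g' b c + g' c a) := by ring
    rw [this, e1, e2]
    generalize it t (a, b, c) = x
    generalize it t' (a, b, c) = y
    generalize it t'' (a, b, c) = z
    revert x y z; decide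

theorem Cn.rots {B : Set ℂ} {t t' : ℂ × ℂ × ℂ} (h : t' ∈ B0x346.rots t) : Cn S B t t' := by
  obtain ⟨g, h1, h2, h3⟩ := Cn.refl (S := S) (B := B) t
  exact ⟨g, h1, h2, fun a b c h' => by rw [h3 a b c h', it_rot h]⟩

theorem Cn.mono {B B' : Set ℂ} {t t' : ℂ × ℂ × ℂ} (h : Cn S B t t') (hB : B ⊆ B') :
    Cn S B' t t' := by
  obtain ⟨g, h1, h2, h3⟩ := h
  exact ⟨g, h1, fun a b h => ⟨(h2 a b h).1, (h2 a b h).2.imp (fun h => hB h) (fun h => hB h)⟩, h3⟩




/-- `v` is a vertex of `t` -/
def Vtx (v : ℂ) (t : ℂ × ℂ × ℂ) : Prop := v = t.1 ∨ v = t.2.1 ∨ v = t.2.2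

theorem Vtx.rot (hS : GP (S : Set ℂ)) {v : ℂ} {t : ℂ × ℂ × ℂ} (h : Vtx v t) (ht : t ∈ delT S) :
    ∃ a b, (v, a, b) ∈ delT S ∧ (v, a, b) ∈ B0x346.rots t := by
  obtain ⟨x, y, z⟩ := t
  rcases h with h | h | h
  · simp only at h
    subst h
    exact ⟨y, z, ht, by simp [B0x346.rots]⟩
  · simp only at h
    subst h
    exact ⟨z, x, delT_rot hS ht, by simp [B0x346.rots]⟩
  · simp only at h
    subst h
    exact ⟨x, y, delT_rot hS (delT_rot hS ht), by simp [B0x346.rots]⟩




/-! ### the hull -/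


/-! ### two joins of the same type -/




end Crest.Agent.R143.Gax950
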