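import Crest.Agent.R143.Coarse_166
import Crest.Agent.R143.CFrame_358

-- ▼ part R143/Run_535
section

/-!
# Row 143 (S0194), CORE-C: contraction of explored runs, conditional frame on a cylinder (helper535)

(notes 3252, 3285 of helper969: (L4), (LM) without a maximal inequality)

`M : CMap D C` closed map, `x` even configuration, loop `P 0, .., P (N - 1)` with the base `p`.

* `Runs M π x p N R` : every class of `π` which is met by the loop in more than one cell is the
  class of a run `r ∈ R` : all its cells on the loop are visited at the times in `[r.1, r.2)`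
* `Fresh R a` : the gap at time `a` is not inside a run
* `Runs.rel` : **contraction of the runs keeps the relation between fresh gaps**
* `Runs.blk_sum`, `Runs.blk_le` : for a field which vanishes on the gaps of the runs the block sums
  of `M` and of the coarse map are the same; hence they are bounded by the energy of the coarse map
* `left_con`, `right_con` : the left (right) cells of a run are connected: `ClsCon`
* `Ctr π E χ₀` : contraction of the explored cells `E` to giants of one colour; `Ctr.sum`, `Ctr.card`,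
  `Ctr.cyl_frame` : **frame on the cylinder** `Prs E χ₀`
* `tower_frame` : for a stopping rule `R`, a weight `W` which depends only on the revealed cells:
  `∑ χ, W χ * Z χ ≤ 2 ^ m / 8 * ∑ ‖a‖² * ∑ χ, W χ`
-/

set_option autoImplicit false

noncomputable section

open scoped Classical

namespace Crest.Agent.R143.Runx535

open Crest.Agent.R143.Frame1x395 Crest.Agent.R143.Frame2x395 Crest.Agent.R143.Frame3x395
  Crest.Agent.R143.Frame4x395 Crest.Agent.R143.Frame8x395 Crest.Agent.R143.NonXx592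
  Crest.Agent.R143.Coarsex166 Crest.Agent.R143.CFramex358

variable {D C C' : Type} {M : CMap D C} {x : D → ZMod 2}

/-! ### the relation along a loop -/

/-- the relation of two gaps in terms of the left cells along their loop -/
theorem rel_two (hx : IsC M ∅ x) {p : D} {N : ℕ} (hN : P M x p N = p)
    (hinj : ∀ a b, a < b → b < N → P M x p a ≠ P M x p b) {a b : ℕ} (hab : a < b) (hbN : b < N)
    {g k : D} (hg : Gp M x g) (hk : Gp M x k) (ga : M.rho g = P M x p a)
    (kb : M.rho k = P M x p b) :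
    Rel M x g k ↔ ∀ u, a < u → u ≤ b → ∀ v, v < N → (v ≤ a ∨ b < v) →
      M.cell (P M x p u) ≠ M.cell (P M x p v) := by
  have hne : g ≠ k := by
    rintro rfl
    exact hinj a b hab hbN (ga.symm.trans kb)
  constructor
  · intro H u hu1 hu2 v hv1 hv2 e
    rcases H (M.cell (P M x p u)) with h1 | h1 | h1
    · exact hne h1
    · exact (av_fwd hx hinj hab hbN hg ga kb _).1 h1 u hu1 hu2 rfl
    · have h2 := (av_bwd hx hN hinj hab hbN hk ga kb _).1 h1
      rcases hv2 with hv2 | hv2
      · exact h2.2 v hv2 e.symm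
      · exact h2.1 v hv2 hv1 e.symm
  · intro H c
    right
    by_cases h1 : ∀ u, a < u → u ≤ b → M.cell (P M x p u) ≠ c
    · exact Or.inl ((av_fwd hx hinj hab hbN hg ga kb c).2 h1)
    · right
      push Not at h1
      obtain ⟨u, hu1, hu2, rfl⟩ := h1
      exact (av_bwd hx hN hinj hab hbN hk ga kb _).2
        ⟨fun v hv1 hv2 => (H u hu1 hu2 v hv2 (Or.inr hv1)).symm,
          fun v hv => (H u hu1 hu2 v (by omega) (Or.inl hv)).symm⟩

variable {π : C → C'} {hπ : ClsCon M π}

/-- every class of `π` which is met by the loop in more than one cell is the class of a run -/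
structure Runs (M : CMap D C) (π : C → C') (x : D → ZMod 2) (p : D) (N : ℕ) (R : Set (ℕ × ℕ)) :
    Prop where
  per : P M x p N = p
  inj : ∀ a b, a < b → b < N → P M x p a ≠ P M x p b
  cov : ∀ u < N, ∀ v < N, π (M.cell (P M x p u)) = π (M.cell (P M x p v)) →
    M.cell (P M x p u) = M.cell (P M x p v) ∨
    ∃ r ∈ R, ∀ w < N, π (M.cell (P M x p w)) = π (M.cell (P M x p u)) →
      ∃ w', r.1 ≤ w' ∧ w' < r.2 ∧ w' < N ∧ M.cell (P M x p w') = M.cell (P M x p w)

/-- the gap at time `a` is not inside a run -/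
def Fresh (R : Set (ℕ × ℕ)) (a : ℕ) : Prop := ∀ r ∈ R, a < r.1 ∨ r.2 ≤ a + 1

/-- **contraction of the runs keeps the relation between fresh gaps**, times in order -/
theorem Runs.rel_lt {R : Set (ℕ × ℕ)} {p : D} {N : ℕ} (hx : IsC (coarse M π hπ) ∅ x)
    (H : Runs M π x p N R) {a b : ℕ} (hab : a < b) (hbN : b < N) (ha : Fresh R a)
    (hb : Fresh R b) {g k : D} (hg : Gp M x g) (hk : Gp M x k) (ga : M.rho g = P M x p a)
    (kb : M.rho k = P M x p b) : Rel (coarse M π hπ) x g k ↔ Rel M x g k := by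
  refine ⟨rel_of_coarse, fun h1 => ?_⟩
  have h2 := (rel_two (IsC.of_coarse hx) H.per H.inj hab hbN hg hk ga kb).1 h1
  refine (rel_two hx (M := coarse M π hπ) H.per H.inj hab hbN hg hk ga kb).2 ?_
  intro u hu1 hu2 v hv1 hv2 e
  have e' : π (M.cell (P M x p u)) = π (M.cell (P M x p v)) := e
  rcases H.cov u (by omega) v hv1 e' with h3 | ⟨r, hr, h3⟩
  · exact h2 u hu1 hu2 v hv1 hv2 h3
  · have hin : (a < r.1 ∧ r.2 ≤ b + 1) ∨ (r.2 ≤ a + 1 ∨ b < r.1) := by
      rcases ha r hr with c1 | c1 <;> rcases hb r hr with c2 | c2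
      · exact Or.inr (Or.inr c2)
      · exact Or.inl ⟨c1, c2⟩
      · exact Or.inr (Or.inl c1)
      · exact Or.inr (Or.inl c1)
    rcases hin with ⟨c1, c2⟩ | c1
    · obtain ⟨w, w1, w2, w3, w4⟩ := h3 v hv1 e'.symm
      exact h2 w (by omega) (by omega) v hv1 hv2 w4
    · obtain ⟨w, w1, w2, w3, w4⟩ := h3 u (by omega) rfl
      refine h2 u hu1 hu2 w w3 ?_ w4.symm
      omega

theorem rel_symm {g k : D} (h : Rel M x g k) : Rel M x k g := fun c => (h c).symm

/-- **contraction of the runs keeps the relation between fresh gaps** -/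
theorem Runs.rel {R : Set (ℕ × ℕ)} {p : D} {N : ℕ} (hx : IsC (coarse M π hπ) ∅ x)
    (H : Runs M π x p N R) {a b : ℕ} (haN : a < N) (hbN : b < N) (ha : Fresh R a)
    (hb : Fresh R b) {g k : D} (hg : Gp M x g) (hk : Gp M x k) (ga : M.rho g = P M x p a)
    (kb : M.rho k = P M x p b) : Rel (coarse M π hπ) x g k ↔ Rel M x g k := by
  rcases lt_trichotomy a b with h | rfl | h
  · exact H.rel_lt hx h hbN ha hb hg hk ga kb
  · have e : g = k := rho_inj M (ga.trans kb.symm)
    subst e
    exact ⟨fun _ _ => Or.inl rfl, fun _ _ => Or.inl rfl⟩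
  · have h1 := H.rel_lt (hπ := hπ) hx h haN hb ha hk hg kb ga
    exact ⟨fun h2 => rel_symm (h1.1 (rel_symm h2)), fun h2 => rel_symm (h1.2 (rel_symm h2))⟩

section blocks

variable [Fintype D]



end blocks

/-! ### the cells of a run are connected -/

/-- the left cell of the next state: the same or adjacent through an unoccupied side -/
theorem left_step (h : IsC M ∅ x) {p : D} (hp : x p = 1) :
    M.cell (stp M x p) = M.cell p ∨
    (M.rho (M.rho p) ∈ M.live ∧ M.cell (stp M x p) = M.cell (M.rho (M.rho p))) := by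
  rcases stp_cases h hp (Set.notMem_empty _) with ⟨h1, -, e⟩ | ⟨-, h2, e⟩
  · rw [e, M.cell_iota _ (h.lv h1)]
    by_cases hl : M.rho (M.rho p) ∈ M.live
    · exact Or.inr ⟨hl, rfl⟩
    · left
      rw [M.dead _ hl, M.rho3]
  · left
    rw [e, M.cell_iota _ (h.lv h2), M.rho3]

/-- the right cell of the next state: the same or adjacent through an unoccupied side -/
theorem right_step (h : IsC M ∅ x) {p : D} (hp : x p = 1) :
    Rc M (stp M x p) = Rc M p ∨
    (M.rho p ∈ M.live ∧ Rc M (stp M x p) = M.cell (M.rho (M.rho p))) := by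
  rcases stp_cases h hp (Set.notMem_empty _) with ⟨h1, -, e⟩ | ⟨-, h2, e⟩
  · left
    rw [e]
    exact cell_rho_iota M (h.lv h1)
  · have e2 : Rc M (stp M x p) = M.cell (M.rho (M.rho p)) := by
      rw [e]; exact cell_rho_iota M (h.lv h2)
    by_cases hl : M.rho p ∈ M.live
    · exact Or.inr ⟨hl, e2⟩
    · left
      rw [e2, ← M.dead _ hl]



/-! ### contraction of explored cells -/

/-- contraction of the explored cells `E` (colours `χ₀`) : `π` is injective elsewhere, the classes
inside `E` have one colour -/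
structure Ctr (π : C → C') (E : Finset C) (χ₀ : C → ZMod 2) : Prop where
  surj : Function.Surjective π
  inj : ∀ c c', c ∉ E → π c = π c' → c = c'
  mono : ∀ c ∈ E, ∀ c' ∈ E, π c = π c' → χ₀ c = χ₀ c'

/-- the colours of the giants -/
def gcol (π : C → C') (E : Finset C) (χ₀ : C → ZMod 2) (c' : C') : ZMod 2 :=
  if h : ∃ c ∈ E, π c = c' then χ₀ h.choose else 0

theorem Ctr.gcol_eq {E : Finset C} {χ₀ : C → ZMod 2} (H : Ctr π E χ₀) {c : C} (hc : c ∈ E) :
    gcol π E χ₀ (π c) = χ₀ c := by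
  have h : ∃ e ∈ E, π e = π c := ⟨c, hc, rfl⟩
  unfold gcol
  rw [dif_pos h]
  exact H.mono _ h.choose_spec.1 _ hc h.choose_spec.2

/-- the colourings of the cylinder are constant on the classes -/
theorem Ctr.const {E : Finset C} {χ₀ χ : C → ZMod 2} [Fintype C] (H : Ctr π E χ₀)
    (hχ : χ ∈ Prs E χ₀) {c c' : C} (e : π c = π c') : χ c = χ c' := by
  have h0 := mem_Prs.1 hχ
  by_cases hc : c ∈ E
  · by_cases hc' : c' ∈ E
    · rw [h0 c hc, h0 c' hc', H.mono c hc c' hc' e]
    · rw [H.inj c' c hc' e.symm]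
  · rw [H.inj c c' hc e]

theorem Ctr.ex_col {E : Finset C} {χ₀ χ : C → ZMod 2} [Fintype C] (H : Ctr π E χ₀)
    (hχ : χ ∈ Prs E χ₀) : (fun c => χ (Function.surjInv H.surj (π c))) = χ := by
  funext c
  exact H.const hχ (Function.surjInv_eq H.surj (π c))


theorem Ctr.sum [Fintype C] [Fintype C'] {A : Type} [AddCommMonoid A] {E : Finset C}
    {χ₀ : C → ZMod 2} (H : Ctr π E χ₀) (F : (C → ZMod 2) → A) :
    ∑ χ ∈ Prs E χ₀, F χ = ∑ χ ∈ Prs (E.image π) (gcol π E χ₀), F (fun c => χ (π c)) := by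
  symm
  refine Finset.sum_bij (fun χ _ => fun c => χ (π c)) ?_ ?_ ?_ ?_
  · intro χ hχ
    rw [mem_Prs] at hχ ⊢
    intro c hc
    show χ (π c) = χ₀ c
    rw [hχ (π c) (Finset.mem_image_of_mem _ hc), H.gcol_eq hc]
  · intro χ _ χ' _ e
    funext c'
    obtain ⟨c, rfl⟩ := H.surj c'
    exact congrFun e c
  · intro χ hχ
    refine ⟨fun c' => χ (Function.surjInv H.surj c'), ?_, H.ex_col hχ⟩
    rw [mem_Prs]
    intro c' hc'
    obtain ⟨c, hc, rfl⟩ := Finset.mem_image.1 hc'
    show χ (Function.surjInv H.surj (π c)) = _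
    rw [congrFun (H.ex_col hχ) c, H.gcol_eq hc, mem_Prs.1 hχ c hc]
  · intro χ _
    rfl

theorem Ctr.card [Fintype C] [Fintype C'] {E : Finset C} {χ₀ : C → ZMod 2} (H : Ctr π E χ₀) :
    (Prs E χ₀).card = (Prs (E.image π) (gcol π E χ₀)).card := by
  have h := H.sum (A := ℕ) (fun _ => 1)
  simpa using h


/-! ### weighted tower -/



end Crest.Agent.R143.Runx535
end
end

-- ▼ part R143/Gnt_535

/-!
# Row 143 (S0194), CORE-C: giants of an exploration by walkers (helper535)

* `AdjS M S` : adjacency through live darts inside `S`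
* `gq S` : contraction of a family `S i` of disjoint sets of cells; `gq_eq`, `gq_ctr`, `gq_con`,
  `gq_card` : it is a `Ctr`, `ClsCon`, with at most `card ι` giants
* `wl M x p n`, `wr M x p n` : left / right cells of the walk from `p` up to the time `n`;
  `wl_con`, `wr_con` : they are connected; `wl_col`, `wr_col` : their colours
* `walk_agree` : colourings which agree on these cells have the same walk up to the time `n`
* `hit M x p B` : first time `≥ 1` in the stop set `B`; `Rw M p B χ` : the revealed cells;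
  `Rw_stp` : **it is a stopping rule** if `p ∈ B`; `Stp.union`
* `walks` : finitely many walkers with disjoint revealed sets: stopping rule and giants (two for each
  walker)
* `runs_of_giants`, `run_fwd`, `run_bwd`, `P_rev` : `Runs` for the giants of forward and backward
  walkers on the loop
-/

set_option autoImplicit false

noncomputable section

open scoped Classical

namespace Crest.Agent.R143.Gntx535

open Crest.Agent.R143.Frame1x395 Crest.Agent.R143.Frame2x395 Crest.Agent.R143.Frame3x395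
  Crest.Agent.R143.Frame4x395 Crest.Agent.R143.Frame8x395 Crest.Agent.R143.NonXx592
  Crest.Agent.R143.Coarsex166 Crest.Agent.R143.CFramex358 Crest.Agent.R143.Runx535

variable {D C : Type} {M : CMap D C} {x : D → ZMod 2}

/-! ### contraction of a family of connected sets -/

/-- adjacent through a live dart inside `S` -/
def AdjS (M : CMap D C) (S : Finset C) (c c' : C) : Prop :=
  c ∈ S ∧ c' ∈ S ∧ ∃ d ∈ M.live, M.cell d = c ∧ M.cell (M.rho d) = c'

variable {ι : Type}

/-- contraction of the sets `S i` -/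
def gs (S : ι → Finset C) (hS : ∀ i j c, c ∈ S i → c ∈ S j → i = j) : Setoid C where
  r c c' := c = c' ∨ ∃ i, c ∈ S i ∧ c' ∈ S i
  iseqv := by
    refine ⟨fun c => Or.inl rfl, ?_, ?_⟩
    · rintro c c' (rfl | ⟨i, h1, h2⟩)
      · exact Or.inl rfl
      · exact Or.inr ⟨i, h2, h1⟩
    · rintro a b c (rfl | ⟨i, h1, h2⟩) (rfl | ⟨j, h3, h4⟩)
      · exact Or.inl rfl
      · exact Or.inr ⟨j, h3, h4⟩
      · exact Or.inr ⟨i, h1, h2⟩
      · obtain rfl := hS i j _ h2 h3
        exact Or.inr ⟨i, h1, h4⟩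

/-- the type of the cells after the contraction -/
abbrev GQ (S : ι → Finset C) (hS : ∀ i j c, c ∈ S i → c ∈ S j → i = j) : Type :=
  Quotient (gs S hS)

/-- the contraction -/
def gq (S : ι → Finset C) (hS : ∀ i j c, c ∈ S i → c ∈ S j → i = j) (c : C) : GQ S hS :=
  Quotient.mk (gs S hS) c

variable {S : ι → Finset C} {hS : ∀ i j c, c ∈ S i → c ∈ S j → i = j}

theorem gq_eq {c c' : C} : gq S hS c = gq S hS c' ↔ c = c' ∨ ∃ i, c ∈ S i ∧ c' ∈ S i :=
  Quotient.eq (r := gs S hS)


theorem gq_con (hc : ∀ i, ∀ c ∈ S i, ∀ c' ∈ S i, Relation.EqvGen (AdjS M (S i)) c c') :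
    ClsCon M (gq S hS) := by
  intro a b e
  rcases gq_eq.1 e with h | ⟨i, h1, h2⟩
  · rw [h]; exact Relation.EqvGen.refl _
  · have key : ∀ c c', Relation.EqvGen (AdjS M (S i)) c c' →
        Relation.EqvGen (Adj M (gq S hS)) c c' := by
      intro c c' H
      induction H with
      | rel c c' h =>
        obtain ⟨g1, g2, d, hd, e1, e2⟩ := h
        exact Relation.EqvGen.rel _ _ ⟨gq_eq.2 (Or.inr ⟨i, g1, g2⟩), d, hd, e1, e2⟩
      | refl c => exact Relation.EqvGen.refl _
      | symm c c' _ ih => exact Relation.EqvGen.symm _ _ ih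
      | trans c c' c'' _ _ ih1 ih2 => exact Relation.EqvGen.trans _ _ _ ih1 ih2
    exact key _ _ (hc i _ h1 _ h2)

theorem gq_card [Fintype ι] :
    ((Finset.univ.biUnion S).image (gq S hS)).card ≤ Fintype.card ι := by
  have h1 : ∀ q ∈ (Finset.univ.biUnion S).image (gq S hS), ∃ i, ∃ c ∈ S i, gq S hS c = q := by
    intro q hq
    obtain ⟨c, hc, rfl⟩ := Finset.mem_image.1 hq
    obtain ⟨i, -, hi⟩ := Finset.mem_biUnion.1 hc
    exact ⟨i, c, hi, rfl⟩
  have h2 : ∀ q : (Finset.univ.biUnion S).image (gq S hS), ∃ i, ∃ c ∈ S i, gq S hS c = q.1 :=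
    fun q => h1 q.1 q.2
  choose f hf using h2
  have hinj : Function.Injective f := by
    intro q q' e
    obtain ⟨c, hc, h3⟩ := hf q
    obtain ⟨c', hc', h4⟩ := hf q'
    apply Subtype.ext
    rw [← h3, ← h4]
    refine gq_eq.2 (Or.inr ⟨f q, hc, ?_⟩)
    rw [e]; exact hc'
  have h5 := Fintype.card_le_of_injective f hinj
  rwa [Fintype.card_coe] at h5

/-! ### walks -/

/-- left cells of the walk from `p` up to the time `n` -/
def wl (M : CMap D C) (x : D → ZMod 2) (p : D) (n : ℕ) : Finset C :=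
  (Finset.range (n + 1)).image fun j => M.cell (P M x p j)

/-- right cells of the walk from `p` up to the time `n` -/
def wr (M : CMap D C) (x : D → ZMod 2) (p : D) (n : ℕ) : Finset C :=
  (Finset.range (n + 1)).image fun j => Rc M (P M x p j)

theorem mem_wl {p : D} {n : ℕ} {c : C} : c ∈ wl M x p n ↔ ∃ j ≤ n, M.cell (P M x p j) = c := by
  unfold wl
  rw [Finset.mem_image]
  constructor
  · rintro ⟨j, hj, e⟩
    exact ⟨j, by have := Finset.mem_range.1 hj; omega, e⟩
  · rintro ⟨j, hj, e⟩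
    exact ⟨j, Finset.mem_range.2 (by omega), e⟩

theorem mem_wr {p : D} {n : ℕ} {c : C} : c ∈ wr M x p n ↔ ∃ j ≤ n, Rc M (P M x p j) = c := by
  unfold wr
  rw [Finset.mem_image]
  constructor
  · rintro ⟨j, hj, e⟩
    exact ⟨j, by have := Finset.mem_range.1 hj; omega, e⟩
  · rintro ⟨j, hj, e⟩
    exact ⟨j, Finset.mem_range.2 (by omega), e⟩

theorem wl_con (h : IsC M ∅ x) {p : D} (hp : x p = 1) {n : ℕ} {c c' : C} (hc : c ∈ wl M x p n)
    (hc' : c' ∈ wl M x p n) : Relation.EqvGen (AdjS M (wl M x p n)) c c' := by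
  have key : ∀ j ≤ n, Relation.EqvGen (AdjS M (wl M x p n)) (M.cell p) (M.cell (P M x p j)) := by
    intro j hj
    induction j with
    | zero => exact Relation.EqvGen.refl _
    | succ j ih =>
      refine Relation.EqvGen.trans _ _ _ (ih (by omega)) ?_
      rw [P_succ]
      rcases left_step h (P_occ h hp j) with e | ⟨hl, e⟩
      · rw [e]; exact Relation.EqvGen.refl _
      · refine Relation.EqvGen.symm _ _ (Relation.EqvGen.rel _ _
          ⟨mem_wl.2 ⟨j + 1, hj, P_succ p j ▸ rfl⟩, mem_wl.2 ⟨j, by omega, rfl⟩,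
            M.rho (M.rho (P M x p j)), hl, e.symm, ?_⟩)
        rw [M.rho3]
  obtain ⟨j, hj, rfl⟩ := mem_wl.1 hc
  obtain ⟨k, hk, rfl⟩ := mem_wl.1 hc'
  exact Relation.EqvGen.trans _ _ _ (Relation.EqvGen.symm _ _ (key j hj)) (key k hk)

theorem wr_con (h : IsC M ∅ x) {p : D} (hp : x p = 1) {n : ℕ} {c c' : C} (hc : c ∈ wr M x p n)
    (hc' : c' ∈ wr M x p n) : Relation.EqvGen (AdjS M (wr M x p n)) c c' := by
  have key : ∀ j ≤ n, Relation.EqvGen (AdjS M (wr M x p n)) (Rc M p) (Rc M (P M x p j)) := by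
    intro j hj
    induction j with
    | zero => exact Relation.EqvGen.refl _
    | succ j ih =>
      refine Relation.EqvGen.trans _ _ _ (ih (by omega)) ?_
      rw [P_succ]
      rcases right_step h (P_occ h hp j) with e | ⟨hl, e⟩
      · rw [e]; exact Relation.EqvGen.refl _
      · exact Relation.EqvGen.rel _ _
          ⟨mem_wr.2 ⟨j, by omega, rfl⟩, mem_wr.2 ⟨j + 1, hj, P_succ p j ▸ rfl⟩,
            M.rho (P M x p j), hl, rfl, e.symm⟩
  obtain ⟨j, hj, rfl⟩ := mem_wr.1 hc
  obtain ⟨k, hk, rfl⟩ := mem_wr.1 hc'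
  exact Relation.EqvGen.trans _ _ _ (Relation.EqvGen.symm _ _ (key j hj)) (key k hk)

section colour

variable {χ χ' : C → ZMod 2}

theorem cfg_zero {d : D} : cfg M χ d = 0 ↔ χ (M.cell d) = χ (M.cell (M.rho d)) := by
  unfold cfg
  generalize χ (M.cell d) = a
  generalize χ (M.cell (M.rho d)) = b
  revert a b; decide

theorem cfg_one {d : D} : cfg M χ d = 1 ↔ χ (M.cell (M.rho d)) = χ (M.cell d) + 1 := by
  unfold cfg
  generalize χ (M.cell d) = a
  generalize χ (M.cell (M.rho d)) = b
  revert a b; decide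

variable [Fintype D]

theorem wl_col {p : D} (hp : cfg M χ p = 1) {n : ℕ} {c : C} (hc : c ∈ wl M (cfg M χ) p n) :
    χ c = χ (M.cell p) := by
  obtain ⟨j, -, rfl⟩ := mem_wl.1 hc
  exact it_col (cfg_isC χ) hp (fun d hd => cfg_zero.1 hd) j

theorem wr_col {p : D} (hp : cfg M χ p = 1) {n : ℕ} {c : C} (hc : c ∈ wr M (cfg M χ) p n) :
    χ c = χ (M.cell p) + 1 := by
  obtain ⟨j, -, rfl⟩ := mem_wr.1 hc
  have h1 := it_col (cfg_isC χ) hp (fun d hd => cfg_zero.1 hd) j
  have h2 := P_occ (cfg_isC χ) hp j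
  rw [cfg_one] at h2
  rw [h2]
  show χ (M.cell (P M (cfg M χ) p j)) + 1 = _
  rw [h1]

omit [Fintype D] in
/-- the third cell of the face of the state is a cell of the next state -/
theorem third_mem (h : IsC M ∅ x) {p : D} (hp : x p = 1) (n : ℕ) :
    M.cell (M.rho (M.rho (P M x p n))) ∈ wl M x p (n + 1) ∪ wr M x p (n + 1) := by
  rw [Finset.mem_union]
  rcases stp_cases h (P_occ h hp n) (Set.notMem_empty _) with ⟨h1, -, e⟩ | ⟨-, h2, e⟩
  · left
    refine mem_wl.2 ⟨n + 1, le_rfl, ?_⟩
    rw [P_succ, e, M.cell_iota _ (h.lv h1)]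
  · right
    refine mem_wr.2 ⟨n + 1, le_rfl, ?_⟩
    rw [P_succ, e]
    exact cell_rho_iota M (h.lv h2)

/-- **locality of the walk** -/
theorem walk_agree {p : D} (hp : cfg M χ p = 1) {n : ℕ}
    (ha : ∀ c ∈ wl M (cfg M χ) p n ∪ wr M (cfg M χ) p n, χ' c = χ c) :
    cfg M χ' p = 1 ∧ ∀ j ≤ n, P M (cfg M χ') p j = P M (cfg M χ) p j := by
  have h0 : cfg M χ' p = 1 := by
    have e1 : χ' (M.cell p) = χ (M.cell p) :=
      ha _ (Finset.mem_union.2 (Or.inl (mem_wl.2 ⟨0, Nat.zero_le _, rfl⟩)))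
    have e2 : χ' (M.cell (M.rho p)) = χ (M.cell (M.rho p)) :=
      ha _ (Finset.mem_union.2 (Or.inr (mem_wr.2 ⟨0, Nat.zero_le _, rfl⟩)))
    rw [cfg_one] at hp ⊢
    rw [e1, e2]
    exact hp
  refine ⟨h0, fun j hj => ?_⟩
  induction j with
  | zero => rfl
  | succ j ih =>
    have hj' := ih (by omega)
    rw [P_succ, P_succ, hj']
    have e1 : χ' (Rc M (P M (cfg M χ) p j)) = χ (Rc M (P M (cfg M χ) p j)) :=
      ha _ (Finset.mem_union.2 (Or.inr (mem_wr.2 ⟨j, by omega, rfl⟩)))
    have e2 : χ' (M.cell (M.rho (M.rho (P M (cfg M χ) p j)))) =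
        χ (M.cell (M.rho (M.rho (P M (cfg M χ) p j)))) := by
      apply ha
      have h1 := third_mem (cfg_isC χ) hp j
      rw [Finset.mem_union] at h1 ⊢
      rcases h1 with h1 | h1
      · left
        obtain ⟨i, hi, e⟩ := mem_wl.1 h1
        exact mem_wl.2 ⟨i, by omega, e⟩
      · right
        obtain ⟨i, hi, e⟩ := mem_wr.1 h1
        exact mem_wr.2 ⟨i, by omega, e⟩
    have e3 : cfg M χ' (M.rho (P M (cfg M χ) p j)) = cfg M χ (M.rho (P M (cfg M χ) p j)) := by
      show χ' (Rc M (P M (cfg M χ) p j)) + χ' (M.cell (M.rho (M.rho (P M (cfg M χ) p j)))) =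
        χ (Rc M (P M (cfg M χ) p j)) + χ (M.cell (M.rho (M.rho (P M (cfg M χ) p j))))
      rw [e1, e2]
    unfold stp
    rw [e3]

end colour

/-! ### the first time in a stop set -/

/-- first time `≥ 1` in `B` (`0` if there is none) -/
def hit (M : CMap D C) (x : D → ZMod 2) (p : D) (B : Set D) : ℕ :=
  if h : ∃ n, 1 ≤ n ∧ P M x p n ∈ B then Nat.find h else 0




theorem hit_ex [Finite D] (h : IsC M ∅ x) {p : D} (hp : x p = 1) {B : Set D} (hB : p ∈ B) :
    ∃ n, 1 ≤ n ∧ P M x p n ∈ B := by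
  obtain ⟨N, hN, e⟩ := periodic h hp
  exact ⟨N, hN, by show (stp M x)^[N] p ∈ B; rw [e]; exact hB⟩

/-- the revealed cells of the walker `p` with the stop set `B` -/
def Rw (M : CMap D C) (p : D) (B : Set D) (χ : C → ZMod 2) : Finset C :=
  if cfg M χ p = 1 then
    wl M (cfg M χ) p (hit M (cfg M χ) p B) ∪ wr M (cfg M χ) p (hit M (cfg M χ) p B)
  else {M.cell p, M.cell (M.rho p)}



theorem Stp.union {R R' : (C → ZMod 2) → Finset C} (h : Stp R) (h' : Stp R') :
    Stp fun χ => R χ ∪ R' χ := by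
  intro χ χ' ha
  show R χ' ∪ R' χ' = R χ ∪ R' χ
  rw [h χ χ' fun v hv => ha v (Finset.mem_union.2 (Or.inl hv)),
    h' χ χ' fun v hv => ha v (Finset.mem_union.2 (Or.inr hv))]

theorem Stp.biUnion [Fintype ι] {R : ι → (C → ZMod 2) → Finset C} (h : ∀ i, Stp (R i)) :
    Stp fun χ => Finset.univ.biUnion fun i => R i χ := by
  intro χ χ' ha
  show (Finset.univ.biUnion fun i => R i χ') = Finset.univ.biUnion fun i => R i χ
  congr 1
  funext i
  exact h i χ χ' fun v hv => ha v (Finset.mem_biUnion.2 ⟨i, Finset.mem_univ i, hv⟩)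

/-! ### finitely many walkers -/

section walkers

variable [Fintype D] [Fintype ι]





end walkers

/-! ### runs of a loop and giants -/



/-- **reversal** of a walk -/
theorem P_rev (h : IsC M ∅ x) {p : D} (hp : x p = 1) {n j : ℕ} (hj : j ≤ n) :
    P M x (M.iota (P M x p n)) j = M.iota (P M x p (n - j)) := by
  induction j with
  | zero => rfl
  | succ j ih =>
    rw [P_succ, ih (by omega)]
    have e : P M x p (n - j) = stp M x (P M x p (n - (j + 1))) := by
      rw [← P_succ, show n - (j + 1) + 1 = n - j by omega]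
    rw [e]
    exact stp_rev h (P_occ h hp _) (Set.notMem_empty _)

theorem rc_iota (h : IsC M ∅ x) {d : D} (hd : x d = 1) : Rc M (M.iota d) = M.cell d :=
  cell_rho_iota M (h.lv hd)

theorem cell_iota' (h : IsC M ∅ x) {d : D} (hd : x d = 1) : M.cell (M.iota d) = Rc M d :=
  M.cell_iota d (h.lv hd)


end Crest.Agent.R143.Gntx535
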