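import Crest.Agent.R143.Bud_432
import Crest.Agent.R143.Bud3_432
import Crest.Agent.R143.CFrame_358
import Crest.Agent.R143.BK_315
import Crest.Agent.R143.Gnt_535
import Crest.Agent.R143.ArmP_930
import Crest.Agent.R143.Frame10_395
import Crest.Agent.R143.Frame11_395
import Crest.Agent.R143.NonX_592
import Crest.Agent.R143.Gauge1_950

-- ▼ part R143/HInst1_432
section

/-!
# Row 143 (S0194), block H (helper432): mean over the free colours = mean over the even
configurations of the coarse map with one giant

* `pe E` : the cells of `E` are merged (`none`), the other cells are single; `clsCon_pe`, `gt_pe`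
* `xb b` : the configuration of the coarse map for the colours `b` (giant `1`, `b` = the free cells
  of colour `1`); `card_fib` : uniform
* `Unif s χ K0` : the colours of the cells of `K0` are uniform under `s`; `fib`, `sum_free` :
  **`card (ev M') * Σ_{ω ∈ s} F (cfg M (fil π o (χ ω))) = card s * Σ_{x ∈ ev M'} F x`**
-/

set_option autoImplicit false

noncomputable section

open scoped Classical

namespace Crest.Agent.R143.HInst1x432

open Crest.Agent.R143.Frame1x395 Crest.Agent.R143.Frame2x395 Crest.Agent.R143.Frame3x395
  Crest.Agent.R143.Frame4x395 Crest.Agent.R143.Frame8x395 Crest.Agent.R143.Frame9x395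
  Crest.Agent.R143.Coarsex166 Crest.Agent.R143.Budx432

variable {D C C' : Type} {M : CMap D C}

/-! ### merging a set of cells -/

/-- the cells of `E` are merged -/
def pe (E : Set C) (c : C) : Option C := if c ∈ E then none else some c

theorem pe_none {E : Set C} {c : C} : pe E c = none ↔ c ∈ E := by
  unfold pe
  split_ifs with h <;> simp [h]


/-- `E` is connected through live darts inside `E` -/
def ECon (M : CMap D C) (E : Set C) : Prop := ∀ a b : D, M.cell a ∈ E → M.cell b ∈ E →
  Relation.EqvGen (fun c c' => c ∈ E ∧ c' ∈ E ∧ ∃ d ∈ M.live, M.cell d = c ∧ M.cell (M.rho d) = c')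
    (M.cell a) (M.cell b)



/-! ### the configurations of the coarse map and the free colours -/

variable {π : C → C'} {hπ : ClsCon M π} {o : C'} {K0 : Finset C}








/-! ### uniform colours -/

variable {A : Type}





end Crest.Agent.R143.HInst1x432
end
end

-- ▼ part R143/HInst2_432
section

/-!
# Row 143 (S0194), block H (helper432): the coarse map of `cm0` with one giant

`S` a finite set which contains the points of `P` in `U`, hull outside; `E` = set of the cells on or
outside `K` (contains the hull); `pe E` merges `E`.

* `gt_cm0`, `fr_cm0`, `agr_cm0`, `rim_cm0`, `fresh_cm0` : the hypotheses `Gt`, `FrF`, `Agr`, `Rim` of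
  `budget_W`
* `budget_E` : **the budget with means**: `Wf B / 4 ≤ CH + ∑ Ph (Q j) + Wf (Nk ∩ U) + CL`,
  `CH`, `CL` = means over the even configurations of the coarse map
* `mean_of` : these means = means over uniform free colours; `cl_le` : `CL ≤` mean of the big
  blocks of the real configuration
-/
namespace Crest.Agent.R143.HInst2x432
end Crest.Agent.R143.HInst2x432
end

-- ▼ part R143/CntS_197
section

/-!
# Row 143 (S0194), block H, H3(b): the count of disjoint strands on the atoms of a stopping rule

(B3 of helper795; helper197)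

* `blk0 V χ` : the black cells (colour `0`) of `V`
* `card_cyl` : the black set off the revealed cells is uniform on the cylinder
* `count_le` : **count**, one arm event: `∑ W * n ≤ th / (1 - th) * ∑ W`
* `count_fam_le` : count for a finite family of arm events, `∑ W * n ≤ m * (th / (1 - th)) * ∑ W`
* `count_set_le` : the same for the number of the elements of a finite set `Q χ` with disjoint chains
* `pairs_le` : sum over pairs (a stopping rule, a weight and an arm event for every first element)
* `pairs_rel` : **pairs of strands**: at most `th / (1 - th) * (number of the forward strands)`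
* `pairs_total` : **pairs of strands**: at most `th / (1 - th) * (m * (th₁ / (1 - th₁))) * 2 ^ |C|`
-/

set_option autoImplicit false

noncomputable section

open scoped Classical

namespace Crest.Agent.R143.CntSx197

open Finset
open Crest.Agent.R143.CFramex358 (Prs mem_Prs self_Prs card_Prs Stp)
open Crest.Agent.R143.Harx315 Crest.Agent.R143.BKx315

variable {C : Type} [Fintype C]




/-- the colouring with the black set `β` off `E` and the colours `χ₀` on `E` -/
def mk (E : Finset C) (χ₀ : C → ZMod 2) (β : Finset C) (c : C) : ZMod 2 :=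
  if c ∈ E then χ₀ c else if c ∈ β then 0 else 1








/-! ### a finite family of arm events -/






/-! ### pairs of strands -/





end Crest.Agent.R143.CntSx197
end
end

-- ▼ part R143/CntG_197
section

/-!
# Row 143 (S0194), block H, H3(b): the arm events of the closed maps (B3 (iii) of helper795; helper197)

* `Sites M S F j` : the cells `F` of the closed map `M` are the sites `j c` of `S`, cells of `F` which
  are adjacent through a live dart are adjacent sites
* `sites_cm0`, `sites_coarse`, `Sites.coarse` : `cm0 hS`; `coarse (cm0 hS) π hπ` with the free sites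
  `V` (not on the hull, each alone in its class); coarse map of any map
* `ArmC M j z r1 r2 β` : chain of cells of `β` from `B(z, r1)` to the outside of `B(z, r2)`
* `armC_up`, `pr_armC_le` : increasing; at most the probability for the sites
* `arm_cells` : **power bound** for every set of free cells (hypotheses of `ArmP_930.arm`)
* `arm_half` : probability `≤ th` at the ratio `η th`
* `ball_net` : finite nets of balls
-/

set_option autoImplicit false

noncomputable section

open scoped Classical

namespace Crest.Agent.R143.CntGx197

open Finset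
open Crest.Agent.R143.B0x346 Crest.Agent.R143.JColx54 Crest.Agent.R143.Harx315
open Crest.Agent.R143.Frame1x395 Crest.Agent.R143.Frame10x395
open Crest.Agent.R143.Coarsex166 (ClsCon coarse)
open Crest.Agent.R143.Gntx535 (AdjS)
open Crest.Agent.R143.D3Fx802 (CArm)
open Crest.Agent.R143.Lawx872 (ConnIn)
open Crest.Agent.R143.RB0x838 (LDns Mesh)
open Crest.Agent.R143.Frame5x395 (sd mem_sd)

variable {D C : Type} {M : CMap D C} {S : Finset ℂ} {F : Set C} {j : C → ℂ}

/-- the cells `F` are sites -/
structure Sites (M : CMap D C) (S : Finset ℂ) (F : Set C) (j : C → ℂ) : Prop where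
  inj : ∀ c ∈ F, ∀ c' ∈ F, j c = j c' → c = c'
  mem : ∀ c ∈ F, j c ∈ S
  adj : ∀ d ∈ M.live, M.cell d ∈ F → M.cell (M.rho d) ∈ F →
    JColx54.Adj S (j (M.cell d)) (j (M.cell (M.rho d)))

theorem Sites.mono {F' : Set C} (H : Sites M S F j) (h : F' ⊆ F) : Sites M S F' j :=
  ⟨fun c hc c' hc' => H.inj c (h hc) c' (h hc'), fun c hc => H.mem c (h hc),
    fun d hd h1 h2 => H.adj d hd (h h1) (h h2)⟩











/-! ### the maps -/

/-- any coarse map -/
theorem Sites.coarse {C' : Type} {π : C → C'} {hπ : ClsCon M π} (H : Sites M S F j)
    {σ : C' → C} {F' : Set C'} (hσ : ∀ c' ∈ F', σ c' ∈ F ∧ ∀ c, π c = c' → c = σ c')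
    (hσ' : ∀ c' ∈ F', π (σ c') = c') :
    Sites (coarse M π hπ) S F' fun c' => j (σ c') := by
  refine ⟨fun c hc c' hc' e => ?_, fun c hc => H.mem _ (hσ c hc).1, fun d hd h1 h2 => ?_⟩
  · rw [← hσ' c hc, ← hσ' c' hc', H.inj _ (hσ c hc).1 _ (hσ c' hc').1 e]
  · have e1 : M.cell d = σ (π (M.cell d)) := (hσ _ h1).2 _ rfl
    have e2 : M.cell (M.rho d) = σ (π (M.cell (M.rho d))) := (hσ _ h2).2 _ rfl
    show JColx54.Adj S (j (σ (π (M.cell d)))) (j (σ (π (M.cell (M.rho d)))))
    have h3 : σ (π (M.cell d)) ∈ F := (hσ _ h1).1
    have h4 : σ (π (M.cell (M.rho d))) ∈ F := (hσ _ h2).1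
    rw [← e1] at h3 ⊢
    rw [← e2] at h4 ⊢
    exact H.adj d hd.1 h3 h4



/-- the free sites `V` of a coarse map of the Delaunay triangulation : not on the hull, each alone in
its class -/
structure Free {C' : Type} (S : Finset ℂ) (π : Quot (hullE S) → C') (V : Finset ℂ) : Prop where
  sub : V ⊆ S
  hull : ∀ v ∈ V, ¬ OnHull S v
  alone : ∀ v ∈ V, ∀ c : Quot (hullE S), π c = π (Quot.mk _ v) → c = Quot.mk _ v

theorem Free.eq {C' : Type} {π : Quot (hullE S) → C'} {V : Finset ℂ} (h : Free S π V)
    (hS : GP (S : Set ℂ)) {v a : ℂ} (hv : v ∈ V) (e : π (Quot.mk _ a) = π (Quot.mk _ v)) :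
    a = v :=
  quot_inner hS (h.hull v hv) (h.alone v hv _ e).symm






/-! ### nets of balls -/


/-! ### the expected number of the pairs of strands -/

open Crest.Agent.R143.CFramex358 (Prs Stp)
open Crest.Agent.R143.CntSx197


/-- the hypotheses of the arm bound in a disc : spacing `d`, radii from `r` to `d1` -/
structure Dense (S : Finset ℂ) (z0 : ℂ) (Rad K d c2 r d1 C4 : ℝ) : Prop where
  dns : ∀ y, ‖y - z0‖ ≤ Rad → LDns S y (K * d1) d
  msh : ∀ y, ‖y - z0‖ ≤ Rad → ∀ b, c2 * r ≤ b → b ≤ d1 → Mesh S y (K * d1) b C4


end Crest.Agent.R143.CntGx197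
end
end

-- ▼ part R143/Exit_707
section

/-!
# Row 143 (S0194), block H: the exit lemma (helper707)

`M : CMap D C`, `x` an even configuration. Outer arc: the states `P M x r0 j`, `j ≤ b` (left cells
`K`). Chord: the states `P M x p0 k`, `k ≤ m`, which starts at a cell of `K`, ends at a cell of `K`
and has no left cell in `K` in between; the outer arc touches the first cell of the chord after
(every touch of) the last one.

* `Cr`, `Cr_par` : crossings of a dual walk, parity at the faces
* `exit_main` : the closed dual walk chord + rotation round `q` + outer arc + rotation round `p` has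
  a potential `χ`, constant on the left of the chord
* `exit` : a chain of cells from the right of the outer arc, which avoids `K`, reaches the left cells
  of the chord only across states of the chord
* `join` : if the cells of the chain are on the white side of `x` (or left cells of the chord) and
  the chain meets the chord, then the chord and the outer arc are on one loop
-/

set_option autoImplicit false

noncomputable section

open scoped Classical

namespace Crest.Agent.R143.Exitx707

open Crest.Agent.R143.Frame1x395 Crest.Agent.R143.Frame2x395 Crest.Agent.R143.Frame3x395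
  Crest.Agent.R143.Frame8x395 Crest.Agent.R143.Frame9x395 Crest.Agent.R143.Frame11x395
  Crest.Agent.R143.NonXx592

variable {D C : Type} {M : CMap D C} {x : D → ZMod 2}

/-! ### crossings of a dual walk -/













/-! ### chord and outer arc -/

/-- chord `P M x p0 k`, `k ≤ m`, and outer arc `P M x r0 j`, `j ≤ b` -/
structure Ch (M : CMap D C) (x : D → ZMod 2) (p0 r0 : D) (m b : ℕ) : Prop where
  isC : IsC M ∅ x
  xp : x p0 = 1
  xr : x r0 = 1
  inj : ∀ i j, i < j → j ≤ b → P M x r0 i ≠ P M x r0 j
  mid : ∀ k, 0 < k → k < m → ∀ j, j ≤ b → M.cell (P M x p0 k) ≠ M.cell (P M x r0 j)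
  hq : ∃ j, j ≤ b ∧ M.cell (P M x r0 j) = M.cell (P M x p0 m)
  hp : ∀ j, j ≤ b → M.cell (P M x r0 j) = M.cell (P M x p0 m) →
    ∃ j', j ≤ j' ∧ j' ≤ b ∧ M.cell (P M x r0 j') = M.cell p0
  ne : M.cell p0 ≠ M.cell (P M x p0 m)
  gp : Gen M (M.cell p0)
  gq : Gen M (M.cell (P M x p0 m))

variable {p0 r0 : D} {m b : ℕ}


/-! ### chains of cells -/

/-- neighbours -/
def Nb (M : CMap D C) (c c' : C) : Prop := ∃ d, M.cell d = c ∧ M.cell (M.rho d) = c'

theorem nb_symm {c c' : C} (h : Nb M c c') : Nb M c' c := by
  obtain ⟨d, rfl, rfl⟩ := h
  by_cases hl : d ∈ M.live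
  · exact ⟨M.iota d, M.cell_iota d hl, cell_rho_iota M hl⟩
  · exact ⟨d, M.dead d hl, (M.dead d hl).symm⟩





end Crest.Agent.R143.Exitx707
end
end

-- ▼ part R143/GiantE_197

/-!
# Row 143 (S0194), block H: the giant outside a barrier (helper197)

`M` any closed map, `h0` a cell (hull), `K` a set of cells (the left cells of the ring loop).
* `Ek M h0 K` : the cells joined to `h0` by cells which are not in `K`; `Eg = Ek ∪ K` : **the giant**
* `econ` : `Eg` is connected (432's `ECon`) if `K` is connected and next to `Ek`
* `kin` : a cell of the giant next to a fresh cell is in `K`; `rim` : 432's `Rim`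
* `nb_mem`, `clus_mem`, `look_mem` : the looked cells are in the giant
* `not_ek` : a potential which is constant across every adjacency off `K` separates
* `Lf`, `loop_con` : the left cells of a walk, they are connected; `econ_walk` : the giant of a walk
  whose first right cell is joined to `h0` off its left cells; `not_ek_walk` : separation by a side
  potential of the walk; `rim_walk`
* `hull_mem`, `hull_eg` : `cm0`: the hull sites are one cell, hence in the giant
-/

set_option autoImplicit false

noncomputable section

open scoped Classical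

namespace Crest.Agent.R143.GiantEx197

open Crest.Agent.R143.Frame1x395 Crest.Agent.R143.Frame2x395 Crest.Agent.R143.Frame3x395
  Crest.Agent.R143.Frame8x395 Crest.Agent.R143.NonXx592 Crest.Agent.R143.Coarsex166
  Crest.Agent.R143.Budx432 Crest.Agent.R143.HInst1x432 Crest.Agent.R143.Gntx535
open Crest.Agent.R143.Exitx707 (Nb nb_symm)

variable {D C : Type} {M : CMap D C} {h0 : C} {K K' : Set C}

/-- the cells joined to `h0` by cells which are not in `K` -/
def Ek (M : CMap D C) (h0 : C) (K : Set C) : Set C :=
  {c | Relation.ReflTransGen (fun a a' => Nb M a a' ∧ a' ∉ K) h0 c}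

/-- **the giant** -/
def Eg (M : CMap D C) (h0 : C) (K : Set C) : Set C := Ek M h0 K ∪ K


theorem ek_step {a c : C} (ha : a ∈ Ek M h0 K) (h : Nb M a c) (hc : c ∉ K) : c ∈ Ek M h0 K :=
  Relation.ReflTransGen.tail ha ⟨h, hc⟩

theorem nb_mem {a c : C} (ha : a ∈ Ek M h0 K) (h : Nb M a c) : c ∈ Eg M h0 K := by
  by_cases hc : c ∈ K
  · exact Or.inr hc
  · exact Or.inl (ek_step ha h hc)




/-- **a giant cell next to a fresh cell is in `K`** -/
theorem kin {c c' : C} (hc : c ∉ Eg M h0 K) (h : Nb M c c') (hc' : c' ∈ Eg M h0 K) : c' ∈ K := by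
  rcases hc' with h1 | h1
  · exact absurd (nb_mem h1 (nb_symm h)) hc
  · exact h1

/-- **432's `Rim`** : `K` has the colour `1` -/
theorem rim {χ : C → ZMod 2} (hK : ∀ c ∈ K, χ c = 1) : Rim M (pe (Eg M h0 K)) none χ := by
  intro d _ h1 h2
  have hc : M.cell d ∉ Eg M h0 K := fun h => h1 (pe_none.2 h)
  exact hK _ (kin hc ⟨d, rfl, rfl⟩ (pe_none.1 h2))






/-! ### the left cells of a walk -/

variable {x : D → ZMod 2} {p : D}







/-! ### the hull of `cm0` -/

section cm0

open Crest.Agent.R143.B0x346 Crest.Agent.R143.DelGx806 Crest.Agent.R143.DelRx806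
open Crest.Agent.R143.Frame10x395

variable {S : Finset ℂ}



end cm0

end Crest.Agent.R143.GiantEx197
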