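import Crest.Agent.R143.TileR2_228

/-!
# Row 143 (S0194), CORE-C, box R6: the spatial regions of the tiles (helper169)

`Rg h W l` : half open lattice square of the vertex `W l`; in the frame of the gate `l` it is
`{0 ≤ X < h, |Y| < h / 2}` for tiles of all types (the entrance edge is included, the three other edges are
excluded).

* `Rg_of_open` : it contains the open square of the vertex
* `Rg_disj` : the regions of different vertices are disjoint
* `Rg_cover` : a tile of half width `A ≤ h / 2` and length `B ≤ h` lies in the regions `a - 1, a, a + 1`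
* `Rg_near` : .. and in no other one
* `RR_thick` : a neighbourhood of a tile is in the thickened tile
* `Rg_meas`, `Rg_bdd`, `Rg_per`
-/

set_option autoImplicit false

noncomputable section

open scoped Classical

namespace Crest.Agent.R143.SpRx169

open Crest.Agent.R143.Gatex838 (X Y)
open Crest.Agent.R143.TileRx228

variable {A B h g ρ : ℝ} {M : ℕ} {W : ℤ → ℤ × ℤ} {a b l : ℤ} {c s t : ℂ} {u v : ℤ × ℤ}

/-- half open square in the frame `(z, e)` -/
def Sq (h : ℝ) (z e : ℂ) : Set ℂ := {s | (0 ≤ X z e s ∧ X z e s < h) ∧ |Y z e s| < h / 2}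

/-- **spatial region of the tile `l`** -/
def Rg (h : ℝ) (W : ℤ → ℤ × ℤ) (l : ℤ) : Set ℂ := Sq h (gz h W l) (ge W l)

/-- coordinates relative to the vertex -/
theorem mem_Rg (P : FPath M W) : s ∈ Rg h W l ↔
    (-(h / 2) ≤ ((W l - W (l - 1)).1 : ℝ) * (s - cen h W l).re +
        ((W l - W (l - 1)).2 : ℝ) * (s - cen h W l).im ∧
      ((W l - W (l - 1)).1 : ℝ) * (s - cen h W l).re +
        ((W l - W (l - 1)).2 : ℝ) * (s - cen h W l).im < h / 2) ∧
      |((W l - W (l - 1)).1 : ℝ) * (s - cen h W l).im -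
        ((W l - W (l - 1)).2 : ℝ) * (s - cen h W l).re| < h / 2 := by
  obtain ⟨e1, e2⟩ := XY_in P h l s
  have e3 : ge W l = cz (W l - W (l - 1)) := rfl
  unfold Rg Sq
  rw [Set.mem_ofPred_eq, e1, e2, e3, X_cz (U4_ge P l), Y_cz (U4_ge P l)]
  constructor
  · rintro ⟨⟨h1, h2⟩, h3⟩
    exact ⟨⟨by linarith, by linarith⟩, h3⟩
  · rintro ⟨⟨h1, h2⟩, h3⟩
    exact ⟨⟨by linarith, by linarith⟩, h3⟩

/-- the open square of the vertex is inside -/
theorem Rg_of_open (P : FPath M W) (h1 : |(s - cen h W l).re| < h / 2)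
    (h2 : |(s - cen h W l).im| < h / 2) : s ∈ Rg h W l := by
  rw [mem_Rg P]
  obtain ⟨a1, a2⟩ := abs_lt.1 h1
  obtain ⟨b1, b2⟩ := abs_lt.1 h2
  rcases U4_ge P l with hu | hu | hu | hu <;> rw [hu] <;>
    simp only [Int.cast_neg, Int.cast_one, Int.cast_zero, neg_mul, one_mul, zero_mul,
      zero_add, add_zero, sub_zero, zero_sub, neg_neg, abs_neg] <;>
    refine ⟨⟨by linarith, by linarith⟩, ?_⟩ <;> first | exact h1 | exact h2

/-- the region is inside the closed square of the vertex; on the boundary only the entrance edge -/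
theorem Rg_coord (P : FPath M W) (hs : s ∈ Rg h W l) :
    |(s - cen h W l).re| ≤ h / 2 ∧ |(s - cen h W l).im| ≤ h / 2 ∧
      ((s - cen h W l).re = h / 2 → W l - W (l - 1) = (-1, 0) ∧ |(s - cen h W l).im| < h / 2) ∧
      ((s - cen h W l).re = -(h / 2) → W l - W (l - 1) = (1, 0) ∧ |(s - cen h W l).im| < h / 2) ∧
      ((s - cen h W l).im = h / 2 → W l - W (l - 1) = (0, -1) ∧ |(s - cen h W l).re| < h / 2) ∧
      ((s - cen h W l).im = -(h / 2) → W l - W (l - 1) = (0, 1) ∧
        |(s - cen h W l).re| < h / 2) := by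
  rw [mem_Rg P] at hs
  generalize (s - cen h W l).re = x at *
  generalize (s - cen h W l).im = y at *
  obtain ⟨⟨h1, h2⟩, h3⟩ := hs
  rcases U4_ge P l with hu | hu | hu | hu <;> rw [hu] at h1 h2 h3 ⊢ <;>
    simp only [Int.cast_neg, Int.cast_one, Int.cast_zero, neg_mul, one_mul, zero_mul,
      zero_add, add_zero, sub_zero, zero_sub, neg_neg, abs_neg] at h1 h2 h3
  · obtain ⟨h4, h5⟩ := abs_lt.1 h3
    exact ⟨abs_le.2 ⟨by linarith, by linarith⟩, abs_le.2 ⟨by linarith, by linarith⟩,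
      fun h => by linarith, fun _ => ⟨rfl, h3⟩, fun h => by linarith, fun h => by linarith⟩
  · obtain ⟨h4, h5⟩ := abs_lt.1 h3
    exact ⟨abs_le.2 ⟨by linarith, by linarith⟩, abs_le.2 ⟨by linarith, by linarith⟩,
      fun h => by linarith, fun h => by linarith, fun h => by linarith, fun _ => ⟨rfl, h3⟩⟩
  · obtain ⟨h4, h5⟩ := abs_lt.1 h3
    exact ⟨abs_le.2 ⟨by linarith, by linarith⟩, abs_le.2 ⟨by linarith, by linarith⟩,
      fun _ => ⟨rfl, h3⟩, fun h => by linarith, fun h => by linarith, fun h => by linarith⟩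
  · obtain ⟨h4, h5⟩ := abs_lt.1 h3
    exact ⟨abs_le.2 ⟨by linarith, by linarith⟩, abs_le.2 ⟨by linarith, by linarith⟩,
      fun h => by linarith, fun h => by linarith, fun _ => ⟨rfl, h3⟩, fun h => by linarith⟩

/-- two steps backwards -/
theorem back_ne (P : FPath M W) {a b : ℤ} (h1 : W b = W (a - 1)) (h2 : W (b - 1) = W a) :
    False := by
  have d1 := P.simple _ _ h1
  have d2 := P.simple _ _ h2
  have d3 : (M : ℤ) ∣ 2 := by
    have := dvd_sub d2 d1
    rwa [show a - (b - 1) - (a - 1 - b) = 2 by ring] at this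
  have h4 : M = 0 ∨ 4 ≤ M := P.M_cases
  rcases h4 with h4 | h4
  · rw [h4] at d3
    simp at d3
  · have := Int.le_of_dvd (by norm_num) d3
    omega

/-- an integer with `h n = x - y`, `|x|, |y| ≤ h / 2` -/
theorem int_cases (hh : 0 < h) {x y : ℝ} {n : ℤ} (hx : |x| ≤ h / 2) (hy : |y| ≤ h / 2)
    (e : h * (n : ℝ) = x - y) :
    n = 0 ∨ (n = 1 ∧ x = h / 2 ∧ y = -(h / 2)) ∨ (n = -1 ∧ x = -(h / 2) ∧ y = h / 2) := by
  obtain ⟨x1, x2⟩ := abs_le.1 hx
  obtain ⟨y1, y2⟩ := abs_le.1 hy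
  have h1 : (n : ℝ) ≤ 1 := by
    by_contra hc
    push Not at hc
    nlinarith
  have h2 : (-1 : ℝ) ≤ n := by
    by_contra hc
    push Not at hc
    nlinarith
  have h3 : n ≤ 1 := by exact_mod_cast h1
  have h4 : -1 ≤ n := by exact_mod_cast h2
  have h5 : n = 0 ∨ n = 1 ∨ n = -1 := by omega
  rcases h5 with h5 | h5 | h5
  · exact Or.inl h5
  · subst h5
    push_cast at e
    exact Or.inr (Or.inl ⟨rfl, by linarith, by linarith⟩)
  · subst h5
    push_cast at e
    exact Or.inr (Or.inr ⟨rfl, by linarith, by linarith⟩)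

/-- **the regions of different vertices are disjoint** -/
theorem Rg_disj (P : FPath M W) (hh : 0 < h) (ha : s ∈ Rg h W a) (hb : s ∈ Rg h W b) :
    (M : ℤ) ∣ b - a := by
  obtain ⟨e1, e2⟩ := cen_sub h W a b
  obtain ⟨a1, a2, a3, a4, a5, a6⟩ := Rg_coord P ha
  obtain ⟨b1, b2, b3, b4, b5, b6⟩ := Rg_coord P hb
  have r1 : h * (((W b).1 - (W a).1 : ℤ) : ℝ) = (s - cen h W a).re - (s - cen h W b).re := by
    rw [← e1]
    simp only [Complex.sub_re]
    ring
  have r2 : h * (((W b).2 - (W a).2 : ℤ) : ℝ) = (s - cen h W a).im - (s - cen h W b).im := by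
    rw [← e2]
    simp only [Complex.sub_im]
    ring
  have fin : (W b).1 - (W a).1 = 0 → (W b).2 - (W a).2 = 0 → (M : ℤ) ∣ b - a := fun k1 k2 =>
    P.simple a b (Prod.ext (by omega) (by omega))
  have two : ∀ p : ℤ × ℤ, W a - W (a - 1) = p → W b - W (b - 1) = -p → W b - W a = -p →
      False := by
    intro p k1 k2 k3
    refine back_ne P (a := a) (b := b) ?_ ?_
    · rw [← k1] at k3
      have := sub_eq_iff_eq_add.1 k3
      rw [this]
      abel
    · rw [← k3] at k2
      have := sub_right_injective k2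
      exact this
  rcases int_cases hh a1 b1 r1 with k1 | ⟨k1, k2, k3⟩ | ⟨k1, k2, k3⟩
  · rcases int_cases hh a2 b2 r2 with m1 | ⟨m1, m2, m3⟩ | ⟨m1, m2, m3⟩
    · exact fin k1 m1
    · exfalso
      refine two (0, -1) (a5 m2).1 ?_ ?_
      · rw [(b6 m3).1]; simp
      · refine Prod.ext ?_ ?_
        · simpa using k1
        · simpa using m1
    · exfalso
      refine two (0, 1) (a6 m2).1 ?_ ?_
      · rw [(b5 m3).1]; simp
      · refine Prod.ext ?_ ?_
        · simpa using k1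
        · simpa using m1
  · have i1 := (a3 k2).2
    have i2 := (b4 k3).2
    rcases int_cases hh a2 b2 r2 with m1 | ⟨m1, m2, m3⟩ | ⟨m1, m2, m3⟩
    · exfalso
      refine two (-1, 0) (a3 k2).1 ?_ ?_
      · rw [(b4 k3).1]; simp
      · refine Prod.ext ?_ ?_
        · simpa using k1
        · simpa using m1
    · exfalso
      rw [m2, abs_lt] at i1
      linarith [i1.2]
    · exfalso
      rw [m2, abs_lt] at i1
      linarith [i1.1]
  · have i1 := (a4 k2).2
    rcases int_cases hh a2 b2 r2 with m1 | ⟨m1, m2, m3⟩ | ⟨m1, m2, m3⟩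
    · exfalso
      refine two (1, 0) (a4 k2).1 ?_ ?_
      · rw [(b3 k3).1]; simp
      · refine Prod.ext ?_ ?_
        · simpa using k1
        · simpa using m1
    · exfalso
      rw [m2, abs_lt] at i1
      linarith [i1.2]
    · exfalso
      rw [m2, abs_lt] at i1
      linarith [i1.1]

/-- **the tile is covered by the regions `a - 1, a, a + 1`** -/
theorem Rg_cover (P : FPath M W) (_hA0 : 0 ≤ A) (hA : A ≤ h / 2) (hB : B ≤ h)
    (hs : s ∈ RR A B h W a) : s ∈ Rg h W (a - 1) ∨ s ∈ Rg h W a ∨ s ∈ Rg h W (a + 1) := by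
  rcases hs with hs | hs
  · -- the arm to the gate `a`
    obtain ⟨e1, e2⟩ := XY_in P h a s
    have e3 : cz (W (a - 1) - W a) = -ge W a := by
      unfold ge
      rw [← cz_neg, neg_sub]
    obtain ⟨⟨h1, h2⟩, h3⟩ := hs
    rw [e3, (XY_neg _ _ _).1] at h1 h2
    rw [e3, (XY_neg _ _ _).2, abs_neg, ← e2] at h3
    rcases le_or_gt 0 (X (gz h W a) (ge W a) s) with h4 | h4
    · right; left
      exact ⟨⟨h4, by linarith⟩, by linarith⟩
    · left
      obtain ⟨f1, f2⟩ := XY_out P h (a - 1) s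
      rw [sub_add_cancel] at f1 f2
      have f3 : ge W a = cz (W a - W (a - 1)) := rfl
      have hX : X (cen h W (a - 1)) (ge W a) s < h / 2 ∧ -(h / 2) < X (cen h W (a - 1)) (ge W a) s :=
        ⟨by linarith, by linarith⟩
      have hY : |Y (cen h W (a - 1)) (ge W a) s| < h / 2 := by rw [← f2]; linarith
      rw [f3, X_cz (U4_ge P a)] at hX
      rw [f3, Y_cz (U4_ge P a)] at hY
      obtain ⟨h5, h6⟩ := hX
      rcases U4_ge P a with hu | hu | hu | hu <;> rw [hu] at h5 h6 hY <;>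
        simp only [Int.cast_neg, Int.cast_one, Int.cast_zero, neg_mul, one_mul, zero_mul,
          zero_add, add_zero, sub_zero, zero_sub, neg_neg, abs_neg] at h5 h6 hY
      · exact Rg_of_open P (abs_lt.2 ⟨by linarith, by linarith⟩) hY
      · exact Rg_of_open P hY (abs_lt.2 ⟨by linarith, by linarith⟩)
      · exact Rg_of_open P (abs_lt.2 ⟨by linarith, by linarith⟩) hY
      · exact Rg_of_open P hY (abs_lt.2 ⟨by linarith, by linarith⟩)
  · obtain ⟨e1, e2⟩ := XY_out P h a s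
    have e3 : cz (W (a + 1) - W a) = ge W (a + 1) := by
      unfold ge
      rw [add_sub_cancel_right]
    obtain ⟨⟨h1, h2⟩, h3⟩ := hs
    rcases le_or_gt (h / 2) (X (cen h W a) (cz (W (a + 1) - W a)) s) with h4 | h4
    · right; right
      rw [e3] at h1 h2 h3 h4
      rw [← e2] at h3
      exact ⟨⟨by linarith, by linarith⟩, by linarith⟩
    · right; left
      have hX : X (cen h W a) (cz (W (a + 1) - W a)) s < h / 2 ∧
        -(h / 2) < X (cen h W a) (cz (W (a + 1) - W a)) s := ⟨h4, by linarith⟩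
      have hY : |Y (cen h W a) (cz (W (a + 1) - W a)) s| < h / 2 := by linarith
      rw [X_cz (P.step a)] at hX
      rw [Y_cz (P.step a)] at hY
      obtain ⟨h5, h6⟩ := hX
      rcases P.step a with hu | hu | hu | hu <;> rw [hu] at h5 h6 hY <;>
        simp only [Int.cast_neg, Int.cast_one, Int.cast_zero, neg_mul, one_mul, zero_mul,
          zero_add, add_zero, sub_zero, zero_sub, neg_neg, abs_neg] at h5 h6 hY
      · exact Rg_of_open P (abs_lt.2 ⟨by linarith, by linarith⟩) hY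
      · exact Rg_of_open P hY (abs_lt.2 ⟨by linarith, by linarith⟩)
      · exact Rg_of_open P (abs_lt.2 ⟨by linarith, by linarith⟩) hY
      · exact Rg_of_open P hY (abs_lt.2 ⟨by linarith, by linarith⟩)

/-- **.. and meets no other region** -/
theorem Rg_near (P : FPath M W) (hh : 0 < h) (hA0 : 0 ≤ A) (hA : A ≤ h / 2) (hB : B ≤ h)
    (hs : s ∈ RR A B h W a) (hb : s ∈ Rg h W b) :
    (M : ℤ) ∣ b - (a - 1) ∨ (M : ℤ) ∣ b - a ∨ (M : ℤ) ∣ b - (a + 1) := by
  rcases Rg_cover P hA0 hA hB hs with h1 | h1 | h1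
  · exact Or.inl (Rg_disj P hh h1 hb)
  · exact Or.inr (Or.inl (Rg_disj P hh h1 hb))
  · exact Or.inr (Or.inr (Rg_disj P hh h1 hb))

/-! ### thickening -/

theorem X_sub_le {z e : ℂ} (he : ‖e‖ = 1) (s t : ℂ) : |X z e s - X z e t| ≤ ‖s - t‖ := by
  unfold X
  rw [← Complex.sub_re]
  refine (Complex.abs_re_le_norm _).trans (le_of_eq ?_)
  rw [← sub_div, norm_div, he, div_one]
  congr 1
  ring

theorem Y_sub_le {z e : ℂ} (he : ‖e‖ = 1) (s t : ℂ) : |Y z e s - Y z e t| ≤ ‖s - t‖ := by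
  unfold Y
  rw [← Complex.sub_im]
  refine (Complex.abs_im_le_norm _).trans (le_of_eq ?_)
  rw [← sub_div, norm_div, he, div_one]
  congr 1
  ring

theorem arm_thick {e : ℂ} (he : ‖e‖ = 1) (ht : t ∈ Arm A B c e) (hs : ‖s - t‖ ≤ ρ) :
    s ∈ Arm (A + ρ) (B + ρ) c e := by
  obtain ⟨⟨h1, h2⟩, h3⟩ := ht
  have k1 := abs_le.1 ((X_sub_le (z := c) he s t).trans hs)
  have k2 := abs_le.1 ((Y_sub_le (z := c) he s t).trans hs)
  have h4 := abs_lt.1 h3
  refine ⟨⟨by linarith [k1.1], by linarith [k1.2]⟩, abs_lt.2 ⟨by linarith [k2.1, h4.1],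
    by linarith [k2.2, h4.2]⟩⟩

/-- **a neighbourhood of a tile is in the thickened tile** -/
theorem RR_thick (P : FPath M W) (ht : t ∈ RR A B h W a) (hs : ‖s - t‖ ≤ ρ) :
    s ∈ RR (A + ρ) (B + ρ) h W a := by
  rcases ht with ht | ht
  · exact Or.inl (arm_thick (norm_cz (P.step' a)) ht hs)
  · exact Or.inr (arm_thick (norm_cz (P.step a)) ht hs)

/-- points next to a tile -/
theorem Rg_cover' (P : FPath M W) (hρ : 0 ≤ ρ) (hA0 : 0 ≤ A) (hA : A + ρ ≤ h / 2) (hB : B + ρ ≤ h)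
    (ht : t ∈ RR A B h W a) (hs : ‖s - t‖ ≤ ρ) :
    s ∈ Rg h W (a - 1) ∨ s ∈ Rg h W a ∨ s ∈ Rg h W (a + 1) :=
  Rg_cover P (by linarith) hA hB (RR_thick P ht hs)

theorem Rg_near' (P : FPath M W) (hh : 0 < h) (hρ : 0 ≤ ρ) (hA0 : 0 ≤ A) (hA : A + ρ ≤ h / 2)
    (hB : B + ρ ≤ h) (ht : t ∈ RR A B h W a) (hs : ‖s - t‖ ≤ ρ) (hb : s ∈ Rg h W b) :
    (M : ℤ) ∣ b - (a - 1) ∨ (M : ℤ) ∣ b - a ∨ (M : ℤ) ∣ b - (a + 1) :=
  Rg_near P hh (by linarith) hA hB (RR_thick P ht hs) hb

/-! ### the open corridor `0, .., N - 1` -/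



theorem corr_near (P : FPath M W) (hh : 0 < h) (o : ℤ) (hρ : 0 ≤ ρ) (hA0 : 0 ≤ A)
    (hA : A + ρ ≤ h / 2) (hB : B + ρ ≤ h) {n k l : ℕ} (hn : M = 0 ∨ n + 1 ≤ M) (hk : k < n)
    (hl : l < n) (ht : t ∈ RR A B h W (o + k)) (hs : ‖s - t‖ ≤ ρ) (hb : s ∈ Rg h W (o + l)) :
    k ≤ l + 1 ∧ l ≤ k + 1 := by
  have key : ∀ d : ℤ, (M : ℤ) ∣ d → |d| < n + 1 → d = 0 := by
    intro d hd hlt
    rcases hn with hn | hn
    · rw [hn] at hd
      simpa using hd
    · by_contra hne
      have h5 := Int.le_of_dvd (abs_pos.2 hne) ((dvd_abs _ _).2 hd)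
      omega
  have hb' : ∀ d : ℤ, -1 ≤ d - (l - k) → d - (l - k) ≤ 1 → |d| < n + 1 := by
    intro d h1 h2
    rw [abs_lt]
    constructor <;> omega
  rcases Rg_near' P hh hρ hA0 hA hB ht hs hb with h2 | h2 | h2
  · have := key _ h2 (hb' _ (by linarith) (by linarith))
    omega
  · have := key _ h2 (hb' _ (by linarith) (by linarith))
    omega
  · have := key _ h2 (hb' _ (by linarith) (by linarith))
    omega

/-! ### measurability, period, size -/

theorem Sq_meas (h : ℝ) (z e : ℂ) : MeasurableSet (Sq h z e) := by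
  have h1 : Measurable (X z e) := by unfold X; fun_prop
  have h2 : Measurable (Y z e) := by unfold Y; fun_prop
  exact ((measurableSet_le measurable_const h1).inter (measurableSet_lt h1 measurable_const)).inter
    (measurableSet_lt (continuous_abs.measurable.comp h2) measurable_const)

theorem Rg_meas (h : ℝ) (W : ℤ → ℤ × ℤ) (l : ℤ) : MeasurableSet (Rg h W l) := Sq_meas _ _ _




end Crest.Agent.R143.SpRx169
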