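import Crest.Agent.R143.HqP_304
import Crest.Agent.R143.CorN_765
import Crest.Agent.R143.LayU_416
import Crest.Agent.R143.SpR_169

/-!
# Row 143 (S0194), RIG, field `Q`: the windows of the corridor net of a polygon (helper416)

304's `Wnd` for 765's corridor net `cpth` of a label, with regions `D l` in the closed lattice square
of the vertex of the tile (169's `Rg`, 523's `RL`).

* `Sqr h W a` : closed square of the vertex `a`; `Rg_Sqr`
* `sq_far` : `dist (Sqr a) (RR A B h W b) ≥ g` for `b` different from `a - 1, a, a + 1` modulo `M`,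
  `A + g ≤ h / 2`
* `far_winS` : the regions of the net off a window are far from the square
* **`wnd_lay`** : `Wnd` for any windows `p l < a l < q l ≤ p l + m`
* **`wnd_cor`** : the same for the out tiles `0 ≤ l < nn` of the label `i`
* `Near_P` : squares and regions are in every set containing the `3 h`-neighbourhood of `u.P`
-/

set_option autoImplicit false

noncomputable section

namespace Crest.Agent.R143.WndIx416

open MeasureTheory Set
open Crest.ProbabilityR.Voronoi
open Crest.Agent.R143.PP0x831 Crest.Agent.R143.PWx978 Crest.Agent.R143.Tplx978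
open Crest.Agent.R143.TileRx228 Crest.Agent.R143.PthFx765 Crest.Agent.R143.Hqx304
open Crest.Agent.R143.HqPx304 Crest.Agent.R143.CorNx765
open Crest.Agent.R143.LayQx811 Crest.Agent.R143.Layx416 Crest.Agent.R143.LayUx416
open Crest.Agent.R143.PolyUx346
open Crest.Agent.R143.SpRx169 (Rg Rg_coord)
open Crest.Agent.R143.SumScx302 (sq)
open scoped ENNReal

/-- closed square of the vertex -/
def Sqr (h : ℝ) (W : ℤ → ℤ × ℤ) (a : ℤ) : Set ℂ :=
  {s | |(s - cen h W a).re| ≤ h / 2 ∧ |(s - cen h W a).im| ≤ h / 2}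

theorem Rg_Sqr {M : ℕ} {W : ℤ → ℤ × ℤ} (P : FPath M W) (h : ℝ) (a : ℤ) : Rg h W a ⊆ Sqr h W a :=
  fun _ hs => ⟨(Rg_coord P hs).1, (Rg_coord P hs).2.1⟩

section far

variable {n M : ℕ} {m : ℤ} {p W : ℤ → ℤ × ℤ} {Ac e : ℤ → ℤ}

/-- vertices which are not consecutive: sup distance at least two, or diagonal -/
theorem vtx_far (H : Lay n M m p W Ac e) {a b : ℤ} (h0 : ¬ (M : ℤ) ∣ b - a)
    (h1 : ¬ (M : ℤ) ∣ b - (a + 1)) (h2 : ¬ (M : ℤ) ∣ b - (a - 1)) :
    2 ≤ |(W b).1 - (W a).1| ∨ 2 ≤ |(W b).2 - (W a).2| ∨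
      (|(W b).1 - (W a).1| = 1 ∧ |(W b).2 - (W a).2| = 1) := by
  by_contra hcon
  push Not at hcon
  obtain ⟨c1, c2, c3⟩ := hcon
  have hm := H.m10
  obtain ⟨j, hj⟩ := H.quasi (r := 1) (a := a) (b := b) (by omega) (by omega)
    (by
      rw [sd2_le]
      rw [abs_sub_comm, abs_sub_comm (W a).2]
      omega)
  rw [abs_le] at hj
  have hcase : b = a - j * M - 2 ∨ b = a - j * M - 1 ∨ b = a - j * M ∨ b = a - j * M + 1 ∨
      b = a - j * M + 2 := by omega
  have hdvd : ∀ c : ℤ, b = a - j * M + c → (M : ℤ) ∣ b - (a + c) := by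
    intro c hc
    exact ⟨-j, by rw [hc]; ring⟩
  have two : ∀ c : ℤ, (c = 2 ∨ c = -2) → b = a - j * M + c → False := by
    intro c hc hb
    have e1 : W b = W (a + c) := by
      rw [hb, show a - j * (M : ℤ) + c = a + c + (-j) * M by ring, H.Wper']
    rw [e1] at c1 c2 c3
    have st := H.fp.step
    have tn := H.fp.turn
    rcases hc with rfl | rfl
    · have s1 := st a
      have s2 := st (a + 1)
      have s3 := tn a
      rw [show a + 1 + 1 = a + 2 by ring] at s2
      have e2 : W (a + 2) - W a = (W (a + 2) - W (a + 1)) + (W (a + 1) - W a) := by abel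
      have e3 : W (a + 2) - W a ≠ 0 := sub_ne_zero.2 s3
      have d1 : (W (a + 2)).1 - (W a).1 = (W (a + 2) - W a).1 := rfl
      have d2 : (W (a + 2)).2 - (W a).2 = (W (a + 2) - W a).2 := rfl
      rw [d1, d2] at c3
      rw [d1] at c1
      rw [d2] at c2
      rw [e2] at c1 c2 c3 e3
      rcases s1 with s1 | s1 | s1 | s1 <;> rcases s2 with s2 | s2 | s2 | s2 <;>
        rw [s1, s2] at c1 c2 c3 e3 <;> simp at c1 c2 c3 e3
    · have s1 := st (a - 2)
      have s2 := st (a - 1)
      have s3 := tn (a - 2)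
      rw [show a - 2 + 1 = a - 1 by ring] at s1
      rw [show a - 1 + 1 = a by ring] at s2
      rw [show a - 2 + 2 = a by ring] at s3
      rw [show a + -2 = a - 2 by ring] at c1 c2 c3
      have e2 : W (a - 2) - W a = -((W a - W (a - 1)) + (W (a - 1) - W (a - 2))) := by abel
      have e3 : W (a - 2) - W a ≠ 0 := sub_ne_zero.2 s3.symm
      have d1 : (W (a - 2)).1 - (W a).1 = (W (a - 2) - W a).1 := rfl
      have d2 : (W (a - 2)).2 - (W a).2 = (W (a - 2) - W a).2 := rfl
      rw [d1, d2] at c3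
      rw [d1] at c1
      rw [d2] at c2
      rw [e2] at c1 c2 c3 e3
      rcases s1 with s1 | s1 | s1 | s1 <;> rcases s2 with s2 | s2 | s2 | s2 <;>
        rw [s1, s2] at c1 c2 c3 e3 <;> simp at c1 c2 c3 e3
  rcases hcase with hb | hb | hb | hb | hb
  · exact two (-2) (Or.inr rfl) (by rw [hb]; ring)
  · exact h2 (by have := hdvd (-1) (by rw [hb]; ring); rwa [← sub_eq_add_neg] at this)
  · exact h0 (by have := hdvd 0 (by rw [hb]; ring); rwa [add_zero] at this)
  · exact h1 (hdvd 1 hb)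
  · exact two 2 (Or.inl rfl) hb

/-- **the square of a vertex is far from the tiles which are not adjacent** -/
theorem sq_far (H : Lay n M m p W Ac e) {A B h g' : ℝ} (hA : A + g' ≤ h / 2)
    (hB0 : 0 ≤ B) (hB : B ≤ h) {a b : ℤ} (h0 : ¬ (M : ℤ) ∣ b - a) (h1 : ¬ (M : ℤ) ∣ b - (a + 1))
    (h2 : ¬ (M : ℤ) ∣ b - (a - 1)) {s t : ℂ} (hs : s ∈ Sqr h W a) (ht : t ∈ RR A B h W b) :
    g' ≤ ‖s - t‖ := by
  have hh : 0 ≤ h := hB0.trans hB
  obtain ⟨v, hv, -, ht⟩ := mem_RR H.fp ht
  obtain ⟨τ, t0, t1, t2, t3⟩ := FineDx576.arm_pt hB0 hv ht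
  rw [FineDx576.cen_re] at t2
  rw [FineDx576.cen_im] at t3
  obtain ⟨s1, s2⟩ := hs
  rw [Complex.sub_re, FineDx576.cen_re] at s1
  rw [Complex.sub_im, FineDx576.cen_im] at s2
  have hτh : τ ≤ h := t1.trans hB
  have key : ∀ (x y : ℝ) (w w' v1 : ℤ), |x - h * w| ≤ h / 2 → |y - (h * w' + τ * v1)| ≤ A →
      (|v1| ≤ 1) → 2 ≤ |w' - w| → g' ≤ |x - y| := by
    intro x y w w' v1 hx hy hv1 hw
    have hw' : (2 : ℝ) ≤ |(w' : ℝ) - w| := by exact_mod_cast hw
    have hv' : |(v1 : ℝ)| ≤ 1 := by exact_mod_cast hv1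
    have h5 : |τ * v1| ≤ h := by
      rw [abs_mul, abs_of_nonneg t0]
      nlinarith [abs_nonneg (v1 : ℝ)]
    rw [abs_le] at hx hy h5
    rcases le_abs.1 hw' with h6 | h6
    · have : 2 * h ≤ h * ((w' : ℝ) - w) := by nlinarith
      rw [mul_sub] at this
      refine le_trans ?_ (neg_le_abs _)
      linarith
    · have : 2 * h ≤ h * (-((w' : ℝ) - w)) := by nlinarith
      rw [mul_neg, mul_sub] at this
      refine le_trans ?_ (le_abs_self _)
      linarith
  have key1 : ∀ (x y : ℝ) (w w' : ℤ), |x - h * w| ≤ h / 2 → |y - h * w'| ≤ A →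
      |w' - w| = 1 → g' ≤ |x - y| := by
    intro x y w w' hx hy hw
    rw [abs_le] at hx hy
    rcases (abs_eq (by norm_num)).1 hw with h6 | h6
    · have : (w' : ℝ) = w + 1 := by exact_mod_cast (show w' = w + 1 by omega)
      rw [this] at hy
      refine le_trans ?_ (neg_le_abs _)
      linarith
    · have : (w' : ℝ) = w - 1 := by exact_mod_cast (show w' = w - 1 by omega)
      rw [this] at hy
      refine le_trans ?_ (le_abs_self _)
      linarith
  have hre : |s.re - t.re| ≤ ‖s - t‖ := by simpa using Complex.abs_re_le_norm (s - t)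
  have him : |s.im - t.im| ≤ ‖s - t‖ := by simpa using Complex.abs_im_le_norm (s - t)
  have hv1 : |v.1| ≤ 1 ∧ |v.2| ≤ 1 := Seg.u4_abs hv
  rcases vtx_far H h0 h1 h2 with h3 | h3 | ⟨h3, h4⟩
  · exact (key _ _ _ _ _ s1 t2 hv1.1 h3).trans hre
  · exact (key _ _ _ _ _ s2 t3 hv1.2 h3).trans him
  · rcases hv with rfl | rfl | rfl | rfl
    · refine (key1 _ _ _ _ s2 ?_ h4).trans him
      simpa using t3
    · refine (key1 _ _ _ _ s1 ?_ h3).trans hre
      simpa using t2
    · refine (key1 _ _ _ _ s2 ?_ h4).trans him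
      simpa using t3
    · refine (key1 _ _ _ _ s1 ?_ h3).trans hre
      simpa using t2

/-- a neighbourhood of the square is in a square of side `2 h` -/
theorem thick_sq {ρ h : ℝ} (hρ : ρ ≤ h / 2) (a : ℤ) :
    Metric.thickening ρ (Sqr h W a) ⊆ sq (cen h W a - ⟨h, h⟩) (2 * h) := by
  intro w hw
  obtain ⟨t, ⟨h1, h2⟩, ht⟩ := Metric.mem_thickening_iff.1 hw
  rw [dist_eq_norm] at ht
  have h3 := (Complex.abs_re_le_norm (w - t)).trans_lt ht
  have h4 := (Complex.abs_im_le_norm (w - t)).trans_lt ht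
  rw [Complex.sub_re] at h1 h3
  rw [Complex.sub_im] at h2 h4
  rw [abs_le] at h1 h2
  rw [abs_lt] at h3 h4
  refine ⟨?_, ?_, ?_, ?_⟩ <;> simp only [Complex.sub_re, Complex.sub_im] <;> linarith

end far

section path

variable {n M : ℕ} {m : ℤ} {p W : ℤ → ℤ × ℤ} {Ac e : ℤ → ℤ} {A B h ε : ℝ} {Ty : Type*}
  {T : Tpl ε Ty} {tu : Ty → Tn} [DecidableEq (ZMod M)]

/-- **the regions off the window are far from the square** -/
theorem far_winS (L : Lay n M m p W Ac e) (H : Std T A B h tu) {ty : ZMod M → Ty}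
    (hty : Typ W tu ty) (I J : Finset (ZMod M)) {p' q' a : ℤ} (hp : p' < a) (hq : a < q') {ρ : ℝ}
    (hh : A + ρ ≤ h / 2) :
    Disjoint ((pth L.fp H ty hty).net.reg (I \ Iw M p' q') (J \ Jw M p' q'))
      (Metric.thickening ρ (Sqr h W a)) := by
  rw [Set.disjoint_left]
  intro s hs ht
  obtain ⟨t, ht, hst⟩ := Metric.mem_thickening_iff.1 ht
  rw [dist_eq_norm, norm_sub_rev] at hst
  have hB : B ≤ h := H.hB
  have hB0 : 0 ≤ B := (H.hA.trans_le H.hAB).le
  have hM : 24 ≤ M := L.M_pos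
  have hnd : ∀ c : ℤ, 0 < c → c < 24 → ¬ (M : ℤ) ∣ c := by
    intro c h1 h2 hd
    have := Int.le_of_dvd h1 hd
    omega
  have key : ∀ b : ℤ, ¬ (M : ℤ) ∣ b - a → ¬ (M : ℤ) ∣ b - (a + 1) → ¬ (M : ℤ) ∣ b - (a - 1) →
      s ∈ RR A B h W b → False := by
    intro b h0 h1 h2 hb
    have := sq_far L hh hB0 hB h0 h1 h2 ht hb
    linarith
  rcases hs with hs | hs
  · obtain ⟨i, hi, hs⟩ := mem_iUnion₂.1 hs
    have hi' := (Finset.mem_sdiff.1 hi).2
    have hs' : s ∈ PthFx765.GB A B h W (zc i) := by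
      have := net_B L.fp H hty (zc i)
      rw [zc_cast] at this
      rwa [this] at hs
    have h1 : ¬ (M : ℤ) ∣ zc i - a := by
      intro hd
      apply hi'
      have := cast_dvd hd
      rw [zc_cast] at this
      rw [this]
      exact mem_Iw hp (by omega)
    have h2 : ¬ (M : ℤ) ∣ zc i - (a + 1) := by
      intro hd
      apply hi'
      have := cast_dvd hd
      rw [zc_cast] at this
      rw [this]
      exact mem_Iw (by omega) (by omega)
    by_cases h3 : (M : ℤ) ∣ zc i - (a - 1)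
    · -- the gate `a - 1`: use the tile `a - 2`
      have h4 : s ∈ RR A B h W (zc i - 1) := by
        refine PthFx765.GB_sub' L.fp H.hA hB (zc i - 1) ?_
        rwa [sub_add_cancel]
      refine key (zc i - 1) ?_ ?_ ?_ h4
      · intro hd
        have := dvd_sub h3 hd
        rw [show zc i - (a - 1) - (zc i - 1 - a) = 2 by ring] at this
        exact hnd 2 (by norm_num) (by norm_num) this
      · intro hd
        have := dvd_sub h3 hd
        rw [show zc i - (a - 1) - (zc i - 1 - (a + 1)) = 3 by ring] at this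
        exact hnd 3 (by norm_num) (by norm_num) this
      · intro hd
        have := dvd_sub h3 hd
        rw [show zc i - (a - 1) - (zc i - 1 - (a - 1)) = 1 by ring] at this
        exact hnd 1 (by norm_num) (by norm_num) this
    · exact key (zc i) h1 h2 h3 (PthFx765.GB_sub L.fp H.hA hB (zc i) hs')
  · obtain ⟨k, hk, hs⟩ := mem_iUnion₂.1 hs
    have hk' := (Finset.mem_sdiff.1 hk).2
    have hs' : s ∈ PthFx765.TB A B h W (zc k) := by
      have := net_C L.fp H hty (zc k)
      rw [zc_cast] at this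
      rwa [this] at hs
    have key2 : ∀ e : ℤ, p' ≤ a + e → a + e ≤ q' → ¬ (M : ℤ) ∣ zc k - (a + e) := by
      intro e he1 he2 hd
      apply hk'
      have := cast_dvd hd
      rw [zc_cast] at this
      rw [this]
      exact mem_Jw he1 he2
    have h0 : ¬ (M : ℤ) ∣ zc k - a := by
      have := key2 0 (by omega) (by omega)
      rwa [add_zero] at this
    exact key (zc k) h0 (key2 1 (by omega) (by omega)) (key2 (-1) (by omega) (by omega)) hs'.1


end path

/-! ### the corridor net of a polygon -/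

section poly

variable {u : Poly} {m M : ℕ} {p W : ℤ → ℤ × ℤ} {Ac e : ℤ → ℤ} {A B h : ℝ}

/-- vertices are near the polygon -/
theorem cen_P (H : LayU u m M p W Ac e) (hh : (m : ℝ) * h = u.s) (a : ℤ) :
    ∃ x ∈ u.P, dist (cen h W a) x ≤ 3 * h := by
  have h0 := H.h_pos hh
  have hc : cen h W a ∈ RR h h h W a := by
    refine Or.inl ⟨⟨?_, ?_⟩, ?_⟩ <;> simp [Gatex838.X, Gatex838.Y, h0]
  obtain ⟨x, hx, h1⟩ := FineDx576.RR_near_dist H.lay.fp H.near h0 le_rfl hc
  rw [LayU.P_eq u hh]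
  exact ⟨x, hx, h1.trans (by linarith)⟩

/-- the `5 h`-neighbourhood of the polygon contains the neighbourhoods of the squares -/
theorem Sqr_P (H : LayU u m M p W Ac e) (hh : (m : ℝ) * h = u.s) {ρ : ℝ} (hρ : ρ ≤ h / 2) {a : ℤ}
    {s : ℂ} (hs : s ∈ Metric.thickening ρ (Sqr h W a)) : Metric.infDist s u.P ≤ 5 * h := by
  obtain ⟨x, hx, h1⟩ := cen_P H hh a
  have h0 := H.h_pos hh
  obtain ⟨t, ⟨h2, h3⟩, ht⟩ := Metric.mem_thickening_iff.1 hs
  have h4 := FineDx576.dist_le_of (r := h / 2) (s := t) (x := cen h W a) h2 h3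
  refine (Metric.infDist_le_dist_of_mem hx).trans ?_
  have h5 := dist_triangle s t x
  have h6 := dist_triangle t (cen h W a) x
  linarith

/-- the `5 h`-neighbourhood of the polygon contains the tile regions -/
theorem RR_P (H : LayU u m M p W Ac e) (hh : (m : ℝ) * h = u.s) (hA : 0 < A) (hAB : A ≤ B)
    (hB : B ≤ h) {a : ℤ} {s : ℂ} (hs : s ∈ RR A B h W a) : Metric.infDist s u.P ≤ 5 * h := by
  obtain ⟨x, hx, h1⟩ := FineDx576.RR_near_dist H.lay.fp H.near (H.h_pos hh) hAB hs
  rw [LayU.P_eq u hh]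
  refine (Metric.infDist_le_dist_of_mem hx).trans (h1.trans ?_)
  have := H.h_pos hh
  linarith

variable {ε : ℝ} {T : Tpl ε (Tn × Bool)} [DecidableEq (ZMod M)]

/-- the regions of the corridor net are in the `5 h`-neighbourhood of the polygon -/
theorem reg_P (H : LayU u m M p W Ac e) (hh : (m : ℝ) * h = u.s) (Hs : Std T A B h Prod.fst)
    (i : ZMod 3) (I J : Finset (ZMod M)) {s : ℂ}
    (hs : s ∈ (cpth H.lay.fp Hs Ac e i).net.reg I J) : Metric.infDist s u.P ≤ 5 * h := by
  have hB : B ≤ h := Hs.hB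
  rcases hs with hs | hs
  · obtain ⟨k, hk, hs⟩ := mem_iUnion₂.1 hs
    have hs' : s ∈ PthFx765.GB A B h W (zc k) := by
      have := net_B H.lay.fp Hs (cty_typ (M := M) (W := W) (Ac := Ac) (e := e) i) (zc k)
      rw [zc_cast] at this
      rwa [← this]
    exact RR_P H hh Hs.hA Hs.hAB hB (PthFx765.GB_sub H.lay.fp Hs.hA hB (zc k) hs')
  · obtain ⟨k, hk, hs⟩ := mem_iUnion₂.1 hs
    have hs' : s ∈ PthFx765.TB A B h W (zc k) := by
      have := net_C H.lay.fp Hs (cty_typ (M := M) (W := W) (Ac := Ac) (e := e) i) (zc k)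
      rw [zc_cast] at this
      rwa [← this]
    exact RR_P H hh Hs.hA Hs.hAB hB hs'.1



end poly

end Crest.Agent.R143.WndIx416
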