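import Crest.Agent.R143.Ten_416
import Crest.Agent.R143.REw_838

/-!
# Row 143, POLY: OUTSIDE CONNECTION (helper571; statement of helper923, (L3) of 686, (3d), (3e) of
note 3646)

`F` : a set of cells of the grid of mesh `δ` whose complement is edge-connected (no bricks, no
finiteness), `0 ≤ ρ`, `2 ρ < δ`.

* `Far δ ρ F` : the points at sup distance `> ρ` from the closed polygon `Pg δ F`
* (O1) `far_preconn` : `Far δ ρ F` is preconnected (`far_joined` : path connected);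
  `far_zero`, `compl_preconn` : the case `ρ = 0`, the complement of the polygon
* (O2) `asum_far` : `F` finite, `l` a closed chain whose segments are off `Far` has index `0` seen
  from every point of `Far`
* (O3) `pth_far` : two sites whose Voronoi cells meet `Far` are joined by sites whose cells meet
  `Far`; `near_far` : with `Dns S c L d` such a site is at distance `< d` of `Far` or at distance
  `> L - 2 d` from the centre
* (O4) `off_of_near` : a chain within sup distance `ρ` of the polygon is off `Far`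
-/

set_option autoImplicit false

noncomputable section

namespace Crest.Agent.R143.OutCx571

open Set
open Crest.ProbabilityR.Voronoi
open Crest.Agent.R158.Sp896
open Crest.Agent.R143.Tenx416 (Pg)
open Crest.Agent.R143.B0x346 (GP)
open Crest.Agent.R143.RE0x723 (Pth)
open Crest.Agent.R143.DomAx722 (Dns)
open Crest.Agent.R143.ToolWx838 (Off asum prs)

/-- the points at sup distance more than `ρ` from the polygon -/
def Far (δ ρ : ℝ) (F : Set V) : Set ℂ :=
  {z | ∀ w ∈ Pg δ F, ρ < max |z.re - w.re| |z.im - w.im|}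

variable {δ ρ : ℝ} {F : Set V}

theorem mem_pg {w : ℂ} : w ∈ Pg δ F ↔ ∃ q ∈ F, w ∈ sq δ q := by
  unfold Pg
  simp only [Set.mem_iUnion, exists_prop]


theorem far_not_mem (hr : 0 ≤ ρ) {z : ℂ} (hz : z ∈ Far δ ρ F) : z ∉ Pg δ F := by
  intro h
  have := hz z h
  simp only [sub_self, abs_zero, max_self] at this
  linarith

theorem far_zero : Far δ 0 F = (Pg δ F)ᶜ := by
  ext z
  constructor
  · exact fun h => far_not_mem le_rfl h
  · intro h w hw
    by_contra hcon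
    push Not at hcon
    have h1 : |z.re - w.re| ≤ 0 := (le_max_left _ _).trans hcon
    have h2 : |z.im - w.im| ≤ 0 := (le_max_right _ _).trans hcon
    have e : z = w := by
      apply Complex.ext
      · have := abs_nonpos_iff.1 h1; linarith
      · have := abs_nonpos_iff.1 h2; linarith
    exact h (e ▸ hw)

/-- the cell of a point of `Far` is not in `F` -/
theorem cell_notMem (hr : 0 ≤ ρ) {z : ℂ} (hz : z ∈ Far δ ρ F) {q : V} (hq : z ∈ sq δ q) : q ∉ F :=
  fun h => far_not_mem hr hz (mem_pg.2 ⟨q, h, hq⟩)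

/-- vertical moves towards the middle line of the cell stay in `Far` -/
theorem far_vert (hr : 0 ≤ ρ) (hd : 2 * ρ < δ) {z p : ℂ} {q : V} (hz : z ∈ Far δ ρ F)
    (hq : z ∈ sq δ q) (h1 : p.re = z.re)
    (h2 : (z.im ≤ p.im ∧ p.im ≤ δ * (q.2 + 1 / 2)) ∨ (δ * (q.2 + 1 / 2) ≤ p.im ∧ p.im ≤ z.im)) :
    p ∈ Far δ ρ F := by
  have hδ : 0 < δ := by linarith
  obtain ⟨a1, a2, a3, a4⟩ := hq
  intro w hw
  by_contra hcon
  push Not at hcon
  obtain ⟨q2, hF, b1, b2, b3, b4⟩ := mem_pg.1 hw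
  have c1 : |p.re - w.re| ≤ ρ := (le_max_left _ _).trans hcon
  have c2 : |p.im - w.im| ≤ ρ := (le_max_right _ _).trans hcon
  rw [h1] at c1
  obtain ⟨c3, c4⟩ := abs_le.1 c2
  rcases lt_trichotomy q2.2 q.2 with h | h | h
  · have h' : (q2.2 : ℝ) + 1 ≤ q.2 := by exact_mod_cast h
    have e1 : δ * (q2.2 + 1) ≤ δ * q.2 := mul_le_mul_of_nonneg_left h' hδ.le
    have e2 : δ * ((q.2 : ℝ) + 1 / 2) = δ * q.2 + δ / 2 := by ring
    have e3 : z.im ≤ p.im := by
      rcases h2 with h2 | h2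
      · exact h2.1
      · linarith [h2.1]
    have := hz w hw
    have e4 : |z.im - w.im| ≤ ρ := by
      rw [abs_le]
      constructor <;> linarith
    exact absurd (max_le c1 e4) (not_le.2 this)
  · have hw' : (⟨w.re, z.im⟩ : ℂ) ∈ Pg δ F := by
      refine mem_pg.2 ⟨q2, hF, b1, b2, ?_, ?_⟩
      · rw [h]; exact a3
      · rw [h]; exact a4
    have := hz _ hw'
    simp only [sub_self, abs_zero] at this
    exact absurd (max_le c1 hr) (not_le.2 this)
  · have h' : (q.2 : ℝ) + 1 ≤ q2.2 := by exact_mod_cast h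
    have e1 : δ * ((q.2 : ℝ) + 1) ≤ δ * q2.2 := mul_le_mul_of_nonneg_left h' hδ.le
    have e2 : δ * ((q.2 : ℝ) + 1 / 2) = δ * (q.2 + 1) - δ / 2 := by ring
    have e3 : p.im ≤ z.im := by
      rcases h2 with h2 | h2
      · linarith [h2.2]
      · exact h2.2
    have := hz w hw
    have e4 : |z.im - w.im| ≤ ρ := by
      rw [abs_le]
      constructor <;> linarith
    exact absurd (max_le c1 e4) (not_le.2 this)

/-- horizontal moves towards the middle line of the cell stay in `Far` -/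
theorem far_horiz (hr : 0 ≤ ρ) (hd : 2 * ρ < δ) {z p : ℂ} {q : V} (hz : z ∈ Far δ ρ F)
    (hq : z ∈ sq δ q) (h1 : p.im = z.im)
    (h2 : (z.re ≤ p.re ∧ p.re ≤ δ * (q.1 + 1 / 2)) ∨ (δ * (q.1 + 1 / 2) ≤ p.re ∧ p.re ≤ z.re)) :
    p ∈ Far δ ρ F := by
  have hδ : 0 < δ := by linarith
  obtain ⟨a1, a2, a3, a4⟩ := hq
  intro w hw
  by_contra hcon
  push Not at hcon
  obtain ⟨q2, hF, b1, b2, b3, b4⟩ := mem_pg.1 hw
  have c1 : |p.re - w.re| ≤ ρ := (le_max_left _ _).trans hcon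
  have c2 : |p.im - w.im| ≤ ρ := (le_max_right _ _).trans hcon
  rw [h1] at c2
  obtain ⟨c3, c4⟩ := abs_le.1 c1
  rcases lt_trichotomy q2.1 q.1 with h | h | h
  · have h' : (q2.1 : ℝ) + 1 ≤ q.1 := by exact_mod_cast h
    have e1 : δ * ((q2.1 : ℝ) + 1) ≤ δ * q.1 := mul_le_mul_of_nonneg_left h' hδ.le
    have e2 : δ * ((q.1 : ℝ) + 1 / 2) = δ * q.1 + δ / 2 := by ring
    have e3 : z.re ≤ p.re := by
      rcases h2 with h2 | h2
      · exact h2.1
      · linarith [h2.1]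
    have := hz w hw
    have e4 : |z.re - w.re| ≤ ρ := by
      rw [abs_le]
      constructor <;> linarith
    exact absurd (max_le e4 c2) (not_le.2 this)
  · have hw' : (⟨z.re, w.im⟩ : ℂ) ∈ Pg δ F := by
      refine mem_pg.2 ⟨q2, hF, ?_, ?_, b3, b4⟩
      · rw [h]; exact a1
      · rw [h]; exact a2
    have := hz _ hw'
    simp only [sub_self, abs_zero] at this
    exact absurd (max_le hr c2) (not_le.2 this)
  · have h' : (q.1 : ℝ) + 1 ≤ q2.1 := by exact_mod_cast h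
    have e1 : δ * ((q.1 : ℝ) + 1) ≤ δ * q2.1 := mul_le_mul_of_nonneg_left h' hδ.le
    have e2 : δ * ((q.1 : ℝ) + 1 / 2) = δ * (q.1 + 1) - δ / 2 := by ring
    have e3 : p.re ≤ z.re := by
      rcases h2 with h2 | h2
      · linarith [h2.2]
      · exact h2.2
    have := hz w hw
    have e4 : |z.re - w.re| ≤ ρ := by
      rw [abs_le]
      constructor <;> linarith
    exact absurd (max_le e4 c2) (not_le.2 this)

/-- centre of a cell -/
def ctr (δ : ℝ) (q : V) : ℂ := ⟨δ * (q.1 + 1 / 2), δ * (q.2 + 1 / 2)⟩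

theorem ctr_mem (hδ : 0 ≤ δ) (q : V) : ctr δ q ∈ sq δ q := by
  refine ⟨?_, ?_, ?_, ?_⟩ <;>
    · simp only [ctr]
      nlinarith

/-- points of a segment with constant real or imaginary part are between the ends -/
theorem seg_re {a b p : ℂ} (hp : p ∈ segment ℝ a b) : p.re ∈ segment ℝ a.re b.re := by
  obtain ⟨s, t, hs, ht, hst, rfl⟩ := hp
  exact ⟨s, t, hs, ht, hst, by simp⟩

theorem seg_im {a b p : ℂ} (hp : p ∈ segment ℝ a b) : p.im ∈ segment ℝ a.im b.im := by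
  obtain ⟨s, t, hs, ht, hst, rfl⟩ := hp
  exact ⟨s, t, hs, ht, hst, by simp⟩

theorem real_seg {a b p : ℝ} (hp : p ∈ segment ℝ a b) : (a ≤ p ∧ p ≤ b) ∨ (b ≤ p ∧ p ≤ a) := by
  rw [segment_eq_uIcc, Set.mem_uIcc] at hp
  exact hp

theorem real_seg_self {a p : ℝ} (hp : p ∈ segment ℝ a a) : p = a := by
  rw [segment_same] at hp
  exact hp

/-- the point and the centre of its cell -/
theorem far_ctr (hr : 0 ≤ ρ) (hd : 2 * ρ < δ) {z : ℂ} {q : V} (hz : z ∈ Far δ ρ F)
    (hq : z ∈ sq δ q) : JoinedIn (Far δ ρ F) z (ctr δ q) := by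
  have hδ : 0 < δ := by linarith
  have h1 : ∀ p ∈ segment ℝ z (⟨z.re, δ * (q.2 + 1 / 2)⟩ : ℂ), p ∈ Far δ ρ F := by
    intro p hp
    have e0 := seg_re hp
    have e1 : p.re = z.re := real_seg_self e0
    exact far_vert hr hd hz hq e1 (real_seg (seg_im hp))
  have hz' := h1 _ (right_mem_segment ℝ _ _)
  have hq' : (⟨z.re, δ * (q.2 + 1 / 2)⟩ : ℂ) ∈ sq δ q := by
    obtain ⟨a1, a2, a3, a4⟩ := hq
    refine ⟨a1, a2, ?_, ?_⟩ <;>
      · simp only
        nlinarith
  have h2 : ∀ p ∈ segment ℝ (⟨z.re, δ * (q.2 + 1 / 2)⟩ : ℂ) (ctr δ q), p ∈ Far δ ρ F := by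
    intro p hp
    have e0 := seg_im hp
    have e1 : p.im = δ * (q.2 + 1 / 2) := real_seg_self e0
    exact far_horiz hr hd hz' hq' e1 (real_seg (seg_re hp))
  exact (JoinedIn.of_segment_subset h1).trans (JoinedIn.of_segment_subset h2)

/-- the centres of the cells outside `F` are in `Far`, and the whole segment between the centres of
two adjacent ones -/
theorem far_adj (hd : 2 * ρ < δ) (hδ : 0 < δ) {q q' : V} (hq : q ∉ F) (hq' : q' ∉ F)
    (ha : q' = q ∨ Adj q q') {p : ℂ} (hp : p ∈ segment ℝ (ctr δ q) (ctr δ q')) :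
    p ∈ Far δ ρ F := by
  have hre := real_seg (seg_re hp)
  have him := real_seg (seg_im hp)
  simp only [ctr] at hre him
  intro w hw
  obtain ⟨q2, hF, b1, b2, b3, b4⟩ := mem_pg.1 hw
  have n1 : q2 ≠ q := fun h => hq (h ▸ hF)
  have n2 : q2 ≠ q' := fun h => hq' (h ▸ hF)
  -- separation in one coordinate
  have key : ∀ (x y : ℝ) (m n k l : ℤ), ((δ * ((m : ℝ) + 1 / 2) ≤ x ∧ x ≤ δ * ((n : ℝ) + 1 / 2)) ∨
      (δ * ((n : ℝ) + 1 / 2) ≤ x ∧ x ≤ δ * ((m : ℝ) + 1 / 2))) → δ * (k : ℝ) ≤ y →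
      y ≤ δ * ((k : ℝ) + 1) → ((k < m ∧ k < n) ∨ (m < k ∧ n < k)) → ρ < |x - y| := by
    intro x y m n k l hx h1 h2 hk
    rcases hk with ⟨k1, k2⟩ | ⟨k1, k2⟩
    · have e1 : (k : ℝ) + 1 ≤ m := by exact_mod_cast k1
      have e2 : (k : ℝ) + 1 ≤ n := by exact_mod_cast k2
      have g1 := mul_le_mul_of_nonneg_left e1 hδ.le
      have g2 := mul_le_mul_of_nonneg_left e2 hδ.le
      refine lt_of_lt_of_le ?_ (le_abs_self _)
      rcases hx with hx | hx
      · have : δ * ((m : ℝ) + 1 / 2) = δ * m + δ / 2 := by ring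
        linarith [hx.1]
      · have : δ * ((n : ℝ) + 1 / 2) = δ * n + δ / 2 := by ring
        linarith [hx.1]
    · have e1 : (m : ℝ) + 1 ≤ k := by exact_mod_cast k1
      have e2 : (n : ℝ) + 1 ≤ k := by exact_mod_cast k2
      have g1 := mul_le_mul_of_nonneg_left e1 hδ.le
      have g2 := mul_le_mul_of_nonneg_left e2 hδ.le
      refine lt_of_lt_of_le ?_ (neg_le_abs _)
      rcases hx with hx | hx
      · have : δ * ((n : ℝ) + 1 / 2) = δ * (n + 1) - δ / 2 := by ring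
        linarith [hx.2]
      · have : δ * ((m : ℝ) + 1 / 2) = δ * (m + 1) - δ / 2 := by ring
        linarith [hx.2]
  rcases q with ⟨a, c⟩
  rcases q' with ⟨a', c'⟩
  rcases q2 with ⟨a2, c2⟩
  simp only [ne_eq, Prod.mk.injEq, not_and] at n1 n2
  simp only [Prod.mk.injEq, Adj] at ha
  simp only at hre him b1 b2 b3 b4
  by_cases hx : (a2 < a ∧ a2 < a') ∨ (a < a2 ∧ a' < a2)
  · exact lt_of_lt_of_le (key p.re w.re a a' a2 0 hre b1 b2 hx) (le_max_left _ _)
  · by_cases hy : (c2 < c ∧ c2 < c') ∨ (c < c2 ∧ c' < c2)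
    · exact lt_of_lt_of_le (key p.im w.im c c' c2 0 him b3 b4 hy) (le_max_right _ _)
    · exfalso
      have : (a2 = a ∧ c2 = c) ∨ (a2 = a' ∧ c2 = c') := by omega
      rcases this with h | h
      · exact n1 h.1 h.2
      · exact n2 h.1 h.2

theorem ctr_far (hd : 2 * ρ < δ) (hδ : 0 < δ) {q : V} (hq : q ∉ F) : ctr δ q ∈ Far δ ρ F :=
  far_adj hd hδ hq hq (Or.inl rfl) (left_mem_segment ℝ _ _)

theorem ctr_joined (hd : 2 * ρ < δ) (hδ : 0 < δ) {q q' : V} (hq : q ∉ F) (h : Con Fᶜ q q') :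
    JoinedIn (Far δ ρ F) (ctr δ q) (ctr δ q') := by
  induction h with
  | refl => exact JoinedIn.refl (ctr_far hd hδ hq)
  | @tail b c h1 h2 ih =>
    have hb : b ∉ F := Con.mem h1 hq
    exact ih.trans (JoinedIn.of_segment_subset fun p hp =>
      far_adj hd hδ hb h2.2 (Or.inr h2.1) hp)

/-! ### (O1) -/

/-- **(O1)** any two points of `Far` are joined in `Far` -/
theorem far_joined (hF : ∀ q ∉ F, ∀ q' ∉ F, Con Fᶜ q q') (hr : 0 ≤ ρ) (hd : 2 * ρ < δ) {z w : ℂ}
    (hz : z ∈ Far δ ρ F) (hw : w ∈ Far δ ρ F) : JoinedIn (Far δ ρ F) z w := by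
  have hδ : 0 < δ := by linarith
  have h1 := mem_cellOf hδ z
  have h2 := mem_cellOf hδ w
  have n1 := cell_notMem hr hz h1
  have n2 := cell_notMem hr hw h2
  exact ((far_ctr hr hd hz h1).trans (ctr_joined hd hδ n1 (hF _ n1 _ n2))).trans
    (far_ctr hr hd hw h2).symm

/-- **(O1)** `Far` is preconnected -/
theorem far_preconn (hF : ∀ q ∉ F, ∀ q' ∉ F, Con Fᶜ q q') (hr : 0 ≤ ρ) (hd : 2 * ρ < δ) :
    IsPreconnected (Far δ ρ F) := by
  rcases (Far δ ρ F).eq_empty_or_nonempty with h | ⟨z, hz⟩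
  · rw [h]; exact isPreconnected_empty
  · have : IsPathConnected (Far δ ρ F) := ⟨z, hz, fun {_} hw => far_joined hF hr hd hz hw⟩
    exact this.isConnected.isPreconnected

/-- the complement of the polygon is preconnected -/
theorem compl_preconn (hF : ∀ q ∉ F, ∀ q' ∉ F, Con Fᶜ q q') (hδ : 0 < δ) :
    IsPreconnected (Pg δ F)ᶜ := by
  rw [← far_zero]
  exact far_preconn hF le_rfl (by linarith)

/-! ### `F` finite: far points -/

theorem pg_bdd (hf : F.Finite) (hδ : 0 ≤ δ) : ∃ M : ℝ, 0 < M ∧ ∀ w ∈ Pg δ F, |w.re| ≤ M ∧ |w.im| ≤ M := by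
  obtain ⟨M, hM⟩ := exists_box hf
  refine ⟨δ * (|(M : ℝ)| + 1) + 1, by positivity, fun w hw => ?_⟩
  obtain ⟨q, hq, b1, b2, b3, b4⟩ := mem_pg.1 hw
  obtain ⟨h1, h2⟩ := hM q hq
  have h1' : |(q.1 : ℝ)| ≤ |(M : ℝ)| := (by exact_mod_cast h1 : |(q.1 : ℝ)| ≤ M).trans (le_abs_self _)
  have h2' : |(q.2 : ℝ)| ≤ |(M : ℝ)| := (by exact_mod_cast h2 : |(q.2 : ℝ)| ≤ M).trans (le_abs_self _)
  obtain ⟨e1, e2⟩ := abs_le.1 h1'
  obtain ⟨e3, e4⟩ := abs_le.1 h2'
  constructor
  · rw [abs_le]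
    constructor <;> nlinarith
  · rw [abs_le]
    constructor <;> nlinarith



/-! ### (O2) -/


/-! ### (O4) -/



/-- points at distance more than `2 ρ` from the polygon (Euclidean) are in `Far` -/
theorem far_of_dist {z : ℂ} (h : ∀ w ∈ Pg δ F, 2 * ρ < ‖z - w‖) : z ∈ Far δ ρ F := by
  intro w hw
  by_contra hcon
  push Not at hcon
  have c1 : |z.re - w.re| ≤ ρ := (le_max_left _ _).trans hcon
  have c2 : |z.im - w.im| ≤ ρ := (le_max_right _ _).trans hcon
  have := Complex.norm_le_abs_re_add_abs_im (z - w)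
  rw [Complex.sub_re, Complex.sub_im] at this
  linarith [h w hw]

/-- points of `Far` are at Euclidean distance `> ρ` from the polygon -/
theorem dist_of_far {z w : ℂ} (hz : z ∈ Far δ ρ F) (hw : w ∈ Pg δ F) : ρ < ‖z - w‖ := by
  have h1 := Complex.abs_re_le_norm (z - w)
  have h2 := Complex.abs_im_le_norm (z - w)
  rw [Complex.sub_re] at h1
  rw [Complex.sub_im] at h2
  exact lt_of_lt_of_le (hz w hw) (max_le h1 h2)

/-! ### (O3) -/

variable {S : Finset ℂ}


/-- a preconnected part `C` -/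
theorem pth_conn (gp : GP (S : Set ℂ)) (h3 : 3 ≤ S.card) {C : Set ℂ} (hC : IsPreconnected C)
    {a b : ℂ} (ha : a ∈ S) (hb : b ∈ S) (h1 : (C ∩ voronoiCell (S : Set ℂ) a).Nonempty)
    (h2 : (C ∩ voronoiCell (S : Set ℂ) b).Nonempty) :
    Pth S {v | v ∈ S ∧ (C ∩ voronoiCell (S : Set ℂ) v).Nonempty} a b := by
  obtain ⟨z1, g1⟩ := h1
  obtain ⟨z2, g2⟩ := h2
  exact REwx838.pth_of_set gp h3 hC ha hb g1 g2 fun s hs h => ⟨hs, h⟩






end Crest.Agent.R143.OutCx571
end
namespace Crest.Agent.R143.OutCx571.Far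
end Crest.Agent.R143.OutCx571.Far
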