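import Crest.Agent.R143.R10U_930
import Crest.Agent.R143.RigZ_609
import Crest.Agent.R143.RigN_377

/-!
# Row 143 (S0194), RIG: R10 for the objects of the last layer (helper930)

`S = SU u ε ω`, `h = hN N`, `d = √ε`, layout `ly u N`, white label `w`.

* `ks : Ks` : the absolute constants `C c c1 c2 K` of `r10u` (= 377's `C0 c0 c1 c2 K0`, by `rfl`)
* **`EnvR u N ε ω`** : entry of 133's list of environments, `CorEnv u ε √ε K (c2 h / D) D ω`,
  `D = Du u K`; `neg_envR`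
* **`NumR u N ε`** : the numbers; `ev_num` : true for large `N`, small `ε`
* **`UKR u w N ε ω A`** : 923's `UKin` for the classes `A` at the label `w`; `ukr_of` : at the numbers
  of 568 and 571
* **`con`** : `Vin ⊆ ff` and `Con`; **`plr_C`** : (6), the hypothesis `hC` of 654's `quenI`, `η = √h`,
  `θ0 = thC u N`; **`plr_pr`** : `hp` of 139's `theta_poly`; **`plr_prW`** : window form, for 737;
  **`plr_con`** : `con` of 840's `dispZ`; `plr_uq` : `uq` of 840's `disp_in`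
* `numR_of`, **`con377`**, **`cpl377`** : the same with 377's names (597's `Sx.near`, `quen_u`; 609's
  `InnP`)
* `env_hol`, `env_pts`, `env_norm` : the hypotheses `hd`, `hP`, `hbS` (`b = RU u`)
* `th_tendsto`, `thC_tendsto`, **`a2R_t3`**, `a2R_nonneg` : the limits
-/

set_option autoImplicit false

noncomputable section

open scoped Classical ENNReal

namespace Crest.Agent.R143.PlRx930

open MeasureTheory Set Filter Topology
open Crest.ProbabilityR.Voronoi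
open Crest.Agent.R143.Harx315 (pr)
open Crest.Agent.R143.K33x877
open Crest.Agent.R143.NetUx346 Crest.Agent.R143.NetVx346
open Crest.Agent.R143.PolyUx346
open Crest.Agent.R143.Locx922 (Hol)
open Crest.Agent.R143.LocUx700 (deep deep_sub)
open Crest.Agent.R143.IndLoc3x279 (clr)
open Crest.Agent.R143.TlAx58 (Sw Vw Bw)
open Crest.Agent.R143.Eddx798 (fU)
open Crest.Agent.R143.CorEx133
open Crest.Agent.R143.R10Nx930
open Crest.Agent.R143.R10Px923 (UKin Nw Cpl)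
open Crest.Agent.R143.R10Ux930
open Crest.Agent.R143.RigPx854
open Crest.Agent.R143.RigZdx609
open Crest.Agent.R143.PolyEx854 (T3)
open Crest.Agent.R143.BadGx204 (Neg)

/-! ### the constants -/

/-- the absolute constants of `r10u` -/
structure Ks where
  C : ℝ
  c : ℝ
  c1 : ℝ
  c2 : ℝ
  K : ℝ
  hC : 1 ≤ C
  hc : 0 < c
  hc1 : 0 < c1
  hc1' : c1 ≤ 1
  hc2 : 0 < c2
  hK : 2 ≤ K
  H : ∀ (u : Poly) (ε h c2c ρ0 : ℝ) (ω : Sample), 0 < h → 100 * h ≤ Du u K → ρ0 ≤ Du u K →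
    c2c * Du u K ≤ c2 * h → √ε ≤ c1 * h → 5000 * √ε ≤ h → CorEnv u ε √ε K c2c ρ0 ω →
    ∀ (m M : ℕ) (p W : ℤ → ℤ × ℤ) (Ai e : ℤ → ℤ), LayUx416.LayU u m M p W Ai e →
    (m : ℝ) * h = u.s → ∀ (A : ZMod 3 → Set ℂ) (o : ℂ × ℂ × ℂ) (i : ZMod 3)
      (A1 B1 w a0 a1 b0 b1 m' : ℝ), A1 ≤ B1 → B1 < h → Nw h √ε w a0 a1 b0 b1 m' →
    UKin (SU u ε ω) A o i u.P h A1 B1 w a0 a1 b0 b1 m' W Ai e →
    Vin (SU u ε ω) u.P √ε ⊆ ff (SU u ε ω) A ∧ ∀ Wd : Set ℂ, u.P ⊆ Wd → Con C c K u ε h ω A Wd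

open Crest.Agent.R143.RigNx377 in
/-- the constants: 377's `C0 c0 c1 c2 K0` -/
abbrev ks : Ks := ⟨C0, c0, c1, c2, K0, r10s.1, r10s.2.1, r10s.2.2.1, r10s.2.2.2.1, r10s.2.2.2.2.1,
  r10s.2.2.2.2.2.1, r10s.2.2.2.2.2.2⟩




/-! ### environment and numbers -/

/-- **the environment of R10**: an entry of the list of 133 -/
def EnvR (u : Poly) (N : ℕ) (ε : ℝ) (ω : Sample) : Prop :=
  CorEnv u ε √ε ks.K (ks.c2 * hN N / Du u ks.K) (Du u ks.K) ω



/-- **the numbers of R10** -/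
structure NumR (u : Poly) (N : ℕ) (ε : ℝ) : Prop where
  hD : 100 * hN N ≤ Du u ks.K
  d1 : √ε ≤ ks.c1 * hN N
  d2 : 5000 * √ε ≤ hN N
  h3 : 16 * hN N ≤ √(hN N)
  h4 : √(hN N) ≤ Du u ks.K



/-! ### the open hypothesis -/

/-- **923's `UKin`** for the classes `A` at the white label `w` -/
def UKR (u : Poly) (w : ZMod 3) (N : ℕ) (ε : ℝ) (ω : Sample) (A : ZMod 3 → Set ℂ) : Prop :=
  ∃ (o : ℂ × ℂ × ℂ) (A1 B1 w0 a0 a1 b0 b1 m' : ℝ), A1 ≤ B1 ∧ B1 < hN N ∧
    Nw (hN N) √ε w0 a0 a1 b0 b1 m' ∧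
    UKin (SU u ε ω) A o w u.P (hN N) A1 B1 w0 a0 a1 b0 b1 m' (ly u N).W (ly u N).A (ly u N).e

variable {u : Poly} {N : ℕ} {ε : ℝ} {ω : Sample} {w : ZMod 3} {A : ZMod 3 → Set ℂ}

/-- the numbers of 568 -/
theorem nw_et (he : 0 < ε) (hd : 5000 * √ε ≤ hN N) {w0 : ℝ} (h1 : 2 * et N ≤ w0)
    (h2 : w0 ≤ 50 * et N) :
    Nw (hN N) √ε w0 (-et N) (et N) (-(9 * et N)) (10 * et N) (et N) := by
  have h3 := et_h N
  have h4 := et_pos N
  have h5 : 0 < √ε := Real.sqrt_pos.2 he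
  exact ⟨h5, by linarith, by linarith, by linarith, by linarith, by linarith, by linarith, h4.le⟩

/-- `UKin` at the numbers of 568 and 571 -/
theorem ukr_of (he : 0 < ε) (hd : 5000 * √ε ≤ hN N) {o : ℂ × ℂ × ℂ} {w0 : ℝ}
    (h1 : 2 * et N ≤ w0) (h2 : w0 ≤ 50 * et N)
    (h : UKin (SU u ε ω) A o w u.P (hN N) (19 / 2 * et N) (103 / 2 * et N) w0 (-et N) (et N)
      (-(9 * et N)) (10 * et N) (et N) (ly u N).W (ly u N).A (ly u N).e) : UKR u w N ε ω A := by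
  have h3 := et_h N
  have h4 := et_pos N
  exact ⟨o, _, _, _, _, _, _, _, _, by linarith, by linarith, nw_et he hd h1 h2, h⟩

/-- `UKin` at `h = 100 η` -/
theorem ukr_of' (he : 0 < ε) (hd : 5000 * √ε ≤ hN N) {o : ℂ × ℂ × ℂ} {w0 : ℝ}
    (h1 : 2 * et N ≤ w0) (h2 : w0 ≤ 50 * et N)
    (h : UKin (SU u ε ω) A o w u.P (100 * et N) (19 / 2 * et N) (103 / 2 * et N) w0 (-et N) (et N)
      (-(9 * et N)) (10 * et N) (et N) (ly u N).W (ly u N).A (ly u N).e) : UKR u w N ε ω A := by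
  rw [et_h] at h
  exact ukr_of he hd h1 h2 h

/-! ### R10 -/





section fields

variable (hn : u.n + 4 ≤ N) (hE : EnvR u N ε ω) (hM : NumR u N ε)
include hn hE hM




variable {g : Set (ℂ × Bool) → ℝ} {Ac : Finset ℂ → ZMod 3 → Set ℂ}



end fields

/-! ### with 377's names -/




/-! ### the other hypotheses of one environment -/





/-! ### limits -/













end Crest.Agent.R143.PlRx930
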