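import Crest.Agent.R143.PW_978
import Crest.Agent.R143.Mass5_302
import Crest.Agent.R143.FinM2_609

/-!
# Row 143 (S0194), box R6, model half (helper176): tiles split in space

* `mom_sq` : `E ∑ (circumradius)²` over the empty circumdiscs contained in a square of side `s ≥ ε`
  is at most `C s²`, every `ε`, every square
* `Ht D d X t`, `Hd D d X` : Delaunay triangles with centre in `D` and circumradius at most `d`; the
  sum of the squares of their circumradii. `Hd_local`, `Hd_meas`, `Hd_mean`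
* on 978's `Net` : window `I₁`, `J₁` (`J₁` contains all the tubes which see a gate of `I₁`),
  `win` = product of its weights (not normalised), `g_off = gw (I \ I₁) (J \ J₁)` :
  `gw_off` : `g ≤ g_off win`;  `mass_off` : `c^#J₁ ∏ E a_i · E[g_off] = E[g]`;
  `window`, `tile` : if `E[g_off (win X)] ≤ K E[g_off Hd]`, then
  `c^#J₁ ∏ E a_i · E[g X] ≤ K C s² E[g]` (`X` any function on the sample).
-/

set_option autoImplicit false

noncomputable section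

namespace Crest.Agent.R143.TilePx176

open MeasureTheory Set Filter Topology
open Crest.ProbabilityR.Voronoi
open Crest.Agent.R143.PP0x831 Crest.Agent.R143.Poisx304 Crest.Agent.R143.Janx304
open Crest.Agent.R143.IndLocx279 Crest.Agent.R143.PWx978
open Crest.Agent.R143.B0x346 Crest.Agent.R143.SumScx302 Crest.Agent.R143.Mass1x302
  Crest.Agent.R143.Momx810
open Crest.Agent.R143.FinMx609 (cen3 rad3 meas_cen3 meas_rad3 del_iff cen3_iff PIso fme_sum)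
open Crest.Agent.R143.Prodx609 (FMe)
open scoped ENNReal

/-! ## second moment of the circumradii, all scales -/

theorem cw_mono {P U U' : Set ℂ} (h : U ⊆ U') (t : T3) : cw P U t ≤ cw P U' t := by
  unfold cw
  refine iSup₂_le fun o ho => ?_
  exact le_iSup₂_of_le o ⟨ho.1, ho.2.trans h⟩ le_rfl

theorem cw_map {e : ℂ ≃ ℂ} {k : ℝ} (hk : 0 < k) (hn : ∀ u v, ‖e u - e v‖ = k * ‖u - v‖)
    (P U : Set ℂ) (t : T3) :
    cw (e '' P) (e '' U) (mt e t) ≤ ENNReal.ofReal (k ^ 2) * cw P U t := by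
  unfold cw
  refine iSup₂_le fun o' ho' => ?_
  obtain ⟨h, hU⟩ := ho'
  obtain ⟨o, rfl⟩ : ∃ o, o' = e o := ⟨e.symm o', (e.apply_symm_apply o').symm⟩
  have mem : ∀ {x : ℂ}, e x ∈ e '' P → x ∈ P := fun {x} hx => by
    obtain ⟨y, hy, hxy⟩ := hx
    exact e.injective hxy ▸ hy
  have hC : Circ P t o := by
    refine ⟨mem h.m1, mem h.m2, mem h.m3, ?_, ?_, fun s hs => ?_⟩
    · have h2 := h.e2
      change ‖e t.2.1 - e o‖ = ‖e t.1 - e o‖ at h2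
      rw [hn, hn] at h2
      exact mul_left_cancel₀ hk.ne' h2
    · have h2 := h.e3
      change ‖e t.2.2 - e o‖ = ‖e t.1 - e o‖ at h2
      rw [hn, hn] at h2
      exact mul_left_cancel₀ hk.ne' h2
    · have h2 := h.emp (e s) ⟨s, hs, rfl⟩
      change ‖e t.1 - e o‖ ≤ ‖e s - e o‖ at h2
      rw [hn, hn] at h2
      exact le_of_mul_le_mul_left h2 hk
  have hB : Metric.closedBall o ‖t.1 - o‖ ⊆ U := by
    intro x hx
    have h2 : e x ∈ e '' U := by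
      refine hU ?_
      rw [Metric.mem_closedBall, dist_eq_norm] at hx ⊢
      change ‖e x - e o‖ ≤ ‖e t.1 - e o‖
      rw [hn, hn]
      exact mul_le_mul_of_nonneg_left hx hk.le
    obtain ⟨y, hy, hxy⟩ := h2
    exact e.injective hxy ▸ hy
  have e1 : ‖(mt e t).1 - e o‖ = k * ‖t.1 - o‖ := hn _ _
  rw [e1, mul_pow, ENNReal.ofReal_mul (by positivity)]
  gcongr
  exact le_cw hC hB

theorem sum_cw_map {e : ℂ ≃ ℂ} {k : ℝ} (hk : 0 < k) (hn : ∀ u v, ‖e u - e v‖ = k * ‖u - v‖)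
    (P U : Set ℂ) :
    ∑' t : T3, cw (e '' P) (e '' U) t ≤ ENNReal.ofReal (k ^ 2) * ∑' t : T3, cw P U t := by
  rw [← Equiv.tsum_eq (mt e) fun t => cw (e '' P) (e '' U) t, ← ENNReal.tsum_mul_left]
  exact ENNReal.tsum_le_tsum fun t => cw_map hk hn P U t

/-- mesh `1`, squares at Gaussian integers -/
theorem mom_gi {C : ℝ≥0∞} (hC : ∀ L : ℕ,
    ∫⁻ ω, ∑' t : T3, cw (points 1 ω) (sq 0 (L : ℝ)) t ∂sampleLaw ≤ C * (L : ℝ≥0∞) ^ 2)
    (k : ℤ × ℤ) (L : ℕ) :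
    ∫⁻ ω, ∑' t : T3, cw (Mass1x302.ps (cfg 1 ω)) (sq (gi k) (L : ℝ)) t ∂sampleLaw ≤
      C * (L : ℝ≥0∞) ^ 2 := by
  rw [← stat k fun X => ∑' t : T3, cw (Mass1x302.ps X) (sq (gi k) (L : ℝ)) t]
  refine le_trans (lintegral_mono fun ω => ?_) (hC L)
  have h1 : sq (gi k) (L : ℝ) = eT (gi k) '' sq 0 (L : ℝ) := by
    have h2 := sq_tr 0 (gi k) (L : ℝ)
    rw [zero_add] at h2
    rw [← h2]
    rfl
  have h3 := sum_cw_map (e := eT (gi k)) one_pos (eT_norm (gi k)) (points 1 ω) (sq 0 (L : ℝ))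
  rw [one_pow, ENNReal.ofReal_one, one_mul] at h3
  show ∑' t : T3, cw (Mass1x302.ps (trX (gi k) (cfg 1 ω))) (sq (gi k) (L : ℝ)) t ≤ _
  rw [ps_tr, Mass5x302.ps_cfg, h1]
  exact h3

/-- **second moment of the circumradii**, mesh `ε`, squares of side `s ≥ ε` -/
theorem mom_sq : ∃ C : ℝ≥0∞, C ≠ ∞ ∧ ∀ ε s : ℝ, 0 < ε → ε ≤ s → ∀ z : ℂ,
    ∫⁻ ω, ∑' t : T3, cw (points ε ω) (sq z s) t ∂sampleLaw ≤ C * ENNReal.ofReal (s ^ 2) := by
  obtain ⟨C, hC, h⟩ := mom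
  refine ⟨9 * C, ENNReal.mul_ne_top (by simp) hC, fun ε s hε hs z => ?_⟩
  set k : ℤ × ℤ := (⌊z.re / ε⌋, ⌊z.im / ε⌋) with hk
  set L : ℕ := ⌈s / ε⌉₊ + 1 with hL
  have hs0 : 0 < s := lt_of_lt_of_le hε hs
  have hL1 : s / ε + 1 ≤ (L : ℝ) := by
    rw [hL]; push_cast
    have := Nat.le_ceil (s / ε)
    linarith
  have hL2 : ε * (L : ℝ) ≤ 3 * s := by
    have h1 := (Nat.ceil_lt_add_one (show (0 : ℝ) ≤ s / ε by positivity)).le
    have h2 : (L : ℝ) ≤ s / ε + 2 := by rw [hL]; push_cast; linarith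
    calc ε * (L : ℝ) ≤ ε * (s / ε + 2) := mul_le_mul_of_nonneg_left h2 hε.le
      _ = s + 2 * ε := by field_simp
      _ ≤ 3 * s := by linarith
  have hsub : sq z s ⊆ eS ε hε '' sq (gi k) (L : ℝ) := by
    intro w hw
    obtain ⟨w1, w2, w3, w4⟩ := hw
    refine ⟨(ε⁻¹ : ℝ) * w, ⟨?_, ?_, ?_, ?_⟩, ?_⟩
    · rw [gi_re, Complex.re_ofReal_mul]
      calc ((k.1 : ℤ) : ℝ) ≤ z.re / ε := Int.floor_le _
        _ ≤ ε⁻¹ * w.re := by rw [div_eq_inv_mul]; gcongr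
    · rw [gi_re, Complex.re_ofReal_mul]
      have h1 := Int.lt_floor_add_one (z.re / ε)
      have h2 : ε⁻¹ * w.re < z.re / ε + s / ε := by
        rw [← add_div, div_eq_inv_mul]; gcongr
      have h3 : (k.1 : ℝ) = ⌊z.re / ε⌋ := rfl
      linarith
    · rw [gi_im, Complex.im_ofReal_mul]
      calc ((k.2 : ℤ) : ℝ) ≤ z.im / ε := Int.floor_le _
        _ ≤ ε⁻¹ * w.im := by rw [div_eq_inv_mul]; gcongr
    · rw [gi_im, Complex.im_ofReal_mul]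
      have h1 := Int.lt_floor_add_one (z.im / ε)
      have h2 : ε⁻¹ * w.im < z.im / ε + s / ε := by
        rw [← add_div, div_eq_inv_mul]; gcongr
      have h3 : (k.2 : ℝ) = ⌊z.im / ε⌋ := rfl
      linarith
    · show (ε : ℂ) * ((ε⁻¹ : ℝ) * w) = w
      rw [← mul_assoc, ← Complex.ofReal_mul, mul_inv_cancel₀ hε.ne', Complex.ofReal_one, one_mul]
  have hpt : ∀ ω, points ε ω = eS ε hε '' Mass1x302.ps (cfg 1 ω) := by
    intro ω
    rw [← ps_sc hε, ← cfg_eps, Mass5x302.ps_cfg]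
  calc ∫⁻ ω, ∑' t : T3, cw (points ε ω) (sq z s) t ∂sampleLaw
      ≤ ∫⁻ ω, ENNReal.ofReal (ε ^ 2) *
          ∑' t : T3, cw (Mass1x302.ps (cfg 1 ω)) (sq (gi k) (L : ℝ)) t ∂sampleLaw := by
        refine lintegral_mono fun ω => ?_
        show ∑' t : T3, cw (points ε ω) (sq z s) t ≤ _
        rw [hpt ω]
        exact (ENNReal.tsum_le_tsum fun t => cw_mono hsub t).trans
          (sum_cw_map hε (eS_norm hε) _ _)
    _ = ENNReal.ofReal (ε ^ 2) *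
          ∫⁻ ω, ∑' t : T3, cw (Mass1x302.ps (cfg 1 ω)) (sq (gi k) (L : ℝ)) t ∂sampleLaw :=
        lintegral_const_mul' _ _ ENNReal.ofReal_ne_top
    _ ≤ ENNReal.ofReal (ε ^ 2) * (C * (L : ℝ≥0∞) ^ 2) := by
        gcongr
        exact mom_gi h k L
    _ = C * ENNReal.ofReal ((ε * (L : ℝ)) ^ 2) := by
        rw [mul_pow, ENNReal.ofReal_mul (by positivity), ENNReal.ofReal_pow (by positivity) 2,
          ENNReal.ofReal_pow (by positivity : (0 : ℝ) ≤ (L : ℝ)) 2, ENNReal.ofReal_natCast]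
        ring
    _ ≤ C * ENNReal.ofReal ((3 * s) ^ 2) := by
        gcongr
    _ = 9 * C * ENNReal.ofReal (s ^ 2) := by
        rw [mul_pow, ENNReal.ofReal_mul (by positivity)]
        have : ENNReal.ofReal ((3 : ℝ) ^ 2) = 9 := by norm_num
        rw [this]; ring

/-! ## the local energy -/

/-- Delaunay triangles with centre in `D` and circumradius at most `d` -/
def Ht (D : Set ℂ) (d : ℝ) (X : Set (ℂ × Bool)) (t : T3) : Prop :=
  Del (FinMx609.ps X) t.1 t.2.1 t.2.2 ∧ cen3 t ∈ D ∧ rad3 t ≤ d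

/-- the sum of the squares of their circumradii -/
def Hd (D : Set ℂ) (d : ℝ) (X : Set (ℂ × Bool)) : ℝ≥0∞ :=
  ∑ᶠ (t : T3) (_ : Ht D d X t), ENNReal.ofReal (rad3 t ^ 2)

variable {D W : Set ℂ} {d : ℝ}

theorem Hd_meas (hD : MeasurableSet D) (d : ℝ) : FinMeas (Hd D d) := by
  have hR : ∀ _ : Unit, MeasurableSet {t : T3 | cen3 t ∈ D ∧ rad3 t ≤ d} := fun _ =>
    (meas_cen3 hD).inter (measurableSet_le meas_rad3 measurable_const)
  refine fme_sum (U := fun a : Empty => a.elim) (R := fun (_ : Unit) t => cen3 t ∈ D ∧ rad3 t ≤ d)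
    (fun a => a.elim) hR (P := Ht D d) ?_ ?_ (meas_rad3.pow_const 2).ennreal_ofReal
  · rintro X t ⟨⟨h1, h2, h3, -⟩, -⟩
    exact ⟨h1, h2, h3⟩
  · rintro X X' - - e he x hx y hy w hw ⟨h1, h2⟩
    exact ⟨(he.del x hx y hy w hw).1 h1, (he.rel x hx y hy w hw ()).1 h2⟩

theorem ps_ovr (X : Set (ℂ × Bool)) (B : Set ℂ) :
    FinMx609.ps (X ∩ {p | p.1 ∈ B}) = FinMx609.ps X ∩ B := by
  ext x
  unfold FinMx609.ps
  simp only [mem_image, mem_inter_iff, mem_ofPred_eq]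
  constructor
  · rintro ⟨p, ⟨h1, h2⟩, rfl⟩
    exact ⟨⟨p, h1, rfl⟩, h2⟩
  · rintro ⟨⟨p, h1, rfl⟩, h2⟩
    exact ⟨p, ⟨h1, h2⟩, rfl⟩

theorem Ht_local (hW : ∀ o ∈ D, Metric.closedBall o d ⊆ W) (X : Set (ℂ × Bool)) (t : T3) :
    Ht D d X t ↔ Ht D d (X ∩ {p | p.1 ∈ W}) t := by
  unfold Ht
  rw [ps_ovr]
  refine and_congr_left fun h => ?_
  obtain ⟨h1, h2⟩ := h
  have hW' := hW _ h1
  unfold rad3 at h2
  have hm : ∀ {x : ℂ}, ‖x - cen3 t‖ ≤ d → x ∈ W := fun {x} hx =>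
    hW' (by rw [Metric.mem_closedBall, dist_eq_norm]; exact hx)
  rw [del_iff, del_iff]
  constructor
  · rintro ⟨a, b, c, hc, he⟩
    obtain ⟨e1, e2⟩ := (cen3_iff hc).2 rfl
    have e1' : ‖t.2.1 - cen3 t‖ = ‖t.1 - cen3 t‖ := e1
    have e2' : ‖t.2.2 - cen3 t‖ = ‖t.1 - cen3 t‖ := e2
    exact ⟨⟨a, hm h2⟩, ⟨b, hm (e1'.le.trans h2)⟩, ⟨c, hm (e2'.le.trans h2)⟩, hc,
      fun s hs => he s hs.1⟩
  · rintro ⟨a, b, c, hc, he⟩
    refine ⟨a.1, b.1, c.1, hc, fun s hs => ?_⟩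
    by_cases hsW : s ∈ W
    · exact he s ⟨hs, hsW⟩
    · by_contra hcon
      have h3 : ‖s - cen3 t‖ ≤ ‖t.1 - cen3 t‖ := (not_le.1 hcon).le
      exact hsW (hm (h3.trans h2))

theorem Hd_local (hW : ∀ o ∈ D, Metric.closedBall o d ⊆ W) : LocalOn W (Hd D d) := by
  intro X
  unfold Hd
  refine finsum_congr fun t => ?_
  rw [show Ht D d X t = Ht D d (X ∩ {p | p.1 ∈ W}) t from propext (Ht_local hW X t)]

/-- a `finsum` is at most the `tsum` -/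
theorem finsum_le_tsum' {α : Type*} (f : α → ℝ≥0∞) : ∑ᶠ a, f a ≤ ∑' a, f a := by
  by_cases h : (Function.support f).Finite
  · rw [finsum_eq_sum f h]
    exact ENNReal.sum_le_tsum _
  · rw [finsum_of_infinite_support h]
    exact zero_le

open scoped Classical in
theorem Hd_le {U : Set ℂ} (hU : ∀ o ∈ D, Metric.closedBall o d ⊆ U) (X : Set (ℂ × Bool)) :
    Hd D d X ≤ ∑' t : T3, cw (FinMx609.ps X) U t := by
  unfold Hd
  refine (finsum_le_tsum' _).trans (ENNReal.tsum_le_tsum fun t => ?_)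
  by_cases h : Ht D d X t
  · rw [finsum_eq_if, if_pos h]
    obtain ⟨h0, h1, h2⟩ := h
    obtain ⟨a, b, c, hc, h4⟩ := del_iff.1 h0
    obtain ⟨e1, e2⟩ := (cen3_iff hc).2 rfl
    refine le_cw ⟨a, b, c, e1, e2, h4⟩ ?_
    exact (Metric.closedBall_subset_closedBall h2).trans (hU _ h1)
  · rw [finsum_eq_if, if_neg h]
    exact zero_le

/-- **mean of the local energy** -/
theorem Hd_mean : ∃ C : ℝ≥0∞, C ≠ ∞ ∧ ∀ ε s : ℝ, 0 < ε → ε ≤ s → ∀ (z : ℂ) (D : Set ℂ) (d : ℝ),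
    (∀ o ∈ D, Metric.closedBall o d ⊆ sq z s) →
    ∫⁻ ω, Hd D d (cfg ε ω) ∂sampleLaw ≤ C * ENNReal.ofReal (s ^ 2) := by
  obtain ⟨C, hC, h⟩ := mom_sq
  refine ⟨C, hC, fun ε s hε hs z D d hD => le_trans (lintegral_mono fun ω => ?_) (h ε s hε hs z)⟩
  have h1 := Hd_le hD (cfg ε ω)
  have h2 : FinMx609.ps (cfg ε ω) = points ε ω := Mass5x302.ps_cfg ε ω
  rwa [h2] at h1

/-! ## the weight off a window -/

section net

variable {ε : ℝ} {ι κ : Type*} (M : Net ε ι κ)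

theorem fac_le_e {k : κ} {S : Cf} (hS : S.Finite) (h : ∀ i ∈ M.N k, M.a i S ≠ 0) :
    M.fac k S ≤ M.e k S := by
  have h1 := M.pos k S hS h
  have h2 : Rs ε (M.C k) (M.e k) S ≠ 0 := fun h => M.c0 (le_zero_iff.1 (h ▸ h1))
  have h3 : Rs ε (M.C k) (M.e k) S ≠ ∞ := ne_top_of_le_ne_top ENNReal.one_ne_top
    (Rs_le M.eps (M.Cb k) (M.e1 k) (M.em k) hS)
  calc M.fac k S ≤ M.e k S * (Rs ε (M.C k) (M.e k) S * (Rs ε (M.C k) (M.e k) S)⁻¹) := by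
        unfold Net.fac
        gcongr
    _ = M.e k S := by rw [ENNReal.mul_inv_cancel h2 h3, mul_one]

variable [DecidableEq ι] [DecidableEq κ] {I I₁ : Finset ι} {J J₁ : Finset κ}

/-- the weight of the window, without normalisation -/
def win (I₁ : Finset ι) (J₁ : Finset κ) (S : Cf) : ℝ≥0∞ := (∏ i ∈ I₁, M.a i S) * ∏ k ∈ J₁, M.e k S

omit [DecidableEq ι] [DecidableEq κ] in
theorem win_le_one (S : Cf) : win M I₁ J₁ S ≤ 1 := by
  unfold win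
  calc (∏ i ∈ I₁, M.a i S) * ∏ k ∈ J₁, M.e k S ≤ 1 * 1 := by
        gcongr
        · exact Finset.prod_le_one' fun i _ => M.a1 i S
        · exact Finset.prod_le_one' fun k _ => M.e1 k S
    _ = 1 := one_mul _

theorem gw_off_fin (hI : I₁ ⊆ I) (hJ : J₁ ⊆ J) (hN : ∀ k ∈ J, M.N k ⊆ I) {S : Cf}
    (hS : S.Finite) : M.gw I J S ≤ M.gw (I \ I₁) (J \ J₁) S * win M I₁ J₁ S := by
  by_cases h0 : ∏ i ∈ I, M.a i S = 0
  · unfold Net.gw; rw [h0, zero_mul]; exact zero_le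
  have h1 : ∀ i ∈ I, M.a i S ≠ 0 := fun i hi h => h0 (Finset.prod_eq_zero hi h)
  have e1 : ∏ i ∈ I, M.a i S = (∏ i ∈ I \ I₁, M.a i S) * ∏ i ∈ I₁, M.a i S :=
    (Finset.prod_sdiff hI).symm
  have e2 : ∏ k ∈ J, M.fac k S = (∏ k ∈ J \ J₁, M.fac k S) * ∏ k ∈ J₁, M.fac k S :=
    (Finset.prod_sdiff hJ).symm
  have h2 : ∏ k ∈ J₁, M.fac k S ≤ ∏ k ∈ J₁, M.e k S :=
    Finset.prod_le_prod' fun k hk => fac_le_e M hS fun i hi => h1 i (hN k (hJ hk) hi)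
  calc M.gw I J S = M.gw (I \ I₁) (J \ J₁) S * ((∏ i ∈ I₁, M.a i S) * ∏ k ∈ J₁, M.fac k S) := by
        unfold Net.gw
        rw [e1, e2]; ring
    _ ≤ _ := by
        unfold win
        gcongr

/-- **the weight is at most the weight off the window times the factors of the window** -/
theorem gw_off (hI : I₁ ⊆ I) (hJ : J₁ ⊆ J) (hN : ∀ k ∈ J, M.N k ⊆ I)
    (hN₁ : ∀ k ∈ J \ J₁, M.N k ⊆ I \ I₁) (ω : Sample) :
    M.gw I J (cfg ε ω) ≤ M.gw (I \ I₁) (J \ J₁) (cfg ε ω) * win M I₁ J₁ (cfg ε ω) := by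
  have h1 := gw_off_fin M hI hJ hN (cfg_finite M.eps (M.reg_bdd I J) ω)
  have h2 := M.gw_local hN (cfg ε ω)
  have h3 : LocalOn (M.reg I J) fun S => M.gw (I \ I₁) (J \ J₁) S * win M I₁ J₁ S := by
    refine LocalOn.mul (LocalOn.mono (M.reg_mono Finset.sdiff_subset Finset.sdiff_subset)
      (M.gw_local hN₁)) (LocalOn.mul ?_ (local_prod' J₁ fun k hk => LocalOn.mono ?_ (M.el k)))
    · exact LocalOn.mono (M.reg_mono hI hJ) (M.a_local (I := I₁) (J := J₁))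
    · exact union_subset_union (biUnion_subset_biUnion_left (hN k (hJ hk)))
        (subset_biUnion_of_mem (u := M.C) (hJ hk))
  rw [h2]
  exact h1.trans_eq (h3 (cfg ε ω)).symm

theorem mass_off (hI : I₁ ⊆ I) (hJ : J₁ ⊆ J) (hN : ∀ k ∈ J, M.N k ⊆ I)
    (hN₁ : ∀ k ∈ J \ J₁, M.N k ⊆ I \ I₁) :
    (M.c ^ J₁.card * ∏ i ∈ I₁, ∫⁻ ω, M.a i (cfg ε ω) ∂sampleLaw) *
        ∫⁻ ω, M.gw (I \ I₁) (J \ J₁) (cfg ε ω) ∂sampleLaw =
      ∫⁻ ω, M.gw I J (cfg ε ω) ∂sampleLaw := by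
  rw [M.mass hN, M.mass hN₁]
  have h1 : J.card = (J \ J₁).card + J₁.card := (Finset.card_sdiff_add_card_eq_card hJ).symm
  have h2 : ∏ i ∈ I, ∫⁻ ω, M.a i (cfg ε ω) ∂sampleLaw =
      (∏ i ∈ I \ I₁, ∫⁻ ω, M.a i (cfg ε ω) ∂sampleLaw) *
        ∏ i ∈ I₁, ∫⁻ ω, M.a i (cfg ε ω) ∂sampleLaw := (Finset.prod_sdiff hI).symm
  rw [h1, h2, pow_add]
  ring

/-- **WINDOW**: from a bound relative to the weight off the window to a bound relative to the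
weight. `X` is any function, `H` lives in `W`, away from the regions off the window. -/
theorem window (hI : I₁ ⊆ I) (hJ : J₁ ⊆ J) (hN : ∀ k ∈ J, M.N k ⊆ I)
    (hN₁ : ∀ k ∈ J \ J₁, M.N k ⊆ I \ I₁) {X : Sample → ℝ≥0∞} {H : Cf → ℝ≥0∞} {W : Set ℂ}
    (hW : MeasurableSet W) (hWb : Bornology.IsBounded W)
    (hd : Disjoint (M.reg (I \ I₁) (J \ J₁)) W) (hHl : LocalOn W H) (hHm : FinMeas H)
    {K : ℝ≥0∞} (hX : ∫⁻ ω, M.gw (I \ I₁) (J \ J₁) (cfg ε ω) *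
        (win M I₁ J₁ (cfg ε ω) * X ω) ∂sampleLaw ≤
      K * ∫⁻ ω, M.gw (I \ I₁) (J \ J₁) (cfg ε ω) * H (cfg ε ω) ∂sampleLaw) :
    (M.c ^ J₁.card * ∏ i ∈ I₁, ∫⁻ ω, M.a i (cfg ε ω) ∂sampleLaw) *
        ∫⁻ ω, M.gw I J (cfg ε ω) * X ω ∂sampleLaw ≤
      K * (∫⁻ ω, H (cfg ε ω) ∂sampleLaw) * ∫⁻ ω, M.gw I J (cfg ε ω) ∂sampleLaw := by
  have h1 : ∫⁻ ω, M.gw I J (cfg ε ω) * X ω ∂sampleLaw ≤
      ∫⁻ ω, M.gw (I \ I₁) (J \ J₁) (cfg ε ω) * (win M I₁ J₁ (cfg ε ω) * X ω) ∂sampleLaw := by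
    refine lintegral_mono fun ω => ?_
    show M.gw I J (cfg ε ω) * X ω ≤ _
    rw [← mul_assoc]
    gcongr
    exact gw_off M hI hJ hN hN₁ ω
  rw [lint_mul M.eps (M.reg_meas _ _) (M.reg_bdd _ _) hW hWb hd (M.gw_local hN₁) hHl
    (M.gw_meas _ _) hHm] at hX
  calc (M.c ^ J₁.card * ∏ i ∈ I₁, ∫⁻ ω, M.a i (cfg ε ω) ∂sampleLaw) *
        ∫⁻ ω, M.gw I J (cfg ε ω) * X ω ∂sampleLaw
      ≤ (M.c ^ J₁.card * ∏ i ∈ I₁, ∫⁻ ω, M.a i (cfg ε ω) ∂sampleLaw) *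
          (K * ((∫⁻ ω, M.gw (I \ I₁) (J \ J₁) (cfg ε ω) ∂sampleLaw) *
            ∫⁻ ω, H (cfg ε ω) ∂sampleLaw)) := by
        gcongr
        exact h1.trans hX
    _ = K * (∫⁻ ω, H (cfg ε ω) ∂sampleLaw) *
          ((M.c ^ J₁.card * ∏ i ∈ I₁, ∫⁻ ω, M.a i (cfg ε ω) ∂sampleLaw) *
            ∫⁻ ω, M.gw (I \ I₁) (J \ J₁) (cfg ε ω) ∂sampleLaw) := by ring
    _ = _ := by rw [mass_off M hI hJ hN hN₁]

end net

/-- **TILE**: one constant for all the tiles of all the nets of all the scales -/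
theorem tile : ∃ C : ℝ≥0∞, C ≠ ∞ ∧ ∀ {ε s : ℝ} {ι κ : Type} [DecidableEq ι] [DecidableEq κ]
    (M : Net ε ι κ) (I I₁ : Finset ι) (J J₁ : Finset κ), ε ≤ s → I₁ ⊆ I → J₁ ⊆ J →
    (∀ k ∈ J, M.N k ⊆ I) → (∀ k ∈ J \ J₁, M.N k ⊆ I \ I₁) →
    ∀ (z : ℂ) (D W : Set ℂ) (d : ℝ), MeasurableSet D → MeasurableSet W → W ⊆ sq z s →
    (∀ o ∈ D, Metric.closedBall o d ⊆ W) → Disjoint (M.reg (I \ I₁) (J \ J₁)) W →
    ∀ (X : Sample → ℝ≥0∞) (K : ℝ≥0∞),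
    ∫⁻ ω, M.gw (I \ I₁) (J \ J₁) (cfg ε ω) * (win M I₁ J₁ (cfg ε ω) * X ω) ∂sampleLaw ≤
      K * ∫⁻ ω, M.gw (I \ I₁) (J \ J₁) (cfg ε ω) * Hd D d (cfg ε ω) ∂sampleLaw →
    (M.c ^ J₁.card * ∏ i ∈ I₁, ∫⁻ ω, M.a i (cfg ε ω) ∂sampleLaw) *
        ∫⁻ ω, M.gw I J (cfg ε ω) * X ω ∂sampleLaw ≤
      K * (C * ENNReal.ofReal (s ^ 2)) * ∫⁻ ω, M.gw I J (cfg ε ω) ∂sampleLaw := by
  obtain ⟨C, hC, h⟩ := Hd_mean
  refine ⟨C, hC, ?_⟩
  intro ε s ι κ _ _ M I I₁ J J₁ hs hI hJ hN hN₁ z D W d hD hW hWs hDW hd X K hX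
  have hb : Bornology.IsBounded (sq z s) := by
    refine (Metric.isBounded_closedBall (x := z) (r := 2 * |s|)).subset ?_
    rintro w ⟨a1, a2, a3, a4⟩
    rw [Metric.mem_closedBall, dist_eq_norm]
    have h1 := Complex.norm_le_abs_re_add_abs_im (w - z)
    have h2 : |(w - z).re| ≤ |s| := by
      rw [Complex.sub_re, abs_of_nonneg (by linarith), abs_of_nonneg (by linarith)]
      linarith
    have h3 : |(w - z).im| ≤ |s| := by
      rw [Complex.sub_im, abs_of_nonneg (by linarith), abs_of_nonneg (by linarith)]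
      linarith
    linarith
  refine (window M hI hJ hN hN₁ hW (hb.subset hWs) hd (Hd_local hDW) (Hd_meas hD d) hX).trans ?_
  gcongr
  exact h ε s M.eps hs z D d fun o ho => (hDW o ho).trans hWs

end Crest.Agent.R143.TilePx176
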