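import Crest.Agent.R143.Har_315
import Crest.Agent.R143.Frame8_395
import Mathlib
import Crest.Agent.R143.Trans2_690
import Crest.Agent.R143.Mass5_302
import Crest.Agent.R143.Bud3_432
import Crest.Agent.R143.SmallA_304
import Crest.Agent.R143.GiantE_197
import Crest.Agent.R143.Eng_490

-- ▼ part R143/Hist_389
section

/-!
# Row 143 (S0194), hedge block H, leaf H2d / counting half of H3 (helper389)

The history of a walker is a stopping set; sums of decided weights against a conditional
probability.

* `DecF V J F` : the function `F` of the colours is decided by the exploration `J`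
* `sum_stop` : strong Markov property for sums; `wt_ge`, `wt_le` : `c * Σ F ≤ Σ_{B} F` (`≥`)
  if the conditional probability of `B` given the exploration is `≥ c` (`≤ c`) wherever `F ≠ 0`
* `tube` : a decreasing event (white tube) which forces `B` with the explored cells recoloured white;
  `glue` : the same without monotonicity (707's form)
* `hist M x B p0 K` : coins of the cells seen by the walker from `p0` up to the first state in `B`
* `stp_hist`, `it_hist`, `tr_hist`, `hist_hist` : the walk depends on these coins only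
* `hist_stop` : explored set of a first exploration followed by a walk
* `fam_ge`, `fam_glue`, `fam_le`, `fam_not` : the sum over start darts (H2d)
-/

set_option autoImplicit false

noncomputable section

open scoped Classical

namespace Crest.Agent.R143.Histx389

open Finset Crest.Agent.R143.Harx315 Crest.Agent.R143.Frame1x395 Crest.Agent.R143.Frame8x395

section abstract

variable {α : Type*} {V : Finset α} {J R : Finset α → Finset α}

/-- `F` is decided by the exploration `J` -/
def DecF {β : Type*} (V : Finset α) (J : Finset α → Finset α) (F : Finset α → β) : Prop :=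
  ∀ b b', b ⊆ V → b' ⊆ V → b ∩ J b = b' ∩ J b → F b = F b'

theorem DecF.comp {β γ : Type*} {F : Finset α → β} (h : DecF V J F) (G : β → γ) :
    DecF V J fun b => G (F b) := fun b b' h1 h2 h3 => congrArg G (h b b' h1 h2 h3)


theorem DecF.self (hJ : IsStop V J) : DecF V J J := fun b b' h1 h2 h3 =>
  (hJ.stop b b' h1 h2 h3).symm


/-- more information -/
theorem DecF.mono {β : Type*} {F : Finset α → β} (h : DecF V J F)
    (hs : ∀ b, b ⊆ V → J b ⊆ R b) : DecF V R F := by
  intro b b' h1 h2 h3
  apply h b b' h1 h2
  have h4 := hs b h1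
  ext y
  have h5 : y ∈ b ∩ R b ↔ y ∈ b' ∩ R b := by rw [h3]
  simp only [mem_inter] at h5 ⊢
  constructor
  · rintro ⟨h6, h7⟩; exact ⟨(h5.1 ⟨h6, h4 h7⟩).1, h7⟩
  · rintro ⟨h6, h7⟩; exact ⟨(h5.2 ⟨h6, h4 h7⟩).1, h7⟩
















end abstract

/-! ### the history of a walker -/

variable {D C : Type} {M : CMap D C} {α : Type*} {V : Finset α}




variable [Fintype D]




variable {χ : Finset α → C → ZMod 2} {K : C → Finset α} {B : Set D} {p0 : D} {b b' : Finset α}









variable {R1 : Finset α → Finset α}








/-- a function of two decided functions -/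
theorem DecF.pair {β γ δ : Type*} {J : Finset α → Finset α} {F : Finset α → β}
    {G : Finset α → γ} (hF : DecF V J F) (hG : DecF V J G) (H : β → γ → δ) :
    DecF V J fun b => H (F b) (G b) := fun b b' h1 h2 h3 => by
  dsimp only
  rw [hF b b' h1 h2 h3, hG b b' h1 h2 h3]

end Crest.Agent.R143.Histx389
end
end

-- ▼ part R143/Fek_705
section

/-!
# Row 143: the sum rule over the scales, abstract form (helper705)

`G L` = expected energy of the blocks closed in a box of side `L` (unit mesh).  If `G` is
superadditive under cutting the box of side `k L` in `k²` boxes, monotone and `G L ≤ C L²`, then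
`G L / L²` converges to its supremum and the energy `G L - k² G (L / k)` of the blocks of the box
of side `L` which are in none of the `k²` subboxes is `o(L²)`.

* `tendsto_div` : `G L / L ^ 2` converges
* `mid_tendsto` : `(G L - k ^ 2 * G (L / k)) / L ^ 2 → 0`
* `mid_eps` : the same at mesh `ε`, `ε → 0⁺`

-/

set_option autoImplicit false

noncomputable section

namespace Crest.Agent.R143.Fekx705

open Filter Topology

/-- hypotheses: only side lengths `≥ 1` (or any threshold `L₀`) matter -/
structure Sup (G : ℝ → ℝ) (L₀ C : ℝ) : Prop where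
  pos : 0 < L₀
  nn : ∀ L, L₀ ≤ L → 0 ≤ G L
  mono : ∀ L L', L₀ ≤ L → L ≤ L' → G L ≤ G L'
  sup : ∀ (k : ℕ) (L : ℝ), 1 ≤ k → L₀ ≤ L → (k : ℝ) ^ 2 * G L ≤ G (k * L)
  bd : ∀ L, L₀ ≤ L → G L ≤ C * L ^ 2

variable {G : ℝ → ℝ} {L₀ C : ℝ}





end Crest.Agent.R143.Fekx705
end
namespace Crest.Agent.R143.Fekx705.Sup
end Crest.Agent.R143.Fekx705.Sup
end

-- ▼ part R143/Trans3_690
section

/-!
# Row 143 (S0194), energy transfer, part 3 (helper690): densities

* `Dens F α` : the mean weight of the objects of `F` in the square `sq z s` tends to `α s²` (mesh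
  `ε → 0`), for all `z`, `s > 0`
* `exists_dens` : every family with `F.a L ≤ C L²` has a density
* `famF` : the family of the Delaunay faces, `famF.Ph U X = Wf (ps X) U`
* `four_ph_le` : `4 Ph U X ≤ Wf (ps X) U`
-/
namespace Crest.Agent.R143.Trans3x690
end Crest.Agent.R143.Trans3x690
end

-- ▼ part R143/HBud_136
section

/-!
# Row 143 (S0194), block H, H4 (c) (helper136): the energy budget in expectation

`B = sq z b` the box, `U = sq (z - s (1 + i)) (b + 2 s)` the box with the ring, `g` a weight of the
sample with values in `[0, 1]`.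
* `LLN F α` : law of large numbers in `L¹` for the weight of a square
* `wf_split` : `Wf (Nk ∩ U) + Wf (B shrunk by k) ≤ Wf U`
* `hbud` : for small `k` and then small `ε`
  `(wD / 4) b² ∫ g ≤ ∫ g E + (aD b² + wD (4 s b + 4 s²) + δ) ∫ g + δ`, if
  `Wf B / 4 ≤ E + Ph B + Wf (Nk ∩ U)` where `g ≠ 0` (= `budget_W` of `Bud3_432`)
* `hbud'` : two error terms
-/

set_option autoImplicit false

noncomputable section

open scoped Classical

namespace Crest.Agent.R143.HBudx136

open MeasureTheory Filter Topology
open Crest.ProbabilityR.Voronoi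
open Crest.Agent.R143.B0x346 Crest.Agent.R143.SumScx302 Crest.Agent.R143.Mass1x302
  Crest.Agent.R143.Mass2x302
  Crest.Agent.R143.PP0x831 Crest.Agent.R143.Trans2x690 Crest.Agent.R143.Trans3x690
  Crest.Agent.R143.Bud3x432
open scoped ENNReal


/-- the box with the ring -/
def Ub (z : ℂ) (b s : ℝ) : Set ℂ := sq (z - ((s : ℝ) : ℂ) * (1 + Complex.I)) (b + 2 * s)











end Crest.Agent.R143.HBudx136
end
end

-- ▼ part R143/HGlue_136
section

/-!
# Row 143 (S0194), block H (helper136): the big closed blocks of the net with the giant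

* `sum_fil` : averages over the configurations of the net with the giant = averages over the colours
* `CHq`, `CLq` : mean energy of the chords / of the big closed blocks; `budget_q`
* `Stg` : one stage of an exploration: the giant contains the revealed cells, the colours of the
  other cells are fair coins
* `glueQ` : `∑ g b * CLq b ≤ ∑ (big blocks of the real configuration)`, `glueE` : `≤ 2 ^ |V| * E`
* `glue` : annealed form
-/

set_option autoImplicit false

noncomputable section

open scoped Classical

namespace Crest.Agent.R143.HGluex136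

open MeasureTheory Filter Topology
open Crest.ProbabilityR.Voronoi
open Crest.Agent.R143.B0x346 Crest.Agent.R143.SumScx302 Crest.Agent.R143.Mass1x302
  Crest.Agent.R143.Mass2x302 Crest.Agent.R143.Mass3x302 Crest.Agent.R143.Mass4x302
  Crest.Agent.R143.Mass5x302
open Crest.Agent.R143.Frame1x395 Crest.Agent.R143.Frame2x395 Crest.Agent.R143.Frame3x395
  Crest.Agent.R143.Frame4x395 Crest.Agent.R143.Frame8x395 Crest.Agent.R143.Frame9x395
  Crest.Agent.R143.Coarsex166 Crest.Agent.R143.Budx432 Crest.Agent.R143.Bud2x432
  Crest.Agent.R143.Bud3x432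
open Crest.Agent.R143.Harx315 Crest.Agent.R143.Histx389
open Crest.Agent.R143.Trans2x690 (Wf)
open Crest.Agent.R143.MassQx304 (Eqd)
open scoped ENNReal

variable {D C C' : Type} {M : CMap D C} {P U : Set ℂ} {δ : ℂ → ℂ → D} {κ : ℂ → C}
variable {π : C → C'} {hπ : ClsCon M π} {o : C'} {x : D → ZMod 2} {a : D → ℂ}

/-! ### configurations of the net with the giant -/

theorem z2 (u : ZMod 2) : u + u = 0 := by revert u; decide








/-! ### the mean energies -/



variable {ι : Type} {J : Finset ι} {Q : ι → Set ℂ} {k : ℝ}


/-! ### fair coins -/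

section coins

variable {α : Type*}




/-- one stage of an exploration: the giant `o` contains the revealed cells, the colours of the other
cells are fair coins, the cells of the giant next to them have the colour `1` -/
structure Stg (P U : Set ℂ) (M : CMap D C) (δ : ℂ → ℂ → D) (V : Finset α)
    (χ : Finset α → C → ZMod 2) (R b : Finset α) (π : C → C') (o : C') : Prop where
  gt : Gt M π o
  fr : FrF P U M π o δ
  fair : ∃ (K0 : C → α) (u : C → ZMod 2), (∀ c, π c ≠ o → K0 c ∈ V \ R) ∧
    (∀ c c', π c ≠ o → π c' ≠ o → K0 c = K0 c' → c = c') ∧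
    ∀ b', b' ⊆ V → ∀ c, π c ≠ o → χ b' c = (if K0 c ∈ b' then 1 else 0) + u c
  rim : ∀ b', b' ⊆ V → b' ∩ R = b ∩ R → Rim M π o (χ b')

variable {V R : Finset α} {χ : Finset α → C → ZMod 2} {b : Finset α}


/-- mean over the fresh coins -/
def av (V R : Finset α) (H : Finset α → ℝ≥0∞) (b : Finset α) : ℝ≥0∞ :=
  ((2 : ℝ≥0∞) ^ (V \ R).card)⁻¹ * ∑ b' ∈ (V \ R).powerset, H (b' ∪ (b ∩ R))





end coins

/-! ### the annealed form -/

open Crest.Agent.R143.PP0x831 Crest.Agent.R143.DelGx806 Crest.Agent.R143.DelRx806
  Crest.Agent.R143.JColx54 Crest.Agent.R143.FinCx811 Crest.Agent.R143.SmallAx304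
  Crest.Agent.R143.Dblx609 Crest.Agent.R143.Dbl2x609 Crest.Agent.R143.MassPx304
  Crest.Agent.R143.Frame10x395













/-! ### the budget with the glue -/



end Crest.Agent.R143.HGluex136
end
namespace Crest.Agent.R143.HGluex136.Stg
end Crest.Agent.R143.HGluex136.Stg
end

-- ▼ part R143/StgI_432

/-!
# Row 143 (S0194), block H (helper432): the instance of [H4] for one giant

`A` the points of a box, `β` the black ones, `R` the revealed ones, `E : Set (Quot (hullE A))` the giant
(197: `Eg (cm0 hS) h0 (Lf (cm0 hS) x p0 N)`), classes `pe E` of `HInst1` on `cm0`, `pc hS E` on `rc0`.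
* `clsCon_pc`, `mE_rc0` : coarse map of `rc0` = coarse map of `cm0`
* `Facts` : the facts about the giant of ONE configuration
* `Facts.stg` : 136's `Stg`
* `lft` : functional of the configuration given by a function of (points, black points)
* `CHf`, `CLf` : mean energy of the chords / of the big closed blocks as functionals
* `pb` : the pointwise budget; `qg` : 136's `Qg`
* `hbudI` : **the budget**; what is left: `Facts` where the weight is not zero, and the majorant of
  the quenched mean of `g * CHf`
* `facts_walk` : `Facts` for 197's giant of a walk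
-/

set_option autoImplicit false

noncomputable section

open scoped Classical

namespace Crest.Agent.R143.StgIx432

open MeasureTheory Filter Topology
open Crest.ProbabilityR.Voronoi
open Crest.Agent.R143.B0x346 Crest.Agent.R143.SumScx302 Crest.Agent.R143.Mass1x302
  Crest.Agent.R143.Mass2x302 Crest.Agent.R143.Mass3x302 Crest.Agent.R143.Mass4x302
  Crest.Agent.R143.Mass5x302 Crest.Agent.R143.DelGx806 Crest.Agent.R143.DelRx806
  Crest.Agent.R143.JColx54
open Crest.Agent.R143.Frame1x395 Crest.Agent.R143.Frame2x395 Crest.Agent.R143.Frame3x395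
  Crest.Agent.R143.Frame4x395 Crest.Agent.R143.Frame8x395 Crest.Agent.R143.Frame9x395
  Crest.Agent.R143.Frame10x395
  Crest.Agent.R143.Coarsex166 Crest.Agent.R143.Budx432 Crest.Agent.R143.Bud2x432
  Crest.Agent.R143.Bud3x432 Crest.Agent.R143.HInst1x432 Crest.Agent.R143.HInst2x432
  Crest.Agent.R143.HGluex136 Crest.Agent.R143.FinCx811 Crest.Agent.R143.SmallAx304
  Crest.Agent.R143.Dblx609 Crest.Agent.R143.Dbl2x609 Crest.Agent.R143.GiantEx197
  Crest.Agent.R143.NonXx592
open Crest.Agent.R143.Frame5x395 (sd mem_sd th th_spec)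
open Crest.Agent.R143.Harx315 (IsStop)
open Crest.Agent.R143.Exitx707 (Nb nb_symm)
open Crest.Agent.R143.Trans2x690 (Wf)
open Crest.Agent.R143.HBudx136 (Ub)
open scoped ENNReal

/-! ### classes on `restr M` -/

section restr

variable {D C C' : Type} {M : CMap D C} {π : C → C'}




end restr

section one

variable {A β R : Finset ℂ} {U Bx P : Set ℂ}


variable {E : Set (Quot (hullE A))}




/-- **facts about the giant of one configuration**: `A` the points, `β` the black ones, `R` the
revealed ones, `U` contains the faces of the fresh sites, `Bx` the box -/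
structure Facts (U Bx : Set ℂ) (A β R : Finset ℂ) (E : Set (Quot (hullE A))) : Prop where
  gp : GP (A : Set ℂ)
  c3 : 3 ≤ A.card
  con : ECon (cm0 gp) E
  out : ∀ v ∈ A, v ∈ U → ¬ OnHull A v
  hull : ∀ v, OnHull A v → (Quot.mk _ v : Quot (hullE A)) ∈ E
  fac : ∀ a b c, (a, b, c) ∈ delT A → (Quot.mk _ a : Quot (hullE A)) ∉ E → cdisc (a, b, c) ⊆ U
  box : ∀ v ∈ A, v ∈ Bx → (Quot.mk _ v : Quot (hullE A)) ∉ E
  rev : ∀ v ∈ A, v ∈ R → (Quot.mk _ v : Quot (hullE A)) ∈ E
  rim : ∀ a b, (a, b) ∈ sd A → (b, a) ∈ sd A → (Quot.mk _ a : Quot (hullE A)) ∉ E →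
    (Quot.mk _ b : Quot (hullE A)) ∈ E → ¬ OnHull A b ∧ b ∈ R ∧ b ∈ β







/-- there is a dart -/
theorem exists_dart (hS : GP (A : Set ℂ)) (h3 : 3 ≤ A.card) : Nonempty (D0 A) := by
  have hne : A.Nonempty := Finset.card_pos.1 (by omega)
  obtain ⟨v, hv⟩ := hne
  obtain ⟨d, -⟩ := cell_mem hS h3 hv
  exact ⟨d⟩





end one

/-! ### functionals of the configuration -/




/-- the giant as a function of the points and the black points -/
abbrev EFam := ∀ A _β : Finset ℂ, Set (Quot (hullE A))







/-- a field with the charges of the faces in `U` -/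
structure Fld (U : Set ℂ) (a : ∀ A : Finset ℂ, D0 A → ℂ) : Prop where
  nn : ∀ (A : Finset ℂ), GP (A : Set ℂ) → ∀ (e0 : D0 A) (t : T3),
    Fc (A : Set ℂ) U t.1 t.2.1 t.2.2 → a A (gd (dl e0) t) = Nn t
  spin : ∀ (A : Finset ℂ) (hS : GP (A : Set ℂ)), Spin (cm0 hS) om (a A)




section inst

variable {z : ℂ} {b s k ε : ℝ} {B : Set ℂ} {E : EFam} {a : ∀ A : Finset ℂ, D0 A → ℂ}
  {R : Finset ℂ → Finset ℂ → Finset ℂ} {g : Set (ℂ × Bool) → ℝ≥0∞}




end inst



/-! ### 197's giant of a walk -/


end Crest.Agent.R143.StgIx432
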