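import Crest.Agent.R143.Frame11_395
import Crest.Agent.R143.Coarse2_166
import Crest.Agent.R143.Part_778
import Crest.Agent.R143.Gnt_535
import Crest.Agent.R143.Spl4_117

-- ▼ part R143/Flip_357
section

/-!
# Row 143 (S0194), hedge block H2 of notes 3216 / 3378 (helper357)

* `Stp R` : `R` is a stopping set (the set of the revealed cells)
* `flp R A` : the revealed cells in `A` are inverted; `flp_inj`, `flp_bij` : this is a bijection
  of the colourings as soon as `A` is a function of the colours of an earlier stopping set `R₁`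
  which it does not meet (`R₁` = the gate chains, `A` = the region between them)
* `sum_flip_le` : transport of a sum over (configuration, chord) to a sum over (configuration, block)
* `circ_of_con`, `block_of_con` : a closed sequence of gaps whose old cells are different genuine
  cells and whose third cells are in one cluster is exactly one block
-/

set_option autoImplicit false

noncomputable section

open scoped Classical

namespace Crest.Agent.R143.Flipx357

open Crest.Agent.R143.Frame1x395 Crest.Agent.R143.Frame2x395 Crest.Agent.R143.Frame3x395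
  Crest.Agent.R143.Frame4x395 Crest.Agent.R143.Frame8x395 Crest.Agent.R143.Frame9x395
  Crest.Agent.R143.Frame11x395 Crest.Agent.R143.NonXx592 Crest.Agent.R143.Coarsex166
  Crest.Agent.R143.Coarse2x166

section flip

variable {V : Type} {R R₁ A : (V → ZMod 2) → Set V}

/-- stopping set -/
def Stp (R : (V → ZMod 2) → Set V) : Prop :=
  ∀ ω ω' : V → ZMod 2, (∀ c ∈ R ω, ω' c = ω c) → R ω' = R ω

/-- the revealed cells in `A` are inverted -/
def flp (R A : (V → ZMod 2) → Set V) (ω : V → ZMod 2) : V → ZMod 2 :=
  fun c => ω c + if c ∈ R ω ∧ c ∈ A ω then 1 else 0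




theorem Stp.glue (h : Stp R) {ω ω' : V → ZMod 2}
    (e : ∀ c, c ∈ R ω → c ∈ R ω' → ω c = ω' c) : R ω = R ω' := by
  have h1 : R (fun c => if c ∈ R ω then ω c else ω' c) = R ω :=
    h ω _ (fun c hc => if_pos hc)
  have h2 : R (fun c => if c ∈ R ω then ω c else ω' c) = R ω' := by
    refine h ω' _ (fun c hc => ?_)
    by_cases hc' : c ∈ R ω
    · show (if c ∈ R ω then ω c else ω' c) = ω' c
      rw [if_pos hc', e c hc' hc]
    · exact if_neg hc'
  exact h1.symm.trans h2





end flip


/-! ### a circuit with connected third cells is a block -/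

variable {D C : Type} {M : CMap D C} {x : D → ZMod 2}








/-! ### every block is one cycle -/


variable [Fintype D]




theorem self_mem {g₀ : D} (hg₀ : Gp M x g₀) : g₀ ∈ blk M x g₀ := mem_blk.2 ⟨hg₀, rel_refl _⟩


omit [Fintype D] in
theorem time_of {k g : D} {N : ℕ} (hNpos : 0 < N) (hN : P M x (out M k) N = out M k) {n : ℕ}
    (H : (stp M x)^[n] (out M k) = M.rho g) : ∃ b, b < N ∧ M.rho g = P M x (out M k) b := by
  refine ⟨n % N, Nat.mod_lt _ hNpos, ?_⟩
  rw [← H]
  conv_lhs => rw [← Nat.mod_add_div n N]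
  show P M x (out M k) (n % N + N * (n / N)) = _
  rw [P_add]
  congr 1
  have : ∀ q, P M x (out M k) (N * q) = out M k := by
    intro q
    induction q with
    | zero => rfl
    | succ q ih => rw [Nat.mul_succ, P_add, hN, ih]
  exact this _




/-! ### chord and outer arc -/


end Crest.Agent.R143.Flipx357
end
end

-- ▼ part R143/ChordC_357
section

/-!
# Row 143 (S0194), hedge block H2c (helper357)

The chord of a loop through a giant class `o` of the coarse map: the walker leaves `o` at the time
`t₁` and returns to `o` at the time `t₂`.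

* `cset M p t₁ t₂` : the gaps at the times `s ∈ [t₁, t₂)` such that no left cell occurs in `(t₁, s]`
  and in `(s, t₂)`
* `chord_coarse` : the block of the coarse map which leaves the giant at the time `t₁` is
  `cset M p t₁ t₂`; in particular it depends only on the states at the times `t₁, .., t₂`
* `cset_congr` : the same set for two configurations with the same states
-/

set_option autoImplicit false

noncomputable section

open scoped Classical

namespace Crest.Agent.R143.ChordCx357

open Crest.Agent.R143.Frame1x395 Crest.Agent.R143.Frame2x395 Crest.Agent.R143.Frame3x395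
  Crest.Agent.R143.Frame4x395 Crest.Agent.R143.Frame8x395 Crest.Agent.R143.Frame9x395
  Crest.Agent.R143.NonXx592 Crest.Agent.R143.Coarsex166
  Crest.Agent.R143.Coarse2x166 Crest.Agent.R143.Flipx357

variable {D C C' : Type} {M : CMap D C} {x : D → ZMod 2} {π : C → C'} {hπ : ClsCon M π}

/-- the gaps of a chord -/
def cset [Fintype D] (M : CMap D C) (Q : ℕ → D) (t₁ t₂ : ℕ) : Finset D :=
  Finset.univ.filter fun h => ∃ s, t₁ ≤ s ∧ s < t₂ ∧ M.rho h = Q s ∧ out M h = Q (s + 1) ∧
    ∀ u v, t₁ < u → u ≤ s → s < v → v < t₂ → M.cell (Q u) ≠ M.cell (Q v)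

theorem mem_cset [Fintype D] {Q : ℕ → D} {t₁ t₂ : ℕ} {h : D} : h ∈ cset M Q t₁ t₂ ↔
    ∃ s, t₁ ≤ s ∧ s < t₂ ∧ M.rho h = Q s ∧ out M h = Q (s + 1) ∧
    ∀ u v, t₁ < u → u ≤ s → s < v → v < t₂ → M.cell (Q u) ≠ M.cell (Q v) := by
  unfold cset
  rw [Finset.mem_filter]
  simp



/-- a transition through `h` is a gap -/
theorem gp_of_out (hx : IsC M ∅ x) {p h : D} (hp : x p = 1) (h1 : M.rho h = p)
    (h2 : out M h = stp M x p) : Gp M x h := by
  rcases stp_cases hx hp (Set.notMem_empty _) with ⟨a1, a2, e⟩ | ⟨a1, a2, e⟩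
  · have : M.rho (M.rho p) = h := by rw [← h1, M.rho3]
    exact ⟨by rw [← this]; exact a2, by rw [h1]; exact hp⟩
  · exfalso
    rw [e] at h2
    unfold out at h2
    have h3 := iota_inj M h2
    rw [h1] at h3
    exact M.rho_ne (M.rho p) h3.symm

/-- the times of the gaps of a block -/
theorem blk_time [Fintype D] (hx : IsC M ∅ x) {g₀ : D} (hg₀ : Gp M x g₀) {N : ℕ} (hNpos : 0 < N)
    (hN : P M x (out M g₀) N = out M g₀) (hlast : M.rho g₀ = P M x (out M g₀) (N - 1)) {k : D}
    (hk : k ∈ blk M x g₀) (hne : k ≠ g₀) : ∃ b, b + 1 < N ∧ M.rho k = P M x (out M g₀) b := by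
  obtain ⟨h1, h2⟩ := mem_blk.1 hk
  have h3 : ∃ b, b < N ∧ M.rho k = P M x (out M g₀) b := by
    rcases h2 (M.cell g₀) with e | h | h
    · exact absurd e.symm hne
    · exact time_of_av hNpos hN h
    · obtain ⟨m, h4, -⟩ := h
      obtain ⟨m', h5⟩ := come_back hx h1 hg₀ h4
      exact time_of hNpos hN h5
  obtain ⟨b, hb, hkb⟩ := h3
  refine ⟨b, ?_, hkb⟩
  by_contra hc
  have : b = N - 1 := by omega
  rw [this, ← hlast] at hkb
  exact hne (rho_inj M hkb)


end Crest.Agent.R143.ChordCx357
end
end

-- ▼ part R143/TileM_683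

/-!
# Row 143 (S0194), RIG, R6 second half: full tiles (helper683; 778, 176)

The block path of the out arc in a tile, as a block of the net in which the two revealed parts
`K_left`, `K_right` (and what joins them inside) are ONE black giant.

* `chord_c` : 357's `chord_coarse` with `single` only for the left cells of the chord (other giants,
  e.g. white ones, are allowed)
* `ks_chord` : the block path sum `KS` (117) of an arc with joined ends in the giant = sum over one
  block of the coarse map
* `ks_agree` : `KS` depends only on the colours of the left and right cells of the arc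
* `Gts.isC` ; `chord_le` : **the deterministic bound for a tile**, the colours off the arc are
  arbitrary
* `tile_sum` : the sum over the colours (weight of the other tubes and gates), form of 778's `part`
* `tile` : both together
-/

set_option autoImplicit false
set_option linter.unusedSectionVars false

noncomputable section

open scoped Classical

namespace Crest.Agent.R143.TileMx683

open Crest.Agent.R143.Frame1x395 Crest.Agent.R143.Frame2x395 Crest.Agent.R143.Frame3x395
  Crest.Agent.R143.Frame4x395 Crest.Agent.R143.Frame8x395 Crest.Agent.R143.Frame9x395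
  Crest.Agent.R143.NonXx592
  Crest.Agent.R143.Coarsex166 Crest.Agent.R143.Coarse2x166 Crest.Agent.R143.Giantx46
  Crest.Agent.R143.Resax778 Crest.Agent.R143.Partx778 Crest.Agent.R143.ChordCx357
  Crest.Agent.R143.Splx117

section chord

variable {D C C' : Type} {M : CMap D C} {x : D → ZMod 2} {π : C → C'} {hπ : ClsCon M π}

/-- **the block of the coarse map through the giant = the chord** (357), several giants allowed -/
theorem chord_c [Fintype D] (hx : IsC (coarse M π hπ) ∅ x) {o : C'} {p : D} (hp : x p = 1)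
    {t₁ t₂ : ℕ} (h12 : t₁ < t₂)
    (single : ∀ u v, t₁ < u → u < v → v < t₂ →
      π (M.cell (P M x p u)) = π (M.cell (P M x p v)) → M.cell (P M x p u) = M.cell (P M x p v))
    {k₀ : D} (hk₀ : Gp M x k₀) (hk₁ : M.rho k₀ = P M x p t₁)
    (h1 : π (M.cell (P M x p t₁)) = o) (h2 : π (M.cell (P M x p t₂)) = o)
    (hin : ∀ u, t₁ < u → u < t₂ → π (M.cell (P M x p u)) ≠ o) :
    blk (coarse M π hπ) x k₀ = cset M (P M x p) t₁ t₂ := by
  set K := coarse M π hπ with hK
  have hxM : IsC M ∅ x := IsC.of_coarse hx
  have hgK : Gp K x k₀ := hk₀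
  obtain ⟨N, hNpos, hN, hinj, hlast⟩ := exists_period hx hgK
  have base : ∀ n, P M x (out M k₀) n = P M x p (t₁ + 1 + n) := by
    intro n
    have e1 : out M k₀ = P M x p (t₁ + 1) := by
      rw [P_succ, ← hk₁, hk₀.stp hxM]
    rw [e1, ← P_add]
    congr 1
    omega
  have baseK : ∀ n, P K x (out K k₀) n = P M x p (t₁ + 1 + n) := base
  obtain ⟨m, rfl⟩ := Nat.exists_eq_add_of_lt h12
  -- the return
  have hm : π (M.cell (P M x (out M k₀) m)) = o := by
    rw [base m, show t₁ + 1 + m = t₁ + m + 1 by omega]; exact h2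
  have hlt : ∀ u, u < m → π (M.cell (P M x (out M k₀) u)) ≠ o := by
    intro u hu
    rw [base u]
    exact hin _ (by omega) (by omega)
  have hlo : π (M.cell (P M x (out M k₀) (N - 1))) = o := by
    have : M.rho k₀ = P M x (out M k₀) (N - 1) := hlast
    rw [← this, hk₁]; exact h1
  have hmN : m ≤ N - 1 := by
    by_contra hc
    exact hlt (N - 1) (by omega) hlo
  have c0 : π (M.cell (M.rho k₀)) = o := by rw [hk₁]; exact h1
  rcases Nat.eq_zero_or_pos m with rfl | hmpos
  · -- direct transition between two cells of the giant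
    have e1 : K.cell k₀ = K.cell (K.rho k₀) := by
      show π (M.cell k₀) = π (M.cell (M.rho k₀))
      rw [c0, ← Frame9x395.cell_out hxM hk₀]
      exact hm
    rw [blk_single hx hgK e1]
    ext h
    rw [Finset.mem_singleton, mem_cset]
    constructor
    · rintro rfl
      refine ⟨t₁, le_rfl, h12, hk₁, ?_, fun u v a1 a2 a3 a4 => by omega⟩
      rw [P_succ, ← hk₁, hk₀.stp hxM]
    · rintro ⟨s, a1, a2, a3, -, -⟩
      have : s = t₁ := by omega
      subst this
      exact rho_inj M (a3.trans hk₁.symm)
  · ext h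
    rw [mem_cset]
    constructor
    · intro hh
      by_cases hhk : h = k₀
      · subst hhk
        refine ⟨t₁, le_rfl, h12, hk₁, ?_, fun u v a1 a2 a3 a4 => by omega⟩
        rw [P_succ, ← hk₁, hk₀.stp hxM]
      · obtain ⟨b, hbN, hhb⟩ := blk_time hx hgK hNpos hN hlast hh hhk
        obtain ⟨gh, rh⟩ := mem_blk.1 hh
        have hr := (rel_loop hx hgK hN hinj hlast hbN gh hhb).1 rh
        have hbm : b < m := by
          by_contra hc
          refine hr m (by omega) (N - 1) (by omega) (by omega) ?_
          show π (M.cell (P M x (out M k₀) m)) = π (M.cell (P M x (out M k₀) (N - 1)))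
          rw [hm, hlo]
        have hhb' : M.rho h = P M x (out M k₀) b := hhb
        refine ⟨t₁ + 1 + b, by omega, by omega, hhb'.trans (base b), ?_, ?_⟩
        · have gh' : Gp M x h := gh
          rw [← gh'.stp hxM, hhb', base b, ← P_succ]
        · intro u v a1 a2 a3 a4 e
          refine hr (u - (t₁ + 1)) (by omega) (v - (t₁ + 1)) (by omega) (by omega) ?_
          show π (M.cell (P M x (out M k₀) (u - (t₁ + 1)))) =
            π (M.cell (P M x (out M k₀) (v - (t₁ + 1))))
          rw [base, base, show t₁ + 1 + (u - (t₁ + 1)) = u by omega,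
            show t₁ + 1 + (v - (t₁ + 1)) = v by omega, e]
    · rintro ⟨s, a1, a2, a3, a4, a5⟩
      have gh : Gp M x h := gp_of_out hxM (P_occ hxM hp s) a3 (by rw [a4, P_succ])
      rcases Nat.eq_or_lt_of_le a1 with e | hs
      · subst e
        have : h = k₀ := rho_inj M (a3.trans hk₁.symm)
        rw [this]
        exact Frame8x395.self_mem hgK
      · have hb : M.rho h = P M x (out M k₀) (s - (t₁ + 1)) := by
          rw [base, show t₁ + 1 + (s - (t₁ + 1)) = s by omega]; exact a3
        refine mem_blk.2 ⟨gh, (rel_loop hx hgK hN hinj hlast (by omega) gh hb).2 ?_⟩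
        intro u hu v hv1 hv2 e
        have e' : π (M.cell (P M x (out M k₀) u)) = π (M.cell (P M x (out M k₀) v)) := e
        have hu' : π (M.cell (P M x (out M k₀) u)) ≠ o := hlt u (by omega)
        rcases lt_trichotomy v m with c1 | c1 | c1
        · rw [base, base] at e'
          have e2 := single _ _ (by omega) (by omega) (by omega) e'
          exact a5 (t₁ + 1 + u) (t₁ + 1 + v) (by omega) (by omega) (by omega) (by omega) e2
        · rw [c1, hm] at e'
          exact hu' e'
        · rcases Nat.eq_or_lt_of_le (show v ≤ N - 1 by omega) with c2 | c2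
          · rw [c2, hlo] at e'
            exact hu' e'
          · -- crossing
            have sh : ∀ n, P K x (K.rho k₀) (n + 1) = P K x (out K k₀) n := by
              intro n
              rw [P_add]
              congr 1
              show stp K x (K.rho k₀) = out K k₀
              exact hgK.stp hx
            have h0 : P K x (K.rho k₀) 0 = P K x (out K k₀) (N - 1) := hlast
            have hcross := noncross hx (M := K) (p := K.rho k₀) hgK.2 (k := u + 1) (j := m + 1)
              (l := v + 1) (by omega) (by omega) (by omega) ?_ ?_ ?_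
            · rw [sh] at hcross
              exact hu' (hcross.trans c0)
            · intro a b hab hbl
              obtain ⟨b', rfl⟩ : ∃ b', b = b' + 1 := ⟨b - 1, by omega⟩
              rw [sh]
              cases a with
              | zero =>
                rw [h0]
                exact (hinj b' (N - 1) (by omega) (by omega)).symm
              | succ a =>
                rw [sh]
                exact hinj a b' (by omega) (by omega)
            · rw [sh]
              exact hm.trans c0.symm
            · rw [sh, sh]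
              exact e


end chord

/-! ### sums over the colours -/

section sums

variable {D C : Type} [Fintype D] [Fintype C] {M : CMap D C}

/-- **TILES.** `T` = cells of the window; `r σ` = what is seen off `T`; `g (r σ)` = weight of the
tubes and gates off the window; `E q` = recoloured cells (off `T`), `χ₀ q` = their new colours,
`A q` = their giants. -/
theorem tile_sum {w : ℂ} (w3 : w ^ 3 = 1) (w1 : w ≠ 1) (wc : (starRingEnd ℂ) w = w ^ 2)
    {T : Finset C} {R : Type} {r : (C → ZMod 2) → R}
    (hr : ∀ σ τ, (∀ s, s ∉ T → τ s = σ s) → r τ = r σ)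
    {G : (C → ZMod 2) → Prop} {g : R → ℝ} (hg0 : ∀ σ, 0 ≤ g (r σ))
    {C' : R → Type} [∀ q, Fintype (C' q)] {π : ∀ q, C → C' q} {hπ : ∀ q, ClsCon M (π q)}
    {E : R → Finset C} {χ₀ : ∀ _ : R, C → ZMod 2}
    {A : ∀ q, Finset (C' q)} {v : ∀ q, C' q → ZMod 2} {m : ℕ} (hA : ∀ q, (A q).card ≤ m)
    (HG : ∀ σ, g (r σ) ≠ 0 → Gts (π (r σ)) (E (r σ)) (χ₀ (r σ)) (A (r σ)) (v (r σ)))
    {a : R → D → ℂ} (ha : ∀ q, Spin M w (a q))
    {X : (C → ZMod 2) → (C → ZMod 2) → ℝ}
    (hX : ∀ σ τ, G σ → g (r σ) ≠ 0 → X σ τ ≤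
      ∑ β ∈ blks (coarse M (π (r σ)) (hπ (r σ)))
        (cfg M (glue (E (r σ)) (χ₀ (r σ)) (glue T σ τ))), ‖∑ k ∈ β, a (r σ) k‖ ^ 2) :
    ∑ σ, ∑ τ, (if G σ then g (r σ) * X σ τ else 0) ≤
      (2 : ℝ) ^ m / 4 * Fintype.card (C → ZMod 2) * ∑ σ, g (r σ) * ∑ k, ‖a (r σ) k‖ ^ 2 := by
  set F : R → (C → ZMod 2) → ℝ := fun q τ =>
    ∑ β ∈ blks (coarse M (π q) (hπ q)) (cfg M (glue (E q) (χ₀ q) τ)), ‖∑ k ∈ β, a q k‖ ^ 2 with hF
  have hF0 : ∀ q τ, 0 ≤ F q τ := fun q τ => Finset.sum_nonneg fun β _ => by positivity
  have h1 : ∑ σ, ∑ τ, (if G σ then g (r σ) * X σ τ else 0) ≤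
      ∑ σ, ∑ τ, g (r σ) * F (r σ) (glue T σ τ) := by
    refine Finset.sum_le_sum fun σ _ => Finset.sum_le_sum fun τ _ => ?_
    by_cases h : G σ
    · rw [if_pos h]
      by_cases h' : g (r σ) = 0
      · rw [h', zero_mul, zero_mul]
      · exact mul_le_mul_of_nonneg_left (hX σ τ h h') (hg0 σ)
    · rw [if_neg h]
      exact mul_nonneg (hg0 σ) (hF0 _ _)
  -- exchange of the colours on the window
  have hT : StopSet (S := C) (B := ZMod 2) fun _ => T := fun _ _ _ => rfl
  have h3 : ∑ σ, ∑ τ, g (r σ) * F (r σ) (glue T σ τ) = ∑ σ, ∑ τ, g (r σ) * F (r σ) τ := by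
    have h2 := sum_sw (S := C) (B := ZMod 2) hT fun τ' σ' => g (r σ') * F (r σ') τ'
    rw [Finset.sum_comm (f := fun σ τ => g (r σ) * F (r σ) τ), ← h2]
    refine Finset.sum_congr rfl fun σ _ => Finset.sum_congr rfl fun τ _ => ?_
    have e : r (glue T τ σ) = r σ := hr σ _ fun s hs => glue_off hs
    show _ = g (r (glue T τ σ)) * F (r (glue T τ σ)) (glue T σ τ)
    rw [e]
  refine (h1.trans h3.le).trans ?_
  rw [Finset.mul_sum]
  refine Finset.sum_le_sum fun σ _ => ?_
  rw [← Finset.mul_sum]
  by_cases h' : g (r σ) = 0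
  · rw [h', zero_mul, zero_mul, mul_zero]
  have h4 := (HG σ h').frame (M := M) (hπ := hπ (r σ)) w3 w1 wc (ha (r σ))
  calc g (r σ) * ∑ τ, F (r σ) τ
      ≤ g (r σ) * ((2 : ℝ) ^ (A (r σ)).card / 4 * Fintype.card (C → ZMod 2) *
        ∑ k, ‖a (r σ) k‖ ^ 2) := mul_le_mul_of_nonneg_left h4 (hg0 σ)
    _ ≤ g (r σ) * ((2 : ℝ) ^ m / 4 * Fintype.card (C → ZMod 2) *
        ∑ k, ‖a (r σ) k‖ ^ 2) := by
        refine mul_le_mul_of_nonneg_left ?_ (hg0 σ)
        have h5 : (2 : ℝ) ^ (A (r σ)).card ≤ 2 ^ m := pow_le_pow_right₀ (by norm_num) (hA _)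
        gcongr
    _ = _ := by ring

/-! ### one giant: everything off the window is one black class -/

/-- the contraction of the cells off the window -/
def piT (T : Finset C) (c : C) : Option {c // c ∈ T} := if h : c ∈ T then some ⟨c, h⟩ else none

theorem piT_on {T : Finset C} {c : C} (h : c ∈ T) : piT T c = some ⟨c, h⟩ := dif_pos h

theorem piT_off {T : Finset C} {c : C} (h : c ∉ T) : piT T c = none := dif_neg h

theorem piT_inj {T : Finset C} {c c' : C} (h : c ∈ T) (e : piT T c = piT T c') : c = c' := by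
  rw [piT_on h] at e
  by_cases h' : c' ∈ T
  · rw [piT_on h'] at e
    exact congrArg Subtype.val (Option.some.inj e)
  · rw [piT_off h'] at e
    exact absurd e (Option.some_ne_none _)

theorem piT_ne {T : Finset C} {c : C} (h : c ∈ T) : piT T c ≠ none := by
  rw [piT_on h]; exact Option.some_ne_none _

theorem gts_piT {T : Finset C} (hne : ∃ c, c ∉ T) :
    Gts (piT T) (Finset.univ \ T) (fun _ => 1) {none} (fun _ => 1) where
  surj := by
    intro b
    cases b with
    | none =>
      obtain ⟨c, hc⟩ := hne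
      exact ⟨c, piT_off hc⟩
    | some b => exact ⟨b.1, piT_on b.2⟩
  inj := fun c c' hc e => piT_inj (by
    by_contra h
    exact hc (Finset.mem_sdiff.2 ⟨Finset.mem_univ _, h⟩)) e
  mem := fun c hc => by
    rw [piT_off (Finset.mem_sdiff.1 hc).2]
    exact Finset.mem_singleton_self _
  ex := by
    intro b hb
    obtain ⟨c, hc⟩ := hne
    exact ⟨c, Finset.mem_sdiff.2 ⟨Finset.mem_univ _, hc⟩, by
      rw [piT_off hc, Finset.mem_singleton.1 hb]⟩
  col := fun _ _ => rfl

/-- `σ` on the window, black elsewhere -/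
def bl (T : Finset C) (σ : C → ZMod 2) : C → ZMod 2 := fun c => if c ∈ T then σ c else 1

theorem glue_bl (T : Finset C) (σ τ : C → ZMod 2) :
    glue (Finset.univ \ T) (fun _ => 1) (glue T σ τ) = bl T σ := by
  funext c
  unfold bl
  by_cases h : c ∈ T
  · rw [if_pos h, glue_off (fun h' => (Finset.mem_sdiff.1 h').2 h), glue_on h]
  · rw [if_neg h]
    exact glue_on (Finset.mem_sdiff.2 ⟨Finset.mem_univ _, h⟩)

/-- the coarse configuration is even -/
theorem isC_bl {T : Finset C} (hne : ∃ c, c ∉ T) (h : ClsCon M (piT T)) (σ : C → ZMod 2) :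
    IsC (coarse M (piT T) h) ∅ (cfg M (bl T σ)) := by
  obtain ⟨c0, hc0⟩ := hne
  have e : cfg M (bl T σ) = cfg (coarse M (piT T) h)
      (fun b => match b with | none => 1 | some c => σ c.1) := by
    funext d
    have key : ∀ c : C, bl T σ c = (match piT T c with | none => 1 | some c => σ c.1) := by
      intro c
      unfold bl
      by_cases h' : c ∈ T
      · rw [if_pos h', piT_on h']
      · rw [if_neg h', piT_off h']
    show bl T σ (M.cell d) + bl T σ (M.cell (M.rho d)) = _
    rw [key, key]
    rfl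
  rw [e]
  exact cfg_isC _

/-- **TILES, one giant** (490's map): window `T`, everything off the window is one black class -/
theorem tile_one {w : ℂ} (w3 : w ^ 3 = 1) (w1 : w ≠ 1) (wc : (starRingEnd ℂ) w = w ^ 2)
    {T : Finset C} (hne : ∃ c, c ∉ T) (hT : ClsCon M (piT T)) {R : Type}
    {r : (C → ZMod 2) → R} (hr : ∀ σ τ, (∀ s, s ∉ T → τ s = σ s) → r τ = r σ)
    {G : (C → ZMod 2) → Prop} {g : R → ℝ} (hg0 : ∀ σ, 0 ≤ g (r σ))
    {a : D → ℂ} (ha : Spin M w a) {X : (C → ZMod 2) → ℝ}
    (hX : ∀ σ, G σ → g (r σ) ≠ 0 → X σ ≤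
      ∑ β ∈ blks (coarse M (piT T) hT) (cfg M (bl T σ)), ‖∑ k ∈ β, a k‖ ^ 2) :
    ∑ σ, (if G σ then g (r σ) * X σ else 0) ≤ 1 / 2 * ∑ σ, g (r σ) * ∑ k, ‖a k‖ ^ 2 := by
  have h1 := tile_sum (M := M) w3 w1 wc (T := T) hr (G := G) hg0 (C' := fun _ => _)
    (π := fun _ => piT T) (hπ := fun _ => hT) (E := fun _ => Finset.univ \ T)
    (χ₀ := fun _ _ => 1) (A := fun _ => {none}) (v := fun _ _ => 1) (m := 1)
    (fun _ => by rw [Finset.card_singleton]) (fun _ _ => gts_piT hne) (a := fun _ => a)
    (fun _ => ha) (X := fun σ _ => X σ) (fun σ τ h h' => by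
      rw [glue_bl]; exact hX σ h h')
  have h2 : ∀ σ, ∑ _τ : C → ZMod 2, (if G σ then g (r σ) * X σ else 0) =
      Fintype.card (C → ZMod 2) * (if G σ then g (r σ) * X σ else 0) := fun σ => by
    rw [Finset.sum_const, Finset.card_univ, nsmul_eq_mul]
  rw [Finset.sum_congr rfl fun σ _ => h2 σ, ← Finset.mul_sum] at h1
  have h3 : (0 : ℝ) < Fintype.card (C → ZMod 2) := by exact_mod_cast Fintype.card_pos
  refine le_of_mul_le_mul_left (h1.trans (le_of_eq ?_)) h3
  ring

end sums

/-! ### the block path depends on the colours along the arc -/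

section agree

open Crest.Agent.R143.Gntx535

variable {D C : Type} [Fintype D] {M : CMap D C}



end agree

end Crest.Agent.R143.TileMx683
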