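import Crest.Agent.R143.TileR_176
import Crest.Agent.R143.Eng_490
import Crest.Agent.R143.TileM_683

/-!
# Row 143 (S0194), box R6, glue (helper176): from the inequalities on the closed map `rc (cm0 hS)`
to the sample

* `cells2_le` : real inequality between sums over the colourings of the cells ⟹ sums over the
  colourings of the sites
* `av_part` : conclusion of 778's `part` at one environment ⟹ `av (g · av X) ≤ K Qf` (any `Fintype`
  instance on the colourings of the cells)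
* `QF` : what the deterministic half must supply at one environment for a full tile (683's `tile_one`,
  490's `TileW`); `QF.le`
* `tileF` : `c^#J₀ ∏ E a_i · E[g F] ≤ C s² E g`
-/

set_option autoImplicit false
set_option linter.unusedSectionVars false

noncomputable section

open scoped Classical

namespace Crest.Agent.R143.TileFx176

open MeasureTheory Set Filter Topology
open Crest.ProbabilityR.Voronoi
open Crest.Agent.R143.PP0x831 Crest.Agent.R143.Poisx304 Crest.Agent.R143.Janx304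
open Crest.Agent.R143.Prodx609 Crest.Agent.R143.ColSumx304 Crest.Agent.R143.Lawx831
open Crest.Agent.R143.Dblx609 Crest.Agent.R143.Dbl2x609
open Crest.Agent.R143.IndLocx279 Crest.Agent.R143.PWx978 Crest.Agent.R143.TilePx176
  Crest.Agent.R143.TileQx176 Crest.Agent.R143.TileRx176
open Crest.Agent.R143.B0x346 Crest.Agent.R143.DelGx806 Crest.Agent.R143.FinCx811
  Crest.Agent.R143.Engx490 Crest.Agent.R143.Mass3x302 Crest.Agent.R143.Mass4x302
open Crest.Agent.R143.Frame1x395 Crest.Agent.R143.Frame2x395 Crest.Agent.R143.Frame3x395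
  Crest.Agent.R143.Frame4x395
open Crest.Agent.R143.Frame8x395 hiding cfg
open Crest.Agent.R143.Frame10x395
open Crest.Agent.R143.Frame5x395 (sd mem_sd th th_spec)
open Crest.Agent.R143.Coarsex166 Crest.Agent.R143.TileMx683
open Crest.Agent.R143.SumScx302 (sq)
open Crest.Agent.R143.Mass1x302 (T3 Nn)
open Crest.Agent.R143.FinMx609 (cen3 rad3)
open Crest.Agent.R143.CorMx970 (av)
open scoped ENNReal

variable {S : Finset ℂ}





/-! ### energy, real form -/

theorem energy' {D : Set ℂ} {d : ℝ} {a : D0 S → ℂ}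
    (ha : ∀ g : D0 S, ‖a g‖ ≤ ‖Nn (g.1.2, th S g.1, g.1.1)‖)
    (hs : ∀ g : D0 S, a g ≠ 0 → cen3 (fc S g) ∈ D ∧ rad3 (fc S g) ≤ d) (β : Finset ℂ) :
    ∑ g, ‖a g‖ ^ 2 ≤ 9 * (Hd D d (paint S β)).toReal := by
  have h := energy (A := D) (d := d) (X := paint S β) (ps_paint S β) ha hs
  have ht : (9 : ℝ≥0∞) * Hd D d (paint S β) ≠ ∞ :=
    ENNReal.mul_ne_top (by simp) (Hd_fin (paint_finite S β))
  have h1 := (ENNReal.ofReal_le_iff_le_toReal ht).1 h
  rwa [ENNReal.toReal_mul, ENNReal.toReal_ofNat] at h1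

/-! ### partial tiles -/

section net

variable {ε : ℝ} {ι κ : Type*} (M : Net ε ι κ)
variable {I I₁ : Finset ι} {J J₁ : Finset κ} {D W B : Set ℂ} {d : ℝ}


end net

/-! ### full tiles -/

/-- **what the deterministic half must supply for a full tile at one environment** `S`: `w` = the
weight of the window, `F` = the square of the charge, `D`, `d` = region and radius of the field -/
def QF (S : Finset ℂ) (w F : Cf → ℝ≥0∞) (D : Set ℂ) (d : ℝ) : Prop :=
  (∀ β ⊆ S, w (paint S β) * F (paint S β) = 0) ∨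
  ∃ (hS : GP (S : Set ℂ)) (h3 : 3 ≤ S.card) (T : Finset (Cs hS)) (_ : ∃ c, c ∉ T)
    (hT : ClsCon (restr (cm0 hS)) (piT T)) (a : D0 S → ℂ),
    Inn S (fun Y => w Y * F Y) ∧ Spin (cm0 hS) om a ∧
    (∀ g : D0 S, ‖a g‖ ≤ ‖Nn (g.1.2, th S g.1, g.1.1)‖) ∧
    (∀ g : D0 S, a g ≠ 0 → cen3 (fc S g) ∈ D ∧ rad3 (fc S g) ≤ d) ∧
    ∀ σ : Cs hS → ZMod 2, w (paint S (bk hS h3 σ)) ≠ 0 → F (paint S (bk hS h3 σ)) ≤
      ENNReal.ofReal (∑ β ∈ blks (coarse (restr (cm0 hS)) (piT T) hT)
        (Frame8x395.cfg (restr (cm0 hS)) (bl T σ)), ‖∑ k ∈ β, a k‖ ^ 2)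

/-- 683's `tile_one` without weight -/
theorem tile_all {D C : Type} [Fintype D] [Fintype C] {M : CMap D C} {T : Finset C}
    (hne : ∃ c, c ∉ T) (hT : ClsCon M (piT T)) {a : D → ℂ} (ha : Spin M om a) :
    ∑ σ : C → ZMod 2, ∑ β ∈ blks (coarse M (piT T) hT) (Frame8x395.cfg M (bl T σ)),
        ‖∑ k ∈ β, a k‖ ^ 2 ≤
      1 / 2 * (Fintype.card (C → ZMod 2) * ∑ k, ‖a k‖ ^ 2) := by
  have key := tile_one (M := M) om3 om_ne om_conj hne hT
    (r := fun _ => ()) (fun _ _ _ => rfl) (G := fun _ => True) (g := fun _ => 1)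
    (fun _ => zero_le_one) (a := a) ha
    (X := fun σ => ∑ β ∈ blks (coarse M (piT T) hT) (Frame8x395.cfg M (bl T σ)),
      ‖∑ k ∈ β, a k‖ ^ 2) (fun σ _ _ => le_rfl)
  simp only [if_true, one_mul] at key
  rwa [Finset.sum_const, Finset.card_univ, nsmul_eq_mul] at key

theorem tile_all' {D C : Type} [Fintype D] [Fintype C] [iF : Fintype (C → ZMod 2)]
    {M : CMap D C} {T : Finset C} (hne : ∃ c, c ∉ T) (hT : ClsCon M (piT T)) {a : D → ℂ}
    (ha : Spin M om a) :
    ∑ σ : C → ZMod 2, ∑ β ∈ blks (coarse M (piT T) hT) (Frame8x395.cfg M (bl T σ)),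
        ‖∑ k ∈ β, a k‖ ^ 2 ≤
      1 / 2 * (Fintype.card (C → ZMod 2) * ∑ k, ‖a k‖ ^ 2) := by
  have h := tile_all hne hT ha
  rw [Subsingleton.elim iF Pi.instFintype]
  exact h

theorem QF.le {w F : Cf → ℝ≥0∞} {D : Set ℂ} {d : ℝ} (h : QF S w F D d)
    (hw : ∀ Y, w Y ≤ 1) :
    ∑ β ∈ S.powerset, w (paint S β) * F (paint S β) ≤
      5 * ∑ β ∈ S.powerset, Hd D d (paint S β) := by
  rcases h with h | ⟨hS, h3, T, hne, hT, a, hI, ha, hn, hs, hX⟩
  · rw [Finset.sum_eq_zero fun β hβ => h β (Finset.mem_powerset.1 hβ)]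
    exact zero_le
  set E : ℝ≥0∞ := Hd D d (paint S ∅) with hE
  have hEb : ∀ β, Hd D d (paint S β) = E := fun β => by rw [hE, Hd_paint D d S β ∅]
  have hEt : E ≠ ∞ := Hd_fin (paint_finite S ∅)
  set bb : (Cs hS → ZMod 2) → ℝ := fun σ =>
    ∑ β ∈ blks (coarse (restr (cm0 hS)) (piT T) hT)
      (Frame8x395.cfg (restr (cm0 hS)) (bl T σ)), ‖∑ k ∈ β, a k‖ ^ 2 with hbb
  have hbb0 : ∀ σ, 0 ≤ bb σ := fun σ => Finset.sum_nonneg fun β _ => by positivity
  have key : ∑ σ : Cs hS → ZMod 2, bb σ ≤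
      1 / 2 * (Fintype.card (Cs hS → ZMod 2) * ∑ k, ‖a k‖ ^ 2) := by
    exact tile_all' (D := D0 S) (C := Cs hS) (M := restr (cm0 hS)) hne hT ha
  have hsum : ∑ σ : Cs hS → ZMod 2, w (paint S (bk hS h3 σ)) * F (paint S (bk hS h3 σ)) ≤
      5 * ∑ _σ : Cs hS → ZMod 2, E := by
    calc ∑ σ : Cs hS → ZMod 2, w (paint S (bk hS h3 σ)) * F (paint S (bk hS h3 σ))
        ≤ ∑ σ : Cs hS → ZMod 2, ENNReal.ofReal (bb σ) := by
          refine Finset.sum_le_sum fun σ _ => ?_
          by_cases h0 : w (paint S (bk hS h3 σ)) = 0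
          · rw [h0, zero_mul]; exact zero_le
          · calc w (paint S (bk hS h3 σ)) * F (paint S (bk hS h3 σ)) ≤
                  1 * ENNReal.ofReal (bb σ) := by
                  gcongr
                  · exact hw _
                  · exact hX σ h0
              _ = _ := one_mul _
      _ = ENNReal.ofReal (∑ σ : Cs hS → ZMod 2, bb σ) :=
          (ENNReal.ofReal_sum_of_nonneg fun σ _ => hbb0 σ).symm
      _ ≤ ENNReal.ofReal (5 * (Fintype.card (Cs hS → ZMod 2) * E.toReal)) := by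
          refine ENNReal.ofReal_le_ofReal (key.trans ?_)
          have h1 := energy' (S := S) hn hs ∅
          rw [hEb ∅] at h1
          have h2 : (0 : ℝ) ≤ Fintype.card (Cs hS → ZMod 2) := Nat.cast_nonneg _
          have h4 : 0 ≤ E.toReal := ENNReal.toReal_nonneg
          nlinarith
      _ = _ := by
          rw [ENNReal.ofReal_mul (by norm_num), ENNReal.ofReal_mul (Nat.cast_nonneg _),
            ENNReal.ofReal_natCast, ENNReal.ofReal_toReal hEt, Finset.sum_const, Finset.card_univ,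
            nsmul_eq_mul, ENNReal.ofReal_ofNat]
  have h5 := le_paint hS h3 (Φ := fun Y => w Y * F Y) (Ψ := Hd D d) hI
    (fun b c _ _ _ => Hd_paint D d S b c) (K := 5) (by
      simp only [hEb]
      exact hsum)
  exact h5


end Crest.Agent.R143.TileFx176
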