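import Crest.Agent.R143.QuS_166
import Crest.Agent.R143.QuT_395
import Crest.Agent.R143.SysS_358
import Crest.Agent.R143.SysC_166
import Crest.Agent.R143.RcT_422
import Crest.Agent.R143.CorEh_829
import Crest.Agent.R143.Loc8_277
import Crest.Agent.R143.K33R_877
import Crest.Agent.R143.C2SD_395
import Crest.Agent.R143.R10P_923
import Crest.Agent.R143.LnkG_372
import Crest.Agent.R143.RegS_523
import Crest.Agent.R143.SepH_697
import Crest.Agent.R143.CorE_133

-- ▼ part R143/R5t_395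
section

/-!
# Row 143 (S0194), RIG: quenched closing theorem with the frozen object `TS` (helper395)

166's `Ex M σ p N n r W` (R5q, QuS) ⟹ 778's `Ex` (QuF) ⟹ `TS` (QuT).

* `toQ` : 166's `Ex` gives 778's `Ex` for the giants `AA`
* `mu_on_EE`, `r0_mu` : the colourings `mu` (explored / fresh) in 166's language; `glue_mu`
* `close_cb`, `closeM_cb` : the closing identities with 778's coarse block `cb`
* `quenched` : on `rc0 hS`, sum over the fresh colours of the block sum of the root gap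
  `= 2 ^ #cells * (omz (-i) * TS / 3)` + sum of the outer parts
* `quenched_ends` : the touched cells are the hit vertices `hv`
-/

set_option autoImplicit false
set_option linter.unusedSectionVars false

noncomputable section

open scoped Classical

namespace Crest.Agent.R143.R5tx395

open Crest.Agent.R143.B0x346 Crest.Agent.R143.DelGx806 Crest.Agent.R143.DelRx806
  Crest.Agent.R143.JColx54 Crest.Agent.R143.RE0x723
open Crest.Agent.R143.NetUx346 (ff HitO hits exC Ey TS G3 Hex mem_ff mem_hits hv hv_eq sum_hits)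
open Crest.Agent.R143.Frame1x395 Crest.Agent.R143.Frame2x395 Crest.Agent.R143.Frame3x395
  Crest.Agent.R143.Frame4x395 Crest.Agent.R143.Frame8x395 Crest.Agent.R143.Frame9x395
  Crest.Agent.R143.Frame10x395
  Crest.Agent.R143.NonXx592 Crest.Agent.R143.Coarsex166 Crest.Agent.R143.Coarse2x166
  Crest.Agent.R143.C2Sx395 Crest.Agent.R143.C2SBx395 Crest.Agent.R143.C2SCx395
  Crest.Agent.R143.C2SDx395 Crest.Agent.R143.QuTx395
open Crest.Agent.R143.Resax778 (glue)
open Crest.Agent.R143.Flipx166 (lc)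
open Crest.Agent.R143.R5qx166 (AA EE AA_0 AA_1 AA_2 r0 r0_W r0_F tG tA tB)
open Crest.Agent.R143.QuFx778 (mu mt mt_w mt_b mt_free mu_on mu_free cb cb_eq pz cq clsCon Eo mem_Eo)
open Crest.Agent.R143.QuSx166 (kaT kbT Vr Wr fM fM' fa fb)
open Crest.Agent.R143.FinCx811 (Cs rc0 cell_mem)
open Crest.Agent.R143.Frame5x395 (sd mem_sd th th_spec)
open Splx117 (Lp InK gp)

section gen

variable {D C : Type} [Fintype D] [Fintype C] {M : CMap D C} {σ τ : C → ZMod 2} {p : D}
  {N n r : ℕ} {W : Set C} {i : ZMod 3}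






variable {T : ℕ → ℕ} {nn m : ℕ} {F : ℕ → Set D}


end gen

variable {S : Finset ℂ} {hS : GP (S : Set ℂ)} {σ τ : Cs hS → ZMod 2} {p : D0 S}
  {N n r : ℕ} {W : Set (Cs hS)} {i : ZMod 3}

/-- sites of the explored giants -/
abbrev sg (hS : GP (S : Set ℂ)) (σ : Cs hS → ZMod 2) (p : D0 S) (n r : ℕ) (W : Set (Cs hS))
    (i : ZMod 3) : ZMod 3 → Set ℂ := st (AA (rc0 hS) σ p n r W i)





end Crest.Agent.R143.R5tx395
end
end

-- ▼ part R143/HlFar_395
section

/-!
# Row 143 (S0194), RIG: `Hl` and `Far` for the white giant of the strand system (helper395)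

* `OffH M H B` : the cells of `H` and their neighbours are not in `B`; `face_ext` : then every face
  at a cell of `H` is in `Ext M H Z`, `Z ⊆ B`
* `arc_Rt`, `zc_sub`, `evS_zc` : the cells of a strand in `Rt` are in `Rt`; the blocking set is in
  `Rt ∪ R`
* `offH_rc` : `rc0 hS`, `H = Hc hS`, `B = RC hS B'` (422): no neighbour of a hull site is in `B'`;
  `offH_dns` : from `Dns S c L d` (829), `B'` in the disc of radius `L - 4 d`
* **`hl_far`** : `Hl`, `Far` for 166's giants `AA`, `W ⊇ Ext`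
* **`hl_far_sys`** : for the adapted giants `gA` of a system `Sys`; **`hl_far_evS`** : for the
  strand system `EvS` of 358
* `hf_sys`, **`hf_evS`** : the same as `HF`, the latter from `Dns` and regions of sites
* **`fresh_ts`** : the field `fresh` of 166's system with `TS`; **`ends_ts`** : sum of the displacements
  over the coarse block, in terms of the hit vertices; `yv_ts` : hit of the closed map = hit vertex
-/

set_option autoImplicit false
set_option linter.unusedSectionVars false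

noncomputable section

open scoped Classical

namespace Crest.Agent.R143.HlFarx395

open Crest.Agent.R143.B0x346 Crest.Agent.R143.DelGx806 Crest.Agent.R143.DelRx806
  Crest.Agent.R143.RE0x723
open Crest.Agent.R143.NetUx346 (ff HitO hits exC Ey TS G3 Hex mem_ff mem_hits hv hv_eq sum_hits)
open Crest.Agent.R143.Frame1x395 Crest.Agent.R143.Frame2x395 Crest.Agent.R143.Frame3x395
  Crest.Agent.R143.Frame4x395 Crest.Agent.R143.Frame8x395 Crest.Agent.R143.Frame9x395
  Crest.Agent.R143.Frame10x395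
open Crest.Agent.R143.NonXx592 (P)
open Crest.Agent.R143.Gntx535 (wl wr mem_wl mem_wr)
open Crest.Agent.R143.Extx358 (Ad Ext Bd)
open Crest.Agent.R143.OutSx358 (ac zc coe_ac Sys gA gR ga gr wg rt OO)
open Crest.Agent.R143.SysSx358 (Bs Lst pS nS EvS Good base_list)
open Crest.Agent.R143.Strandx535 (fc)
open Crest.Agent.R143.R5qx166 (AA EE AA_0 AA_1 AA_2 per tG tA tB)
open Crest.Agent.R143.C2SCx395 (Hl Far st)
open Crest.Agent.R143.C2SDx395 (zf)
open Crest.Agent.R143.QuTx395 (tf)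
open Crest.Agent.R143.FinCx811 (Cs rc0)
open Crest.Agent.R143.Frame5x395 (sd mem_sd th th_spec)
open Crest.Agent.R143.RcTx422 (Hc RC Hc_one Hc_eq Hc_RC)
open Crest.Agent.R143.SysCx166 (Vg Vb mx)

section gen

variable {D C : Type} {M : CMap D C} {H Z B R Rt : Set C}

/-- the cells of `H` and their neighbours are not in `B` -/
def OffH (M : CMap D C) (H B : Set C) : Prop :=
  (∀ c ∈ H, c ∉ B) ∧ ∀ c ∈ H, ∀ c', Ad M c c' → c' ∉ B

theorem OffH.mono {B' : Set C} (h : OffH M H B) (hB : B' ⊆ B) : OffH M H B' :=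
  ⟨fun c hc h' => h.1 c hc (hB h'), fun c hc c' ha h' => h.2 c hc c' ha (hB h')⟩



variable [Fintype D] [Fintype C] {Q : Set D} {σ τ : C → ZMod 2} {d e : D} {n : ℕ}
  {X : D → (C → ZMod 2) → Prop}

/-- **the cells of a strand in `Rt` are in `Rt`** -/
theorem arc_Rt (L : Lst M Rt d σ e n) (hd : cfg M σ d = 1) (hn : 0 < n) {c : C}
    (hc : c ∈ ac M e n σ) : c ∈ Rt := by
  have L' := L.move hd L.self
  rw [L'.ac_eq L.occ] at hc
  have h0 := L.inn 0 hn
  exact Strandx535.Sd_sub L.occ h0.1 h0.2.1 hc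

/-- the blocking set of a strand in `Rt` -/
theorem zc_sub (L : Lst M Rt d σ e n) (hd : cfg M σ d = 1) (hn : 0 < n) :
    zc M R e n σ ⊆ Rt ∪ R := by
  rintro c (hc | hc)
  · left
    refine arc_Rt L hd hn ?_
    rw [← Finset.mem_coe, coe_ac]
    exact hc
  · exact Or.inr hc.1


end gen

variable {S : Finset ℂ} {hS : GP (S : Set ℂ)}



variable {σ τ : Cs hS → ZMod 2} {p : D0 S} {n r : ℕ} {W Z B R Rt : Set (Cs hS)} {i : ZMod 3}
  {H : Set (Cs hS)}


section sys

variable {ι : Type} {Q : Set (D0 S)} {pa : ι → (Cs hS → ZMod 2) → D0 S}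
  {na : ι → (Cs hS → ZMod 2) → ℕ} {Ev : ι → (Cs hS → ZMod 2) → Prop} {j : ι} {k : ZMod 3}
  {d₀ : D0 S}



/-- giants of a good colouring -/
structure HF (A : ZMod 3 → Set (Cs hS)) (k : ZMod 3) : Prop where
  hl : Hl A (k + 2)
  far : Far A (k + 2)






end sys

end Crest.Agent.R143.HlFarx395
end
end

-- ▼ part R143/StS_277
section

/-!
# Row 143 (S0194), block H, H5 (S1), site half: the three patterns have the same static means
(helper277)

`K 0, K 1, K 2` = three sets of cells (cells of the ring loop first revealed in the three arcs), `W` =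
the outside. Pattern `k` = giants `Ap K W k` : `K j` for `j ≠ k`, `K k ∪ W` for `j = k`.

* `K3o S A O` : K33 for classes with a root triangle (`O` = its rotations, never a hit); `k3o_root`
* `hit_same` : same free sites, same labels next to the free sites, a centre: the same hits
* **`hit_iff`** : `Hit (rc0 hS) (Ap K W k) i T d ↔ Hit (rc0 hS) (Ap K W l) i T d`
* **`ez_same`** : `Ez (rc0 hS) (Ap K W k) i z = Ez (rc0 hS) (Ap K W l) i z`, every `z : Cs hS → ℂ`
* **`ey_same`**, **`ts_same`** : the same for `Ey`, `TS` of the sites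
* `ctr_of`, `ctr_regions` : the centre from a free cell and three chains to the outside
-/

set_option autoImplicit false

noncomputable section

open scoped Classical

namespace Crest.Agent.R143.StSx277

open Crest.Agent.R143.B0x346 Crest.Agent.R143.DelGx806 Crest.Agent.R143.DelRx806
open Crest.Agent.R143.JColx54 (Adj adj_tri adj_tri' adj_tri'' delT_rot)
open Crest.Agent.R143.RE0x723 (Pth Pth.refl Pth.snd Pth.trans Pth.tail Pth.single Pth.symm Pth.mono
  Pth.ind Pth.self)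
open Crest.Agent.R143.K33x877 (Clu fr CtrT CtrX Cls k3xx k3tx)
open Crest.Agent.R143.RB2x54 (Vt)
open Crest.Agent.R143.NetUx346
open Crest.Agent.R143.Loc8x277

variable {S S' : Finset ℂ} {A A' : ZMod 3 → Set ℂ} {O O' : Set (ℂ × ℂ × ℂ)} {X : Set ℂ}
  {i m : ZMod 3}

/-! ### K33 with a root -/

/-- K33, the triangles of `O` do not count and are never hits -/
structure K3o (S : Finset ℂ) (A : ZMod 3 → Set ℂ) (O : Set (ℂ × ℂ × ℂ)) : Prop where
  gp : GP (S : Set ℂ)
  tx : ∀ t X, CtrT S A t → t ∉ O → ¬ CtrX S A X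
  xx : ∀ X Y, CtrX S A X → CtrX S A Y → ¬ Disjoint X Y
  no : ∀ (i : ZMod 3) (T : Set ℂ) (t : ℂ × ℂ × ℂ), HitO S A i T t → t ∉ O








/-! ### the three patterns -/

section pat

open Crest.Agent.R143.Frame1x395 Crest.Agent.R143.Frame10x395 Crest.Agent.R143.C2SBx395
  Crest.Agent.R143.C2SCx395 Crest.Agent.R143.C2SDx395 Crest.Agent.R143.K33x137
open Crest.Agent.R143.FinCx811 (Cs rc0 cell_mem)
open Crest.Agent.R143.Frame5x395 (sd mem_sd th th_spec)





variable {hS : GP (S : Set ℂ)} {K : ZMod 3 → Set (Cs hS)} {W : Set (Cs hS)} {k l j : ZMod 3}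
  {g g' : D0 S}

theorem cls_of {A : ZMod 3 → Set (Cs hS)} (G : Gi (rc0 hS) A) : Cls S (st A) :=
  ⟨(g3 G).gp, (g3 G).sub, (g3 G).disj, (g3 G).con⟩














/-! ### the centre -/




end pat

end Crest.Agent.R143.StSx277
end
end

-- ▼ part R143/UKinA_359

/-!
# Row 143 (S0194), RIG, R10: the fields `rt`, `ng`, `outs`, `far` of `UKin` for the giants of a strand
(helper359)

White label `k + 2`; giants `AA (rc0 hS) σ q n r (Ww ..) k` of the arc `0 .. n` from `q`, root gap `r`;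
`zc` = blocking set of the arc. The same for 358's adapted giants `gA` of a system `Sys`.

* `tri_rt` : giants `A` of the cells with a root gap, hull cells in `A (k + 2)`: a rotation `o` of the
  root triangle with `TrR S o (k + 2) (st A)`, `NegO (st A) o`
* **`rt_ex`**, **`rt_sys`** : fields `rt`, `ng`
* `aa_sub` : a cell of a giant is in `Ext` or in `zc`
* `ext_of_pth` : a chain of sites off `Z` from a hull site is in `Ext`; `ext_out` : the sites outside
* **`outs_aa`**, **`outs_sys`** : field `outs` for a layout `LayU`, `zc` in the tile regions, from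
  `Dns`; `hin_cor` : the far points for 133's environment
* **`far_aa`**, **`far_sys`** : field `far`, from 697's `sepH` and 523's `K0`
-/

set_option autoImplicit false
set_option linter.unusedSectionVars false

noncomputable section

open scoped Classical

namespace Crest.Agent.R143.UKinAx359

open Crest.Agent.R143.B0x346 Crest.Agent.R143.DelGx806 Crest.Agent.R143.DelRx806
open Crest.Agent.R143.JColx54 (Adj adj_tri adj_tri' adj_tri'' delT_rot)
open Crest.Agent.R143.RE0x723 (Pth Pth.snd Pth.symm)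
open Crest.Agent.R143.K33x877 (TrR)
open Crest.Agent.R143.Hexx877 (NegO)
open Crest.Agent.R143.K33x877 (CtrT Cls)
open Crest.Agent.R143.Frame1x395 Crest.Agent.R143.Frame8x395 Crest.Agent.R143.Frame9x395 Crest.Agent.R143.Frame10x395
  Crest.Agent.R143.C2SBx395 Crest.Agent.R143.C2SCx395
open Crest.Agent.R143.FinCx811 (Cs rc0 cs)
open Crest.Agent.R143.Frame5x395 (sd mem_sd th th_spec)
open Crest.Agent.R143.OutSx358 (Sys gA gR zc rr_spec)
open Crest.Agent.R143.Extx358 (Ext Ad mem_wl')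
open Crest.Agent.R143.R5qx166 (AA AA_2 AA_cases Ex)
open Crest.Agent.R143.HlFarx395 (HF)
open Crest.Agent.R143.RcTx422 (Hc RC cs_Hc hull_mem rtg_rc)
open Crest.Agent.R143.OutCx571 (Far)
open Crest.Agent.R143.TileRx228 (RR)
open Crest.Agent.R143.DomAx722 (Dns)
open Crest.Agent.R143.PolyUx346 Crest.Agent.R143.LayUx416
open Crest.Agent.R143.Brkx478 (Bk cells)

variable {S : Finset ℂ} {hS : GP (S : Set ℂ)} {A : ZMod 3 → Set (Cs hS)} {k : ZMod 3} {g : D0 S}

theorem z3k : ∀ k : ZMod 3, k = 0 ∨ k = 1 ∨ k = 2 := by decide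

/-- a triangle with one site in every class -/
theorem ctrT_of {t : ℂ × ℂ × ℂ} {B : ZMod 3 → Set ℂ} (h : t ∈ delT S) {a b c : ZMod 3}
    (ha : t.1 ∈ B a) (hb : t.2.1 ∈ B b) (hc : t.2.2 ∈ B c)
    (hd : ∀ i : ZMod 3, i = a ∨ i = b ∨ i = c) : CtrT S B t := by
  refine ⟨h, fun i => ?_⟩
  rcases hd i with rfl | rfl | rfl
  · exact ⟨_, Or.inl rfl, ha⟩
  · exact ⟨_, Or.inr (Or.inl rfl), hb⟩
  · exact ⟨_, Or.inr (Or.inr rfl), hc⟩

/-- the root triangle, rotated so that it is `NegO` -/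
theorem ex_neg (R : Root (rc0 hS) A k g) : ∃ o, CtrT S (st A) o ∧ NegO (st A) o := by
  have ht : (g.1.1, g.1.2, th S g.1) ∈ delT S := th_spec g.2
  obtain ⟨m1, m2, m3⟩ := mem3 hS ht
  have h1 : g.1.1 ∈ st A (k + 1) := (st_mem m1 rfl).2 R.r0
  have h2 : g.1.2 ∈ st A k := (st_mem m2 rfl).2 R.r1
  have h3 : th S g.1 ∈ st A (k + 2) := (st_mem m3 rfl).2 R.r2
  rcases z3k k with rfl | rfl | rfl
  · exact ⟨(g.1.2, th S g.1, g.1.1), ctrT_of (delT_rot hS ht) h2 h3 h1 (by decide), h2, h3, h1⟩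
  · exact ⟨(th S g.1, g.1.1, g.1.2), ctrT_of (delT_rot hS (delT_rot hS ht)) h3 h1 h2 (by decide),
      h3, h1, h2⟩
  · exact ⟨(g.1.1, g.1.2, th S g.1), ctrT_of ht h1 h2 h3 (by decide), h1, h2, h3⟩

/-- **`rt` and `ng`** : giants with a root gap and the hull cells in the white giant -/
theorem tri_rt (G : Gi (rc0 hS) A) (R : Root (rc0 hS) A k g) (H : Hl A (k + 2)) :
    ∃ o, TrR S o (k + 2) (st A) ∧ NegO (st A) o := by
  obtain ⟨o, h1, h2⟩ := ex_neg R
  refine ⟨o, ⟨StSx277.cls_of G, h1, fun i _ x _ h h' hh hp => ?_⟩, h2⟩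
  have ha : Adj S h h' := by
    rcases hh with hh | hh
    · exact Or.inl hh.1
    · exact Or.inr hh.1
  have ho : OnHull S h := by
    rcases hh with hh | hh
    · exact onHull_left hS hh
    · exact ⟨_, hh⟩
  obtain ⟨c, hc⟩ := cell_ex (hS := hS) ha
  exact Pth.snd hp ((st_mem ha.mem.1 hc).2 (H c h ho hc))

/-- **`rt` and `ng`** for the giants of a strand -/
theorem rt_ex {σ : Cs hS → ZMod 2} {q : D0 S} {N n r : ℕ} {W : Set (Cs hS)}
    (X : Ex (rc0 hS) σ q N n r W) (H : Hl (AA (rc0 hS) σ q n r W k) (k + 2)) :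
    ∃ o, TrR S o (k + 2) (st (AA (rc0 hS) σ q n r W k)) ∧
      NegO (st (AA (rc0 hS) σ q n r W k)) o := tri_rt X.gi X.root H

/-- **a cell of a giant is in the exterior or in the blocking set** -/
theorem aa_sub {σ : Cs hS → ZMod 2} {q : D0 S} {n r : ℕ} {R : Set (Cs hS)} (hr : r ≤ n)
    {l : ZMod 3} {c : Cs hS}
    (hc : c ∈ AA (rc0 hS) σ q n r (Extx358.Ww (rc0 hS) (Hc hS) R q n σ) k l) :
    Ext (rc0 hS) (Hc hS) (zc (rc0 hS) R q n σ) c ∨ c ∈ zc (rc0 hS) R q n σ := by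
  have hL : ∀ u, u ≤ n → Splx117.lc (rc0 hS) (cfg (rc0 hS) σ) q u = c →
      c ∈ zc (rc0 hS) R q n σ := by
    intro u hu e
    exact Or.inl (Or.inl (mem_wl'.2 ⟨u, hu, e⟩))
  rcases AA_cases hc with ⟨-, hc⟩ | ⟨-, hc⟩ | ⟨-, hc⟩
  · obtain ⟨u, -, h2, h3⟩ := hc
    exact Or.inr (hL u h2 h3)
  · obtain ⟨u, h2, h3⟩ := hc
    exact Or.inr (hL u (h2.trans hr) h3)
  · rcases hc with (hc | hc) | hc
    · exact Or.inl hc
    · exact Or.inr hc.1
    · exact Or.inr (Or.inl (Or.inr hc))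

/-! ### chains of sites -/

/-- **a chain of sites off `Z` to a hull site** -/
theorem ext_of_pth (h3 : 3 ≤ S.card) {V : Set ℂ} {Z : Set (Cs hS)} {x u : ℂ} (hu : u ∈ S)
    (hx : OnHull S x) (h : Pth S V u x)
    (hV : ∀ v ∈ V, ∀ c : Cs hS, c.1 = Quot.mk _ v → c ∉ Z) {c : Cs hS}
    (e : c.1 = Quot.mk _ u) : Ext (rc0 hS) (Hc hS) Z c := by
  have hp := Pth.symm h
  have hxS := hull_mem hx
  have h1 := rtg_rc (hS := hS) h3 (u := ⟨x, hxS⟩) (w := ⟨u, hu⟩) (Q := fun v => v ∈ V)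
    (Q' := fun b => b ∉ Z) (fun v hv => hV v.1 hv _ rfl) hp.2
  have e0 : cs hS h3 ⟨u, hu⟩ = c := Subtype.ext e.symm
  rw [e0] at h1
  have h0 : Ext (rc0 hS) (Hc hS) Z (cs hS h3 ⟨x, hxS⟩) :=
    Ext.hull (cs_Hc h3 hx) (hV x hp.1 _ rfl)
  have key : ∀ b, Relation.ReflTransGen (fun a b => Ad (rc0 hS) a b ∧ b ∉ Z)
      (cs hS h3 ⟨x, hxS⟩) b → Ext (rc0 hS) (Hc hS) Z b := by
    intro b hb
    induction hb with
    | refl => exact h0
    | tail _ h2 ih => exact Ext.step ih h2.1 h2.2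
  exact key c h1

/-- a site off the region of the blocking set -/
theorem notMem_of_RC {B : Set ℂ} {Z : Set (Cs hS)} (hZ : Z ⊆ RC hS B) {v : ℂ} (hv : v ∉ B)
    {c : Cs hS} (e : c.1 = Quot.mk _ v) : c ∉ Z := by
  intro hc
  obtain ⟨s, -, hs, hn, e'⟩ := hZ hc
  have : v = s := quot_inner hS hn (e'.symm.trans e)
  exact hv (this ▸ hs)

/-- all tile regions -/
def Tl (A' B' h : ℝ) (W : ℤ → ℤ × ℤ) : Set ℂ := {s | ∃ a : ℤ, s ∈ RR A' B' h W a}

section lay

variable {u : Poly} {m M : ℕ} {p W : ℤ → ℤ × ℤ} {aa e : ℤ → ℤ}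
  {R : Set (Cs hS)} {σ : Cs hS → ZMod 2} {q : D0 S} {n r : ℕ}

/-- **the sites outside are in `Ext`** -/
theorem ext_out (L : LayU u m M p W aa e) {h : ℝ} (hh : (m : ℝ) * h = u.s) {cc : ℂ}
    {Lr d A' B' : ℝ} (hD : Dns S cc Lr d)
    (hin : ∀ z, Lr - 2 * d ≤ ‖z - cc‖ → z ∈ Far u.s (3 / 2 * h) (cells (u.U : Set Bk)))
    (hB : 0 ≤ B') (hBh : B' ≤ h) (hA : h + A' ≤ 3 / 2 * h - 2 * d) {Z : Set (Cs hS)}
    (hz : Z ⊆ RC hS (Tl A' B' h W)) {s : ℂ} (hs : s ∈ S)
    (ho : s ∈ Far u.s (3 / 2 * h) (cells (u.U : Set Bk))) {c : Cs hS} (e : c.1 = Quot.mk _ s) :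
    Ext (rc0 hS) (Hc hS) Z c := by
  have h0 := L.h_pos hh
  have hm := L.m_pos
  have hh' : (((m : ℕ) : ℤ) : ℝ) * h = u.s := by rw [Int.cast_natCast]; exact hh
  obtain ⟨x, y, hxy⟩ := exists_hull hD.gp hD.card
  obtain ⟨hp, -⟩ := LnkGx372.out_path (m := (m : ℤ)) (F := cells (u.U : Set Bk)) h0 (by omega)
    (fun q hq q' hq' => OutPx571.con_compl u.con' q hq q' hq') hD
    (fun z hz => by rw [hh']; exact hin z hz) hs
    (by rw [hh']; exact ⟨s, ho, REwx838.self_cell s⟩) hxy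
  refine ext_of_pth hD.card hs (onHull_left hS hxy) hp ?_ e
  rintro v ⟨-, hv⟩ c' e'
  refine notMem_of_RC hz ?_ e'
  rintro ⟨a, ha⟩
  exact LnkGx372.far_off L.fine h0 (by omega) hB hBh hA hv a ha

/-- **field `outs`** -/
theorem outs_aa (L : LayU u m M p W aa e) {h : ℝ} (hh : (m : ℝ) * h = u.s) {cc : ℂ}
    {Lr d A' B' : ℝ} (hD : Dns S cc Lr d)
    (hin : ∀ z, Lr - 2 * d ≤ ‖z - cc‖ → z ∈ Far u.s (3 / 2 * h) (cells (u.U : Set Bk)))
    (hB : 0 ≤ B') (hBh : B' ≤ h) (hA : h + A' ≤ 3 / 2 * h - 2 * d)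
    (hz : zc (rc0 hS) R q n σ ⊆ RC hS (Tl A' B' h W)) :
    ∀ s ∈ S, (∀ z ∈ u.P, 2 * h < |(s - z).re| ∨ 2 * h < |(s - z).im|) →
      s ∈ st (AA (rc0 hS) σ q n r (Extx358.Ww (rc0 hS) (Hc hS) R q n σ) k) (k + 2) := by
  intro s hs ho
  have h0 := L.h_pos hh
  have hf : s ∈ Far u.s (3 / 2 * h) (cells (u.U : Set Bk)) := by
    intro w hw
    have h1 := ho w hw
    rw [Complex.sub_re, Complex.sub_im] at h1
    rcases h1 with h1 | h1
    · exact lt_of_lt_of_le (by linarith) (le_max_left _ _)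
    · exact lt_of_lt_of_le (by linarith) (le_max_right _ _)
  have h3 : 3 ≤ S.card := hD.card
  refine ⟨hs, cs hS h3 ⟨s, hs⟩, ?_, rfl⟩
  have h4 := ext_out L hh hD hin hB hBh hA hz hs hf (c := cs hS h3 ⟨s, hs⟩) rfl
  rw [AA_2]
  exact Or.inl (Or.inl h4)

/-- **field `far`** : `K0` of 523, `hE` = 697's `sepH` -/
theorem far_aa (L : LayU u m M p W aa e) {h : ℝ} (hh : (m : ℝ) * h = u.s) {A0 A' B' B0 : ℝ}
    (hA : A' ≤ A0) (hB' : B' ≤ B0) (hB : 0 ≤ B0) (hBh : B0 ≤ h) (hA0 : A0 ≤ h / 2)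
    (hr : r ≤ n) (hz : zc (rc0 hS) R q n σ ⊆ RC hS (Tl A' B' h W))
    (hE : ∀ w ∈ RegSx523.K0 h A0 u, ∀ c : Cs hS, c.1 = Quot.mk _ w →
      ¬ Ext (rc0 hS) (Hc hS) (zc (rc0 hS) R q n σ) c) :
    ∀ l, ∀ s ∈ st (AA (rc0 hS) σ q n r (Extx358.Ww (rc0 hS) (Hc hS) R q n σ) k) l,
      ∀ z ∈ u.P, h / 2 ≤ ‖s - z‖ := by
  intro l s hs z hz'
  by_contra hc
  push Not at hc
  obtain ⟨hsS, c, hc1, e⟩ := hs
  have hK : s ∈ RegSx523.K0 h A0 u := by
    have g1 := Complex.abs_re_le_norm (s - z)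
    have g2 := Complex.abs_im_le_norm (s - z)
    rw [Complex.sub_re] at g1
    rw [Complex.sub_im] at g2
    exact ⟨z, hz', by linarith, by linarith⟩
  have hoff := RegSx523.K0_off (A := A0) (B := B0) L hh hB hBh s hK
  rcases aa_sub hr hc1 with h1 | h1
  · exact hE s hK c e h1
  · refine notMem_of_RC hz ?_ e h1
    rintro ⟨a, ha⟩
    exact hoff a (TileRx228.RR_mono hA hB' h W a ha)

/-- the far points for 133's environment -/
theorem hin_cor (L : LayU u m M p W aa e) {h d : ℝ} (hh : (m : ℝ) * h = u.s) (hd : d ≤ 1 / 100)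
    {z : ℂ} (hz : CorEx133.RU u - 2 * d ≤ ‖z - 0‖) :
    z ∈ Far u.s (3 / 2 * h) (cells (u.U : Set Bk)) := by
  refine OutCx571.far_of_dist fun w hw => ?_
  have h1 := CorEx133.P_norm u (z := w) hw
  have h2 := CorEx133.one_le_Rp u
  have h3 := CorEx133.h_le L hh
  have h4 := norm_sub_norm_le z w
  rw [sub_zero] at hz
  unfold CorEx133.RU at hz
  linarith

end lay

section sys

variable {ι : Type} {R : Set (Cs hS)} {Q : Set (D0 S)} {pa : ι → (Cs hS → ZMod 2) → D0 S}
  {na : ι → (Cs hS → ZMod 2) → ℕ} {Ev : ι → (Cs hS → ZMod 2) → Prop} {σ : Cs hS → ZMod 2}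
  {j : ι}


variable {u : Poly} {m M : ℕ} {p W : ℤ → ℤ × ℤ} {aa e : ℤ → ℤ}



end sys

end Crest.Agent.R143.UKinAx359
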