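import Crest.Agent.R143.FinK_894
import Crest.Agent.R143.MomI_854
import Crest.Agent.R143.UKinA_359
import Crest.Agent.R143.UKLowH_568
import Crest.Agent.R143.SxZ_832
import Crest.Agent.R143.PlR_930
import Crest.Agent.R143.TileM_683
import Crest.Agent.R143.FinC_811
import Crest.Agent.R143.DomB_722
import Crest.Agent.R143.CorrD_117
import Crest.Agent.R143.GiantE_197
import Crest.Agent.R143.OutC_571
import Crest.Agent.R143.TileR1_228
import Crest.Agent.R143.TileR2_228
import Crest.Agent.R143.Eng_490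
import Crest.Agent.R143.RcT_422
import Crest.Agent.R143.DCorF_713
import Crest.Agent.R143.Spt_832
import Crest.Agent.R143.ColX_829
import Crest.Agent.R143.SpR2_169
import Crest.Agent.R143.TileF_176
import Crest.Agent.R143.CorV_169
import Crest.Agent.R143.VTc_169
import Crest.Agent.R143.GPosC_348
import Crest.Agent.R143.GWX_597
import Crest.Agent.R143.Hq_304
import Crest.Agent.R143.QuW_810
import Crest.Agent.R143.SysC_166
import Crest.Agent.R143.PL_535
import Crest.Agent.R143.PLS_535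
import Crest.Agent.R143.GPm_653
import Crest.Agent.R143.QuenJ_597
import Crest.Agent.R143.BrZ_609_Mg
import Crest.Agent.R143.StgI_432

-- ▼ part R143/FinL_894
section

/-!
# Row 143 (S0194): second moments at the concrete template (helper894)

* `aeZ` : almost sure positivity of the template; **`momZ_of : QFD 1000 (1 / 100) → MomZ`** (854)
-/

set_option autoImplicit false

noncomputable section

open scoped Classical

namespace Crest.Agent.R143.FinLx894

open MeasureTheory Set Filter Topology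
open Crest.ProbabilityR.Voronoi
open Crest.Agent.R143.Finx894 Crest.Agent.R143.FinJx894 Crest.Agent.R143.FinKx894
open Crest.Agent.R143.MomIx854 (QFD)

/-- almost sure positivity of the template -/
theorem aeZ (N : ℕ) : ∀ᶠ ε : ℝ in 𝓝[>] 0, ∀ he : 0 < ε, (Z.raw N he).AePos :=
  TDatx204.ae_of TQx73.tq N

/-- **(I) from the quenched bound of a full tile** -/
theorem momZ_of (h : QFD 1000 (1 / 100)) : MomZ := by
  obtain ⟨C1, h1, h2⟩ := MomIx854.mom posZ aeZ (ρ0 := 1000) (d0 := 1 / 100) (by norm_num)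
    (by norm_num) (by norm_num) h
  exact fun u w => ⟨C1, h1, h2 u w⟩

/-- **the row** -/
theorem leaf_q (h : QFD 1000 (1 / 100)) (he : EnvZ) : Leaf894 := leaf_fin (momZ_of h) he

end Crest.Agent.R143.FinLx894
end
end

-- ▼ part R143/UKinS_571
section

/-!
# Row 143 (S0194), RIG, box (7): 923's `UKin` for 358's giants, shadow (helper571)

* **`uk_S`** : `UKin` on a fixed set of sites from `LayU`, `CorH`, `SDS`, `EvA` (571 / 568 / 359 / 697)
* **`uk_sx`** : `UKin` for the giants `GI` of 597's `Sx` with `R = Rc hS w N`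
* **`ukr_sx`** : 930's `UKR`; **`uk_env`** : the field `uk` of 894's `EnvD`
-/

set_option autoImplicit false
set_option linter.unusedSectionVars false

noncomputable section

open scoped Classical

namespace Crest.Agent.R143.UKinSx571

open Crest.Agent.R143.B0x346 Crest.Agent.R143.DelGx806 Crest.Agent.R143.DelRx806
open Crest.Agent.R143.Frame1x395 Crest.Agent.R143.Frame2x395 Crest.Agent.R143.Frame3x395
  Crest.Agent.R143.Frame4x395 Crest.Agent.R143.Frame8x395 Crest.Agent.R143.Frame9x395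
  Crest.Agent.R143.Frame10x395 Crest.Agent.R143.Frame11x395
open Crest.Agent.R143.WLocx713 Crest.Agent.R143.RingDx117
open Crest.Agent.R143.TileRx228
open Crest.Agent.R143.C2SBx395 (Root)
open Crest.Agent.R143.C2SCx395 (st Hl)
open Crest.Agent.R143.FinCx811 (Cs rc0 rcol cs)
open Crest.Agent.R143.RcTx422 (Hc RC Hc_eq)
open Crest.Agent.R143.R5qx166 (AA AA_2)
open Crest.Agent.R143.Extx358 (Ext)
open Crest.Agent.R143.OutSx358 (zc ac)
open Crest.Agent.R143.CorHx713
open Crest.Agent.R143.SepHx697 (BR)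
open Crest.Agent.R143.Layx416 (Lay g al mi be nn rr jj)
open Crest.Agent.R143.LayUx416 (LayU)
open Crest.Agent.R143.PolyUx346 (Poly)
open Crest.Agent.R143.DomAx722 (Dns)
open Crest.Agent.R143.OutCx571 (Far)
open Crest.Agent.R143.Brkx478 (cells)
open Crest.Agent.R143.R10Px923 (UKin Use Nw)
open Crest.Agent.R143.CorrIx831 (SDS Bk Col col_eq)
open Crest.Agent.R143.SysAx168 (EvA)
open Crest.Agent.R143.Uniqx323 (Zn)
open Crest.Agent.R143.UKinCx571 (gA_AA root Ag reg_gA)
open Crest.Agent.R143.UKinBx571 (z3e)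
open Crest.Agent.R143.UKLowx568 (low_gA nk_gA)
open Crest.Agent.R143.UKinAx359 (Tl rt_ex outs_aa far_aa)

section fix

variable {S : Finset ℂ} {hS : GP (S : Set ℂ)} {Rw : Set (Cs hS)} {h₀ : Cs hS}
  {Z : Zn (rc0 hS)} {s : Cs hS → ZMod 2} {q : D0 S} {T : ℕ → ℕ} {N : ℕ} {p : ℕ → D0 S}
  {X : Set (ℂ × Bool)} {U : Set ℂ} {M mm : ℕ} {u : Poly} {p' W : ℤ → ℤ × ℤ} {A e : ℤ → ℤ}
  {η d : ℝ} {i : ZMod 3}

/-- the polygon is not in `Ext` -/
theorem notExt (L : LayU u mm M p' W A e) (hh : (mm : ℝ) * (100 * η) = u.s)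
    (H : CorH X U M W η d (al A e i) (nn A e i)) (h3 : 3 ≤ S.card) (C : Col hS X s)
    (h0 : h₀ ∈ Hc hS)
    (hp : ∀ k : ℕ, (p k).1 = (yy η W X (al A e i + k), xx η W X (al A e i + k)))
    (hT : SDS hS s η W (al A e i) (nn A e i) p q N T)
    (hR2 : ∀ v ∈ S, v ∈ BR η W M (al A e i) (nn A e i) → ∃ c ∈ Rw, c.1 = Quot.mk _ v) :
    ∀ v ∈ RegSx523.K0 (100 * η) (10 * η) u, ∀ c : Cs hS, c.1 = Quot.mk _ v →
      ¬ Ext (rc0 hS) (Hc hS) (zc (rc0 hS) Rw q (T (nn A e i)) s) c := by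
  obtain rfl : sX X = S := C.e
  obtain rfl := col_eq H.hull h3 C
  have hpe : p = H.p := by
    funext k
    exact Subtype.ext (hp k)
  subst hpe
  have h := (SepSx697.notExt_sd L hh H hR2 h0 (Rs := RD (sX X) (CorrIx831.Rts η W (al A e i)
    (nn A e i))) (q := q) (N := N) (T := T) hT).1
  rw [← Hc_eq h0] at h
  exact h

/-- **`UKin` on a fixed set of sites** -/
theorem uk_S (L : LayU u mm M p' W A e) (hh : (mm : ℝ) * (100 * η) = u.s)
    (H : CorH X U M W η d (al A e i) (nn A e i)) (h3 : 3 ≤ S.card) (C : Col hS X s)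
    (h0 : h₀ ∈ Hc hS)
    (hp : ∀ k : ℕ, (p k).1 = (yy η W X (al A e i + k), xx η W X (al A e i + k)))
    (hT : SDS hS s η W (al A e i) (nn A e i) p q N T)
    (hE : EvA (rc0 hS) {h₀} Rw (RD S (Bk η W (al A e i) (rr A e i - 1))) Z (q, T (nn A e i)) s)
    (hR1 : ∀ c ∈ Rw, ∃ v ∈ S, v ∈ BR η W M (al A e i) (nn A e i) ∧ c.1 = Quot.mk _ v)
    (hR2 : ∀ v ∈ S, v ∈ BR η W M (al A e i) (nn A e i) → ∃ c ∈ Rw, c.1 = Quot.mk _ v)
    {cc : ℂ} {Lr d' : ℝ} (hD : Dns S cc Lr d') (hd : d' ≤ η)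
    (hin : ∀ z, Lr - 2 * d' ≤ ‖z - cc‖ → z ∈ Far u.s (3 / 2 * (100 * η)) (cells (u.U : Set _)))
    (hz : zc (rc0 hS) Rw q (T (nn A e i)) s ⊆ RC hS (Tl (19 / 2 * η) (103 / 2 * η) (100 * η) W)) :
    ∃ o, UKin S (Ag hS h₀ Rw Z η W A e i s) o i u.P (100 * η) (19 / 2 * η) (103 / 2 * η) (4 * η)
      (-η) η (-(9 * η)) (10 * η) η W A e := by
  have e0 := H.e0
  -- hull cells are white
  have hn : h₀ ∉ zc (rc0 hS) Rw q (T (nn A e i)) s := fun h => (HullCx40.nRC h0) (hz h)
  have hl : Hl (AA (rc0 hS) s q (T (nn A e i)) (OutSx358.rr (rc0 hS) (cfg (rc0 hS) s) q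
      (T (nn A e i)) (RD S (Bk η W (al A e i) (rr A e i - 1))))
      (Extx358.Ww (rc0 hS) {h₀} Rw q (T (nn A e i)) s) (i + 1)) (i + 1 + 2) := by
    intro c v hv e
    rw [AA_2, HullCx40.one h0 hv e]
    exact Or.inl (Or.inl (Ext.hull rfl hn))
  obtain ⟨o, h1, h2⟩ := rt_ex (k := i + 1) hE.2.ex hl
  rw [z3e] at h1
  have hA : Ag hS h₀ Rw Z η W A e i s = st (AA (rc0 hS) s q (T (nn A e i))
      (OutSx358.rr (rc0 hS) (cfg (rc0 hS) s) q (T (nn A e i))
        (RD S (Bk η W (al A e i) (rr A e i - 1))))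
      (Extx358.Ww (rc0 hS) {h₀} Rw q (T (nn A e i)) s) (i + 1)) := by
    unfold Ag
    rw [gA_AA hE]
  refine ⟨o, ?_, ?_, ?_, ?_, reg_gA L.lay H C.e hT hE, low_gA L hh H h3 C h0 hp hT hE hR1 hR2
    le_rfl le_rfl, nk_gA L hh H h3 C h0 hp hT hE hR1 hR2⟩
  · rw [hA]; exact h1
  · rw [hA]; exact h2
  · rw [hA, ← Hc_eq h0]
    exact far_aa L hh (A0 := 10 * η) (B0 := 53 * η) (by linarith) (by linarith) (by linarith)
      (by linarith) (by linarith) (root hE).1.le hz
      (notExt L hh H h3 C h0 hp hT hR2)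
  · rw [hA, ← Hc_eq h0]
    have h := outs_aa (k := i + 1) (r := OutSx358.rr (rc0 hS) (cfg (rc0 hS) s) q (T (nn A e i))
        (RD S (Bk η W (al A e i) (rr A e i - 1)))) L hh hD hin (A' := 19 / 2 * η)
      (B' := 103 / 2 * η) (by linarith) (by linarith) (by linarith) hz
    rw [z3e] at h
    exact h

end fix

/-! ### 597's `Sx` -/

section sx

open Crest.ProbabilityR.Voronoi
open Crest.Agent.R143.CorEx133
open Crest.Agent.R143.IndLoc3x279 (clr)
open Crest.Agent.R143.SmallAx304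
open Crest.Agent.R143.ColXx829 (Xc)
open Crest.Agent.R143.RigPx854 (ly ly_spec mN mN_hN hN hN_pos nT)
open Crest.Agent.R143.RigZdx609
open Crest.Agent.R143.QuenIx597
open Crest.Agent.R143.CorrIx831 (col_Xc)

variable {Z : TData} {u : Poly} {w : ZMod 3} {N : ℕ} {ε : ℝ} {hn : u.n + 4 ≤ N} {he : 0 < ε}
  {ω : Sample} {hS : GP (SU u ε ω : Set ℂ)} {h3 : 3 ≤ (SU u ε ω).card} {h₀ : Cs hS}
  {R : Set (Cs hS)} {Zz : Zn (rc0 hS)} {K1 c2 ρ0 : ℝ}

/-- the blocking set is in the tiles -/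
theorem zc_sub (X : Sx w Z hn he hS h3 h₀ R Zz) {q : D0 (SU u ε ω)} {n : ℕ} {s : Cs hS → ZMod 2}
    (hE : EvI hS w N h₀ R Zz (q, n) s) : zc (rc0 hS) R q n s ⊆
      RC hS (Tl (19 / 2 * et N) (103 / 2 * et N) (100 * et N) (ly u N).W) := by
  rintro c ((h | h) | ⟨h, -⟩)
  · exact X.zR (hE.1.lR (Finset.mem_coe.1 h))
  · exact X.zR (hE.1.rR (Finset.mem_coe.1 h))
  · exact X.rR h

/-- **`UKin` for the giants of one environment** -/
theorem uk_sx (X : Sx w Z hn he hS h3 h₀ R Zz) (C : CorEnv u ε √ε K1 c2 ρ0 ω)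
    (hd : 100 * √ε ≤ et N)
    (hR1 : ∀ c ∈ R, ∃ v ∈ SU u ε ω, v ∈ BR (et N) (ly u N).W (ly u N).M (oT u w N) (nT u w N) ∧
      c.1 = Quot.mk _ v)
    (hR2 : ∀ v ∈ SU u ε ω, v ∈ BR (et N) (ly u N).W (ly u N).M (oT u w N) (nT u w N) →
      ∃ c ∈ R, c.1 = Quot.mk _ v) {σ : Finset ℂ}
    (hg : 0 < gW Z u w hn he (clr (SU u ε ω) σ)) :
    ∃ o, UKin (SU u ε ω) (GI hS h3 w N h₀ R Zz σ) o w u.P (100 * et N) (19 / 2 * et N)
      (103 / 2 * et N) (4 * et N) (-et N) (et N) (-(9 * et N)) (10 * et N) (et N) (ly u N).W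
      (ly u N).A (ly u N).e := by
  have e0 := et_pos N
  have e1 := SxZx832.et_le hn
  have e2 := Real.sqrt_nonneg ε
  rw [← gW_xc (hS := hS) (h3 := h3) Z hn he C] at hg
  obtain ⟨p, q, k, T, hp, hT, hv⟩ := X.out _ hg
  exact uk_S (ly_spec hn) (mh hn) (X.cor _ hg) h3 (col_Xc hS h3 _) X.h0 hp hT hv.1 hR1 hR2 C.dns
    (by linarith) (fun z hz => UKinAx359.hin_cor (ly_spec hn) (mh hn) (by linarith) hz)
    (zc_sub X hv.1)

/-- the white strips of 832 -/
theorem rc_R1 : ∀ c ∈ SxZx832.Rc hS w N, ∃ v ∈ SU u ε ω,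
    v ∈ BR (et N) (ly u N).W (ly u N).M (oT u w N) (nT u w N) ∧ c.1 = Quot.mk _ v := by
  rintro c ⟨v, h1, h2, h3⟩
  exact ⟨v, h1, h2, h3⟩

theorem rc_R2 (h3 : 3 ≤ (SU u ε ω).card) : ∀ v ∈ SU u ε ω,
    v ∈ BR (et N) (ly u N).W (ly u N).M (oT u w N) (nT u w N) →
      ∃ c ∈ SxZx832.Rc hS w N, c.1 = Quot.mk _ v :=
  fun v h1 h2 => ⟨cs hS h3 ⟨v, h1⟩, ⟨v, h1, h2, rfl⟩, rfl⟩

/-- **930's `UKR`** -/
theorem ukr_sx (X : Sx w Z hn he hS h3 h₀ (SxZx832.Rc hS w N) Zz)
    (C : CorEnv u ε √ε K1 c2 ρ0 ω) (hd : 100 * √ε ≤ et N) {σ : Finset ℂ}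
    (hg : 0 < gW Z u w hn he (clr (SU u ε ω) σ)) :
    PlRx930.UKR u w N ε ω (GI hS h3 w N h₀ (SxZx832.Rc hS w N) Zz σ) := by
  have e0 := et_pos N
  have e1 := et_h N
  have e2 := Real.sqrt_nonneg ε
  obtain ⟨o, h⟩ := uk_sx X C hd rc_R1 (rc_R2 h3) hg
  exact PlRx930.ukr_of' he (by linarith) (by linarith) (by linarith) h

/-- **the field `uk` of 894's `EnvD`** -/
theorem uk_env (X : Sx w Z hn he hS h3 h₀ (SxZx832.Rc hS w N) Zz)
    (C : CorEnv u ε √ε K1 c2 ρ0 ω) (hd : 100 * √ε ≤ et N) :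
    ∀ σ ∈ (SU u ε ω).powerset, 0 < gW Z u w hn he (clr (SU u ε ω) σ) →
      ∃ (o : ℂ × ℂ × ℂ) (i : ZMod 3) (A1 B1 w' a0 a1 b0 b1 m' : ℝ), A1 ≤ B1 ∧ B1 < hN N ∧
        Nw (hN N) √ε w' a0 a1 b0 b1 m' ∧
        UKin (SU u ε ω) (GI hS h3 w N h₀ (SxZx832.Rc hS w N) Zz σ) o i u.P (hN N) A1 B1 w' a0 a1
          b0 b1 m' (ly u N).W (ly u N).A (ly u N).e := by
  intro σ _ hg
  obtain ⟨o, A1, B1, w0, a0, a1, b0, b1, m', h1, h2, h3, h4⟩ := ukr_sx X C hd hg
  exact ⟨o, w, A1, B1, w0, a0, a1, b0, b1, m', h1, h2, h3, h4⟩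

end sx

end Crest.Agent.R143.UKinSx571
end
end

-- ▼ part R143/TileW_490
section

/-!
# Row 143 (S0194), RIG, R6 second half: the window of a full tile, deterministic half (helper490)

Window `T` (cells), everything off `T` is ONE BLACK class (683's `piT T`, `bl T σ`).

* `win_blk` : a loop of `σ` with the cut times `Tm a ≤ .. ≤ Tm b` (`a + 3 ≤ b`); the states of the inner
  arcs `a + 1, .., b - 2` are in `T`, the left cells at the times `Tm a` and `Tm b` are not in `T`; the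
  field vanishes on the faces of the two outer arcs. Then the block path sum of the inner arcs is the
  sum over ONE block of the coarse map.
* `corr_win` : the same for 117's corridor `Corr` + `LinksO` (both directions), sum of the `ZZ`;
  `corr_le` : its square is at most the sum of the squares of the block sums (`hX` of `tile_one`)
* `Wv` : what is asked of a colouring; `corr_one` : **mean over the colours, weight of the rest**
-/

set_option autoImplicit false

noncomputable section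

open scoped Classical

namespace Crest.Agent.R143.TileWx490

open Crest.Agent.R143.Frame1x395 Crest.Agent.R143.Frame2x395 Crest.Agent.R143.Frame3x395
  Crest.Agent.R143.Frame4x395 Crest.Agent.R143.Frame8x395 Crest.Agent.R143.Frame9x395
  Crest.Agent.R143.NonXx592 Crest.Agent.R143.Coarsex166 Crest.Agent.R143.Giantx46
  Crest.Agent.R143.Resax778 Crest.Agent.R143.Partx778 Crest.Agent.R143.ChordCx357
  Crest.Agent.R143.Splx117 Crest.Agent.R143.TileMx683 Crest.Agent.R143.Gntx535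

variable {D C : Type} {M : CMap D C} {T : Finset C} {σ : C → ZMod 2}

theorem bl_on {c : C} (h : c ∈ T) : bl T σ c = σ c := if_pos h

theorem bl_off {c : C} (h : c ∉ T) : bl T σ c = 1 := if_neg h

/-- a black left cell: the right cell is white -/
theorem white {d : D} (h : cfg M σ d = 1) (hc : σ (M.cell d) = 1) : σ (M.cell (M.rho d)) = 0 := by
  have h1 : σ (M.cell d) + σ (M.cell (M.rho d)) = 1 := h
  rw [hc] at h1
  revert h1
  generalize σ (M.cell (M.rho d)) = v
  revert v; decide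

theorem cfg_zero {d : D} (h : cfg M σ d = 0) : σ (M.cell d) = σ (M.cell (M.rho d)) := by
  have h1 : σ (M.cell d) + σ (M.cell (M.rho d)) = 0 := h
  revert h1
  generalize σ (M.cell (M.rho d)) = v
  generalize σ (M.cell d) = u
  revert u v; decide

/-- **THE WINDOW** -/
theorem win_blk [Fintype D] [Fintype C] (hT : ClsCon M (piT T)) {q : D} {N : ℕ} (L : Lp M (cfg M σ) q N)
    {Tm : ℕ → ℕ} {a b : ℕ} (hab : a + 3 ≤ b)
    (mono : ∀ k, a ≤ k → k < b → Tm k ≤ Tm (k + 1)) (hN : Tm b ≤ Tm a + N)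
    (cut : Cut M (cfg M σ) q Tm a b) (hcol : σ (M.cell q) = 1)
    (hin : ∀ i, Tm (a + 1) ≤ i → i ≤ Tm (b - 1) →
      M.cell (P M (cfg M σ) q i) ∈ T ∧ M.cell (M.rho (P M (cfg M σ) q i)) ∈ T)
    (h0 : lc M (cfg M σ) q (Tm a) ∉ T) (h1 : lc M (cfg M σ) q (Tm b) ∉ T) :
    ∃ k₀, Gp M (cfg M (bl T σ)) k₀ ∧ ∀ {E : Type} [AddCommMonoid E] (w : D → E),
      (∀ i, (Tm a ≤ i ∧ i < Tm (a + 1)) ∨ (Tm (b - 1) ≤ i ∧ i < Tm b) →
        ∀ d ∈ Fa M (P M (cfg M σ) q i), w d = 0) →
      KS M (cfg M σ) q w (Tm (a + 1)) (Tm (b - 1)) =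
        ∑ g ∈ blk (coarse M (piT T) hT) (cfg M (bl T σ)) k₀, w g := by
  set x := cfg M σ with hx
  set y := cfg M (bl T σ) with hy
  have ev : IsC M ∅ x := cfg_isC σ
  have evy : IsC M ∅ y := cfg_isC _
  have occ : ∀ i, x (P M x q i) = 1 := P_occ ev L.occ
  have blk1 : ∀ i, σ (M.cell (P M x q i)) = 1 := fun i => by
    rw [it_col ev L.occ (χ := σ) (fun d hd => cfg_zero hd) i, hcol]
  have wht : ∀ i, σ (M.cell (M.rho (P M x q i))) = 0 := fun i => white (occ i) (blk1 i)
  have hmono : ∀ {k l : ℕ}, a ≤ k → k ≤ l → l ≤ b → Tm k ≤ Tm l := fun h1 h2 h3 =>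
    mono_of mono h1 h2 h3
  have ha1 := hmono le_rfl (show a ≤ a + 1 by omega) (by omega)
  have ha2 := hmono (show a ≤ a + 1 by omega) (show a + 1 ≤ b - 1 by omega) (by omega)
  have ha3 := hmono (show a ≤ b - 1 by omega) (show b - 1 ≤ b by omega) le_rfl
  set In : ℕ → Prop := fun i => M.cell (P M x q i) ∈ T ∧ M.cell (M.rho (P M x q i)) ∈ T with hIn
  have n0 : ¬ In (Tm a) := fun h => h0 h.1
  have n1 : ¬ In (Tm b) := fun h => h1 h.1
  have i0 : In (Tm (a + 1)) := hin _ le_rfl ha2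
  have i1 : In (Tm (b - 1)) := hin _ ha2 le_rfl
  have e0 : Tm a ≠ Tm (a + 1) := fun e => n0 (by rw [e]; exact i0)
  have e1 : Tm (b - 1) ≠ Tm b := fun e => n1 (by rw [← e]; exact i1)
  obtain ⟨j0, b1, b2, b3, b4⟩ := last_time (Q := fun i => ¬ In i)
    (show Tm a < Tm (a + 1) by omega) n0 (not_not.2 i0)
  obtain ⟨j1, c1, c2, c3, c4⟩ := first_time (Q := fun i => ¬ In i)
    (show Tm (b - 1) < Tm b by omega) n1 (not_not.2 i1)
  have inn : ∀ i, j0 < i → i < j1 → In i := by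
    intro i h1 h2
    rcases Nat.lt_or_ge (Tm (a + 1)) i with h3 | h3
    · rcases Nat.lt_or_ge i (Tm (b - 1)) with h4 | h4
      · exact hin i h3.le h4.le
      · exact not_not.1 (c4 i h4 h2)
    · exact not_not.1 (b4 i h1 h3)
  obtain ⟨n, hn⟩ : ∃ n, j1 = j0 + n + 2 := ⟨j1 - j0 - 2, by omega⟩
  -- the walk inside the window
  set q' := P M x q (j0 + 1) with hq'
  have hP : ∀ i, P M x q' i = P M x q (j0 + 1 + i) := by
    intro i
    rw [hq', ← P_add]
    congr 1
    omega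
  obtain ⟨hyq, hyw⟩ := walk_agree (χ := σ) (χ' := bl T σ) (p := q') (occ _) (n := n) (by
    intro c hc
    apply bl_on
    rw [Finset.mem_union] at hc
    rcases hc with hc | hc
    · obtain ⟨j, hj, rfl⟩ := mem_wl.1 hc
      show M.cell (P M x q' j) ∈ T
      rw [hP]
      exact (inn _ (by omega) (by omega)).1
    · obtain ⟨j, hj, rfl⟩ := mem_wr.1 hc
      show M.cell (M.rho (P M x q' j)) ∈ T
      rw [hP]
      exact (inn _ (by omega) (by omega)).2)
  change y q' = 1 at hyq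
  change ∀ j ≤ n, P M y q' j = P M x q' j at hyw
  -- the last state before the window
  set r := P M x q j0 with hr
  have hrq : stp M x r = q' := by rw [hr, hq', P_succ]
  have inq : In (j0 + 1) := inn _ (by omega) (by omega)
  have ql : q' ∈ M.live := ev.lv (occ _)
  set d := M.iota q' with hd
  set p' := M.rho (M.rho d) with hp'
  have cd : M.cell d = M.cell (M.rho q') := M.cell_iota _ ql
  have cd' : M.cell (M.rho d) = M.cell q' := cell_rho_iota M ql
  have cr : M.cell (M.rho p') = M.cell (M.rho q') := by rw [hp', M.rho3, cd]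
  have b3' : ¬ (M.cell r ∈ T ∧ M.cell (M.rho r) ∈ T) := b3
  have hface : (p' = r ∨ p' = M.rho r) ∧ M.cell p' ∉ T := by
    rcases stp_cases ev (show x r = 1 from occ j0) (Set.notMem_empty _) with
      ⟨s1, s2, s3⟩ | ⟨s1, s2, s3⟩
    · have e : d = M.rho r := by rw [hd, ← hrq, s3, M.iota2]
      have e2 : p' = r := by rw [hp', e, M.rho3]
      refine ⟨Or.inl e2, fun hc => b3' ⟨by rw [← e2]; exact hc, ?_⟩⟩
      rw [← e, cd]
      exact inq.2
    · have e : d = M.rho (M.rho r) := by rw [hd, ← hrq, s3, M.iota2]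
      have e2 : p' = M.rho r := by rw [hp', e, M.rho3]
      refine ⟨Or.inr e2, fun hc => b3' ⟨?_, by rw [← e2]; exact hc⟩⟩
      have e3 : M.cell r = M.cell q' := by
        rw [← cd', e, M.rho3]
      rw [e3]
      exact inq.1
  obtain ⟨hpr, hpT⟩ := hface
  have yp : y p' = 1 := by
    show bl T σ (M.cell p') + bl T σ (M.cell (M.rho p')) = 1
    rw [bl_off hpT, cr, bl_on inq.2, wht]
    rfl
  have sp : stp M y p' = q' := by
    have e2 : M.rho p' = d := by rw [hp', M.rho3]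
    have e3 : y d = 1 := by rw [hd, evy.iot]; exact hyq
    unfold stp
    rw [e2, if_pos e3, hd, M.iota2]
  have hPy : ∀ i, P M y p' (i + 1) = P M y q' i := by
    intro i
    rw [P_add]
    congr 1
  have hst : ∀ s, 1 ≤ s → s ≤ n + 1 → P M y p' s = P M x q (j0 + s) := by
    intro s h1 h2
    obtain ⟨s, rfl⟩ : ∃ s', s = s' + 1 := ⟨s - 1, by omega⟩
    rw [hPy, hyw s (by omega), hP]
    congr 1
    omega
  -- the first state after the window
  have hexit : M.cell (P M y p' (n + 2)) ∉ T := by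
    have i2 : In (j0 + (n + 1)) := inn _ (by omega) (by omega)
    rw [P_succ, hst (n + 1) (by omega) le_rfl]
    set s := P M x q (j0 + (n + 1)) with hs
    have hthird : M.cell (M.rho (M.rho s)) ∉ T := by
      intro hc
      apply c3
      have e : P M x q j1 = stp M x s := by
        rw [hs, ← P_succ, show j0 + (n + 1) + 1 = j1 by omega]
      show M.cell (P M x q j1) ∈ T ∧ M.cell (M.rho (P M x q j1)) ∈ T
      rw [e]
      rcases stp_cases ev (occ (j0 + (n + 1))) (Set.notMem_empty _) with ⟨s1, s2, s3⟩ | ⟨s1, s2, s3⟩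
      · rw [s3, M.cell_iota _ (ev.lv s1), cell_rho_iota M (ev.lv s1)]
        exact ⟨hc, i2.2⟩
      · rw [s3, M.cell_iota _ (ev.lv s2), cell_rho_iota M (ev.lv s2), M.rho3]
        exact ⟨i2.1, hc⟩
    have y1 : y (M.rho s) = 1 := by
      show bl T σ (M.cell (M.rho s)) + bl T σ (M.cell (M.rho (M.rho s))) = 1
      rw [bl_off hthird, bl_on i2.2, wht]
      rfl
    unfold stp
    rw [if_pos y1, M.cell_iota _ (evy.lv y1)]
    exact hthird
  -- the gap at the time `0`
  set k₀ := M.rho (M.rho p') with hk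
  have rk : M.rho k₀ = p' := M.rho3 _
  have ck : M.cell k₀ = M.cell q' := by
    rw [hk, hp', M.rho3, cd']
  have gk : Gp M y k₀ := by
    refine ⟨?_, by rw [rk]; exact yp⟩
    show bl T σ (M.cell k₀) + bl T σ (M.cell (M.rho k₀)) = 0
    rw [rk, ck, bl_off hpT, bl_on inq.1, blk1]
    decide
  have hne : ∃ c, c ∉ T := ⟨_, hpT⟩
  have hxc : IsC (coarse M (piT T) hT) ∅ y := isC_bl hne hT σ
  have hinT : ∀ s, 1 ≤ s → s ≤ n + 1 → M.cell (P M y p' s) ∈ T := by
    intro s h1 h2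
    rw [hst s h1 h2]
    exact (inn _ (by omega) (by omega)).1
  have hcs := chord_c (hπ := hT) hxc (o := none) yp (t₁ := 0) (t₂ := n + 2) (by omega)
    (fun u v h1 h2 h3 e => piT_inj (hinT u (by omega) (by omega)) e) gk rk
    (piT_off hpT) (piT_off hexit) (fun u h1 h2 => piT_ne (hinT u (by omega) (by omega)))
  refine ⟨k₀, gk, fun {E} _ w hw => ?_⟩
  rw [hcs]
  set A := Tm (a + 1) with hA
  set B := Tm (b - 1) with hB
  -- gaps of the block path of the inner arcs
  have key : ∀ i, InK M x q A B i → ∀ u v, j0 < u → u ≤ i → i < v → v < j1 →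
      lc M x q u ≠ lc M x q v := by
    intro i hi u v d1 d2 d3 d4 e
    have i1 := hi.lo
    have i2 := hi.hi
    rcases Nat.lt_or_ge u A with hu | hu
    · -- `u` in the arc `a`
      rcases Nat.lt_or_ge B v with hv | hv
      · have := (cut a (b - 1) le_rfl (by omega) (by omega) u v (by omega) (by omega) hv.le
          (by rw [show b - 1 + 1 = b by omega]; omega) e).1
        omega
      · obtain ⟨k, k1, k2, k3, k4⟩ := arc_of (T := Tm) (a := a + 1) (b := b - 1) (u := v)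
          (by omega) (by omega) hv
        obtain ⟨f1, f2⟩ := cut a k le_rfl (by omega) (by omega) u v (by omega) hu.le k3 k4 e
        rw [f1] at f2
        exact hi.sep A v le_rfl i1 d3 hv (by rw [← e, f2])
    · rcases Nat.lt_or_ge B v with hv | hv
      · obtain ⟨k, k1, k2, k3, k4⟩ := arc_of (T := Tm) (a := a + 1) (b := b - 1) (u := u)
          (by omega) hu (by omega)
        obtain ⟨f1, f2⟩ := cut k (b - 1) (by omega) (by omega) (by omega) u v k3 k4 hv.le
          (by rw [show b - 1 + 1 = b by omega]; omega) e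
        exact hi.sep u B hu d2 i2 le_rfl f2
      · exact hi.sep u v hu d2 d3 hv e
  have himg : ((Finset.Ico A B).filter (InK M x q A B)).image (gp M x q) ⊆
      cset M (P M y p') 0 (n + 2) := by
    intro h hh
    obtain ⟨i, hi, rfl⟩ := Finset.mem_image.1 hh
    rw [Finset.mem_filter, Finset.mem_Ico] at hi
    obtain ⟨⟨i1, i2⟩, hi⟩ := hi
    refine mem_cset.2 ⟨i - j0, Nat.zero_le _, by omega, ?_, ?_, fun u v d1 d2 d3 d4 => ?_⟩
    · rw [hst _ (by omega) (by omega), show j0 + (i - j0) = i by omega]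
      exact rho_gp i
    · rw [hst _ (by omega) (by omega), show j0 + (i - j0 + 1) = i + 1 by omega]
      exact L.out_eq hi.gap
    · rw [hst u (by omega) (by omega), hst v (by omega) (by omega)]
      exact key i hi _ _ (by omega) (by omega) (by omega) (by omega)
  rw [← Finset.sum_subset himg, Finset.sum_image]
  · rfl
  · intro u hu v hv e
    rw [Finset.mem_coe, Finset.mem_filter, Finset.mem_Ico] at hu hv
    rcases lt_trichotomy u v with h | h | h
    · exact absurd e (L.gp_ne h (by omega))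
    · exact h
    · exact absurd e.symm (L.gp_ne h (by omega))
  · intro g hg hgn
    obtain ⟨s, -, s2, s3, s4, s5⟩ := mem_cset.1 hg
    have hgs : g = M.rho (M.rho (P M y p' s)) := by rw [← s3, M.rho3]
    rcases Nat.eq_zero_or_pos s with rfl | hs
    · refine hw j0 (Or.inl ⟨b1, b2⟩) g ?_
      rw [hgs]
      change M.rho (M.rho p') ∈ Fa M r
      rcases hpr with e | e
      · rw [e]; exact Or.inr (Or.inr rfl)
      · rw [e, M.rho3]; exact Or.inl rfl
    · have e : P M y p' s = P M x q (j0 + s) := hst s hs (by omega)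
      have hgf : g ∈ Fa M (P M x q (j0 + s)) := by
        rw [hgs, e]; exact Or.inr (Or.inr rfl)
      rcases Nat.lt_or_ge (j0 + s) A with h1 | h1
      · exact hw (j0 + s) (Or.inl ⟨by omega, h1⟩) g hgf
      rcases Nat.lt_or_ge (j0 + s) B with h2 | h2
      · exfalso
        apply hgn
        have g1 : Gp M x g := gp_of_out ev (occ (j0 + s)) (by rw [s3, e]) (by
          rw [s4, hst (s + 1) (by omega) (by omega)]
          exact P_succ _ _)
        have g2 : g = gp M x q (j0 + s) := by rw [hgs, e]; rfl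
        refine Finset.mem_image.2 ⟨j0 + s, Finset.mem_filter.2 ⟨Finset.mem_Ico.2 ⟨h1, h2⟩,
          h1, h2, by rw [← g2]; exact g1.1, fun u v d1 d2 d3 d4 => ?_⟩, g2.symm⟩
        have := s5 (u - j0) (v - j0) (by omega) (by omega) (by omega) (by omega)
        rw [hst _ (by omega) (by omega), hst _ (by omega) (by omega),
          show j0 + (u - j0) = u by omega, show j0 + (v - j0) = v by omega] at this
        exact this
      · exact hw (j0 + s) (Or.inr ⟨h2, by omega⟩) g hgf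

/-! ### corridors -/

section corr

variable [Fintype D] [Fintype C] {n : ℕ} {p : ℕ → D} {R : ℕ → Set D}

/-- all arcs forward -/
theorem fwd_win (hT : ClsCon M (piT T)) (n3 : 3 ≤ n) (A : Corr M (cfg M σ) n p R)
    (hf : ∀ k, k < n → FA M (cfg M σ) (R k) (p k) (p (k + 1)))
    (G : ∀ k, k < n → ∀ d ∈ R k, Gen M (M.cell d)) (hl : LinksO M (cfg M σ) n p)
    (hcol : σ (M.cell (p 0)) = 1)
    (hin : ∀ k, 1 ≤ k → k + 1 < n → ∀ d ∈ R k, M.cell d ∈ T ∧ M.cell (M.rho d) ∈ T)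
    (h0 : M.cell (p 0) ∉ T) (hn : M.cell (p n) ∉ T) :
    ∃ k₀, Gp M (cfg M (bl T σ)) k₀ ∧ ∀ {E : Type} [AddCommMonoid E] (w : D → E),
      (∀ k, k = 0 ∨ k + 1 = n → ∀ d ∈ R k, ∀ e ∈ Fa M d, w e = 0) →
      ∑ k ∈ Finset.Ico 1 (n - 1), ZZ M (cfg M σ) w (R k) (p k) (p (k + 1)) =
        ∑ g ∈ blk (coarse M (piT T) hT) (cfg M (bl T σ)) k₀, w g := by
  obtain ⟨N, Tm, L, T0, TN, -, Tlt, Tp, TR, cut, hk⟩ := A.main hf G hl
  have mono : ∀ k, 0 ≤ k → k < n → Tm k ≤ Tm (k + 1) := fun k _ hk => (Tlt k hk).le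
  obtain ⟨k₀, gk, hb⟩ := win_blk hT L (Tm := Tm) (a := 0) (b := n) (by omega) mono
    (by omega) cut hcol (fun i h1 h2 => by
      obtain ⟨k, k1, k2, k3, k4⟩ := arc_of (T := Tm) (a := 1) (b := n - 1) (u := i) (by omega) h1 h2
      exact hin k k1 (by omega) _ (TR k (by omega) i k3 k4))
    (by
      show M.cell (P M (cfg M σ) (p 0) (Tm 0)) ∉ T
      rw [T0]; exact h0)
    (by
      show M.cell ((stp M (cfg M σ))^[Tm n] (p 0)) ∉ T
      rw [Tp n le_rfl]; exact hn)
  refine ⟨k₀, gk, fun {E} _ w hw => ?_⟩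
  rw [← hb w ?_, ks_sum (T := Tm) (a := 0 + 1) (b := n - 1) (by omega)
    (fun k h1 h2 => mono k (Nat.zero_le _) (by omega)) (cut.sub (by omega) (by omega))]
  · refine Finset.sum_congr (by rw [zero_add]) fun k hk' => ?_
    rw [Finset.mem_Ico] at hk'
    exact (hk w k (by omega)).symm
  · rintro i (⟨h1, h2⟩ | ⟨h1, h2⟩) d hd
    · exact hw 0 (Or.inl rfl) _ (TR 0 (by omega) i h1 h2.le) d hd
    · refine hw (n - 1) (Or.inr (by omega)) _ (TR (n - 1) (by omega) i h1 ?_) d hd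
      rw [show n - 1 + 1 = n by omega]
      exact h2.le

/-- **the window of 117's corridor** : the tiles `0` and `n - 1` are the outer tiles -/
theorem corr_win (hT : ClsCon M (piT T)) (n3 : 3 ≤ n) (A : Corr M (cfg M σ) n p R)
    (G : ∀ k, k < n → ∀ d ∈ R k, Gen M (M.cell d)) (hl : LinksO M (cfg M σ) n p)
    (hcol : ∀ k, k ≤ n → σ (M.cell (p k)) = 1)
    (hin : ∀ k, 1 ≤ k → k + 1 < n → ∀ d ∈ R k, M.cell d ∈ T ∧ M.cell (M.rho d) ∈ T)
    (h0 : M.cell (p 0) ∉ T) (hn : M.cell (p n) ∉ T) :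
    ∃ k₀, Gp M (cfg M (bl T σ)) k₀ ∧ ∀ {E : Type} [AddCommMonoid E] (w : D → E),
      (∀ k, k = 0 ∨ k + 1 = n → ∀ d ∈ R k, ∀ e ∈ Fa M d, w e = 0) →
      ∑ k ∈ Finset.Ico 1 (n - 1), ZZ M (cfg M σ) w (R k) (p k) (p (k + 1)) =
        ∑ g ∈ blk (coarse M (piT T) hT) (cfg M (bl T σ)) k₀, w g := by
  by_cases hf : ∀ k, k < n → FA M (cfg M σ) (R k) (p k) (p (k + 1))
  · exact fwd_win hT n3 A hf G hl (hcol 0 (by omega)) hin h0 hn
  push Not at hf
  obtain ⟨k1, hk1, hk1'⟩ := hf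
  obtain ⟨hb, hno⟩ := A.dir_back hk1 hk1'
  obtain ⟨k₀, gk, H⟩ := fwd_win (p := fun k => p (n - k)) (R := fun k => R (n - 1 - k)) hT n3 A.rev
    (fun k hk => by
      have h1 := hb (n - 1 - k) (by omega)
      rw [show n - 1 - k + 1 = n - k by omega] at h1
      show FA M (cfg M σ) (R (n - 1 - k)) (p (n - k)) (p (n - (k + 1)))
      rw [show n - (k + 1) = n - 1 - k by omega]
      exact h1)
    (fun k hk d hd => G _ (by omega) d hd) hl.rev
    (by
      show σ (M.cell (p (n - 0))) = 1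
      exact hcol _ (by omega))
    (fun k h1 h2 d hd => hin (n - 1 - k) (by omega) (by omega) d hd)
    (by
      show M.cell (p (n - 0)) ∉ T
      rw [Nat.sub_zero]; exact hn)
    (by
      show M.cell (p (n - n)) ∉ T
      rw [Nat.sub_self]; exact h0)
  refine ⟨k₀, gk, fun {E} _ w hw => ?_⟩
  rw [← H w fun k hk d hd e he => hw (n - 1 - k) (by omega) d hd e he]
  refine Finset.sum_nbij' (fun k => n - 1 - k) (fun k => n - 1 - k) ?_ ?_ ?_ ?_ ?_
  · intro k hk
    rw [Finset.mem_Ico] at hk ⊢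
    omega
  · intro k hk
    rw [Finset.mem_Ico] at hk ⊢
    omega
  · intro k hk
    rw [Finset.mem_Ico] at hk
    omega
  · intro k hk
    rw [Finset.mem_Ico] at hk
    omega
  · intro k hk
    rw [Finset.mem_Ico] at hk
    show ZZ M (cfg M σ) w (R k) (p k) (p (k + 1)) =
      ZZ M (cfg M σ) w (R (n - 1 - (n - 1 - k))) (p (n - (n - 1 - k))) (p (n - (n - 1 - k + 1)))
    rw [show n - 1 - (n - 1 - k) = k by omega, show n - (n - 1 - k) = k + 1 by omega,
      show n - (n - 1 - k + 1) = k by omega]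
    unfold ZZ
    rw [if_neg (hno k (by omega)), if_pos (hb k (by omega)), if_pos (hb k (by omega))]

/-- **hypothesis `hX` of 683's `tile_one`** -/
theorem corr_le (hT : ClsCon M (piT T)) (n3 : 3 ≤ n) (A : Corr M (cfg M σ) n p R)
    (G : ∀ k, k < n → ∀ d ∈ R k, Gen M (M.cell d)) (hl : LinksO M (cfg M σ) n p)
    (hcol : ∀ k, k ≤ n → σ (M.cell (p k)) = 1)
    (hin : ∀ k, 1 ≤ k → k + 1 < n → ∀ d ∈ R k, M.cell d ∈ T ∧ M.cell (M.rho d) ∈ T)
    (h0 : M.cell (p 0) ∉ T) (hn : M.cell (p n) ∉ T) {a : D → ℂ}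
    (hw : ∀ k, k = 0 ∨ k + 1 = n → ∀ d ∈ R k, ∀ e ∈ Fa M d, a e = 0) :
    ‖∑ k ∈ Finset.Ico 1 (n - 1), ZZ M (cfg M σ) a (R k) (p k) (p (k + 1))‖ ^ 2 ≤
      ∑ β ∈ blks (coarse M (piT T) hT) (cfg M (bl T σ)), ‖∑ g ∈ β, a g‖ ^ 2 := by
  obtain ⟨k₀, gk, H⟩ := corr_win hT n3 A G hl hcol hin h0 hn
  rw [H a hw]
  exact Finset.single_le_sum (f := fun β : Finset D => ‖∑ g ∈ β, a g‖ ^ 2)
    (fun β _ => by positivity) (Finset.mem_image_of_mem _ (mem_gaps.2 gk))

end corr

/-- what is asked of a colouring `σ` of the window event -/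
structure Wv (M : CMap D C) (T : Finset C) (σ : C → ZMod 2) (n : ℕ) (p : ℕ → D)
    (R : ℕ → Set D) : Prop where
  corr : Corr M (cfg M σ) n p R
  links : LinksO M (cfg M σ) n p
  col : ∀ k, k ≤ n → σ (M.cell (p k)) = 1
  fst : M.cell (p 0) ∉ T
  lst : M.cell (p n) ∉ T


end Crest.Agent.R143.TileWx490
end
end

-- ▼ part R143/TileY_490
section

/-!
# Row 143 (S0194), RIG, R6 second half: the window of a full tile on `rc0 hS` (helper490)

* `hull_far` : the Voronoi cell of a hull site is not bounded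
* `Tw hS h3 W` : the cells of the sites whose Voronoi cell is inside `W`; `mem_Tw`, `Tw_of_ball`,
  `Tw_off` (sites off `W`), `ne_Tw`
* `cls_Tw` : **everything off the window is one class** (`W` bounded, complement connected)
-/

set_option autoImplicit false

noncomputable section

open scoped Classical

namespace Crest.Agent.R143.TileYx490

open Crest.Agent.R143.B0x346 Crest.Agent.R143.DelGx806 Crest.Agent.R143.DelRx806
  Crest.Agent.R143.B0Dx346 Crest.Agent.R143.DomBx722 Crest.Agent.R143.Mass3x302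
  Crest.Agent.R143.FinCx811 Crest.Agent.R143.WLocx713
open Crest.Agent.R143.Frame1x395 Crest.Agent.R143.Frame2x395 Crest.Agent.R143.Frame3x395
  Crest.Agent.R143.Frame4x395 Crest.Agent.R143.Frame8x395 Crest.Agent.R143.Frame9x395
  Crest.Agent.R143.Frame10x395 Crest.Agent.R143.Coarsex166 Crest.Agent.R143.Splx117
  Crest.Agent.R143.TileMx683 Crest.Agent.R143.TileWx490 Crest.Agent.R143.RingDx117
  Crest.Agent.R143.CorrDx117
open Crest.Agent.R143.Frame5x395 (sd mem_sd th th_spec)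

variable {S : Finset ℂ} {W : Set ℂ}

/-! ### Voronoi cells of hull sites -/

theorem hull_far {v : ℂ} (hv : OnHull S v) (r : ℝ) : ∃ z ∈ cell (S : Set ℂ) v, r < ‖z‖ := by
  obtain ⟨a, ha⟩ := hv
  obtain ⟨c, hc⟩ := ha.1
  obtain ⟨o, hT⟩ := mem_delT_iff.1 hc
  have hne : a ≠ v := hT.ne.1
  have hn : 0 < ‖v - a‖ := norm_pos_iff.2 (sub_ne_zero.2 hne.symm)
  set t : ℝ := (‖o‖ + |r| + 1) / ‖v - a‖ with ht
  have ht0 : 0 ≤ t := by positivity
  have hz : o - t * (Complex.I * (v - a)) ∈ vedge (S : Set ℂ) a v := by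
    rw [vedge_hull hT ha]
    exact ⟨t, ht0, rfl⟩
  refine ⟨_, vedge_sub_right _ _ _ hz, ?_⟩
  have h1 : ‖(t : ℂ) * (Complex.I * (v - a))‖ = ‖o‖ + |r| + 1 := by
    rw [norm_mul, norm_mul, Complex.norm_I, one_mul, Complex.norm_real, Real.norm_eq_abs,
      abs_of_nonneg ht0, ht, div_mul_cancel₀ _ hn.ne']
  have h2 := norm_sub_norm_le ((t : ℂ) * (Complex.I * (v - a))) o
  rw [h1, norm_sub_rev] at h2
  have h3 := le_abs_self r
  linarith

theorem not_hull_of {v : ℂ} (hW : Bornology.IsBounded W) (h : cell (S : Set ℂ) v ⊆ W) :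
    ¬ OnHull S v := by
  intro hv
  obtain ⟨r, hr⟩ := hW.subset_closedBall 0
  obtain ⟨z, hz, hz'⟩ := hull_far hv r
  have := hr (h hz)
  rw [mem_closedBall_zero_iff] at this
  linarith

/-- a cell is in a ball -/
theorem cell_ball {v : ℂ} {r : ℝ} (h : ∀ z, ‖z - v‖ = r → ∃ s ∈ S, ‖z - s‖ < r) (hr : 0 < r) :
    cell (S : Set ℂ) v ⊆ Metric.ball v r := by
  intro z hz
  rw [Metric.mem_ball, dist_eq_norm]
  by_contra hc
  push Not at hc
  have hn : 0 < ‖z - v‖ := lt_of_lt_of_le hr hc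
  set t : ℝ := r / ‖z - v‖ with ht
  have ht0 : 0 ≤ t := by positivity
  have ht1 : t ≤ 1 := (div_le_one hn).2 hc
  set z' : ℂ := v + t * (z - v) with hz'
  have e1 : ‖z' - v‖ = r := by
    rw [hz', add_sub_cancel_left, norm_mul, Complex.norm_real, Real.norm_eq_abs,
      abs_of_nonneg ht0, ht, div_mul_cancel₀ _ hn.ne']
  obtain ⟨s, hs, hs'⟩ := h z' e1
  have h1 := hz s hs
  have e2 : ‖z - z'‖ = (1 - t) * ‖z - v‖ := by
    rw [hz', show z - (v + t * (z - v)) = ((1 - t : ℝ) : ℂ) * (z - v) by push_cast; ring, norm_mul,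
      Complex.norm_real, Real.norm_eq_abs, abs_of_nonneg (by linarith)]
  have e3 : ‖z - s‖ ≤ ‖z - z'‖ + ‖z' - s‖ := norm_sub_le_norm_sub_add_norm_sub z z' s
  have e4 : t * ‖z - v‖ = r := by rw [ht, div_mul_cancel₀ _ hn.ne']
  rw [e2] at e3
  nlinarith

/-! ### the cells of the window -/

/-- the cells of the sites whose Voronoi cell is inside `W` -/
def Tw (hS : GP (S : Set ℂ)) (h3 : 3 ≤ S.card) (W : Set ℂ) : Finset (Cs hS) :=
  Finset.univ.filter fun c => ∃ v : {v // v ∈ S}, cs hS h3 v = c ∧ cell (S : Set ℂ) v.1 ⊆ W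

variable {hS : GP (S : Set ℂ)} {h3 : 3 ≤ S.card}

theorem mem_Tw (hW : Bornology.IsBounded W) {v : {v // v ∈ S}} :
    cs hS h3 v ∈ Tw hS h3 W ↔ cell (S : Set ℂ) v.1 ⊆ W := by
  unfold Tw
  rw [Finset.mem_filter]
  constructor
  · rintro ⟨-, u, h1, h2⟩
    rw [cs_inj hS h3 (not_hull_of hW h2) h1]
    exact h2
  · exact fun h => ⟨Finset.mem_univ _, v, rfl, h⟩

theorem own_cell (v : ℂ) : v ∈ cell (S : Set ℂ) v := fun s _ => by
  rw [sub_self, norm_zero]
  exact norm_nonneg _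

theorem Tw_off (hW : Bornology.IsBounded W) {v : {v // v ∈ S}} (hv : v.1 ∉ W) :
    cs hS h3 v ∉ Tw hS h3 W := fun h => hv ((mem_Tw hW).1 h (own_cell v.1))

theorem Tw_of_ball (hW : Bornology.IsBounded W) {v : {v // v ∈ S}} {r : ℝ} (hr : 0 < r)
    (h : ∀ z, ‖z - v.1‖ = r → ∃ s ∈ S, ‖z - s‖ < r) (hb : Metric.ball v.1 r ⊆ W) :
    cs hS h3 v ∈ Tw hS h3 W := (mem_Tw hW).2 ((cell_ball h hr).trans hb)

theorem ne_Tw (hW : Bornology.IsBounded W) : ∃ c, c ∉ Tw hS h3 W := by
  obtain ⟨r, hr⟩ := hW.subset_closedBall 0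
  have hne : S.Nonempty := Finset.card_pos.1 (by omega)
  obtain ⟨v, hv, hz⟩ := cell_cover hne (((|r| + 1 : ℝ) : ℂ))
  refine ⟨cs hS h3 ⟨v, hv⟩, fun h => ?_⟩
  have h1 := hr ((mem_Tw hW).1 h hz)
  rw [mem_closedBall_zero_iff, Complex.norm_real, Real.norm_eq_abs, abs_of_nonneg (by positivity)]
    at h1
  have := le_abs_self r
  linarith

/-- every cell of `restr (cm0 hS)` is the cell of a site -/
theorem cell_cs (d : D0 S) : ∃ v : {v // v ∈ S}, v.1 = d.1.1 ∧
    (restr (cm0 hS)).cell d = cs hS h3 v := by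
  have h1 : d.1.1 ∈ S := (mem_delT.1 (th_spec d.2)).1
  exact ⟨⟨d.1.1, h1⟩, rfl, rfl⟩


/-- one step outside the window -/
theorem step_out (hW : Bornology.IsBounded W) {x y : ℂ} (h : KStep S Wᶜ x y) :
    ∃ (hx : x ∈ S) (hy : y ∈ S), Relation.EqvGen (Adj (restr (cm0 hS)) (piT (Tw hS h3 W)))
      (cs hS h3 ⟨x, hx⟩) (cs hS h3 ⟨y, hy⟩) := by
  obtain ⟨hx, hy, -, ⟨z, hz1, hz2⟩, hd⟩ := h
  have ox : cs hS h3 ⟨x, hx⟩ ∉ Tw hS h3 W := fun h =>
    hz2 ((mem_Tw hW).1 h (vedge_sub_left _ _ _ hz1))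
  have oy : cs hS h3 ⟨y, hy⟩ ∉ Tw hS h3 W := fun h =>
    hz2 ((mem_Tw hW).1 h (vedge_sub_right _ _ _ hz1))
  have e : piT (Tw hS h3 W) (cs hS h3 ⟨x, hx⟩) = piT (Tw hS h3 W) (cs hS h3 ⟨y, hy⟩) := by
    rw [piT_off ox, piT_off oy]
  refine ⟨hx, hy, ?_⟩
  have key : ∀ {a b : ℂ} (ha : a ∈ S) (hb : b ∈ S), (∃ c, (a, b, c) ∈ delT S) →
      piT (Tw hS h3 W) (cs hS h3 ⟨a, ha⟩) = piT (Tw hS h3 W) (cs hS h3 ⟨b, hb⟩) →
      Relation.EqvGen (Adj (restr (cm0 hS)) (piT (Tw hS h3 W)))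
        (cs hS h3 ⟨a, ha⟩) (cs hS h3 ⟨b, hb⟩) := by
    intro a b ha hb hab e
    have hm : (a, b) ∈ sd S := mem_sd.2 hab
    by_cases hl : (⟨(a, b), hm⟩ : D0 S) ∈ (cm0 hS).live
    · exact Relation.EqvGen.rel _ _ ⟨e, ⟨(a, b), hm⟩, hl, rfl, rfl⟩
    · have := (restr (cm0 hS)).dead ⟨(a, b), hm⟩ hl
      have e2 : cs hS h3 ⟨a, ha⟩ = cs hS h3 ⟨b, hb⟩ := this
      rw [e2]
      exact Relation.EqvGen.refl _
  rcases hd with hd | hd
  · exact key hx hy hd e
  · exact (key hy hx hd e.symm).symm _ _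

/-- **everything off the window is one class** -/
theorem cls_Tw (hW : Bornology.IsBounded W) (hc : IsPreconnected Wᶜ) :
    ClsCon (restr (cm0 hS)) (piT (Tw hS h3 W)) := by
  intro a b e
  obtain ⟨u, -, hu⟩ := cell_cs (hS := hS) (h3 := h3) a
  obtain ⟨v, -, hv⟩ := cell_cs (hS := hS) (h3 := h3) b
  rw [hu, hv] at e ⊢
  by_cases h1 : cs hS h3 u ∈ Tw hS h3 W
  · rw [piT_inj h1 e]
    exact Relation.EqvGen.refl _
  · have h2 : cs hS h3 v ∉ Tw hS h3 W := by
      intro h2
      rw [piT_off h1, piT_on h2] at e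
      exact absurd e (by simp)
    rw [mem_Tw hW] at h1 h2
    rw [Set.not_subset] at h1 h2
    obtain ⟨z1, z1a, z1b⟩ := h1
    obtain ⟨z2, z2a, z2b⟩ := h2
    have h := out_conn hS h3 hc u.2 v.2 ⟨z1, z1a, z1b⟩ ⟨z2, z2a, z2b⟩
    have key : ∀ {x : ℂ}, Relation.ReflTransGen (KStep S Wᶜ) u.1 x → ∃ hx : x ∈ S,
        Relation.EqvGen (Adj (restr (cm0 hS)) (piT (Tw hS h3 W))) (cs hS h3 u)
          (cs hS h3 ⟨x, hx⟩) := by
      intro x hx
      induction hx with
      | refl => exact ⟨u.2, Relation.EqvGen.refl _⟩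
      | tail _ h1 ih =>
        obtain ⟨m1, ih⟩ := ih
        obtain ⟨m2, m3, h4⟩ := step_out (hS := hS) (h3 := h3) hW h1
        exact ⟨m3, ih.trans _ _ _ h4⟩
    obtain ⟨_, h5⟩ := key h
    exact h5

end Crest.Agent.R143.TileYx490
end
end

-- ▼ part R143/FarEk_88
section

/-!
# Row 143 (S0194), block H: the far sites are in the giant outside the barrier (helper88; leaf of 197)

`sup z w = max |re (w - z)| |im (w - z)|` (`sp`).
* `Cout z h` : points at sup distance `≥ h` from `z`; `cout_pre` : preconnected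
* `cell_far` : a site whose Voronoi cell meets `Cout z h` is at sup distance `≥ h - r` if every point
  at sup distance exactly `h` has a site at distance `< r`
* `far_pth` : two sites at sup distance `≥ h` are joined by sites at sup distance `≥ h - r`
* **`far_ek`** : a site at sup distance `≥ h` is in `Ek (cm0 hS) (hull cell) K` if the sites of the
  cells of `K` are at sup distance `< h - r`
* `far_ekd` : the same with `LDns S c L d` (`r = d`)
-/

set_option autoImplicit false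

noncomputable section

open scoped Classical

namespace Crest.Agent.R143.FarEkx88

open Crest.ProbabilityR.Voronoi
open Crest.Agent.R143.B0x346 Crest.Agent.R143.DelGx806 Crest.Agent.R143.DelRx806
open Crest.Agent.R143.Frame1x395 Crest.Agent.R143.Frame5x395 Crest.Agent.R143.Frame10x395
  Crest.Agent.R143.GiantEx197
open Crest.Agent.R143.JColx54 (Adj)
open Crest.Agent.R143.RE0x723 (Pth)
open Crest.Agent.R143.Exitx707 (Nb nb_symm)

/-- sup distance -/
def sp (z w : ℂ) : ℝ := max |w.re - z.re| |w.im - z.im|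

theorem sp_lip (z w v : ℂ) : sp z w ≤ sp z v + ‖w - v‖ := by
  unfold sp
  have h1 := Complex.abs_re_le_norm (w - v)
  have h2 := Complex.abs_im_le_norm (w - v)
  rw [Complex.sub_re] at h1
  rw [Complex.sub_im] at h2
  have h3 : |w.re - z.re| ≤ |w.re - v.re| + |v.re - z.re| := abs_sub_le _ _ _
  have h4 : |w.im - z.im| ≤ |w.im - v.im| + |v.im - z.im| := abs_sub_le _ _ _
  have h5 := le_max_left |v.re - z.re| |v.im - z.im|
  have h6 := le_max_right |v.re - z.re| |v.im - z.im|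
  exact max_le (by linarith) (by linarith)

theorem sp_cont (z : ℂ) : Continuous (sp z) := by
  unfold sp
  fun_prop

/-- the points at sup distance at least `h` -/
def Cout (z : ℂ) (h : ℝ) : Set ℂ := {w | h ≤ sp z w}

/-- half planes -/
theorem half_conv (z : ℂ) (h : ℝ) : Convex ℝ {w : ℂ | h ≤ w.re - z.re} ∧
    Convex ℝ {w : ℂ | h ≤ z.re - w.re} ∧ Convex ℝ {w : ℂ | h ≤ w.im - z.im} ∧
    Convex ℝ {w : ℂ | h ≤ z.im - w.im} := by
  have key : ∀ (c x y s t : ℝ), h ≤ x - c → h ≤ y - c → 0 ≤ s → 0 ≤ t → s + t = 1 →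
      h ≤ s * x + t * y - c := by
    intro c x y s t ha hb hs ht hst
    have h1 := mul_le_mul_of_nonneg_left ha hs
    have h2 := mul_le_mul_of_nonneg_left hb ht
    have e : s * h + t * h = h := by rw [← add_mul, hst, one_mul]
    have e' : s * c + t * c = c := by rw [← add_mul, hst, one_mul]
    linarith
  have key' : ∀ (c x y s t : ℝ), h ≤ c - x → h ≤ c - y → 0 ≤ s → 0 ≤ t → s + t = 1 →
      h ≤ c - (s * x + t * y) := by
    intro c x y s t ha hb hs ht hst
    have h1 := mul_le_mul_of_nonneg_left ha hs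
    have h2 := mul_le_mul_of_nonneg_left hb ht
    have e : s * h + t * h = h := by rw [← add_mul, hst, one_mul]
    have e' : s * c + t * c = c := by rw [← add_mul, hst, one_mul]
    linarith
  refine ⟨?_, ?_, ?_, ?_⟩
  · intro a ha b hb s t hs ht hst
    have := key z.re a.re b.re s t ha hb hs ht hst
    show h ≤ (s • a + t • b).re - z.re
    rw [Complex.add_re, Complex.smul_re, Complex.smul_re]
    exact this
  · intro a ha b hb s t hs ht hst
    have := key' z.re a.re b.re s t ha hb hs ht hst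
    show h ≤ z.re - (s • a + t • b).re
    rw [Complex.add_re, Complex.smul_re, Complex.smul_re]
    exact this
  · intro a ha b hb s t hs ht hst
    have := key z.im a.im b.im s t ha hb hs ht hst
    show h ≤ (s • a + t • b).im - z.im
    rw [Complex.add_im, Complex.smul_im, Complex.smul_im]
    exact this
  · intro a ha b hb s t hs ht hst
    have := key' z.im a.im b.im s t ha hb hs ht hst
    show h ≤ z.im - (s • a + t • b).im
    rw [Complex.add_im, Complex.smul_im, Complex.smul_im]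
    exact this

theorem cout_eq (z : ℂ) (h : ℝ) : Cout z h =
    (({w : ℂ | h ≤ w.re - z.re} ∪ {w : ℂ | h ≤ w.im - z.im}) ∪ {w : ℂ | h ≤ z.re - w.re}) ∪
      {w : ℂ | h ≤ z.im - w.im} := by
  ext w
  simp only [Cout, sp, Set.mem_ofPred_eq, Set.mem_union]
  rw [le_max_iff, le_abs, le_abs]
  have e1 : -(w.re - z.re) = z.re - w.re := by ring
  have e2 : -(w.im - z.im) = z.im - w.im := by ring
  rw [e1, e2]
  tauto

/-- **the outside of a square is preconnected** -/
theorem cout_pre (z : ℂ) (h : ℝ) : IsPreconnected (Cout z h) := by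
  obtain ⟨c1, c2, c3, c4⟩ := half_conv z h
  rw [cout_eq]
  have m1 : (⟨z.re + |h|, z.im + |h|⟩ : ℂ) ∈ {w : ℂ | h ≤ w.re - z.re} ∩
      {w : ℂ | h ≤ w.im - z.im} := by
    constructor <;> simp [le_abs_self]
  have m2 : (⟨z.re - |h|, z.im + |h|⟩ : ℂ) ∈ {w : ℂ | h ≤ w.im - z.im} ∩
      {w : ℂ | h ≤ z.re - w.re} := by
    constructor <;> simp [le_abs_self]
  have m3 : (⟨z.re - |h|, z.im - |h|⟩ : ℂ) ∈ {w : ℂ | h ≤ z.re - w.re} ∩
      {w : ℂ | h ≤ z.im - w.im} := by
    constructor <;> simp [le_abs_self]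
  refine IsPreconnected.union _ (Or.inr m3.1) m3.2 (IsPreconnected.union _ (Or.inr m2.1) m2.2
    (IsPreconnected.union _ m1.1 m1.2 c1.isPreconnected c3.isPreconnected)
    c2.isPreconnected) c4.isPreconnected

variable {S : Finset ℂ} {zB : ℂ} {h r : ℝ}








end Crest.Agent.R143.FarEkx88
end
end

-- ▼ part R143/TileZ_490
section

/-!
# Row 143 (S0194), RIG, R6 second half: the region of the window of a full tile (helper490)

* `W3 h ρ W a` : the three open squares of half side `ρ` at the vertices `a - 1, a, a + 1` of the path;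
  `W3_bdd`, `W3_pre` (the complement is preconnected), `W3_tile`
* `gate_sp` : a gate is at sup distance `≥ h` from the other vertices; `W3_gate`
-/

set_option autoImplicit false

noncomputable section

open scoped Classical

namespace Crest.Agent.R143.TileZx490

open Crest.Agent.R143.Gatex838 (X Y)
open Crest.Agent.R143.TileRx228
open Crest.Agent.R143.FarEkx88 (sp Cout cout_pre sp_lip sp_cont)

variable {M : ℕ} {W : ℤ → ℤ × ℤ} {h ρ A B : ℝ} {a : ℤ}

/-! ### the window -/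

/-- **the window**: three squares -/
def W3 (h ρ : ℝ) (W : ℤ → ℤ × ℤ) (a : ℤ) : Set ℂ :=
  {z | sp (cen h W (a - 1)) z < ρ ∨ sp (cen h W a) z < ρ ∨ sp (cen h W (a + 1)) z < ρ}

theorem seg1 {t x : ℝ} (hh : 0 < h) (hρ : h / 2 < ρ) (h0 : 0 ≤ t) (h1 : t ≤ 1)
    (hx : |x - h| < ρ) : |t * x - h| < ρ ∨ |t * x| < ρ := by
  rw [abs_lt] at hx
  obtain ⟨h2, h3⟩ := hx
  by_cases h4 : h - ρ < t * x
  · left
    rw [abs_lt]
    refine ⟨by linarith, ?_⟩
    rcases le_or_gt 0 x with h5 | h5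
    · nlinarith
    · nlinarith [mul_nonneg h0 (neg_nonneg.2 h5.le)]
  · right
    push Not at h4
    rw [abs_lt]
    refine ⟨?_, by linarith⟩
    rcases le_or_gt 0 x with h5 | h5
    · have := mul_nonneg h0 h5
      linarith
    · nlinarith

theorem seg0 {t y : ℝ} (h0 : 0 ≤ t) (h1 : t ≤ 1) (hy : |y| < ρ) : |t * y| < ρ := by
  rw [abs_mul, abs_of_nonneg h0]
  have := abs_nonneg y
  nlinarith

theorem sp_eq (z w : ℂ) : sp z w = max |(w - z).re| |(w - z).im| := by
  unfold FarEkx88.sp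
  rw [Complex.sub_re, Complex.sub_im]

theorem sp_lt {z w : ℂ} {r : ℝ} : sp z w < r ↔ |(w - z).re| < r ∧ |(w - z).im| < r := by
  rw [sp_eq, max_lt_iff]

/-- one arm -/
theorem star1 {u : ℤ × ℤ} (hu : U4 u) {c z : ℂ} (hh : 0 < h) (hρ : h / 2 < ρ) {t : ℝ}
    (h0 : 0 ≤ t) (h1 : t ≤ 1) (hz : sp (c + h * cz u) z < ρ) :
    sp (c + h * cz u) (c + t * (z - c)) < ρ ∨ sp c (c + t * (z - c)) < ρ := by
  rw [sp_lt] at hz ⊢
  rw [sp_lt]
  have e1 : (c + t * (z - c) - (c + h * cz u)).re = t * (z - c).re - h * u.1 := by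
    simp [cz]
  have e2 : (c + t * (z - c) - (c + h * cz u)).im = t * (z - c).im - h * u.2 := by
    simp [cz]
  have e3 : (c + t * (z - c) - c).re = t * (z - c).re := by
    simp
  have e4 : (c + t * (z - c) - c).im = t * (z - c).im := by
    simp
  have e5 : (z - (c + h * cz u)).re = (z - c).re - h * u.1 := by
    simp [cz]
    ring
  have e6 : (z - (c + h * cz u)).im = (z - c).im - h * u.2 := by
    simp [cz]
    ring
  rw [e5, e6] at hz
  rw [e1, e2, e3, e4]
  generalize (z - c).re = x at *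
  generalize (z - c).im = y at *
  have hρ0 : 0 < ρ := by linarith
  rcases hu with rfl | rfl | rfl | rfl <;>
    simp only [Int.cast_neg, Int.cast_one, Int.cast_zero, mul_one, mul_zero, sub_zero, mul_neg,
      sub_neg_eq_add] at hz ⊢
  · obtain ⟨h2, h3⟩ := hz
    rcases seg1 hh hρ h0 h1 h2 with h4 | h4
    · exact Or.inl ⟨h4, seg0 h0 h1 h3⟩
    · exact Or.inr ⟨h4, seg0 h0 h1 h3⟩
  · obtain ⟨h2, h3⟩ := hz
    rcases seg1 hh hρ h0 h1 h3 with h4 | h4
    · exact Or.inl ⟨seg0 h0 h1 h2, h4⟩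
    · exact Or.inr ⟨seg0 h0 h1 h2, h4⟩
  · obtain ⟨h2, h3⟩ := hz
    have h5 : |-x - h| < ρ := by rw [← abs_neg]; convert h2 using 2; ring
    rcases seg1 hh hρ h0 h1 h5 with h4 | h4
    · refine Or.inl ⟨?_, seg0 h0 h1 h3⟩
      rw [← abs_neg]
      convert h4 using 2
      ring
    · refine Or.inr ⟨?_, seg0 h0 h1 h3⟩
      rw [← abs_neg]
      convert h4 using 2
      ring
  · obtain ⟨h2, h3⟩ := hz
    have h5 : |-y - h| < ρ := by rw [← abs_neg]; convert h3 using 2; ring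
    rcases seg1 hh hρ h0 h1 h5 with h4 | h4
    · refine Or.inl ⟨seg0 h0 h1 h2, ?_⟩
      rw [← abs_neg]
      convert h4 using 2
      ring
    · refine Or.inr ⟨seg0 h0 h1 h2, ?_⟩
      rw [← abs_neg]
      convert h4 using 2
      ring

theorem cen_add (h : ℝ) (W : ℤ → ℤ × ℤ) (a b : ℤ) : cen h W b = cen h W a + h * cz (W b - W a) := by
  unfold cen
  rw [cz_sub]
  ring

/-- **star shaped about the middle vertex** -/
theorem W3_star (P : FPath M W) (hh : 0 < h) (hρ : h / 2 < ρ) {z : ℂ} (hz : z ∈ W3 h ρ W a)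
    {t : ℝ} (h0 : 0 ≤ t) (h1 : t ≤ 1) : cen h W a + t * (z - cen h W a) ∈ W3 h ρ W a := by
  rcases hz with hz | hz | hz
  · rw [cen_add h W a (a - 1)] at hz
    rcases star1 (P.step' a) hh hρ h0 h1 hz with h2 | h2
    · left
      rw [cen_add h W a (a - 1)]
      exact h2
    · exact Or.inr (Or.inl h2)
  · right; left
    rw [sp_lt] at hz ⊢
    have e3 : (cen h W a + t * (z - cen h W a) - cen h W a).re = t * (z - cen h W a).re := by simp
    have e4 : (cen h W a + t * (z - cen h W a) - cen h W a).im = t * (z - cen h W a).im := by simp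
    rw [e3, e4]
    exact ⟨seg0 h0 h1 hz.1, seg0 h0 h1 hz.2⟩
  · rw [cen_add h W a (a + 1)] at hz
    rcases star1 (P.step a) hh hρ h0 h1 hz with h2 | h2
    · right; right
      rw [cen_add h W a (a + 1)]
      exact h2
    · exact Or.inr (Or.inl h2)

theorem sp_tri (z w v : ℂ) : sp z w ≤ sp z v + sp v w := by
  rw [sp_eq, sp_eq, sp_eq]
  have h1 : |(w - z).re| ≤ |(v - z).re| + |(w - v).re| := by
    have : (w - z).re = (v - z).re + (w - v).re := by simp
    rw [this]
    exact abs_add_le _ _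
  have h2 : |(w - z).im| ≤ |(v - z).im| + |(w - v).im| := by
    have : (w - z).im = (v - z).im + (w - v).im := by simp
    rw [this]
    exact abs_add_le _ _
  have h5 := le_max_left |(v - z).re| |(v - z).im|
  have h6 := le_max_right |(v - z).re| |(v - z).im|
  have h7 := le_max_left |(w - v).re| |(w - v).im|
  have h8 := le_max_right |(w - v).re| |(w - v).im|
  exact max_le (by linarith) (by linarith)

theorem sp_symm (z w : ℂ) : sp z w = sp w z := by
  rw [sp_eq, sp_eq]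
  congr 1
  · rw [← neg_sub, Complex.neg_re, abs_neg]
  · rw [← neg_sub, Complex.neg_im, abs_neg]

/-- neighbouring vertices -/
theorem sp_cen {u : ℤ × ℤ} (hu : U4 u) (hh : 0 ≤ h) (c : ℂ) : sp c (c + h * cz u) ≤ h := by
  rw [sp_eq, add_sub_cancel_left]
  rcases hu with rfl | rfl | rfl | rfl <;> simp [cz, abs_of_nonneg hh, hh]

/-- everything far from the middle vertex is off the window -/
theorem W3_far (P : FPath M W) (hh : 0 ≤ h) {z : ℂ} (hz : z ∈ W3 h ρ W a) :
    sp (cen h W a) z < ρ + h := by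
  rcases hz with hz | hz | hz
  · rw [cen_add h W a (a - 1)] at hz
    have := sp_tri (cen h W a) z (cen h W a + h * cz (W (a - 1) - W a))
    have h2 := sp_cen (P.step' a) hh (cen h W a)
    linarith
  · linarith
  · rw [cen_add h W a (a + 1)] at hz
    have := sp_tri (cen h W a) z (cen h W a + h * cz (W (a + 1) - W a))
    have h2 := sp_cen (P.step a) hh (cen h W a)
    linarith

theorem W3_bdd (P : FPath M W) (hh : 0 ≤ h) : Bornology.IsBounded (W3 h ρ W a) := by
  refine (Metric.isBounded_closedBall (x := cen h W a) (r := 2 * (ρ + h))).subset ?_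
  intro z hz
  have h1 := W3_far P hh hz
  rw [sp_lt] at h1
  rw [Metric.mem_closedBall, dist_eq_norm]
  have h2 := Complex.norm_le_abs_re_add_abs_im (z - cen h W a)
  linarith [h1.1, h1.2]

/-- **the complement of the window is connected** -/
theorem W3_pre (P : FPath M W) (hh : 0 < h) (hρ : h / 2 < ρ) : IsPreconnected (W3 h ρ W a)ᶜ := by
  set c := cen h W a with hc
  have hsub : Cout c (ρ + h) ⊆ (W3 h ρ W a)ᶜ := by
    intro z hz h1
    have h2 : ρ + h ≤ sp c z := hz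
    have := W3_far P hh.le h1
    rw [← hc] at this
    linarith
  have hρ0 : 0 < ρ := by linarith
  -- a base point
  have hx : (c + ((ρ + h : ℝ) : ℂ)) ∈ Cout c (ρ + h) := by
    show ρ + h ≤ sp c _
    rw [sp_eq, add_sub_cancel_left, Complex.ofReal_re]
    exact (le_abs_self _).trans (le_max_left _ _)
  refine isPreconnected_of_forall (c + ((ρ + h : ℝ) : ℂ)) fun y hy => ?_
  -- the ray
  set R : Set ℂ := (fun t : ℝ => c + t * (y - c)) '' Set.Ici 1 with hR
  have hRc : IsPreconnected R := isPreconnected_Ici.image _ (by fun_prop)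
  have hRs : R ⊆ (W3 h ρ W a)ᶜ := by
    rintro _ ⟨t, ht, rfl⟩ h1
    have ht' : (1 : ℝ) ≤ t := ht
    have ht0 : 0 < t := by linarith
    apply hy
    have h2 := W3_star P hh hρ h1 (t := t⁻¹) (by positivity) (inv_le_one_of_one_le₀ ht')
    have e : c + ((t⁻¹ : ℝ) : ℂ) * (c + t * (y - c) - c) = y := by
      have : (t : ℂ) ≠ 0 := by exact_mod_cast ht0.ne'
      push_cast
      field_simp
      ring
    rw [← hc] at h2
    simp only at h2
    rwa [e] at h2
  have hy1 : y ∈ R := ⟨1, Set.mem_Ici.2 le_rfl, by push_cast; ring⟩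
  have hyc : 0 < sp c y := by
    by_contra h3
    push Not at h3
    apply hy
    right; left
    rw [← hc]
    linarith
  have hy2 : ∃ z ∈ R, z ∈ Cout c (ρ + h) := by
    refine ⟨_, ⟨max 1 ((ρ + h) / sp c y), Set.mem_Ici.2 (le_max_left _ _), rfl⟩, ?_⟩
    show ρ + h ≤ sp c _
    set t := max 1 ((ρ + h) / sp c y) with ht
    have ht1 : (1 : ℝ) ≤ t := le_max_left _ _
    have e : sp c (c + t * (y - c)) = t * sp c y := by
      rw [sp_eq, sp_eq, add_sub_cancel_left, Complex.re_ofReal_mul, Complex.im_ofReal_mul,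
        abs_mul, abs_mul, abs_of_nonneg (by linarith : (0 : ℝ) ≤ t),
        mul_max_of_nonneg _ _ (by linarith : (0 : ℝ) ≤ t)]
    rw [e]
    have h4 : (ρ + h) / sp c y ≤ t := le_max_right _ _
    rwa [div_le_iff₀ hyc] at h4
  obtain ⟨z, hz1, hz2⟩ := hy2
  exact ⟨Cout c (ρ + h) ∪ R, Set.union_subset hsub hRs, Or.inl hx, Or.inr hy1,
    IsPreconnected.union z hz2 hz1 (cout_pre _ _) hRc⟩

/-! ### tiles and gates -/

/-- the tiles `a - 1, a, a + 1` with a neighbourhood are in the window -/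
theorem W3_tile (P : FPath M W) {b : ℤ} (hb : b = a - 1 ∨ b = a ∨ b = a + 1) (hAB : A ≤ B)
    {s t : ℂ} {d : ℝ} (hs : s ∈ RR A B h W b) (ht : ‖t - s‖ ≤ d) (hρ : B + d ≤ ρ) :
    t ∈ W3 h ρ W a := by
  have h1 := sp_lt.2 (TileRx228.ball P hAB hs)
  have h2 := sp_lip (cen h W b) t s
  have h3 : sp (cen h W b) t < ρ := by linarith
  rcases hb with rfl | rfl | rfl
  · exact Or.inl h3
  · exact Or.inr (Or.inl h3)
  · exact Or.inr (Or.inr h3)

/-- a gate is at sup distance `≥ h` from the other vertices -/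
theorem gate_sp (P : FPath M W) (hh : 0 ≤ h) {j v : ℤ} (h1 : W v ≠ W j) (h2 : W v ≠ W (j - 1)) :
    h ≤ sp (cen h W v) (gz h W j) := by
  have hu := U4_ge P j
  have e1 : (gz h W j - cen h W v).re =
      h / 2 * (((W j - W (j - 1)).1 + 2 * ((W (j - 1)).1 - (W v).1) : ℤ) : ℝ) := by
    unfold gz cen
    simp [cz]
    ring
  have e2 : (gz h W j - cen h W v).im =
      h / 2 * (((W j - W (j - 1)).2 + 2 * ((W (j - 1)).2 - (W v).2) : ℤ) : ℝ) := by
    unfold gz cen
    simp [cz]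
    ring
  rw [sp_eq, e1, e2]
  have key : ∀ n : ℤ, 2 ≤ |n| → h ≤ |h / 2 * (n : ℝ)| := by
    intro n hn
    have : (2 : ℝ) ≤ |(n : ℝ)| := by
      have h3 : ((2 : ℤ) : ℝ) ≤ ((|n| : ℤ) : ℝ) := by exact_mod_cast hn
      rw [Int.cast_abs] at h3
      simpa using h3
    rw [abs_mul, abs_of_nonneg (by linarith : (0 : ℝ) ≤ h / 2)]
    nlinarith
  have h3 : W j = W (j - 1) + (W j - W (j - 1)) := by abel
  generalize W j - W (j - 1) = u at *
  generalize W (j - 1) = p at *
  generalize W v = q at *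
  obtain ⟨p1, p2⟩ := p
  obtain ⟨q1, q2⟩ := q
  rw [h3] at h1
  simp only [ne_eq, Prod.mk.injEq, not_and] at h2
  have h5 : 2 ≤ |u.1 + 2 * (p1 - q1)| ∨ 2 ≤ |u.2 + 2 * (p2 - q2)| := by
    rcases hu with rfl | rfl | rfl | rfl <;>
      simp only [Prod.mk_add_mk, ne_eq, Prod.mk.injEq, not_and] at h1 ⊢ <;>
      (simp only [le_abs]
       by_cases k1 : q1 = p1 <;> by_cases k2 : q2 = p2 <;> simp_all <;> omega)
  rcases h5 with h5 | h5
  · exact (key _ h5).trans (le_max_left _ _)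
  · exact (key _ h5).trans (le_max_right _ _)

/-- the box of a gate which is not next to the three vertices is off the window -/
theorem W3_gate (P : FPath M W) (hh : 0 ≤ h) {j : ℤ}
    (hj : ∀ v : ℤ, a - 1 ≤ v → v ≤ a + 1 → ¬ (M : ℤ) ∣ j - v ∧ ¬ (M : ℤ) ∣ j - 1 - v) {s : ℂ}
    {r : ℝ} (hs : ‖s - gz h W j‖ ≤ r) (hr : ρ + r ≤ h) : s ∉ W3 h ρ W a := by
  have key : ∀ v : ℤ, a - 1 ≤ v → v ≤ a + 1 → ¬ sp (cen h W v) s < ρ := by
    intro v h1 h2 h3
    obtain ⟨h4, h5⟩ := hj v h1 h2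
    have h6 := gate_sp (h := h) P hh (j := j) (v := v) (fun e => h4 (P.simple _ _ e))
      (fun e => h5 (P.simple _ _ e))
    have h7 := sp_lip (cen h W v) (gz h W j) s
    rw [norm_sub_rev] at h7
    linarith
  rintro (h1 | h1 | h1)
  · exact key _ le_rfl (by omega) h1
  · exact key _ (by omega) (by omega) h1
  · exact key _ (by omega) le_rfl h1

end Crest.Agent.R143.TileZx490
end
end

-- ▼ part R143/TileX_683
section

/-!
# Row 143 (S0194), RIG, R6 full tiles: the instance on `cm0 hS` (helper683; 490, 176)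

* `gen_restr`, `linksO_restr`, `corr_restr` : 117's corridor on `restr M`
* `dcorr_le` : 490's `corr_le` for 117's `DCorr` : the charge of the inner tiles `1 .. n - 2` squared is
  at most the sum of the squares of the block sums of the window map
* `aD D d` : the field of 176's `QF`: `Nn` on the faces with centre in `D`, radius at most `d`
* **`dc_le`** : five tiles (a `DCorr` of a configuration `X`), the spatial charge `VX Nn 5 .. 2 X` of the
  middle tile: the last clause of 176's `QF`; **`evp_le`** : from 503's `Evp`, generic gates `LG (G a) (Q a)`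
* `vx_eq` : `VX .. n .. l` of a longer corridor is the `VX .. 5 .. 2` of its window
* `paint_eq` (490's `paint S (bk hS h3 σ)` = 829's `Xc hS h3 σ`), `sX_paint`, `cX_paint`, `hullC_paint`
-/

set_option autoImplicit false
set_option linter.unusedSectionVars false

noncomputable section

open scoped Classical

namespace Crest.Agent.R143.TileXx683

open Set
open Crest.Agent.R143.B0x346 Crest.Agent.R143.DelGx806 Crest.Agent.R143.DelRx806
  Crest.Agent.R143.JColx54
open Crest.Agent.R143.Frame1x395 Crest.Agent.R143.Frame2x395 Crest.Agent.R143.Frame3x395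
  Crest.Agent.R143.Frame4x395 Crest.Agent.R143.Frame8x395 Crest.Agent.R143.Frame9x395
  Crest.Agent.R143.Frame10x395 Crest.Agent.R143.Frame11x395
open Crest.Agent.R143.Frame5x395 (sd mem_sd th th_spec)
open Crest.Agent.R143.Coarsex166
open Crest.Agent.R143.Splx117 Crest.Agent.R143.WLocx713
open Crest.Agent.R143.RingDx117 (RD)
open Crest.Agent.R143.CorrDx117 (DCorr)
open Crest.Agent.R143.Mass3x302 (restr)
open Crest.Agent.R143.Mass1x302 (T3 Nn)
open Crest.Agent.R143.TileMx683 (piT bl)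
open Crest.Agent.R143.FinMx609 (cen3 rad3)
open Crest.Agent.R143.FinCx811 (Cs cs cell_mem)
open Crest.Agent.R143.Engx490 (fc tt nn cen3_tt rad3_tt cen_rho rad_rho bk mem_bk)
open Crest.Agent.R143.Sptx832 (fQ VX zz_zC0)
open Crest.Agent.R143.Sptx169 (Near mem_near)
open Crest.Agent.R143.RcTx422 (zz_restr fa_restr)

/-! ### 117's corridor on the map with finitely many cells -/

section restr

variable {D C : Type} {M : CMap D C} {x : D → ZMod 2} {n : ℕ} {p : ℕ → D} {R : ℕ → Set D}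

theorem gen_restr {c : Set.range M.cell} (h : Gen M c.1) : Gen (restr M) c where
  lv := fun a ha => h.lv a (congrArg Subtype.val ha)
  orb := fun a b ha hb => h.orb a b (congrArg Subtype.val ha) (congrArg Subtype.val hb)
  ne := fun a ha e => h.ne a (congrArg Subtype.val ha) (congrArg Subtype.val e)

theorem cona_restr {c a b : Set.range M.cell} (h : ConA M x c.1 a.1 b.1) :
    ConA (restr M) x c a b := by
  obtain ⟨h1, h2, h3⟩ := h
  refine ⟨fun e => h1 (congrArg Subtype.val e), fun e => h2 (congrArg Subtype.val e), ?_⟩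
  clear h1 h2
  obtain ⟨b, hb⟩ := b
  simp only at h3
  revert hb
  induction h3 with
  | refl => intro hb; exact .refl
  | @tail u v _ h5 ih =>
    intro hb
    obtain ⟨h6, h7, d, hd, h8⟩ := h5
    have hu : u ∈ Set.range M.cell := by
      rcases h8 with ⟨e1, -⟩ | ⟨-, e1⟩
      · exact ⟨_, e1⟩
      · exact ⟨_, e1⟩
    refine (ih hu).tail ⟨fun e => h6 (congrArg Subtype.val e), fun e => h7 (congrArg Subtype.val e),
      d, hd, ?_⟩
    rcases h8 with ⟨e1, e2⟩ | ⟨e1, e2⟩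
    · exact Or.inl ⟨Subtype.ext e1, Subtype.ext e2⟩
    · exact Or.inr ⟨Subtype.ext e1, Subtype.ext e2⟩

theorem linksO_restr (h : LinksO M x n p) : LinksO (restr M) x n p := by
  intro k k' c h1 h2
  rcases h k k' c.1 h1 h2 with ⟨h3, h4⟩ | h3 | h3
  · exact Or.inl ⟨h3, Subtype.ext h4⟩
  · exact Or.inr (Or.inl (cona_restr h3))
  · exact Or.inr (Or.inr (cona_restr h3))

theorem corr_restr (h : Corr M x n p R) : Corr (restr M) x n p R where
  even := Mass3x302.isC_restr.2 h.even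
  n1 := h.n1
  occ := h.occ
  ne := h.ne
  far := h.far
  arc := h.arc

end restr

/-! ### corridors on `cm0 hS` -/

section dc

variable {S : Finset ℂ} {χ : ℂ → ZMod 2} {hS : GP (S : Set ℂ)} {hχ : HullC S χ} {n : ℕ}
  {y z : ℕ → ℂ} {A B : ℕ → Set ℂ} {p : ℕ → D0 S}

/-- the colouring of the finitely many cells -/
def fcol (hS : GP (S : Set ℂ)) (hχ : HullC S χ) (c : Cs hS) : ZMod 2 := lift S hχ c.1


/-- **490's bound for an open corridor of `cm0 hS`** -/
theorem dcorr_le (R : DCorr hS hχ n y z A B p) (n3 : 3 ≤ n)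
    {T : Finset (Cs hS)} (hT : ClsCon (restr (cm0 hS)) (piT T))
    (hy : ∀ k, k ≤ n → χ (y k) = 1)
    (hin : ∀ k, 1 ≤ k → k + 1 < n → ∀ d ∈ RD S (B k), ((restr (cm0 hS)).cell d : Cs hS) ∈ T ∧
      ((restr (cm0 hS)).cell ((restr (cm0 hS)).rho d) : Cs hS) ∈ T)
    (h0 : ((restr (cm0 hS)).cell (p 0) : Cs hS) ∉ T)
    (hn : ((restr (cm0 hS)).cell (p n) : Cs hS) ∉ T) {a : D0 S → ℂ}
    (hw : ∀ k, k = 0 ∨ k + 1 = n → ∀ d ∈ RD S (B k), ∀ e ∈ Fa (cm0 hS) d, a e = 0) :
    ‖∑ k ∈ Finset.Ico 1 (n - 1), ZZ (cm0 hS) (xc hS hχ) a (RD S (B k)) (p k) (p (k + 1))‖ ^ 2 ≤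
      ∑ β ∈ blks (coarse (restr (cm0 hS)) (piT T) hT)
        (cfg (restr (cm0 hS)) (bl T (fcol hS hχ))), ‖∑ g ∈ β, a g‖ ^ 2 := by
  have key := TileWx490.corr_le (M := restr (cm0 hS)) (σ := fcol hS hχ) (T := T) hT n3
    (p := p) (R := fun k => RD S (B k)) (corr_restr R.corr)
    (fun k hk d hd => gen_restr (R.gen k hk d hd)) (linksO_restr R.linksO)
    (fun k hk => by
      show χ (p k).1.1 = 1
      rw [R.st k hk]
      exact hy k hk) hin h0 hn (a := a) hw
  refine le_trans (le_of_eq ?_) key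
  congr 2
  refine Finset.sum_congr rfl fun k _ => ?_
  exact zz_restr.symm

end dc

/-! ### the field of `QF` -/

/-- the field of 176's `QF` : `Nn` on the faces with centre in `D`, radius at most `d` -/
def aD (S : Finset ℂ) (D : Set ℂ) (d : ℝ) (g : D0 S) : ℂ :=
  if cen3 (fc S g) ∈ D ∧ rad3 (fc S g) ≤ d then nn S g else 0

theorem aD_spin {S : Finset ℂ} (hS : GP (S : Set ℂ)) (D : Set ℂ) (d : ℝ) :
    Spin (cm0 hS) om (aD S D d) := Engx490.spin_nn_rad hS D d

theorem aD_le {S : Finset ℂ} (D : Set ℂ) (d : ℝ) (g : D0 S) :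
    ‖aD S D d g‖ ≤ ‖Nn (g.1.2, th S g.1, g.1.1)‖ := by
  unfold aD
  split_ifs
  · exact le_rfl
  · rw [norm_zero]
    exact norm_nonneg _

theorem aD_ne {S : Finset ℂ} {D : Set ℂ} {d : ℝ} {g : D0 S} (h : aD S D d g ≠ 0) :
    cen3 (fc S g) ∈ D ∧ rad3 (fc S g) ≤ d := by
  by_contra hc
  exact h (if_neg hc)

theorem aD_zero {S : Finset ℂ} {D : Set ℂ} {d : ℝ} {g : D0 S} (h : cen3 (fc S g) ∉ D) :
    aD S D d g = 0 := if_neg fun h' => h h'.1

/-- the field is constant (zero) along a face whose centre is off the region -/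
theorem aD_face {S : Finset ℂ} (hS : GP (S : Set ℂ)) {D : Set ℂ} {d : ℝ} {g e : D0 S}
    (h : cen3 (fc S g) ∉ D) (he : e ∈ Fa (cm0 hS) g) : aD S D d e = 0 := by
  apply aD_zero
  rcases he with rfl | rfl | rfl
  · exact h
  · rw [cen_rho hS]; exact h
  · rw [cen_rho hS, cen_rho hS]; exact h

theorem aD_fQ {S : Finset ℂ} {D : Set ℂ} {d : ℝ} {g : D0 S}
    (h : cen3 (fc S g) ∈ D → rad3 (fc S g) ≤ d) :
    aD S D d g = fQ Nn D (g.1.2, th S g.1, g.1.1) := by
  have e1 : cen3 (g.1.2, th S g.1, g.1.1) = cen3 (fc S g) := cen3_tt g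
  unfold aD fQ
  rw [e1]
  by_cases h1 : cen3 (fc S g) ∈ D
  · rw [if_pos ⟨h1, h h1⟩, if_pos h1]
    rfl
  · rw [if_neg fun h' => h1 h'.1, if_neg h1]

/-! ### five tiles of a configuration -/

section conf

open Crest.Agent.R143.PP0x831 Crest.Agent.R143.TileRx228 Crest.Agent.R143.DCorFx713
  Crest.Agent.R143.DCorGx713 Crest.Agent.R143.RingPx503 Crest.Agent.R143.PathGx503
  Crest.Agent.R143.PathDx503 Crest.Agent.R143.Locx922

variable {X : Set (ℂ × Bool)} {M : ℕ} {W : ℤ → ℤ × ℤ} {Q : ℤ → Set ℂ} {U : Set ℂ}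
  {h A B A' B' m τ κ bb : ℝ} {P : ℤ → Prop} {S : Finset ℂ}

/-- **FULL TILE**: the middle tile of an open corridor of five tiles (generic gates and regions) -/
theorem dc_le (hX : X.Finite) (hSX : sX X = S) (hS : GP (S : Set ℂ)) (h3 : 3 ≤ S.card)
    {σ : Cs hS → ZMod 2} (hσ : ∀ v (hv : v ∈ S), cX X v = σ (cs hS h3 ⟨v, hv⟩))
    (hχ : HullC S (cX X)) {y z : ℕ → ℂ} {Al Bl : ℕ → Set ℂ} {p : ℕ → D0 S}
    (R : DCorr hS hχ 5 y z Al Bl p) (hy : ∀ k, k ≤ 5 → cX X (y k) = 1)
    {St : ℕ → Set (ℂ × Bool) → ℂ × ℂ → Prop} (hSt : ∀ k, k ≤ 5 → St k X (p k).1)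
    (uSt : ∀ k, k ≤ 5 → ∀ q, St k X q → q = (p k).1)
    {T : Finset (Cs hS)} (hT : ClsCon (restr (cm0 hS)) (piT T))
    (hin : ∀ k : ℕ, 1 ≤ k → k < 4 → ∀ v (hv : v ∈ S), v ∈ Bl k → cs hS h3 ⟨v, hv⟩ ∈ T)
    (hout : ∀ v (hv : v ∈ S), (v = y 0 ∨ v = y 5) → cs hS h3 ⟨v, hv⟩ ∉ T)
    {D : Set ℂ} {ρ : ℝ}
    (hfar : ∀ k : ℕ, k = 0 ∨ k = 4 → ∀ a b c, (a, b, c) ∈ delT S → a ∈ Bl k → b ∈ Bl k →
      cen3 (a, b, c) ∉ D)
    (hrad : ∀ k : ℕ, 1 ≤ k → k < 4 → ∀ a b c, (a, b, c) ∈ delT S → a ∈ Bl k → b ∈ Bl k →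
      rad3 (a, b, c) ≤ ρ) :
    ‖VX Nn 5 Bl (fun _ => D) St 2 X‖ ^ 2 ≤
      ∑ β ∈ blks (coarse (restr (cm0 hS)) (piT T) hT) (cfg (restr (cm0 hS)) (bl T σ)),
        ‖∑ g ∈ β, aD S D ρ g‖ ^ 2 := by
  subst hSX
  have hcs : ∀ d : D0 (sX X), ((restr (cm0 hS)).cell d : Cs hS) =
      cs hS h3 ⟨d.1.1, (mem_delT.1 (th_spec d.2)).1⟩ := fun d => rfl
  -- the colouring
  have eσ : fcol hS hχ = σ := by
    funext c
    obtain ⟨_, ⟨g, rfl⟩⟩ := c
    exact hσ g.1.1 (mem_delT.1 (th_spec g.2)).1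
  have b0 : ((restr (cm0 hS)).cell (p 0) : Cs hS) ∉ T := by
    rw [hcs]
    exact hout _ _ (Or.inl (by rw [R.st 0 (by omega)]))
  have b5 : ((restr (cm0 hS)).cell (p 5) : Cs hS) ∉ T := by
    rw [hcs]
    exact hout _ _ (Or.inr (by rw [R.st 5 le_rfl]))
  -- the inner tiles
  have bin : ∀ k : ℕ, 1 ≤ k → k + 1 < 5 → ∀ d ∈ RD (sX X) (Bl k),
      ((restr (cm0 hS)).cell d : Cs hS) ∈ T ∧
        ((restr (cm0 hS)).cell ((restr (cm0 hS)).rho d) : Cs hS) ∈ T := by
    intro k h1 h2 g hg'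
    refine ⟨?_, ?_⟩
    · rw [hcs]
      exact hin k h1 (by omega) _ _ hg'.1
    · rw [hcs]
      exact hin k h1 (by omega) _ _ hg'.2
  -- the outer tiles
  have bw : ∀ k : ℕ, k = 0 ∨ k + 1 = 5 → ∀ g ∈ RD (sX X) (Bl k),
      ∀ e ∈ Fa (cm0 hS) g, aD (sX X) D ρ e = 0 := by
    intro k hk g hg' e he
    exact aD_face hS (hfar k (by omega) _ _ _ (th_spec g.2) hg'.1 hg'.2) he
  have key := dcorr_le (hS := hS) (hχ := hχ) R (by omega) hT hy bin b0 b5 bw
  rw [eσ] at key
  refine le_trans (le_of_eq ?_) key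
  congr 2
  have hz : ∀ k, k < 5 → ZZ (cm0 hS) (xc hS hχ) (aD (sX X) D ρ)
      (RD (sX X) (Bl k)) (p k) (p (k + 1)) = zC (fQ Nn D) (Bl k) (St k) (St (k + 1)) X := by
    intro k hk
    refine zz_zC0 (B := Bl) hX R hSt uSt (fun j hj e h1 h2 => ?_) hk
    have ht : (e.1.2, th (sX X) e.1, e.1.1) ∈ delT (sX X) := delT_rot hS (th_spec e.2)
    rcases Nat.lt_or_ge 0 j with h5 | h5
    · rcases Nat.lt_or_ge j 4 with h6 | h6
      · refine aD_fQ fun _ => ?_
        rw [← rad3_tt]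
        exact hrad j h5 h6 _ _ _ ht h1 h2
      · refine aD_fQ fun h7 => absurd h7 ?_
        rw [← cen3_tt]
        exact hfar j (by omega) _ _ _ ht h1 h2
    · refine aD_fQ fun h7 => absurd h7 ?_
      rw [← cen3_tt]
      exact hfar j (by omega) _ _ _ ht h1 h2
  unfold VX
  have e5 : Near 5 2 = Finset.Ico 1 (5 - 1) := by
    ext k
    rw [mem_near, Finset.mem_Ico]
    omega
  rw [e5]
  refine Finset.sum_congr rfl fun k hk => ?_
  rw [Finset.mem_Ico] at hk
  exact (hz k (by omega)).symm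

/-- the gate events of the corridor from `o` -/
def St (G : ℤ → GPar) (Q : ℤ → Set ℂ) (o : ℤ) (k : ℕ) : Set (ℂ × Bool) → ℂ × ℂ → Prop :=
  LG (G (o + k)) (Q (o + k))

/-- the arc regions of the corridor from `o` -/
def Bk (h A B : ℝ) (W : ℤ → ℤ × ℤ) (o : ℤ) (k : ℕ) : Set ℂ := RR A B h W (o + k)

/-- **FULL TILE**, five tiles of a fine path (503's `Evp`), generic gates `LG (G a) (Q a)` -/
theorem evp_le {G : ℤ → GPar} {a0 a1 b0 b1 m' : ℝ} (hX : X.Finite) (hSX : sX X = S)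
    (hS : GP (S : Set ℂ)) (h3 : 3 ≤ S.card)
    {σ : Cs hS → ZMod 2} (hσ : ∀ v (hv : v ∈ S), cX X v = σ (cs hS h3 ⟨v, hv⟩))
    (hχ : HullC S (cX X))
    (E : Evp S S (bX X) h A B a0 a1 b0 b1 m' W P (fun a => (dg (G a) (Q a) X).1)
      (fun a => (dg (G a) (Q a) X).2))
    (N : Num h A B κ bb a0 a1 b0 b1 m) (F : FPath M W) (hE : Envr S U m) (hτ : m < τ)
    {o : ℤ} (hM : M = 0 ∨ 5 < M) (hP : ∀ k : ℕ, k < 5 → P (o + k))
    (hU : ∀ k : ℕ, k < 5 → RR (A + τ) (B + τ) h W (o + k) ⊆ U) (hA : bb ≤ A')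
    (hB : h / 2 + κ ≤ B') (hA2 : A + τ ≤ A') (hB2 : B + τ ≤ B') (hD : Dsj A' B' h M W)
    (hLG : ∀ k : ℕ, k ≤ 5 → ∃ q, LG (G (o + k)) (Q (o + k)) X q)
    {T : Finset (Cs hS)} (hT : ClsCon (restr (cm0 hS)) (piT T))
    (hin : ∀ k : ℕ, 1 ≤ k → k < 4 → ∀ v (hv : v ∈ S), v ∈ RR (A + τ) (B + τ) h W (o + k) →
      cs hS h3 ⟨v, hv⟩ ∈ T)
    (hout : ∀ v (hv : v ∈ S), (v ∈ Win (gz h W o) (ge W o) a0 a1 b0 b1 ∨
      v ∈ Win (gz h W (o + 5)) (ge W (o + 5)) a0 a1 b0 b1) → cs hS h3 ⟨v, hv⟩ ∉ T)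
    {D : Set ℂ} {ρ : ℝ}
    (hfar : ∀ k : ℕ, k = 0 ∨ k = 4 → ∀ a b c, (a, b, c) ∈ delT S →
      a ∈ RR (A + τ) (B + τ) h W (o + k) → b ∈ RR (A + τ) (B + τ) h W (o + k) →
      cen3 (a, b, c) ∉ D)
    (hrad : ∀ k : ℕ, 1 ≤ k → k < 4 → ∀ a b c, (a, b, c) ∈ delT S →
      a ∈ RR (A + τ) (B + τ) h W (o + k) → b ∈ RR (A + τ) (B + τ) h W (o + k) →
      rad3 (a, b, c) ≤ ρ) :
    ‖VX Nn 5 (Bk h (A + τ) (B + τ) W o) (fun _ => D) (St G Q o) 2 X‖ ^ 2 ≤
      ∑ β ∈ blks (coarse (restr (cm0 hS)) (piT T) hT) (cfg (restr (cm0 hS)) (bl T σ)),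
        ‖∑ g ∈ β, aD S D ρ g‖ ^ 2 := by
  have bS : bX X ⊆ S := hSX ▸ bX_sub
  have bI : ∀ s ∈ S, cX X s = 1 ↔ s ∈ bX X := hSX ▸ bX_iff
  have hUP : ∀ k : ℕ, k ≤ 5 → P (o + k) ∨ P (o + k - 1) := by
    intro k hk
    rcases Nat.lt_or_ge k 5 with h1 | h1
    · exact Or.inl (hP k h1)
    · right
      have e : o + (k : ℤ) - 1 = o + ((4 : ℕ) : ℤ) := by
        have : k = 5 := by omega
        subst this
        push_cast; ring
      rw [e]
      exact hP 4 (by omega)
  have hdg : ∀ k : ℕ, k ≤ 5 → LG (G (o + k)) (Q (o + k)) X (dg (G (o + k)) (Q (o + k)) X) :=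
    fun k hk => dg_spec (hLG k hk)
  set p : ℕ → D0 S := fun k =>
    ⟨dg (G (o + (min k 5 : ℕ))) (Q (o + (min k 5 : ℕ))) X,
      neck_sd hχ (V := S) (b := 1) bI (E.gate _ (hUP _ (min_le_right k 5)))⟩ with hpd
  have hp : ∀ k : ℕ, k ≤ 5 → (p k).1 = dg (G (o + k)) (Q (o + k)) X := by
    intro k hk
    show dg (G (o + (min k 5 : ℕ))) (Q (o + (min k 5 : ℕ))) X = _
    rw [min_eq_left hk]
  have R := Evp.corr (b := 1) E N F hS hχ bI bS hE hτ (n := 5) (by omega) hM o hP hU hA hB hA2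
    hB2 hD (p := p) fun k hk => hp k hk
  refine dc_le (St := St G Q o) hX hSX hS h3 hσ hχ R (fun k hk => ?_) (fun k hk => ?_)
    (fun k hk q hq => ?_) hT hin (fun v hv h4 => hout v hv ?_) hfar hrad
  · exact (neck_col (b := 1) bI (E.gate _ (hUP k hk))).1
  · show LG (G (o + k)) (Q (o + k)) X (p k).1
    rw [hp k hk]
    exact hdg k hk
  · have h1 : LG (G (o + k)) (Q (o + k)) X (p k).1 := by
      rw [hp k hk]
      exact hdg k hk
    exact h1.uniq hq
  · rcases h4 with rfl | rfl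
    · left
      have h1 := neck_win (E.gate _ (hUP 0 (by omega)))
      simpa using h1
    · right
      have h1 := neck_win (E.gate _ (hUP 5 le_rfl))
      simpa using h1


end conf

/-! ### the configuration of a colouring of the cells -/

section paint

open Crest.Agent.R143.Engx490 (bk)
open Crest.Agent.R143.Dbl2x609 (paint)
open Crest.Agent.R143.ColXx829 (Xc)
open Crest.Agent.R143.PP0x831 Crest.Agent.R143.WLocx713

variable {S : Finset ℂ} (hS : GP (S : Set ℂ)) (h3 : 3 ≤ S.card) (σ : Cs hS → ZMod 2)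


theorem fin_paint : (paint S (bk hS h3 σ)).Finite := ColXx829.fin_Xc

theorem sX_paint : sX (paint S (bk hS h3 σ)) = S := ColXx829.sX_Xc

theorem cX_paint {v : ℂ} (hv : v ∈ S) :
    cX (paint S (bk hS h3 σ)) v = σ (cs hS h3 ⟨v, hv⟩) := ColXx829.cX_Xc hv

theorem hullC_paint : HullC S (cX (paint S (bk hS h3 σ))) := ColXx829.hullC_Xc

end paint

end Crest.Agent.R143.TileXx683
end
end

-- ▼ part R143/TileU_683
section

/-!
# Row 143 (S0194), RIG, full tiles: the faces of a window of five tiles (helper683; for 490's `TileZ`)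

`P : FPath M W`, `M = 0` or `5 < M`, tiles `o .. o + 4`, `Hol S (closedBall (cen (o + 2)) 1000 η) d`:
* `del_rad` : a face with a vertex in a hole free region has radius `< d`
* `rr_ball` : the five tiles are inside the ball
* **`hfar_std`** : the faces of the tiles `o`, `o + 4` have their centre off the region of `o + 2`
* **`hrad_std`** : the faces of the five tiles have radius at most `d`
-/

set_option autoImplicit false

noncomputable section

open scoped Classical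

namespace Crest.Agent.R143.TileUx683

open Set
open Crest.Agent.R143.B0x346 Crest.Agent.R143.DelGx806 Crest.Agent.R143.DelRx806
open Crest.Agent.R143.Locx922
open Crest.Agent.R143.Gatex838 (X Y)
open Crest.Agent.R143.FinMx609 (cen3 rad3 cen3_iff)
open Crest.Agent.R143.TileRx228 Crest.Agent.R143.SpRx169

variable {S : Finset ℂ} {V : Set ℂ} {M : ℕ} {W : ℤ → ℤ × ℤ} {η d h A B : ℝ} {a b c : ℂ}

/-- a face with a vertex in a hole free region is small -/
theorem del_rad (hd : 0 < d) (hH : Hol (S : Set ℂ) V d) (ha : a ∈ V) (h : (a, b, c) ∈ delT S) :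
    rad3 (a, b, c) < d := by
  have h1 : Del (S : Set ℂ) a b c := (Finset.mem_filter.1 h).2
  obtain ⟨o, h2, h3, -, -, h4, -⟩ := del_small hd hH ha (inD_self a b c) h1
  have h5 : o = cen3 (a, b, c) := (cen3_iff h1.2.2.2.1).1 ⟨h2, h3⟩
  show ‖a - cen3 (a, b, c)‖ < d
  rw [← h5]
  exact h4

theorem cen_steps (P : FPath M W) (hh : 0 ≤ h) (a : ℤ) (j : ℕ) :
    ‖cen h W (a + j) - cen h W a‖ ≤ j * h := by
  induction j with
  | zero => simp
  | succ j ih =>
    have e : a + ((j + 1 : ℕ) : ℤ) = a + j + 1 := by push_cast; ring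
    rw [e]
    have h1 : ‖cen h W (a + j + 1) - cen h W (a + j)‖ ≤ h := by
      obtain ⟨e1, e2⟩ := cen_sub h W (a + j) (a + j + 1)
      refine (Complex.norm_le_abs_re_add_abs_im _).trans ?_
      rw [e1, e2, abs_mul, abs_mul, abs_of_nonneg hh]
      have hs := P.step (a + j)
      have h3 : |(((W (a + j + 1)).1 - (W (a + j)).1 : ℤ) : ℝ)| +
          |(((W (a + j + 1)).2 - (W (a + j)).2 : ℤ) : ℝ)| = 1 := by
        rcases hs with hs | hs | hs | hs
        all_goals
          have f1 := congrArg Prod.fst hs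
          have f2 := congrArg Prod.snd hs
          simp only [Prod.fst_sub, Prod.snd_sub] at f1 f2
          rw [f1, f2]
          norm_num
      calc h * |(((W (a + j + 1)).1 - (W (a + j)).1 : ℤ) : ℝ)| +
            h * |(((W (a + j + 1)).2 - (W (a + j)).2 : ℤ) : ℝ)| = h * 1 := by rw [← h3]; ring
        _ ≤ h := by rw [mul_one]
    calc ‖cen h W (a + j + 1) - cen h W a‖
        = ‖(cen h W (a + j + 1) - cen h W (a + j)) + (cen h W (a + j) - cen h W a)‖ := by
          ring_nf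
      _ ≤ h + j * h := (norm_add_le _ _).trans (add_le_add h1 ih)
      _ = ((j + 1 : ℕ) : ℝ) * h := by push_cast; ring

/-- a tile is near its vertex -/
theorem rr_cen (P : FPath M W) (hAB : A ≤ B) {s : ℂ} {a : ℤ} (hs : s ∈ RR A B h W a) :
    ‖s - cen h W a‖ ≤ 2 * B := by
  have key : ∀ u : ℤ × ℤ, U4 u → s ∈ Arm A B (cen h W a) (cz u) → ‖s - cen h W a‖ ≤ 2 * B := by
    intro u hu h1
    obtain ⟨⟨h2, h3⟩, h4⟩ := h1
    rw [X_cz hu] at h2 h3
    rw [Y_cz hu, abs_lt] at h4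
    obtain ⟨h4, h5⟩ := h4
    refine (Complex.norm_le_abs_re_add_abs_im _).trans ?_
    rcases hu with rfl | rfl | rfl | rfl
    all_goals
      simp only [Int.cast_neg, Int.cast_one, Int.cast_zero, neg_mul, one_mul, zero_mul, zero_add,
        add_zero, sub_zero, zero_sub, neg_neg] at h2 h3 h4 h5
      have g1 : |(s - cen h W a).re| ≤ B := abs_le.2 ⟨by linarith, by linarith⟩
      have g2 : |(s - cen h W a).im| ≤ B := abs_le.2 ⟨by linarith, by linarith⟩
      linarith
  rcases hs with hs | hs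
  · exact key _ (P.step' a) hs
  · exact key _ (P.step a) hs

/-- the five tiles are inside the ball -/
theorem rr_ball (P : FPath M W) (hη : 0 < η) {A B : ℝ} (hAB : A ≤ B) (hB : B ≤ 100 * η) (o : ℤ)
    {k : ℕ} (hk : k < 5) {s : ℂ} (hs : s ∈ RR A B (100 * η) W (o + k)) :
    s ∈ Metric.closedBall (cen (100 * η) W (o + 2)) (1000 * η) := by
  have h1 := rr_cen P hAB hs
  have h2 : ‖cen (100 * η) W (o + k) - cen (100 * η) W (o + 2)‖ ≤ 2 * (100 * η) := by
    rcases le_or_gt k 2 with hk2 | hk2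
    · have := cen_steps P (h := 100 * η) (by positivity) (o + k) (2 - k)
      have e : o + (k : ℤ) + ((2 - k : ℕ) : ℤ) = o + 2 := by
        rw [Nat.cast_sub hk2]; push_cast; ring
      rw [e, norm_sub_rev] at this
      refine this.trans ?_
      have h3 : ((2 - k : ℕ) : ℝ) ≤ 2 := by exact_mod_cast Nat.sub_le 2 k
      exact mul_le_mul_of_nonneg_right h3 (by positivity)
    · have := cen_steps P (h := 100 * η) (by positivity) (o + 2) (k - 2)
      have e : o + 2 + ((k - 2 : ℕ) : ℤ) = o + k := by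
        rw [Nat.cast_sub hk2.le]; push_cast; ring
      rw [e] at this
      refine this.trans ?_
      have h3 : ((k - 2 : ℕ) : ℝ) ≤ 2 := by exact_mod_cast (by omega : k - 2 ≤ 2)
      exact mul_le_mul_of_nonneg_right h3 (by positivity)
  rw [Metric.mem_closedBall, dist_eq_norm]
  calc ‖s - cen (100 * η) W (o + 2)‖
      = ‖(s - cen (100 * η) W (o + k)) + (cen (100 * η) W (o + k) - cen (100 * η) W (o + 2))‖ := by
        ring_nf
    _ ≤ 2 * B + 2 * (100 * η) := (norm_add_le _ _).trans (add_le_add h1 h2)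
    _ ≤ 1000 * η := by linarith

/-- **(G5)** the faces of the five tiles are small -/
theorem hrad_std (hη : 0 < η) (hd : 0 < d) (P : FPath M W) {o : ℤ}
    (hH : Hol (S : Set ℂ) (Metric.closedBall (cen (100 * η) W (o + 2)) (1000 * η)) d) :
    ∀ k : ℕ, k < 5 → ∀ a b c, (a, b, c) ∈ delT S →
      a ∈ RR (9 * η + η / 2) (51 * η + η / 2) (100 * η) W (o + k) →
      b ∈ RR (9 * η + η / 2) (51 * η + η / 2) (100 * η) W (o + k) → rad3 (a, b, c) ≤ d :=
  fun k hk a b c h ha _ =>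
    (del_rad hd hH (rr_ball P hη (by linarith) (by linarith) o hk ha) h).le

/-- **(G4)** the faces of the two outer tiles have their centre off the region of the middle tile -/
theorem hfar_std (hη : 0 < η) (hd : 0 < d) (hdη : 100 * d ≤ η) (P : FPath M W)
    (hM : M = 0 ∨ 5 < M) {o : ℤ}
    (hH : Hol (S : Set ℂ) (Metric.closedBall (cen (100 * η) W (o + 2)) (1000 * η)) d) :
    ∀ k : ℕ, k = 0 ∨ k = 4 → ∀ a b c, (a, b, c) ∈ delT S →
      a ∈ RR (9 * η + η / 2) (51 * η + η / 2) (100 * η) W (o + k) →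
      b ∈ RR (9 * η + η / 2) (51 * η + η / 2) (100 * η) W (o + k) →
      cen3 (a, b, c) ∉ Rg (100 * η) W (o + 2) := by
  intro k hk a b c h ha hb hc
  have hk5 : k < 5 := by omega
  have h1 := hrad_std hη hd P hH k hk5 a b c h ha hb
  have h2 : ‖cen3 (a, b, c) - a‖ ≤ d := by
    rw [norm_sub_rev]
    exact h1
  have h3 : cen3 (a, b, c) ∈ Rg (100 * η) W (o + ((2 : ℕ) : ℤ)) := by
    push_cast
    exact hc
  have h4 := corr_near P (h := 100 * η) (by positivity) o hd.le (A := 9 * η + η / 2)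
    (B := 51 * η + η / 2) (by positivity) (by linarith) (by linarith) (n := 5) (k := k) (l := 2)
    (by omega) hk5 (by norm_num) ha h2 h3
  omega

end Crest.Agent.R143.TileUx683
end
end

-- ▼ part R143/QFZ_490
section

/-!
# Row 143 (S0194), RIG, R6: the literal `QF` of a full tile (helper490)

* `WEn S M W η d o` : the environment of the window of the tiles `o, .., o + 4` (any path, open or
  closed), no hole of radius `d` in the ball `UW η W o`
* `EvW η W o X` : the five full tile events; `WEn.evp` : 503's events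
* `VT_norm` : `fP` and `Nn` give the same modulus
* `WEn.vt_le` : the charge of the middle tile is bounded by the block sums of the window map
* **`WEn.qf`** : 176's `QF` for `‖VT D P (η / 2) fP (o + 1) X‖ ^ 2`
-/

set_option autoImplicit false

noncomputable section

open scoped Classical

namespace Crest.Agent.R143.QFZx490

open Crest.Agent.R143.Gatex838 (X Y)
open Crest.Agent.R143.TileRx228 Crest.Agent.R143.TileZx490
open Crest.Agent.R143.FarEkx88 (sp Cout cout_pre sp_lip sp_cont)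

variable {M : ℕ} {W : ℤ → ℤ × ℤ} {h ρ A B : ℝ} {a : ℤ}

/-! ### the environment of the window -/

section env

open Crest.Agent.R143.B0x346 Crest.Agent.R143.DelGx806 Crest.Agent.R143.DelRx806
  Crest.Agent.R143.JColx54
open Crest.Agent.R143.Frame10x395
open Crest.Agent.R143.Locx922 Crest.Agent.R143.WLocx713
open Crest.Agent.R143.Blkx838 (DE)
open Crest.Agent.R143.Neckx921 (Neck NeckD Tile Lk)
open Crest.Agent.R143.PP0x831 Crest.Agent.R143.FinMx609
open Crest.Agent.R143.PathDx503 Crest.Agent.R143.PathGx503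
open Crest.Agent.R143.RingPx503 Crest.Agent.R143.DCorGx713 Crest.Agent.R143.DCorFx713
open Crest.Agent.R143.CorHx713 (gO gA QA mem_QA)
open Crest.Agent.R143.TplIx204 (TB TB_true DT)

variable {S : Finset ℂ} {η d : ℝ} {o : ℤ} {Z : Set (ℂ × Bool)}

/-- the ball of the window of the tiles `o, .., o + 4` -/
def UW (η : ℝ) (W : ℤ → ℤ × ℤ) (o : ℤ) : Set ℂ :=
  Metric.closedBall (cen (100 * η) W (o + 2)) (1000 * η)

/-- the environment of the window -/
structure WEn (S : Finset ℂ) (M : ℕ) (W : ℤ → ℤ × ℤ) (η d : ℝ) (o : ℤ) : Prop where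
  path : FPath M W
  hM : M = 0 ∨ 5 < M
  e0 : 0 < η
  d0 : 0 < d
  de : 100 * d ≤ η
  gp : GP (S : Set ℂ)
  hol : Hol (S : Set ℂ) (UW η W o) d

/-- the five tiles carry the full tile event -/
def EvW (η : ℝ) (W : ℤ → ℤ × ℤ) (o : ℤ) (Z : Set (ℂ × Bool)) : Prop :=
  ∀ k : ℕ, k < 5 → TB true (RR (9 * η) (51 * η) (100 * η) W (o + k))
    (LG (gA η W (o + k)) (QA η W (o + k))) (LG (gA η W (o + k + 1)) (QA η W (o + k + 1))) Z

theorem sp_path (P : FPath M W) (hh : 0 ≤ h) (a : ℤ) (n : ℕ) :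
    sp (cen h W a) (cen h W (a + n)) ≤ n * h := by
  induction n with
  | zero =>
    rw [Nat.cast_zero, add_zero, sp_eq, sub_self]
    simp
  | succ n ih =>
    have e : a + ((n + 1 : ℕ) : ℤ) = a + n + 1 := by push_cast; ring
    rw [e]
    have h1 := sp_tri (cen h W a) (cen h W (a + n + 1)) (cen h W (a + n))
    have h2 := sp_cen (P.step (a + n)) hh (cen h W (a + n))
    rw [← cen_add h W (a + n) (a + n + 1)] at h2
    push_cast
    linarith

theorem sp_path' (P : FPath M W) (hh : 0 ≤ h) {a b : ℤ} {n : ℕ} (h1 : a - n ≤ b)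
    (h2 : b ≤ a + n) : sp (cen h W a) (cen h W b) ≤ n * h := by
  rcases le_total a b with h3 | h3
  · have h4 := sp_path P hh a (b - a).toNat
    have e : a + (((b - a).toNat : ℕ) : ℤ) = b := by omega
    rw [e] at h4
    refine h4.trans (mul_le_mul_of_nonneg_right ?_ hh)
    have : (b - a).toNat ≤ n := by omega
    exact_mod_cast this
  · have h4 := sp_path P hh b (a - b).toNat
    have e : b + (((a - b).toNat : ℕ) : ℤ) = a := by omega
    rw [e, sp_symm] at h4
    refine h4.trans (mul_le_mul_of_nonneg_right ?_ hh)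
    have : (a - b).toNat ≤ n := by omega
    exact_mod_cast this

theorem norm_sp (z w : ℂ) : ‖w - z‖ ≤ 2 * sp z w := by
  have h2 := Complex.norm_le_abs_re_add_abs_im (w - z)
  have h3 : |(w - z).re| ≤ sp z w := by rw [sp_eq]; exact le_max_left _ _
  have h4 : |(w - z).im| ≤ sp z w := by rw [sp_eq]; exact le_max_right _ _
  linarith

theorem sp_norm (z w : ℂ) : sp z w ≤ ‖w - z‖ := by
  rw [sp_eq]
  exact max_le (Complex.abs_re_le_norm _) (Complex.abs_im_le_norm _)

/-- points at sup distance at most `500 η` from the middle vertex -/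
theorem mem_UW {z : ℂ} (hz : sp (cen (100 * η) W (o + 2)) z ≤ 500 * η) : z ∈ UW η W o := by
  unfold UW
  rw [Metric.mem_closedBall, dist_eq_norm]
  have := norm_sp (cen (100 * η) W (o + 2)) z
  linarith

/-- the tiles `o, .., o + 4` with a neighbourhood -/
theorem tile_UW (P : FPath M W) (hη : 0 < η) (hAB : A ≤ B) (hB : B ≤ 100 * η) {k : ℕ} (hk : k < 5)
    {s t : ℂ} (hs : s ∈ RR A B (100 * η) W (o + k)) (ht : ‖t - s‖ ≤ 200 * η) : t ∈ UW η W o := by
  have h1 := sp_lt.2 (TileRx228.ball P hAB hs)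
  have h2 := sp_lip (cen (100 * η) W (o + k)) t s
  have h3 := sp_path' (a := o + 2) (b := o + k) (n := 2) P (by linarith : 0 ≤ 100 * η)
    (by push_cast; omega) (by push_cast; omega)
  have h4 := sp_tri (cen (100 * η) W (o + 2)) t (cen (100 * η) W (o + k))
  push_cast at h3
  refine mem_UW ?_
  linarith

/-- the gates `o, .., o + 5` with a neighbourhood -/
theorem gate_UW (P : FPath M W) (hη : 0 < η) {k : ℕ} (hk : k ≤ 5) {s : ℂ}
    (h1 : |X (gz (100 * η) W (o + k)) (ge W (o + k)) s| ≤ 40 * η)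
    (h2 : |Y (gz (100 * η) W (o + k)) (ge W (o + k)) s| ≤ 40 * η) : s ∈ UW η W o := by
  have h3 := RegBx523.norm_le_XY (c := gz (100 * η) W (o + k)) (s := s) (norm_ge P (o + k))
  have h4 : sp (gz (100 * η) W (o + k)) s ≤ 80 * η := (sp_norm _ _).trans (h3.trans (by linarith))
  have e : gz (100 * η) W (o + k) = cen (100 * η) W (o + k) +
      ((100 * η : ℝ) : ℂ) * cz (W (o + k - 1) - W (o + k)) / 2 := by
    unfold gz cen
    rw [TileRx228.cz_sub]
    ring
  have h5 : sp (cen (100 * η) W (o + k)) (gz (100 * η) W (o + k)) ≤ 100 * η := by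
    have h6 := sp_cen (P.step' (o + k)) (by linarith : 0 ≤ 100 * η) (cen (100 * η) W (o + k))
    rw [sp_eq, add_sub_cancel_left] at h6
    rw [sp_eq, e, add_sub_cancel_left]
    have e1 : ∀ z : ℂ, |(z / 2).re| ≤ |z.re| := by
      intro z
      have : (z / 2).re = z.re / 2 := by simp
      rw [this, abs_div, abs_of_pos (by norm_num : (0 : ℝ) < 2)]
      linarith [abs_nonneg z.re]
    have e2 : ∀ z : ℂ, |(z / 2).im| ≤ |z.im| := by
      intro z
      have : (z / 2).im = z.im / 2 := by simp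
      rw [this, abs_div, abs_of_pos (by norm_num : (0 : ℝ) < 2)]
      linarith [abs_nonneg z.im]
    exact (max_le_max (e1 _) (e2 _)).trans h6
  have h6 := sp_path' (a := o + 2) (b := o + k) (n := 3) P (by linarith : 0 ≤ 100 * η)
    (by push_cast; omega) (by push_cast; omega)
  have h7 := sp_tri (cen (100 * η) W (o + 2)) s (cen (100 * η) W (o + k))
  have h8 := sp_tri (cen (100 * η) W (o + k)) s (gz (100 * η) W (o + k))
  push_cast at h6
  refine mem_UW ?_
  linarith

namespace WEn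

variable (E : WEn S M W η d o)
include E

theorem num : Num (100 * η) (9 * η) (51 * η) η (10 * η) (-η) η (-(9 * η)) (10 * η) (2 * d) := by
  have h1 := E.e0
  have h2 := E.d0
  have h3 := E.de
  constructor <;> linarith

theorem dsj : Dsj (10 * η) (52 * η) (100 * η) M W := by
  have h1 := E.e0
  exact dsj_of E.path (by linarith) (by linarith) (by linarith)

theorem win_U {k : ℕ} (hk : k ≤ 5) : (gA η W (o + k)).win ⊆ UW η W o := by
  have h3 := E.e0
  rintro s ⟨⟨h4, h5⟩, h6, h7⟩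
  change -η < X (gz (100 * η) W (o + k)) (ge W (o + k)) s at h4
  change X (gz (100 * η) W (o + k)) (ge W (o + k)) s < η at h5
  change -(9 * η) - η ≤ Y (gz (100 * η) W (o + k)) (ge W (o + k)) s at h6
  change Y (gz (100 * η) W (o + k)) (ge W (o + k)) s ≤ 10 * η + η at h7
  refine gate_UW E.path h3 hk ?_ ?_
  · rw [abs_le]
    constructor <;> linarith
  · rw [abs_le]
    constructor <;> linarith

/-- the `2 d`-neighbourhood of a window is inside the gate box -/
theorem win_Q (a : ℤ) : ∀ w ∈ (gA η W a).win, ∀ s : ℂ, ‖s - w‖ < 2 * d → s ∈ QA η W a := by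
  have h1 := E.e0
  have h2 := E.d0
  have h3 := E.de
  rintro w ⟨⟨h4, h5⟩, h6, h7⟩ s hs
  change -η < X (gz (100 * η) W a) (ge W a) w at h4
  change X (gz (100 * η) W a) (ge W a) w < η at h5
  change -(9 * η) - η ≤ Y (gz (100 * η) W a) (ge W a) w at h6
  change Y (gz (100 * η) W a) (ge W a) w ≤ 10 * η + η at h7
  have x1 := (Crossx228.abs_X_sub (gz (100 * η) W a) (ge_d4 E.path a).norm s w).trans_lt hs
  have y1 := (Crossx228.abs_Y_sub (gz (100 * η) W a) (ge_d4 E.path a).norm s w).trans_lt hs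
  rw [abs_lt] at x1 y1
  rw [mem_QA, abs_lt, abs_lt]
  refine ⟨⟨?_, ?_⟩, ?_, ?_⟩ <;> linarith

theorem sub_U {A B : ℝ} (hAB : A ≤ B) (hB : B ≤ 100 * η) {k : ℕ} (hk : k < 5) :
    RR A B (100 * η) W (o + k) ⊆ UW η W o := fun s hs => by
  have := E.e0
  exact tile_UW E.path E.e0 hAB hB hk hs (by simp; linarith)

theorem inn {v : ℂ} (hv : v ∈ UW η W o) : ¬ OnHull S v :=
  fun ⟨a, h⟩ => (not_hull E.d0 E.hol hv a).2 h

theorem env : Envr S (UW η W o) (2 * d) := by
  refine ⟨fun u v h hu _ => ?_, fun _ _ hv => E.inn hv, fun z hz => ?_⟩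
  · rw [norm_sub_rev]
    exact (de_near E.d0 E.hol hu h).le
  · obtain ⟨a, b, c, h1, h2⟩ := exists_tri_W E.gp E.d0 E.hol hz
    exact ⟨(a, b, c), h1, h2⟩

/-- at least three sites -/
theorem card3 : 3 ≤ S.card := by
  have h0 := E.e0
  have h1 := E.d0
  have h2 := E.de
  have key : ∀ x : ℝ, |x| ≤ 500 * η → ∃ s ∈ S, ‖cen (100 * η) W (o + 2) + x - s‖ < d := by
    intro x hx
    have hm : cen (100 * η) W (o + 2) + x ∈ UW η W o := by
      refine mem_UW ?_
      rw [sp_eq, add_sub_cancel_left, Complex.ofReal_re, Complex.ofReal_im, abs_zero]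
      exact max_le hx (by linarith)
    obtain ⟨s, hs, h3⟩ := E.hol _ hm _ (by rw [sub_self, norm_zero]; exact h1.le)
    rw [norm_sub_rev] at h3
    exact ⟨s, hs, h3⟩
  obtain ⟨s1, m1, n1⟩ := key 0 (by rw [abs_zero]; linarith)
  obtain ⟨s2, m2, n2⟩ := key (100 * η) (by rw [abs_of_pos (by linarith)]; linarith)
  obtain ⟨s3, m3, n3⟩ := key (200 * η) (by rw [abs_of_pos (by linarith)]; linarith)
  set c := cen (100 * η) W (o + 2) with hc
  have far : ∀ x y : ℝ, 100 * η ≤ |x - y| → ∀ s : ℂ, ‖c + x - s‖ < d → ¬ ‖c + y - s‖ < d := by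
    intro x y hxy s hs1 hs2
    have e : ((x - y : ℝ) : ℂ) = (c + x - s) - (c + y - s) := by push_cast; ring
    have h3 := norm_sub_le (c + x - s) (c + y - s)
    rw [← e, Complex.norm_real, Real.norm_eq_abs] at h3
    linarith
  have h12 : s1 ≠ s2 := by
    rintro rfl
    refine far 0 (100 * η) ?_ s1 n1 n2
    rw [zero_sub, abs_neg, abs_of_pos (by linarith)]
  have h13 : s1 ≠ s3 := by
    rintro rfl
    refine far 0 (200 * η) ?_ s1 n1 n3
    rw [zero_sub, abs_neg, abs_of_pos (by linarith)]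
    linarith
  have h23 : s2 ≠ s3 := by
    rintro rfl
    refine far (100 * η) (200 * η) ?_ s2 n2 n3
    rw [show 100 * η - 200 * η = -(100 * η) by ring, abs_neg, abs_of_pos (by linarith)]
  have h4 : ({s1, s2, s3} : Finset ℂ) ⊆ S := by
    intro x hx
    simp only [Finset.mem_insert, Finset.mem_singleton] at hx
    rcases hx with rfl | rfl | rfl <;> assumption
  calc 3 = ({s1, s2, s3} : Finset ℂ).card := by
        rw [Finset.card_insert_of_notMem (by simp [h12, h13]),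
          Finset.card_insert_of_notMem (by simp [h23]), Finset.card_singleton]
    _ ≤ S.card := Finset.card_le_card h4

/-- 503's events along the window -/
theorem evp (hX : Z.Finite) (hSX : sX Z = S) (hV : EvW η W o Z) :
    Evp S S (bX Z) (100 * η) (9 * η) (51 * η) (-η) η (-(9 * η)) (10 * η) η W
      (fun a => ∃ k : ℕ, k < 5 ∧ a = o + k) (fun a => (dg (gA η W a) (QA η W a) Z).1)
      (fun a => (dg (gA η W a) (QA η W a) Z).2) := by
  subst hSX
  have hps : (sX Z : Set ℂ) = ps Z := coe_sX hX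
  have hol : Hol (ps Z) (UW η W o) d := by rw [← hps]; exact E.hol
  have tile : ∀ k : ℕ, k < 5 → ∃ p q, LG (gA η W (o + k)) (QA η W (o + k)) Z p ∧
      LG (gA η W (o + k + 1)) (QA η W (o + k + 1)) Z q ∧
      Tile (sX Z) (sX Z) (bX Z) (RR (9 * η) (51 * η) (100 * η) W (o + k)) p.1 p.2 q.1 q.2 := by
    intro k hk
    obtain ⟨-, p, q, hp, hq, h⟩ := TB_true.1 (hV k hk)
    exact ⟨p, q, hp, hq, h⟩
  have gate : ∀ k : ℕ, k ≤ 5 → ∃ p, LG (gA η W (o + k)) (QA η W (o + k)) Z p := by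
    intro k hk
    rcases Nat.lt_or_ge k 5 with h1 | h1
    · obtain ⟨p, -, hp, -⟩ := tile k h1
      exact ⟨p, hp⟩
    · have h2 : k = 5 := by omega
      subst h2
      obtain ⟨-, q, -, hq, -⟩ := tile 4 (by omega)
      have e : o + ((4 : ℕ) : ℤ) + 1 = o + ((5 : ℕ) : ℤ) := by push_cast; ring
      rw [e] at hq
      exact ⟨q, hq⟩
  refine ⟨fun a ha => ?_, fun a ha => ?_⟩
  · have h1 : ∃ k : ℕ, k ≤ 5 ∧ a = o + k := by
      rcases ha with ⟨k, hk, rfl⟩ | ⟨k, hk, h2⟩
      · exact ⟨k, by omega, rfl⟩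
      · exact ⟨k + 1, by omega, by push_cast; omega⟩
    obtain ⟨k, hk, rfl⟩ := h1
    have h2 := dg_spec (gate k hk)
    exact LG_neck hX E.d0 (hol.mono (E.win_U hk)) (E.win_Q _) h2
  · obtain ⟨k, hk, rfl⟩ := ha
    obtain ⟨p, q, hp, hq, h⟩ := tile k hk
    have e1 : dg (gA η W (o + k)) (QA η W (o + k)) Z = p := dg_eq hp
    have e2 : dg (gA η W (o + k + 1)) (QA η W (o + k + 1)) Z = q := dg_eq hq
    simp only [e1, e2]
    exact h

end WEn

end env

/-! ### the charge of the positions -/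

section qf

open MeasureTheory
open Crest.Agent.R143.B0x346 Crest.Agent.R143.DelGx806 Crest.Agent.R143.DelRx806
  Crest.Agent.R143.JColx54
open Crest.Agent.R143.Frame1x395 Crest.Agent.R143.Frame2x395 Crest.Agent.R143.Frame3x395
  Crest.Agent.R143.Frame4x395
open Crest.Agent.R143.Frame8x395 hiding cfg
open Crest.Agent.R143.Frame10x395
open Crest.Agent.R143.Frame5x395 (sd mem_sd th th_spec)
open Crest.Agent.R143.Coarsex166
open Crest.Agent.R143.Locx922 Crest.Agent.R143.WLocx713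
open Crest.Agent.R143.Neckx921 (Neck NeckD Tile Lk)
open Crest.Agent.R143.PP0x831 Crest.Agent.R143.FinMx609 Crest.Agent.R143.PWx978
  Crest.Agent.R143.IndLocx279
open Crest.Agent.R143.Janx304 (ovr)
open Crest.Agent.R143.PathDx503 Crest.Agent.R143.PathGx503
open Crest.Agent.R143.RingPx503 Crest.Agent.R143.DCorGx713 Crest.Agent.R143.DCorFx713
open Crest.Agent.R143.CorHx713 (gO gA QA mem_QA)
open Crest.Agent.R143.TplIx204 (TB TB_true DT)
open Crest.Agent.R143.FinCx811 (Cs cs)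
open Crest.Agent.R143.Mass3x302 (restr)
open Crest.Agent.R143.Mass1x302 (T3 Nn)
open Crest.Agent.R143.TileMx683 (piT bl)
open Crest.Agent.R143.TileYx490
open Crest.Agent.R143.Engx490 (Inn Eqi bk fc)
open Crest.Agent.R143.Dbl2x609 (paint)
open Crest.Agent.R143.TileFx176 (QF)
open Crest.Agent.R143.TileXx683
open Crest.Agent.R143.TileUx683 (hfar_std hrad_std)
open Crest.Agent.R143.SpRx169 (Rg Rg_near Rg_near')
open Crest.Agent.R143.Sptx832 (VX fQ)
open Crest.Agent.R143.SpRx169 (QX qx_full)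
open Crest.Agent.R143.SpVx169 (VT AC reg3 VX_VT VT_local3)
open Crest.Agent.R143.CorVx169 (IsS)
open Crest.Agent.R143.SpMx169 (fP fP_Nn norm_om)
open scoped ENNReal

/-- the charge of the positions is the conjugate of the charge `Nn`, up to a phase -/
theorem VT_fP {D : DT} (P : FPath M W) (r : ℝ) (a : ℤ) (X : Set (ℂ × Bool)) :
    om * VT D P r fP a X = (starRingEnd ℂ) (VT D P r Nn a X) := by
  unfold VT
  rw [Finset.mul_sum, map_sum]
  refine Finset.sum_congr rfl fun j _ => ?_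
  unfold AC
  rw [VTcx169.zC_sum, VTcx169.zC_sum, Finset.mul_sum, map_sum]
  refine Finset.sum_congr rfl fun t _ => ?_
  unfold fQ
  split_ifs
  · exact fP_Nn t
  · rw [mul_zero, map_zero]

theorem VT_norm {D : DT} (P : FPath M W) (r : ℝ) (a : ℤ) (X : Set (ℂ × Bool)) :
    ‖VT D P r fP a X‖ = ‖VT D P r Nn a X‖ := by
  have h := congrArg norm (VT_fP (D := D) P r a X)
  rwa [norm_mul, norm_om, one_mul, RCLike.norm_conj] at h

variable {S : Finset ℂ} {η d : ℝ} {o : ℤ} {Z : Set (ℂ × Bool)}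

/-- a local functional on the window is a function of the colours of the inner sites -/
theorem WEn.inn_local (E : WEn S M W η d o) {R : Set ℂ} (hR : R ⊆ UW η W o) {Y : Type*}
    {Φ : Set (ℂ × Bool) → Y} (hΦ : LocalOn R Φ) : Inn S Φ := by
  intro b c _ _ h
  have e : paint S b ∩ ovr R = paint S c ∩ ovr R := by
    ext p
    constructor
    · rintro ⟨⟨h1, h2⟩, h3⟩
      have h4 : p.1 ∈ R := h3
      exact ⟨⟨h1, h2.trans (h p.1 h1 (E.inn (hR h4)))⟩, h3⟩
    · rintro ⟨⟨h1, h2⟩, h3⟩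
      have h4 : p.1 ∈ R := h3
      exact ⟨⟨h1, h2.trans (h p.1 h1 (E.inn (hR h4))).symm⟩, h3⟩
  have h1 : Φ (paint S b) = Φ (paint S b ∩ ovr R) := hΦ _
  have h2 : Φ (paint S c) = Φ (paint S c ∩ ovr R) := hΦ _
  rw [h1, h2, e]

theorem EvW.gate (hV : EvW η W o Z) {k : ℕ} (hk : k ≤ 5) :
    ∃ p, LG (gA η W (o + k)) (QA η W (o + k)) Z p := by
  rcases Nat.lt_or_ge k 5 with h1 | h1
  · obtain ⟨-, p, -, hp, -⟩ := hV k h1
    exact ⟨p, hp⟩
  · have h2 : k = 5 := by omega
    subst h2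
    obtain ⟨-, -, q, -, hq, -⟩ := hV 4 (by omega)
    have e : o + ((4 : ℕ) : ℤ) + 1 = o + ((5 : ℕ) : ℤ) := by push_cast; ring
    rw [e] at hq
    exact ⟨q, hq⟩

/-- the window -/
def W5 (η : ℝ) (W : ℤ → ℤ × ℤ) (o : ℤ) : Set ℂ := W3 (100 * η) (52 * η) W (o + 2)

theorem WEn.W5_bdd (E : WEn S M W η d o) : Bornology.IsBounded (W5 η W o) :=
  W3_bdd E.path (by linarith [E.e0])

theorem WEn.W5_pre (E : WEn S M W η d o) : IsPreconnected (W5 η W o)ᶜ :=
  W3_pre E.path (by linarith [E.e0]) (by linarith [E.e0])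

/-- the sites of the inner tiles are in the window -/
theorem WEn.hin (E : WEn S M W η d o) {k : ℕ} (h1 : 1 ≤ k) (h2 : k < 4) {v : ℂ} (hv : v ∈ S)
    (h : v ∈ RR (9 * η + η / 2) (51 * η + η / 2) (100 * η) W (o + k)) :
    cs E.gp E.card3 ⟨v, hv⟩ ∈ Tw E.gp E.card3 (W5 η W o) := by
  have e0 := E.e0
  have d0 := E.d0
  have de := E.de
  refine Tw_of_ball E.W5_bdd d0 (fun z hz => ?_) fun z hz => ?_
  · obtain ⟨s, hs, h3⟩ := E.hol v (E.sub_U (by linarith) (by linarith) (by omega) h) z hz.le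
    rw [norm_sub_rev] at h3
    exact ⟨s, hs, h3⟩
  · rw [Metric.mem_ball, dist_eq_norm] at hz
    refine W3_tile E.path ?_ (by linarith) h hz.le (by linarith)
    have h3 : k = 1 ∨ k = 2 ∨ k = 3 := by omega
    rcases h3 with rfl | rfl | rfl
    · left; push_cast; ring
    · right; left; push_cast; ring
    · right; right; push_cast; ring

/-- the sites of the outer gates are off the window -/
theorem WEn.hout (E : WEn S M W η d o) {v : ℂ} (hv : v ∈ S)
    (h : v ∈ Win (gz (100 * η) W o) (ge W o) (-η) η (-(9 * η)) (10 * η) ∨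
      v ∈ Win (gz (100 * η) W (o + 5)) (ge W (o + 5)) (-η) η (-(9 * η)) (10 * η)) :
    cs E.gp E.card3 ⟨v, hv⟩ ∉ Tw E.gp E.card3 (W5 η W o) := by
  have e0 := E.e0
  refine Tw_off E.W5_bdd ?_
  have key : ∀ j : ℤ, (j = o ∨ j = o + 5) →
      v ∈ Win (gz (100 * η) W j) (ge W j) (-η) η (-(9 * η)) (10 * η) → v ∉ W5 η W o := by
    intro j hj hw
    refine W3_gate E.path (by linarith) (j := j) (r := 11 * η) (fun u h1 h2 => ?_) ?_ (by linarith)
    · rcases hj with rfl | rfl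
      · exact ⟨nd_of E.hM (by omega) (by push_cast; omega) (by push_cast; omega),
          nd_of E.hM (by omega) (by push_cast; omega) (by push_cast; omega)⟩
      · exact ⟨nd_of E.hM (by omega) (by push_cast; omega) (by push_cast; omega),
          nd_of E.hM (by omega) (by push_cast; omega) (by push_cast; omega)⟩
    · have h3 := RegBx523.norm_le_XY (c := gz (100 * η) W j) (s := v) (norm_ge E.path j)
      obtain ⟨⟨h4, h5⟩, h6, h7⟩ := hw
      have h8 : |X (gz (100 * η) W j) (ge W j) v| ≤ η := abs_le.2 ⟨by linarith, by linarith⟩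
      have h9 : |Y (gz (100 * η) W j) (ge W j) v| ≤ 10 * η := abs_le.2 ⟨by linarith, by linarith⟩
      linarith
  rcases h with h | h
  · exact key o (Or.inl rfl) h
  · exact key (o + 5) (Or.inr rfl) h

set_option maxHeartbeats 1000000 in
/-- **the charge of the middle tile** -/
theorem WEn.vt_le (E : WEn S M W η d o) {D : DT} (s : IsS D η) (hX : Z.Finite) (hSX : sX Z = S)
    {σ : Cs E.gp → ZMod 2} (hσ : ∀ v (hv : v ∈ S), cX Z v = σ (cs E.gp E.card3 ⟨v, hv⟩))
    (hχ : HullC S (cX Z)) (hV : EvW η W o Z) :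
    ‖VT D E.path (η / 2) fP (o + 1) Z‖ ^ 2 ≤
      ∑ β ∈ blks (coarse (restr (cm0 E.gp)) (piT (Tw E.gp E.card3 (W5 η W o)))
          (cls_Tw E.W5_bdd E.W5_pre)) (Frame8x395.cfg (restr (cm0 E.gp))
            (bl (Tw E.gp E.card3 (W5 η W o)) σ)),
        ‖∑ g ∈ β, aD S (Rg D.h W (o + 2)) d g‖ ^ 2 := by
  have e0 := E.e0
  have d0 := E.d0
  have de := E.de
  have key := evp_le (G := gA η W) (Q := QA η W) (A' := 10 * η) (B' := 52 * η) (τ := η / 2)
    (κ := η) (bb := 10 * η) (m := 2 * d) (U := UW η W o) hX hSX E.gp E.card3 hσ hχ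
    (E.evp hX hSX hV) E.num E.path E.env (by linarith) (o := o) E.hM (fun k hk => ⟨k, hk, rfl⟩)
    (fun k hk => E.sub_U (by linarith) (by linarith) hk) le_rfl (by linarith) (by linarith)
    (by linarith) E.dsj (fun k hk => hV.gate hk) (cls_Tw E.W5_bdd E.W5_pre)
    (fun k h1 h2 v hv hv2 => E.hin h1 h2 hv hv2) (fun v hv h => E.hout hv h)
    (D := Rg (100 * η) W (o + 2)) (ρ := d)
    (fun k hk a b c h1 h2 h3 => hfar_std e0 d0 de E.path E.hM E.hol k hk a b c h1 h2 h3)
    (fun k _ hk a b c h1 h2 h3 => hrad_std e0 d0 E.path E.hol k (by omega) a b c h1 h2 h3)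
  rw [VT_norm]
  rw [s.h]
  refine le_trans (le_of_eq ?_) key
  congr 2
  -- identification of the charge
  have hps : (S : Set ℂ) = ps Z := by rw [← hSX]; exact coe_sX hX
  have hgp : GP (ps Z) := by rw [← hps]; exact E.gp
  have hol : Hol (ps Z) (UW η W o) d := by rw [← hps]; exact E.hol
  have hA : D.A + η / 2 = 9 * η + η / 2 := by rw [s.A]
  have hB : D.B + η / 2 = 51 * η + η / 2 := by rw [s.B]
  have h := VX_VT D E.path (η / 2) hX hgp (by rw [hSX]; exact hχ) d0 (by rw [s.A']; linarith)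
    (by rw [s.B', s.h]; linarith) (by rw [hA, s.A']; linarith) (by rw [hB, s.B']; linarith)
    (o := o) (n := 5) (l := 2) (by omega) (by omega) (fun k hk w hw => by
      refine hol w (E.sub_U (A := 9 * η + η / 2) (B := 51 * η + η / 2) (by linarith)
        (by linarith) hk ?_)
      rw [hA, hB, s.h] at hw
      exact hw) (fun k hk p hp => by
      rw [CorVx169.St_eq s] at hp
      exact LG_occ hX (by rw [hSX]; exact hχ) d0 (hol.mono (E.win_U hk)) (E.win_Q _) hp) Nn
  have e2 : o + ((2 : ℕ) : ℤ) - 1 = o + 1 := by push_cast; ring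
  rw [e2] at h
  rw [← h, hA, hB, s.h]
  unfold VX
  refine Finset.sum_congr rfl fun k _ => ?_
  rw [qx_full (by omega) (by omega)]
  have e3 : o + ((2 : ℕ) : ℤ) = o + 2 := by push_cast; ring
  rw [e3]
  show zC (fQ Nn (Rg (100 * η) W (o + 2))) (RR (9 * η + η / 2) (51 * η + η / 2) (100 * η) W (o + k))
    (SpVx169.St D E.path (o + k)) (SpVx169.St D E.path (o + ((k + 1 : ℕ) : ℤ))) Z = _
  rw [CorVx169.St_eq s, CorVx169.St_eq s]
  rfl

theorem reg3_UW (E : WEn S M W η d o) {D : DT} (s : IsS D η) : reg3 D W (o + 1) ⊆ UW η W o := by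
  have e0 := E.e0
  intro z hz
  obtain ⟨j, hj, hz⟩ := Set.mem_iUnion₂.1 hz
  have hj3 := Finset.mem_range.1 hj
  rw [s.A', s.B', s.h] at hz
  have e : o + 1 + (j : ℤ) = o + ((1 + j : ℕ) : ℤ) := by push_cast; ring
  rw [e] at hz
  exact E.sub_U (by linarith) (by linarith) (by omega) hz

/-- **`QF` OF A FULL TILE**, one environment -/
theorem WEn.qf (E : WEn S M W η d o) {D : DT} (s : IsS D η) {w : Set (ℂ × Bool) → ℝ≥0∞}
    {R : Set ℂ} (hR : R ⊆ UW η W o) (hw : LocalOn R w)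
    (hev : ∀ β ⊆ S, w (paint S β) ≠ 0 → EvW η W o (paint S β)) :
    QF S w (fun X => ENNReal.ofReal (‖VT D E.path (η / 2) fP (o + 1) X‖ ^ 2))
      (Rg D.h W (o + 2)) d := by
  right
  refine ⟨E.gp, E.card3, Tw E.gp E.card3 (W5 η W o), ne_Tw E.W5_bdd, cls_Tw E.W5_bdd E.W5_pre,
    aD S (Rg D.h W (o + 2)) d, ?_, aD_spin E.gp _ _, aD_le _ _, fun g hg => aD_ne hg, ?_⟩
  · have h1 : LocalOn (UW η W o) w := IndLocx279.LocalOn.mono hR hw
    have h2 : LocalOn (UW η W o) (VT D E.path (η / 2) fP (o + 1)) :=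
      IndLocx279.LocalOn.mono (reg3_UW E s) (VT_local3 D E.path (η / 2) fP (o + 1))
    refine E.inn_local subset_rfl fun X => ?_
    have e1 : w X = w (X ∩ ovr (UW η W o)) := h1 X
    have e2 : VT D E.path (η / 2) fP (o + 1) X =
      VT D E.path (η / 2) fP (o + 1) (X ∩ ovr (UW η W o)) := h2 X
    show w X * ENNReal.ofReal (‖VT D E.path (η / 2) fP (o + 1) X‖ ^ 2) =
      w (X ∩ ovr (UW η W o)) *
        ENNReal.ofReal (‖VT D E.path (η / 2) fP (o + 1) (X ∩ ovr (UW η W o))‖ ^ 2)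
    rw [← e1, ← e2]
  · intro σ h0
    have hV := hev _ (Engx490.bk_sub E.gp E.card3 σ) h0
    refine ENNReal.ofReal_le_ofReal ?_
    exact E.vt_le s (fin_paint E.gp E.card3 σ) (sX_paint E.gp E.card3 σ)
      (fun v hv => cX_paint E.gp E.card3 σ hv) (hullC_paint E.gp E.card3 σ) hV

end qf

end Crest.Agent.R143.QFZx490
end
end

-- ▼ part R143/WndF_54
section

/-!
# Row 143 (S0194), box Q2 (helper54): the weight off the window, field `hQ`

* `gw_split`, `gw_ne` : the weight is not zero if the weight off the window and the factors of the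
  window are not zero; `gw_le_off`, `off_le_one`, real forms `gR_le_off`, `offR_le_one`
* `pos_cells` : the same at a colouring of the cells
* **`hQ_wn`** : field `hQ` of 166's `quen_of` from `PLx535.Wn` for every window and every colouring
  of the cells with weight `≠ 0`
* **`hQ_sb`** : the same from `PLSx535.Sb`
-/

set_option autoImplicit false
set_option linter.unusedSectionVars false

noncomputable section

open scoped Classical

namespace Crest.Agent.R143.WndFx54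

open MeasureTheory Set Filter Topology
open Crest.ProbabilityR.Voronoi
open Crest.Agent.R143.PP0x831 Crest.Agent.R143.Poisx304 Crest.Agent.R143.Janx304
open Crest.Agent.R143.Prodx609 Crest.Agent.R143.ColSumx304 Crest.Agent.R143.Lawx831
open Crest.Agent.R143.Dblx609 Crest.Agent.R143.Dbl2x609
open Crest.Agent.R143.IndLocx279 Crest.Agent.R143.PWx978 Crest.Agent.R143.TilePx176
  Crest.Agent.R143.TileQx176 Crest.Agent.R143.TileRx176
open Crest.Agent.R143.B0x346 Crest.Agent.R143.DelGx806 Crest.Agent.R143.FinCx811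
  Crest.Agent.R143.Mass3x302 Crest.Agent.R143.Mass4x302
open Crest.Agent.R143.Frame1x395 Crest.Agent.R143.Frame2x395 Crest.Agent.R143.Frame3x395
  Crest.Agent.R143.Frame4x395
open Crest.Agent.R143.Frame8x395 hiding cfg
open Crest.Agent.R143.Frame9x395
open Crest.Agent.R143.Frame10x395
open Crest.Agent.R143.Frame5x395 (sd mem_sd th th_spec)
open Crest.Agent.R143.Mass1x302 (T3 Nn)
open Crest.Agent.R143.FinMx609 (cen3 rad3)
open Crest.Agent.R143.Engx490 (fc)
open Crest.Agent.R143.CorMx970 (av)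
open Crest.Agent.R143.ColXx829 (Xc fin_Xc)
open Crest.Agent.R143.SmallAx304 (chiS)
open Crest.Agent.R143.IndLoc3x279 (clr)
open Crest.Agent.R143.Sptx169 (rst)
open Crest.Agent.R143.SysCx166 (Wd)
open OutSx358 (Sys OO gA gR)
open scoped ENNReal

section net

variable {ε : ℝ} {ι κ : Type*} (M : Net ε ι κ) [DecidableEq ι] [DecidableEq κ] {I I₁ : Finset ι}
  {J J₁ : Finset κ} {X : Cf}


omit [DecidableEq ι] [DecidableEq κ] in
/-- the factors of the window -/
theorem win_ne (hX : X.Finite) (h : win M I₁ J₁ X ≠ 0) : M.gw I₁ J₁ X ≠ 0 := by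
  unfold win at h
  have h1 := left_ne_zero_of_mul h
  have h2 := right_ne_zero_of_mul h
  unfold Net.gw
  refine mul_ne_zero h1 ?_
  rw [Finset.prod_ne_zero_iff] at h2 ⊢
  intro k hk
  unfold Net.fac
  refine mul_ne_zero (h2 k hk) (mul_ne_zero M.c0 (ENNReal.inv_ne_zero.2 ?_))
  exact ne_top_of_le_ne_top ENNReal.one_ne_top (Rs_le M.eps (M.Cb k) (M.e1 k) (M.em k) hX)










end net

/-! ### the field `hQ` -/

section sys

variable {S : Finset ℂ} {ε : ℝ} {ι κ : Type} [DecidableEq ι] [DecidableEq κ] {M : Net ε ι κ}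
  {I : Finset ι} {J : Finset κ} {n : ℕ} {I₁ : ℕ → Finset ι} {J₁ : ℕ → Finset κ} {D : ℕ → Set ℂ}
  {d s : ℝ} {B : Set ℂ} {m0 : ℝ≥0∞}



end sys

end Crest.Agent.R143.WndFx54
end
end

-- ▼ part R143/TileV_683
section

/-!
# Row 143 (S0194), RIG, full tiles: law ⟹ events of the window of five tiles (helper683; for 490)

* `gp_Ap` : the finite set of the points of a bounded region is in general position (a.e.)
* **`ev5`** : a.e. environment without holes, all colourings: the weight of the window of the five tiles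
  `o .. o + 4` of type `(·, true)` is positive only if the five tile events hold (713's standard numbers)
* **`qfd_of`** : 854's `QFD 1000 (1 / 100)` (490's `WEn.qf`), the quenched input of field `mom`
-/

set_option autoImplicit false

noncomputable section

open scoped Classical

namespace Crest.Agent.R143.TileVx683

open MeasureTheory Set Filter Topology
open Crest.ProbabilityR.Voronoi
open Crest.Agent.R143.B0x346 Crest.Agent.R143.Locx922
open Crest.Agent.R143.PP0x831 Crest.Agent.R143.Poisx304 Crest.Agent.R143.Janx304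
open Crest.Agent.R143.Prodx609 Crest.Agent.R143.FinMx609 Crest.Agent.R143.FinM2x609
open Crest.Agent.R143.Dblx609 Crest.Agent.R143.Dbl2x609
open Crest.Agent.R143.IndLocx279 Crest.Agent.R143.PWx978 Crest.Agent.R143.Tplx978
open Crest.Agent.R143.WLocx713
open Crest.Agent.R143.TileRx228 Crest.Agent.R143.PthFx765 Crest.Agent.R143.TplIx204
open Crest.Agent.R143.GPosFx348 (gt bx ev_full)
open Crest.Agent.R143.GPosCx348 (NumC gt_eq bx_eq)
open Crest.Agent.R143.CorHx713 (gO gA QA)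
open Crest.Agent.R143.TileUx683
open scoped ENNReal

variable {ε : ℝ}

/-- the points of a bounded region are in general position -/
theorem gp_Ap (hε : 0 < ε) {B : Set ℂ} (hB : Bornology.IsBounded B) :
    ∀ᵐ ω ∂sampleLaw, GP (Ap ε B ω : Set ℂ) := by
  filter_upwards [GPmx653.gp_ae hε] with ω h
  rw [coe_Ap hε hB]
  exact Locx922.GP.mono h inter_subset_left

/-- **law ⟹ events of the window of five tiles** -/
theorem ev5 {hε : 0 < ε} {c : ℝ≥0∞} {c0 : c ≠ 0} {c1 : c ≤ 1} {D : DT} {η : ℝ} (hη : 0 < η)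
    (s : CorVx169.IsS D η) {M : ℕ} {W : ℤ → ℤ × ℤ} (P : FPath M W)
    (H : Std (D.raw ε hε c c0 c1).tpl D.A' D.B' D.h Prod.fst) {ty : ZMod M → Tn × Bool}
    (hty : Typ W Prod.fst ty) (hP : (D.raw ε hε c c0 c1).AePos) (hn : Pr M 5) (o : ℤ)
    {τ : ℕ → Tn × Bool} (hτ : ∀ j : ℕ, j < 5 → ty ((o + (j : ℤ) : ℤ) : ZMod M) = τ j)
    (hb : ∀ j < 5, (τ j).2 = true) {B : Set ℂ} (hB : Bornology.IsBounded B)
    (hR : (PthFx765.win P H hty hn o hτ).reg ⊆ B) {d : ℝ} (hd : 0 < d) (hdη : 100 * d ≤ η) :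
    ∀ᵐ ω ∂sampleLaw,
      Hol (Ap ε B ω : Set ℂ) (Metric.closedBall (cen (100 * η) W (o + 2)) (1000 * η)) d →
      ∀ β ⊆ Ap ε B ω, TilePx176.win (pth P H ty hty).net (PthFx765.win P H hty hn o hτ).I
          (PthFx765.win P H hty hn o hτ).J (paint (Ap ε B ω) β) ≠ 0 →
        ∀ k : ℕ, k < 5 → TplIx204.TB true (RR (9 * η) (51 * η) (100 * η) W (o + k))
          (LG (gA η W (o + k)) (QA η W (o + k)))
          (LG (gA η W (o + k + 1)) (QA η W (o + k + 1))) (paint (Ap ε B ω) β) := by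
  have N : NumC D η := ⟨hη, s.g, s.A, s.B, s.A', s.B', s.h⟩
  set w5 := PthFx765.win P H hty hn o hτ with hw5
  -- the tiles and gates of the window
  have hJ : ∀ {x : ZMod M}, x ∈ w5.J ↔ ∃ j : ℕ, j < 5 ∧ ((o + (j : ℤ) : ℤ) : ZMod M) = x := by
    intro x
    rw [hw5, PthFx765.win_J, Finset.mem_image]
    simp only [Finset.mem_range]
  have hI : ∀ {x : ZMod M}, x ∈ w5.I ↔ ∃ j : ℕ, j < 5 + 1 ∧ ((o + (j : ℤ) : ℤ) : ZMod M) = x := by
    intro x
    rw [hw5, PthFx765.win_I, Finset.mem_image]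
    simp only [Finset.mem_range]
  have hN : ∀ k ∈ w5.J, k ∈ w5.I ∧ k + 1 ∈ w5.I := by
    intro k hk
    obtain ⟨j, hj, rfl⟩ := hJ.1 hk
    refine ⟨hI.2 ⟨j, by omega, rfl⟩, hI.2 ⟨j + 1, by omega, ?_⟩⟩
    push_cast
    ring
  have ev := ev_full P H hty hP (I := w5.I) (J := w5.J) hN (S := fun ω => Ap ε B ω)
    (Eventually.of_forall fun ω => by
      rw [coe_Ap hε hB]
      exact ⟨inter_subset_left, inter_subset_inter_right _ hR⟩) hd
    (by rw [N.A, N.A']; linarith) (by rw [N.B, N.B']; linarith)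
  filter_upwards [ev] with ω hω hH β hβ h0 k hk
  have hfin : (paint (Ap ε B ω) β).Finite := TileRx176.paint_finite _ _
  have h1 : (pth P H ty hty).net.gw w5.I w5.J (IndLoc3x279.clr (Ap ε B ω) β) ≠ 0 :=
    WndFx54.win_ne (pth P H ty hty).net hfin h0
  obtain ⟨-, h2⟩ := hω (fun a ha => by
    obtain ⟨j, hj, e⟩ := hJ.1 ha
    have h3 : (M : ℤ) ∣ a - (o + (j : ℤ)) := (ZMod.intCast_eq_intCast_iff_dvd_sub _ _ _).1 e
    rw [PthFx765.RR_dvd P h3, N.A, N.B, N.h]
    exact hH.mono fun z hz => rr_ball P hη (by linarith) (by linarith) o hj hz) β hβ h1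
  have h3 := h2 (o + k) (hJ.2 ⟨k, hk, rfl⟩)
  have h4 : (ty ((o + (k : ℤ) : ℤ) : ZMod M)).2 = true := by
    rw [hτ k hk]
    exact hb k hk
  rw [h4, gt_eq N P, gt_eq N P, bx_eq N, bx_eq N, N.A, N.B, N.h] at h3
  exact h3

/-- the factors of a window are local -/
theorem win_local {ι κ : Type*} [DecidableEq ι] [DecidableEq κ] (M : Net ε ι κ) {I : Finset ι}
    {J : Finset κ} (hN : ∀ k ∈ J, M.N k ⊆ I) : LocalOn (M.reg I J) (TilePx176.win M I J) := by
  refine LocalOn.mul (M.a_local (I := I) (J := J)) (local_prod' J fun k hk =>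
    LocalOn.mono ?_ (M.el k))
  exact union_subset_union (biUnion_subset_biUnion_left (hN k hk))
    (subset_biUnion_of_mem (u := M.C) hk)


end Crest.Agent.R143.TileVx683
end
end

-- ▼ part R143/QFD_490
section

/-!
# Row 143 (S0194), RIG: the quenched input `QFD` of the second moments (helper490)

* `win_local` : the weight of a window is local on its region
* **`qfd`** : 854's `QFD 1000 (1 / 100)`
-/

set_option autoImplicit false

noncomputable section

open scoped Classical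

namespace Crest.Agent.R143.QFDx490

open MeasureTheory Set Filter Topology
open Crest.ProbabilityR.Voronoi
open Crest.Agent.R143.B0x346 Crest.Agent.R143.Locx922
open Crest.Agent.R143.PP0x831 Crest.Agent.R143.Poisx304 Crest.Agent.R143.Janx304
open Crest.Agent.R143.Dblx609 Crest.Agent.R143.Dbl2x609
open Crest.Agent.R143.IndLocx279 Crest.Agent.R143.PWx978 Crest.Agent.R143.Tplx978
open Crest.Agent.R143.TileRx228 Crest.Agent.R143.PthFx765 Crest.Agent.R143.TplIx204
open Crest.Agent.R143.GPosCx348 (NumC)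
open Crest.Agent.R143.TileFx176 Crest.Agent.R143.TilePx176
open Crest.Agent.R143.SpVx169 (VT)
open Crest.Agent.R143.SpRx169 (Rg)
open Crest.Agent.R143.SpMx169 (fP)
open Crest.Agent.R143.CorVx169 (IsS)
open Crest.Agent.R143.QFZx490 Crest.Agent.R143.TileVx683
open scoped ENNReal

/-- the weight of a window is local on its region -/
theorem win_local {ε : ℝ} {ι κ : Type*} [DecidableEq ι] [DecidableEq κ] (M : Net ε ι κ)
    {I₀ : Finset ι} {J₀ : Finset κ} (hN : ∀ k ∈ J₀, M.N k ⊆ I₀) :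
    LocalOn (M.reg I₀ J₀) (TilePx176.win M I₀ J₀) := by
  refine LocalOn.mul (M.a_local (I := I₀) (J := J₀)) (local_prod' J₀ fun k hk =>
    LocalOn.mono ?_ (M.el k))
  exact union_subset_union (biUnion_subset_biUnion_left (hN k hk))
    (subset_biUnion_of_mem (u := M.C) hk)

/-- **the quenched input of a full tile** -/
theorem qfd : MomIx854.QFD 1000 (1 / 100) := by
  intro η ε D N hε c c0 c1 H hP M W P ty hty hn a τ hτ hb B hBm hBb hB
  have s : IsS D η := ⟨N.g, N.A, N.B, N.A', N.B', N.h⟩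
  have hη := N.pos
  have h1 := MomIx854.reg5 P H hty hn a hτ
  have hreg : (PthFx765.win P H hty hn a hτ).reg ⊆ UW η W a := by
    refine h1.trans ?_
    unfold UW
    rw [N.h]
    exact Metric.closedBall_subset_closedBall (by linarith)
  have hregB : (PthFx765.win P H hty hn a hτ).reg ⊆ B := by
    refine h1.trans (Subset.trans ?_ hB)
    rw [N.h]
    exact Metric.closedBall_subset_closedBall (by linarith)
  have hN0 : ∀ k ∈ (PthFx765.win P H hty hn a hτ).J,
      (pth P H ty hty).net.N k ⊆ (PthFx765.win P H hty hn a hτ).I := by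
    intro k hk
    rw [win_J] at hk
    obtain ⟨j, hj, rfl⟩ := Finset.mem_image.1 hk
    rw [Finset.mem_range] at hj
    rw [net_N, win_I]
    intro i hi
    rw [Finset.mem_insert, Finset.mem_singleton] at hi
    rcases hi with rfl | rfl
    · exact Finset.mem_image.2 ⟨j, Finset.mem_range.2 (by omega), rfl⟩
    · refine Finset.mem_image.2 ⟨j + 1, Finset.mem_range.2 (by omega), ?_⟩
      push_cast
      ring
  filter_upwards [gp_Ap hε hBb, ev5 hη s P H hty hP hn a hτ hb hBb hregB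
    (d := 1 / 100 * η) (by positivity) (by linarith)] with ω hgp hev hH
  have hH' : Hol (Ap ε B ω : Set ℂ) (UW η W a) (1 / 100 * η) := by
    rw [N.h] at hH
    exact hH
  have E : WEn (Ap ε B ω) M W η (1 / 100 * η) a :=
    ⟨P, hn, hη, by positivity, by linarith, hgp, hH'⟩
  exact E.qf s hreg (win_local (pth P H ty hty).net hN0) fun β hβ h0 => hev hH' β hβ h0

end Crest.Agent.R143.QFDx490
end
end

-- ▼ part R143/OpK_894

/-!
# Row 143 (S0194): the data of almost every good environment (helper894)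

* **`envD_of`** : 894's `EnvD` from 597's `Sx` (with 832's strips), 571's `uk_env`, 597's `Sx.near`,
  `Sx.q`, and `TileI`
* **`CurZ`** : the curtain (228's `CurI`) at almost every good environment, the only hypothesis
* **`envZ_of : CurZ → EnvZ`**; **`leaf_cur`** : the row from `CurZ` (854, 490 : second moments)
-/

set_option autoImplicit false

noncomputable section

open scoped Classical

namespace Crest.Agent.R143.OpKx894

open MeasureTheory Set Filter Topology
open scoped ENNReal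
open Crest.ProbabilityR.Voronoi
open Crest.Agent.R143.PP0x831 Crest.Agent.R143.B0x346
open Crest.Agent.R143.DelGx806 Crest.Agent.R143.DelRx806 Crest.Agent.R143.FinCx811
  Crest.Agent.R143.Resax778 Crest.Agent.R143.SmallAx304 Crest.Agent.R143.C2SDx395
open Crest.Agent.R143.Frame1x395 Crest.Agent.R143.Frame2x395 Crest.Agent.R143.Frame10x395
open Crest.Agent.R143.Finx894 Crest.Agent.R143.FinJx894 Crest.Agent.R143.FinKx894
  Crest.Agent.R143.FinLx894
open Crest.Agent.R143.PolyUx346 (Poly)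
open Crest.Agent.R143.NetUx346 Crest.Agent.R143.NetVx346
open Crest.Agent.R143.CorMx970 (av far)
open Crest.Agent.R143.IndLoc3x279 (clr)
open Crest.Agent.R143.Dbl2x609 Crest.Agent.R143.Janx304 Crest.Agent.R143.ColSumx304
  Crest.Agent.R143.Lawx831
open Crest.Agent.R143.Uniqx323 (Zn)
open Crest.Agent.R143.RcTx422 (Hc RC Hc_eq)
open Crest.Agent.R143.RigPx854 (ly ly_spec mN mN_hN hN hN_pos nT)
open Crest.Agent.R143.RigZdx609 (TData tA tB zL gW VL g0 et et_pos)
open Crest.Agent.R143.RigZx609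
open Crest.Agent.R143.CorEx133 (RU UU SU CorEnv)
open Crest.Agent.R143.R10Nx930 (Con Du)
open Crest.Agent.R143.R10Px923 (UKin Nw)
open Crest.Agent.R143.RigNx377
open Crest.Agent.R143.RigQx377
open Crest.Agent.R143.RigYx609 (CEs OkT)
open Crest.Agent.R143.RigXx609
open Crest.Agent.R143.OpJx894
open Crest.Agent.R143.QuenIx597
open Crest.Agent.R143.SxZx832

section one

variable {Z : TData} {u : Poly} {w : ZMod 3} {N : ℕ} {ε : ℝ} {hn : u.n + 4 ≤ N} {he : 0 < ε}
  {ω : Sample} {hS : GP (SU u ε ω : Set ℂ)} {h3 : 3 ≤ (SU u ε ω).card} {h₀ : Cs hS}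
  {Zz : Zn (rc0 hS)} {e0 : ℝ}

/-- R10 for the giants -/
theorem r10_of (X : Sx w Z hn he hS h3 h₀ (Rc hS w N) Zz) (hW : NumW u 13 e0 N) (hE : NumE N ε)
    (hd : 100 * √ε ≤ et N) (C : EnvN u N ε ω) : ∀ σ ∈ (SU u ε ω).powerset,
    0 < gW Z u w hn he (clr (SU u ε ω) σ) →
      Vin (SU u ε ω) u.P √ε ⊆ ff (SU u ε ω) (GI hS h3 w N h₀ (Rc hS w N) Zz σ) ∧
      Con C0 c0 K0 u ε (hN N) ω (GI hS h3 w N h₀ (Rc hS w N) Zz σ) u.P := by
  intro σ hσ hg
  obtain ⟨o, i, A1, B1, w', a0, a1, b0, b1, m', h1, h2, h3, h4⟩ :=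
    UKinSx571.uk_env X C hd σ hσ hg
  obtain ⟨h5, h6⟩ := r10s.2.2.2.2.2.2 u ε (hN N) (c2c u N) (dU u) ω (hN_pos N) hW.h100 le_rfl
    (c2c_mul u N).le hE.c1 hE.s5 C (mN u N) _ _ _ _ _ (ly_spec hn) (mN_hN (by omega)) _ o i A1 B1
    w' a0 a1 b0 b1 m' h1 h2 h3 h4
  exact ⟨h5, h6 _ subset_rfl⟩

/-- **the data of one environment** -/
theorem envD_of (X : Sx w Z hn he hS h3 h₀ (Rc hS w N) Zz) (hW : NumW u 13 e0 N)
    (hE : NumE N ε) (hd : 100 * √ε ≤ et N) (C : EnvN u N ε ω) (hm : 40 ≤ mN u N)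
    (hε2 : ε ≤ 2 * hN N) (hA : ∫⁻ ω, (Z.tpl N he).A (cfg ε ω) ∂sampleLaw ≠ 0)
    (hi : ∀ c, Inj ε (toPos ω) c)
    (T : ∀ l < nT u w N, TileI w Z hn he hS h3 h₀ (Rc hS w N) Zz l) (d₀ : D0 (SU u ε ω)) :
    EnvD Z u w hn he ω hS h3 h₀ (Rc hS w N) Zz d₀ (Qz Z u w N ε ω) where
  X := X
  uk := UKinSx571.uk_env X C hd
  near := X.near C hW hE (r10_of X hW hE hd C)
  q := X.q C hd hm hε2 hA hi T d₀

end one

/-- **the curtain** at almost every good environment -/
def CurZ : Prop := ∀ (u : Poly) (w : ZMod 3), Ev u fun N ε hn he =>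
  ∀ᵐ ω ∂sampleLaw, ∀ (C : EnvN u N ε ω) (hd : 100 * √ε ≤ et N), 40 ≤ mN u N → NumE N ε →
    ∀ (hS : GP (SU u ε ω : Set ℂ)) (h3 : 3 ≤ (SU u ε ω).card) (h₀ : Cs hS),
      Sx w Z hn he hS h3 h₀ (Rc hS w N) (Zq hS hn C hd w J2_l J2_r h₀) →
        PLLx228.CurI w Z hn he hS h3 (Rc hS w N) (Zq hS hn C hd w J2_l J2_r h₀)

theorem mN40 {u : Poly} {e0 : ℝ} {N : ℕ} (h : NumW u 13 e0 N) : 40 ≤ mN u N := by
  have h1 := h.r4
  have h2 := h.lo
  have h0 := hN_pos N
  have h3 : 16 ≤ ⌊et0 N / hN N⌋₊ := Nat.le_floor (by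
    rw [le_div_iff₀ h0]
    push_cast
    linarith)
  have h4 : 29 ≤ rI 13 N := by
    unfold rI
    omega
  omega

/-- **(II)** -/
theorem envZ_of (hc : CurZ) : EnvZ := by
  intro u w
  refine ⟨fun N => [(K0, c2c u N, dU u)], ?_, ?_, ?_⟩
  · refine Eventually.of_forall fun N t ht => ?_
    rw [List.mem_singleton.1 ht]
    exact ⟨K0_nonneg, c2c_pos u N, dU_pos u⟩
  · exact fun N => List.mem_singleton.2 rfl
  · intro e0
    have h1 := hc u w
    unfold Ev at h1 ⊢
    obtain ⟨cc, hcc, c1, hc1, hpos⟩ := posZ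
    filter_upwards [h1] with N h2
    filter_upwards [h2, mesh100 N, aeZ N, hpos N,
      (tendsto_id.mono_left nhdsWithin_le_nhds : Tendsto (fun ε : ℝ => ε) (𝓝[>] 0) (𝓝 0)).eventually
        (gt_mem_nhds (show (0 : ℝ) < 2 * hN N by have := hN_pos N; positivity))]
      with ε h3 h4 h5 h6 h7 hn he hW hE
    have hA : ∫⁻ ω, (Z.tpl N he).A (cfg ε ω) ∂sampleLaw ≠ 0 := by
      intro h
      have h8 := (h6 he).2
      rw [h] at h8
      exact absurd (ENNReal.ofReal_eq_zero.1 (le_antisymm h8 zero_le)) (not_le.2 hc1)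
    filter_upwards [h3 hn he, sx_ae (u := u) Z hn he (h5 he) h4, ae_injω he] with ω k1 k2 k3 k4
    have C : EnvN u N ε ω := k4 _ (List.mem_singleton.2 rfl)
    obtain ⟨-, h₀, hh, X⟩ := k2 _ _ _ C C.gpS C.card w
    have T := PLLx228.tileI_of X C h4 (mN40 hW) (BrZx609.Rc_RC hn C)
      (k1 C h4 (mN40 hW) hE C.gpS C.card h₀ X)
    obtain ⟨d₀⟩ := StgIx432.exists_dart C.gpS C.card
    exact ⟨C.gpS, C.card, h₀, _, _, d₀, envD_of X hW hE h4 C (mN40 hW) h7.le hA k3 T d₀⟩

/-- **the row** -/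
theorem leaf_cur (hc : CurZ) : Leaf894 := leaf_q QFDx490.qfd (envZ_of hc)

end Crest.Agent.R143.OpKx894
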