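import Crest.Agent.R143.QuW_810
import Crest.Agent.R143.SysC_166
import Crest.Agent.R143.PL_535
import Crest.Agent.R143.PLS_535
import Crest.Agent.R143.QuS2_176
import Crest.Agent.R143.QuA_66
import Crest.Agent.R143.ColX_829

/-!
# Row 143 (S0194), RIG box Q2: field `hQ` of 654's `Quen` for 358's `Sys` (helper810)

* `Pw` : the data of one window (at most two zones, 535's `Fix` and `Sb`), relative to a field `a`,
  a finite set `L` of cells and an event `G`
* `wd_pw` : inequality of one window for 166's `Wd`, constant `48`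
* `Lc` : the cells of the sites of a region; `gw_L` : the weight off a window only depends on them
* **`hQ_sys`** : the field `hQ` of `SysDx166.quen_of` with `Q = Qt .. (9 * 48)` of 304
* **`hQ_fq`** : the same for the fields of 66 (`zs`, `FQ`)
-/

set_option autoImplicit false
set_option linter.unusedSectionVars false

noncomputable section

open scoped Classical

namespace Crest.Agent.R143.QuYx810

open MeasureTheory
open Crest.ProbabilityR.Voronoi
open Crest.Agent.R143.Frame1x395 Crest.Agent.R143.Frame2x395 Crest.Agent.R143.Frame3x395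
  Crest.Agent.R143.Frame4x395 Crest.Agent.R143.Frame8x395 Crest.Agent.R143.Resax778
open Crest.Agent.R143.B0x346 Crest.Agent.R143.DelGx806 Crest.Agent.R143.FinCx811
open Crest.Agent.R143.Frame10x395
open Crest.Agent.R143.PP0x831 Crest.Agent.R143.Poisx304 Crest.Agent.R143.Janx304
  Crest.Agent.R143.Lawx831 Crest.Agent.R143.Dblx609 Crest.Agent.R143.ColSumx304 Crest.Agent.R143.Prodx609
  Crest.Agent.R143.IndLocx279 Crest.Agent.R143.PWx978 Crest.Agent.R143.Hqx304
open Crest.Agent.R143.ColXx829 (Xc Xc_congr)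
open Crest.Agent.R143.SmallAx304 (chiS)
open Crest.Agent.R143.IndLoc3x279 (clr)
open Crest.Agent.R143.CorMx970 (av)
open Crest.Agent.R143.Engx490 (fc bk)
open Crest.Agent.R143.Mass1x302 (Nn)
open Crest.Agent.R143.Frame5x395 (th)
open Crest.Agent.R143.FinMx609 (cen3 rad3)
open Crest.Agent.R143.Dbl2x609 (paint)
open Sptx169 (rst)
open Sptx832 (FQ)
open OutSx358 (Sys OO gA gR)
open SysCx166 (Wd)
open Coarse2x166 (zs)
open C2SDx395 (zc)
open scoped ENNReal

/-! ### one window -/

section cmap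

variable {D C : Type} [Fintype D] [Fintype C] {M : CMap D C} {H R : Set C} {Q : Set D} {ι : Type}
  {pa : ι → (C → ZMod 2) → D} {na : ι → (C → ZMod 2) → ℕ} {Ev : ι → (C → ZMod 2) → Prop}
  {L : Finset C} {G : (C → ZMod 2) → Prop}

/-- **the data of one window**: zones `Z` (at most two), the enlarged window `T`, the field `a`, the
cells `L` seen by the weight off the window, the event `G` -/
structure Pw (M : CMap D C) (H R : Set C) (pa : ι → (C → ZMod 2) → D)
    (na : ι → (C → ZMod 2) → ℕ) (Ev : ι → (C → ZMod 2) → Prop) (L : Finset C) (a : D → ℂ)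
    (G : (C → ZMod 2) → Prop) (κ : Type) [Fintype κ] (Z : κ → Uniqx323.Zn M) (T : Set C) :
    Prop where
  two : Fintype.card κ ≤ 2
  fix : PLx535.Fix M H R T Z
  /-- the faces of the field have a cell off the zones -/
  sup : ∀ h, a h ≠ 0 → ∀ k, ¬ (M.cell h ∈ (Z k).R ∧ M.cell (M.rho h) ∈ (Z k).R ∧
    M.cell (M.rho (M.rho h)) ∈ (Z k).R)
  /-- at every colouring of the event: the pieces of the strand, LOCX -/
  sb : ∀ σ, G σ → ∃ i, Ev i σ ∧ ∃ q : κ → D × ℕ,
    PLSx535.Sb M H R T Z L (pa i σ) (na i σ) σ q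

theorem Pw.mono {κ : Type} [Fintype κ] {Z : κ → Uniqx323.Zn M} {T : Set C} {a : D → ℂ}
    (P : Pw M H R pa na Ev L a G κ Z T) {G' : (C → ZMod 2) → Prop} (h : ∀ σ, G' σ → G σ) :
    Pw M H R pa na Ev L a G' κ Z T :=
  ⟨P.two, P.fix, P.sup, fun σ hσ => P.sb σ (h σ hσ)⟩


end cmap

/-! ### the weight off the window -/

section sites

variable {S : Finset ℂ} (hS : GP (S : Set ℂ)) (h3 : 3 ≤ S.card)

/-- the cells of the sites of a region -/
def Lc (U : Set ℂ) : Finset (Cs hS) :=
  Finset.univ.filter fun c => ∃ v, ∃ hv : v ∈ S, v ∈ U ∧ cs hS h3 ⟨v, hv⟩ = c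

variable {hS h3}

theorem mem_Lc {U : Set ℂ} {c : Cs hS} :
    c ∈ Lc hS h3 U ↔ ∃ v, ∃ hv : v ∈ S, v ∈ U ∧ cs hS h3 ⟨v, hv⟩ = c := by
  unfold Lc
  rw [Finset.mem_filter]
  exact ⟨fun h => h.2, fun h => ⟨Finset.mem_univ _, h⟩⟩



end sites

/-! ### the field `hQ` -/

section field

variable {S : Finset ℂ} {hS : GP (S : Set ℂ)} {h3 : 3 ≤ S.card}
variable {ε : ℝ} {ι κ : Type} [DecidableEq ι] [DecidableEq κ] {N : Net ε ι κ}
  {I : Finset ι} {J : Finset κ} {n : ℕ} {I₁ : ℕ → Finset ι} {J₁ : ℕ → Finset κ}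
  {D : ℕ → Set ℂ} {d s : ℝ} {B : Set ℂ} {m0 : ℝ≥0∞}
variable {H R : Set (Cs hS)} {Q : Set (D0 S)} {ν : Type} {pa : ν → (Cs hS → ZMod 2) → D0 S}
  {na : ν → (Cs hS → ZMod 2) → ℕ} {Ev : ν → (Cs hS → ZMod 2) → Prop} {d₀ : D0 S} {k : ZMod 3}



end field

end Crest.Agent.R143.QuYx810
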