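import Crest.Agent.R143.EvG_117
import Crest.Agent.R143.RcT_422
import Crest.Agent.R143.EvG_168
import Crest.Agent.R143.PL_535

-- ▼ part R143/SubS_117
section

/-!
# Row 143 (S0194), part B without E3: the two pieces of a strand around a window (helper117)

`A : Str M x n Rs p R q N T` is the strand; a window consists of the arcs `b, .., a - 1` (time order).

* `Str.first` : the first piece (same first state, up to the first entrance into the window) is a strand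
  of the fixed set `Rs₁ ⊆ Rs`
* `Str.second` : the second piece (from the last exit, same last state)
* `Str.mid` : the states between the two pieces are in `R k`, `b - 1 ≤ k ≤ a`
* `Str.win` : the three statements together
-/

set_option autoImplicit false

noncomputable section

open scoped Classical

namespace Crest.Agent.R143.StrBx117

open Crest.Agent.R143.Frame1x395 Crest.Agent.R143.Frame2x395 Crest.Agent.R143.Frame3x395
  Crest.Agent.R143.Frame4x395 Crest.Agent.R143.Frame8x395 Crest.Agent.R143.Frame9x395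
open Crest.Agent.R143.Splx117

variable {D C : Type} {M : CMap D C} {x : D → ZMod 2} {N : ℕ} {q : D} {n : ℕ} {Rs : Set D}
  {p : ℕ → D} {R : ℕ → Set D} {T : ℕ → ℕ}

theorem Str.T_le (A : Str M x n Rs p R q N T) {a b : ℕ} (hab : a ≤ b) (hb : b ≤ n) : T a ≤ T b :=
  mono_of (a := 0) (b := n) (fun k _ h => A.mono k h) (Nat.zero_le a) hab hb

/-- **the first piece**: same first state, up to the first entrance into the window -/
theorem Str.first (A : Str M x n Rs p R q N T) {b : ℕ} (b3 : 3 ≤ b) (bn : b < n) {Rs₁ : Set D}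
    (h0 : R 0 ∩ Rs ⊆ Rs₁) (hR : ∀ k, 0 < k → k + 1 < b → R k ⊆ Rs₁) (hs : Rs₁ ⊆ Rs)
    (hb : p b ∉ Rs₁) :
    ∃ e, T (b - 1) ≤ e ∧ e < T b ∧ (∀ i, i ≤ e → (stp M x)^[i] q ∈ Rs₁) ∧
      (stp M x)^[e + 1] q ∉ Rs₁ ∧ Str M x b Rs₁ p R q N (sT T b 0 e) := by
  have hin : ∀ i, i ≤ T (b - 1) → (stp M x)^[i] q ∈ Rs₁ := by
    intro i hi
    obtain ⟨k, k1, k2, k3, k4⟩ := arc_of (T := T) (a := 0) (b := b - 1) (u := i) (by omega)
      (by rw [A.T0]; exact Nat.zero_le _) hi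
    rcases Nat.eq_zero_or_pos k with rfl | hk
    · exact h0 ⟨A.arc 0 (by omega) i k3 k4, A.mem i (hi.trans (A.T_le (by omega) le_rfl))⟩
    · exact hR k hk (by omega) (A.arc k (by omega) i k3 k4)
  have hlt : T (b - 1) < T b := by
    have := A.lt (b - 1) (by omega) (by omega)
    rwa [show b - 1 + 1 = b by omega] at this
  obtain ⟨j, j1, j2, j3, j4⟩ := first_time (Q := fun i => (stp M x)^[i] q ∉ Rs₁) (m := T (b - 1))
    (v := T b) hlt (by rw [A.at_ b (by omega) bn]; exact hb) (fun h => h (hin _ le_rfl))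
  have e1 : T (b - 1) ≤ j - 1 := by omega
  have e2 : j - 1 < T b := by omega
  have mem : ∀ i, i ≤ j - 1 → (stp M x)^[i] q ∈ Rs₁ := by
    intro i hi
    rcases Nat.lt_or_ge (T (b - 1)) i with h | h
    · by_contra h5
      exact j4 i h.le (by omega) h5
    · exact hin i h
  have aft : (stp M x)^[j - 1 + 1] q ∉ Rs₁ := by
    rw [show j - 1 + 1 = j by omega]
    exact j3
  have T1 : 0 ≤ T 1 := Nat.zero_le _
  have hTn : T b ≤ T n := A.T_le bn.le le_rfl
  refine ⟨j - 1, e1, e2, mem, aft, ?_⟩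
  exact
    { n3 := b3
      lp := A.lp
      T0 := sT_zero
      TN := by
        rw [sT_end (by omega)]
        have := A.TN
        omega
      mono := fun k hk => sT_mono (by omega) T1 e1 (fun k hk => A.mono k (by omega)) hk
      lt := fun k h1 h2 => by
        rw [sT_mid h1 (by omega), sT_mid (by omega) h2]
        exact A.lt k h1 (by omega)
      at_ := fun k h1 h2 => by
        rw [sT_mid h1 h2]
        exact A.at_ k h1 (by omega)
      arc := fun k hk i h1 h2 => by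
        obtain ⟨b3, -⟩ := sT_lo (s := 0) (e := j - 1) (T := T) (n := b) A.T0.le hk
        have b4 := sT_hi (s := 0) (e := j - 1) (T := T) (n := b) (by omega) e2.le hk
        exact A.arc k (by omega) i (b3.trans h1) (h2.trans b4)
      mem := fun i hi => by
        rw [sT_end (by omega)] at hi
        exact mem i hi
      bef := fun h => A.bef (hs h)
      aft := by
        rw [sT_end (by omega)]
        exact aft
      cut := Cut.shrink (by omega) A.T0.le e2.le (A.cut.sub le_rfl bn.le)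
      befR := A.befR
      aftR := by
        rw [sT_end (by omega)]
        exact A.arc (b - 1) (by omega) (j - 1 + 1) (by omega) (by
          rw [show b - 1 + 1 = b by omega]
          omega) }

/-- **the second piece**: from the last exit out of the window, same last state -/
theorem Str.second (A : Str M x n Rs p R q N T) {a : ℕ} (ha : 0 < a) (an : a + 3 ≤ n)
    {Rs₂ : Set D} (hn : R (n - 1) ∩ Rs ⊆ Rs₂) (hR : ∀ k, a < k → k + 1 < n → R k ⊆ Rs₂)
    (hs : Rs₂ ⊆ Rs) (hpa : p a ∉ Rs₂) :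
    ∃ s, T a < s ∧ s ≤ T (a + 1) ∧ (∀ i, s ≤ i → i ≤ T n → (stp M x)^[i] q ∈ Rs₂) ∧
      (stp M x)^[s - 1] q ∉ Rs₂ ∧
      Str M x (n - a) Rs₂ (fun k => p (a + k)) (fun k => R (a + k)) ((stp M x)^[s] q) N
        fun k => sT (fun k => T (a + k)) (n - a) s (T n) k - s := by
  have hin : ∀ i, T (a + 1) ≤ i → i ≤ T n → (stp M x)^[i] q ∈ Rs₂ := by
    intro i h1 h2
    obtain ⟨k, k1, k2, k3, k4⟩ := arc_of (T := T) (a := a + 1) (b := n) (u := i) (by omega) h1 h2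
    rcases Nat.lt_or_ge (k + 1) n with hk | hk
    · exact hR k (by omega) hk (A.arc k k2 i k3 k4)
    · obtain rfl : k = n - 1 := by omega
      exact hn ⟨A.arc _ k2 i k3 k4, A.mem i h2⟩
  have hlt : T a < T (a + 1) := A.lt a ha (by omega)
  obtain ⟨j, j1, j2, j3, j4⟩ := last_time (Q := fun i => (stp M x)^[i] q ∉ Rs₂) (u := T a)
    (m := T (a + 1)) hlt (by rw [A.at_ a ha (by omega)]; exact hpa)
    (fun h => h (hin _ le_rfl (A.T_le (by omega) le_rfl)))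
  have s1 : T a < j + 1 := by omega
  have s2 : j + 1 ≤ T (a + 1) := by omega
  have T1n : T (a + 1) ≤ T n := A.T_le (by omega) le_rfl
  have TNn := A.TN
  have mem : ∀ i, j + 1 ≤ i → i ≤ T n → (stp M x)^[i] q ∈ Rs₂ := by
    intro i h1 h2
    rcases Nat.lt_or_ge i (T (a + 1)) with h | h
    · by_contra h5
      exact j4 i (by omega) h.le h5
    · exact hin i h h2
  have bef : (stp M x)^[j + 1 - 1] q ∉ Rs₂ := by
    rw [Nat.add_sub_cancel]
    exact j3
  set T' : ℕ → ℕ := fun k => T (a + k) with hT'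
  have Tm : ∀ k, k < n - a → T' k ≤ T' (k + 1) := fun k hk => A.mono (a + k) (by omega)
  have cut' : Cut M x q T' 0 (n - a) := by
    intro k k' h0 h1 h2 u v a1 a2 a3 a4 a5
    obtain ⟨c1, c2⟩ := A.cut (a + k) (a + k') (Nat.zero_le _) (by omega) (by omega) u v a1
      a2 a3 a4 a5
    exact ⟨by omega, c2⟩
  have last : T' (n - a) = T n := by
    show T (a + (n - a)) = T n
    rw [show a + (n - a) = n by omega]
  have he0 : T' (n - a - 1) ≤ T n := A.T_le (a := a + (n - a - 1)) (by omega) le_rfl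
  have base : ∀ k, k ≤ n - a → j + 1 ≤ sT T' (n - a) (j + 1) (T n) k := by
    intro k hk
    have := mono_of (T := sT T' (n - a) (j + 1) (T n)) (a := 0) (b := n - a)
      (fun k _ h => sT_mono (by omega) s2 he0 Tm h) (le_refl 0)
      (Nat.zero_le k) hk
    rwa [sT_zero] at this
  refine ⟨j + 1, s1, s2, mem, bef, ?_⟩
  exact
    { n3 := by omega
      lp := Lp.shift A.lp (j + 1)
      T0 := by
        show sT T' (n - a) (j + 1) (T n) 0 - (j + 1) = 0
        rw [sT_zero, Nat.sub_self]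
      TN := by
        show sT T' (n - a) (j + 1) (T n) (n - a) - (j + 1) + 1 < N
        rw [sT_end (by omega)]
        omega
      mono := fun k hk => Nat.sub_le_sub_right (sT_mono (by omega) s2 he0 Tm hk) (j + 1)
      lt := fun k h1 h2 => by
        show sT T' (n - a) (j + 1) (T n) k - (j + 1) < sT T' (n - a) (j + 1) (T n) (k + 1) - (j + 1)
        have hb := base k (by omega)
        rw [sT_mid h1 (by omega)] at hb ⊢
        rw [sT_mid (by omega) h2]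
        have : T' k < T' (k + 1) := A.lt (a + k) (by omega) (by omega)
        omega
      at_ := fun k h1 h2 => by
        have hb := base k (by omega)
        show (stp M x)^[sT T' (n - a) (j + 1) (T n) k - (j + 1)] _ = _
        rw [it_add, sT_mid h1 h2]
        rw [sT_mid h1 h2] at hb
        rw [show T' k - (j + 1) + (j + 1) = T (a + k) by
          change T (a + k) - (j + 1) + (j + 1) = T (a + k)
          change j + 1 ≤ T (a + k) at hb
          omega]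
        exact A.at_ (a + k) (by omega) (by omega)
      arc := fun k hk i h1 h2 => by
        have b1 := base k (by omega)
        have b2 := base (k + 1) (by omega)
        obtain ⟨b3, -⟩ := sT_lo (s := j + 1) (e := T n) (T := T') (n := n - a) s1.le hk
        have b4 := sT_hi (s := j + 1) (e := T n) (T := T') (n := n - a) (by omega) last.ge hk
        rw [it_add]
        change T (a + k) ≤ _ at b3
        change _ ≤ T (a + (k + 1)) at b4
        exact A.arc (a + k) (by omega) (i + (j + 1)) (by omega)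
          (by rw [show a + k + 1 = a + (k + 1) by omega]; omega)
      mem := fun i hi => by
        have hi' : i ≤ sT T' (n - a) (j + 1) (T n) (n - a) - (j + 1) := hi
        rw [sT_end (by omega)] at hi'
        rw [it_add]
        exact mem _ (by omega) (by omega)
      bef := by
        rw [it_add, show N - 1 + (j + 1) = (j + 1 - 1) + N by omega, A.lp.add]
        exact bef
      aft := by
        show (stp M x)^[sT T' (n - a) (j + 1) (T n) (n - a) - (j + 1) + 1] _ ∉ Rs₂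
        rw [it_add, sT_end (by omega), show T n - (j + 1) + 1 + (j + 1) = T n + 1 by omega]
        exact fun h => A.aft (hs h)
      cut := Cut.shift (fun k _ hk => base k hk)
        (Cut.shrink (by omega) (by change T (a + 0) ≤ _; exact s1.le) last.ge cut')
      befR := by
        rw [it_add, show N - 1 + (j + 1) = (j + 1 - 1) + N by omega, A.lp.add]
        exact A.arc a (by omega) (j + 1 - 1) (by omega) (by omega)
      aftR := by
        show (stp M x)^[sT T' (n - a) (j + 1) (T n) (n - a) - (j + 1) + 1] _ ∈ R (a + (n - a - 1))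
        rw [it_add, sT_end (by omega), show T n - (j + 1) + 1 + (j + 1) = T n + 1 by omega,
          show a + (n - a - 1) = n - 1 by omega]
        exact A.aftR }

/-- **between the two pieces** the states are in the arcs `b - 1, .., a` -/
theorem Str.mid (A : Str M x n Rs p R q N T) {a b e s i : ℕ} (hb : b ≤ a + 1) (b0 : 0 < b)
    (an : a < n) (he : T (b - 1) ≤ e) (hs : s ≤ T (a + 1)) (h1 : e < i) (h2 : i < s) :
    ∃ k, b - 1 ≤ k ∧ k ≤ a ∧ (stp M x)^[i] q ∈ R k := by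
  obtain ⟨k, k1, k2, k3, k4⟩ := arc_of (T := T) (a := b - 1) (b := a + 1) (u := i) (by omega)
    (by omega) (by omega)
  exact ⟨k, k1, by omega, A.arc k (by omega) i k3 k4⟩

/-- **the two pieces around a window** (arcs `b, .., a - 1`): first piece `[0, e]`, second piece
`[s, T n]`, the rest in `R k`, `b - 1 ≤ k ≤ a` -/
theorem Str.win (A : Str M x n Rs p R q N T) {a b : ℕ} (b3 : 3 ≤ b) (hba : b ≤ a)
    (an : a + 3 ≤ n) {Rs₁ Rs₂ : Set D} (h0 : R 0 ∩ Rs ⊆ Rs₁)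
    (h1 : ∀ k, 0 < k → k + 1 < b → R k ⊆ Rs₁) (hs₁ : Rs₁ ⊆ Rs) (hb : p b ∉ Rs₁)
    (hn : R (n - 1) ∩ Rs ⊆ Rs₂) (h2 : ∀ k, a < k → k + 1 < n → R k ⊆ Rs₂) (hs₂ : Rs₂ ⊆ Rs)
    (hpa : p a ∉ Rs₂) :
    ∃ e s, T (b - 1) ≤ e ∧ e < T b ∧ T a < s ∧ s ≤ T (a + 1) ∧ e < s ∧
      Str M x b Rs₁ p R q N (sT T b 0 e) ∧ sT T b 0 e b = e ∧
      Str M x (n - a) Rs₂ (fun k => p (a + k)) (fun k => R (a + k)) ((stp M x)^[s] q) N
        (fun k => sT (fun k => T (a + k)) (n - a) s (T n) k - s) ∧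
      sT (fun k => T (a + k)) (n - a) s (T n) (n - a) - s = T n - s ∧
      ∀ i, e < i → i < s → ∃ k, b - 1 ≤ k ∧ k ≤ a ∧ (stp M x)^[i] q ∈ R k := by
  obtain ⟨e, e1, e2, -, -, H1⟩ := A.first b3 (by omega) h0 h1 hs₁ hb
  obtain ⟨s, s1, s2, -, -, H2⟩ := A.second (by omega) an hn h2 hs₂ hpa
  refine ⟨e, s, e1, e2, s1, s2, ?_, H1, sT_end (by omega), H2, ?_, fun i h3 h4 =>
    A.mid (by omega) (by omega) (by omega) e1 s2 h3 h4⟩
  · exact e2.trans_le ((A.T_le hba (by omega)).trans s1.le)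
  · rw [sT_end (by omega)]

end Crest.Agent.R143.StrBx117
end
end

-- ▼ part R143/SubD_117
section

/-!
# Row 143 (S0194), part B without E3: the pieces of the strand of a corridor around a window
(helper117)

`T₁` = a set of sites (the window), `UB B a b` = the tiles `a ≤ k < b`. All arcs backward: time order
`k` = tile `n - 1 - k`.

* `first_dc` : first piece = tiles `b' ≤ k < n - 1` off `T₁`, up to the first entrance into `T₁`
* `second_dc` : second piece = tiles `1 ≤ k < a'` off `T₁`, from the last exit out of `T₁`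
* `strd_first`, `strd_second` : the two pieces are out strands (`Uniqx323.Strd`) on `rc0 hS`
* `rest_first`, `rest_second`, `rest_mid` : tiles of the other states
-/

set_option autoImplicit false

noncomputable section

open scoped Classical

namespace Crest.Agent.R143.SubDx117

open Crest.Agent.R143.B0x346 Crest.Agent.R143.DelGx806 Crest.Agent.R143.DelRx806
  Crest.Agent.R143.JColx54
open Crest.Agent.R143.Frame1x395 Crest.Agent.R143.Frame2x395 Crest.Agent.R143.Frame3x395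
  Crest.Agent.R143.Frame4x395 Crest.Agent.R143.Frame8x395 Crest.Agent.R143.Frame9x395
  Crest.Agent.R143.Frame10x395 Crest.Agent.R143.Frame11x395
open Crest.Agent.R143.Splx117 Crest.Agent.R143.WLocx713 Crest.Agent.R143.RingDx117
  Crest.Agent.R143.CorrDx117 Crest.Agent.R143.StrBx117
open Crest.Agent.R143.NonXx592 (Rc P)
open Crest.Agent.R143.K33x137 Crest.Agent.R143.Uniqx323
open Crest.Agent.R143.FinCx811 (Cs rc0 cs rcol)
open Crest.Agent.R143.Mass3x302 (restr)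

/-- the tiles `a ≤ k < b` -/
def UB (B : ℕ → Set ℂ) (a b : ℕ) : Set ℂ := {s | ∃ k, a ≤ k ∧ k < b ∧ s ∈ B k}

theorem UB_mono {B : ℕ → Set ℂ} {a b a' b' : ℕ} (h1 : a' ≤ a) (h2 : b ≤ b') :
    UB B a b ⊆ UB B a' b' := fun _ ⟨k, k1, k2, k3⟩ => ⟨k, h1.trans k1, k2.trans_le h2, k3⟩

theorem sub_UB {B : ℕ → Set ℂ} {a b k : ℕ} (h1 : a ≤ k) (h2 : k < b) : B k ⊆ UB B a b :=
  fun _ h => ⟨k, h1, h2, h⟩

variable {S : Finset ℂ} {χ : ℂ → ZMod 2} {hS : GP (S : Set ℂ)} {hχ : HullC S χ} {n N : ℕ}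
  {y z : ℕ → ℂ} {A B : ℕ → Set ℂ} {p : ℕ → D0 S} {q : D0 S} {T : ℕ → ℕ} {T₁ : Set ℂ}

theorem RD_mono {B B' : Set ℂ} (h : B ⊆ B') : RD S B ⊆ RD S B' := fun _ hd => ⟨h hd.1, h hd.2⟩

/-- the strand of the corridor in the tiles `1, .., n - 2` -/
abbrev HStr (hS : GP (S : Set ℂ)) (hχ : HullC S χ) (n : ℕ) (B : ℕ → Set ℂ) (p : ℕ → D0 S)
    (q : D0 S) (N : ℕ) (T : ℕ → ℕ) : Prop :=
  Str (cm0 hS) (xc hS hχ) n (RD S (UB B 1 (n - 1))) (fun k => p (n - k))
    (fun k => RD S (B (n - 1 - k))) q N T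

/-- **the first piece** -/
theorem first_dc (R : DCorr hS hχ n y z A B p) (H : HStr hS hχ n B p q N T)
    (dis : ∀ j k, j + 2 ≤ k → k < n → Disjoint (B j) (B k)) {b' : ℕ} (hb0 : 0 < b')
    (hb : b' + 3 ≤ n) (hT : ∀ k, b' < k → k < n → Disjoint (B k) T₁)
    (hy : y b' ∈ T₁ ∨ z b' ∈ T₁) :
    ∃ e, T (n - b' - 1) ≤ e ∧ e < T (n - b') ∧
      (stp (cm0 hS) (xc hS hχ))^[e + 1] q ∉ RD S (UB B b' (n - 1) \ T₁) ∧
      Str (cm0 hS) (xc hS hχ) (n - b') (RD S (UB B b' (n - 1) \ T₁)) (fun k => p (n - k))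
        (fun k => RD S (B (n - 1 - k))) q N (sT T (n - b') 0 e) := by
  have H1 : (fun k => RD S (B (n - 1 - k))) 0 ∩ RD S (UB B 1 (n - 1)) ⊆
      RD S (UB B b' (n - 1) \ T₁) := by
    have key : ∀ s, s ∈ B (n - 1) → s ∈ UB B 1 (n - 1) → s ∈ UB B b' (n - 1) \ T₁ := by
      rintro s h1 ⟨k, k1, k2, k3⟩
      refine ⟨⟨k, ?_, k2, k3⟩, Set.disjoint_left.1 (hT (n - 1) (by omega) (by omega)) h1⟩
      by_contra hc
      exact Set.disjoint_left.1 (dis k (n - 1) (by omega) (by omega)) k3 h1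
    rintro d ⟨h1, h2⟩
    change d ∈ RD S (B (n - 1 - 0)) at h1
    rw [Nat.sub_zero] at h1
    exact ⟨key _ h1.1 h2.1, key _ h1.2 h2.2⟩
  have H2 : ∀ k, 0 < k → k + 1 < n - b' → (fun k => RD S (B (n - 1 - k))) k ⊆
      RD S (UB B b' (n - 1) \ T₁) := by
    intro k k1 k2
    have hsub : B (n - 1 - k) ⊆ UB B b' (n - 1) \ T₁ := fun s hs =>
      ⟨⟨n - 1 - k, by omega, by omega, hs⟩,
        Set.disjoint_left.1 (hT (n - 1 - k) (by omega) (by omega)) hs⟩
    exact RD_mono hsub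
  have H3 : RD S (UB B b' (n - 1) \ T₁) ⊆ RD S (UB B 1 (n - 1)) :=
    RD_mono fun s hs => UB_mono (by omega) le_rfl hs.1
  have H4 : (fun k => p (n - k)) (n - b') ∉ RD S (UB B b' (n - 1) \ T₁) := by
    intro h
    change p (n - (n - b')) ∈ RD S (UB B b' (n - 1) \ T₁) at h
    rw [show n - (n - b') = b' by omega] at h
    obtain ⟨h1, h2⟩ := h
    rw [R.st b' (by omega)] at h1 h2
    rcases hy with hy | hy
    · exact h1.2 hy
    · exact h2.2 hy
  obtain ⟨e, e1, e2, -, e3, HH⟩ := Str.first (b := n - b') H (by omega) (by omega) H1 H2 H3 H4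
  exact ⟨e, e1, e2, e3, HH⟩

/-- **the second piece** -/
theorem second_dc (R : DCorr hS hχ n y z A B p) (H : HStr hS hχ n B p q N T)
    (dis : ∀ j k, j + 2 ≤ k → k < n → Disjoint (B j) (B k)) {a' : ℕ} (ha0 : 3 ≤ a')
    (ha : a' < n) (hT : ∀ k, k + 1 < a' → Disjoint (B k) T₁)
    (hy : y a' ∈ T₁ ∨ z a' ∈ T₁) :
    ∃ s, T (n - a') < s ∧ s ≤ T (n - a' + 1) ∧
      (stp (cm0 hS) (xc hS hχ))^[s - 1] q ∉ RD S (UB B 1 a' \ T₁) ∧
      Str (cm0 hS) (xc hS hχ) a' (RD S (UB B 1 a' \ T₁)) (fun k => p (a' - k))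
        (fun k => RD S (B (a' - 1 - k))) ((stp (cm0 hS) (xc hS hχ))^[s] q) N
        (fun k => sT (fun k => T (n - a' + k)) a' s (T n) k - s) := by
  have H1 : (fun k => RD S (B (n - 1 - k))) (n - 1) ∩ RD S (UB B 1 (n - 1)) ⊆
      RD S (UB B 1 a' \ T₁) := by
    have key : ∀ s, s ∈ B 0 → s ∈ UB B 1 (n - 1) → s ∈ UB B 1 a' \ T₁ := by
      rintro s h1 ⟨k, k1, k2, k3⟩
      refine ⟨⟨k, k1, ?_, k3⟩, Set.disjoint_left.1 (hT 0 (by omega)) h1⟩
      by_contra hc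
      exact Set.disjoint_left.1 (dis 0 k (by omega) (by omega)) h1 k3
    rintro d ⟨h1, h2⟩
    change d ∈ RD S (B (n - 1 - (n - 1))) at h1
    rw [Nat.sub_self] at h1
    exact ⟨key _ h1.1 h2.1, key _ h1.2 h2.2⟩
  have H2 : ∀ k, n - a' < k → k + 1 < n → (fun k => RD S (B (n - 1 - k))) k ⊆
      RD S (UB B 1 a' \ T₁) := by
    intro k k1 k2
    have hsub : B (n - 1 - k) ⊆ UB B 1 a' \ T₁ := fun s hs =>
      ⟨⟨n - 1 - k, by omega, by omega, hs⟩,
        Set.disjoint_left.1 (hT (n - 1 - k) (by omega)) hs⟩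
    exact RD_mono hsub
  have H3 : RD S (UB B 1 a' \ T₁) ⊆ RD S (UB B 1 (n - 1)) :=
    RD_mono fun s hs => UB_mono le_rfl (by omega) hs.1
  have H4 : (fun k => p (n - k)) (n - a') ∉ RD S (UB B 1 a' \ T₁) := by
    intro h
    change p (n - (n - a')) ∈ RD S (UB B 1 a' \ T₁) at h
    rw [show n - (n - a') = a' by omega] at h
    obtain ⟨h1, h2⟩ := h
    rw [R.st a' (by omega)] at h1 h2
    rcases hy with hy | hy
    · exact h1.2 hy
    · exact h2.2 hy
  obtain ⟨s, s1, s2, -, s3, HH⟩ := Str.second (a := n - a') H (by omega) (by omega) H1 H2 H3 H4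
  refine ⟨s, s1, s2, s3, ?_⟩
  have e1 : n - (n - a') = a' := by omega
  have e2 : (fun k => p (n - (n - a' + k))) = fun k => p (a' - k) := by
    funext k
    rw [show n - (n - a' + k) = a' - k by omega]
  have e3 : (fun k => RD S (B (n - 1 - (n - a' + k)))) = fun k => RD S (B (a' - 1 - k)) := by
    funext k
    rw [show n - 1 - (n - a' + k) = a' - 1 - k by omega]
  rw [e1] at HH
  change Str (cm0 hS) (xc hS hχ) a' (RD S (UB B 1 a' \ T₁)) (fun k => p (n - (n - a' + k)))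
    (fun k => RD S (B (n - 1 - (n - a' + k)))) _ N _ at HH
  rw [e2, e3] at HH
  exact HH

/-! ### tiles of the other states -/

/-- the states after the first piece are in the tiles `≤ b'` -/
theorem rest_first (H : HStr hS hχ n B p q N T) {b' e i : ℕ} (hb : b' + 1 ≤ n)
    (he : T (n - b' - 1) ≤ e) (h1 : e < i) (h2 : i ≤ T n) :
    ∃ k, k ≤ b' ∧ (stp (cm0 hS) (xc hS hχ))^[i] q ∈ RD S (B k) := by
  obtain ⟨k, k1, k2, k3, k4⟩ := arc_of (T := T) (a := n - b' - 1) (b := n) (u := i) (by omega)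
    (by omega) h2
  exact ⟨n - 1 - k, by omega, H.arc k k2 i k3 k4⟩

/-- the states before the second piece are in the tiles `≥ a' - 1` -/
theorem rest_second (H : HStr hS hχ n B p q N T) {a' s i : ℕ} (ha0 : 0 < a') (ha : a' ≤ n)
    (hs : s ≤ T (n - a' + 1)) (h2 : i < s) :
    ∃ k, a' - 1 ≤ k ∧ k < n ∧ (stp (cm0 hS) (xc hS hχ))^[i] q ∈ RD S (B k) := by
  obtain ⟨k, k1, k2, k3, k4⟩ := arc_of (T := T) (a := 0) (b := n - a' + 1) (u := i) (by omega)
    (by rw [H.T0]; omega) (by omega)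
  have h3 := H.n3
  exact ⟨n - 1 - k, by omega, by omega, H.arc k (by omega) i k3 k4⟩

/-- the states between the two pieces are in the tiles `a' - 1, .., b'` -/
theorem rest_mid (H : HStr hS hχ n B p q N T) {a' b' e s i : ℕ} (ha0 : 0 < a') (hab : a' ≤ b')
    (hb : b' + 1 ≤ n) (he : T (n - b' - 1) ≤ e) (hs : s ≤ T (n - a' + 1)) (h1 : e < i)
    (h2 : i < s) :
    ∃ k, a' - 1 ≤ k ∧ k ≤ b' ∧ (stp (cm0 hS) (xc hS hχ))^[i] q ∈ RD S (B k) := by
  obtain ⟨k, k1, k2, k3, k4⟩ := arc_of (T := T) (a := n - b' - 1) (b := n - a' + 1) (u := i)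
    (by omega) (by omega) (by omega)
  exact ⟨n - 1 - k, by omega, by omega, H.arc k (by omega) i k3 k4⟩

/-! ### the pieces are out strands -/

/-- colour of the first left cell of a strand -/
theorem col_q {m : ℕ} {Rs : Set (D0 S)} {pp : ℕ → D0 S} {RR : ℕ → Set (D0 S)} {q : D0 S}
    {T : ℕ → ℕ} (H : Str (cm0 hS) (xc hS hχ) m Rs pp RR q N T) {i : ℕ}
    (hi : χ ((stp (cm0 hS) (xc hS hχ))^[i] q).1.1 = 1) :
    rcol hS χ hχ ((rc0 hS).cell q) = 1 := by
  have h1 : (rc0 hS).cell (P (rc0 hS) (xc hS hχ) q i) ∈ Gntx535.wl (rc0 hS) (xc hS hχ) q i :=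
    Gntx535.mem_wl.2 ⟨i, le_rfl, rfl⟩
  have h2 := Gntx535.wl_col (M := rc0 hS) (χ := rcol hS χ hχ) (p := q) H.lp.occ h1
  rw [← h2]
  exact hi

/-- general form -/
theorem strd_rc {m : ℕ} {U : Set ℂ} {pp : ℕ → D0 S} {BB : ℕ → Set ℂ} {q : D0 S} {T : ℕ → ℕ}
    {Z : Zn (rc0 hS)} (hZ : EvGx117.Rd (rc0 hS) Z.R = RD S U)
    (H : Str (cm0 hS) (xc hS hχ) m (RD S U) pp (fun k => RD S (BB k)) q N T) {j : ℕ}
    (hj0 : 0 < j) (hj : j < m) (hcol : χ (pp j).1.1 = 1)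
    (h0 : ∀ d ∈ RD S (BB 0), ∀ c, (c = (rc0 hS).cell d ∨ c = Rc (rc0 hS) d) → c ∉ Z.R → c ∈ Z.E)
    (h1 : ∀ d ∈ RD S (BB (m - 1)), ∀ c, (c = (rc0 hS).cell d ∨ c = Rc (rc0 hS) d) → c ∉ Z.R →
      c ∈ Z.W)
    (hk : ∃ t ∈ Z.T, Lk (rc0 hS) ({c | c ∈ Z.K ∧ rcol hS χ hχ c = 0} ∪ Z.T)
      (Rc (rc0 hS) (pp j)) t) :
    Strd (rc0 hS) Z 1 (rcol hS χ hχ) q (T m) := by
  have H' : Str (rc0 hS) (cfg (rc0 hS) (rcol hS χ hχ)) m (EvGx117.Rd (rc0 hS) Z.R) pp
      (fun k => RD S (BB k)) q N T := by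
    rw [hZ]
    exact RcTx422.str_restr.2 H
  have hc : rcol hS χ hχ ((rc0 hS).cell q) = 1 := by
    refine col_q H (i := T j) ?_
    rw [H.at_ j hj0 hj]
    exact hcol
  refine EvGx117.strd_of H' hc h0 h1 ⟨T j, H.T_le hj.le le_rfl, ?_⟩
  obtain ⟨t, ht, hl⟩ := hk
  refine ⟨t, ht, ?_⟩
  have e : P (rc0 hS) (cfg (rc0 hS) (rcol hS χ hχ)) q (T j) = pp j := H.at_ j hj0 hj
  rw [e]
  exact hl

/-- **the first piece is an out strand** of the zones `Z` (`Z.R` = cells of the tiles `≥ b'` off `T₁`),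
column at the gate `g`, `b' < g < n` -/
theorem strd_first (R : DCorr hS hχ n y z A B p) {b' e : ℕ} (hb : b' + 3 ≤ n)
    (H : Str (cm0 hS) (xc hS hχ) (n - b') (RD S (UB B b' (n - 1) \ T₁)) (fun k => p (n - k))
        (fun k => RD S (B (n - 1 - k))) q N (sT T (n - b') 0 e))
    {Z : Zn (rc0 hS)} (hZ : EvGx117.Rd (rc0 hS) Z.R = RD S (UB B b' (n - 1) \ T₁)) {g : ℕ}
    (g0 : b' < g) (gn : g < n) (hcol : χ (y g) = 1)
    (h0 : ∀ d ∈ RD S (B (n - 1)), ∀ c, (c = (rc0 hS).cell d ∨ c = Rc (rc0 hS) d) → c ∉ Z.R →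
      c ∈ Z.E)
    (h1 : ∀ d ∈ RD S (B b'), ∀ c, (c = (rc0 hS).cell d ∨ c = Rc (rc0 hS) d) → c ∉ Z.R →
      c ∈ Z.W)
    (hk : ∃ t ∈ Z.T, Lk (rc0 hS) ({c | c ∈ Z.K ∧ rcol hS χ hχ c = 0} ∪ Z.T)
      (Rc (rc0 hS) (p g)) t) :
    Strd (rc0 hS) Z 1 (rcol hS χ hχ) q e := by
  have e1 : n - (n - g) = g := by omega
  have h := strd_rc (BB := fun k => B (n - 1 - k)) hZ H (j := n - g) (by omega) (by omega) (by
    show χ (p (n - (n - g))).1.1 = 1
    rw [e1, R.st g gn.le]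
    exact hcol) (by
    show ∀ d ∈ RD S (B (n - 1 - 0)), _
    rw [Nat.sub_zero]
    exact h0) (by
    show ∀ d ∈ RD S (B (n - 1 - (n - b' - 1))), _
    rw [show n - 1 - (n - b' - 1) = b' by omega]
    exact h1) (by
    show ∃ t ∈ Z.T, Lk (rc0 hS) _ (Rc (rc0 hS) (p (n - (n - g)))) t
    rw [e1]
    exact hk)
  rwa [sT_end (by omega)] at h

/-- **the second piece is an out strand** of the zones `Z` (`Z.R` = cells of the tiles `< a'` off
`T₁`), column at the gate `g`, `0 < g < a'` -/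
theorem strd_second (R : DCorr hS hχ n y z A B p) {a' s : ℕ} (ha0 : 3 ≤ a') (ha : a' ≤ n)
    (H : Str (cm0 hS) (xc hS hχ) a' (RD S (UB B 1 a' \ T₁)) (fun k => p (a' - k))
        (fun k => RD S (B (a' - 1 - k))) ((stp (cm0 hS) (xc hS hχ))^[s] q) N
        (fun k => sT (fun k => T (n - a' + k)) a' s (T n) k - s))
    {Z : Zn (rc0 hS)} (hZ : EvGx117.Rd (rc0 hS) Z.R = RD S (UB B 1 a' \ T₁)) {g : ℕ}
    (g0 : 0 < g) (ga : g < a') (hcol : χ (y g) = 1)
    (h0 : ∀ d ∈ RD S (B (a' - 1)), ∀ c, (c = (rc0 hS).cell d ∨ c = Rc (rc0 hS) d) → c ∉ Z.R →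
      c ∈ Z.E)
    (h1 : ∀ d ∈ RD S (B 0), ∀ c, (c = (rc0 hS).cell d ∨ c = Rc (rc0 hS) d) → c ∉ Z.R →
      c ∈ Z.W)
    (hk : ∃ t ∈ Z.T, Lk (rc0 hS) ({c | c ∈ Z.K ∧ rcol hS χ hχ c = 0} ∪ Z.T)
      (Rc (rc0 hS) (p g)) t) :
    Strd (rc0 hS) Z 1 (rcol hS χ hχ) ((stp (cm0 hS) (xc hS hχ))^[s] q) (T n - s) := by
  have e1 : a' - (a' - g) = g := by omega
  have h := strd_rc (BB := fun k => B (a' - 1 - k)) hZ H (j := a' - g) (by omega) (by omega) (by
    show χ (p (a' - (a' - g))).1.1 = 1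
    rw [e1, R.st g (by omega)]
    exact hcol) (by
    show ∀ d ∈ RD S (B (a' - 1 - 0)), _
    rw [Nat.sub_zero]
    exact h0) (by
    show ∀ d ∈ RD S (B (a' - 1 - (a' - 1))), _
    rw [Nat.sub_self]
    exact h1) (by
    show ∃ t ∈ Z.T, Lk (rc0 hS) _ (Rc (rc0 hS) (p (a' - (a' - g)))) t
    rw [e1]
    exact hk)
  change Strd (rc0 hS) Z 1 (rcol hS χ hχ) _ (sT (fun k => T (n - a' + k)) a' s (T n) a' - s) at h
  rwa [sT_end (by omega)] at h

end Crest.Agent.R143.SubDx117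
end
end

-- ▼ part R143/SubE_117

/-!
# Row 143 (S0194), RIG box Q2: the pieces of the strand, in the fields of `PLx535.Wn` (helper117)

* `Pcs M x q m T₂ qq` : the pieces `qq k = (first state, length)` are sub-arcs of the arc `[0, m]` of
  `q`, every other state of the arc is in `T₂`
* `Pcs.Ac_sub`, `Pcs.ac_cov` : cells of the pieces, cells of the arc
* **`Pcs.lo`** : the pieces are on the loop of the root gap (field `lo` of `Wn`)
* `pcs_two`, `pcs_right`, `pcs_left` : the pieces of the strand of a corridor around a window, with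
  `EvP` (field `ev`)
-/

set_option autoImplicit false
set_option linter.unusedSectionVars false

noncomputable section

open scoped Classical

namespace Crest.Agent.R143.SubEx117

open Crest.Agent.R143.B0x346 Crest.Agent.R143.DelGx806 Crest.Agent.R143.DelRx806
  Crest.Agent.R143.JColx54
open Crest.Agent.R143.Frame1x395 Crest.Agent.R143.Frame2x395 Crest.Agent.R143.Frame3x395
  Crest.Agent.R143.Frame4x395 Crest.Agent.R143.Frame8x395 Crest.Agent.R143.Frame9x395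
  Crest.Agent.R143.Frame10x395 Crest.Agent.R143.Frame11x395
open Crest.Agent.R143.NonXx592 (Rc P P_succ)
open Crest.Agent.R143.Gntx535 (wl wr mem_wl mem_wr)
open Crest.Agent.R143.Splx117 (Lp lc gp InK)
open Crest.Agent.R143.WLocx713 Crest.Agent.R143.RingDx117 Crest.Agent.R143.CorrDx117
  Crest.Agent.R143.StrBx117 Crest.Agent.R143.SubDx117
open Crest.Agent.R143.K33x137 Crest.Agent.R143.Uniqx323
open Crest.Agent.R143.FinCx811 (Cs rc0 cs rcol)
open Crest.Agent.R143.R5qx166 (Ex EE)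
open Crest.Agent.R143.PLx535 (EvP Ac mem_Ac Po)
open Crest.Agent.R143.OutSx358 (ac)
open Crest.Agent.R143.EvGx168 (SD)

section cm

variable {D C : Type} [Fintype D] [Fintype C] {M : CMap D C} {x : D → ZMod 2} {q : D} {m : ℕ}
  {T₂ : Set D} {κ : Type} [Fintype κ] {qq : κ → D × ℕ}

/-- the pieces are sub-arcs of the arc `[0, m]` of `q`, the rest is in `T₂` -/
structure Pcs (M : CMap D C) (x : D → ZMod 2) (q : D) (m : ℕ) (T₂ : Set D) (qq : κ → D × ℕ) :
    Prop where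
  sub : ∀ k, ∃ j, j + (qq k).2 ≤ m ∧ P M x q j = (qq k).1
  cov : ∀ i ≤ m, (∃ k, ∃ j ≤ (qq k).2, P M x (qq k).1 j = P M x q i) ∨ P M x q i ∈ T₂

theorem P_it (a b : ℕ) : P M x (P M x q b) a = P M x q (a + b) := by
  show (stp M x)^[a] ((stp M x)^[b] q) = (stp M x)^[a + b] q
  rw [← Function.iterate_add_apply]

theorem Pcs.wl_sub (H : Pcs M x q m T₂ qq) (k : κ) : wl M x (qq k).1 (qq k).2 ⊆ wl M x q m := by
  intro c hc
  obtain ⟨j, hj, rfl⟩ := mem_wl.1 hc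
  obtain ⟨i, hi, e⟩ := H.sub k
  rw [← e, P_it]
  exact mem_wl.2 ⟨j + i, by omega, rfl⟩

theorem Pcs.wr_sub (H : Pcs M x q m T₂ qq) (k : κ) : wr M x (qq k).1 (qq k).2 ⊆ wr M x q m := by
  intro c hc
  obtain ⟨j, hj, rfl⟩ := mem_wr.1 hc
  obtain ⟨i, hi, e⟩ := H.sub k
  rw [← e, P_it]
  exact mem_wr.2 ⟨j + i, by omega, rfl⟩

theorem Pcs.wl_cov (H : Pcs M x q m T₂ qq) {c : C} (hc : c ∈ wl M x q m) :
    (∃ k, c ∈ wl M x (qq k).1 (qq k).2) ∨ ∃ d ∈ T₂, c = M.cell d := by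
  obtain ⟨i, hi, rfl⟩ := mem_wl.1 hc
  rcases H.cov i hi with ⟨k, j, hj, e⟩ | h
  · exact Or.inl ⟨k, mem_wl.2 ⟨j, hj, by rw [e]⟩⟩
  · exact Or.inr ⟨_, h, rfl⟩

theorem Pcs.wr_cov (H : Pcs M x q m T₂ qq) {c : C} (hc : c ∈ wr M x q m) :
    (∃ k, c ∈ wr M x (qq k).1 (qq k).2) ∨ ∃ d ∈ T₂, c = Rc M d := by
  obtain ⟨i, hi, rfl⟩ := mem_wr.1 hc
  rcases H.cov i hi with ⟨k, j, hj, e⟩ | h
  · exact Or.inl ⟨k, mem_wr.2 ⟨j, hj, by rw [e]⟩⟩
  · exact Or.inr ⟨_, h, rfl⟩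

variable {σ : C → ZMod 2}

theorem mem_ac {c : C} : c ∈ ac M q m σ ↔ c ∈ wl M (cfg M σ) q m ∨ c ∈ wr M (cfg M σ) q m := by
  unfold OutSx358.ac
  rw [Finset.mem_union]

theorem mem_Sc {p : D} {n : ℕ} {c : C} : c ∈ Uniqx323.Sc M σ p n ↔
    c ∈ wl M (cfg M σ) p n ∨ c ∈ wr M (cfg M σ) p n := by
  unfold Uniqx323.Sc
  rw [Finset.mem_union]

/-- the cells of the pieces are cells of the arc -/
theorem Pcs.Ac_sub (H : Pcs M (cfg M σ) q m T₂ qq) {c : C} (hc : c ∈ Ac M qq σ) :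
    c ∈ ac M q m σ := by
  obtain ⟨k, hk⟩ := mem_Ac.1 hc
  rcases mem_Sc.1 hk with h | h
  · exact mem_ac.2 (Or.inl (H.wl_sub k h))
  · exact mem_ac.2 (Or.inr (H.wr_sub k h))

/-- the cells of the arc are cells of the pieces or of states of `T₂` -/
theorem Pcs.ac_cov (H : Pcs M (cfg M σ) q m T₂ qq) {c : C} (hc : c ∈ ac M q m σ) :
    c ∈ Ac M qq σ ∨ ∃ d ∈ T₂, c = M.cell d ∨ c = Rc M d := by
  rcases mem_ac.1 hc with h | h
  · rcases H.wl_cov h with ⟨k, h1⟩ | ⟨d, h1, h2⟩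
    · exact Or.inl (mem_Ac.2 ⟨k, mem_Sc.2 (Or.inl h1)⟩)
    · exact Or.inr ⟨d, h1, Or.inl h2⟩
  · rcases H.wr_cov h with ⟨k, h1⟩ | ⟨d, h1, h2⟩
    · exact Or.inl (mem_Ac.2 ⟨k, mem_Sc.2 (Or.inr h1)⟩)
    · exact Or.inr ⟨d, h1, Or.inr h2⟩

/-- **the loop of the root gap passes every state of the arc** (any colouring `μ` which agrees on
the explored cells) -/
theorem lo_of {μ : C → ZMod 2} {N n r : ℕ} {W : Set C} (X : Ex M σ q N n r W)
    (hE : ∀ c ∈ EE M (cfg M σ) q n W, μ c = σ c) {j : ℕ} (hj : j ≤ n) :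
    ∃ b, P M (cfg M μ) (out M (gp M (cfg M σ) q r)) b = P M (cfg M σ) q j := by
  obtain ⟨L, A⟩ := X.arc hE
  have e1 : out M (gp M (cfg M σ) q r) = P M (cfg M μ) q (r + 1) :=
    NonXx592.out_eq A.L.c A.gp A.rg
  have h1 := A.rn
  have h2 := A.nN
  refine ⟨j + R5qx166.per M (cfg M μ) q - (r + 1), ?_⟩
  rw [e1, P_it, show j + R5qx166.per M (cfg M μ) q - (r + 1) + (r + 1) =
    j + R5qx166.per M (cfg M μ) q by omega, ← X.walk hE hj]
  exact L.add j

/-- **field `lo` of `Wn`** -/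
theorem Pcs.lo {μ : C → ZMod 2} {N r : ℕ} {W : Set C} (H : Pcs M (cfg M σ) q m T₂ qq)
    (X : Ex M σ q N m r W) (hE : ∀ c ∈ EE M (cfg M σ) q m W, μ c = σ c) (k : κ) :
    ∃ b, P M (cfg M μ) (out M (gp M (cfg M σ) q r)) b = (qq k).1 := by
  obtain ⟨j, hj, e⟩ := H.sub k
  obtain ⟨b, hb⟩ := lo_of X hE (j := j) (by omega)
  exact ⟨b, hb.trans e⟩

theorem Pcs.mono {x : D → ZMod 2} {T₃ : Set D} (H : Pcs M x q m T₂ qq) (h : T₂ ⊆ T₃) :
    Pcs M x q m T₃ qq :=
  ⟨H.sub, fun i hi => (H.cov i hi).imp id fun h1 => h h1⟩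

end cm

/-! ### the pieces of the strand of a corridor -/

section dc

variable {S : Finset ℂ} {χ : ℂ → ZMod 2} {hS : GP (S : Set ℂ)} {hχ : HullC S χ} {n N : ℕ}
  {y z : ℕ → ℂ} {A B : ℕ → Set ℂ} {p : ℕ → D0 S} {q : D0 S} {T : ℕ → ℕ} {T₁ : Set ℂ}

/-- the zone of one piece: region `U`, entrance cells in tile `BE`, exit cells in tile `BW`, a column
at a gate `g`, `g₀ < g < g₁` -/
structure SideH (hS : GP (S : Set ℂ)) (hχ : HullC S χ) (y : ℕ → ℂ) (p : ℕ → D0 S)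
    (Z : Zn (rc0 hS)) (U BE BW : Set ℂ) (g₀ g₁ : ℕ) : Prop where
  R : EvGx117.Rd (rc0 hS) Z.R = RD S U
  E : ∀ d ∈ RD S BE, ∀ c, (c = (rc0 hS).cell d ∨ c = Rc (rc0 hS) d) → c ∉ Z.R → c ∈ Z.E
  W : ∀ d ∈ RD S BW, ∀ c, (c = (rc0 hS).cell d ∨ c = Rc (rc0 hS) d) → c ∉ Z.R → c ∈ Z.W
  col : ∃ g, g₀ < g ∧ g < g₁ ∧ χ (y g) = 1 ∧ ∃ t ∈ Z.T,
    Lk (rc0 hS) ({c | c ∈ Z.K ∧ rcol hS χ hχ c = 0} ∪ Z.T) (Rc (rc0 hS) (p g)) t

theorem hstr_of (H : SD hS hχ n (RD S (UB B 1 (n - 1))) p B q N T) : HStr hS hχ n B p q N T :=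
  RcTx422.str_restr.1 H

/-- **only the piece in the tiles `≥ b'`** (windows near the gate `0`) -/
theorem pcs_right (R : DCorr hS hχ n y z A B p)
    (H : SD hS hχ n (RD S (UB B 1 (n - 1))) p B q N T)
    (dis : ∀ j k, j + 2 ≤ k → k < n → Disjoint (B j) (B k)) {b' : ℕ} (hb0 : 0 < b')
    (hb : b' + 3 ≤ n) (hT : ∀ k, b' < k → k < n → Disjoint (B k) T₁)
    (hy : y b' ∈ T₁ ∨ z b' ∈ T₁) {Z : Unit → Zn (rc0 hS)}
    (SR : SideH hS hχ y p (Z ()) (UB B b' (n - 1) \ T₁) (B (n - 1)) (B b') b' n) :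
    ∃ qq : Unit → D0 S × ℕ, EvP Z qq (rcol hS χ hχ) ∧
      Pcs (rc0 hS) (cfg (rc0 hS) (rcol hS χ hχ)) q (T n) (RD S (UB B 0 (b' + 1))) qq := by
  have H' := hstr_of H
  obtain ⟨e, e1, e2, -, HH⟩ := first_dc R H' dis hb0 hb hT hy
  obtain ⟨g, g0, g1, g2, g3⟩ := SR.col
  have h1 := strd_first R hb HH SR.R g0 g1 g2 SR.E SR.W g3
  have hle : T (n - b') ≤ T n := H'.T_le (by omega) le_rfl
  refine ⟨fun _ => (q, e), fun _ => h1, ⟨fun _ => ⟨0, by show 0 + e ≤ T n; omega, rfl⟩,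
    fun i hi => ?_⟩⟩
  rcases Nat.lt_or_ge e i with h | h
  · obtain ⟨k, k1, k2⟩ := rest_first H' (by omega) e1 h hi
    exact Or.inr (RD_mono (sub_UB (Nat.zero_le k) (by omega)) k2)
  · exact Or.inl ⟨(), i, h, rfl⟩

/-- **only the piece in the tiles `< a'`** (windows near the gate `n`) -/
theorem pcs_left (R : DCorr hS hχ n y z A B p)
    (H : SD hS hχ n (RD S (UB B 1 (n - 1))) p B q N T)
    (dis : ∀ j k, j + 2 ≤ k → k < n → Disjoint (B j) (B k)) {a' : ℕ} (ha0 : 3 ≤ a')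
    (ha : a' < n) (hT : ∀ k, k + 1 < a' → Disjoint (B k) T₁)
    (hy : y a' ∈ T₁ ∨ z a' ∈ T₁) {Z : Unit → Zn (rc0 hS)}
    (SL : SideH hS hχ y p (Z ()) (UB B 1 a' \ T₁) (B (a' - 1)) (B 0) 0 a') :
    ∃ qq : Unit → D0 S × ℕ, EvP Z qq (rcol hS χ hχ) ∧
      Pcs (rc0 hS) (cfg (rc0 hS) (rcol hS χ hχ)) q (T n) (RD S (UB B (a' - 1) n)) qq := by
  have H' := hstr_of H
  obtain ⟨s, s1, s2, -, HH⟩ := second_dc R H' dis ha0 ha hT hy
  obtain ⟨g, g0, g1, g2, g3⟩ := SL.col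
  have h1 := strd_second R ha0 ha.le HH SL.R g0 g1 g2 SL.E SL.W g3
  have hle : T (n - a' + 1) ≤ T n := H'.T_le (by omega) le_rfl
  refine ⟨fun _ => ((stp (cm0 hS) (xc hS hχ))^[s] q, T n - s), fun _ => h1,
    ⟨fun _ => ⟨s, by show s + (T n - s) ≤ T n; omega, rfl⟩, fun i hi => ?_⟩⟩
  rcases Nat.lt_or_ge i s with h | h
  · obtain ⟨k, k1, k2, k3⟩ := rest_second H' (by omega) ha.le s2 h
    exact Or.inr (RD_mono (sub_UB k1 k2) k3)
  · refine Or.inl ⟨(), i - s, by show i - s ≤ T n - s; omega, ?_⟩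
    show P (rc0 hS) (cfg (rc0 hS) (rcol hS χ hχ))
      (P (rc0 hS) (cfg (rc0 hS) (rcol hS χ hχ)) q s) (i - s) = _
    rw [P_it, show i - s + s = i by omega]

/-- **the two pieces**: `false` = tiles `≥ b'`, `true` = tiles `< a'` -/
theorem pcs_two (R : DCorr hS hχ n y z A B p)
    (H : SD hS hχ n (RD S (UB B 1 (n - 1))) p B q N T)
    (dis : ∀ j k, j + 2 ≤ k → k < n → Disjoint (B j) (B k)) {a' b' : ℕ} (ha0 : 3 ≤ a')
    (hab : a' ≤ b') (hb : b' + 3 ≤ n) (hTL : ∀ k, k + 1 < a' → Disjoint (B k) T₁)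
    (hTR : ∀ k, b' < k → k < n → Disjoint (B k) T₁)
    (hyL : y a' ∈ T₁ ∨ z a' ∈ T₁) (hyR : y b' ∈ T₁ ∨ z b' ∈ T₁) {Z : Bool → Zn (rc0 hS)}
    (SR : SideH hS hχ y p (Z false) (UB B b' (n - 1) \ T₁) (B (n - 1)) (B b') b' n)
    (SL : SideH hS hχ y p (Z true) (UB B 1 a' \ T₁) (B (a' - 1)) (B 0) 0 a') :
    ∃ qq : Bool → D0 S × ℕ, EvP Z qq (rcol hS χ hχ) ∧
      Pcs (rc0 hS) (cfg (rc0 hS) (rcol hS χ hχ)) q (T n) (RD S (UB B (a' - 1) (b' + 1))) qq := by
  have H' := hstr_of H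
  obtain ⟨e, e1, e2, -, H1⟩ := first_dc R H' dis (by omega) hb hTR hyR
  obtain ⟨s, s1, s2, -, H2⟩ := second_dc R H' dis ha0 (by omega) hTL hyL
  obtain ⟨g, g0, g1, g2, g3⟩ := SR.col
  obtain ⟨f, f0, f1, f2, f3⟩ := SL.col
  have h1 := strd_first R hb H1 SR.R g0 g1 g2 SR.E SR.W g3
  have h2 := strd_second R ha0 (by omega) H2 SL.R f0 f1 f2 SL.E SL.W f3
  have hle : T (n - b') ≤ T n := H'.T_le (by omega) le_rfl
  have hle' : T (n - a' + 1) ≤ T n := H'.T_le (by omega) le_rfl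
  refine ⟨fun b => cond b ((stp (cm0 hS) (xc hS hχ))^[s] q, T n - s) (q, e), ?_, ⟨?_, ?_⟩⟩
  · rintro (_ | _)
    · exact h1
    · exact h2
  · rintro (_ | _)
    · exact ⟨0, by show 0 + e ≤ T n; omega, rfl⟩
    · exact ⟨s, by show s + (T n - s) ≤ T n; omega, rfl⟩
  · intro i hi
    rcases Nat.lt_or_ge e i with h | h
    · rcases Nat.lt_or_ge i s with h' | h'
      · obtain ⟨k, k1, k2, k3⟩ := rest_mid H' (by omega) hab (by omega) e1 s2 h h'
        exact Or.inr (RD_mono (sub_UB k1 (by omega)) k3)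
      · refine Or.inl ⟨true, i - s, by show i - s ≤ T n - s; omega, ?_⟩
        show P (rc0 hS) (cfg (rc0 hS) (rcol hS χ hχ))
          (P (rc0 hS) (cfg (rc0 hS) (rcol hS χ hχ)) q s) (i - s) = _
        rw [P_it, show i - s + s = i by omega]
    · exact Or.inl ⟨false, i, h, rfl⟩

end dc

end Crest.Agent.R143.SubEx117
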