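import Crest.Agent.R143.PLT_535
import Crest.Agent.R143.SubE_117
import Crest.Agent.R143.SysC_166
import Crest.Agent.R143.CorrA_831
import Crest.Agent.R143.QuY_810
import Crest.Agent.R143.CorrC_831
import Crest.Agent.R143.WndG_416
import Crest.Agent.R143.TileR1_228
import Crest.Agent.R143.Seg_991
import Crest.Agent.R143.TileR2_228
import Crest.Agent.R143.Cross3_228
import Crest.Agent.R143.ZnG_903
import Crest.Agent.R143.LnkL_927
import Crest.Agent.R143.CorrB_831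
import Crest.Agent.R143.HTop_903
import Crest.Agent.R143.GWX_597
import Crest.Agent.R143.RcT_422
import Crest.Agent.R143.WndI_416
import Crest.Agent.R143.PLS_535
import Crest.Agent.R143.QuA_66
import Crest.Agent.R143.SpR2_169

-- ▼ part R143/PLI_228
section

/-!
# Row 143 (S0194), RIG box Q2: the instance of the window inequality for corridors (helper228)

* `wd_sys` : 535's `wr_sys` for 166's charge `Wd` (358's system)
* `C1` : the data of one colouring `σ` of the cells: `DCorr`, strand `SD`, event `EvA` (168)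
* `LX` : LOCX for one colouring and all pieces (fields `lx`, `lb` of `Sb`)
* `sb_two`, `sb_right`, `sb_left` : 535's `Sb` around the window
* **`pli_two`**, **`pli_right`**, **`pli_left`** : the inequality for `Wd`
-/

set_option autoImplicit false
set_option linter.unusedSectionVars false

noncomputable section

open scoped Classical

namespace Crest.Agent.R143.PLIx228

open Crest.Agent.R143.B0x346 Crest.Agent.R143.DelGx806 Crest.Agent.R143.DelRx806
  Crest.Agent.R143.JColx54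
open Crest.Agent.R143.Frame1x395 Crest.Agent.R143.Frame2x395 Crest.Agent.R143.Frame3x395
  Crest.Agent.R143.Frame4x395 Crest.Agent.R143.Frame8x395 Crest.Agent.R143.Frame9x395
  Crest.Agent.R143.Frame10x395 Crest.Agent.R143.Frame11x395
open Crest.Agent.R143.NonXx592 (Rc P P_succ)
open Crest.Agent.R143.Splx117 Crest.Agent.R143.WLocx713
open Crest.Agent.R143.Resax778 Crest.Agent.R143.PLx535 Crest.Agent.R143.PLSx535
  Crest.Agent.R143.PLTx535
open Crest.Agent.R143.RingDx117 Crest.Agent.R143.CorrDx117 Crest.Agent.R143.StrBx117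
  Crest.Agent.R143.SubDx117 Crest.Agent.R143.SubEx117
open Crest.Agent.R143.K33x137 Crest.Agent.R143.Uniqx323
open Crest.Agent.R143.FinCx811 (Cs rc0 cs rcol)
open Extx358 (Ext Ad Bd)
open OutSx358 (Sys OO gA gR ac zc oc wg rt gr)
open Sptx169 (rst)
open QuSx166 (Wr)
open SysCx166 (Wd Vb Vg)
open SysAx168 (EvA)
open EvGx168 (SD)

/-! ### 166's charge -/

section sys

variable {D C ι κ : Type} [Fintype D] [Fintype C] [Fintype κ] {M : CMap D C} {H R T : Set C}
  {Z : κ → Uniqx323.Zn M} {L : Finset C} {Q : Set D}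
  {pa : ι → (C → ZMod 2) → D} {na : ι → (C → ZMod 2) → ℕ} {Ev : ι → (C → ZMod 2) → Prop}



end sys

/-! ### one colouring -/

section one

variable {S : Finset ℂ} {χ : ℂ → ZMod 2} {hS : GP (S : Set ℂ)} {hχ : HullC S χ} {n N : ℕ}
  {y z : ℕ → ℂ} {A B : ℕ → Set ℂ} {p : ℕ → D0 S} {q : D0 S} {T : ℕ → ℕ} {T₁ : Set ℂ}
  {H Rw Tw : Set (Cs hS)} {Q : Set (D0 S)} {Z₀ : Zn (rc0 hS)} {σ : Cs hS → ZMod 2}
  {L : Finset (Cs hS)} {κ : Type} [Fintype κ] {Zk : κ → Zn (rc0 hS)}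

/-- **the corridor of one colouring `σ`**: `χ` = colours of the sites, `q`, `T n` = first state and
length of the strand -/
structure C1 (hS : GP (S : Set ℂ)) (H Rw : Set (Cs hS)) (Q : Set (D0 S)) (Z₀ : Zn (rc0 hS))
    (n : ℕ) (B : ℕ → Set ℂ) (σ : Cs hS → ZMod 2) (χ : ℂ → ZMod 2) (hχ : HullC S χ)
    (y z : ℕ → ℂ) (A : ℕ → Set ℂ) (p : ℕ → D0 S) (q : D0 S) (N : ℕ) (T : ℕ → ℕ) : Prop where
  col : rcol hS χ hχ = σ
  R : DCorr hS hχ n y z A B p
  sd : SD hS hχ n (RD S (UB B 1 (n - 1))) p B q N T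
  ev : EvA (rc0 hS) H Rw Q Z₀ (q, T n) σ

/-- **LOCX** for the strand `0 .. m` of `q` and all its pieces -/
def LX (hS : GP (S : Set ℂ)) (H Rw Tw : Set (Cs hS)) (T₂ : Set (D0 S)) {κ : Type} [Fintype κ]
    (Zk : κ → Zn (rc0 hS)) (L : Finset (Cs hS)) (σ : Cs hS → ZMod 2) (q : D0 S) (m : ℕ) : Prop :=
  ∀ qq : κ → D0 S × ℕ, EvP Zk qq σ → Pcs (rc0 hS) (cfg (rc0 hS) σ) q m T₂ qq →
    (∀ c ∈ L, Ext (rc0 hS) H (zc (rc0 hS) Rw q m σ) c →
      Ext (rc0 hS) H (Zt Rw Tw (Ac (rc0 hS) qq σ) σ) c) ∧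
    ∀ c ∈ L, c ∈ Bd (rc0 hS) H (zc (rc0 hS) Rw q m σ) →
      c ∈ Ac (rc0 hS) qq σ ∨ ∃ e, Ext (rc0 hS) H (Zt Rw Tw (Ac (rc0 hS) qq σ) σ) e ∧
        Ad (rc0 hS) e c

/-- **`Sb` from the pieces and LOCX** -/
theorem sb_of {m : ℕ} {T₂ : Set (D0 S)} {qq : κ → D0 S × ℕ} (ev : EvP Zk qq σ)
    (P₂ : Pcs (rc0 hS) (cfg (rc0 hS) σ) q m T₂ qq)
    (hT2 : ∀ d ∈ T₂, (rc0 hS).cell d ∈ Tw ∧ Rc (rc0 hS) d ∈ Tw) (LT : ∀ c ∈ L, c ∉ Tw)
    (lx : LX hS H Rw Tw T₂ Zk L σ q m) :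
    Sb (rc0 hS) H Rw Tw Zk L q m σ qq := by
  obtain ⟨h1, h2⟩ := lx qq ev P₂
  refine ⟨ev, fun k => ?_, fun c hc => ?_, LT, h1, h2⟩
  · obtain ⟨j, hj, e⟩ := P₂.sub k
    exact ⟨j, hj, e⟩
  · rcases P₂.ac_cov hc with h | ⟨d, hd, e⟩
    · exact Or.inl h
    · refine Or.inr ?_
      rcases e with rfl | rfl
      · exact (hT2 d hd).1
      · exact (hT2 d hd).2

variable {a' b' : ℕ}




/-- the cells of the states of a region -/
theorem rd_RC {U : Set ℂ} (hin : ∀ v ∈ S, v ∈ U → ¬ OnHull S v) {d : D0 S} (hd : d ∈ RD S U) :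
    (rc0 hS).cell d ∈ RcTx422.RC hS U ∧ Rc (rc0 hS) d ∈ RcTx422.RC hS U := by
  have h := (Set.ext_iff.1 (RcTx422.rs2_rc hin (hS := hS)) d).2 hd
  exact h

end one

/-! ### the inequality -/

section fin

variable {S : Finset ℂ} {hS : GP (S : Set ℂ)} {n : ℕ} {B : ℕ → Set ℂ} {T₁ : Set ℂ}
  {H Rw Tw : Set (Cs hS)} {Q : Set (D0 S)} {Z₀ : Zn (rc0 hS)} {L : Finset (Cs hS)} {a' b' : ℕ}


/-- 166's charge for 168's system -/
abbrev WdA (hS : GP (S : Set ℂ)) (H Rw : Set (Cs hS)) (Q : Set (D0 S)) (Z₀ : Zn (rc0 hS))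
    (k : ZMod 3) (d₀ : D0 S) (w : D0 S → ℂ) (Fr : ℕ → Set (D0 S)) (l : ℕ)
    (σ τ : Cs hS → ZMod 2) : ℂ :=
  Wd (rc0 hS) H Rw Q (fun (i : D0 S × ℕ) _ => i.1) (fun i _ => i.2) (EvA (rc0 hS) H Rw Q Z₀) k d₀
    w Fr l σ τ




/-- the region of the window does not carry the pieces: support of the field -/
def Spt (z : D0 S → ℂ) (F : Set (D0 S)) {κ : Type} (Z : κ → Zn (rc0 hS)) : Prop :=
  ∀ h, rst z F h ≠ 0 → ∀ k, ¬ ((rc0 hS).cell h ∈ (Z k).R ∧ (rc0 hS).cell ((rc0 hS).rho h) ∈ (Z k).R ∧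
    (rc0 hS).cell ((rc0 hS).rho ((rc0 hS).rho h)) ∈ (Z k).R)

variable {w : ℂ} {G : (Cs hS → ZMod 2) → Prop} {g' : (Cs hS → ZMod 2) → ℝ} {z : D0 S → ℂ}
  {Fr : ℕ → Set (D0 S)} {l : ℕ}




end fin

end Crest.Agent.R143.PLIx228
end
end

-- ▼ part R143/SubH_117
section

/-!
# Row 143 (S0194), RIG box Q2: the pieces of the strand around a window, under `CorH` (helper117)

* `Bk η W o k` : the enlarged tile `o + k`; `dis`, `mem_y` : geometry from `CorH`
* `clR hS F` : cells of the sites of `F`; `rd_clR`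
* **`two`, `right`, `left`** : the inputs `ev`, `sub`, `rest` of `PLTx535.Sb.of`
-/

set_option autoImplicit false
set_option linter.all false

noncomputable section

open scoped Classical

namespace Crest.Agent.R143.SubHx117

open Set
open Crest.Agent.R143.B0x346 Crest.Agent.R143.DelGx806 Crest.Agent.R143.DelRx806
  Crest.Agent.R143.JColx54
open Crest.Agent.R143.Frame1x395 Crest.Agent.R143.Frame2x395 Crest.Agent.R143.Frame3x395
  Crest.Agent.R143.Frame4x395 Crest.Agent.R143.Frame8x395 Crest.Agent.R143.Frame9x395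
  Crest.Agent.R143.Frame10x395 Crest.Agent.R143.Frame11x395
open Crest.Agent.R143.Splx117 Crest.Agent.R143.WLocx713
open Crest.Agent.R143.PP0x831 Crest.Agent.R143.FinMx609
open Crest.Agent.R143.RingDx117 (RD)
open Crest.Agent.R143.CorrDx117 (DCorr)
open Crest.Agent.R143.TileRx228 Crest.Agent.R143.RingPx503
open Crest.Agent.R143.ConfTx503 (rr_sub)
open Crest.Agent.R143.CorHx713 Crest.Agent.R143.CorrIx831
open Crest.Agent.R143.NonXx592 (Rc P)
open Crest.Agent.R143.StrBx117 Crest.Agent.R143.SubDx117 Crest.Agent.R143.SubEx117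
open Crest.Agent.R143.K33x137 Crest.Agent.R143.Uniqx323
open Crest.Agent.R143.FinCx811 (Cs rc0 cs rcol)
open Crest.Agent.R143.PLx535 (EvP Ac)
open Crest.Agent.R143.OutSx358 (ac)
open Crest.Agent.R143.EvGx168 (SD)

/-! ### cells of sites -/

section cl

variable {S : Finset ℂ} {hS : GP (S : Set ℂ)} {F : Set ℂ}

/-- the cells of the sites of `F` (903's `clR`) -/
abbrev clS (hS : GP (S : Set ℂ)) (F : Set ℂ) : Set (Cs hS) :=
  {c | ∃ s, s ∈ S ∧ s ∈ F ∧ c.1 = Quot.mk (hullE S) s}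

theorem clS_eq (hin : ∀ v ∈ S, v ∈ F → ¬ OnHull S v) : clS hS F = RcTx422.RC hS F := by
  ext c
  constructor
  · rintro ⟨s, h1, h2, h3⟩
    exact ⟨s, h1, h2, hin s h1 h2, h3⟩
  · rintro ⟨s, h1, h2, -, h3⟩
    exact ⟨s, h1, h2, h3⟩

theorem rd_clS (hin : ∀ v ∈ S, v ∈ F → ¬ OnHull S v) :
    EvGx117.Rd (rc0 hS) (clS hS F) = RD S F := by
  rw [clS_eq hin]
  exact RcTx422.rs2_rc hin

theorem cell_clS {d : D0 S} (hd : d ∈ RD S F) {c : Cs hS}
    (hc : c = (rc0 hS).cell d ∨ c = Rc (rc0 hS) d) : c ∈ clS hS F := by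
  rcases hc with rfl | rfl
  · exact ⟨d.1.1, (Sepx686.dart_mem d).1, hd.1, RcTx422.cell_val d⟩
  · exact ⟨d.1.2, (Sepx686.dart_mem d).2, hd.2, RcTx422.cell_rho_val d⟩

end cl

variable {X : Set (ℂ × Bool)} {U : Set ℂ} {M : ℕ} {W : ℤ → ℤ × ℤ} {η d : ℝ} {o : ℤ} {n : ℕ}

/-- the enlarged tiles of the corridor -/
abbrev Bk (η : ℝ) (W : ℤ → ℤ × ℤ) (o : ℤ) : ℕ → Set ℂ := fun k => bst η W (o + k)

/-- `Rts` is a union of tiles -/
theorem rts_eq : Rts η W o n = UB (Bk η W o) 1 (n - 1) := by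
  ext s
  constructor
  · rintro ⟨k, h1, h2, h3⟩
    exact ⟨k, h1, by omega, h3⟩
  · rintro ⟨k, h1, h2, h3⟩
    exact ⟨k, by omega, by omega, h3⟩

/-- tiles which are not neighbours are disjoint -/
theorem dis' (H : CorH X U M W η d o n) {j k : ℕ} (h1 : j + 2 ≤ k) (h2 : k + 1 < j + M) :
    Disjoint (Bk η W o j) (Bk η W o k) := by
  have e0 := H.e0
  have h := H.dsj (o + j) (o + k) (CorPx503.not_dvd_of (by omega) (by omega) (by omega))
    (CorPx503.not_dvd_of (by omega) (by omega) (by omega))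
    (CorPx503.not_dvd_of (by omega) (by omega) (by omega))
  exact h.mono (rr_sub (by linarith) (by linarith) _) (rr_sub (by linarith) (by linarith) _)

theorem dis (H : CorH X U M W η d o n) : ∀ j k : ℕ, j + 2 ≤ k → k < n →
    Disjoint (Bk η W o j) (Bk η W o k) := fun j k h1 h2 =>
  dis' H h1 (by have := H.nM; omega)

/-- the sites of the tiles are inner -/
theorem inn (H : CorH X U M W η d o n) {a b : ℕ} : ∀ v ∈ sX X, v ∈ UB (Bk η W o) a b →
    ¬ OnHull (sX X) v := by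
  rintro v - ⟨k, -, -, h⟩
  exact inn_bst H h

theorem inn' (H : CorH X U M W η d o n) {a b : ℕ} {T₁ : Set ℂ} : ∀ v ∈ sX X,
    v ∈ UB (Bk η W o) a b \ T₁ → ¬ OnHull (sX X) v := fun v h1 h2 => inn H v h1 h2.1

/-- the black site of the gate `k` is in the tiles `k` and `k - 1` -/
theorem mem_y (H : CorH X U M W η d o n) {k : ℕ} (hk : k < n) :
    yy η W X (o + k) ∈ Bk η W o k ∧ yy η W X (o + (k + 1 : ℕ)) ∈ Bk η W o k := by
  have e0 := H.e0
  have hsub : RR (9 * η) (51 * η) (100 * η) W (o + k) ⊆ Bk η W o k :=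
    rr_sub (by linarith) (by linarith) _
  exact ⟨hsub (H.corr.mem0 k hk), hsub (H.corr.mem1 k hk)⟩



/-- `ev`, `sub`, `rest` from `Pcs` -/
theorem rest_of {S : Finset ℂ} {hS : GP (S : Set ℂ)} {σ : Cs hS → ZMod 2} {q : D0 S} {m : ℕ}
    {κ : Type} [Fintype κ] {qq : κ → D0 S × ℕ} {F : Set ℂ}
    (H : Pcs (rc0 hS) (cfg (rc0 hS) σ) q m (RD S F) qq) :
    (∀ k, ∃ t, t + (qq k).2 ≤ m ∧ P (rc0 hS) (cfg (rc0 hS) σ) q t = (qq k).1) ∧
      ∀ c ∈ ac (rc0 hS) q m σ, c ∈ Ac (rc0 hS) qq σ ∨ c ∈ clS hS F := by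
  refine ⟨H.sub, fun c hc => ?_⟩
  rcases H.ac_cov hc with h | ⟨d, h1, h2⟩
  · exact Or.inl h
  · exact Or.inr (cell_clS h1 h2)

variable {q : D0 (sX X)} {N : ℕ} {T : ℕ → ℕ}

/-- **two pieces** around the tiles `a' ≤ k < b'` -/
theorem two (H : CorH X U M W η d o n)
    (HS : SD H.gp H.hull n (RD (sX X) (Rts η W o n)) H.p (Bk η W o) q N T) {a' b' : ℕ}
    (ha : 3 ≤ a') (hab : a' < b') (hb : b' + 3 ≤ n) {Z : Bool → Zn (rc0 H.gp)}
    (SR : SideH H.gp H.hull (fun k : ℕ => yy η W X (o + k)) H.p (Z false)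
      (UB (Bk η W o) b' (n - 1) \ UB (Bk η W o) a' b') (Bk η W o (n - 1)) (Bk η W o b') b' n)
    (SL : SideH H.gp H.hull (fun k : ℕ => yy η W X (o + k)) H.p (Z true)
      (UB (Bk η W o) 1 a' \ UB (Bk η W o) a' b') (Bk η W o (a' - 1)) (Bk η W o 0) 0 a') :
    ∃ qq : Bool → D0 (sX X) × ℕ, EvP Z qq (rcol H.gp (cX X) H.hull) ∧
      (∀ k, ∃ t, t + (qq k).2 ≤ T n ∧
        P (rc0 H.gp) (cfg (rc0 H.gp) (rcol H.gp (cX X) H.hull)) q t = (qq k).1) ∧
      ∀ c ∈ ac (rc0 H.gp) q (T n) (rcol H.gp (cX X) H.hull),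
        c ∈ Ac (rc0 H.gp) qq (rcol H.gp (cX X) H.hull) ∨
          c ∈ clS H.gp (UB (Bk η W o) (a' - 1) (b' + 1)) := by
  rw [rts_eq] at HS
  obtain ⟨qq, h1, h2⟩ := pcs_two (T₁ := UB (Bk η W o) a' b') H.corr HS (dis H) ha hab.le hb
    (fun k hk => by
      rw [Set.disjoint_left]
      rintro s h1 ⟨j, h2, h3, h4⟩
      exact Set.disjoint_left.1 (dis H k j (by omega) (by omega)) h1 h4)
    (fun k h1 h2 => by
      rw [Set.disjoint_left]
      rintro s h3 ⟨j, h4, h5, h6⟩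
      exact Set.disjoint_left.1 (dis H j k (by omega) h2) h6 h3)
    (Or.inl ⟨a', le_rfl, hab, (mem_y H (by omega)).1⟩)
    (Or.inl ⟨b' - 1, by omega, by omega, by
      have := (mem_y H (k := b' - 1) (by omega)).2
      rwa [show b' - 1 + 1 = b' by omega] at this⟩) SR SL
  exact ⟨qq, h1, rest_of h2⟩

/-- **one piece** (tiles `≥ b'`), window = the tiles `< b'`, `T₁` = tiles `a' ≤ k < b'` -/
theorem right (H : CorH X U M W η d o n)
    (HS : SD H.gp H.hull n (RD (sX X) (Rts η W o n)) H.p (Bk η W o) q N T) {a' b' : ℕ}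
    (hab : a' < b') (hb : b' + 3 ≤ n) {Z : Unit → Zn (rc0 H.gp)}
    (SR : SideH H.gp H.hull (fun k : ℕ => yy η W X (o + k)) H.p (Z ())
      (UB (Bk η W o) b' (n - 1) \ UB (Bk η W o) a' b') (Bk η W o (n - 1)) (Bk η W o b') b' n) :
    ∃ qq : Unit → D0 (sX X) × ℕ, EvP Z qq (rcol H.gp (cX X) H.hull) ∧
      (∀ k, ∃ t, t + (qq k).2 ≤ T n ∧
        P (rc0 H.gp) (cfg (rc0 H.gp) (rcol H.gp (cX X) H.hull)) q t = (qq k).1) ∧
      ∀ c ∈ ac (rc0 H.gp) q (T n) (rcol H.gp (cX X) H.hull),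
        c ∈ Ac (rc0 H.gp) qq (rcol H.gp (cX X) H.hull) ∨
          c ∈ clS H.gp (UB (Bk η W o) 0 (b' + 1)) := by
  rw [rts_eq] at HS
  obtain ⟨qq, h1, h2⟩ := pcs_right (T₁ := UB (Bk η W o) a' b') H.corr HS (dis H) (by omega) hb
    (fun k h1 h2 => by
      rw [Set.disjoint_left]
      rintro s h3 ⟨j, h4, h5, h6⟩
      exact Set.disjoint_left.1 (dis H j k (by omega) h2) h6 h3)
    (Or.inl ⟨b' - 1, by omega, by omega, by
      have := (mem_y H (k := b' - 1) (by omega)).2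
      rwa [show b' - 1 + 1 = b' by omega] at this⟩) SR
  exact ⟨qq, h1, rest_of h2⟩

/-- **one piece** (tiles `< a'`), window = the tiles `≥ a'`, `T₁` = tiles `a' ≤ k < b'` -/
theorem left (H : CorH X U M W η d o n)
    (HS : SD H.gp H.hull n (RD (sX X) (Rts η W o n)) H.p (Bk η W o) q N T) {a' b' : ℕ}
    (ha : 3 ≤ a') (han : a' < n) (hab : a' < b') (hb : b' ≤ n + 2) {Z : Unit → Zn (rc0 H.gp)}
    (SL : SideH H.gp H.hull (fun k : ℕ => yy η W X (o + k)) H.p (Z ())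
      (UB (Bk η W o) 1 a' \ UB (Bk η W o) a' b') (Bk η W o (a' - 1)) (Bk η W o 0) 0 a') :
    ∃ qq : Unit → D0 (sX X) × ℕ, EvP Z qq (rcol H.gp (cX X) H.hull) ∧
      (∀ k, ∃ t, t + (qq k).2 ≤ T n ∧
        P (rc0 H.gp) (cfg (rc0 H.gp) (rcol H.gp (cX X) H.hull)) q t = (qq k).1) ∧
      ∀ c ∈ ac (rc0 H.gp) q (T n) (rcol H.gp (cX X) H.hull),
        c ∈ Ac (rc0 H.gp) qq (rcol H.gp (cX X) H.hull) ∨
          c ∈ clS H.gp (UB (Bk η W o) (a' - 1) n) := by
  rw [rts_eq] at HS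
  have hM := H.nM
  obtain ⟨qq, h1, h2⟩ := pcs_left (T₁ := UB (Bk η W o) a' b') H.corr HS (dis H) ha han
    (fun k hk => by
      rw [Set.disjoint_left]
      rintro s h1 ⟨j, h2, h3, h4⟩
      exact Set.disjoint_left.1 (dis' H (j := k) (k := j) (by omega) (by omega)) h1 h4)
    (Or.inl ⟨a', le_rfl, hab, (mem_y H (by omega)).1⟩) SL
  exact ⟨qq, h1, rest_of h2⟩

end Crest.Agent.R143.SubHx117
end
end

-- ▼ part R143/PLJ_228
section

/-!
# Row 143 (S0194), RIG box Q2: the windows of the corridor on a fixed set of sites (helper228)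

`S` sites, `hS : GP S`, `s` colours of the cells, `X` a configuration with sites `S`, colours `s`
(`Col`, 831), `CorH X ..` (713), `SDS ..` the strand (831), `EvA` (168).

* `sb2`, `sbR`, `sbL` : 535's `Sb` for the window `a' ≤ k < b'` (`k < b'`, `k ≥ a'`)
* `One` : strand and event for one colouring; `Sds` : 117's `SideH` for the side of a window
* **`pw2`, `pwR`, `pwL`** : 810's `Pw`
-/

set_option autoImplicit false
set_option linter.unusedSectionVars false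

noncomputable section

open scoped Classical

namespace Crest.Agent.R143.PLJx228

open Crest.Agent.R143.B0x346 Crest.Agent.R143.DelGx806 Crest.Agent.R143.DelRx806
  Crest.Agent.R143.JColx54
open Crest.Agent.R143.Frame1x395 Crest.Agent.R143.Frame2x395 Crest.Agent.R143.Frame3x395
  Crest.Agent.R143.Frame4x395 Crest.Agent.R143.Frame8x395 Crest.Agent.R143.Frame9x395
  Crest.Agent.R143.Frame10x395 Crest.Agent.R143.Frame11x395
open Crest.Agent.R143.Splx117 Crest.Agent.R143.WLocx713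
open Crest.Agent.R143.PP0x831 Crest.Agent.R143.FinMx609
open Crest.Agent.R143.RingDx117 Crest.Agent.R143.CorrDx117
open Crest.Agent.R143.StrBx117 Crest.Agent.R143.SubDx117 Crest.Agent.R143.SubEx117
open Crest.Agent.R143.CorHx713 Crest.Agent.R143.CorrIx831
open Crest.Agent.R143.TileRx228 (RR)
open Crest.Agent.R143.RingPx503 (Dsj)
open Crest.Agent.R143.ConfTx503 (rr_sub)
open Crest.Agent.R143.NonXx592 (Rc P)
open Crest.Agent.R143.PLx535 Crest.Agent.R143.PLSx535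
open Crest.Agent.R143.K33x137 Crest.Agent.R143.Uniqx323
open Crest.Agent.R143.FinCx811 (Cs rc0 cs rcol)
open SysAx168 (EvA)
open Crest.Agent.R143.PLIx228 (LX sb_of rd_RC)
open Crest.Agent.R143.SubHx117 (clS clS_eq rts_eq dis inn inn' mem_y)

variable {S : Finset ℂ} {hS : GP (S : Set ℂ)} {X : Set (ℂ × Bool)} {U : Set ℂ} {M : ℕ}
  {W : ℤ → ℤ × ℤ} {η d : ℝ} {o : ℤ} {n : ℕ} {s : Cs hS → ZMod 2}
  {Hh Rw Tw : Set (Cs hS)} {Q : Set (D0 S)} {Z₀ : Zn (rc0 hS)} {L : Finset (Cs hS)}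
  {p : ℕ → D0 S} {q : D0 S} {N : ℕ} {T : ℕ → ℕ} {a' b' : ℕ} {T₁ : Set ℂ}

/-- `T₁` = the region of the tiles `a' ≤ k < b'`, up to tiles off the corridor -/
structure Win (B : ℕ → Set ℂ) (n : ℕ) (T₁ : Set ℂ) (a' b' : ℕ) : Prop where
  L : ∀ k, k + 1 < a' → Disjoint (B k) T₁
  R : ∀ k, b' < k → k < n → Disjoint (B k) T₁
  sub : ∀ k, a' ≤ k → k < b' → k < n → B k ⊆ T₁

/-- the tiles `i₁ ≤ x < i₂` (absolute indices, possibly closing tiles) -/
def WT (η : ℝ) (W : ℤ → ℤ × ℤ) (i₁ i₂ : ℤ) : Set ℂ := {s | ∃ x : ℤ, i₁ ≤ x ∧ x < i₂ ∧ s ∈ bst η W x}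

/-- **the region of a window**: tiles `o + i ≤ x < o + j`, `a' = max i 0`, `b' = j` -/
theorem win_of (D : Dsj (10 * η) (52 * η) (100 * η) M W) (e0 : 0 < η) {i j : ℤ}
    (hi : (a' : ℤ) = max i 0) (hj : (b' : ℤ) = j) (hin : (n : ℤ) < i + M) (hjn : j < M) :
    Win (Bk η W o) n (WT η W (o + i) (o + j)) a' b' := by
  have key : ∀ (k : ℕ) (x : ℤ), ¬ (M : ℤ) ∣ x - (o + k) → ¬ (M : ℤ) ∣ x - (o + k) - 1 →
      ¬ (M : ℤ) ∣ x - (o + k) + 1 → Disjoint (Bk η W o k) (bst η W x) := by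
    intro k x h1 h2 h3
    exact (D (o + k) x h1 h2 h3).mono (rr_sub (by linarith) (by linarith) _)
      (rr_sub (by linarith) (by linarith) _)
  refine ⟨fun k hk => ?_, fun k h1 h2 => ?_, fun k h1 h2 h3 s hs => ?_⟩
  · rw [Set.disjoint_left]
    rintro s h4 ⟨x, h5, h6, h7⟩
    refine Set.disjoint_left.1 (key k x ?_ ?_ ?_) h4 h7 <;>
      exact CorPx503.not_dvd_of (by omega) (by omega) (by omega)
  · rw [Set.disjoint_left]
    rintro s h4 ⟨x, h5, h6, h7⟩
    refine Set.disjoint_left.1 (key k x ?_ ?_ ?_) h4 h7 <;>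
      exact CorPx503.not_dvd_of (by omega) (by omega) (by omega)
  · exact ⟨o + k, by omega, by omega, hs⟩

/-- the side of a window: 117's `SideH` for every certificate that the colours are hull colours -/
def Sds (hS : GP (S : Set ℂ)) (X : Set (ℂ × Bool)) (η : ℝ) (W : ℤ → ℤ × ℤ) (o : ℤ)
    (p : ℕ → D0 S) (Z : Zn (rc0 hS)) (F BE BW : Set ℂ) (g₀ g₁ : ℕ) : Prop :=
  ∀ hχ : HullC S (cX X), SideH hS hχ (fun k : ℕ => yy η W X (o + k)) p Z F BE BW g₀ g₁

/-- cells of the states of a region -/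
theorem rd_clS {F : Set ℂ} (h : clS hS F ⊆ Tw) : ∀ d ∈ RD S F,
    (rc0 hS).cell d ∈ Tw ∧ Rc (rc0 hS) d ∈ Tw := fun _ hd =>
  ⟨h (SubHx117.cell_clS hd (Or.inl rfl)), h (SubHx117.cell_clS hd (Or.inr rfl))⟩

/-- **two pieces** -/
theorem sb2 (H : CorH X U M W η d o n) (h3 : 3 ≤ S.card) (C : Col hS X s)
    (hp : ∀ k : ℕ, (p k).1 = (yy η W X (o + k), xx η W X (o + k)))
    (hs : SDS hS s η W o n p q N T) (ha : 3 ≤ a') (hab : a' < b') (hb : b' + 3 ≤ n)
    (WT : Win (Bk η W o) n T₁ a' b') {Z : Bool → Zn (rc0 hS)}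
    (SR : Sds hS X η W o p (Z false) (UB (Bk η W o) b' (n - 1) \ T₁)
      (Bk η W o (n - 1)) (Bk η W o b') b' n)
    (SL : Sds hS X η W o p (Z true) (UB (Bk η W o) 1 a' \ T₁)
      (Bk η W o (a' - 1)) (Bk η W o 0) 0 a')
    (hTw : clS hS (UB (Bk η W o) (a' - 1) (b' + 1)) ⊆ Tw) (LT : ∀ c ∈ L, c ∉ Tw)
    (lx : LX hS Hh Rw Tw (RD S (UB (Bk η W o) (a' - 1) (b' + 1))) Z L s q (T n)) :
    ∃ qq : Bool → D0 S × ℕ, Sb (rc0 hS) Hh Rw Tw Z L q (T n) s qq := by
  obtain rfl : sX X = S := C.e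
  obtain rfl := col_eq H.hull h3 C
  have hpe : p = H.p := by
    funext k
    exact Subtype.ext (hp k)
  subst hpe
  have D : DCorr H.gp H.hull n (fun k : ℕ => yy η W X (o + k)) (fun k : ℕ => xx η W X (o + k))
      (fun k : ℕ => RR (9 * η) (51 * η) (100 * η) W (o + k)) (Bk η W o) H.p := H.corr
  have HS : EvGx168.SD H.gp H.hull n (RD (sX X) (UB (Bk η W o) 1 (n - 1))) H.p (Bk η W o)
      q N T := by
    rw [← show Rts η W o n = UB (Bk η W o) 1 (n - 1) from rts_eq]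
    exact hs
  obtain ⟨qq, h1, h2⟩ := pcs_two (T₁ := T₁) D HS (dis H) ha hab.le hb WT.L WT.R
    (Or.inl (WT.sub a' le_rfl hab (by omega) (mem_y H (by omega)).1))
    (Or.inl (WT.sub (b' - 1) (by omega) (by omega) (by omega) (by
      have := (mem_y H (k := b' - 1) (by omega)).2
      rwa [show b' - 1 + 1 = b' by omega] at this))) (SR H.hull) (SL H.hull)
  exact ⟨qq, sb_of h1 h2 (rd_clS hTw) LT lx⟩

/-- **one piece**, windows near the gate `0` -/
theorem sbR (H : CorH X U M W η d o n) (h3 : 3 ≤ S.card) (C : Col hS X s)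
    (hp : ∀ k : ℕ, (p k).1 = (yy η W X (o + k), xx η W X (o + k)))
    (hs : SDS hS s η W o n p q N T) (hab : a' < b') (hb : b' + 3 ≤ n)
    (WT : Win (Bk η W o) n T₁ a' b') {Z : Unit → Zn (rc0 hS)}
    (SR : Sds hS X η W o p (Z ()) (UB (Bk η W o) b' (n - 1) \ T₁)
      (Bk η W o (n - 1)) (Bk η W o b') b' n)
    (hTw : clS hS (UB (Bk η W o) 0 (b' + 1)) ⊆ Tw) (LT : ∀ c ∈ L, c ∉ Tw)
    (lx : LX hS Hh Rw Tw (RD S (UB (Bk η W o) 0 (b' + 1))) Z L s q (T n)) :
    ∃ qq : Unit → D0 S × ℕ, Sb (rc0 hS) Hh Rw Tw Z L q (T n) s qq := by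
  obtain rfl : sX X = S := C.e
  obtain rfl := col_eq H.hull h3 C
  have hpe : p = H.p := by
    funext k
    exact Subtype.ext (hp k)
  subst hpe
  have D : DCorr H.gp H.hull n (fun k : ℕ => yy η W X (o + k)) (fun k : ℕ => xx η W X (o + k))
      (fun k : ℕ => RR (9 * η) (51 * η) (100 * η) W (o + k)) (Bk η W o) H.p := H.corr
  have HS : EvGx168.SD H.gp H.hull n (RD (sX X) (UB (Bk η W o) 1 (n - 1))) H.p (Bk η W o)
      q N T := by
    rw [← show Rts η W o n = UB (Bk η W o) 1 (n - 1) from rts_eq]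
    exact hs
  obtain ⟨qq, h1, h2⟩ := pcs_right (T₁ := T₁) D HS (dis H) (by omega) hb WT.R
    (Or.inl (WT.sub (b' - 1) (by omega) (by omega) (by omega) (by
      have := (mem_y H (k := b' - 1) (by omega)).2
      rwa [show b' - 1 + 1 = b' by omega] at this))) (SR H.hull)
  exact ⟨qq, sb_of h1 h2 (rd_clS hTw) LT lx⟩

/-- **one piece**, windows near the gate `n` -/
theorem sbL (H : CorH X U M W η d o n) (h3 : 3 ≤ S.card) (C : Col hS X s)
    (hp : ∀ k : ℕ, (p k).1 = (yy η W X (o + k), xx η W X (o + k)))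
    (hs : SDS hS s η W o n p q N T) (ha : 3 ≤ a') (han : a' < n) (hab : a' < b')
    (WT : Win (Bk η W o) n T₁ a' b') {Z : Unit → Zn (rc0 hS)}
    (SL : Sds hS X η W o p (Z ()) (UB (Bk η W o) 1 a' \ T₁)
      (Bk η W o (a' - 1)) (Bk η W o 0) 0 a')
    (hTw : clS hS (UB (Bk η W o) (a' - 1) n) ⊆ Tw) (LT : ∀ c ∈ L, c ∉ Tw)
    (lx : LX hS Hh Rw Tw (RD S (UB (Bk η W o) (a' - 1) n)) Z L s q (T n)) :
    ∃ qq : Unit → D0 S × ℕ, Sb (rc0 hS) Hh Rw Tw Z L q (T n) s qq := by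
  obtain rfl : sX X = S := C.e
  obtain rfl := col_eq H.hull h3 C
  have hpe : p = H.p := by
    funext k
    exact Subtype.ext (hp k)
  subst hpe
  have D : DCorr H.gp H.hull n (fun k : ℕ => yy η W X (o + k)) (fun k : ℕ => xx η W X (o + k))
      (fun k : ℕ => RR (9 * η) (51 * η) (100 * η) W (o + k)) (Bk η W o) H.p := H.corr
  have HS : EvGx168.SD H.gp H.hull n (RD (sX X) (UB (Bk η W o) 1 (n - 1))) H.p (Bk η W o)
      q N T := by
    rw [← show Rts η W o n = UB (Bk η W o) 1 (n - 1) from rts_eq]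
    exact hs
  obtain ⟨qq, h1, h2⟩ := pcs_left (T₁ := T₁) D HS (dis H) ha han WT.L
    (Or.inl (WT.sub a' le_rfl hab han (mem_y H han).1)) (SL H.hull)
  exact ⟨qq, sb_of h1 h2 (rd_clS hTw) LT lx⟩

/-! ### all colourings -/

/-- **one colouring**: the corridor, the selected darts, the strand, the event -/
structure One (hS : GP (S : Set ℂ)) (h3 : 3 ≤ S.card) (U : Set ℂ) (M : ℕ) (W : ℤ → ℤ × ℤ)
    (η d : ℝ) (o : ℤ) (n : ℕ) (Hh Rw : Set (Cs hS)) (Q : Set (D0 S)) (Z₀ : Zn (rc0 hS))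
    (s : Cs hS → ZMod 2) (p : ℕ → D0 S) (q : D0 S) (N : ℕ) (T : ℕ → ℕ) : Prop where
  H : CorH (ColXx829.Xc hS h3 s) U M W η d o n
  hp : ∀ k : ℕ, (p k).1 = (yy η W (ColXx829.Xc hS h3 s) (o + k),
    xx η W (ColXx829.Xc hS h3 s) (o + k))
  sd : SDS hS s η W o n p q N T
  ev : EvA (rc0 hS) Hh Rw Q Z₀ (q, T n) s

variable {h3 : 3 ≤ S.card} {G : (Cs hS → ZMod 2) → Prop} {a : D0 S → ℂ}

/-- **810's data of a window, two pieces** -/
theorem pw2 {Z : Bool → Zn (rc0 hS)} (F : Fix (rc0 hS) Hh Rw Tw Z)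
    (sup : ∀ h, a h ≠ 0 → ∀ k, ¬ ((rc0 hS).cell h ∈ (Z k).R ∧ (rc0 hS).cell ((rc0 hS).rho h) ∈ (Z k).R ∧
      (rc0 hS).cell ((rc0 hS).rho ((rc0 hS).rho h)) ∈ (Z k).R))
    (ha : 3 ≤ a') (hab : a' < b') (hb : b' + 3 ≤ n) (WT : Win (Bk η W o) n T₁ a' b')
    (hTw : clS hS (UB (Bk η W o) (a' - 1) (b' + 1)) ⊆ Tw) (LT : ∀ c ∈ L, c ∉ Tw)
    (h : ∀ s, G s → ∃ p q N T, One hS h3 U M W η d o n Hh Rw Q Z₀ s p q N T ∧
      Sds hS (ColXx829.Xc hS h3 s) η W o p (Z false)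
        (UB (Bk η W o) b' (n - 1) \ T₁) (Bk η W o (n - 1)) (Bk η W o b') b' n ∧
      Sds hS (ColXx829.Xc hS h3 s) η W o p (Z true)
        (UB (Bk η W o) 1 a' \ T₁) (Bk η W o (a' - 1)) (Bk η W o 0) 0 a' ∧
      LX hS Hh Rw Tw (RD S (UB (Bk η W o) (a' - 1) (b' + 1))) Z L s q (T n)) :
    QuYx810.Pw (rc0 hS) Hh Rw (fun (i : D0 S × ℕ) _ => i.1) (fun i _ => i.2)
      (EvA (rc0 hS) Hh Rw Q Z₀) L a G Bool Z Tw := by
  refine ⟨by rw [Fintype.card_bool], F, sup, fun s hs => ?_⟩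
  obtain ⟨p, q, N, T, O, h1, h2, h4⟩ := h s hs
  exact ⟨(q, T n), O.ev, sb2 O.H h3 (col_Xc hS h3 s) O.hp O.sd ha hab hb WT h1 h2 hTw LT h4⟩

/-- **one piece**, windows near the gate `0` -/
theorem pwR {Z : Unit → Zn (rc0 hS)} (F : Fix (rc0 hS) Hh Rw Tw Z)
    (sup : ∀ h, a h ≠ 0 → ∀ k, ¬ ((rc0 hS).cell h ∈ (Z k).R ∧ (rc0 hS).cell ((rc0 hS).rho h) ∈ (Z k).R ∧
      (rc0 hS).cell ((rc0 hS).rho ((rc0 hS).rho h)) ∈ (Z k).R))
    (hab : a' < b') (hb : b' + 3 ≤ n) (WT : Win (Bk η W o) n T₁ a' b')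
    (hTw : clS hS (UB (Bk η W o) 0 (b' + 1)) ⊆ Tw) (LT : ∀ c ∈ L, c ∉ Tw)
    (h : ∀ s, G s → ∃ p q N T, One hS h3 U M W η d o n Hh Rw Q Z₀ s p q N T ∧
      Sds hS (ColXx829.Xc hS h3 s) η W o p (Z ())
        (UB (Bk η W o) b' (n - 1) \ T₁) (Bk η W o (n - 1)) (Bk η W o b') b' n ∧
      LX hS Hh Rw Tw (RD S (UB (Bk η W o) 0 (b' + 1))) Z L s q (T n)) :
    QuYx810.Pw (rc0 hS) Hh Rw (fun (i : D0 S × ℕ) _ => i.1) (fun i _ => i.2)
      (EvA (rc0 hS) Hh Rw Q Z₀) L a G Unit Z Tw := by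
  refine ⟨by rw [Fintype.card_unit]; norm_num, F, sup, fun s hs => ?_⟩
  obtain ⟨p, q, N, T, O, h1, h4⟩ := h s hs
  exact ⟨(q, T n), O.ev, sbR O.H h3 (col_Xc hS h3 s) O.hp O.sd hab hb WT h1 hTw LT h4⟩

/-- **one piece**, windows near the gate `n` -/
theorem pwL {Z : Unit → Zn (rc0 hS)} (F : Fix (rc0 hS) Hh Rw Tw Z)
    (sup : ∀ h, a h ≠ 0 → ∀ k, ¬ ((rc0 hS).cell h ∈ (Z k).R ∧ (rc0 hS).cell ((rc0 hS).rho h) ∈ (Z k).R ∧
      (rc0 hS).cell ((rc0 hS).rho ((rc0 hS).rho h)) ∈ (Z k).R))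
    (ha : 3 ≤ a') (han : a' < n) (hab : a' < b') (WT : Win (Bk η W o) n T₁ a' b')
    (hTw : clS hS (UB (Bk η W o) (a' - 1) n) ⊆ Tw) (LT : ∀ c ∈ L, c ∉ Tw)
    (h : ∀ s, G s → ∃ p q N T, One hS h3 U M W η d o n Hh Rw Q Z₀ s p q N T ∧
      Sds hS (ColXx829.Xc hS h3 s) η W o p (Z ())
        (UB (Bk η W o) 1 a' \ T₁) (Bk η W o (a' - 1)) (Bk η W o 0) 0 a' ∧
      LX hS Hh Rw Tw (RD S (UB (Bk η W o) (a' - 1) n)) Z L s q (T n)) :
    QuYx810.Pw (rc0 hS) Hh Rw (fun (i : D0 S × ℕ) _ => i.1) (fun i _ => i.2)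
      (EvA (rc0 hS) Hh Rw Q Z₀) L a G Unit Z Tw := by
  refine ⟨by rw [Fintype.card_unit]; norm_num, F, sup, fun s hs => ?_⟩
  obtain ⟨p, q, N, T, O, h1, h4⟩ := h s hs
  exact ⟨(q, T n), O.ev, sbL O.H h3 (col_Xc hS h3 s) O.hp O.sd ha han hab WT h1 hTw LT h4⟩

end Crest.Agent.R143.PLJx228
end
end

-- ▼ part R143/ZnQ_323
section

/-!
# Row 143 (S0194), RIG, box Q2: zones of a window, geometry (helper323)

`FPath M W`, tiles `RR A B h W a`, holes of radius `d` in the tiles.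
* `arm_walk` : a site of `Arm A B c u` is joined to the site whose cell contains `c` by sites of
  `Arm (A + d) B c u` (fat in the width only: the cut line `X = B` is not crossed)
* `core_walk` : the cores of two consecutive tiles are joined inside the two fat tiles
* `Wd`, **`wd_con`** : all the sites of a run of tiles are joined inside `⋃ RR (A + d) B h W`
* `wd_off` : a point of a fat tile `RR (A + d) B` in another tile `RR A B` is in the tile itself or in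
  a tile of the run: the fat run does not meet the rest of the strip
-/

set_option autoImplicit false

noncomputable section

open scoped Classical

namespace Crest.Agent.R143.ZnQx323

open Crest.ProbabilityR.Voronoi
open Crest.Agent.R143.B0x346 Crest.Agent.R143.DelGx806 Crest.Agent.R143.DelRx806
open Crest.Agent.R143.RE0x723 (Pth)
open Crest.Agent.R143.Segx991 (Clm Hl pth_conn mem_clm near)
open Crest.Agent.R143.Gatex838 (X Y)
open Crest.Agent.R143.TileRx228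

variable {S : Finset ℂ} {M : ℕ} {W : ℤ → ℤ × ℤ} {A B h d : ℝ} {a b : ℤ} {c u s q : ℂ}

/-! ### coordinates -/

/-- coordinates of a point at distance `≤ r` -/
theorem X_near (hu : ‖u‖ = 1) (c p q : ℂ) : |X c u p - X c u q| ≤ ‖p - q‖ ∧
    |Y c u p - Y c u q| ≤ ‖p - q‖ := by
  have e : (p - c) / u - (q - c) / u = (p - q) / u := by ring
  have hn : ‖(p - q) / u‖ = ‖p - q‖ := by rw [norm_div, hu, div_one]
  unfold X Y
  rw [← Complex.sub_re, ← Complex.sub_im, e]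
  exact ⟨(Complex.abs_re_le_norm _).trans hn.le, (Complex.abs_im_le_norm _).trans hn.le⟩

/-- the point with coordinates `x`, `y` -/
def pq (c u : ℂ) (x y : ℝ) : ℂ := c + u * ⟨x, y⟩

theorem X_pq (hu : u ≠ 0) (c : ℂ) (x y : ℝ) : X c u (pq c u x y) = x ∧ Y c u (pq c u x y) = y := by
  unfold X Y pq
  rw [add_sub_cancel_left, mul_div_cancel_left₀ _ hu]
  exact ⟨rfl, rfl⟩

theorem eq_pq (hu : u ≠ 0) (c z : ℂ) : z = pq c u (X c u z) (Y c u z) := by
  unfold pq X Y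
  have e : (⟨((z - c) / u).re, ((z - c) / u).im⟩ : ℂ) = (z - c) / u := Complex.ext rfl rfl
  rw [e, mul_div_cancel₀ _ hu]
  ring

/-- points of a segment with constant second coordinate -/
theorem seg_h (hu : u ≠ 0) {c z : ℂ} {x x' y : ℝ} (hz : z ∈ segment ℝ (pq c u x y) (pq c u x' y)) :
    Y c u z = y ∧ ∃ t : ℝ, 0 ≤ t ∧ t ≤ 1 ∧ X c u z = x + t * (x' - x) := by
  rw [segment_eq_image'] at hz
  obtain ⟨t, ⟨t0, t1⟩, rfl⟩ := hz
  have e : pq c u x y + t • (pq c u x' y - pq c u x y) = pq c u (x + t * (x' - x)) y := by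
    unfold pq
    rw [Complex.real_smul]
    have e1 : (⟨x + t * (x' - x), y⟩ : ℂ) = ⟨x, y⟩ + (t : ℂ) * (⟨x', y⟩ - ⟨x, y⟩) := by
      apply Complex.ext <;> simp
    rw [e1]
    ring
  simp only [e]
  exact ⟨(X_pq hu _ _ _).2, t, t0, t1, (X_pq hu _ _ _).1⟩

/-- points of a segment with constant first coordinate -/
theorem seg_v (hu : u ≠ 0) {c z : ℂ} {x y y' : ℝ} (hz : z ∈ segment ℝ (pq c u x y) (pq c u x y')) :
    X c u z = x ∧ ∃ t : ℝ, 0 ≤ t ∧ t ≤ 1 ∧ Y c u z = y + t * (y' - y) := by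
  rw [segment_eq_image'] at hz
  obtain ⟨t, ⟨t0, t1⟩, rfl⟩ := hz
  have e : pq c u x y + t • (pq c u x y' - pq c u x y) = pq c u x (y + t * (y' - y)) := by
    unfold pq
    rw [Complex.real_smul]
    have e1 : (⟨x, y + t * (y' - y)⟩ : ℂ) = ⟨x, y⟩ + (t : ℂ) * (⟨x, y'⟩ - ⟨x, y⟩) := by
      apply Complex.ext <;> simp
    rw [e1]
    ring
  simp only [e]
  exact ⟨(X_pq hu _ _ _).1, t, t0, t1, (X_pq hu _ _ _).2⟩

/-! ### one arm -/

/-- sites whose cell meets the horizontal segment from the site `s` to `X = 0` -/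
theorem leg1 (hu : ‖u‖ = 1) (hA : 0 < A) (hdA : d ≤ A) (hdB : d < B)
    (hH : Hl S (Arm A B c u) d) (hs : s ∈ S) (hsA : s ∈ Arm A B c u)
    (hq : q ∈ Clm S (segment ℝ s (pq c u 0 (Y c u s)))) : q ∈ Arm (A + d) B c u := by
  have hu0 : u ≠ 0 := by
    rintro rfl
    simp at hu
  obtain ⟨⟨s1, s2⟩, s3⟩ := hsA
  obtain ⟨hqS, r, hr, hrq⟩ := hq
  have hr' := hr
  rw [eq_pq hu0 c s] at hr
  rw [(X_pq hu0 _ _ _).2] at hr
  obtain ⟨r1, t, t0, t1, r2⟩ := seg_h hu0 hr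
  set x := X c u s with hx
  set y := Y c u s with hy
  have hB : 0 < B := by
    by_contra hB
    push Not at hB
    have : d < 0 := lt_of_lt_of_le hdB hB
    have hx0 : x < 0 := by linarith
    have h0 : s ∈ Arm A B c u := ⟨⟨s1, s2⟩, s3⟩
    obtain ⟨v, -, hv⟩ := hH s h0
    have := norm_nonneg (s - v)
    linarith
  -- `r` is in the arm
  have hrA : r ∈ Arm A B c u := by
    refine ⟨⟨?_, ?_⟩, ?_⟩
    · rw [r2]
      rcases le_or_gt 0 x with hx0 | hx0
      · nlinarith [mul_nonneg (sub_nonneg.2 t1) hx0]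
      · nlinarith [mul_nonneg t0 (neg_nonneg.2 hx0.le)]
    · rw [r2]
      rcases le_or_gt 0 x with hx0 | hx0
      · nlinarith [mul_nonneg t0 hx0]
      · nlinarith [mul_nonneg (sub_nonneg.2 t1) (neg_nonneg.2 hx0.le)]
    · rw [r1]; exact s3
  have hd0 : 0 ≤ d := by
    obtain ⟨v, -, hv⟩ := hH r hrA
    exact (norm_nonneg _).trans hv
  -- `q` is near `r`
  have h1 : ‖r - q‖ ≤ d := by
    obtain ⟨v, hv, hv'⟩ := hH r hrA
    exact (hrq v (Finset.mem_coe.2 hv)).trans hv'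
  have h2 : ‖r - q‖ ≤ ‖r - s‖ := hrq s (Finset.mem_coe.2 hs)
  have h3 : ‖r - s‖ = t * |x| := by
    have e1 : r - s = u * ((-(t * x) : ℝ) : ℂ) := by
      rw [eq_pq hu0 c r, eq_pq hu0 c s, r1, r2, ← hx, ← hy]
      unfold pq
      have e2 : (⟨x + t * (0 - x), y⟩ : ℂ) = ⟨x, y⟩ + ((-(t * x) : ℝ) : ℂ) := by
        apply Complex.ext <;> simp
      rw [e2]
      ring
    rw [e1, norm_mul, hu, one_mul, Complex.norm_real, Real.norm_eq_abs, abs_neg, abs_mul,
      abs_of_nonneg t0]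
  obtain ⟨g1, g2⟩ := X_near hu c r q
  have g1' := abs_le.1 (g1.trans h1)
  have g2' := abs_le.1 (g2.trans h1)
  have g3 := abs_le.1 (g1.trans (h2.trans h3.le))
  rw [r1] at g2'
  rw [r2] at g1' g3
  rw [abs_lt] at s3
  refine ⟨⟨?_, ?_⟩, abs_lt.2 ⟨by linarith [g2'.1, g2'.2], by linarith [g2'.1, g2'.2]⟩⟩
  · rcases le_or_gt 0 x with hx0 | hx0
    · nlinarith [g1'.1, g1'.2]
    · rw [abs_of_neg hx0] at g3
      nlinarith [g3.1, g3.2]
  · rcases le_or_gt 0 x with hx0 | hx0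
    · rw [abs_of_nonneg hx0] at g3
      nlinarith [g3.1, g3.2]
    · nlinarith [g1'.1, g1'.2]

/-- sites whose cell meets the vertical segment at `X = 0` -/
theorem leg2 (hu : ‖u‖ = 1) (hA : 0 < A) (hdB : d < B) {y : ℝ} (hy : |y| < A)
    (hH : Hl S (Arm A B c u) d) (hd0 : 0 ≤ d) (hq : q ∈ Clm S (segment ℝ (pq c u 0 y) c)) :
    q ∈ Arm (A + d) B c u := by
  have hu0 : u ≠ 0 := by
    rintro rfl
    simp at hu
  have hc : c = pq c u 0 0 := by
    unfold pq
    have : (⟨0, 0⟩ : ℂ) = 0 := rfl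
    rw [this, mul_zero, add_zero]
  have hHs : Hl S (segment ℝ (pq c u 0 y) c) d := by
    refine hH.mono fun r hr => ?_
    rw [hc] at hr
    have hr2 : r ∈ segment ℝ (pq c u 0 y) (pq c u 0 0) := by
      convert hr using 2
      rw [← hc]
    obtain ⟨r1, t, t0, t1, r2⟩ := seg_v hu0 hr2
    rw [abs_lt] at hy
    refine ⟨⟨by rw [r1]; linarith, by rw [r1]; linarith⟩, ?_⟩
    rw [r2, abs_lt]
    constructor <;> nlinarith
  obtain ⟨r, hr, h1⟩ := near hHs hq
  have hr2 : r ∈ segment ℝ (pq c u 0 y) (pq c u 0 0) := by rwa [← hc]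
  obtain ⟨r1, t, t0, t1, r2⟩ := seg_v hu0 hr2
  obtain ⟨g1, g2⟩ := X_near hu c r q
  have g1' := abs_le.1 (g1.trans h1)
  have g2' := abs_le.1 (g2.trans h1)
  rw [r1] at g1'
  rw [r2] at g2'
  rw [abs_lt] at hy
  refine ⟨⟨by linarith [g1'.2], by linarith [g1'.1]⟩, abs_lt.2 ⟨?_, ?_⟩⟩
  · nlinarith [g2'.2]
  · nlinarith [g2'.1]

/-- **a site of the arm is joined to the core inside the arm, fat in the width only** -/
theorem arm_walk (hS : GP (S : Set ℂ)) (h3 : 3 ≤ S.card) (hu : ‖u‖ = 1) (hA : 0 < A) (hdA : d ≤ A)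
    (hdB : d < B) (hH : Hl S (Arm A B c u) d) (hs : s ∈ S) (hsA : s ∈ Arm A B c u) {q₀ : ℂ}
    (hq : q₀ ∈ S) (hqc : c ∈ voronoiCell (S : Set ℂ) q₀) :
    Pth S {z | z ∈ S ∧ z ∈ Arm (A + d) B c u} s q₀ := by
  have hd0 : 0 ≤ d := by
    obtain ⟨v, -, hv⟩ := hH s hsA
    exact (norm_nonneg _).trans hv
  set p := pq c u 0 (Y c u s) with hp
  have hC : IsPreconnected (segment ℝ s p ∪ segment ℝ p c) :=
    IsPreconnected.union p (right_mem_segment ℝ s p) (left_mem_segment ℝ p c)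
      (convex_segment s p).isPreconnected (convex_segment p c).isPreconnected
  have h1 : Pth S (Clm S (segment ℝ s p ∪ segment ℝ p c)) s q₀ :=
    pth_conn hS h3 hC (mem_clm hs (Or.inl (left_mem_segment ℝ s p)))
      ⟨hq, c, Or.inr (right_mem_segment ℝ p c), hqc⟩
  refine h1.mono ?_
  rintro z ⟨hz, r, hr, hrz⟩
  refine ⟨hz, ?_⟩
  rcases hr with hr | hr
  · exact leg1 hu hA hdA hdB hH hs hsA ⟨hz, r, hr, hrz⟩
  · exact leg2 hu hA hdB hsA.2 hH hd0 ⟨hz, r, hr, hrz⟩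

/-! ### consecutive cores -/

/-- sites whose cell meets the segment between two consecutive vertices -/
theorem core_seg (P : FPath M W) (hd0 : 0 ≤ d) (hA : 0 < A) (hdB : d < B) (h2B : h < 2 * B)
    (hBh : B ≤ h) (hH : ∀ a, Hl S (RR A B h W a) d)
    (hq : q ∈ Clm S (segment ℝ (cen h W a) (cen h W (a + 1)))) :
    q ∈ RR (A + d) B h W a ∨ q ∈ RR (A + d) B h W (a + 1) := by
  have hh : 0 < h := by linarith
  set v : ℤ × ℤ := W (a + 1) - W a with hv
  have hU : U4 v := P.step a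
  have hu : ‖cz v‖ = 1 := norm_cz hU
  have hu0 : cz v ≠ 0 := cz_ne hU
  have e0 : cen h W a = pq (cen h W a) (cz v) 0 0 := by
    unfold pq
    have : (⟨0, 0⟩ : ℂ) = 0 := rfl
    rw [this, mul_zero, add_zero]
  have e1 : cen h W (a + 1) = pq (cen h W a) (cz v) h 0 := by
    unfold pq cen
    have : (⟨h, 0⟩ : ℂ) = (h : ℂ) := rfl
    rw [this, hv, cz_sub]
    ring
  have key : ∀ r ∈ segment ℝ (cen h W a) (cen h W (a + 1)),
      Y (cen h W a) (cz v) r = 0 ∧ 0 ≤ X (cen h W a) (cz v) r ∧ X (cen h W a) (cz v) r ≤ h := by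
    intro r hr
    have hr2 : r ∈ segment ℝ (pq (cen h W a) (cz v) 0 0) (pq (cen h W a) (cz v) h 0) := by
      rw [← e0, ← e1]; exact hr
    obtain ⟨r1, t, t0, t1, r2⟩ := seg_h hu0 hr2
    refine ⟨r1, ?_, ?_⟩ <;> rw [r2] <;> nlinarith
  have XY' : ∀ r, X (cen h W (a + 1)) (cz (W a - W (a + 1))) r = h - X (cen h W a) (cz v) r ∧
      Y (cen h W (a + 1)) (cz (W a - W (a + 1))) r = - Y (cen h W a) (cz v) r := by
    intro r
    have e2 : cz (W a - W (a + 1)) = - cz v := by rw [← cz_neg, hv, neg_sub]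
    have e3 : (r - cen h W (a + 1)) / (- cz v) = (h : ℂ) - (r - cen h W a) / cz v := by
      have e4 : cen h W (a + 1) = cen h W a + h * cz v := by
        unfold cen
        rw [hv, cz_sub]
        ring
      rw [e4]
      field_simp
      ring
    unfold X Y
    rw [e2, e3]
    simp
  have hHs : Hl S (segment ℝ (cen h W a) (cen h W (a + 1))) d := by
    intro r hr
    obtain ⟨k1, k2, k3⟩ := key r hr
    rcases lt_or_ge (X (cen h W a) (cz v) r) B with hl | hl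
    · refine hH a r (Or.inr ⟨⟨by linarith, hl⟩, ?_⟩)
      rw [k1, abs_zero]; exact hA
    · refine hH (a + 1) r (Or.inl ?_)
      rw [show a + 1 - 1 = a by ring]
      refine ⟨⟨?_, ?_⟩, ?_⟩
      · rw [(XY' r).1]; linarith
      · rw [(XY' r).1]; linarith
      · rw [(XY' r).2, k1, neg_zero, abs_zero]; exact hA
  obtain ⟨r, hr, h1⟩ := near hHs hq
  obtain ⟨k1, k2, k3⟩ := key r hr
  obtain ⟨g1, g2⟩ := X_near hu (cen h W a) r q
  have g1' := abs_le.1 (g1.trans h1)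
  have g2' := abs_le.1 (g2.trans h1)
  rw [k1] at g2'
  rcases lt_or_ge (X (cen h W a) (cz v) q) B with hl | hl
  · left
    exact Or.inr ⟨⟨by linarith [g1'.2], hl⟩, abs_lt.2 ⟨by linarith [g2'.2], by linarith [g2'.1]⟩⟩
  · right
    refine Or.inl ?_
    rw [show a + 1 - 1 = a by ring]
    refine ⟨⟨?_, ?_⟩, ?_⟩
    · rw [(XY' q).1]; linarith [g1'.1]
    · rw [(XY' q).1]; linarith
    · rw [(XY' q).2, abs_neg]
      exact abs_lt.2 ⟨by linarith [g2'.2], by linarith [g2'.1]⟩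

/-! ### a run of tiles -/

/-- the fat run of the tiles `a ≤ k < b` -/
def Wd (A B h : ℝ) (W : ℤ → ℤ × ℤ) (a b : ℤ) : Set ℂ := {z | ∃ k, a ≤ k ∧ k < b ∧ z ∈ RR A B h W k}


theorem core_walk (P : FPath M W) (hS : GP (S : Set ℂ)) (h3 : 3 ≤ S.card) (hd0 : 0 ≤ d) (hA : 0 < A)
    (hdB : d < B) (h2B : h < 2 * B) (hBh : B ≤ h) (hH : ∀ a, Hl S (RR A B h W a) d) {q₀ q₁ : ℂ}
    (hq : q₀ ∈ S) (hqc : cen h W a ∈ voronoiCell (S : Set ℂ) q₀) (hq' : q₁ ∈ S)
    (hqc' : cen h W (a + 1) ∈ voronoiCell (S : Set ℂ) q₁) :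
    Pth S {z | z ∈ S ∧ (z ∈ RR (A + d) B h W a ∨ z ∈ RR (A + d) B h W (a + 1))} q₀ q₁ := by
  have h1 := pth_conn hS h3 (convex_segment (𝕜 := ℝ) (cen h W a) (cen h W (a + 1))).isPreconnected
    ⟨hq, _, left_mem_segment ℝ _ _, hqc⟩ ⟨hq', _, right_mem_segment ℝ _ _, hqc'⟩
  exact h1.mono fun z hz => ⟨hz.1, core_seg P hd0 hA hdB h2B hBh hH hz⟩

/-- a site of a tile is joined to the core of the tile -/
theorem tile_walk (P : FPath M W) (hS : GP (S : Set ℂ)) (h3 : 3 ≤ S.card) (hA : 0 < A) (hdA : d ≤ A)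
    (hdB : d < B) (hH : ∀ a, Hl S (RR A B h W a) d) (hs : s ∈ S) (hsA : s ∈ RR A B h W a) {q₀ : ℂ}
    (hq : q₀ ∈ S) (hqc : cen h W a ∈ voronoiCell (S : Set ℂ) q₀) :
    Pth S {z | z ∈ S ∧ z ∈ RR (A + d) B h W a} s q₀ := by
  rcases hsA with h1 | h1
  · exact (arm_walk hS h3 (norm_cz (P.step' a)) hA hdA hdB
      ((hH a).mono Set.subset_union_left) hs h1 hq hqc).mono fun z hz => ⟨hz.1, Or.inl hz.2⟩
  · exact (arm_walk hS h3 (norm_cz (P.step a)) hA hdA hdB
      ((hH a).mono Set.subset_union_right) hs h1 hq hqc).mono fun z hz => ⟨hz.1, Or.inr hz.2⟩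

/-- **the sites of a run of tiles are joined inside the fat run** -/
theorem wd_con (P : FPath M W) (hS : GP (S : Set ℂ)) (h3 : 3 ≤ S.card) (hd0 : 0 ≤ d) (hA : 0 < A)
    (hdA : d ≤ A) (hdB : d < B) (h2B : h < 2 * B) (hBh : B ≤ h) (hH : ∀ a, Hl S (RR A B h W a) d)
    {s t : ℂ} (hs : s ∈ S) (hsA : s ∈ Wd A B h W a b) (ht : t ∈ S) (htA : t ∈ Wd A B h W a b) :
    Pth S {z | z ∈ S ∧ z ∈ Wd (A + d) B h W a b} s t := by
  have hne : S.Nonempty := ⟨s, hs⟩
  have hc : ∀ k, ∃ q₀ ∈ S, cen h W k ∈ voronoiCell (S : Set ℂ) q₀ := fun k =>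
    Crest.Agent.R143.G6Wx723.exists_cell hne _
  choose f hf hf' using hc
  have core : ∀ (n : ℕ) (k : ℤ), a ≤ k → k + n < b →
      Pth S {z | z ∈ S ∧ z ∈ Wd (A + d) B h W a b} (f k) (f (k + n)) := by
    intro n
    induction n with
    | zero =>
      intro k hk hkb
      have h1 := core_walk (a := k) P hS h3 hd0 hA hdB h2B hBh hH (hf k) (hf' k) (hf (k + 1))
        (hf' (k + 1))
      rw [show k + ((0 : ℕ) : ℤ) = k by push_cast; ring]
      refine Pth.refl ⟨hf k, k, hk, by push_cast at hkb; linarith, ?_⟩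
      have h2 : f k ∈ Clm S (segment ℝ (cen h W k) (cen h W k)) :=
        ⟨hf k, _, left_mem_segment ℝ _ _, hf' k⟩
      -- the core is near the vertex
      have hcA : cen h W k ∈ RR A B h W k := by
        right
        have e : cen h W k = pq (cen h W k) (cz (W (k + 1) - W k)) 0 0 := by
          unfold pq
          have : (⟨0, 0⟩ : ℂ) = 0 := rfl
          rw [this, mul_zero, add_zero]
        obtain ⟨x1, x2⟩ := X_pq (cz_ne (P.step k)) (cen h W k) 0 0
        rw [← e] at x1 x2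
        refine ⟨⟨by rw [x1]; linarith, by rw [x1]; linarith⟩, by rw [x2, abs_zero]; exact hA⟩
      obtain ⟨v, hv, hv'⟩ := hH k _ hcA
      have h5 : ‖cen h W k - f k‖ ≤ d := (hf' k v (Finset.mem_coe.2 hv)).trans hv'
      obtain ⟨g1, g2⟩ := X_near (norm_cz (P.step k)) (cen h W k) (cen h W k) (f k)
      have g1' := abs_le.1 (g1.trans h5)
      have g2' := abs_le.1 (g2.trans h5)
      have z1 : X (cen h W k) (cz (W (k + 1) - W k)) (cen h W k) = 0 := by unfold X; simp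
      have z2 : Y (cen h W k) (cz (W (k + 1) - W k)) (cen h W k) = 0 := by unfold Y; simp
      rw [z1] at g1'
      rw [z2] at g2'
      exact Or.inr ⟨⟨by linarith [g1'.2], by linarith [g1'.1]⟩,
        abs_lt.2 ⟨by linarith [g2'.2], by linarith [g2'.1]⟩⟩
    | succ n ih =>
      intro k hk hkb
      push_cast at hkb
      have h1 := ih k hk (by linarith)
      have h2 := core_walk (a := k + n) P hS h3 hd0 hA hdB h2B hBh hH (hf _) (hf' _)
        (hf (k + n + 1)) (hf' _)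
      rw [show k + ((n + 1 : ℕ) : ℤ) = k + n + 1 by push_cast; ring]
      refine h1.trans (h2.mono ?_)
      rintro z ⟨hz, h4 | h4⟩
      · exact ⟨hz, _, by linarith [Int.natCast_nonneg n], by linarith, h4⟩
      · exact ⟨hz, _, by linarith [Int.natCast_nonneg n], by linarith, h4⟩
  have core' : ∀ k l, a ≤ k → k < b → a ≤ l → l < b →
      Pth S {z | z ∈ S ∧ z ∈ Wd (A + d) B h W a b} (f k) (f l) := by
    have aux : ∀ k l, a ≤ k → k ≤ l → l < b →
        Pth S {z | z ∈ S ∧ z ∈ Wd (A + d) B h W a b} (f k) (f l) := by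
      intro k l h1 h2 h4
      obtain ⟨n, hn⟩ := Int.eq_ofNat_of_zero_le (sub_nonneg.2 h2)
      have e : l = k + (n : ℤ) := by rw [← hn]; ring
      rw [e]
      exact core n k h1 (by rw [← e]; exact h4)
    intro k l h1 h2 h4 h5
    rcases le_total k l with h6 | h6
    · exact aux k l h1 h6 h5
    · exact (aux l k h4 h6 h2).symm
  obtain ⟨k, k1, k2, k3⟩ := hsA
  obtain ⟨l, l1, l2, l3⟩ := htA
  have w1 := tile_walk P hS h3 hA hdA hdB hH hs k3 (hf k) (hf' k)
  have w2 := tile_walk P hS h3 hA hdA hdB hH ht l3 (hf l) (hf' l)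
  refine ((w1.mono ?_).trans (core' k l k1 k2 l1 l2)).trans (w2.symm.mono ?_)
  · exact fun z hz => ⟨hz.1, k, k1, k2, hz.2⟩
  · exact fun z hz => ⟨hz.1, l, l1, l2, hz.2⟩

/-! ### the fat run does not meet the rest of the strip -/

/-- a point of the fat tile `a` in the next tile is in the tile `a` -/
theorem fat_next (P : FPath M W) (hA : 0 < A) (hd0 : 0 ≤ d) (hAB : A + d ≤ B) (hh : A + B < h)
    (hBh : B ≤ h) (hs : s ∈ RR (A + d) B h W a) (hs' : s ∈ RR A B h W (a + 1)) :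
    s ∈ RR A B h W a := by
  obtain ⟨h1, -⟩ := left P hAB hs
  obtain ⟨h4, h5⟩ := right P (by linarith) hs'
  exact win_left P hA hBh (abs_lt.2 ⟨by linarith, h1⟩) (h5 (by linarith))

/-- a point of the fat tile `a + 1` in the tile `a` is in the tile `a + 1` -/
theorem fat_prev (P : FPath M W) (hA : 0 < A) (hd0 : 0 ≤ d) (hAB : A + d ≤ B) (hh : A + B < h)
    (hBh : B ≤ h) (hs : s ∈ RR (A + d) B h W (a + 1)) (hs' : s ∈ RR A B h W a) :
    s ∈ RR A B h W (a + 1) := by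
  obtain ⟨h1, -⟩ := right P hAB hs
  obtain ⟨h4, h5⟩ := left P (by linarith) hs'
  exact win_right P hA hBh (abs_lt.2 ⟨by linarith, h4⟩) (h5 (by linarith))

/-- **a point of the fat run in another tile is in the run** (tiles `j` not in `[a, b)` mod `M`) -/
theorem wd_off (P : FPath M W) (hA : 0 < A) (hd0 : 0 ≤ d) (hAB : A + d ≤ B) (hh : A + d + B < h)
    (hs : s ∈ Wd (A + d) B h W a b) {j : ℤ} (hj : s ∈ RR A B h W j) :
    s ∈ Wd A B h W a b := by
  have hBh : B ≤ h := by linarith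
  obtain ⟨k, k1, k2, k3⟩ := hs
  by_cases h0 : (M : ℤ) ∣ j - k
  · -- the same tile
    refine ⟨k, k1, k2, ?_⟩
    obtain ⟨m, hm⟩ := h0
    have hp : ∀ (m : ℤ) (a : ℤ), RR A B h W (a + m * M) = RR A B h W a := by
      intro m a
      induction m using Int.induction_on with
      | zero => rw [zero_mul, add_zero]
      | succ m ih => rw [show a + ((m : ℤ) + 1) * M = a + m * M + M by ring, RR_per P, ih]
      | pred m ih =>
        rw [← ih, ← RR_per P A B h (a + (-(m : ℤ) - 1) * M)]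
        congr 1
        ring
    rw [← hp m k, show k + m * (M : ℤ) = j by rw [mul_comm, ← hm]; ring]
    exact hj
  by_cases h1 : (M : ℤ) ∣ j - (k + 1)
  · refine ⟨k, k1, k2, ?_⟩
    obtain ⟨m, hm⟩ := h1
    have hp : ∀ (m : ℤ) (a : ℤ), RR A B h W (a + m * M) = RR A B h W a := by
      intro m a
      induction m using Int.induction_on with
      | zero => rw [zero_mul, add_zero]
      | succ m ih => rw [show a + ((m : ℤ) + 1) * M = a + m * M + M by ring, RR_per P, ih]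
      | pred m ih =>
        rw [← ih, ← RR_per P A B h (a + (-(m : ℤ) - 1) * M)]
        congr 1
        ring
    have hj' : s ∈ RR A B h W (k + 1) := by
      rw [← hp m (k + 1), show k + 1 + m * (M : ℤ) = j by rw [mul_comm, ← hm]; ring]
      exact hj
    exact fat_next P hA hd0 hAB (by linarith) hBh k3 hj'
  by_cases h2 : (M : ℤ) ∣ j - (k - 1)
  · refine ⟨k, k1, k2, ?_⟩
    obtain ⟨m, hm⟩ := h2
    have hp : ∀ (m : ℤ) (a : ℤ), RR A B h W (a + m * M) = RR A B h W a := by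
      intro m a
      induction m using Int.induction_on with
      | zero => rw [zero_mul, add_zero]
      | succ m ih => rw [show a + ((m : ℤ) + 1) * M = a + m * M + M by ring, RR_per P, ih]
      | pred m ih =>
        rw [← ih, ← RR_per P A B h (a + (-(m : ℤ) - 1) * M)]
        congr 1
        ring
    have hj' : s ∈ RR A B h W (k - 1) := by
      rw [← hp m (k - 1), show k - 1 + m * (M : ℤ) = j by rw [mul_comm, ← hm]; ring]
      exact hj
    have k3' : s ∈ RR (A + d) B h W (k - 1 + 1) := by rwa [sub_add_cancel]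
    have := fat_prev P hA hd0 hAB (by linarith) hBh k3' hj'
    rwa [sub_add_cancel] at this
  · exfalso
    exact Set.disjoint_left.1 (disj P (by linarith) hAB (by linarith) h0 h1 h2) k3
      (RR_mono (by linarith) le_rfl h W j hj)

end Crest.Agent.R143.ZnQx323
end
end

-- ▼ part R143/ZnE_881
section

/-!
# Row 143 (S0194), CorrI, zones of the corridor: the end tiles (helper881)

A site of an end tile which is not in the inner tiles is joined to the site of the centre of the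
end tile, inside the fat end tile and off the inner tiles.

* `arm_walk` : two arms from `c`, direction `u` of the neighbour tile: a site `s` of the arms with
  `X c u s ≤ L` is joined to the site of the cell of `c` by sites of the arms enlarged by `d` with
  `X c u ≤ L`
* `west_walk` (W1), `east_walk` (E1) : the end tiles `o` and `a` in the frames of their inner gates
* `off_mid` : a site of the end tile off the inner tiles is on the outer side of the cut line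
-/

set_option autoImplicit false

noncomputable section

open scoped Classical

namespace Crest.Agent.R143.ZnEx881

open Set
open Crest.ProbabilityR.Voronoi
open Crest.Agent.R143.B0x346 Crest.Agent.R143.DelGx806 Crest.Agent.R143.B0Dx346
open Crest.Agent.R143.RE0x723 (Pth)
open Crest.Agent.R143.Segx991 (Clm Hl pth_conn mem_clm)
open Crest.Agent.R143.Gatex838 (X Y)
open Crest.Agent.R143.TileRx228
open Crest.Agent.R143.Crossx228 (abs_X_sub abs_Y_sub)

variable {S : Finset ℂ} {A B d L h : ℝ} {c s co : ℂ} {u v : ℤ × ℤ} {M : ℕ} {W : ℤ → ℤ × ℤ}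
  {o a : ℤ}

/-! ### coordinates -/

theorem X_comb (c e : ℂ) {p q : ℝ} (hpq : p + q = 1) (s t : ℂ) :
    X c e (p • s + q • t) = p * X c e s + q * X c e t := by
  have h : (p • s + q • t - c) / e = (p : ℂ) * ((s - c) / e) + (q : ℂ) * ((t - c) / e) := by
    have h1 : (1 : ℂ) = (p : ℂ) + (q : ℂ) := by exact_mod_cast hpq.symm
    have h2 : p • s + q • t - c = (p : ℂ) * (s - c) + (q : ℂ) * (t - c) := by
      rw [Complex.real_smul, Complex.real_smul]
      linear_combination (-c) * h1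
    rw [h2, add_div, mul_div_assoc, mul_div_assoc]
  unfold X
  rw [h, Complex.add_re, Complex.re_ofReal_mul, Complex.re_ofReal_mul]

theorem Y_comb (c e : ℂ) {p q : ℝ} (hpq : p + q = 1) (s t : ℂ) :
    Y c e (p • s + q • t) = p * Y c e s + q * Y c e t := by
  have h : (p • s + q • t - c) / e = (p : ℂ) * ((s - c) / e) + (q : ℂ) * ((t - c) / e) := by
    have h1 : (1 : ℂ) = (p : ℂ) + (q : ℂ) := by exact_mod_cast hpq.symm
    have h2 : p • s + q • t - c = (p : ℂ) * (s - c) + (q : ℂ) * (t - c) := by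
      rw [Complex.real_smul, Complex.real_smul]
      linear_combination (-c) * h1
    rw [h2, add_div, mul_div_assoc, mul_div_assoc]
  unfold Y
  rw [h, Complex.add_im, Complex.im_ofReal_mul, Complex.im_ofReal_mul]

theorem XY_self (c e : ℂ) : X c e c = 0 ∧ Y c e c = 0 := by
  unfold X Y
  simp

theorem arm_conv (A B : ℝ) (c e : ℂ) : Convex ℝ (Arm A B c e) := by
  rintro x ⟨⟨x1, x2⟩, x3⟩ y ⟨⟨y1, y2⟩, y3⟩ p q hp hq hpq
  obtain ⟨x4, x5⟩ := abs_lt.1 x3
  obtain ⟨y4, y5⟩ := abs_lt.1 y3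
  have key : ∀ {f g m : ℝ}, f < m → g < m → p * f + q * g < m := by
    intro f g m hf hg
    rcases hp.eq_or_lt with h0 | h0
    · subst h0
      have : q = 1 := by linarith
      subst this
      linarith
    · have h1 := mul_lt_mul_of_pos_left hf h0
      have h2 := mul_le_mul_of_nonneg_left hg.le hq
      have h3 : p * m + q * m = m := by rw [← add_mul, hpq, one_mul]
      linarith
  have key' : ∀ {f g m : ℝ}, m < f → m < g → m < p * f + q * g := by
    intro f g m hf hg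
    have := key (f := -f) (g := -g) (m := -m) (by linarith) (by linarith)
    linarith
  refine ⟨⟨?_, ?_⟩, abs_lt.2 ⟨?_, ?_⟩⟩
  · rw [X_comb c e hpq]; exact key' x1 y1
  · rw [X_comb c e hpq]; exact key x2 y2
  · rw [Y_comb c e hpq]; exact key' x4 y4
  · rw [Y_comb c e hpq]; exact key x5 y5

theorem c_arm (hA : 0 < A) (hB : 0 < B) (c e : ℂ) : c ∈ Arm A B c e := by
  obtain ⟨h1, h2⟩ := XY_self c e
  refine ⟨⟨?_, ?_⟩, ?_⟩
  · rw [h1]; linarith
  · rw [h1]; exact hB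
  · rw [h2, abs_zero]; exact hA

/-- a point within `d` of an arm -/
theorem arm_fat {e z q : ℂ} (he : ‖e‖ = 1) (hz : z ∈ Arm A B c e) (hq : ‖z - q‖ ≤ d) :
    q ∈ Arm (A + d) (B + d) c e := by
  obtain ⟨⟨z1, z2⟩, z3⟩ := hz
  obtain ⟨z4, z5⟩ := abs_lt.1 z3
  obtain ⟨x1, x2⟩ := abs_le.1 ((abs_X_sub c he z q).trans hq)
  obtain ⟨y1, y2⟩ := abs_le.1 ((abs_Y_sub c he z q).trans hq)
  exact ⟨⟨by linarith, by linarith⟩, abs_lt.2 ⟨by linarith, by linarith⟩⟩

/-! ### the walk -/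

/-- **from a site of the two arms to the centre, on the near side of the line `X = L`** -/
theorem arm_walk (hS : GP (S : Set ℂ)) (h3 : 3 ≤ S.card) (hu : U4 u) (hv : U4 v) (huv : v ≠ u)
    (hA : 0 < A) (hAB : A ≤ B) (hL : A + d ≤ L)
    (hd : ∀ z ∈ Arm A B c (cz u) ∪ Arm A B c (cz v), ∃ s ∈ S, ‖z - s‖ ≤ d) (hs : s ∈ S)
    (hsA : s ∈ Arm A B c (cz u) ∪ Arm A B c (cz v)) (hsL : X c (cz u) s ≤ L) (hco : co ∈ S)
    (hcc : c ∈ voronoiCell (S : Set ℂ) co) :
    Pth S {q | q ∈ S ∧ q ∈ Arm (A + d) (B + d) c (cz u) ∪ Arm (A + d) (B + d) c (cz v) ∧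
      X c (cz u) q ≤ L} s co := by
  have hB : 0 < B := by linarith
  have nu := norm_cz hu
  have nv := norm_cz hv
  -- the site of a cell is near the point
  have near : ∀ z ∈ Arm A B c (cz u) ∪ Arm A B c (cz v), ∀ q, z ∈ voronoiCell (S : Set ℂ) q →
      ‖z - q‖ ≤ d := fun z hz q hq => by
    obtain ⟨s, hs, h1⟩ := hd z hz
    exact (hq s (Finset.mem_coe.2 hs)).trans h1
  have d0 : 0 ≤ d := (norm_nonneg _).trans (near c (Or.inl (c_arm hA hB c _)) co hcc)
  -- a connected set from the site to the centre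
  suffices H : ∃ C : Set ℂ, IsPreconnected C ∧ s ∈ C ∧ c ∈ C ∧
      ∀ z ∈ C, z ∈ Arm A B c (cz u) ∪ Arm A B c (cz v) ∧
        (∀ q, z ∈ voronoiCell (S : Set ℂ) q → X c (cz u) q ≤ L) by
    obtain ⟨C, hC, hsC, hcC, key⟩ := H
    have hp := pth_conn hS h3 hC (mem_clm hs hsC) (y := co) ⟨hco, c, hcC, hcc⟩
    have sub : Clm S C ⊆ {q | q ∈ S ∧ q ∈ Arm (A + d) (B + d) c (cz u) ∪
        Arm (A + d) (B + d) c (cz v) ∧ X c (cz u) q ≤ L} := by
      rintro q ⟨hq, z, hzC, hz⟩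
      obtain ⟨k1, k2⟩ := key z hzC
      refine ⟨hq, ?_, k2 q hz⟩
      have h1 := near z k1 q hz
      rcases k1 with k1 | k1
      · exact Or.inl (arm_fat nu k1 h1)
      · exact Or.inr (arm_fat nv k1 h1)
    exact ⟨sub hp.1, Relation.ReflTransGen.mono (fun a b hab => ⟨hab.1, sub hab.2⟩) _ _ hp.2⟩
  -- points with small abscissa
  have small : ∀ z ∈ Arm A B c (cz u) ∪ Arm A B c (cz v), X c (cz u) z ≤ A →
      ∀ q, z ∈ voronoiCell (S : Set ℂ) q → X c (cz u) q ≤ L := fun z hz h1 q hq => by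
    have h2 := (abs_le.1 ((abs_X_sub c nu z q).trans (near z hz q hq))).1
    linarith
  by_cases hsv : s ∈ Arm A B c (cz v)
  · refine ⟨segment ℝ s c, (convex_segment s c).isPreconnected, left_mem_segment ℝ s c,
      right_mem_segment ℝ s c, fun z hz => ?_⟩
    have h1 : z ∈ Arm A B c (cz v) := (arm_conv A B c (cz v)).segment_subset hsv
      (c_arm hA hB c _) hz
    exact ⟨Or.inr h1, small z (Or.inr h1) (arm_frame hu hv huv h1).le⟩
  have hsu : s ∈ Arm A B c (cz u) := hsA.resolve_right hsv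
  rcases le_or_gt (X c (cz u) s) 0 with hx | hx
  · refine ⟨segment ℝ s c, (convex_segment s c).isPreconnected, left_mem_segment ℝ s c,
      right_mem_segment ℝ s c, fun z hz => ?_⟩
    have h1 : z ∈ Arm A B c (cz u) := (arm_conv A B c (cz u)).segment_subset hsu
      (c_arm hA hB c _) hz
    refine ⟨Or.inl h1, small z (Or.inl h1) ?_⟩
    obtain ⟨p, q, hp, hq, hpq, rfl⟩ := hz
    rw [X_comb c _ hpq, (XY_self c _).1, mul_zero, add_zero]
    nlinarith
  · -- the foot of `s` on the line through the centre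
    set x := X c (cz u) s with hxd
    set p1 : ℂ := s - (x : ℂ) * cz u with hp1
    have e1 : (p1 - c) / cz u = (s - c) / cz u - x := by
      rw [hp1, show s - (x : ℂ) * cz u - c = (s - c) - (x : ℂ) * cz u by ring, sub_div,
        mul_div_assoc, div_self (cz_ne hu), mul_one]
    have eX : X c (cz u) p1 = 0 := by
      show ((p1 - c) / cz u).re = 0
      rw [e1, Complex.sub_re, Complex.ofReal_re]
      exact sub_self x
    have eY : Y c (cz u) p1 = Y c (cz u) s := by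
      show ((p1 - c) / cz u).im = _
      rw [e1, Complex.sub_im, Complex.ofReal_im, sub_zero]
      rfl
    have hp1A : p1 ∈ Arm A B c (cz u) := by
      refine ⟨⟨?_, ?_⟩, ?_⟩
      · rw [eX]; linarith
      · rw [eX]; exact hB
      · rw [eY]; exact hsu.2
    have hcA : c ∈ Arm A B c (cz u) := c_arm hA hB c _
    refine ⟨segment ℝ s p1 ∪ segment ℝ p1 c, ?_, Or.inl (left_mem_segment ℝ _ _),
      Or.inr (right_mem_segment ℝ _ _), ?_⟩
    · exact IsPreconnected.union p1 (right_mem_segment ℝ _ _) (left_mem_segment ℝ _ _)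
        (convex_segment _ _).isPreconnected (convex_segment _ _).isPreconnected
    · rintro z (hz | hz)
      · have h1 : z ∈ Arm A B c (cz u) := (arm_conv A B c (cz u)).segment_subset hsu hp1A hz
        refine ⟨Or.inl h1, fun q hq => ?_⟩
        obtain ⟨p, r, hp, hr, hpr, rfl⟩ := hz
        have h2 := hq s (Finset.mem_coe.2 hs)
        have h4 : p • s + r • p1 - s = -((r * x : ℝ) : ℂ) * cz u := by
          have h5 : (1 : ℂ) = (p : ℂ) + (r : ℂ) := by exact_mod_cast hpr.symm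
          rw [hp1, Complex.real_smul, Complex.real_smul]
          push_cast
          linear_combination (-s) * h5
        have h6 : ‖p • s + r • p1 - s‖ = r * x := by
          rw [h4, norm_mul, nu, mul_one, norm_neg, Complex.norm_real, Real.norm_eq_abs,
            abs_of_nonneg (mul_nonneg hr hx.le)]
        have h7 := (abs_le.1 ((abs_X_sub c nu (p • s + r • p1) q).trans (h2.trans h6.le))).1
        rw [X_comb c _ hpr, eX, mul_zero, add_zero] at h7
        have h8 : p * x + r * x = x := by rw [← add_mul, hpr, one_mul]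
        change -(r * x) ≤ p * x - X c (cz u) q at h7
        linarith
      · have h1 : z ∈ Arm A B c (cz u) := (arm_conv A B c (cz u)).segment_subset hp1A hcA hz
        refine ⟨Or.inl h1, small z (Or.inl h1) ?_⟩
        obtain ⟨p, r, hp, hr, hpr, rfl⟩ := hz
        rw [X_comb c _ hpr, (XY_self c _).1, eX, mul_zero, mul_zero, add_zero]
        exact hA.le

/-! ### the end tiles -/

theorem X_west (F : FPath M W) (h : ℝ) (o : ℤ) (s : ℂ) :
    X (gz h W (o + 1)) (ge W (o + 1)) s = X (cen h W o) (cz (W (o + 1) - W o)) s - h / 2 := by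
  rw [(XY_out F h o s).1]
  unfold ge
  rw [add_sub_cancel_right]

theorem X_east (F : FPath M W) (h : ℝ) (a : ℤ) (s : ℂ) :
    X (gz h W a) (ge W a) s = h / 2 - X (cen h W a) (cz (W (a - 1) - W a)) s := by
  have e : ge W a = -cz (W (a - 1) - W a) := by
    unfold ge
    rw [← cz_neg, neg_sub]
  rw [(XY_in F h a s).1, e, (XY_neg _ _ _).1]
  ring

/-- **(W1)** the tile `o` on the outer side of the cut line of the tile `o + 1` -/
theorem west_walk (hS : GP (S : Set ℂ)) (h3 : 3 ≤ S.card) (F : FPath M W) (hA : 0 < A)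
    (hAB : A ≤ B) (hh : A + B + d ≤ h) (hd : ∀ z ∈ RR A B h W o, ∃ s ∈ S, ‖z - s‖ ≤ d)
    (hs : s ∈ S) (hsR : s ∈ RR A B h W o)
    (hsX : X (gz h W (o + 1)) (ge W (o + 1)) s ≤ h / 2 - B) (hco : co ∈ S)
    (hcc : cen h W o ∈ voronoiCell (S : Set ℂ) co) :
    Pth S {q | q ∈ S ∧ q ∈ RR (A + d) (B + d) h W o ∧
      X (gz h W (o + 1)) (ge W (o + 1)) q ≤ h / 2 - B} s co := by
  rw [X_west F] at hsX
  have h1 := arm_walk (L := h - B) hS h3 (F.step o) (F.step' o) (F.ne o) hA hAB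
    (by linarith) (fun z hz => hd z hz.symm) hs hsR.symm (by linarith) hco hcc
  have sub : {q | q ∈ S ∧ q ∈ Arm (A + d) (B + d) (cen h W o) (cz (W (o + 1) - W o)) ∪
      Arm (A + d) (B + d) (cen h W o) (cz (W (o - 1) - W o)) ∧
      X (cen h W o) (cz (W (o + 1) - W o)) q ≤ h - B} ⊆ {q | q ∈ S ∧
        q ∈ RR (A + d) (B + d) h W o ∧ X (gz h W (o + 1)) (ge W (o + 1)) q ≤ h / 2 - B} := by
    rintro q ⟨h2, h3, h4⟩
    refine ⟨h2, h3.symm, ?_⟩
    rw [X_west F]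
    linarith
  exact ⟨sub h1.1, Relation.ReflTransGen.mono (fun a b hab => ⟨hab.1, sub hab.2⟩) _ _ h1.2⟩

/-- **(E1)** the tile `a` on the outer side of the cut line of the tile `a - 1` -/
theorem east_walk (hS : GP (S : Set ℂ)) (h3 : 3 ≤ S.card) (F : FPath M W) (hA : 0 < A)
    (hAB : A ≤ B) (hh : A + B + d ≤ h) (hd : ∀ z ∈ RR A B h W a, ∃ s ∈ S, ‖z - s‖ ≤ d)
    (hs : s ∈ S) (hsR : s ∈ RR A B h W a)
    (hsX : B - h / 2 ≤ X (gz h W a) (ge W a) s) (hco : co ∈ S)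
    (hcc : cen h W a ∈ voronoiCell (S : Set ℂ) co) :
    Pth S {q | q ∈ S ∧ q ∈ RR (A + d) (B + d) h W a ∧
      B - h / 2 ≤ X (gz h W a) (ge W a) q} s co := by
  rw [X_east F] at hsX
  have h1 := arm_walk (L := h - B) hS h3 (F.step' a) (F.step a) (F.ne a).symm hA hAB
    (by linarith) (fun z hz => hd z hz) hs hsR (by linarith) hco hcc
  have sub : {q | q ∈ S ∧ q ∈ Arm (A + d) (B + d) (cen h W a) (cz (W (a - 1) - W a)) ∪
      Arm (A + d) (B + d) (cen h W a) (cz (W (a + 1) - W a)) ∧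
      X (cen h W a) (cz (W (a - 1) - W a)) q ≤ h - B} ⊆ {q | q ∈ S ∧
        q ∈ RR (A + d) (B + d) h W a ∧ B - h / 2 ≤ X (gz h W a) (ge W a) q} := by
    rintro q ⟨h2, h3, h4⟩
    refine ⟨h2, h3, ?_⟩
    rw [X_east F]
    linarith
  exact ⟨sub h1.1, Relation.ReflTransGen.mono (fun a b hab => ⟨hab.1, sub hab.2⟩) _ _ h1.2⟩

/-- a point of the tile `o` off the tile `o + 1` -/
theorem off_next (F : FPath M W) (hA : 0 < A) (hAB : A ≤ B) (hh : A + B ≤ h)
    (hs : s ∈ RR A B h W o) (hn : s ∉ RR A B h W (o + 1)) :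
    X (gz h W (o + 1)) (ge W (o + 1)) s ≤ h / 2 - B := by
  by_contra hc
  push Not at hc
  obtain ⟨h1, h2⟩ := left F hAB hs
  exact hn (win_right F hA (by linarith) (abs_lt.2 ⟨by linarith, h1⟩) (h2 (by linarith)))

/-- a point of the tile `a` off the tile `a - 1` -/
theorem off_prev (F : FPath M W) (hA : 0 < A) (hAB : A ≤ B) (hh : A + B ≤ h)
    (hs : s ∈ RR A B h W a) (hn : s ∉ RR A B h W (a - 1)) :
    B - h / 2 ≤ X (gz h W a) (ge W a) s := by
  by_contra hc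
  push Not at hc
  obtain ⟨h1, h2⟩ := right F hAB hs
  apply hn
  have e : a - 1 + 1 = a := by ring
  refine win_left F hA (by linarith) ?_ ?_
  · rw [e]; exact abs_lt.2 ⟨by linarith, hc⟩
  · rw [e]; exact h2 (by linarith)

/-- the inner tiles `o + 1, .., a - 1` -/
def Mid (A B h : ℝ) (W : ℤ → ℤ × ℤ) (o a : ℤ) : Set ℂ := {s | ∃ k, o < k ∧ k < a ∧ s ∈ RR A B h W k}

/-- a point on the outer side in the fat tile `o` is off the inner tiles -/
theorem mid_west (F : FPath M W) (hA : 0 < A) (hAB : A ≤ B) (hd0 : 0 ≤ d)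
    (hh : A + B + 2 * d < h) (hM : a - o < M) (hs : s ∈ RR (A + d) (B + d) h W o)
    (hx : X (gz h W (o + 1)) (ge W (o + 1)) s ≤ h / 2 - B) : s ∉ Mid A B h W o a := by
  rintro ⟨k, hk1, hk2, hk⟩
  rcases (show k = o + 1 ∨ o + 2 ≤ k by omega) with rfl | hk3
  · linarith [(right F hAB hk).1]
  · have hk' : s ∈ RR (A + d) (B + d) h W k := RR_mono (by linarith) (by linarith) _ _ _ hk
    refine Set.disjoint_left.1 (disj F (by linarith) (by linarith) (by linarith) ?_ ?_ ?_) hs hk'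
    · exact fun hc => by have := Int.le_of_dvd (by omega) hc; omega
    · exact fun hc => by have := Int.le_of_dvd (by omega) hc; omega
    · exact fun hc => by have := Int.le_of_dvd (by omega) hc; omega

/-- a point on the outer side in the fat tile `a` is off the inner tiles -/
theorem mid_east (F : FPath M W) (hA : 0 < A) (hAB : A ≤ B) (hd0 : 0 ≤ d)
    (hh : A + B + 2 * d < h) (hM : a - o < M) (hs : s ∈ RR (A + d) (B + d) h W a)
    (hx : B - h / 2 ≤ X (gz h W a) (ge W a) s) : s ∉ Mid A B h W o a := by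
  rintro ⟨k, hk1, hk2, hk⟩
  rcases (show k = a - 1 ∨ k ≤ a - 2 by omega) with rfl | hk3
  · have := (left F hAB hk).1
    rw [sub_add_cancel] at this
    linarith
  · have hk' : s ∈ RR (A + d) (B + d) h W k := RR_mono (by linarith) (by linarith) _ _ _ hk
    refine Set.disjoint_left.1 (disj F (by linarith) (by linarith) (by linarith) ?_ ?_ ?_) hk' hs
    · exact fun hc => by have := Int.le_of_dvd (by omega) hc; omega
    · exact fun hc => by have := Int.le_of_dvd (by omega) hc; omega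
    · exact fun hc => by have := Int.le_of_dvd (by omega) hc; omega

/-- **west zone**: the sites of the tile `o` off the inner tiles are joined to the centre, inside
the fat tile and off the inner tiles -/
theorem west (hS : GP (S : Set ℂ)) (h3 : 3 ≤ S.card) (F : FPath M W) (hA : 0 < A) (hAB : A ≤ B)
    (hd0 : 0 ≤ d) (hh : A + B + 2 * d < h) (hoa : o + 1 < a) (hM : a - o < M)
    (hd : ∀ z ∈ RR A B h W o, ∃ s ∈ S, ‖z - s‖ ≤ d) (hs : s ∈ S) (hsR : s ∈ RR A B h W o)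
    (hsm : s ∉ Mid A B h W o a) (hco : co ∈ S) (hcc : cen h W o ∈ voronoiCell (S : Set ℂ) co) :
    Pth S {q | q ∈ S ∧ q ∈ RR (A + d) (B + d) h W o ∧ q ∉ Mid A B h W o a} s co := by
  have h1 := west_walk hS h3 F hA hAB (by linarith) hd hs hsR
    (off_next F hA hAB (by linarith) hsR fun hc => hsm ⟨o + 1, by omega, hoa, hc⟩) hco hcc
  have sub : ∀ q, q ∈ {q | q ∈ S ∧ q ∈ RR (A + d) (B + d) h W o ∧
      X (gz h W (o + 1)) (ge W (o + 1)) q ≤ h / 2 - B} →
      q ∈ {q | q ∈ S ∧ q ∈ RR (A + d) (B + d) h W o ∧ q ∉ Mid A B h W o a} :=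
    fun q hq => ⟨hq.1, hq.2.1, mid_west F hA hAB hd0 hh hM hq.2.1 hq.2.2⟩
  exact ⟨sub _ h1.1, Relation.ReflTransGen.mono (fun a b hab => ⟨hab.1, sub _ hab.2⟩) _ _ h1.2⟩

/-- **east zone** -/
theorem east (hS : GP (S : Set ℂ)) (h3 : 3 ≤ S.card) (F : FPath M W) (hA : 0 < A) (hAB : A ≤ B)
    (hd0 : 0 ≤ d) (hh : A + B + 2 * d < h) (hoa : o + 1 < a) (hM : a - o < M)
    (hd : ∀ z ∈ RR A B h W a, ∃ s ∈ S, ‖z - s‖ ≤ d) (hs : s ∈ S) (hsR : s ∈ RR A B h W a)
    (hsm : s ∉ Mid A B h W o a) (hco : co ∈ S) (hcc : cen h W a ∈ voronoiCell (S : Set ℂ) co) :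
    Pth S {q | q ∈ S ∧ q ∈ RR (A + d) (B + d) h W a ∧ q ∉ Mid A B h W o a} s co := by
  have h1 := east_walk hS h3 F hA hAB (by linarith) hd hs hsR
    (off_prev F hA hAB (by linarith) hsR fun hc => hsm ⟨a - 1, by omega, by omega, hc⟩) hco hcc
  have sub : ∀ q, q ∈ {q | q ∈ S ∧ q ∈ RR (A + d) (B + d) h W a ∧
      B - h / 2 ≤ X (gz h W a) (ge W a) q} →
      q ∈ {q | q ∈ S ∧ q ∈ RR (A + d) (B + d) h W a ∧ q ∉ Mid A B h W o a} :=
    fun q hq => ⟨hq.1, hq.2.1, mid_east F hA hAB hd0 hh hM hq.2.1 hq.2.2⟩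
  exact ⟨sub _ h1.1, Relation.ReflTransGen.mono (fun a b hab => ⟨hab.1, sub _ hab.2⟩) _ _ h1.2⟩

end Crest.Agent.R143.ZnEx881
end
end

-- ▼ part R143/ZnQ2_323
section

/-!
# Row 143 (S0194), RIG, box Q2: the zones of a window (helper323)

`Env S M W η d` : the environment of the strips (no colours); `T₁ = Wd .. i₁ i₂` the tiles
`i₁ ≤ a < i₂` of a window.
* `cmp S A e` : sites joined to `e` in `A`; `cn_cmp` : connected set of cells
* **`zR`** : zones of the piece of the strand in the out tiles `≥ b'` (`i₂ = o + b'`), end tile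
  `o + n - 1`; **`zL`** : zones of the piece in the tiles `< a'` (`i₁ = o + a'`), end tile `o`
* `sideR`, `sideL` : 117's `SideH`
* `fix_two`, `fix_R`, `fix_L` : 535's `Fix`
-/

set_option autoImplicit false
set_option linter.unusedVariables false
set_option linter.unusedSectionVars false

noncomputable section

open scoped Classical

namespace Crest.Agent.R143.ZnQx323

open Crest.ProbabilityR.Voronoi
open Crest.Agent.R143.B0x346 Crest.Agent.R143.DelGx806 Crest.Agent.R143.DelRx806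
open Crest.Agent.R143.RE0x723 (Pth)
open Crest.Agent.R143.Frame1x395 Crest.Agent.R143.Frame2x395 Crest.Agent.R143.Frame3x395
  Crest.Agent.R143.Frame4x395 Crest.Agent.R143.Frame8x395 Crest.Agent.R143.Frame9x395
  Crest.Agent.R143.Frame10x395 Crest.Agent.R143.Frame11x395
open Crest.Agent.R143.NonXx592 (P Rc)
open Crest.Agent.R143.Extx358 (Ad Ext)
open Crest.Agent.R143.FinCx811 (Cs rc0 cs rcol)
open Crest.Agent.R143.WLocx713 (HullC xc sX cX bX)
open Crest.Agent.R143.Blkx838 (DE)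
open Crest.Agent.R143.K33x137 (Ed Cn)
open Crest.Agent.R143.Uniqx323 (Zn)
open Crest.Agent.R143.RcTx422
open Crest.Agent.R143.Segx991 (Clm Hl pth_conn mem_clm near)
open Crest.Agent.R143.Gatex838 (X Y)
open Crest.Agent.R143.TileRx228
open Crest.Agent.R143.CorHx713
open Crest.Agent.R143.CorrIx831 (bst Bk Rws)
open Crest.Agent.R143.SubDx117 (UB)
open Crest.Agent.R143.RingDx117 (RD)

/-! ### components of sets of sites -/

section cmp

variable {S : Finset ℂ} {hS : GP (S : Set ℂ)} {A A' : Set ℂ} {e u w : ℂ}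

/-- the sites joined to `e` in `A` -/
def cmp (S : Finset ℂ) (A : Set ℂ) (e : ℂ) : Set ℂ := {z | Pth S A z e}

theorem cmp_sub : cmp S A e ⊆ A := fun _ h => h.1

theorem lk_of_pth {A : Set ℂ} {u w : ℂ} (h : Pth S A u w) : Neckx921.Lk S A u w := by
  obtain ⟨hu, h⟩ := h
  induction h with
  | refl => exact Neckx921.Lk.refl hu
  | @tail a b _ h1 ih => exact ih.trans ⟨⟨ih.1.2, h1.2⟩, Relation.ReflTransGen.single
      ⟨h1.1, ih.1.2, h1.2⟩⟩

theorem cmp_lk (hu : u ∈ cmp S A e) (hw : w ∈ cmp S A e) : Neckx921.Lk S (cmp S A e) u w := by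
  have h1 : Pth S (cmp S A e) u e := (Pth.self hu).mono fun v hv => hv.2
  have h2 : Pth S (cmp S A e) w e := (Pth.self hw).mono fun v hv => hv.2
  exact lk_of_pth (h1.trans h2.symm)

/-- **the cells of a component are a connected set** -/
theorem cn_cmp (h3 : 3 ≤ S.card) : Cn (rc0 hS) (CS hS (cmp S A e)) :=
  cn_CS h3 fun _ _ hu _ _ hw => cmp_lk hu hw

/-- **zones from sets of sites** -/
def mkZ (hS : GP (S : Set ℂ)) (h3 : 3 ≤ S.card) (UR KW EA WA TA : Set ℂ) (e w h₀ : ℂ)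
    (kr : KW ⊆ UR) (re : ∀ v ∈ S, v ∈ UR → v ∉ EA) (rw_ : ∀ v ∈ S, v ∈ UR → v ∉ WA)
    (rt : ∀ v ∈ S, v ∈ UR → v ∉ TA) (ew : ∀ v ∈ S, v ∈ EA → v ∉ WA)
    (et : ∀ v ∈ S, v ∈ EA → v ∉ TA) (wt : ∀ v ∈ S, v ∈ WA → v ∉ TA)
    (ei : ∀ v ∈ S, v ∈ EA → ¬ OnHull S v) (wi : ∀ v ∈ S, v ∈ WA → ¬ OnHull S v) :
    Zn (rc0 hS) where
  R := RC hS UR
  K := RC hS KW
  E := CS hS (cmp S EA e)
  W := CS hS (cmp S WA w)
  T := CS hS (cmp S TA h₀)
  KR := RC_mono kr
  cE := cn_cmp h3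
  cW := cn_cmp h3
  cT := cn_cmp h3
  RE := RC_disj fun v h1 h2 h4 => re v h1 h2 (cmp_sub h4)
  RW := RC_disj fun v h1 h2 h4 => rw_ v h1 h2 (cmp_sub h4)
  RT := RC_disj fun v h1 h2 h4 => rt v h1 h2 (cmp_sub h4)
  EW := CS_disj (fun v h1 h2 h4 => ew v h1 (cmp_sub h2) (cmp_sub h4))
    fun v h1 h2 => ei v h1 (cmp_sub h2)
  ET := CS_disj (fun v h1 h2 h4 => et v h1 (cmp_sub h2) (cmp_sub h4))
    fun v h1 h2 => ei v h1 (cmp_sub h2)
  WT := CS_disj (fun v h1 h2 h4 => wt v h1 (cmp_sub h2) (cmp_sub h4))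
    fun v h1 h2 => wi v h1 (cmp_sub h2)

end cmp

/-! ### tiles and gates -/

section tiles

variable {M : ℕ} {W : ℤ → ℤ × ℤ} {A' B' h : ℝ} {s : ℂ}

theorem nd {M : ℕ} {t : ℤ} (h0 : t ≠ 0) (h1 : -(M : ℤ) < t) (h2 : t < M) : ¬ (M : ℤ) ∣ t :=
  fun h => h0 (Int.eq_zero_of_abs_lt_dvd h (abs_lt.2 ⟨h1, h2⟩))

/-- tiles at index distance `≥ 2` -/
theorem dj (P : FPath M W) (hA : 0 < A') (hAB : A' ≤ B') (hh : A' + B' < h) {a b : ℤ}
    (h1 : a + 2 ≤ b) (h2 : b + 2 ≤ a + M) (hs : s ∈ RR A' B' h W a) : s ∉ RR A' B' h W b :=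
  fun ht => Set.disjoint_left.1 (disj P hA hAB hh (nd (by omega) (by omega) (by omega))
    (nd (by omega) (by omega) (by omega)) (nd (by omega) (by omega) (by omega))) hs ht

/-- a point of the two tiles of a gate is in no other tile -/
theorem two_off (P : FPath M W) (hA : 0 < A') (hAB : A' ≤ B') (hh : A' + B' < h) {G k : ℤ}
    (h1 : s ∈ RR A' B' h W G) (h2 : s ∈ RR A' B' h W (G - 1)) (k0 : ¬ (M : ℤ) ∣ k - G)
    (k1 : ¬ (M : ℤ) ∣ k - (G - 1)) : s ∉ RR A' B' h W k := by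
  intro hk
  by_cases h3 : (M : ℤ) ∣ k - (G + 1)
  · refine Set.disjoint_left.1 (disj P hA hAB hh (a := G - 1) (b := k) k1 ?_ ?_) h2 hk
    · rw [show k - (G - 1 + 1) = k - G by ring]; exact k0
    · intro h4
      refine P.not3 ?_
      have h5 := dvd_sub h4 h3
      rwa [show k - (G - 1 - 1) - (k - (G + 1)) = 3 by ring] at h5
  · exact Set.disjoint_left.1 (disj P hA hAB hh (a := G) (b := k) k0 h3 k1) h1 hk

end tiles

/-! ### the environment -/

/-- **the environment of the strips** (no colours) -/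
structure Env (S : Finset ℂ) (M : ℕ) (W : ℤ → ℤ × ℤ) (η d : ℝ) : Prop where
  path : FPath M W
  h3 : 3 ≤ S.card
  e0 : 0 < η
  d0 : 0 < d
  de : 100 * d ≤ η
  hol : ∀ a : ℤ, ∀ z ∈ bst η W a, ∃ t ∈ S, ‖z - t‖ < d
  up : ∀ (a : ℤ) (z : ℂ), |X (gz (100 * η) W a) (ge W a) z| < 2 * η →
    |Y (gz (100 * η) W a) (ge W a) z| < 13 * η → ∃ t ∈ S, ‖z - t‖ < d
  inn : ∀ a : ℤ, ∀ v ∈ S, v ∈ RR (10 * η) (52 * η) (100 * η) W a → ¬ OnHull S v

theorem Env.of_cor {X₀ : Set (ℂ × Bool)} {U : Set ℂ} {M : ℕ} {W : ℤ → ℤ × ℤ} {η d : ℝ} {o : ℤ}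
    {n : ℕ} (H : CorH X₀ U M W η d o n) : Env (sX X₀) M W η d := by
  have e0 := H.e0
  have key : ∀ z ∈ U, ∃ t ∈ sX X₀, ‖z - t‖ < d := by
    intro z hz
    obtain ⟨s, hs, h⟩ := H.holS z hz z (by rw [sub_self, norm_zero]; exact H.d0.le)
    exact ⟨s, Finset.mem_coe.1 hs, by rw [norm_sub_rev]; exact h⟩
  exact ⟨H.path, LnkLx927.card3' H, H.e0, H.d0, H.de,
    fun a z hz => key z (H.sub_U (by linarith) (by linarith) a hz),
    fun a z h1 h2 => key z (H.box_U a (by linarith) (by linarith)),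
    fun a v _ hv => H.inn (H.sub_U (by linarith) (by linarith) a hv)⟩

variable {S : Finset ℂ} {M : ℕ} {W : ℤ → ℤ × ℤ} {η d : ℝ} {o : ℤ} {n : ℕ}

/-- the fat strip -/
def fbt (η d : ℝ) (W : ℤ → ℤ × ℤ) (a : ℤ) : Set ℂ :=
  RR (19 / 2 * η + d) (103 / 2 * η + d) (100 * η) W a

/-- the tiles `i ≤ a < j` -/
def T₁ (η : ℝ) (W : ℤ → ℤ × ℤ) (i j : ℤ) : Set ℂ :=
  Wd (19 / 2 * η) (103 / 2 * η) (100 * η) W i j

/-- the window of the gate `G` -/
def KW (η : ℝ) (W : ℤ → ℤ × ℤ) (G : ℤ) : Set ℂ :=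
  {s | |X (gz (100 * η) W G) (ge W G) s| < η ∧ |Y (gz (100 * η) W G) (ge W G) s| < 19 / 2 * η}

/-- sites off all strips and off the fat strips of `J` -/
def TA (S : Finset ℂ) (η d : ℝ) (W : ℤ → ℤ × ℤ) (J : Set ℤ) : Set ℂ :=
  {q | q ∈ S ∧ (∀ a, q ∉ bst η W a) ∧ ∀ a ∈ J, q ∉ fbt η d W a}

/-- sites of the fat run -/
def WA (S : Finset ℂ) (η d : ℝ) (W : ℤ → ℤ × ℤ) (i j : ℤ) : Set ℂ :=
  {q | q ∈ S ∧ q ∈ Wd (19 / 2 * η + d) (103 / 2 * η) (100 * η) W i j}

/-- sites of the fat end tile `e` off the tiles `i < a < j` -/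
def EA (S : Finset ℂ) (η d : ℝ) (W : ℤ → ℤ × ℤ) (e i j : ℤ) : Set ℂ :=
  {q | q ∈ S ∧ q ∈ fbt η d W e ∧
    q ∉ ZnEx881.Mid (19 / 2 * η) (103 / 2 * η) (100 * η) W i j}

/-- the site of the centre of the tile `a` -/
def cr (S : Finset ℂ) (η : ℝ) (W : ℤ → ℤ × ℤ) (a : ℤ) : ℂ :=
  if h : ∃ q ∈ S, cen (100 * η) W a ∈ voronoiCell (S : Set ℂ) q then h.choose else 0

namespace Env

theorem nS (E : Env S M W η d) : S.Nonempty := by
  rw [← Finset.card_pos]
  have := E.h3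
  omega

theorem cr_spec (E : Env S M W η d) (a : ℤ) :
    cr S η W a ∈ S ∧ cen (100 * η) W a ∈ voronoiCell (S : Set ℂ) (cr S η W a) := by
  have h : ∃ q ∈ S, cen (100 * η) W a ∈ voronoiCell (S : Set ℂ) q :=
    G6Wx723.exists_cell E.nS _
  unfold cr
  rw [dif_pos h]
  exact h.choose_spec

theorem hl (E : Env S M W η d) (a : ℤ) : Hl S (bst η W a) d := fun z hz => by
  obtain ⟨t, ht, h⟩ := E.hol a z hz
  exact ⟨t, ht, h.le⟩

theorem cen_bst (E : Env S M W η d) (a : ℤ) : cen (100 * η) W a ∈ bst η W a := by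
  have e0 := E.e0
  right
  obtain ⟨x1, x2⟩ := ZnEx881.XY_self (cen (100 * η) W a) (cz (W (a + 1) - W a))
  refine ⟨⟨?_, ?_⟩, ?_⟩
  · rw [x1]; linarith
  · rw [x1]; linarith
  · rw [x2, abs_zero]; linarith

theorem cr_bst (E : Env S M W η d) (a : ℤ) : cr S η W a ∈ bst η W a := by
  have e0 := E.e0
  have d0 := E.d0
  have de := E.de
  obtain ⟨h1, h2⟩ := E.cr_spec a
  obtain ⟨t, ht, h⟩ := E.hol a _ (E.cen_bst a)
  have h5 : ‖cen (100 * η) W a - cr S η W a‖ ≤ d := (h2 t (Finset.mem_coe.2 ht)).trans h.le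
  obtain ⟨g1, g2⟩ := X_near (norm_cz (E.path.step a)) (cen (100 * η) W a) (cen (100 * η) W a)
    (cr S η W a)
  have g1' := abs_le.1 (g1.trans h5)
  have g2' := abs_le.1 (g2.trans h5)
  obtain ⟨x1, x2⟩ := ZnEx881.XY_self (cen (100 * η) W a) (cz (W (a + 1) - W a))
  rw [x1] at g1'
  rw [x2] at g2'
  exact Or.inr ⟨⟨by linarith [g1'.2], by linarith [g1'.1]⟩,
    abs_lt.2 ⟨by linarith [g2'.2], by linarith [g2'.1]⟩⟩

theorem inn_fbt (E : Env S M W η d) (a : ℤ) {v : ℂ} (hv : v ∈ S) (h : v ∈ fbt η d W a) :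
    ¬ OnHull S v := by
  have e0 := E.e0
  have de := E.de
  exact E.inn a v hv (RR_mono (by linarith) (by linarith) _ _ _ h)

theorem bst_fbt (E : Env S M W η d) (a : ℤ) : bst η W a ⊆ fbt η d W a :=
  RR_mono (by linarith [E.d0]) (by linarith [E.d0]) _ _ _

theorem inn_bst (E : Env S M W η d) (a : ℤ) {v : ℂ} (hv : v ∈ S) (h : v ∈ bst η W a) :
    ¬ OnHull S v := E.inn_fbt a hv (E.bst_fbt a h)

theorem dj_bst (E : Env S M W η d) {a b : ℤ} (h1 : a + 2 ≤ b) (h2 : b + 2 ≤ a + M) {s : ℂ}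
    (hs : s ∈ bst η W a) : s ∉ bst η W b := by
  have e0 := E.e0
  exact dj E.path (by linarith) (by linarith) (by linarith) h1 h2 hs

theorem dj_fbt (E : Env S M W η d) {a b : ℤ} (h1 : a + 2 ≤ b) (h2 : b + 2 ≤ a + M) {s : ℂ}
    (hs : s ∈ fbt η d W a) : s ∉ fbt η d W b := by
  have e0 := E.e0
  have d0 := E.d0
  have de := E.de
  exact dj E.path (by linarith) (by linarith) (by linarith) h1 h2 hs

theorem wd_fbt (E : Env S M W η d) {i j : ℤ} {s : ℂ}
    (hs : s ∈ Wd (19 / 2 * η + d) (103 / 2 * η) (100 * η) W i j) :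
    ∃ k, i ≤ k ∧ k < j ∧ s ∈ fbt η d W k := by
  obtain ⟨k, h1, h2, h3⟩ := hs
  exact ⟨k, h1, h2, RR_mono le_rfl (by linarith [E.d0]) _ _ _ h3⟩

/-! gates -/

theorem kw_bst (E : Env S M W η d) {G : ℤ} {s : ℂ} (hs : s ∈ KW η W G) :
    s ∈ bst η W G ∧ s ∈ bst η W (G - 1) := by
  have e0 := E.e0
  constructor
  · exact win_right E.path (by linarith) (by linarith) (lt_of_lt_of_le hs.1 (by linarith)) hs.2
  · refine win_left E.path (by linarith) (by linarith) ?_ ?_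
    · rw [sub_add_cancel]; exact lt_of_lt_of_le hs.1 (by linarith)
    · rw [sub_add_cancel]; exact hs.2

/-- the window of the gate `G` is off the other tiles -/
theorem kw_off (E : Env S M W η d) {G k : ℤ} {s : ℂ} (hs : s ∈ KW η W G)
    (k0 : ¬ (M : ℤ) ∣ k - G) (k1 : ¬ (M : ℤ) ∣ k - (G - 1)) : s ∉ bst η W k := by
  have e0 := E.e0
  exact two_off E.path (by linarith) (by linarith) (by linarith) (E.kw_bst hs).1 (E.kw_bst hs).2
    k0 k1


end Env

/-! ### the two sides -/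

/-- numbers of the right side: out tiles `b', .., n - 2`, end tile `n - 1`, window tiles
`i ≤ a < o + b'`, gate `g` -/
structure NR (M n b' g : ℕ) (o i : ℤ) : Prop where
  hb : b' + 3 ≤ n
  h1 : i < o + b'
  hM : o + n < i + M
  nM : n + 4 ≤ M
  g1 : b' < g
  g2 : g + 2 ≤ n

/-- numbers of the left side: out tiles `1, .., a' - 1`, end tile `0`, window tiles
`o + a' ≤ a < j`, gate `g` -/
structure NL (M n a' g : ℕ) (o j : ℤ) : Prop where
  ha : 3 ≤ a'
  han : a' < n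
  h2 : o + a' < j
  hM : j < o + M
  nM : n + 4 ≤ M
  g1 : 2 ≤ g
  g2 : g < a'

/-- region of the right side -/
def UR (η : ℝ) (W : ℤ → ℤ × ℤ) (o : ℤ) (n b' : ℕ) (i : ℤ) : Set ℂ :=
  UB (Bk η W o) b' (n - 1) \ T₁ η W i (o + b')

/-- region of the left side -/
def UL (η : ℝ) (W : ℤ → ℤ × ℤ) (o : ℤ) (a' : ℕ) (j : ℤ) : Set ℂ :=
  UB (Bk η W o) 1 a' \ T₁ η W (o + a') j

variable {a' b' g : ℕ} {i j : ℤ} {h₀ : ℂ} {hS : GP (S : Set ℂ)}

/-- a site of the fat run in a strip is in the run -/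
theorem Env.run (E : Env S M W η d) {k : ℤ} {v : ℂ} (hv : v ∈ WA S η d W i j)
    (hk : v ∈ bst η W k) : v ∈ T₁ η W i j := by
  have e0 := E.e0
  have d0 := E.d0
  have de := E.de
  exact wd_off E.path (by linarith) d0.le (by linarith) (by linarith) hv.2 hk

/-- **zones of the right side** -/
def zR (E : Env S M W η d) (hS : GP (S : Set ℂ)) (N : NR M n b' g o i) (h₀ : ℂ) : Zn (rc0 hS) :=
  mkZ hS E.h3 (UR η W o n b' i) (KW η W (o + g)) (EA S η d W (o + n - 1) (o + b' - 1) (o + n - 1))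
    (WA S η d W i (o + b')) (TA S η d W {a | a = o + n - 1 ∨ i ≤ a ∧ a < o + b'})
    (cr S η W (o + n - 1)) (cr S η W i) h₀
    (by
      have := N.hb; have := N.g1; have := N.g2; have := N.hM
      intro s hs
      refine ⟨⟨g, by omega, by omega, (E.kw_bst hs).1⟩, ?_⟩
      rintro ⟨k, k1, k2, k3⟩
      exact E.kw_off hs (nd (by omega) (by omega) (by omega)) (nd (by omega) (by omega) (by omega))
        k3)
    (by
      rintro v - ⟨⟨k, k1, k2, k3⟩, -⟩ ⟨-, -, h⟩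
      exact h ⟨o + k, by omega, by omega, k3⟩)
    (by
      rintro v - ⟨⟨k, k1, k2, k3⟩, h⟩ hw
      exact h (E.run hw k3))
    (by
      rintro v - ⟨⟨k, k1, k2, k3⟩, -⟩ ⟨-, h, -⟩
      exact h _ k3)
    (by
      have := N.hb; have := N.hM
      rintro v - ⟨-, h1, -⟩ ⟨-, h2⟩
      obtain ⟨k, k1, k2, k3⟩ := E.wd_fbt h2
      exact E.dj_fbt (by omega) (by omega) k3 h1)
    (by
      rintro v - ⟨-, h1, -⟩ ⟨-, -, h2⟩
      exact h2 _ (Or.inl rfl) h1)
    (by
      rintro v - ⟨-, h1⟩ ⟨-, -, h2⟩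
      obtain ⟨k, k1, k2, k3⟩ := E.wd_fbt h1
      exact h2 _ (Or.inr ⟨k1, k2⟩) k3)
    (by
      rintro v hv ⟨-, h1, -⟩
      exact E.inn_fbt _ hv h1)
    (by
      rintro v hv ⟨-, h1⟩
      obtain ⟨k, k1, k2, k3⟩ := E.wd_fbt h1
      exact E.inn_fbt _ hv k3)

/-- **zones of the left side** -/
def zL (E : Env S M W η d) (hS : GP (S : Set ℂ)) (N : NL M n a' g o j) (h₀ : ℂ) : Zn (rc0 hS) :=
  mkZ hS E.h3 (UL η W o a' j) (KW η W (o + g)) (WA S η d W (o + a') j)
    (EA S η d W o o (o + a')) (TA S η d W {a | a = o ∨ o + a' ≤ a ∧ a < j})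
    (cr S η W (o + a')) (cr S η W o) h₀
    (by
      have := N.ha; have := N.g1; have := N.g2; have := N.hM
      intro s hs
      refine ⟨⟨g, by omega, by omega, (E.kw_bst hs).1⟩, ?_⟩
      rintro ⟨k, k1, k2, k3⟩
      exact E.kw_off hs (nd (by omega) (by omega) (by omega)) (nd (by omega) (by omega) (by omega))
        k3)
    (by
      rintro v - ⟨⟨k, k1, k2, k3⟩, h⟩ hw
      exact h (E.run hw k3))
    (by
      rintro v - ⟨⟨k, k1, k2, k3⟩, -⟩ ⟨-, -, h⟩
      exact h ⟨o + k, by omega, by omega, k3⟩)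
    (by
      rintro v - ⟨⟨k, k1, k2, k3⟩, -⟩ ⟨-, h, -⟩
      exact h _ k3)
    (by
      have := N.ha; have := N.hM
      rintro v - ⟨-, h2⟩ ⟨-, h1, -⟩
      obtain ⟨k, k1, k2, k3⟩ := E.wd_fbt h2
      exact E.dj_fbt (a := o) (by omega) (by omega) h1 k3)
    (by
      rintro v - ⟨-, h1⟩ ⟨-, -, h2⟩
      obtain ⟨k, k1, k2, k3⟩ := E.wd_fbt h1
      exact h2 _ (Or.inr ⟨k1, k2⟩) k3)
    (by
      rintro v - ⟨-, h1, -⟩ ⟨-, -, h2⟩
      exact h2 _ (Or.inl rfl) h1)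
    (by
      rintro v hv ⟨-, h1⟩
      obtain ⟨k, k1, k2, k3⟩ := E.wd_fbt h1
      exact E.inn_fbt _ hv k3)
    (by
      rintro v hv ⟨-, h1, -⟩
      exact E.inn_fbt _ hv h1)

/-! ### the zone properties -/

/-- the site of a cell of a state -/
theorem val_of {B : Set ℂ} {d' : D0 S} (hd : d' ∈ RD S B) {c : Cs hS}
    (hc : c = (rc0 hS).cell d' ∨ c = Rc (rc0 hS) d') :
    ∃ v ∈ S, v ∈ B ∧ c.1 = Quot.mk (hullE S) v := by
  rcases hc with rfl | rfl
  · exact ⟨d'.1.1, (Sepx686.dart_mem d').1, hd.1, rfl⟩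
  · exact ⟨d'.1.2, (Sepx686.dart_mem d').2, hd.2, rfl⟩

/-- **the sites of the run are in one component of the fat run** -/
theorem Env.run_cmp (E : Env S M W η d) (hS : GP (S : Set ℂ)) (hij : i < j) {v : ℂ} (hv : v ∈ S)
    (h : v ∈ T₁ η W i j) : v ∈ cmp S (WA S η d W i j) (cr S η W i) := by
  have e0 := E.e0
  have d0 := E.d0
  have de := E.de
  exact wd_con E.path hS E.h3 d0.le (by linarith) (by linarith) (by linarith) (by linarith)
    (by linarith) E.hl hv h (E.cr_spec i).1 ⟨i, le_rfl, hij, E.cr_bst i⟩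

theorem Env.inn_UR (E : Env S M W η d) : ∀ v ∈ S, v ∈ UR η W o n b' i → ¬ OnHull S v := by
  rintro v hv ⟨⟨k, -, -, h⟩, -⟩
  exact E.inn_bst _ hv h

theorem Env.inn_UL (E : Env S M W η d) : ∀ v ∈ S, v ∈ UL η W o a' j → ¬ OnHull S v := by
  rintro v hv ⟨⟨k, -, -, h⟩, -⟩
  exact E.inn_bst _ hv h

theorem zR_E (E : Env S M W η d) (N : NR M n b' g o i) {d' : D0 S}
    (hd : d' ∈ RD S (Bk η W o (n - 1))) {c : Cs hS}
    (hc : c = (rc0 hS).cell d' ∨ c = Rc (rc0 hS) d') (hcR : c ∉ (zR E hS N h₀).R) :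
    c ∈ (zR E hS N h₀).E := by
  obtain ⟨v, hv, hvB, e⟩ := val_of hd hc
  have hn : v ∉ UR η W o n b' i := fun h => hcR ((cell_RC E.inn_UR hv e).2 h)
  have h1 := N.hb
  have h2 := N.hM
  have h3 := N.h1
  have e0 := E.e0
  have d0 := E.d0
  have de := E.de
  have hvB' : v ∈ bst η W (o + n - 1) := by
    have e1 : o + ((n - 1 : ℕ) : ℤ) = o + n - 1 := by omega
    rw [← e1]; exact hvB
  refine ⟨v, hv, ?_, e⟩
  refine ZnEx881.east hS E.h3 E.path (by linarith) (by linarith) d0.le (by linarith) (by omega)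
    (by omega) (E.hl _) hv hvB' ?_ (E.cr_spec _).1 (E.cr_spec _).2
  rintro ⟨k, k1, k2, k3⟩
  refine hn ⟨⟨(k - o).toNat, by omega, by omega, ?_⟩, ?_⟩
  · show v ∈ bst η W (o + ((k - o).toNat : ℤ))
    rw [Int.toNat_of_nonneg (by omega), add_sub_cancel]
    exact k3
  · rintro ⟨l, l1, l2, l3⟩
    exact E.dj_bst (by omega) (by omega) l3 hvB'

theorem zR_W (E : Env S M W η d) (N : NR M n b' g o i) {d' : D0 S}
    (hd : d' ∈ RD S (Bk η W o b')) {c : Cs hS}
    (hc : c = (rc0 hS).cell d' ∨ c = Rc (rc0 hS) d') (hcR : c ∉ (zR E hS N h₀).R) :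
    c ∈ (zR E hS N h₀).W := by
  obtain ⟨v, hv, hvB, e⟩ := val_of hd hc
  have hn : v ∉ UR η W o n b' i := fun h => hcR ((cell_RC E.inn_UR hv e).2 h)
  have h1 := N.hb
  refine ⟨v, hv, E.run_cmp hS N.h1 hv ?_, e⟩
  by_contra h
  exact hn ⟨⟨b', le_rfl, by omega, hvB⟩, h⟩

theorem zL_W (E : Env S M W η d) (N : NL M n a' g o j) {d' : D0 S}
    (hd : d' ∈ RD S (Bk η W o 0)) {c : Cs hS}
    (hc : c = (rc0 hS).cell d' ∨ c = Rc (rc0 hS) d') (hcR : c ∉ (zL E hS N h₀).R) :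
    c ∈ (zL E hS N h₀).W := by
  obtain ⟨v, hv, hvB, e⟩ := val_of hd hc
  have hn : v ∉ UL η W o a' j := fun h => hcR ((cell_RC E.inn_UL hv e).2 h)
  have h1 := N.ha
  have h2 := N.hM
  have h3 := N.h2
  have e0 := E.e0
  have d0 := E.d0
  have de := E.de
  have hvB' : v ∈ bst η W o := by
    have e1 : o + ((0 : ℕ) : ℤ) = o := by omega
    rw [← e1]; exact hvB
  refine ⟨v, hv, ?_, e⟩
  refine ZnEx881.west hS E.h3 E.path (by linarith) (by linarith) d0.le (by linarith) (by omega)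
    (by omega) (E.hl _) hv hvB' ?_ (E.cr_spec _).1 (E.cr_spec _).2
  rintro ⟨k, k1, k2, k3⟩
  refine hn ⟨⟨(k - o).toNat, by omega, by omega, ?_⟩, ?_⟩
  · show v ∈ bst η W (o + ((k - o).toNat : ℤ))
    rw [Int.toNat_of_nonneg (by omega), add_sub_cancel]
    exact k3
  · rintro ⟨l, l1, l2, l3⟩
    exact E.dj_bst (a := o) (by omega) (by omega) hvB' l3

theorem zL_E (E : Env S M W η d) (N : NL M n a' g o j) {d' : D0 S}
    (hd : d' ∈ RD S (Bk η W o (a' - 1))) {c : Cs hS}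
    (hc : c = (rc0 hS).cell d' ∨ c = Rc (rc0 hS) d') (hcR : c ∉ (zL E hS N h₀).R) :
    c ∈ (zL E hS N h₀).E := by
  obtain ⟨v, hv, hvB, e⟩ := val_of hd hc
  have hn : v ∉ UL η W o a' j := fun h => hcR ((cell_RC E.inn_UL hv e).2 h)
  have h1 := N.ha
  refine ⟨v, hv, E.run_cmp hS N.h2 hv ?_, e⟩
  by_contra h
  exact hn ⟨⟨a' - 1, by omega, by omega, hvB⟩, h⟩

/-! ### the column -/

section col

variable {G : ℤ} {J : Set ℤ}



variable {X₀ : Set (ℂ × Bool)} {U : Set ℂ}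





end col

/-! ### 535's `Fix` -/

section fix

variable {VR VT : Set ℂ} {G : ℤ} {J : Set ℤ}

/-- the sites of `V` are in strips which are not the two tiles of the gate `G` -/
def Offg (M : ℕ) (η : ℝ) (W : ℤ → ℤ × ℤ) (G : ℤ) (V : Set ℂ) : Prop :=
  ∀ s ∈ V, ∃ a : ℤ, s ∈ bst η W a ∧ ¬ (M : ℤ) ∣ a - G ∧ ¬ (M : ℤ) ∣ a - (G - 1)

/-- the white strips -/
theorem offg_Rws (nM : n + 4 ≤ M) (g1 : 2 ≤ g) (g2 : g + 2 ≤ n) :
    Offg M η W (o + g) (Rws η W o n M) := by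
  rintro s ⟨a, a1, a2, a3⟩
  exact ⟨a, a3, nd (by omega) (by omega) (by omega), nd (by omega) (by omega) (by omega)⟩

/-- a run of tiles before the gate -/
theorem offg_lt {p q : ℤ} (h1 : q + 1 ≤ G) (h2 : G < p + M) : Offg M η W G (T₁ η W p q) := by
  rintro s ⟨a, a1, a2, a3⟩
  exact ⟨a, a3, nd (by omega) (by omega) (by omega), nd (by omega) (by omega) (by omega)⟩

/-- a run of tiles behind the gate -/
theorem offg_gt {p q : ℤ} (h1 : G < p) (h2 : q < G + M) : Offg M η W G (T₁ η W p q) := by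
  rintro s ⟨a, a1, a2, a3⟩
  exact ⟨a, a3, nd (by omega) (by omega) (by omega), nd (by omega) (by omega) (by omega)⟩

theorem K_off (E : Env S M W η d) (hV : Offg M η W G VR) :
    Disjoint (RC hS (KW η W G)) (RC hS VR) := by
  refine (RC_disj (hS := hS) (B := VR) fun v _ hv h => ?_).mono_right RC_sub_CS
  obtain ⟨a, a1, a2, a3⟩ := hV v h
  exact E.kw_off hv a2 a3 a1

/-- all strips -/
def Al (η : ℝ) (W : ℤ → ℤ × ℤ) : Set ℂ := {s | ∃ a : ℤ, s ∈ bst η W a}

/-- **the top zone is joined to the hull off all strips** -/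
theorem top_ext (E : Env S M W η d) (hh : OnHull S h₀) {Y₀ : Set (Cs hS)}
    (hY : Y₀ ⊆ RC hS (Al η W)) {t : Cs hS} (ht : t ∈ CS hS (cmp S (TA S η d W J) h₀)) :
    Ext (rc0 hS) (Hc hS) Y₀ t := by
  have h3 := E.h3
  have off : ∀ b (hb : b ∈ S), b ∈ TA S η d W J → cs hS h3 ⟨b, hb⟩ ∉ Y₀ := by
    intro b hb hbT hc
    obtain ⟨v, hv, ⟨a, ha⟩, hn, e⟩ := hY hc
    have e' : (Quot.mk (hullE S) v : Quot (hullE S)) = Quot.mk _ b := e.symm
    have e2 : b = v := quot_inner hS hn e'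
    subst e2
    exact hbT.2.1 a ha
  obtain ⟨v, hv, hvc, e⟩ := ht
  have e1 : t = cs hS h3 ⟨v, hv⟩ := Subtype.ext e
  rw [e1]
  have h1 : Pth S (TA S η d W J) h₀ v := Pth.symm hvc
  have key := Pth.ind (P := fun w => ∀ hw : w ∈ S, Ext (rc0 hS) (Hc hS) Y₀ (cs hS h3 ⟨w, hw⟩)) h1
    (fun hw => Ext.hull (cs_Hc h3 hh) (off _ hw h1.1)) (by
      intro a b ha hb hab ih hw
      rcases step_rc (hS := hS) h3 (u := ⟨a, ha.1⟩) (w := ⟨b, hw⟩) hab with h | h
      · rw [← h]; exact ih ha.1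
      · exact Ext.step (ih ha.1) h (off _ hw hb))
  exact key hv

theorem UR_Al : UR η W o n b' i ⊆ Al η W := fun s ⟨⟨k, _, _, h⟩, _⟩ => ⟨_, h⟩

theorem UL_Al : UL η W o a' j ⊆ Al η W := fun s ⟨⟨k, _, _, h⟩, _⟩ => ⟨_, h⟩

theorem Offg.al (h : Offg M η W G VR) : VR ⊆ Al η W := fun s hs => by
  obtain ⟨a, ha, -⟩ := h s hs
  exact ⟨a, ha⟩

variable {gR gL : ℕ}

/-- **535's `Fix`, two-sided window**: `false` = right side, `true` = left side -/
theorem fix_two (E : Env S M W η d) (N1 : NR M n b' gR o (o + a')) (N2 : NL M n a' gL o (o + b'))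
    (hh : OnHull S h₀) (r1 : Offg M η W (o + gR) VR) (r2 : Offg M η W (o + gL) VR)
    (t1 : Offg M η W (o + gR) VT) (t2 : Offg M η W (o + gL) VT) :
    PLx535.Fix (rc0 hS) (Hc hS) (RC hS VR) (RC hS VT)
      (fun k : Bool => cond k (zL E hS N2 h₀) (zR E hS N1 h₀)) where
  hR := fun c hc => Hc_RC hc
  dis := by
    have h1 := N1.h1
    have h2 := N2.nM
    have key : Disjoint (zR E hS N1 h₀).R (zL E hS N2 h₀).R := by
      refine (RC_disj (hS := hS) (A := UR η W o n b' (o + a')) (B := UL η W o a' (o + b'))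
        ?_).mono_right RC_sub_CS
      rintro v - ⟨⟨k, k1, k2, k3⟩, -⟩ ⟨⟨l, l1, l2, l3⟩, -⟩
      exact E.dj_bst (by omega) (by omega) l3 k3
    rintro (_ | _) (_ | _) h
    · exact absurd rfl h
    · exact key
    · exact key.symm
    · exact absurd rfl h
  KR := by
    rintro (_ | _)
    · exact K_off E r1
    · exact K_off E r2
  KT := by
    rintro (_ | _)
    · exact K_off E t1
    · exact K_off E t2
  top := by
    have hY : ((⋃ k : Bool, (cond k (zL E hS N2 h₀) (zR E hS N1 h₀)).R) ∪ RC hS VR ∪ RC hS VT) ⊆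
        RC hS (Al η W) := by
      rintro c ((hc | hc) | hc)
      · obtain ⟨k, hk⟩ := Set.mem_iUnion.1 hc
        cases k
        · exact RC_mono UR_Al hk
        · exact RC_mono UL_Al hk
      · exact RC_mono r1.al hc
      · exact RC_mono t1.al hc
    rintro (_ | _) t ht
    · exact top_ext E hh hY ht
    · exact top_ext E hh hY ht
  con := fun Y₀ => con_rc

/-- **535's `Fix`, only the right side** -/
theorem fix_R (E : Env S M W η d) (N : NR M n b' g o i) (hh : OnHull S h₀)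
    (r : Offg M η W (o + g) VR) (t : Offg M η W (o + g) VT) :
    PLx535.Fix (rc0 hS) (Hc hS) (RC hS VR) (RC hS VT) (fun _ : Unit => zR E hS N h₀) where
  hR := fun c hc => Hc_RC hc
  dis := fun k k' h => absurd (Subsingleton.elim k k') h
  KR := fun _ => K_off E r
  KT := fun _ => K_off E t
  top := by
    intro _ c hc
    refine top_ext E hh ?_ hc
    rintro c ((hc | hc) | hc)
    · obtain ⟨k, hk⟩ := Set.mem_iUnion.1 hc
      exact RC_mono UR_Al hk
    · exact RC_mono r.al hc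
    · exact RC_mono t.al hc
  con := fun Y₀ => con_rc

/-- **535's `Fix`, only the left side** -/
theorem fix_L (E : Env S M W η d) (N : NL M n a' g o j) (hh : OnHull S h₀)
    (r : Offg M η W (o + g) VR) (t : Offg M η W (o + g) VT) :
    PLx535.Fix (rc0 hS) (Hc hS) (RC hS VR) (RC hS VT) (fun _ : Unit => zL E hS N h₀) where
  hR := fun c hc => Hc_RC hc
  dis := fun k k' h => absurd (Subsingleton.elim k k') h
  KR := fun _ => K_off E r
  KT := fun _ => K_off E t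
  top := by
    intro _ c hc
    refine top_ext E hh ?_ hc
    rintro c ((hc | hc) | hc)
    · obtain ⟨k, hk⟩ := Set.mem_iUnion.1 hc
      exact RC_mono UL_Al hk
    · exact RC_mono r.al hc
    · exact RC_mono t.al hc
  con := fun Y₀ => con_rc

end fix

end Crest.Agent.R143.ZnQx323
end
end

-- ▼ part R143/ZnQ3_323
section

/-!
# Row 143 (S0194), RIG, box Q2: the zones of a window on a fixed set of sites (helper323)

* `env_of` : the environment `Env` from 133's `CorEnv` and 416's `LayU`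
* `HT S η d W G J h₀` : every site above the strips at the gate `G` is joined to `h₀` in `TA` (no
  colours); **`ht_env`** : for every gate inside a coarse edge and every hull site (903's `top_pth`)
* **`sds_R`, `sds_L`** : 228's `Sds` for `zR`, `zL`, any configuration with the sites `S`
-/

set_option autoImplicit false
set_option linter.unusedVariables false

noncomputable section

open scoped Classical

namespace Crest.Agent.R143.ZnQx323

open Crest.ProbabilityR.Voronoi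
open Crest.Agent.R143.B0x346 Crest.Agent.R143.DelGx806 Crest.Agent.R143.DelRx806
open Crest.Agent.R143.RE0x723 (Pth)
open Crest.Agent.R143.Frame1x395 Crest.Agent.R143.Frame2x395 Crest.Agent.R143.Frame3x395
  Crest.Agent.R143.Frame4x395 Crest.Agent.R143.Frame8x395 Crest.Agent.R143.Frame9x395
  Crest.Agent.R143.Frame10x395 Crest.Agent.R143.Frame11x395
open Crest.Agent.R143.NonXx592 (P Rc)
open Crest.Agent.R143.Extx358 (Ad Ext)
open Crest.Agent.R143.FinCx811 (Cs rc0 cs rcol)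
open Crest.Agent.R143.WLocx713 (HullC xc sX cX bX)
open Crest.Agent.R143.Blkx838 (DE)
open Crest.Agent.R143.K33x137 (Ed Cn)
open Crest.Agent.R143.Uniqx323 (Zn)
open Crest.Agent.R143.RcTx422
open Crest.Agent.R143.Gatex838 (X Y)
open Crest.Agent.R143.TileRx228
open Crest.Agent.R143.CorHx713
open Crest.Agent.R143.CorrIx831 (bst Bk Rws)
open Crest.Agent.R143.SubDx117 (UB)
open Crest.Agent.R143.RingDx117 (RD)
open Crest.Agent.R143.PolyUx346 (Poly)
open Crest.Agent.R143.LayUx416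
open Crest.Agent.R143.CorEx133

/-! ### the environment -/

section env

variable {u : Poly} {m M : ℕ} {p W : ℤ → ℤ × ℤ} {A e : ℤ → ℤ} {η ε d K1 c2 ρ0 : ℝ} {ω : Sample}

/-- **the environment of the strips of `u`** -/
theorem env_of (C : CorEnv u ε d K1 c2 ρ0 ω) (L : LayU u m M p W A e)
    (hh : (m : ℝ) * (100 * η) = u.s) (hd : 100 * d ≤ η) : Env (SU u ε ω) M W η d := by
  have h0 := L.h_pos hh
  have e0 : 0 < η := by linarith
  have key : ∀ z ∈ UU u, ∃ t ∈ SU u ε ω, ‖z - t‖ < d := by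
    intro z hz
    obtain ⟨s, hs, h⟩ := C.hol z hz z (by rw [sub_self, norm_zero]; exact C.d0.le)
    exact ⟨s, Finset.mem_coe.1 hs, by rw [norm_sub_rev]; exact h⟩
  refine ⟨L.lay.fp, C.card, e0, C.d0, hd, fun a z hz => key z ?_, fun a z h1 h2 => key z ?_,
    fun a v _ hv => C.inn ?_⟩
  · exact RR_sub L hh (by linarith) (by linarith) (by linarith) (by linarith) a hz
  · refine RR_sub L hh (a' := 13 * η) (b' := 52 * η) (by linarith) (by linarith) (by linarith)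
      (by linarith) a ?_
    exact win_right L.lay.fp (by linarith) (by linarith) (lt_of_lt_of_le h1 (by linarith)) h2
  · exact RR_sub L hh (by linarith) (by linarith) (by linarith) (by linarith) a hv

end env

variable {S : Finset ℂ} {hS : GP (S : Set ℂ)} {M : ℕ} {W : ℤ → ℤ × ℤ} {η d : ℝ} {o : ℤ} {n : ℕ}
  {a' b' g : ℕ} {i j G : ℤ} {h₀ : ℂ} {J : Set ℤ}

/-- every site above the strips at the gate `G` is joined to `h₀` off all strips and off the fat
strips of `J` -/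
def HT (S : Finset ℂ) (η d : ℝ) (W : ℤ → ℤ × ℤ) (G : ℤ) (J : Set ℤ) (h₀ : ℂ) : Prop :=
  ∀ s ∈ S, |X (gz (100 * η) W G) (ge W G) s| < η →
    19 / 2 * η ≤ Y (gz (100 * η) W G) (ge W G) s → Y (gz (100 * η) W G) (ge W G) s ≤ 11 * η →
      Pth S (TA S η d W J) s h₀

/-- the tiles of `J` do not touch the gate `G` -/
def Tch (M : ℕ) (G : ℤ) (J : Set ℤ) : Prop := ∀ a ∈ J, ¬ (M : ℤ) ∣ a - G ∧ ¬ (M : ℤ) ∣ a - (G - 1)

/-- **903's `top_pth`** -/
theorem ht_env {u : Poly} {m : ℕ} {p : ℤ → ℤ × ℤ} {A e : ℤ → ℤ} {ε K1 c2 ρ0 : ℝ} {ω : Sample}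
    {k : ℤ} (C : CorEnv u ε d K1 c2 ρ0 ω) (L : LayU u m M p W A e)
    (hh : (m : ℝ) * (100 * η) = u.s) (hd : 100 * d ≤ η) (h1 : A k + 4 ≤ G)
    (h2 : G + 4 ≤ A (k + 1)) (hJ : Tch M G J) (hx : OnHull (SU u ε ω) h₀) :
    HT (SU u ε ω) η d W G J h₀ := by
  intro s hs g1 g2 g3
  have key := HTopx903.top_pth (J := J) C L hh hd h1 h2 (fun b hb => ?_) hx hs g1 g2 g3
  · refine key.mono ?_
    rintro q ⟨q1, q2, q3⟩
    exact ⟨q1, q2, q3⟩
  · obtain ⟨k1, k2⟩ := hJ b hb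
    constructor
    · intro h
      apply k1
      rw [← neg_sub]
      exact (dvd_neg.2 h)
    · intro h
      apply k2
      rw [show b - (G - 1) = -(G - (b + 1)) by ring]
      exact (dvd_neg.2 h)

/-! ### the column -/

variable {X₀ : Set (ℂ × Bool)} {U : Set ℂ}

/-- **the column in cells** -/
theorem col_ht (H : CorH X₀ U M W η d o n) (hT : HT (sX X₀) η d W G J h₀) :
    ∃ t ∈ CS H.gp (cmp (sX X₀) (TA (sX X₀) η d W J) h₀),
      K33x137.Lk (rc0 H.gp) ({c | c ∈ RC H.gp (KW η W G) ∧ rcol H.gp (cX X₀) H.hull c = 0} ∪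
        CS H.gp (cmp (sX X₀) (TA (sX X₀) η d W J) h₀)) (Rc (rc0 H.gp) (H.st G)) t := by
  have E := Env.of_cor H
  have h3 := E.h3
  have e0 := H.e0
  obtain ⟨hx, t₀, ht, hY, hp⟩ := LnkLx927.col_path H G
  have hl : Neckx921.Lk (sX X₀) (LnkLx927.Col η W X₀ G) (xx η W X₀ G) t₀ := lk_of_pth ⟨hx, hp⟩
  have hT0 : t₀ ∈ cmp (sX X₀) (TA (sX X₀) η d W J) h₀ :=
    hT t₀ ht.1.1 ht.2.1 (by linarith) ht.2.2.2
  refine ⟨cs H.gp h3 ⟨t₀, ht.1.1⟩, mem_CS h3 (v := ⟨t₀, ht.1.1⟩) hT0, ?_⟩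
  have e : Rc (rc0 H.gp) (H.st G) = cs H.gp h3 ⟨xx η W X₀ G, hx.1.1⟩ := rfl
  rw [e]
  refine lk_rc h3 (u := ⟨xx η W X₀ G, hx.1.1⟩) (w := ⟨t₀, ht.1.1⟩) ?_ hl
  rintro ⟨v, hv⟩ hvc
  rcases lt_or_ge (Y (gz (100 * η) W G) (ge W G) v) (19 / 2 * η) with h | h
  · have hK : v ∈ KW η W G := ⟨hvc.2.1, abs_lt.2 ⟨by linarith [hvc.2.2.1], h⟩⟩
    refine Or.inl ⟨(mem_RC h3 (E.inn_bst G hv (E.kw_bst hK).1)).2 hK, ?_⟩
    rw [rcol_cs]
    have h1 := hvc.1.2
    rw [← DCorGx713.bX_iff v hv] at h1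
    revert h1
    generalize cX X₀ v = c
    revert c; decide
  · exact Or.inr (mem_CS h3 (v := ⟨v, hv⟩) (hT v hv hvc.2.1 h hvc.2.2.2))

/-! ### 228's `Sds` -/

/-- **the right side, any configuration with the sites `S`** -/
theorem sds_R (H : CorH X₀ U M W η d o n) (e : sX X₀ = S) (E : Env S M W η d)
    (N : NR M n b' g o i) {p : ℕ → D0 S}
    (hp : ∀ k : ℕ, (p k).1 = (yy η W X₀ (o + k), xx η W X₀ (o + k)))
    (hT : HT S η d W (o + g) {a | a = o + n - 1 ∨ i ≤ a ∧ a < o + b'} h₀) :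
    PLJx228.Sds hS X₀ η W o p (zR E hS N h₀) (UB (Bk η W o) b' (n - 1) \
      PLJx228.WT η W i (o + b')) (Bk η W o (n - 1)) (Bk η W o b') b' n := by
  subst e
  have hpe : p = H.p := funext fun k => Subtype.ext (hp k)
  subst hpe
  intro hχ
  exact
    { R := rs2_rc (Env.of_cor H).inn_UR
      E := fun d' hd c hc hn => zR_E (Env.of_cor H) N hd hc hn
      W := fun d' hd c hc hn => zR_W (Env.of_cor H) N hd hc hn
      col := ⟨g, N.g1, by have := N.g2; omega, H.coly _, col_ht H hT⟩ }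

/-- **the left side, any configuration with the sites `S`** -/
theorem sds_L (H : CorH X₀ U M W η d o n) (e : sX X₀ = S) (E : Env S M W η d)
    (N : NL M n a' g o j) {p : ℕ → D0 S}
    (hp : ∀ k : ℕ, (p k).1 = (yy η W X₀ (o + k), xx η W X₀ (o + k)))
    (hT : HT S η d W (o + g) {a | a = o ∨ o + a' ≤ a ∧ a < j} h₀) :
    PLJx228.Sds hS X₀ η W o p (zL E hS N h₀) (UB (Bk η W o) 1 a' \
      PLJx228.WT η W (o + a') j) (Bk η W o (a' - 1)) (Bk η W o 0) 0 a' := by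
  subst e
  have hpe : p = H.p := funext fun k => Subtype.ext (hp k)
  subst hpe
  intro hχ
  exact
    { R := rs2_rc (Env.of_cor H).inn_UL
      E := fun d' hd c hc hn => zL_E (Env.of_cor H) N hd hc hn
      W := fun d' hd c hc hn => zL_W (Env.of_cor H) N hd hc hn
      col := ⟨g, by have := N.g1; omega, N.g2, H.coly _, col_ht H hT⟩ }

/-- the tiles of the right zone do not touch the gate -/
theorem tch_R (N : NR M n b' g o i) :
    Tch M (o + g) {a | a = o + n - 1 ∨ i ≤ a ∧ a < o + b'} := by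
  have := N.hb; have := N.g1; have := N.g2; have := N.hM; have := N.nM
  rintro a (ha | ⟨ha, ha'⟩)
  · exact ⟨nd (by omega) (by omega) (by omega), nd (by omega) (by omega) (by omega)⟩
  · exact ⟨nd (by omega) (by omega) (by omega), nd (by omega) (by omega) (by omega)⟩

/-- the tiles of the left zone do not touch the gate -/
theorem tch_L (N : NL M n a' g o j) : Tch M (o + g) {a | a = o ∨ o + a' ≤ a ∧ a < j} := by
  have := N.ha; have := N.g1; have := N.g2; have := N.hM; have := N.nM; have := N.han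
  rintro a (ha | ⟨ha, ha'⟩)
  · exact ⟨nd (by omega) (by omega) (by omega), nd (by omega) (by omega) (by omega)⟩
  · exact ⟨nd (by omega) (by omega) (by omega), nd (by omega) (by omega) (by omega)⟩

end Crest.Agent.R143.ZnQx323
end
end

-- ▼ part R143/PoS_983
section

/-!
# Row 143 (S0194), RIG box Q2: static half of 535's `Sb`, `Fix`, `win_sys` for a window (helper983)

Regions of sites, cells `Cs hS` of `rc0 hS`; `RC hS B` = cells of the inner sites of `B` (422).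

* `Lc hS B` : `RC hS B` as a `Finset` (the set `L` of `win_sys` for the region `B` of the weight)
* **`loc_Lc`** : a function of the coloured sites local on `B` depends on the colours of `Lc hS B`;
  `loc_paint` (176's form `paint S (bk hS h3 σ)`), `loc_real`; **`hgL`** : the weight of a net
* `RC_disj`, `RC_union`, `RC_iUnion`, `RC_diff`, `RC_cov` : regions and sets of cells
* **`LT_rc`** : field `LT` of `Sb`; **`nb_rc`** : the neighbours of `L` are off a window at distance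
  more than the mesh (776's `Out`, 434's `L1`)
* **`sup_rc`** : the hypothesis `sup` of `win_sys` for the frozen field of a region (66)
* `fix` : `PLx535.Fix` from the regions of the two sides and the top zones
* `Wd h A B W p q` : the tiles `p < a < q`; `far_net`, `LT_net`, `nb_net`, `hgL_net` : for 765's
  corridor net and the weight off the window `p .. q` (304's `Iw`, `Jw`)
-/

set_option autoImplicit false
set_option linter.unusedSectionVars false

noncomputable section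

open scoped Classical

namespace Crest.Agent.R143.PoSx983

open Set
open Crest.Agent.R143.B0x346 Crest.Agent.R143.DelGx806 Crest.Agent.R143.FinCx811
open Crest.Agent.R143.Frame1x395 Crest.Agent.R143.Frame2x395 Crest.Agent.R143.Frame3x395
  Crest.Agent.R143.Frame4x395 Crest.Agent.R143.Frame8x395 Crest.Agent.R143.Frame10x395
open Crest.Agent.R143.PP0x831 Crest.Agent.R143.PWx978 Crest.Agent.R143.ColXx829
open Crest.Agent.R143.RcTx422
open Crest.Agent.R143.Extx358 (Ad Ext)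
open Crest.Agent.R143.Blkx838 (DE)
open Crest.Agent.R143.Dbl2x609 (paint)
open Crest.Agent.R143.Engx490 (bk)

variable {S : Finset ℂ} {hS : GP (S : Set ℂ)} {h3 : 3 ≤ S.card} {B B' : Set ℂ}

/-! ### the cells of a region as a finite set -/

/-- **the cells of the inner sites of a region** -/
def Lc (hS : GP (S : Set ℂ)) (B : Set ℂ) : Finset (Cs hS) := (Set.toFinite (RC hS B)).toFinset

theorem mem_Lc {c : Cs hS} : c ∈ Lc hS B ↔ c ∈ RC hS B := Set.Finite.mem_toFinset _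





section loc

variable {E : Type*} {F : Set (ℂ × Bool) → E} {σ τ : Cs hS → ZMod 2}




end loc

section net

variable {ε : ℝ} {ι κ : Type} (N : Net ε ι κ)



end net

/-! ### regions and sets of cells -/

/-- disjoint regions of sites -/
theorem RC_disj' (h : ∀ v ∈ S, v ∈ B → v ∉ B') : Disjoint (RC hS B) (RC hS B') := by
  rw [Set.disjoint_left]
  rintro c ⟨v, h1, h2, hv, e⟩ hc
  exact h v h1 h2 ((val_RC hv e).1 hc).2

theorem RC_disj (h : Disjoint B B') : Disjoint (RC hS B) (RC hS B') :=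
  RC_disj' fun _ _ h1 h2 => Set.disjoint_left.1 h h1 h2

theorem RC_union : RC hS (B ∪ B') = RC hS B ∪ RC hS B' := by
  ext c
  constructor
  · rintro ⟨v, h1, h2 | h2, h4, e⟩
    · exact Or.inl ⟨v, h1, h2, h4, e⟩
    · exact Or.inr ⟨v, h1, h2, h4, e⟩
  · rintro (⟨v, h1, h2, h4, e⟩ | ⟨v, h1, h2, h4, e⟩)
    · exact ⟨v, h1, Or.inl h2, h4, e⟩
    · exact ⟨v, h1, Or.inr h2, h4, e⟩

theorem RC_iUnion {κ : Type*} {G : κ → Set ℂ} : RC hS (⋃ k, G k) = ⋃ k, RC hS (G k) := by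
  ext c
  rw [mem_iUnion]
  constructor
  · rintro ⟨v, h1, h2, h4, e⟩
    obtain ⟨k, hk⟩ := mem_iUnion.1 h2
    exact ⟨k, v, h1, hk, h4, e⟩
  · rintro ⟨k, v, h1, h2, h4, e⟩
    exact ⟨v, h1, mem_iUnion.2 ⟨k, h2⟩, h4, e⟩







/-! ### the field -/

open Crest.Agent.R143.Sptx169 (rst)
open Crest.Agent.R143.Sptx832 (FQ)
open Crest.Agent.R143.Locx922 (Hol)

/-- **the hypothesis `sup` of `win_sys`** : a face with centre in the region `Q l` has no vertex in a
region off the `d`-neighbourhood of `Q l` -/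
theorem sup_rc {d : ℝ} {m l : ℕ} {Q : ℕ → Set ℂ} {w : D0 S → ℂ} (hd : 0 < d)
    (hH : Hol (S : Set ℂ) (Q l) d) (hoff : ∀ z ∈ Q l, ∀ v, ‖v - z‖ < d → ¬ OnHull S v)
    (hB : Disjoint B (Metric.thickening d (Q l))) {R : Set (Cs hS)} (hR : R ⊆ RC hS B) (h : D0 S)
    (h0 : rst w (FQ S m Q l) h ≠ 0) :
    (rc0 hS).cell h ∉ R ∧ (rc0 hS).cell ((rc0 hS).rho h) ∉ R ∧
      (rc0 hS).cell ((rc0 hS).rho ((rc0 hS).rho h)) ∉ R := by
  have h1 := (QuAx66.supp hd hH h h0).1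
  obtain ⟨n1, n2, n3⟩ := QuAx66.vert_lt hd hH h h1
  have key : ∀ v : ℂ, ‖v - FinMx609.cen3 (Engx490.fc S h)‖ < d → ∀ c : Cs hS, c.1 = Quot.mk _ v →
      c ∉ R := by
    intro v hv c e hc
    have h2 := (val_RC (hoff _ h1 v hv) e).1 (hR hc)
    refine Set.disjoint_left.1 hB h2.2 (Metric.mem_thickening_iff.2 ⟨_, h1, ?_⟩)
    rwa [dist_eq_norm]
  exact ⟨key _ n1 _ (cell_val h), key _ n2 _ (cell_rho_val h), key _ n3 _ (cell_rho2_val h)⟩

/-! ### the static record -/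

/-- **`PLx535.Fix`** from the regions `G k` of the two sides, the windows `K k` of the columns, the
white region `Rw` and the enlarged window `Tw` -/
theorem fix {κ : Type} {Z : κ → Uniqx323.Zn (rc0 hS)} {G K : κ → Set ℂ} {Rw Tw : Set ℂ}
    (hZ : ∀ k, (Z k).R = RC hS (G k)) (hK : ∀ k, (Z k).K ⊆ RC hS (K k))
    (dG : ∀ k k', k ≠ k' → Disjoint (G k) (G k')) (dR : ∀ k, Disjoint (K k) Rw)
    (dT : ∀ k, Disjoint (K k) Tw)
    (top : ∀ k, ∀ t ∈ (Z k).T,
      Ext (rc0 hS) (Hc hS) (RC hS (((⋃ j, G j) ∪ Rw) ∪ Tw)) t) :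
    PLx535.Fix (rc0 hS) (Hc hS) (RC hS Rw) (RC hS Tw) Z where
  hR := fun c hc => Hc_RC hc
  dis := fun k k' h => by
    rw [hZ, hZ]
    exact RC_disj (dG k k' h)
  KR := fun k => (RC_disj (dR k)).mono_left (hK k)
  KT := fun k => (RC_disj (dT k)).mono_left (hK k)
  top := fun k t ht => by
    have h1 := top k t ht
    rw [RC_union, RC_union, RC_iUnion] at h1
    have h2 : (⋃ j, (Z j).R) = ⋃ j, RC hS (G j) := by
      congr 1
      funext j
      exact hZ j
    rw [h2]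
    exact h1
  con := fun _ => con_rc

/-! ### the corridor net -/

section wnd

open Crest.Agent.R143.TileRx228 Crest.Agent.R143.PthFx765 Crest.Agent.R143.HqPx304
  Crest.Agent.R143.CorNx765 Crest.Agent.R143.Tplx978 Crest.Agent.R143.WndIx416

/-- the tiles `p < a < q` -/
def Wd (A B h : ℝ) (W : ℤ → ℤ × ℤ) (p q : ℤ) : Set ℂ := {s | ∃ a, p < a ∧ a < q ∧ s ∈ RR A B h W a}



variable {M : ℕ} {W : ℤ → ℤ × ℤ} {Ac e : ℤ → ℤ} {A₀ B₀ h ε : ℝ} {T : Tpl ε (Tn × Bool)}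
  [DecidableEq (ZMod M)]

/-- **the regions of the corridor net off the window `p .. q` are far from the tiles `p < a < q`** -/
theorem far_net (P : FPath M W) (Hs : Std T A₀ B₀ h Prod.fst) (i : ZMod 3)
    (I J : Finset (ZMod M)) (p q : ℤ) {ρ : ℝ} (hρ : 0 ≤ ρ) (hh : A₀ + B₀ + ρ ≤ h) :
    Disjoint ((cpth P Hs Ac e i).net.reg (I \ Iw M p q) (J \ Jw M p q))
      (Metric.thickening ρ (Wd A₀ B₀ h W p q)) := by
  rw [Set.disjoint_left]
  intro s hs ht
  obtain ⟨t, ⟨a, h1, h2, ht⟩, hst⟩ := Metric.mem_thickening_iff.1 ht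
  exact Set.disjoint_left.1 (far_win P Hs (cty_typ i) I J h1 h2 hρ hh) hs
    (Metric.mem_thickening_iff.2 ⟨t, ht, hst⟩)

theorem dsj_net (P : FPath M W) (Hs : Std T A₀ B₀ h Prod.fst) (i : ZMod 3)
    (I J : Finset (ZMod M)) (p q : ℤ) (hh : A₀ + B₀ < h) :
    Disjoint ((cpth P Hs Ac e i).net.reg (I \ Iw M p q) (J \ Jw M p q)) (Wd A₀ B₀ h W p q) :=
  (far_net P Hs i I J p q (ρ := h - (A₀ + B₀)) (by linarith) (by linarith)).mono_right
    (Metric.self_subset_thickening (by linarith) _)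


variable {S : Finset ℂ} {hS : GP (S : Set ℂ)} {h3 : 3 ≤ S.card}






end wnd

end Crest.Agent.R143.PoSx983
end
end

-- ▼ part R143/SupG_827
section

/-!
# Row 143 (S0194), RIG box Q2: the hypothesis `sup` of the windows of a corridor (helper827)

* `qx_far` : a tile which is not `l - 1`, `l`, `l + 1` is far from 169's region `QX .. l`
* under `CorH` (713): `qx_U`, `qx_hol`, `qx_off` : the regions are in the environment
* **`sup_cor`** : the three cells of a face of `Ft .. l` (831) are not cells of sites of the tiles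
  `a ≤ k < b`, if `b + 1 ≤ n - 1 - l` or `n - 1 - l + 2 ≤ a`
* **`spt_two`**, `spt_right`, `spt_left` : 228's `Spt` for the three windows
-/

set_option autoImplicit false
set_option linter.unusedSectionVars false

noncomputable section

open scoped Classical

namespace Crest.Agent.R143.SupGx827

open Set
open Crest.Agent.R143.B0x346 Crest.Agent.R143.DelGx806
open Crest.Agent.R143.Frame1x395 Crest.Agent.R143.Frame2x395 Crest.Agent.R143.Frame3x395
  Crest.Agent.R143.Frame4x395 Crest.Agent.R143.Frame8x395 Crest.Agent.R143.Frame10x395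
open Crest.Agent.R143.Splx117 Crest.Agent.R143.WLocx713 Crest.Agent.R143.PP0x831
open Crest.Agent.R143.TileRx228 Crest.Agent.R143.SpRx169
open Crest.Agent.R143.CorHx713 Crest.Agent.R143.CorrIx831
open Crest.Agent.R143.FinCx811 (Cs rc0)
open Crest.Agent.R143.SubDx117 (UB)
open Crest.Agent.R143.SubHx117 (clS clS_eq)
open Crest.Agent.R143.RcTx422 (RC)
open Crest.Agent.R143.Locx922 (Hol)
open Sptx169 (rst)
open Sptx832 (FQ)
open PLIx228 (Spt)

/-! ### geometry -/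

section geo

variable {A B h d : ℝ} {M : ℕ} {W : ℤ → ℤ × ℤ} {o : ℤ} {n k l : ℕ}

/-- **a tile which is not a neighbour is far from the region** -/
theorem qx_far (P : FPath M W) (hh : 0 < h) (hd : 0 ≤ d) (hA0 : 0 ≤ A) (hA : A + d ≤ h / 2)
    (hB : B + d ≤ h) (hM : M = 0 ∨ n + 1 < M) (hk : k < n) (hl : l < n)
    (hkl : k + 2 ≤ l ∨ l + 2 ≤ k) :
    Disjoint (RR A B h W (o + k)) (Metric.thickening d (QX h W o n l)) := by
  rw [Set.disjoint_left]
  intro t ht h1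
  obtain ⟨z, hz, hzt⟩ := Metric.mem_thickening_iff.1 h1
  rw [dist_comm, dist_eq_norm] at hzt
  obtain ⟨i, hi, hil⟩ := qx_mem hz
  have key : ∀ a : ℤ, (M : ℤ) ∣ a → |a| ≤ (n + 1 : ℕ) → a = 0 := fun a => dvd_small hM
  have hb : ∀ c : ℤ, -1 ≤ c → c ≤ 1 → |i - (k + c)| ≤ ((n + 1 : ℕ) : ℤ) := by
    intro c h1 h2
    rw [abs_le]
    push_cast
    omega
  rcases Rg_near' P hh hd hA0 hA hB ht hzt.le hi with h2 | h2 | h2
  · have h3 := key (i - (k + -1)) (by convert h2 using 1; ring) (hb _ (by norm_num) (by norm_num))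
    omega
  · have h3 := key (i - (k + 0)) (by convert h2 using 1; ring) (hb _ (by norm_num) (by norm_num))
    omega
  · have h3 := key (i - (k + 1)) (by convert h2 using 1; ring) (hb _ (by norm_num) (by norm_num))
    omega

end geo

/-! ### the environment -/

section env

variable {X : Set (ℂ × Bool)} {U : Set ℂ} {M : ℕ} {W : ℤ → ℤ × ℤ} {η d : ℝ} {o : ℤ} {n l : ℕ}








end env

/-! ### 228's `Spt` -/

section spt

variable {X : Set (ℂ × Bool)} {U : Set ℂ} {M : ℕ} {W : ℤ → ℤ × ℤ} {η d : ℝ} {o : ℤ} {n l : ℕ}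
  {T₁ : Set ℂ} {a' b' : ℕ}







end spt

end Crest.Agent.R143.SupGx827
end
end

-- ▼ part R143/SupH_827
section

/-!
# Row 143 (S0194), RIG box Q2: `sup`, static form (helper827)

No colouring: only the path, the environment without holes and the hull.
* **`bst_far`** : the strip of the tile `x` is far from 169's region of the tile `k`
* `ub_far`, **`sup_st`**, `spt_st` : the hypothesis `sup` for `Ft S η W o n l` (831)
-/

set_option autoImplicit false
set_option linter.unusedSectionVars false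

noncomputable section

open scoped Classical

namespace Crest.Agent.R143.SupHx827

open Set
open Crest.Agent.R143.B0x346 Crest.Agent.R143.DelGx806
open Crest.Agent.R143.Frame1x395 Crest.Agent.R143.Frame2x395 Crest.Agent.R143.Frame3x395
  Crest.Agent.R143.Frame4x395 Crest.Agent.R143.Frame8x395 Crest.Agent.R143.Frame10x395
open Crest.Agent.R143.Splx117 Crest.Agent.R143.WLocx713 Crest.Agent.R143.PP0x831
open Crest.Agent.R143.TileRx228 Crest.Agent.R143.SpRx169
open Crest.Agent.R143.CorHx713 Crest.Agent.R143.CorrIx831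
open Crest.Agent.R143.FinCx811 (Cs rc0)
open Crest.Agent.R143.SubDx117 (UB)
open Crest.Agent.R143.SubHx117 (clS clS_eq)
open Crest.Agent.R143.RcTx422 (RC)
open Crest.Agent.R143.Locx922 (Hol)
open Sptx169 (rst)
open Sptx832 (FQ)
open PLIx228 (Spt)

variable {S : Finset ℂ} {hS : GP (S : Set ℂ)} {M : ℕ} {W : ℤ → ℤ × ℤ} {η d : ℝ} {o : ℤ} {n : ℕ}

/-- **the strip of the tile `x` is far from the region of the tile `k`** -/
theorem bst_far (P : FPath M W) (e0 : 0 < η) (d0 : 0 ≤ d) (hd : d ≤ 40 * η) (hM : n + 2 ≤ M) :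
    ∀ k < n, ∀ x < n, x + 2 ≤ k ∨ k + 2 ≤ x →
      Disjoint (bst η W (o + x)) (Metric.thickening d (QX (100 * η) W o n k)) :=
  fun _ hk _ hx h => SupGx827.qx_far P (by linarith) d0 (by linarith) (by linarith) (by linarith)
    (Or.inr (by omega)) hx hk h




end Crest.Agent.R143.SupHx827
end
end

-- ▼ part R143/PLK_228

/-!
# Row 143 (S0194), RIG box Q2: all windows of the corridor (helper228)

* `TD`, **`LXW`** : LOCX for all pieces of a strand, the only hypothesis on the curtain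
* `sup_R`, `sup_L` : the field of a tile has no face inside a piece
* `lt_of` : the cells of the weight are off the window
* **`hP_of`** : 810's hypothesis `hP` (`Pw` for every strand tile) for 416's canonical windows
-/

set_option autoImplicit false
set_option linter.unusedSectionVars false
set_option linter.unusedVariables false

noncomputable section

open scoped Classical

namespace Crest.Agent.R143.PLKx228

open Crest.Agent.R143.B0x346 Crest.Agent.R143.DelGx806 Crest.Agent.R143.DelRx806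
  Crest.Agent.R143.JColx54
open Crest.Agent.R143.Frame1x395 Crest.Agent.R143.Frame2x395 Crest.Agent.R143.Frame3x395
  Crest.Agent.R143.Frame4x395 Crest.Agent.R143.Frame8x395 Crest.Agent.R143.Frame9x395
  Crest.Agent.R143.Frame10x395 Crest.Agent.R143.Frame11x395
open Crest.Agent.R143.Splx117 Crest.Agent.R143.WLocx713
open Crest.Agent.R143.PP0x831 Crest.Agent.R143.PWx978 Crest.Agent.R143.Tplx978
open Crest.Agent.R143.TileRx228 Crest.Agent.R143.PthFx765 Crest.Agent.R143.HqPx304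
  Crest.Agent.R143.CorNx765 Crest.Agent.R143.WndIx416
open Crest.Agent.R143.RingDx117 Crest.Agent.R143.CorrDx117
open Crest.Agent.R143.StrBx117 Crest.Agent.R143.SubDx117 Crest.Agent.R143.SubEx117
open Crest.Agent.R143.CorHx713 Crest.Agent.R143.CorrIx831
open Crest.Agent.R143.RingPx503 (Dsj)
open Crest.Agent.R143.ConfTx503 (rr_sub)
open Crest.Agent.R143.NonXx592 (Rc P)
open Crest.Agent.R143.PLx535 Crest.Agent.R143.PLSx535
open Crest.Agent.R143.K33x137 Crest.Agent.R143.Uniqx323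
open Crest.Agent.R143.FinCx811 (Cs rc0 cs rcol)
open Crest.Agent.R143.RcTx422 (Hc RC RC_mono)
open Crest.Agent.R143.ZnQx323 (Env NR NL zR zL UR UL T₁ Offg HT Tch sds_R sds_L tch_R tch_L)
open Crest.Agent.R143.LayQx811 Crest.Agent.R143.Layx416 Crest.Agent.R143.WndGx416
open Crest.Agent.R143.ColXx829 (Xc)
open Extx358 (Ext Ad Bd)
open OutSx358 (ac zc)
open SysAx168 (EvA)
open Sptx169 (rst)
open Sptx832 (FQ)
open SpRx169 (QX)
open Crest.Agent.R143.Locx922 (Hol)
open Crest.Agent.R143.PLIx228 (LX)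
open Crest.Agent.R143.SubHx117 (clS clS_eq)
open Crest.Agent.R143.PLJx228

/-! ### LOCX -/

section lxw

variable {S : Finset ℂ} {hS : GP (S : Set ℂ)}

/-- the states whose two cells are in `Tw` -/
def TD (hS : GP (S : Set ℂ)) (Tw : Set (Cs hS)) : Set (D0 S) :=
  {d | (rc0 hS).cell d ∈ Tw ∧ Rc (rc0 hS) d ∈ Tw}

/-- **LOCX for all pieces** of the strand `0 .. m` of `q` -/
def LXW (hS : GP (S : Set ℂ)) (Rw Tw : Set (Cs hS)) (L : Finset (Cs hS)) (s : Cs hS → ZMod 2)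
    (q : D0 S) (m : ℕ) : Prop :=
  ∀ (κ : Type) [Fintype κ] (qq : κ → D0 S × ℕ),
    Pcs (rc0 hS) (cfg (rc0 hS) s) q m (TD hS Tw) qq →
    (∀ c ∈ L, Ext (rc0 hS) (Hc hS) (zc (rc0 hS) Rw q m s) c →
      Ext (rc0 hS) (Hc hS) (Zt Rw Tw (Ac (rc0 hS) qq s) s) c) ∧
    ∀ c ∈ L, c ∈ Bd (rc0 hS) (Hc hS) (zc (rc0 hS) Rw q m s) →
      c ∈ Ac (rc0 hS) qq s ∨ ∃ e, Ext (rc0 hS) (Hc hS) (Zt Rw Tw (Ac (rc0 hS) qq s) s) e ∧
        Ad (rc0 hS) e c

theorem LXW.lx {Rw Tw : Set (Cs hS)} {L : Finset (Cs hS)} {s : Cs hS → ZMod 2} {q : D0 S} {m : ℕ}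
    (h : LXW hS Rw Tw L s q m) {κ : Type} [Fintype κ] {Zk : κ → Zn (rc0 hS)} {F : Set ℂ}
    (hF : clS hS F ⊆ Tw) : LX hS (Hc hS) Rw Tw (RD S F) Zk L s q m := fun qq _ hP =>
  h κ qq ⟨hP.sub, fun i hi => (hP.cov i hi).imp id fun h => rd_clS hF _ h⟩

end lxw

/-! ### 323's zones -/

section zones

variable {S : Finset ℂ} {hS : GP (S : Set ℂ)} {X : Set (ℂ × Bool)} {U : Set ℂ} {M : ℕ}
  {W : ℤ → ℤ × ℤ} {η d : ℝ} {o : ℤ} {n : ℕ} {p : ℕ → D0 S} {a' b' g : ℕ} {i j : ℤ} {h₀ : ℂ}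

/-- the region of a piece is in the union of its tiles -/
theorem sup_R (E : Env S M W η d) (N : NR M n b' g o i) {m l : ℕ} {Q : ℕ → Set ℂ} {w : D0 S → ℂ}
    (hH : Hol (S : Set ℂ) (Q l) d) (hoff : ∀ z ∈ Q l, ∀ v, ‖v - z‖ < d → ¬ OnHull S v)
    (hf : ∀ x : ℕ, b' ≤ x → x < n → Disjoint (bst η W (o + x)) (Metric.thickening d (Q l)))
    (h : D0 S) (h0 : rst w (FQ S m Q l) h ≠ 0) :
    ¬ ((rc0 hS).cell h ∈ (zR E hS N h₀).R ∧ (rc0 hS).cell ((rc0 hS).rho h) ∈ (zR E hS N h₀).R ∧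
      (rc0 hS).cell ((rc0 hS).rho ((rc0 hS).rho h)) ∈ (zR E hS N h₀).R) := fun hc =>
  (PoSx983.sup_rc (hS := hS) (B := UR η W o n b' i) (m := m) (w := w) E.d0 hH hoff (by
    rw [Set.disjoint_left]
    rintro s ⟨⟨x, h1, h2, h3⟩, -⟩ hs
    exact Set.disjoint_left.1 (hf x h1 (by omega)) h3 hs) (R := RC hS (UR η W o n b' i))
    le_rfl h h0).1 hc.1

theorem sup_L (E : Env S M W η d) (N : NL M n a' g o j) {m l : ℕ} {Q : ℕ → Set ℂ} {w : D0 S → ℂ}
    (hH : Hol (S : Set ℂ) (Q l) d) (hoff : ∀ z ∈ Q l, ∀ v, ‖v - z‖ < d → ¬ OnHull S v)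
    (hf : ∀ x : ℕ, x < a' → Disjoint (bst η W (o + x)) (Metric.thickening d (Q l)))
    (h : D0 S) (h0 : rst w (FQ S m Q l) h ≠ 0) :
    ¬ ((rc0 hS).cell h ∈ (zL E hS N h₀).R ∧ (rc0 hS).cell ((rc0 hS).rho h) ∈ (zL E hS N h₀).R ∧
      (rc0 hS).cell ((rc0 hS).rho ((rc0 hS).rho h)) ∈ (zL E hS N h₀).R) := fun hc =>
  (PoSx983.sup_rc (hS := hS) (B := UL η W o a' j) (m := m) (w := w) E.d0 hH hoff (by
    rw [Set.disjoint_left]
    rintro s ⟨⟨x, h1, h2, h3⟩, -⟩ hs
    exact Set.disjoint_left.1 (hf x h2) h3 hs) (R := RC hS (UL η W o a' j))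
    le_rfl h h0).1 hc.1

/-- disjoint regions of sites, one of them without hull sites -/
theorem lt_of {h3 : 3 ≤ S.card} {V V' : Set ℂ} (h : Disjoint V V') :
    ∀ c ∈ QuYx810.Lc hS h3 V, c ∉ RC hS V' := by
  rintro c hc ⟨v, hv, hvV, hn, e⟩
  obtain ⟨w, hw, hwV, rfl⟩ := QuYx810.mem_Lc.1 hc
  have e' : (Quot.mk (hullE S) v : Quot (hullE S)) = Quot.mk _ w := e.symm
  have e2 : w = v := quot_inner hS hn e'
  subst e2
  exact Set.disjoint_left.1 h hwV hvV

/-- tiles of a window -/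
theorem clS_T₁ (E : Env S M W η d) {a b : ℕ} {i j : ℤ} (h : ∀ k : ℕ, a ≤ k → k < b →
    i ≤ o + k ∧ o + k < j) : clS hS (UB (Bk η W o) a b) ⊆ RC hS (T₁ η W i j) := by
  rintro c ⟨s, h1, ⟨k, k1, k2, k3⟩, e⟩
  exact ⟨s, h1, ⟨o + k, (h k k1 k2).1, (h k k1 k2).2, k3⟩, E.inn_bst _ h1 k3, e⟩

end zones

/-! ### all windows -/

section main

variable {S : Finset ℂ} {hS : GP (S : Set ℂ)} {h3 : 3 ≤ S.card} {U : Set ℂ} {n₀ M : ℕ} {m : ℤ}
  {pp W : ℤ → ℤ × ℤ} {A e : ℤ → ℤ} {η d ε : ℝ} {h₀ : ℂ} {T : Tpl ε (Tn × Bool)}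
  [DecidableEq (ZMod M)] {Q : Set (D0 S)} {Z₀ : Zn (rc0 hS)}

/-- **the window of one tile** -/
theorem pw_of (E : Env S M W η d) {o : ℤ} {n : ℕ} {a b : ℤ} {k : ℕ} (hk : k < n)
    (w0 : Wd W o n M k a b) (hh : OnHull S h₀) {L : Finset (Cs hS)}
    {G : (Cs hS → ZMod 2) → Prop}
    (LT : ∀ c ∈ L, c ∉ RC hS (T₁ η W (o + a) (o + b + 1)))
    (hone : ∀ s, G s → ∃ p q N T, One hS h3 U M W η d o n (Hc hS) (RC hS (Rws η W o n M)) Q Z₀
      s p q N T ∧ LXW hS (RC hS (Rws η W o n M)) (RC hS (T₁ η W (o + a) (o + b + 1))) L s q (T n))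
    (hht : ∀ (g : ℕ) (J : Set ℤ), g = 4 ∨ g = n - 4 → Tch M (o + g) J →
      HT S η d W (o + g) J h₀)
    {m' l : ℕ} {Ql : ℕ → Set ℂ} {w : D0 S → ℂ} (hH : Hol (S : Set ℂ) (Ql l) d)
    (hoff : ∀ z ∈ Ql l, ∀ v, ‖v - z‖ < d → ¬ OnHull S v)
    (hf : ∀ x : ℕ, x < n → (x + 2 ≤ k ∨ k + 2 ≤ x) →
      Disjoint (bst η W (o + x)) (Metric.thickening d (Ql l))) :
    ∃ (κ : Type) (_ : Fintype κ) (Z : κ → Zn (rc0 hS)) (Tw : Set (Cs hS)),
      QuYx810.Pw (rc0 hS) (Hc hS) (RC hS (Rws η W o n M)) (fun (i : D0 S × ℕ) _ => i.1)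
        (fun i _ => i.2) (EvA (rc0 hS) (Hc hS) (RC hS (Rws η W o n M)) Q Z₀) L
        (rst w (FQ S m' Ql l)) G κ Z Tw := by
  have D : Dsj (10 * η) (52 * η) (100 * η) M W := by
    have h1 := E.e0
    exact CorPx503.dsj_of E.path (by linarith) (by linarith) (by linarith)
  have hnM := w0.nM
  have e0 := E.e0
  rcases w0.cases (by omega) (by omega) with ⟨k', a₀, b₀, e1, rfl, rfl, g1, g2, g3, g4⟩ |
    ⟨k', b₀, e1, rfl, rfl, g1, g2, g3⟩ | ⟨k', a₀, e1, rfl, rfl, g1, g2, g3, g4⟩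
  · -- two sides
    obtain rfl : k = k' := by exact_mod_cast e1
    have N1 : NR M n (k + 2) (n - 4) o (o + (k - 1 : ℕ)) :=
      ⟨by omega, by omega, by omega, by omega, by omega, by omega⟩
    have N2 : NL M n (k - 1) 4 o (o + (k + 2 : ℕ)) :=
      ⟨by omega, by omega, by omega, by omega, by omega, by omega, by omega⟩
    have F := ZnQx323.fix_two (hS := hS) E N1 N2 hh (VR := Rws η W o n M)
      (VT := T₁ η W (o + a₀) (o + b₀ + 1))
      (ZnQx323.offg_Rws (by omega) (by omega) (by omega))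
      (ZnQx323.offg_Rws (by omega) (by omega) (by omega))
      (ZnQx323.offg_lt (by omega) (by omega))
      (ZnQx323.offg_gt (by push_cast; omega) (by push_cast; omega))
    refine ⟨Bool, inferInstance, _, _, pw2 (h3 := h3) (U := U) (M := M) (W := W) (η := η) (d := d) (n := n) (o := o)
      (a' := k - 1)
      (b' := k + 2) (T₁ := T₁ η W (o + (k - 1 : ℕ)) (o + (k + 2 : ℕ))) F ?_ (by omega) (by omega)
      (by omega) ?_ ?_ LT ?_⟩
    · rintro h h0 (_ | _)
      · exact sup_R E N1 hH hoff (fun x h1 h2 => hf x h2 (Or.inr (by omega))) h h0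
      · exact sup_L E N2 hH hoff (fun x h1 => hf x (by omega) (Or.inl (by omega))) h h0
    · exact win_of D e0 (by omega) (by omega) (by omega) (by omega)
    · exact clS_T₁ E fun x h1 h2 => by constructor <;> omega
    · intro s hs
      obtain ⟨p, q, N, T, O, hl⟩ := hone s hs
      exact ⟨p, q, N, T, O,
        sds_R O.H ColXx829.sX_Xc E N1 O.hp (hht _ _ (Or.inr rfl) (tch_R N1)),
        sds_L O.H ColXx829.sX_Xc E N2 O.hp (hht _ _ (Or.inl rfl) (tch_L N2)),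
        hl.lx (clS_T₁ E fun x h1 h2 => by constructor <;> omega)⟩
  · -- only the right side
    obtain rfl : k = k' := by exact_mod_cast e1
    have N1 : NR M n (k + 2) (n - 4) o (o + ((k : ℤ) - 1)) :=
      ⟨by omega, by omega, by omega, by omega, by omega, by omega⟩
    have F := ZnQx323.fix_R (hS := hS) E N1 hh (VR := Rws η W o n M)
      (VT := T₁ η W (o + -2) (o + b₀ + 1))
      (ZnQx323.offg_Rws (by omega) (by omega) (by omega))
      (ZnQx323.offg_lt (by omega) (by omega))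
    refine ⟨Unit, inferInstance, _, _, pwR (h3 := h3) (U := U) (M := M) (W := W) (η := η) (d := d) (n := n) (o := o)
      (a' := k - 1)
      (b' := k + 2) (T₁ := T₁ η W (o + ((k : ℤ) - 1)) (o + (k + 2 : ℕ))) F ?_ (by omega)
      (by omega) ?_ ?_ LT ?_⟩
    · rintro h h0 -
      exact sup_R E N1 hH hoff (fun x h1 h2 => hf x h2 (Or.inr (by omega))) h h0
    · exact win_of D e0 (by omega) (by omega) (by omega) (by omega)
    · exact clS_T₁ E fun x h1 h2 => by constructor <;> omega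
    · intro s hs
      obtain ⟨p, q, N, T, O, hl⟩ := hone s hs
      exact ⟨p, q, N, T, O,
        sds_R O.H ColXx829.sX_Xc E N1 O.hp (hht _ _ (Or.inr rfl) (tch_R N1)),
        hl.lx (clS_T₁ E fun x h1 h2 => by constructor <;> omega)⟩
  · -- only the left side
    obtain rfl : k = k' := by exact_mod_cast e1
    have N2 : NL M n (k - 1) 4 o (o + (k + 2 : ℕ)) :=
      ⟨by omega, by omega, by omega, by omega, by omega, by omega, by omega⟩
    have F := ZnQx323.fix_L (hS := hS) E N2 hh (VR := Rws η W o n M)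
      (VT := T₁ η W (o + a₀) (o + (n + 1) + 1))
      (ZnQx323.offg_Rws (by omega) (by omega) (by omega))
      (ZnQx323.offg_gt (by push_cast; omega) (by push_cast; omega))
    refine ⟨Unit, inferInstance, _, _, pwL (h3 := h3) (U := U) (M := M) (W := W) (η := η) (d := d) (n := n) (o := o)
      (a' := k - 1)
      (b' := k + 2) (T₁ := T₁ η W (o + (k - 1 : ℕ)) (o + (k + 2 : ℕ))) F ?_ (by omega)
      (by omega) (by omega) ?_ ?_ LT ?_⟩
    · rintro h h0 -
      exact sup_L E N2 hH hoff (fun x h1 => hf x (by omega) (Or.inl (by omega))) h h0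
    · exact win_of D e0 (by omega) (by omega) (by omega) (by omega)
    · exact clS_T₁ E fun x h1 h2 => by constructor <;> omega
    · intro s hs
      obtain ⟨p, q, N, T, O, hl⟩ := hone s hs
      exact ⟨p, q, N, T, O,
        sds_L O.H ColXx829.sX_Xc E N2 O.hp (hht _ _ (Or.inl rfl) (tch_L N2)),
        hl.lx (clS_T₁ E fun x h1 h2 => by constructor <;> omega)⟩

/-- **810's `hP`** : the windows of all strand tiles -/
theorem hP_of {A₀ B₀ h' : ℝ} (H : Lay n₀ M m pp W A e) (hm : 40 ≤ m) (i : ZMod 3)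
    (E : Env S M W η d) (Hs : Std T A₀ B₀ h' Prod.fst) (hA₀ : A₀ = 12 * η) (hB₀ : B₀ = 52 * η)
    (hh' : h' = 100 * η) (I J : Finset (ZMod M)) (hh : OnHull S h₀) {o : ℤ} {n : ℕ} (ho : o = al A e i) (hn : n = nn A e i)
    (hone : ∀ s, (cpth H.fp Hs A e i).net.gw I J (Xc hS h3 s) ≠ 0 →
      ∃ p q N T, One hS h3 U M W η d o n (Hc hS) (RC hS (Rws η W o n M)) Q Z₀ s p q N T)
    (hlx : ∀ s, (cpth H.fp Hs A e i).net.gw I J (Xc hS h3 s) ≠ 0 → ∀ p q N T,
      One hS h3 U M W η d o n (Hc hS) (RC hS (Rws η W o n M)) Q Z₀ s p q N T → ∀ k < n,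
        LXW hS (RC hS (Rws η W o n M)) (RC hS (T₁ η W (o + wa A W o n M k) (o + wb A W o n M k + 1)))
          (QuYx810.Lc hS h3 ((cpth H.fp Hs A e i).net.reg
            (I \ Iw M (o + wa A W o n M k - 5) (o + wb A W o n M k + 5))
            (J \ Jw M (o + wa A W o n M k - 5) (o + wb A W o n M k + 5)))) s q (T n))
    (hht : ∀ (g : ℕ) (J : Set ℤ), g = 4 ∨ g = n - 4 → Tch M (o + g) J →
      HT S η d W (o + g) J h₀)
    {m' : ℕ} {w : D0 S → ℂ} (hH : ∀ k < n, Hol (S : Set ℂ) (QX (100 * η) W o n k) d)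
    (hoff : ∀ k < n, ∀ z ∈ QX (100 * η) W o n k, ∀ v, ‖v - z‖ < d → ¬ OnHull S v) :
    ∀ l < n, ∃ (κ : Type) (_ : Fintype κ) (Z : κ → Zn (rc0 hS)) (Tw : Set (Cs hS)),
      QuYx810.Pw (rc0 hS) (Hc hS) (RC hS (Rws η W o n M)) (fun (i : D0 S × ℕ) _ => i.1)
        (fun i _ => i.2) (EvA (rc0 hS) (Hc hS) (RC hS (Rws η W o n M)) Q Z₀)
        (QuYx810.Lc hS h3 ((cpth H.fp Hs A e i).net.reg
          (I \ Iw M (WndGx416.pS A W o n M l) (WndGx416.qS A W o n M l))
          (J \ Jw M (WndGx416.pS A W o n M l) (WndGx416.qS A W o n M l))))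
        (rst w (FQ S m' (fun l => QX (100 * η) W o n (n - 1 - l)) l))
        (fun s => (cpth H.fp Hs A e i).net.gw I J (Xc hS h3 s) ≠ 0) κ Z Tw := by
  intro l hl
  have e0 := E.e0
  have hk : n - 1 - l < n := by omega
  have ek : (n : ℤ) - 1 - l = ((n - 1 - l : ℕ) : ℤ) := by omega
  have w0 := (wab_lay H hm i (l := ((n - 1 - l : ℕ) : ℤ)) (by omega) (by omega)).toWd
  rw [← ho, ← hn] at w0
  unfold WndGx416.pS WndGx416.qS
  rw [ek]
  have hnM := w0.nM
  have hd := E.de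
  refine pw_of (h3 := h3) (U := U) E hk w0 hh ?_ (fun s hs => ?_) hht (hH _ hk) (hoff _ hk)
    (fun x h1 h2 => SupHx827.bst_far E.path e0 E.d0.le (by linarith) (by omega) _ hk x h1 h2)
  · refine lt_of ((PoSx983.dsj_net H.fp Hs i I J _ _ (by linarith)).mono_right ?_)
    rintro s ⟨x, h1, h2, h3⟩
    refine ⟨x, by omega, by omega, ?_⟩
    rw [hh']
    exact RR_mono (by linarith) (by linarith) _ _ _ h3
  · obtain ⟨p, q, N, T, O⟩ := hone s hs
    exact ⟨p, q, N, T, O, hlx s hs p q N T O _ hk⟩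

end main

end Crest.Agent.R143.PLKx228
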