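import Crest.Agent.R143.Sep3_686
import Crest.Agent.R143.SepL_686
import Crest.Agent.R143.SepH_697
import Crest.Agent.R143.LocT_776
import Crest.Agent.R143.LocY_776
import Crest.Agent.R143.SepU_697
import Crest.Agent.R143.PLK_228
import Crest.Agent.R143.FinK_894
import Crest.Agent.R143.QuenJ_597
import Crest.Agent.R143.SxZ_832
import Crest.Agent.R143.PlR_930
import Crest.Agent.R143.StgI_432
import Crest.Agent.R143.BrZ_609_Mg
import Crest.Agent.R143.CorE_133
import Crest.Agent.R143.OutP_571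
import Crest.Agent.R143.CorH_713
import Crest.Agent.R143.WndI_416
import Crest.Agent.R143.RegE_523
import Crest.Agent.R143.QuY_810
import Crest.Agent.R143.OpK_894

-- ▼ part R143/LocW_921
section

/-!
# Row 143 (S0194), LOCX of note 3970: crossing half at a WHITE gate (helper921; text of 776)

A gate on the white arc: the column `up, y, dn` of the neck, a closed white chain `cw` which runs through
the two tiles next to the gate (`W` = white sites linked to `x = up.last`).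

* `no_pass` : a link `PA` inside `c0 < Y < c1`, off the blocked sites `Z0` and off `Top`, whose sites see
  `cw` under an angle `≠ -2π`, does not cross the gate
* `no_pass'` : the other direction; `no_pass_list` : for a list
* **`vert_white`** : the vertical chain of a white gate, from `dn.last` to `up.head`: its sites are in
  `up`, in `W`, or in `y :: dn` and see `cw` under the angle `-2π`
-/

set_option autoImplicit false

noncomputable section

open scoped Classical

namespace Crest.Agent.R143.LocWx921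

open Crest.Agent.R143.B0x346 Crest.Agent.R143.DelGx806 Crest.Agent.R143.DelRx806
open Crest.Agent.R143.ToolWx838 Crest.Agent.R143.Blkx838 Crest.Agent.R143.ToolW2x838
open Crest.Agent.R143.ToolW3x838 Crest.Agent.R143.Gatex838 Crest.Agent.R143.Neckx921
open Crest.Agent.R143.Sepx686

variable {S : Finset ℂ}

/-- the data of a white gate -/
structure WG (S : Finset ℂ) (z0 e : ℂ) (a0 a1 b0 b1 m x0 x1 c0 c1 : ℝ) (V β : Finset ℂ)
    (up : List ℂ) (y : ℂ) (dn : List ℂ) (Z0 Top W AU AD : Set ℂ) (wu wd : ℂ) (cw : List ℂ) :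
    Prop where
  he : e ≠ 0
  neck : Neck S z0 e a0 a1 b0 b1 m V β up y dn
  x0a : x0 ≤ a0
  a1x : a1 ≤ x1
  /-- the column is blocked -/
  upZ : ∀ s ∈ up, s ∈ Z0 ∨ s ∈ Top
  dnZ : ∀ s ∈ dn, b0 < Y z0 e s → s ∈ Z0 ∨ s ∈ Top
  /-- the white sites of the two tiles, linked to `x` -/
  WZ : ∀ s ∈ W, s ∈ Z0
  WX : ∀ s ∈ W, x0 < X z0 e s ∧ X z0 e s < x1
  Wx : ∀ s ∈ W, Lk S W (up.getLast neck.nu) s
  /-- the closed white chain -/
  loop : Loop S cw
  ycw : y ∉ cw
  cwW : ∀ s ∈ cw, s ∈ dn → s ∈ W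
  low : ∀ s ∈ dn, Y z0 e s ≤ b0 → asum s cw = -(2 * Real.pi)
  /-- walk up -/
  lu : Lk S AU (up.head neck.nu) wu
  AUT : ∀ s ∈ AU, s ∈ Top
  AUX : ∀ s ∈ AU, x0 < X z0 e s ∧ X z0 e s < x1
  hu : c1 ≤ Y z0 e wu
  /-- walk down -/
  ld : Lk S AD (dn.getLast neck.nd) wd
  ADX : ∀ s ∈ AD, x0 < X z0 e s ∧ X z0 e s < x1
  ADi : ∀ s ∈ AD, asum s cw = -(2 * Real.pi)
  hd : Y z0 e wd ≤ c0

variable {z0 e : ℂ} {a0 a1 b0 b1 m x0 x1 c0 c1 : ℝ} {V β : Finset ℂ} {up dn : List ℂ} {y : ℂ}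
  {Z0 Top W AU AD : Set ℂ} {wu wd : ℂ} {cw : List ℂ}




/-- the last element of a list which lies in a set -/
theorem last_mem {R : Set ℂ} (l : List ℂ) (h : ∃ s ∈ l, s ∈ R) :
    ∃ l1 u l2, l = l1 ++ u :: l2 ∧ u ∈ R ∧ ∀ s ∈ l2, s ∉ R := by
  induction l with
  | nil => simp at h
  | cons a l ih =>
    by_cases h2 : ∃ s ∈ l, s ∈ R
    · obtain ⟨l1, u, l2, e, hu, hl⟩ := ih h2
      exact ⟨a :: l1, u, l2, by rw [e]; rfl, hu, hl⟩
    · push Not at h2
      obtain ⟨s, hs, hs'⟩ := h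
      rcases List.mem_cons.1 hs with h | h
      · exact ⟨[], a, l, rfl, h ▸ hs', h2⟩
      · exact absurd hs' (h2 s h)

/-- **the vertical chain of a white gate** -/
theorem vert_white (hS : GP (S : Set ℂ)) (N : Neck S z0 e a0 a1 b0 b1 m V β up y dn) (hx0 : x0 ≤ a0)
    (hx1 : a1 ≤ x1) (hl : Loop S cw) (hy : y ∉ cw)
    (WX : ∀ s ∈ W, x0 < X z0 e s ∧ X z0 e s < x1) (Wb : ∀ s ∈ W, b0 < Y z0 e s)
    (Wx : ∀ s ∈ W, Lk S W (up.getLast N.nu) s) (cwW : ∀ s ∈ cw, s ∈ dn → s ∈ W)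
    (hlow : asum (dn.getLast N.nd) cw = -(2 * Real.pi)) :
    ∃ VV : Set ℂ, Lk S VV (dn.getLast N.nd) (up.head N.nu) ∧
      (∀ s ∈ VV, x0 < X z0 e s ∧ X z0 e s < x1) ∧
      ∀ s ∈ VV, s ∈ up ∨ s ∈ W ∨ (s ∈ y :: dn ∧ asum s cw = -(2 * Real.pi)) := by
  have hadj := N.adj
  rw [← isChain_iff_prs, List.isChain_append] at hadj
  obtain ⟨c1', c2', -⟩ := hadj
  have dup := (isChain_iff_prs (R := DE S) up).1 c1'
  have ddn := (isChain_iff_prs (R := DE S) (y :: dn)).1 c2'
  have hwin : ∀ s ∈ up ++ y :: dn, x0 < X z0 e s ∧ X z0 e s < x1 := fun s hs =>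
    ⟨hx0.trans_lt (N.win s hs).1.1, (N.win s hs).1.2.trans_le hx1⟩
  have lup : Lk S {s | s ∈ up} (up.getLast N.nu) (up.head N.nu) :=
    lk_list dup (fun _ hs => hs) (List.getLast_mem _) (List.head_mem _)
  by_cases hr : ∃ r ∈ dn, r ∈ {s | s ∈ cw}
  · obtain ⟨d1, r, d2, he, hr1, hr2⟩ := last_mem dn hr
    have hrdn : r ∈ dn := by rw [he]; simp
    have hrW := cwW r hr1 hrdn
    have hd2 : d2 ≠ [] := by
      rintro rfl
      have h1 : dn.getLast N.nd = r := by
        subst he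
        rw [List.getLast_append_of_ne_nil _ (List.cons_ne_nil _ _)]
        rfl
      have h2 := N.bot
      rw [h1] at h2
      exact absurd (Wb r hrW) (not_lt.2 h2)
    have hlast : d2.getLast hd2 = dn.getLast N.nd := by
      subst he
      rw [List.getLast_append_of_ne_nil _ (List.cons_ne_nil _ _), List.getLast_cons hd2]
    have c3 : (r :: d2).IsChain (DE S) := by
      have h2 := c2'
      rw [List.isChain_cons] at h2
      have h3 := h2.2
      rw [he, List.isChain_append] at h3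
      exact h3.2.1
    have c4 : d2.IsChain (DE S) := by
      rw [List.isChain_cons] at c3
      exact c3.2
    have mem2 : ∀ s ∈ d2, s ∈ dn := fun s hs => by
      rw [he]; exact List.mem_append_right _ (List.mem_cons_of_mem _ hs)
    have hidx : ∀ s ∈ d2, asum s cw = -(2 * Real.pi) := by
      intro s hs
      have h1 : Lk S {s | s ∈ d2} s (d2.getLast hd2) :=
        lk_list ((isChain_iff_prs (R := DE S) d2).1 c4) (fun _ h => h) hs (List.getLast_mem _)
      rw [asum_lk hS hl (A := {s | s ∈ d2}) (fun s h => hr2 s h) h1, hlast]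
      exact hlow
    have l1 : Lk S {s | s ∈ r :: d2} (dn.getLast N.nd) r := by
      rw [← hlast]
      exact lk_list ((isChain_iff_prs (R := DE S) (r :: d2)).1 c3) (fun _ h => h)
        (List.mem_cons_of_mem _ (List.getLast_mem _)) (by simp)
    refine ⟨{s | s ∈ up ∨ s ∈ W ∨ s ∈ d2}, ?_, ?_, ?_⟩
    · have g1 : Lk S {s | s ∈ up ∨ s ∈ W ∨ s ∈ d2} (dn.getLast N.nd) r := by
        refine l1.mono fun s hs => ?_
        rcases List.mem_cons.1 hs with h | h
        · exact Or.inr (Or.inl (h ▸ hrW))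
        · exact Or.inr (Or.inr h)
      have g2 : Lk S {s | s ∈ up ∨ s ∈ W ∨ s ∈ d2} r (up.getLast N.nu) :=
        ((Wx r hrW).mono fun s hs => Or.inr (Or.inl hs)).symm
      exact (g1.trans g2).trans (lup.mono fun s hs => Or.inl hs)
    · rintro s (hs | hs | hs)
      · exact hwin s (List.mem_append_left _ hs)
      · exact WX s hs
      · exact hwin s (List.mem_append_right _ (List.mem_cons_of_mem _ (mem2 s hs)))
    · rintro s (hs | hs | hs)
      · exact Or.inl hs
      · exact Or.inr (Or.inl hs)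
      · exact Or.inr (Or.inr ⟨List.mem_cons_of_mem _ (mem2 s hs), hidx s hs⟩)
  · push Not at hr
    have hoff : ∀ s ∈ {s | s ∈ y :: dn}, s ∉ cw := by
      intro s hs h
      rcases List.mem_cons.1 hs with rfl | hs
      · exact hy h
      · exact hr s hs h
    have hidx : ∀ s ∈ y :: dn, asum s cw = -(2 * Real.pi) := by
      intro s hs
      have h1 : Lk S {s | s ∈ y :: dn} s (dn.getLast N.nd) :=
        lk_list ddn (fun _ hs => hs) hs (List.mem_cons_of_mem _ (List.getLast_mem _))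
      rw [asum_lk hS hl hoff h1]
      exact hlow
    refine ⟨{s | s ∈ up ∨ s ∈ y :: dn}, ?_, ?_, ?_⟩
    · have g1 : Lk S {s | s ∈ up ∨ s ∈ y :: dn} (dn.getLast N.nd) y :=
        (lk_list ddn (fun _ hs => hs) (List.mem_cons_of_mem _ (List.getLast_mem _))
          (by simp)).mono fun s hs => Or.inr hs
      have hyA : y ∈ {s | s ∈ up ∨ s ∈ y :: dn} := Or.inr (by simp)
      have hxA : up.getLast N.nu ∈ {s | s ∈ up ∨ s ∈ y :: dn} := Or.inl (List.getLast_mem _)
      exact (g1.trans ⟨⟨hyA, hxA⟩, .single ⟨N.de.symm, hyA, hxA⟩⟩).trans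
        (lup.mono fun s hs => Or.inl hs)
    · rintro s (hs | hs)
      · exact hwin s (List.mem_append_left _ hs)
      · exact hwin s (List.mem_append_right _ hs)
    · rintro s (hs | hs)
      · exact Or.inl hs
      · exact Or.inr (Or.inr ⟨hs, hidx s hs⟩)


end Crest.Agent.R143.LocWx921
end
end

-- ▼ part R143/SepW_686
section

/-!
# Row 143 (S0194), SEP at the closing gates (helper686; LEMMA W / WHITE GATE of 782, 776)

* `WC` : white sites of the closing tile `j` which are linked to `x j` in it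
* `CG` : straight closing gate; `Low` : the region below a gate
* **`sepW_chain`** : the closed white chain of `SepL_686` with refined pieces; its index is `-2π` below
  all straight closing gates; `CwP` : its properties as a structure, `exists_cw`
* **`CwP.white_gate`** : the vertical chain at a straight closing gate (921's `vert_white`)
* `CwP.notExt` : sites of index `-2π` are not in `Ext`
-/

set_option autoImplicit false

noncomputable section

open scoped Classical

namespace Crest.Agent.R143.SepWx686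

open Crest.Agent.R143.B0x346 Crest.Agent.R143.DelGx806 Crest.Agent.R143.DelRx806
open Crest.Agent.R143.ToolWx838 Crest.Agent.R143.Blkx838
open Crest.Agent.R143.ToolW3x838 Crest.Agent.R143.Gatex838 Crest.Agent.R143.Neckx921
open Crest.Agent.R143.Frame1x395 Crest.Agent.R143.Frame2x395 Crest.Agent.R143.Frame3x395
  Crest.Agent.R143.Frame4x395 Crest.Agent.R143.Frame8x395 Crest.Agent.R143.Frame9x395
  Crest.Agent.R143.Frame10x395 Crest.Agent.R143.Frame11x395
open Crest.Agent.R143.Frame5x395 (sd mem_sd th th_spec)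
open Crest.Agent.R143.Splx117 Crest.Agent.R143.WLocx713 Crest.Agent.R143.RingDx117
  Crest.Agent.R143.CorrDx117
open Crest.Agent.R143.Idxx927 (RingP cyc wl X_wl Y_wl)
open Crest.Agent.R143.TileRx228
open Crest.Agent.R143.Sepx686 Crest.Agent.R143.SepLx686

variable {S : Finset ℂ} {M n k0 k1 : ℕ} {W : ℤ → ℤ × ℤ} {A B h b1 m ρ τ κ : ℝ} {o : ℤ} {K0 : Set ℂ}
  {χ : ℂ → ZMod 2} {hS : GP (S : Set ℂ)} {hχ : HullC S χ} {y z : ℕ → ℂ} {p : ℕ → D0 S}

/-- white sites of the closing tile `j` linked to `x j` -/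
def WC (S : Finset ℂ) (χ : ℂ → ZMod 2) (y : ℕ → ℂ) (W : ℤ → ℤ × ℤ) (A B h : ℝ) (o : ℤ) (x : ℕ → ℂ)
    (j : ℕ) : Set ℂ :=
  {s | s ∈ WT S χ y W A B h o j ∧ Lk S (WT S χ y W A B h o j) (x j) s}

/-- a link stays in the component of its start -/
theorem lk_comp {Q : Set ℂ} {a b : ℂ} (hl : Lk S Q a b) :
    Lk S {s | s ∈ Q ∧ Lk S Q a s} a b := by
  obtain ⟨⟨ha, hb⟩, h⟩ := hl
  have key : ∀ c, Relation.ReflTransGen (fun u v => DE S u v ∧ u ∈ Q ∧ v ∈ Q) a c →
      Lk S Q a c ∧ Lk S {s | s ∈ Q ∧ Lk S Q a s} a c := by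
    intro c hc
    induction hc with
    | refl => exact ⟨Lk.refl ha, Lk.refl ⟨ha, Lk.refl ha⟩⟩
    | tail _ h1 ih =>
      rename_i u v _
      have l1 : Lk S Q a v := ih.1.trans ⟨⟨h1.2.1, h1.2.2⟩, .single h1⟩
      exact ⟨l1, ih.2.trans ⟨⟨⟨h1.2.1, ih.1⟩, ⟨h1.2.2, l1⟩⟩,
        .single ⟨h1.1, ⟨h1.2.1, ih.1⟩, ⟨h1.2.2, l1⟩⟩⟩⟩
  exact (key b h).2

/-- **straight closing gate** -/
structure CG (M n : ℕ) (W : ℤ → ℤ × ℤ) (A τ h : ℝ) (o : ℤ) (K0 : Set ℂ) (k : ℕ) : Prop where
  nk : n < k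
  kM : k < M
  s1 : ge W (o + k) = ge W (o + k - 1)
  s2 : ge W (o + k + 1) = ge W (o + k)
  foot : wl (gz h W (o + k)) (ge W (o + k)) (-(A + τ)) ∈ K0

/-- the region below the gate `k` -/
def Low (W : ℤ → ℤ × ℤ) (A τ h c : ℝ) (o : ℤ) (k : ℕ) : Set ℂ :=
  {w | |X (gz h W (o + k)) (ge W (o + k)) w| ≤ c ∧ -(A + τ) ≤ Y (gz h W (o + k)) (ge W (o + k)) w ∧
    Y (gz h W (o + k)) (ge W (o + k)) w ≤ -A}

theorem Low_convex (W : ℤ → ℤ × ℤ) (A τ h c : ℝ) (o : ℤ) (k : ℕ) :
    Convex ℝ (Low W A τ h c o k) := by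
  rintro u ⟨u1, u2, u3⟩ v ⟨v1, v2, v3⟩ r s hr hs hrs
  rw [abs_le] at u1 v1
  refine ⟨abs_le.2 ⟨?_, ?_⟩, ?_, ?_⟩
  · rw [X_comb _ _ hrs]
    have := cv_le hr hs hrs (neg_le_neg u1.1) (neg_le_neg v1.1)
    linarith
  · rw [X_comb _ _ hrs]
    exact cv_le hr hs hrs u1.2 v1.2
  · rw [Y_comb _ _ hrs]
    have := cv_le hr hs hrs (neg_le_neg u2) (neg_le_neg v2)
    linarith
  · rw [Y_comb _ _ hrs]
    exact cv_le hr hs hrs u3 v3

/-- the white sites of the two tiles of a straight closing gate, in its frame -/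
theorem CG.strip (G : SGeo S M n k0 k1 W A B h b1 m ρ τ κ o K0) {k : ℕ}
    (C : CG M n W A τ h o K0 k) {j : ℕ} (hj : j = k ∨ j + 1 = k) {s : ℂ}
    (hs : s ∈ RR A B h W (o + j)) : |Y (gz h W (o + k)) (ge W (o + k)) s| < A ∧
      -(h / 2 + B) < X (gz h W (o + k)) (ge W (o + k)) s ∧
      X (gz h W (o + k)) (ge W (o + k)) s < h / 2 + B := by
  have hA0 := G.A0
  have hAB := G.AB
  have hBh := G.Bh
  have hh := G.hh
  have hκ : 0 < κ := by linarith [G.ρ0, G.ρτ, G.τκ]
  rcases hj with rfl | hj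
  · obtain ⟨⟨h3, h4⟩, h5⟩ := (frame_S G.fp hA0 hAB C.s2).1 hs
    exact ⟨h5, by linarith, by linarith⟩
  · have e1 : o + (j : ℤ) = o + k - 1 := by rw [← hj]; push_cast; ring
    rw [e1] at hs
    have hd : ge W (o + k - 1 + 1) = ge W (o + k - 1) := by
      rw [show o + (k : ℤ) - 1 + 1 = o + k by ring]; exact C.s1
    obtain ⟨⟨h3, h4⟩, h5⟩ := (frame_S G.fp hA0 hAB hd).1 hs
    have h6 := next_S G.fp hd h s
    rw [show o + (k : ℤ) - 1 + 1 = o + k by ring] at h6
    rw [h6.1, h6.2]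
    exact ⟨h5, by linarith, by linarith⟩

/-- the region below a straight closing gate is off the tiles which do not touch the gate -/
theorem CG.off (G : SGeo S M n k0 k1 W A B h b1 m ρ τ κ o K0) {k : ℕ}
    (C : CG M n W A τ h o K0 k) {j : ℕ} (hj : j < M) (h1 : j ≠ k) (h2 : j + 1 ≠ k) {s : ℂ}
    (hx : |X (gz h W (o + k)) (ge W (o + k)) s| < B + κ - h / 2)
    (hy : |Y (gz h W (o + k)) (ge W (o + k)) s| < A + κ) : s ∉ RR (A + κ) (B + κ) h W (o + j) := by
  have c1 := C.nk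
  have c2 := C.kM
  exact G.win_off (a := o + k) (b := o + j) (ndvd (by omega) (by omega) (by omega))
    (ndvd (by omega) (by omega) (by omega)) hx hy

/-- **the closed white chain along the fine path**, refined pieces, index below the straight closing
gates -/
theorem sepW_chain (G : SGeo S M n k0 k1 W A B h b1 m ρ τ κ o K0)
    (D : DCorr hS hχ n y z (fun k => RR A B h W (o + k)) (fun k => RR (A + ρ) (B + ρ) h W (o + k)) p)
    {t : ℕ → ℕ} (T : Back D t) {a0 a1 : ℝ} {V β : Finset ℂ} {up dn : List ℂ}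
    (N : NkG S k0 W A B h b1 m o χ y z a0 a1 V β up dn) {x : ℕ → ℂ} (hxz : ∀ k, k ≤ n → x k = z k)
    (hxM : ∀ j, x (j + M) = x j)
    (hW0 : ∀ j, n ≤ j → j < M → Lk S (WT S χ y W A B h o j) (x j) (x (j + 1))) {c : ℝ}
    (hc0 : 0 ≤ c) (hc : c < B + κ - h / 2) :
    ∃ cw : List ℂ, Loop S cw ∧ (∀ s ∈ cw, s ∈ S) ∧ (∀ s ∈ cw, χ s ≠ χ (y 0)) ∧
      (∀ s ∈ cw, (∃ k, k < n ∧ s ∈ RS S χ (p (k + 1)).1 (t k)) ∨
        ∃ j, n ≤ j ∧ j < M ∧ s ∈ WC S χ y W A B h o x j) ∧
      (∀ w ∈ K0, asum w cw = -(2 * Real.pi)) ∧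
      (∀ k, CG M n W A τ h o K0 k → ∀ w ∈ Low W A τ h c o k, asum w cw = -(2 * Real.pi)) ∧
      (∀ k, k ≤ n → asum (y k) cw = -(2 * Real.pi)) ∧
      ∀ k, k < n → ∀ s ∈ LS S χ (p (k + 1)).1 (t k), asum s cw = -(2 * Real.pi) := by
  have hA0 := G.A0
  have hAB := G.AB
  have hm0 := G.m0
  have hb1 := G.b1A
  have hbκ := G.b1κ
  have hτκ := G.τκ
  have hρ0 := G.ρ0
  have hρτ := G.ρτ
  have hh := G.hh
  have hBh := G.Bh
  have hk3 := G.k3
  have hkn := G.kn
  have hnM := G.nM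
  have GI := inG G D N
  have hW : ∀ j, n ≤ j → j < M → Lk S (WC S χ y W A B h o x j) (x j) (x (j + 1)) :=
    fun j hj hj' => lk_comp (hW0 j hj hj')
  have sub1 : ∀ a, RR A B h W a ⊆ RR (A + ρ) (B + ρ) h W a := fun a =>
    RR_mono (by linarith) (by linarith) h W a
  have sub2 : ∀ a, RR (A + ρ) (B + ρ) h W a ⊆ RR (A + τ) (B + τ) h W a := fun a =>
    RR_mono (by linarith) (by linarith) h W a
  have seg : ∀ (a : ℤ) (u v : ℂ), DE S u v → u ∈ RR (A + ρ) (B + ρ) h W a →
      v ∈ RR (A + ρ) (B + ρ) h W a → segment ℝ u v ⊆ RR (A + τ) (B + τ) h W a := by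
    intro a u v hd hu hv
    have h1 := seg_RR G.fp hu (G.edge a u v hd hu hv)
    rwa [show A + ρ + (τ - ρ) = A + τ by ring, show B + ρ + (τ - ρ) = B + τ by ring] at h1
  -- the white sites of the gates are in the windows
  have zB : ∀ k, k < n → z k ∈ RR (A + ρ) (B + ρ) h W (o + k) ∧
      z (k + 1) ∈ RR (A + ρ) (B + ρ) h W (o + k) := by
    intro k hk
    have e1 : (p (k + 1)).1.2 = z (k + 1) := by rw [D.st (k + 1) (by omega)]
    have e0 : (p k).1.2 = z k := by rw [D.st k (by omega)]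
    refine ⟨T.rB k hk ?_, T.rB k hk ?_⟩
    · rw [← e0, ← T.arr k hk]; exact ⟨t k, le_rfl, rfl⟩
    · rw [← e1]; exact ⟨0, Nat.zero_le _, rfl⟩
  have hP : FPath M W := G.fp
  have hMpos : 0 < M := by omega
  have xR : ∀ j : ℕ, x j ∈ RR (A + ρ) (B + ρ) h W (o + j) ∧
      x (j + 1) ∈ RR (A + ρ) (B + ρ) h W (o + j) := by
    have key : ∀ j : ℕ, j < M → x j ∈ RR (A + ρ) (B + ρ) h W (o + j) ∧
        x (j + 1) ∈ RR (A + ρ) (B + ρ) h W (o + j) := by
      intro j hj
      rcases Nat.lt_or_ge j n with h1 | h1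
      · rw [hxz j h1.le, hxz (j + 1) h1]; exact zB j h1
      · have h2 := (hW0 j h1 hj).1
        exact ⟨sub1 _ h2.1.2, sub1 _ h2.2.2⟩
    intro j
    have hxm : ∀ q r, x (r + q * M) = x r := by
      intro q r
      induction q with
      | zero => simp
      | succ q ih =>
        have e : r + (q + 1) * M = (r + q * M) + M := by ring
        rw [e, hxM, ih]
    have h1 := key (j % M) (Nat.mod_lt _ hMpos)
    rw [RR_mod hP] at h1
    have e1 : x j = x (j % M) := by
      conv_lhs => rw [← Nat.mod_add_div j M, mul_comm]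
      exact hxm _ _
    have e2 : x (j + 1) = x (j % M + 1) := by
      have : j + 1 = (j % M + 1) + j / M * M := by
        have := Nat.mod_add_div j M
        rw [mul_comm] at this
        omega
      rw [this, hxm]
    rw [e1, e2]
    exact h1
  have xwin : ∀ j : ℕ, |X (gz h W (o + (j + 1 : ℕ))) (ge W (o + (j + 1 : ℕ))) (x (j + 1))| <
      B + ρ - h / 2 := by
    intro j
    have h1 := (xR j).2
    have h2 := (xR (j + 1)).1
    rw [show o + ((j + 1 : ℕ) : ℤ) = o + j + 1 by push_cast; ring] at h2 ⊢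
    exact (window hP (by linarith) (by linarith) h1 h2).1
  have xwin' : ∀ j : ℕ, |X (gz h W (o + j)) (ge W (o + j)) (x j)| < B + ρ - h / 2 := by
    intro j
    have h1 := xwin (j + M - 1)
    rw [show j + M - 1 + 1 = j + M by omega, hxM] at h1
    have e1 : gz h W (o + ((j + M : ℕ) : ℤ)) = gz h W (o + j) := by
      unfold gz
      rw [show o + ((j + M : ℕ) : ℤ) - 1 = o + j - 1 + M by push_cast; ring,
        show o + ((j + M : ℕ) : ℤ) = o + j + M by push_cast; ring, hP.per, hP.per]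
    have e2 : ge W (o + ((j + M : ℕ) : ℤ)) = ge W (o + j) := by
      unfold ge
      rw [show o + ((j + M : ℕ) : ℤ) - 1 = o + j - 1 + M by push_cast; ring,
        show o + ((j + M : ℕ) : ℤ) = o + j + M by push_cast; ring, hP.per, hP.per]
    rw [e1, e2] at h1
    exact h1
  -- the enlarged inner side
  obtain ⟨bS, hbS⟩ : ∃ b, b = dn.getLast N.neck.nd := ⟨_, rfl⟩
  have hbm : bS ∈ dn := by rw [hbS]; exact List.getLast_mem _
  have hbw := N.neck.win bS (List.mem_append_right _ (List.mem_cons_of_mem _ hbm))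
  have hbb : Y (gz h W (o + k0)) (ge W (o + k0)) bS ≤ -A := by rw [hbS]; exact N.neck.bot
  have hN1 := N.a0w
  have hN2 := N.a1w
  have he := TileRx228.ge_ne hP (o + k0)
  set wb : ℂ := wl (gz h W (o + k0)) (ge W (o + k0)) (-(A + τ)) with hwb
  have hxb := X_wl (z0 := gz h W (o + k0)) he (-(A + τ))
  have hyb := Y_wl (z0 := gz h W (o + k0)) he (-(A + τ))
  have hsegb : ∀ w ∈ segment ℝ bS wb, |X (gz h W (o + k0)) (ge W (o + k0)) w| < B + κ - h / 2 ∧
      |Y (gz h W (o + k0)) (ge W (o + k0)) w| < A + κ ∧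
      Y (gz h W (o + k0)) (ge W (o + k0)) w ≤ -A := by
    rintro w ⟨r, s, hr, hs, hrs, rfl⟩
    rw [X_comb _ _ hrs, Y_comb _ _ hrs, hwb, hxb, hyb]
    obtain ⟨⟨w1, w2⟩, w3, -⟩ := hbw
    refine ⟨abs_lt.2 ⟨cv_gt hr hs hrs ?_ ?_, cv_lt hr hs hrs ?_ ?_⟩,
      abs_lt.2 ⟨cv_gt hr hs hrs ?_ ?_, cv_lt hr hs hrs ?_ ?_⟩, cv_le hr hs hrs hbb ?_⟩ <;> linarith
  -- the tiles near the extreme gate
  have st1 := G.st1
  have st2 := G.st2
  have ex1 := fun s => next_S hP st1 h s
  have ex2 := fun s => next_S hP st2 h s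
  have hk1 := G.k1M
  -- the connected inner set
  set KL : Set ℂ := K0 ∪ segment ℝ bS wb with hKL
  have hKLpre : IsPreconnected KL :=
    G.K0pre.union wb G.K0k (right_mem_segment ℝ _ _) (convex_segment _ _).isPreconnected
  set KK : Set (Set ℂ) := {Q | Q = KL ∨ ∃ k, CG M n W A τ h o K0 k ∧ Q = K0 ∪ Low W A τ h c o k}
    with hKK
  have hKpre : IsPreconnected (⋃₀ KK) := by
    refine isPreconnected_sUnion wb KK ?_ ?_
    · rintro Q (rfl | ⟨k, hk, rfl⟩)
      · exact Or.inl G.K0k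
      · exact Or.inl G.K0k
    · rintro Q (rfl | ⟨k, hk, rfl⟩)
      · exact hKLpre
      · refine G.K0pre.union _ hk.foot ?_ (Low_convex W A τ h c o k).isPreconnected
        have hek := TileRx228.ge_ne hP (o + k)
        refine ⟨?_, ?_, ?_⟩
        · rw [X_wl hek, abs_zero]; exact hc0
        · rw [Y_wl hek]
        · rw [Y_wl hek]; linarith
  obtain ⟨cw, c1, c2, c3, c4, c5, c6, c7⟩ := sep_chain D T (N := M) (by omega) hnM.le GI hxz hxM
    (W := WC S χ y W A B h o x) hW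
    (fun j hj hj' s hs => ⟨hs.1.1.1, hs.1.1.2, fun hsd => dn_off G N hj' (by omega) (by omega) hsd
      (RR_mono (by linarith) (by linarith) h W _ hs.1.2)⟩)
    (RR := fun j => {w | w ∈ RR (A + τ) (B + τ) h W (o + j) ∧
      ∀ k, CG M n W A τ h o K0 k → j = k ∨ j + 1 = k →
        -A < Y (gz h W (o + k)) (ge W (o + k)) w})
    (fun j hj u v hd hu hv w hw => ⟨seg _ u v hd hu hv hw, fun k hk hjk => by
      have := hk.nk
      omega⟩)
    (fun j hj hj' u v hd hu hv w hw => ⟨seg _ u v hd (sub1 _ hu.1.2) (sub1 _ hv.1.2) hw,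
      fun k hk hjk => by
        have g1 := (abs_lt.1 (hk.strip G hjk hu.1.2).1).1
        have g2 := (abs_lt.1 (hk.strip G hjk hv.1.2).1).1
        obtain ⟨r, s, hr, hs, hrs, rfl⟩ := hw
        rw [Y_comb _ _ hrs]
        exact cv_gt hr hs hrs g1 g2⟩)
    (k1 := k1) (z1 := gz h W (o + k1 + 1)) (e1 := ge W (o + k1 + 1)) (TileRx228.ge_ne hP _)
    (y0 := -(A + τ)) (y1 := A + τ) (by linarith)
    (by
      intro j hj s hsS h1 h2
      have hsR : s ∈ RR (A + ρ) (B + ρ) h W (o + j) := by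
        rcases Nat.lt_or_ge j n with h3 | h3
        · exact h1 h3
        · exact sub1 _ (h2 h3).1.2
      rcases hj with hj | hj
      · rw [hj, RR_mod hP] at hsR
        have h3 := ((frame_S hP (by linarith) (by linarith) st1).1 hsR).2
        rw [← (ex1 s).2, abs_lt] at h3
        constructor <;> linarith [h3.1, h3.2]
      · rw [hj, RR_mod hP, show o + ((k1 + 1 : ℕ) : ℤ) = o + k1 + 1 by push_cast; ring] at hsR
        have h3 := ((frame_S hP (by linarith) (by linarith) st2).1 hsR).2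
        rw [abs_lt] at h3
        constructor <;> linarith [h3.1, h3.2])
    (by
      have h3 := xwin' k1
      rw [(ex1 (x k1)).1]
      linarith [(abs_lt.1 h3).2])
    (by
      have h3 := xwin' (k1 + 2)
      rw [show o + ((k1 + 2 : ℕ) : ℤ) = o + k1 + 1 + 1 by push_cast; ring] at h3
      rw [(ex2 (x (k1 + 2))).1] at h3
      linarith [(abs_lt.1 h3).1])
    (by
      intro j hj hj' t1 h3 h4 h5
      have h5' : wl (gz h W (o + k1 + 1)) (ge W (o + k1 + 1)) t1 ∈ RR (A + τ) (B + τ) h W (o + j) := by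
        have := RR_mod hP (A + τ) (B + τ) h o j
        rw [← this]; exact h5.1
      refine G.win_off (a := o + k1 + 1) (b := o + j) (ndvd (by omega) (by omega) (by omega))
        (ndvd (by omega) (by omega) (by omega)) ?_ ?_ (RR_mono (by linarith) (by linarith) h W _ h5')
      · rw [X_wl (TileRx228.ge_ne hP _), abs_zero]; linarith
      · rw [Y_wl (TileRx228.ge_ne hP _), abs_lt]; constructor <;> linarith)
    (by
      intro j hj t1 h3 h4
      have h5 := G.ext _ _ h4.1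
      rw [Y_wl (TileRx228.ge_ne hP _)] at h5
      linarith)
    (K := ⋃₀ KK) hKpre
    (by
      rintro w ⟨Q, hQ, hw⟩ j hj ⟨h4, h4'⟩
      have hKL' : w ∈ K0 → False := fun hw => G.K0off w hw _ h4
      rcases hQ with rfl | ⟨k, hk, rfl⟩
      · rcases hw with hw | hw
        · exact absurd hw hKL'
        · obtain ⟨g1, g2, g3⟩ := hsegb w hw
          refine ⟨?_, g3⟩
          by_contra hc
          push Not at hc
          exact G.win_off (a := o + k0) (b := o + j) (ndvd (by omega) (by omega) (by omega))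
            (ndvd (by omega) (by omega) (by omega)) g1 g2
            (RR_mono (by linarith) (by linarith) h W _ h4)
      · rcases hw with hw | hw
        · exact absurd hw hKL'
        · obtain ⟨g1, g2, g3⟩ := hw
          exfalso
          by_cases hjk : j = k ∨ j + 1 = k
          · have := h4' k hk hjk
            linarith
          · push Not at hjk
            exact hk.off G hj hjk.1 hjk.2 (by linarith)
              (abs_lt.2 ⟨by linarith, by linarith⟩) (RR_mono (by linarith) (by linarith) h W _ h4))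
    ⟨KL, Or.inl rfl, Or.inl G.K0e⟩
    ⟨KL, Or.inl rfl, Or.inr (by rw [hbS]; exact left_mem_segment ℝ _ _)⟩
  refine ⟨cw, c1, c2, c3, c4, fun w hw => c5 w ⟨KL, Or.inl rfl, Or.inl hw⟩, fun k hk w hw =>
    c5 w ⟨_, Or.inr ⟨k, hk, rfl⟩, Or.inr hw⟩, c6, c7⟩

/-- **the closed white chain of the corridor** -/
structure CwP (S : Finset ℂ) (χ : ℂ → ZMod 2) (M n : ℕ) (W : ℤ → ℤ × ℤ) (A B h τ : ℝ) (o : ℤ)
    (y x : ℕ → ℂ) (p : ℕ → D0 S) (t : ℕ → ℕ) (K0 : Set ℂ) (c : ℝ) (cw : List ℂ) : Prop where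
  loop : Loop S cw
  sub : ∀ s ∈ cw, s ∈ S
  col : ∀ s ∈ cw, χ s ≠ χ (y 0)
  mem : ∀ s ∈ cw, (∃ k, k < n ∧ s ∈ RS S χ (p (k + 1)).1 (t k)) ∨
    ∃ j, n ≤ j ∧ j < M ∧ s ∈ WC S χ y W A B h o x j
  k0 : ∀ w ∈ K0, asum w cw = -(2 * Real.pi)
  low : ∀ k, CG M n W A τ h o K0 k → ∀ w ∈ Low W A τ h c o k, asum w cw = -(2 * Real.pi)
  gate : ∀ k, k ≤ n → asum (y k) cw = -(2 * Real.pi)
  left : ∀ k, k < n → ∀ s ∈ LS S χ (p (k + 1)).1 (t k), asum s cw = -(2 * Real.pi)

theorem exists_cw (G : SGeo S M n k0 k1 W A B h b1 m ρ τ κ o K0)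
    (D : DCorr hS hχ n y z (fun k => RR A B h W (o + k)) (fun k => RR (A + ρ) (B + ρ) h W (o + k)) p)
    {t : ℕ → ℕ} (T : Back D t) {a0 a1 : ℝ} {V β : Finset ℂ} {up dn : List ℂ}
    (N : NkG S k0 W A B h b1 m o χ y z a0 a1 V β up dn) {x : ℕ → ℂ} (hxz : ∀ k, k ≤ n → x k = z k)
    (hxM : ∀ j, x (j + M) = x j)
    (hW0 : ∀ j, n ≤ j → j < M → Lk S (WT S χ y W A B h o j) (x j) (x (j + 1))) {c : ℝ}
    (hc0 : 0 ≤ c) (hc : c < B + κ - h / 2) :
    ∃ cw : List ℂ, CwP S χ M n W A B h τ o y x p t K0 c cw := by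
  obtain ⟨cw, c1, c2, c3, c4, c5, c6, c7, c8⟩ := sepW_chain G D T N hxz hxM hW0 hc0 hc
  exact ⟨cw, c1, c2, c3, c4, c5, c6, c7, c8⟩

/-- sites of index `-2π` are not in `Ext` (`cm0`) -/
theorem CwP.notExt {c : ℝ} {cw : List ℂ} {x : ℕ → ℂ} {t : ℕ → ℕ} (hS : GP (S : Set ℂ))
    (C : CwP S χ M n W A B h τ o y x p t K0 c cw) {Z : Set (Quot (hullE S))}
    (hin : ∀ s ∈ cw, ¬ OnHull S s)
    (hZ1 : ∀ k, k < n → ∀ s ∈ RS S χ (p (k + 1)).1 (t k), (Quot.mk _ s : Quot (hullE S)) ∈ Z)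
    (hZ2 : ∀ j, n ≤ j → j < M → ∀ s ∈ WT S χ y W A B h o j, (Quot.mk _ s : Quot (hullE S)) ∈ Z)
    {u : ℂ} (hu : asum u cw = -(2 * Real.pi)) :
    ¬ Extx358.Ext (cm0 hS) (SepEx927.hc S) Z (Quot.mk _ u) := by
  have hh : ∀ v, OnHull S v → asum v cw = 0 := fun v hv =>
    asum_onHull hS C.loop C.sub hv fun h => hin v h hv
  have hZ : SepEx927.cw S cw ⊆ Z := by
    rintro q ⟨s, hs, rfl⟩
    rcases C.mem s hs with ⟨k, hk, h⟩ | ⟨j, h2, h3, h⟩
    · exact hZ1 k hk s h
    · exact hZ2 j h2 h3 s h.1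
  refine SepEx927.not_ext hS C.loop hh hZ ?_
  rw [hu]
  have hpi := Real.pi_pos
  intro h; linarith

/-- the white sites of the two tiles of the gate `k`, linked to `x k` -/
def WG (S : Finset ℂ) (χ : ℂ → ZMod 2) (y : ℕ → ℂ) (W : ℤ → ℤ × ℤ) (A B h : ℝ) (o : ℤ) (x : ℕ → ℂ)
    (k : ℕ) : Set ℂ :=
  {s | (s ∈ WT S χ y W A B h o (k - 1) ∨ s ∈ WT S χ y W A B h o k) ∧
    Lk S {s | s ∈ WT S χ y W A B h o (k - 1) ∨ s ∈ WT S χ y W A B h o k} (x k) s}

/-- **the vertical chain of a straight closing gate** -/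
theorem CwP.white_gate (G : SGeo S M n k0 k1 W A B h b1 m ρ τ κ o K0)
    (D : DCorr hS hχ n y z (fun k => RR A B h W (o + k)) (fun k => RR (A + ρ) (B + ρ) h W (o + k)) p)
    {t : ℕ → ℕ} (T : Back D t) {x : ℕ → ℂ}
    (hW0 : ∀ j, n ≤ j → j < M → Lk S (WT S χ y W A B h o j) (x j) (x (j + 1))) {c : ℝ} {cw : List ℂ}
    (C : CwP S χ M n W A B h τ o y x p t K0 c cw) (hc : c < B + κ - h / 2) {k : ℕ}
    (K : CG M n W A τ h o K0 k) {a0 a1 b1' m' : ℝ} {V β : Finset ℂ} {up dn : List ℂ} {yk : ℂ}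
    (N : Neck S (gz h W (o + k)) (ge W (o + k)) a0 a1 (-A) b1' m' V β up yk dn)
    (hx : up.getLast N.nu = x k) (hyk : χ yk = χ (y 0)) (ha0 : -c ≤ a0) (ha1 : a1 ≤ c)
    (hm : m' ≤ τ) (hb1 : b1' + m' < A + κ) :
    (∀ w, |X (gz h W (o + k)) (ge W (o + k)) w| ≤ c → -(A + τ) ≤ Y (gz h W (o + k)) (ge W (o + k)) w →
      Y (gz h W (o + k)) (ge W (o + k)) w ≤ -A → asum w cw = -(2 * Real.pi)) ∧
    asum (dn.getLast N.nd) cw = -(2 * Real.pi) ∧
    ∃ VV : Set ℂ, Lk S VV (dn.getLast N.nd) (up.head N.nu) ∧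
      (∀ s ∈ VV, -(h / 2 + B) < X (gz h W (o + k)) (ge W (o + k)) s ∧
        X (gz h W (o + k)) (ge W (o + k)) s < h / 2 + B) ∧
      ∀ s ∈ VV, s ∈ up ∨ s ∈ WG S χ y W A B h o x k ∨
        (s ∈ yk :: dn ∧ asum s cw = -(2 * Real.pi)) := by
  have hA0 := G.A0
  have hAB := G.AB
  have hBh := G.Bh
  have hh := G.hh
  have hκ : 0 < κ := by linarith [G.ρ0, G.ρτ, G.τκ]
  have hρτ := G.ρτ
  have hτκ := G.τκ
  have hh0 := G.ρ0
  have kn := K.nk
  have kM := K.kM
  have hlow : ∀ w, |X (gz h W (o + k)) (ge W (o + k)) w| ≤ c →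
      -(A + τ) ≤ Y (gz h W (o + k)) (ge W (o + k)) w →
      Y (gz h W (o + k)) (ge W (o + k)) w ≤ -A → asum w cw = -(2 * Real.pi) :=
    fun w h1 h2 h3 => C.low k K w ⟨h1, h2, h3⟩
  have hdl : asum (dn.getLast N.nd) cw = -(2 * Real.pi) := by
    have h1 := N.win _ (List.mem_append_right _ (List.mem_cons_of_mem _ (List.getLast_mem N.nd)))
    refine hlow _ (abs_le.2 ⟨by linarith [h1.1.1], by linarith [h1.1.2]⟩) (by linarith [h1.2.1]) N.bot
  refine ⟨hlow, hdl, ?_⟩
  have hstr : ∀ s, s ∈ WT S χ y W A B h o (k - 1) ∨ s ∈ WT S χ y W A B h o k →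
      |Y (gz h W (o + k)) (ge W (o + k)) s| < A ∧ -(h / 2 + B) < X (gz h W (o + k)) (ge W (o + k)) s ∧
        X (gz h W (o + k)) (ge W (o + k)) s < h / 2 + B := by
    rintro s (hs | hs)
    · exact K.strip G (j := k - 1) (Or.inr (by omega)) hs.2
    · exact K.strip G (j := k) (Or.inl rfl) hs.2
  refine LocWx921.vert_white hS N (W := WG S χ y W A B h o x k) (by linarith) (by linarith) C.loop
    (fun hc => C.col _ hc hyk) ?_ ?_ ?_ ?_ hdl
  · exact fun s hs => (hstr s hs.1).2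
  · intro s hs
    have := (abs_lt.1 (hstr s hs.1).1).1
    exact this
  · intro s hs
    rw [hx]
    exact lk_comp hs.2
  · intro s hs hsd
    have hw := N.win s (List.mem_append_right _ (List.mem_cons_of_mem _ hsd))
    have hX : |X (gz h W (o + k)) (ge W (o + k)) s| < B + κ - h / 2 :=
      abs_lt.2 ⟨by linarith [hw.1.1], by linarith [hw.1.2]⟩
    have hYl := hw.2.1
    have hYu := hw.2.2
    rcases C.mem s hs with ⟨j, hj, h1⟩ | ⟨j, hj, hj', h1⟩
    · -- an out arc
      exfalso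
      have h2' : s ∈ RR (A + ρ) (B + ρ) h W (o + j) := T.rB j hj h1
      exact K.off G (by omega) (by omega) (by omega) hX
        (abs_lt.2 ⟨by linarith, by linarith⟩) (RR_mono (by linarith) (by linarith) h W _ h2')
    · have key : j = k ∨ j + 1 = k := by
        by_contra hc'
        push Not at hc'
        exact K.off G (by omega) hc'.1 hc'.2 hX
          (abs_lt.2 ⟨by linarith, by linarith⟩) (RR_mono (by linarith) (by linarith) h W _ h1.1.2)
      have hWk : s ∈ WT S χ y W A B h o (k - 1) ∨ s ∈ WT S χ y W A B h o k := by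
        rcases key with e | e
        · right; rw [← e]; exact h1.1
        · left
          have : k - 1 = j := by omega
          rw [this]; exact h1.1
      refine ⟨hWk, ?_⟩
      rcases key with e | e
      · subst e
        exact h1.2.mono fun s hs => Or.inr hs
      · have e' : k - 1 = j := by omega
        have g1 := (hW0 j hj hj').symm.mono (S := S)
          (B := {s | s ∈ WT S χ y W A B h o (k - 1) ∨ s ∈ WT S χ y W A B h o k})
          fun s hs => Or.inl (by rw [e']; exact hs)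
        have g2 := h1.2.mono (B := {s | s ∈ WT S χ y W A B h o (k - 1) ∨ s ∈ WT S χ y W A B h o k})
          fun s hs => Or.inl (by rw [e']; exact hs)
        rw [e] at g1
        exact g1.trans g2

end Crest.Agent.R143.SepWx686
end
end

-- ▼ part R143/SepX_686
section

/-!
# Row 143 (S0194), SEP: below an inner out gate (helper686)

* `SGeo.at` : the same geometry with another inner gate
* **`sepX_chain`** : the closed white chain of `SepW_686`, with the index `-2π` below the inner gate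
  `k0` and on the lower arm of its neck
-/

set_option autoImplicit false

noncomputable section

open scoped Classical

namespace Crest.Agent.R143.SepXx686

open Crest.Agent.R143.B0x346 Crest.Agent.R143.DelGx806 Crest.Agent.R143.DelRx806
open Crest.Agent.R143.ToolWx838 Crest.Agent.R143.Blkx838
open Crest.Agent.R143.ToolW3x838 Crest.Agent.R143.Gatex838 Crest.Agent.R143.Neckx921
open Crest.Agent.R143.Frame1x395 Crest.Agent.R143.Frame2x395 Crest.Agent.R143.Frame3x395
  Crest.Agent.R143.Frame4x395 Crest.Agent.R143.Frame8x395 Crest.Agent.R143.Frame9x395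
  Crest.Agent.R143.Frame10x395 Crest.Agent.R143.Frame11x395
open Crest.Agent.R143.Frame5x395 (sd mem_sd th th_spec)
open Crest.Agent.R143.Splx117 Crest.Agent.R143.WLocx713 Crest.Agent.R143.RingDx117
  Crest.Agent.R143.CorrDx117
open Crest.Agent.R143.Idxx927 (RingP cyc wl X_wl Y_wl)
open Crest.Agent.R143.TileRx228
open Crest.Agent.R143.Sepx686 Crest.Agent.R143.SepLx686 Crest.Agent.R143.SepWx686

variable {S : Finset ℂ} {M n k0 k1 : ℕ} {W : ℤ → ℤ × ℤ} {A B h b1 m ρ τ κ : ℝ} {o : ℤ} {K0 : Set ℂ}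
  {χ : ℂ → ZMod 2} {hS : GP (S : Set ℂ)} {hχ : HullC S χ} {y z : ℕ → ℂ} {p : ℕ → D0 S}

/-- the same geometry with another inner gate -/
theorem sgeo_at (G : SGeo S M n k0 k1 W A B h b1 m ρ τ κ o K0) {k : ℕ} (h3 : 3 ≤ k)
    (hk : k + 3 ≤ n) (st : ∀ a : ℤ, o + k - 2 ≤ a → a ≤ o + k + 1 → ge W (a + 1) = ge W a)
    (foot : wl (gz h W (o + k)) (ge W (o + k)) (-(A + τ)) ∈ K0) :
    SGeo S M n k k1 W A B h b1 m ρ τ κ o K0 :=
  { G with k3 := h3, kn := hk, st := st, K0k := foot }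

/-- **the closed white chain along the fine path**, with the index below the inner gate `k0` and on the
lower arm of its neck -/
theorem sepX_chain (G : SGeo S M n k0 k1 W A B h b1 m ρ τ κ o K0)
    (D : DCorr hS hχ n y z (fun k => RR A B h W (o + k)) (fun k => RR (A + ρ) (B + ρ) h W (o + k)) p)
    {t : ℕ → ℕ} (T : Back D t) {a0 a1 : ℝ} {V β : Finset ℂ} {up dn : List ℂ}
    (N : NkG S k0 W A B h b1 m o χ y z a0 a1 V β up dn) {x : ℕ → ℂ} (hxz : ∀ k, k ≤ n → x k = z k)
    (hxM : ∀ j, x (j + M) = x j)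
    (hW0 : ∀ j, n ≤ j → j < M → Lk S (WT S χ y W A B h o j) (x j) (x (j + 1))) {c : ℝ}
    (hc0 : 0 ≤ c) (hc : c < B + κ - h / 2) :
    ∃ cw : List ℂ, CwP S χ M n W A B h τ o y x p t K0 c cw ∧
      (∀ w ∈ Low W A τ h c o k0, asum w cw = -(2 * Real.pi)) ∧
      ∀ s ∈ dn, asum s cw = -(2 * Real.pi) := by
  have hA0 := G.A0
  have hAB := G.AB
  have hm0 := G.m0
  have hb1 := G.b1A
  have hbκ := G.b1κ
  have hτκ := G.τκ
  have hρ0 := G.ρ0
  have hρτ := G.ρτ
  have hh := G.hh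
  have hBh := G.Bh
  have hk3 := G.k3
  have hkn := G.kn
  have hnM := G.nM
  have GI := inG G D N
  have hW : ∀ j, n ≤ j → j < M → Lk S (WC S χ y W A B h o x j) (x j) (x (j + 1)) :=
    fun j hj hj' => lk_comp (hW0 j hj hj')
  have sub1 : ∀ a, RR A B h W a ⊆ RR (A + ρ) (B + ρ) h W a := fun a =>
    RR_mono (by linarith) (by linarith) h W a
  have sub2 : ∀ a, RR (A + ρ) (B + ρ) h W a ⊆ RR (A + τ) (B + τ) h W a := fun a =>
    RR_mono (by linarith) (by linarith) h W a
  have seg : ∀ (a : ℤ) (u v : ℂ), DE S u v → u ∈ RR (A + ρ) (B + ρ) h W a →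
      v ∈ RR (A + ρ) (B + ρ) h W a → segment ℝ u v ⊆ RR (A + τ) (B + τ) h W a := by
    intro a u v hd hu hv
    have h1 := seg_RR G.fp hu (G.edge a u v hd hu hv)
    rwa [show A + ρ + (τ - ρ) = A + τ by ring, show B + ρ + (τ - ρ) = B + τ by ring] at h1
  -- the white sites of the gates are in the windows
  have zB : ∀ k, k < n → z k ∈ RR (A + ρ) (B + ρ) h W (o + k) ∧
      z (k + 1) ∈ RR (A + ρ) (B + ρ) h W (o + k) := by
    intro k hk
    have e1 : (p (k + 1)).1.2 = z (k + 1) := by rw [D.st (k + 1) (by omega)]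
    have e0 : (p k).1.2 = z k := by rw [D.st k (by omega)]
    refine ⟨T.rB k hk ?_, T.rB k hk ?_⟩
    · rw [← e0, ← T.arr k hk]; exact ⟨t k, le_rfl, rfl⟩
    · rw [← e1]; exact ⟨0, Nat.zero_le _, rfl⟩
  have hP : FPath M W := G.fp
  have hMpos : 0 < M := by omega
  have xR : ∀ j : ℕ, x j ∈ RR (A + ρ) (B + ρ) h W (o + j) ∧
      x (j + 1) ∈ RR (A + ρ) (B + ρ) h W (o + j) := by
    have key : ∀ j : ℕ, j < M → x j ∈ RR (A + ρ) (B + ρ) h W (o + j) ∧
        x (j + 1) ∈ RR (A + ρ) (B + ρ) h W (o + j) := by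
      intro j hj
      rcases Nat.lt_or_ge j n with h1 | h1
      · rw [hxz j h1.le, hxz (j + 1) h1]; exact zB j h1
      · have h2 := (hW0 j h1 hj).1
        exact ⟨sub1 _ h2.1.2, sub1 _ h2.2.2⟩
    intro j
    have hxm : ∀ q r, x (r + q * M) = x r := by
      intro q r
      induction q with
      | zero => simp
      | succ q ih =>
        have e : r + (q + 1) * M = (r + q * M) + M := by ring
        rw [e, hxM, ih]
    have h1 := key (j % M) (Nat.mod_lt _ hMpos)
    rw [RR_mod hP] at h1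
    have e1 : x j = x (j % M) := by
      conv_lhs => rw [← Nat.mod_add_div j M, mul_comm]
      exact hxm _ _
    have e2 : x (j + 1) = x (j % M + 1) := by
      have : j + 1 = (j % M + 1) + j / M * M := by
        have := Nat.mod_add_div j M
        rw [mul_comm] at this
        omega
      rw [this, hxm]
    rw [e1, e2]
    exact h1
  have xwin : ∀ j : ℕ, |X (gz h W (o + (j + 1 : ℕ))) (ge W (o + (j + 1 : ℕ))) (x (j + 1))| <
      B + ρ - h / 2 := by
    intro j
    have h1 := (xR j).2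
    have h2 := (xR (j + 1)).1
    rw [show o + ((j + 1 : ℕ) : ℤ) = o + j + 1 by push_cast; ring] at h2 ⊢
    exact (window hP (by linarith) (by linarith) h1 h2).1
  have xwin' : ∀ j : ℕ, |X (gz h W (o + j)) (ge W (o + j)) (x j)| < B + ρ - h / 2 := by
    intro j
    have h1 := xwin (j + M - 1)
    rw [show j + M - 1 + 1 = j + M by omega, hxM] at h1
    have e1 : gz h W (o + ((j + M : ℕ) : ℤ)) = gz h W (o + j) := by
      unfold gz
      rw [show o + ((j + M : ℕ) : ℤ) - 1 = o + j - 1 + M by push_cast; ring,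
        show o + ((j + M : ℕ) : ℤ) = o + j + M by push_cast; ring, hP.per, hP.per]
    have e2 : ge W (o + ((j + M : ℕ) : ℤ)) = ge W (o + j) := by
      unfold ge
      rw [show o + ((j + M : ℕ) : ℤ) - 1 = o + j - 1 + M by push_cast; ring,
        show o + ((j + M : ℕ) : ℤ) = o + j + M by push_cast; ring, hP.per, hP.per]
    rw [e1, e2] at h1
    exact h1
  -- the enlarged inner side
  obtain ⟨bS, hbS⟩ : ∃ b, b = dn.getLast N.neck.nd := ⟨_, rfl⟩
  have hbm : bS ∈ dn := by rw [hbS]; exact List.getLast_mem _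
  have hbw := N.neck.win bS (List.mem_append_right _ (List.mem_cons_of_mem _ hbm))
  have hbb : Y (gz h W (o + k0)) (ge W (o + k0)) bS ≤ -A := by rw [hbS]; exact N.neck.bot
  have hN1 := N.a0w
  have hN2 := N.a1w
  have he := TileRx228.ge_ne hP (o + k0)
  set wb : ℂ := wl (gz h W (o + k0)) (ge W (o + k0)) (-(A + τ)) with hwb
  have hxb := X_wl (z0 := gz h W (o + k0)) he (-(A + τ))
  have hyb := Y_wl (z0 := gz h W (o + k0)) he (-(A + τ))
  have hsegb : ∀ w ∈ segment ℝ bS wb, |X (gz h W (o + k0)) (ge W (o + k0)) w| < B + κ - h / 2 ∧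
      |Y (gz h W (o + k0)) (ge W (o + k0)) w| < A + κ ∧
      Y (gz h W (o + k0)) (ge W (o + k0)) w ≤ -A := by
    rintro w ⟨r, s, hr, hs, hrs, rfl⟩
    rw [X_comb _ _ hrs, Y_comb _ _ hrs, hwb, hxb, hyb]
    obtain ⟨⟨w1, w2⟩, w3, -⟩ := hbw
    refine ⟨abs_lt.2 ⟨cv_gt hr hs hrs ?_ ?_, cv_lt hr hs hrs ?_ ?_⟩,
      abs_lt.2 ⟨cv_gt hr hs hrs ?_ ?_, cv_lt hr hs hrs ?_ ?_⟩, cv_le hr hs hrs hbb ?_⟩ <;> linarith
  -- the tiles near the extreme gate
  have st1 := G.st1
  have st2 := G.st2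
  have ex1 := fun s => next_S hP st1 h s
  have ex2 := fun s => next_S hP st2 h s
  have hk1 := G.k1M
  -- the connected inner set
  set KL : Set ℂ := K0 ∪ segment ℝ bS wb with hKL
  have hKLpre : IsPreconnected KL :=
    G.K0pre.union wb G.K0k (right_mem_segment ℝ _ _) (convex_segment _ _).isPreconnected
  set KK : Set (Set ℂ) := {Q | Q = KL ∨ Q = K0 ∪ Low W A τ h c o k0 ∨
    ∃ k, CG M n W A τ h o K0 k ∧ Q = K0 ∪ Low W A τ h c o k} with hKK
  have hLowpre : ∀ k : ℕ, wl (gz h W (o + k)) (ge W (o + k)) (-(A + τ)) ∈ K0 →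
      IsPreconnected (K0 ∪ Low W A τ h c o k) := by
    intro k hk
    refine G.K0pre.union _ hk ?_ (Low_convex W A τ h c o k).isPreconnected
    have hek := TileRx228.ge_ne hP (o + k)
    refine ⟨?_, ?_, ?_⟩
    · rw [X_wl hek, abs_zero]; exact hc0
    · rw [Y_wl hek]
    · rw [Y_wl hek]; linarith
  have hKpre : IsPreconnected (⋃₀ KK) := by
    refine isPreconnected_sUnion wb KK ?_ ?_
    · rintro Q (rfl | rfl | ⟨k, hk, rfl⟩)
      · exact Or.inl G.K0k
      · exact Or.inl G.K0k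
      · exact Or.inl G.K0k
    · rintro Q (rfl | rfl | ⟨k, hk, rfl⟩)
      · exact hKLpre
      · exact hLowpre k0 G.K0k
      · exact hLowpre k hk.foot
  obtain ⟨cw, c1, c2, c3, c4, c5, c6, c7⟩ := sep_chain D T (N := M) (by omega) hnM.le GI hxz hxM
    (W := WC S χ y W A B h o x) hW
    (fun j hj hj' s hs => ⟨hs.1.1.1, hs.1.1.2, fun hsd => dn_off G N hj' (by omega) (by omega) hsd
      (RR_mono (by linarith) (by linarith) h W _ hs.1.2)⟩)
    (RR := fun j => {w | w ∈ RR (A + τ) (B + τ) h W (o + j) ∧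
      ∀ k, CG M n W A τ h o K0 k → j = k ∨ j + 1 = k →
        -A < Y (gz h W (o + k)) (ge W (o + k)) w})
    (fun j hj u v hd hu hv w hw => ⟨seg _ u v hd hu hv hw, fun k hk hjk => by
      have := hk.nk
      omega⟩)
    (fun j hj hj' u v hd hu hv w hw => ⟨seg _ u v hd (sub1 _ hu.1.2) (sub1 _ hv.1.2) hw,
      fun k hk hjk => by
        have g1 := (abs_lt.1 (hk.strip G hjk hu.1.2).1).1
        have g2 := (abs_lt.1 (hk.strip G hjk hv.1.2).1).1
        obtain ⟨r, s, hr, hs, hrs, rfl⟩ := hw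
        rw [Y_comb _ _ hrs]
        exact cv_gt hr hs hrs g1 g2⟩)
    (k1 := k1) (z1 := gz h W (o + k1 + 1)) (e1 := ge W (o + k1 + 1)) (TileRx228.ge_ne hP _)
    (y0 := -(A + τ)) (y1 := A + τ) (by linarith)
    (by
      intro j hj s hsS h1 h2
      have hsR : s ∈ RR (A + ρ) (B + ρ) h W (o + j) := by
        rcases Nat.lt_or_ge j n with h3 | h3
        · exact h1 h3
        · exact sub1 _ (h2 h3).1.2
      rcases hj with hj | hj
      · rw [hj, RR_mod hP] at hsR
        have h3 := ((frame_S hP (by linarith) (by linarith) st1).1 hsR).2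
        rw [← (ex1 s).2, abs_lt] at h3
        constructor <;> linarith [h3.1, h3.2]
      · rw [hj, RR_mod hP, show o + ((k1 + 1 : ℕ) : ℤ) = o + k1 + 1 by push_cast; ring] at hsR
        have h3 := ((frame_S hP (by linarith) (by linarith) st2).1 hsR).2
        rw [abs_lt] at h3
        constructor <;> linarith [h3.1, h3.2])
    (by
      have h3 := xwin' k1
      rw [(ex1 (x k1)).1]
      linarith [(abs_lt.1 h3).2])
    (by
      have h3 := xwin' (k1 + 2)
      rw [show o + ((k1 + 2 : ℕ) : ℤ) = o + k1 + 1 + 1 by push_cast; ring] at h3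
      rw [(ex2 (x (k1 + 2))).1] at h3
      linarith [(abs_lt.1 h3).1])
    (by
      intro j hj hj' t1 h3 h4 h5
      have h5' : wl (gz h W (o + k1 + 1)) (ge W (o + k1 + 1)) t1 ∈ RR (A + τ) (B + τ) h W (o + j) := by
        have := RR_mod hP (A + τ) (B + τ) h o j
        rw [← this]; exact h5.1
      refine G.win_off (a := o + k1 + 1) (b := o + j) (ndvd (by omega) (by omega) (by omega))
        (ndvd (by omega) (by omega) (by omega)) ?_ ?_ (RR_mono (by linarith) (by linarith) h W _ h5')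
      · rw [X_wl (TileRx228.ge_ne hP _), abs_zero]; linarith
      · rw [Y_wl (TileRx228.ge_ne hP _), abs_lt]; constructor <;> linarith)
    (by
      intro j hj t1 h3 h4
      have h5 := G.ext _ _ h4.1
      rw [Y_wl (TileRx228.ge_ne hP _)] at h5
      linarith)
    (K := ⋃₀ KK) hKpre
    (by
      rintro w ⟨Q, hQ, hw⟩ j hj ⟨h4, h4'⟩
      have hKL' : w ∈ K0 → False := fun hw => G.K0off w hw _ h4
      rcases hQ with rfl | rfl | ⟨k, hk, rfl⟩
      rotate_left 1
      · rcases hw with hw | hw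
        · exact absurd hw hKL'
        · obtain ⟨g1, g2, g3⟩ := hw
          refine ⟨?_, g3⟩
          by_contra hc'
          push Not at hc'
          exact G.win_off (a := o + k0) (b := o + j) (ndvd (by omega) (by omega) (by omega))
            (ndvd (by omega) (by omega) (by omega)) (by linarith)
            (abs_lt.2 ⟨by linarith, by linarith⟩)
            (RR_mono (by linarith) (by linarith) h W _ h4)
      rotate_left 1
      · rcases hw with hw | hw
        · exact absurd hw hKL'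
        · obtain ⟨g1, g2, g3⟩ := hsegb w hw
          refine ⟨?_, g3⟩
          by_contra hc
          push Not at hc
          exact G.win_off (a := o + k0) (b := o + j) (ndvd (by omega) (by omega) (by omega))
            (ndvd (by omega) (by omega) (by omega)) g1 g2
            (RR_mono (by linarith) (by linarith) h W _ h4)
      · rcases hw with hw | hw
        · exact absurd hw hKL'
        · obtain ⟨g1, g2, g3⟩ := hw
          exfalso
          by_cases hjk : j = k ∨ j + 1 = k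
          · have := h4' k hk hjk
            linarith
          · push Not at hjk
            exact hk.off G hj hjk.1 hjk.2 (by linarith)
              (abs_lt.2 ⟨by linarith, by linarith⟩) (RR_mono (by linarith) (by linarith) h W _ h4))
    ⟨KL, Or.inl rfl, Or.inl G.K0e⟩
    ⟨KL, Or.inl rfl, Or.inr (by rw [hbS]; exact left_mem_segment ℝ _ _)⟩
  have hbS' : asum bS cw = -(2 * Real.pi) :=
    c5 bS ⟨KL, Or.inl rfl, Or.inr (left_mem_segment ℝ _ _)⟩
  refine ⟨cw, ⟨c1, c2, c3, c4, fun w hw => c5 w ⟨KL, Or.inl rfl, Or.inl hw⟩, fun k hk w hw =>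
    c5 w ⟨_, Or.inr (Or.inr ⟨k, hk, rfl⟩), Or.inr hw⟩, c6, c7⟩, fun w hw =>
    c5 w ⟨_, Or.inr (Or.inl rfl), Or.inr hw⟩, ?_⟩
  -- the lower arm misses the chain
  have hdnc : ∀ s ∈ dn, s ∉ cw := by
    intro s hsd hs
    rcases c4 s hs with ⟨k, hk, h⟩ | ⟨j, h1, h2, h⟩
    · exact (T.miss hS GI.h2 GI.h3 GI.he GI.neck GI.upz GI.x0a GI.a1x GI.β1 GI.β2 GI.strip GI.left
        GI.right GI.mid GI.farB hk h).2.1 hsd
    · exact dn_off G N h2 (by omega) (by omega) hsd
        (RR_mono (by linarith) (by linarith) _ W _ h.1.2)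
  intro s hs
  have hadj := N.neck.adj
  rw [← isChain_iff_prs, List.isChain_append] at hadj
  have h1 : Lk S {s | s ∈ dn} s (dn.getLast N.neck.nd) :=
    lk_list ((isChain_iff_prs (R := DE S) dn).1 hadj.2.1.tail) (fun s hs => hs) hs
      (List.getLast_mem _)
  rw [asum_lk hS c1 (fun s hs => hdnc s hs) h1, ← hbS]
  exact hbS'

end Crest.Agent.R143.SepXx686
end
end

-- ▼ part R143/SepWH_686
section

/-!
# Row 143 (S0194), SEP at the closing gates under `CorH` (helper686)

`chainW` : 697's closed white chain of the strand, with the index `-2π` below all straight closing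
gates and the vertical chains of these gates; `ChW` = its properties; `ChW.notExt` on `rc0`.
-/

set_option autoImplicit false

noncomputable section

open scoped Classical

namespace Crest.Agent.R143.SepWHx686

open Crest.Agent.R143.B0x346 Crest.Agent.R143.DelGx806 Crest.Agent.R143.DelRx806
  Crest.Agent.R143.JColx54
open Crest.Agent.R143.ToolWx838 Crest.Agent.R143.Blkx838
open Crest.Agent.R143.ToolW3x838
open Crest.Agent.R143.Frame1x395 Crest.Agent.R143.Frame2x395 Crest.Agent.R143.Frame3x395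
  Crest.Agent.R143.Frame4x395 Crest.Agent.R143.Frame8x395 Crest.Agent.R143.Frame9x395
  Crest.Agent.R143.Frame10x395 Crest.Agent.R143.Frame11x395
open Crest.Agent.R143.Splx117 Crest.Agent.R143.WLocx713 Crest.Agent.R143.RingDx117
  Crest.Agent.R143.CorrDx117
open Crest.Agent.R143.Neckx921 (Neck NeckD Tile Lk)
open Crest.Agent.R143.TileRx228 Crest.Agent.R143.DCorGx713
open Crest.Agent.R143.PP0x831
open Crest.Agent.R143.Sepx686 Crest.Agent.R143.SepLx686 Crest.Agent.R143.SepWx686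
open Crest.Agent.R143.CorHx713 Crest.Agent.R143.SepHx697
open Crest.Agent.R143.RcTx422
open Crest.Agent.R143.FinCx811 (rc0 Cs rcol cs)
open Crest.Agent.R143.OutSx358 (zc)
open Crest.Agent.R143.Gntx535 (wl wr)

variable {X : Set (ℂ × Bool)} {U K0 : Set ℂ} {M n k0 k1 : ℕ} {W : ℤ → ℤ × ℤ} {η d : ℝ} {o : ℤ}

/-- straight closing gate with the numbers of `CorH` -/
abbrev CGH (M n : ℕ) (W : ℤ → ℤ × ℤ) (η : ℝ) (o : ℤ) (K0 : Set ℂ) (k : ℕ) : Prop :=
  CG M n W (9 * η) η (100 * η) o K0 k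

/-- the vertical chain of the gate `a`: the neck of the selected dart, and a link from the lower end of
the neck to its upper end through `up`, white sites of the two tiles, and sites of index `-2π` -/
def VGate (X : Set (ℂ × Bool)) (W : ℤ → ℤ × ℤ) (η : ℝ) (a : ℤ) (cw : List ℂ) : Prop :=
  ∃ up dn : List ℂ, ∃ N : Neck (sX X) (gz (100 * η) W a) (ge W a) (-η) η (-(9 * η)) (10 * η) η
    (sX X) (bX X) up (yy η W X a) dn, up.getLast N.nu = xx η W X a ∧
    asum (dn.getLast N.nd) cw = -(2 * Real.pi) ∧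
    ∃ VV : Set ℂ, Lk (sX X) VV (dn.getLast N.nd) (up.head N.nu) ∧
      (∀ s ∈ VV, |Gatex838.X (gz (100 * η) W a) (ge W a) s| < 101 * η) ∧
      ∀ s ∈ VV, (s ∈ up ∧ cX X s = 0 ∧ -(9 * η) < Gatex838.Y (gz (100 * η) W a) (ge W a) s) ∨
        (s ∈ sX X ∧ cX X s = 0 ∧ (s ∈ RR (9 * η) (51 * η) (100 * η) W (a - 1) ∨
          s ∈ RR (9 * η) (51 * η) (100 * η) W a)) ∨
        (s ∈ yy η W X a :: dn ∧ asum s cw = -(2 * Real.pi))

section strand

variable {H : CorH X U M W η d o n} {Rs : Set (D0 (sX X))} {q : D0 (sX X)} {N : ℕ} {T : ℕ → ℕ}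

/-- **the closed white chain of the strand**, with its indices -/
structure ChW (H : CorH X U M W η d o n) (q : D0 (sX X)) (T : ℕ → ℕ) (K0 : Set ℂ) (c : ℝ)
    (cw : List ℂ) : Prop where
  loop : Loop (sX X) cw
  sub : ∀ s ∈ cw, s ∈ sX X
  col : ∀ s ∈ cw, cX X s = 0
  mem : ∀ s ∈ cw, s ∈ RS (sX X) (cX X) q.1 (T n) ∨ s ∈ BR η W M o n
  k0 : ∀ w ∈ K0, asum w cw = -(2 * Real.pi)
  gate : ∀ k, k ≤ n → asum (yy η W X (o + k)) cw = -(2 * Real.pi)
  left : ∀ s ∈ LS (sX X) (cX X) q.1 (T n), asum s cw = -(2 * Real.pi)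
  low : ∀ k, CGH M n W η o K0 k → ∀ w ∈ Low W (9 * η) η (100 * η) c o k, asum w cw = -(2 * Real.pi)
  vgate : ∀ k, CGH M n W η o K0 k → VGate X W η (o + k) cw

/-- **existence** -/
theorem chainW (St : StH H Rs q N T) (G : Geo (sX X) M n k0 k1 W η o K0)
    (hf : ∀ k : ℕ, k < n → FA (cm0 H.gp) (xc H.gp H.hull)
      (RD (sX X) (RR (19 / 2 * η) (103 / 2 * η) (100 * η) W (o + k))) (H.p (k + 1)) (H.p k))
    {c : ℝ} (hc1 : η ≤ c) (hc : c < 4 * η) : ∃ cw : List ℂ, ChW H q T K0 c cw := by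
  have h0 := H.e0
  have hnM := H.nM
  have n3 := St.n3
  have D := H.corr
  have eB : (fun k : ℕ => RR (19 / 2 * η) (103 / 2 * η) (100 * η) W (o + k)) =
      fun k : ℕ => RR (9 * η + η / 2) (51 * η + η / 2) (100 * η) W (o + k) :=
    funext fun k => rr_eq η W _
  rw [eB] at D
  obtain ⟨t, Bt⟩ := exists_back D (fun k hk => by
    have := hf k hk
    rw [rr_eq] at this
    exact this)
  obtain ⟨Bt', hsub⟩ := exists_tB St D Bt
  obtain ⟨up, dn, N⟩ := nkg H k0
  have hy0 : cX X (yy η W X (o + ((0 : ℕ) : ℤ))) = 1 := H.coly _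
  have hW0 : ∀ j, n ≤ j → j < M → Lk (sX X) (WT (sX X) (cX X) (fun k : ℕ => yy η W X (o + k)) W
      (9 * η) (51 * η) (100 * η) o j) ((fun k : ℕ => xx η W X (o + k)) j)
      ((fun k : ℕ => xx η W X (o + k)) (j + 1)) := by
    intro j h1 h2
    have h3 := H.wht (o + j)
    show Lk (sX X) _ (xx η W X (o + j)) (xx η W X (o + ((j + 1 : ℕ) : ℤ)))
    rw [show o + ((j + 1 : ℕ) : ℤ) = o + j + 1 by push_cast; ring]
    refine h3.mono ?_
    rintro s ⟨⟨h4, h5⟩, h6⟩
    exact ⟨⟨h4, fun hc => h5 ((bX_iff s h4).1 (hc.trans hy0))⟩, h6⟩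
  have hz : ∀ s, cX X s ≠ cX X (yy η W X (o + ((0 : ℕ) : ℤ))) → cX X s = 0 := by
    intro s h2
    rw [hy0] at h2
    revert h2
    generalize cX X s = a
    revert a
    decide
  obtain ⟨cw, C⟩ := exists_cw G D Bt' N
    (x := fun k : ℕ => xx η W X (o + k)) (fun k _ => rfl)
    (fun j => by
      show xx η W X (o + ((j + M : ℕ) : ℤ)) = xx η W X (o + j)
      rw [show o + ((j + M : ℕ) : ℤ) = o + j + M by push_cast; ring]
      exact H.xper _) hW0 (c := c) (by linarith) (by linarith)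
  have c3' : ∀ s ∈ cw, cX X s = 0 := fun s hs => hz s (C.col s hs)
  have c6' : ∀ k, k ≤ n → asum (yy η W X (o + k)) cw = -(2 * Real.pi) := C.gate
  refine ⟨cw, C.loop, C.sub, c3', ?_, C.k0, c6', ?_, C.low, ?_⟩
  · intro s hs
    rcases C.mem s hs with ⟨k, hk, h⟩ | ⟨j, h1, h2, h3⟩
    · by_cases h4 : 0 < k ∧ k + 1 < n
      · exact Or.inl (hsub k h4.1 h4.2 h)
      · have h5 := Bt'.rB k hk h
        right
        have h6 : s ∈ RR (19 / 2 * η) (103 / 2 * η) (100 * η) W (o + k) := by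
          rw [rr_eq]; exact h5
        rcases Nat.eq_zero_or_pos k with h7 | h7
        · refine ⟨o + M, by omega, le_rfl, ?_⟩
          rw [RR_per H.path]
          rw [h7] at h6
          simpa using h6
        · refine ⟨o + k, by omega, by omega, h6⟩
    · right
      refine ⟨o + j, by omega, by omega, ?_⟩
      exact RR_mono (by linarith) (by linarith) _ W _ h3.1.2
  · intro s hs
    have ho := SepHx697.st_occ St
    have hcol := st_col St
    have off : ∀ v ∈ LS (sX X) (cX X) q.1 (T n), v ∉ cw := by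
      intro v hv hc
      have h1 := LS_col H.gp H.hull ho hv
      rw [c3' v hc, hcol] at h1
      exact absurd h1 (by decide)
    have g1 := LS_lk H.gp H.hull ho hs
    have m1 : (H.p (n - 1)).1.1 ∈ LS (sX X) (cX X) q.1 (T n) :=
      ⟨T 1, st_T St (by omega), by rw [st_at St (by omega) (by omega)]⟩
    have g2 := LS_lk H.gp H.hull ho m1
    rw [← asum_lk H.gp C.loop off g1, asum_lk H.gp C.loop off g2]
    exact c6' (n - 1) (by omega)
  · intro k hk
    obtain ⟨up', dn', N', hx'⟩ := H.neck (o + k)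
    obtain ⟨-, g2, VV, g3, g4, g5⟩ := C.white_gate G D Bt' hW0 (by linarith) hk N' hx'
      ((H.coly _).trans hy0.symm) (by linarith) (by linarith) (by linarith) (by linarith)
    refine ⟨up', dn', N', hx', g2, VV, g3, fun s hs => ?_, fun s hs => ?_⟩
    · have := g4 s hs
      rw [abs_lt]
      constructor <;> linarith [this.1, this.2]
    · rcases g5 s hs with h1 | h1 | h1
      · refine Or.inl ⟨h1, ?_, N'.upb s h1⟩
        have h2 := N'.cu s h1
        by_contra hc
        have h3 : cX X s = 1 := by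
          revert hc
          generalize cX X s = a
          revert a
          decide
        exact h2.2 ((bX_iff s h2.1).1 h3)
      · refine Or.inr (Or.inl ?_)
        have hk1 := hk.nk
        have e1 : o + ((k - 1 : ℕ) : ℤ) = o + k - 1 := by omega
        rcases h1.1 with h2 | h2
        · refine ⟨h2.1.1, hz s h2.1.2, Or.inl ?_⟩
          have h3 := h2.2
          rw [e1] at h3
          exact h3
        · exact ⟨h2.1.1, hz s h2.1.2, Or.inr h2.2⟩
      · exact Or.inr (Or.inr h1)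

/-- the sites of the chain are inner -/
theorem ChW.inn {c : ℝ} {cw : List ℂ} (C : ChW H q T K0 c cw) (St : StH H Rs q N T) :
    ∀ s ∈ cw, ¬ OnHull (sX X) s := by
  intro s hs
  have h0 := H.e0
  rcases C.mem s hs with ⟨i, hi, rfl⟩ | ⟨a, -, -, ha⟩
  · obtain ⟨k, -, -, h2⟩ := st_mem St hi
    exact H.inn (H.sub_U (by linarith) (by linarith) _ h2)
  · exact H.inn (H.sub_U (by linarith) (by linarith) _ ha)

/-- **sites of nonzero index are not in `Ext`** (`rc0`) -/
theorem ChW.notExt {c : ℝ} {cw : List ℂ} (C : ChW H q T K0 c cw) (St : StH H Rs q N T)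
    {R : Set (Cs H.gp)} (hR : ∀ s ∈ sX X, s ∈ BR η W M o n → ∃ c ∈ R, c.1 = Quot.mk _ s) {u : ℂ}
    (hu : asum u cw = -(2 * Real.pi)) {v : Cs H.gp} (e : v.1 = Quot.mk _ u) :
    ¬ Extx358.Ext (rc0 H.gp) (Hc H.gp) (zc (rc0 H.gp) R q (T n) (rcol H.gp (cX X) H.hull)) v := by
  have hpi := Real.pi_pos
  have hne : asum u cw ≠ 0 := by rw [hu]; intro h; linarith
  have hm : ∀ s ∈ cw, s ∈ RS (sX X) (cX X) q.1 (T n) ∨ ∃ c ∈ R, c.1 = Quot.mk _ s := fun s hs =>
    (C.mem s hs).imp id fun h => hR s (C.sub s hs) h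
  have hi : ¬ OnHull (sX X) u := fun hh =>
    hne (asum_onHull H.gp C.loop C.sub hh fun h => C.inn St u h hh)
  exact notExt_rc St.lp.occ C.loop C.sub C.col hm e hi hne

end strand

end Crest.Agent.R143.SepWHx686
end
end

-- ▼ part R143/SepV_686
section

/-!
# Row 143 (S0194), RIG, LOCX, (C6) of 776's list: gates of the curtain under `CorH` (helper686)

`Z` = `zc (rc0 H.gp) R q (T n) (rcol ..)` (`ZH`), `NE` = sites none of whose cells is in `Ext Z`.
* `white_Z` : white sites of the closing strips are in `Z`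
* **`vch_white`** : vertical chain of a straight closing gate
* **`low_white`**, **`low_K0`** : sites below a closing gate, sites of the inner side
* **`chainX`** : the closed white chain for an inner out gate; **`low_out`**, **`dn_out`**
-/

set_option autoImplicit false

noncomputable section

open scoped Classical

namespace Crest.Agent.R143.SepVx686

open Crest.Agent.R143.B0x346 Crest.Agent.R143.DelGx806 Crest.Agent.R143.DelRx806
  Crest.Agent.R143.JColx54
open Crest.Agent.R143.ToolWx838 Crest.Agent.R143.Blkx838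
open Crest.Agent.R143.ToolW3x838
open Crest.Agent.R143.Frame1x395 Crest.Agent.R143.Frame2x395 Crest.Agent.R143.Frame3x395
  Crest.Agent.R143.Frame4x395 Crest.Agent.R143.Frame8x395 Crest.Agent.R143.Frame9x395
  Crest.Agent.R143.Frame10x395 Crest.Agent.R143.Frame11x395
open Crest.Agent.R143.Splx117 Crest.Agent.R143.WLocx713 Crest.Agent.R143.RingDx117
  Crest.Agent.R143.CorrDx117
open Crest.Agent.R143.Neckx921 (Neck NeckD Tile Lk)
open Crest.Agent.R143.TileRx228 Crest.Agent.R143.DCorGx713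
open Crest.Agent.R143.PP0x831
open Crest.Agent.R143.Idxx927 (wl X_wl Y_wl)
open Crest.Agent.R143.Sepx686 Crest.Agent.R143.SepLx686 Crest.Agent.R143.SepWx686
  Crest.Agent.R143.SepWHx686 Crest.Agent.R143.SepXx686
open Crest.Agent.R143.CorHx713 Crest.Agent.R143.SepHx697
open Crest.Agent.R143.RcTx422
open Crest.Agent.R143.FinCx811 (rc0 Cs rcol cs)
open Crest.Agent.R143.OutSx358 (zc)
open Crest.Agent.R143.LocTx776 (Wn VCh)

variable {X : Set (ℂ × Bool)} {U K0 : Set ℂ} {M n k0 k1 : ℕ} {W : ℤ → ℤ × ℤ} {η d : ℝ} {o : ℤ}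
  {H : CorH X U M W η d o n} {Rs : Set (D0 (sX X))} {q : D0 (sX X)} {N : ℕ} {T : ℕ → ℕ}
  {R : Set (Cs H.gp)}

/-- the blocking cells of the strand -/
abbrev ZH (H : CorH X U M W η d o n) (R : Set (Cs H.gp)) (q : D0 (sX X)) (T : ℕ → ℕ) :
    Set (Cs H.gp) := zc (rc0 H.gp) R q (T n) (rcol H.gp (cX X) H.hull)

/-- the cell of the site `v` is not in `Ext Z` -/
def NE (H : CorH X U M W η d o n) (R : Set (Cs H.gp)) (q : D0 (sX X)) (T : ℕ → ℕ) (v : ℂ) : Prop :=
  ∀ c : Cs H.gp, c.1 = Quot.mk (hullE (sX X)) v → ¬ Extx358.Ext (rc0 H.gp) (Hc H.gp) (ZH H R q T) c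

/-- **white sites of the closing strips are in `Z`** -/
theorem white_Z (hR : ∀ s ∈ sX X, s ∈ BR η W M o n → ∃ c ∈ R, c.1 = Quot.mk (hullE (sX X)) s) {v : ℂ}
    (hv : v ∈ sX X) (hb : v ∈ BR η W M o n) (h0 : cX X v = 0) {c : Cs H.gp}
    (e : c.1 = Quot.mk (hullE (sX X)) v) : c ∈ ZH H R q T := by
  obtain ⟨c', h1, h2⟩ := hR v hv hb
  have h3 : c = c' := Subtype.ext (e.trans h2.symm)
  right
  refine ⟨h3 ▸ h1, ?_⟩
  show rcol H.gp (cX X) H.hull c = 0
  rw [rcol_val e, h0]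

/-- the window of the gate `a` is in the closing strips -/
theorem win_BR (H : CorH X U M W η d o n) {a : ℤ} (h1 : o + n - 1 ≤ a) (h2 : a ≤ o + M) {v : ℂ}
    (hx : |Gatex838.X (gz (100 * η) W a) (ge W a) v| < 3 / 2 * η)
    (hy : |Gatex838.Y (gz (100 * η) W a) (ge W a) v| < 19 / 2 * η) : v ∈ BR η W M o n := by
  have h0 := H.e0
  exact ⟨a, h1, h2, win_right H.path (by linarith) (by linarith) (by linarith) hy⟩

/-- **the vertical chain of a straight closing gate** -/
theorem vch_white {c : ℝ} {cw : List ℂ} (C : ChW H q T K0 c cw) (St : StH H Rs q N T)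
    (hR : ∀ s ∈ sX X, s ∈ BR η W M o n → ∃ c ∈ R, c.1 = Quot.mk (hullE (sX X)) s) {k : ℕ}
    (K : CGH M n W η o K0 k) : ∃ VV s t, VCh (sX X) η W (o + k) VV s t ∧
      ∀ v ∈ VV, (∀ c : Cs H.gp, c.1 = Quot.mk (hullE (sX X)) v → c ∈ ZH H R q T) ∨ NE H R q T v ∨
        (v ∈ Wn η W (o + k) (2 * η) (19 / 2 * η) (11 * η) ∧ cX X v = 0) := by
  have h0 := H.e0
  have kn := K.nk
  have kM := K.kM
  obtain ⟨up, dn, N', hx, hdl, VV, g1, g2, g3⟩ := C.vgate k K
  have hwin : ∀ s ∈ up ++ yy η W X (o + k) :: dn,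
      (-η < Gatex838.X (gz (100 * η) W (o + k)) (ge W (o + k)) s ∧
        Gatex838.X (gz (100 * η) W (o + k)) (ge W (o + k)) s < η) ∧
      -(10 * η) ≤ Gatex838.Y (gz (100 * η) W (o + k)) (ge W (o + k)) s ∧
      Gatex838.Y (gz (100 * η) W (o + k)) (ge W (o + k)) s ≤ 11 * η := by
    intro s hs
    have := N'.win s hs
    exact ⟨this.1, by linarith [this.2.1], by linarith [this.2.2]⟩
  have hS' : ∀ v, v ∈ VV → v ∈ sX X → v ∈ RR (12 * η) (53 * η) (100 * η) W (o + k - 1) ∨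
      v ∈ RR (12 * η) (53 * η) (100 * η) W (o + k) := by
    intro v hv _
    have key : v ∈ up ++ yy η W X (o + k) :: dn → v ∈ RR (12 * η) (53 * η) (100 * η) W (o + k) := by
      intro h1
      have h2 := hwin v h1
      refine win_right H.path (by linarith) (by linarith) ?_ ?_
      · rw [abs_lt]; constructor <;> linarith [h2.1.1, h2.1.2]
      · rw [abs_lt]; constructor <;> linarith [h2.2.1, h2.2.2]
    rcases g3 v hv with h1 | h1 | h1
    · exact Or.inr (key (List.mem_append_left _ h1.1))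
    · rcases h1.2.2 with h2 | h2
      · exact Or.inl (RR_mono (by linarith) (by linarith) _ W _ h2)
      · exact Or.inr (RR_mono (by linarith) (by linarith) _ W _ h2)
    · exact Or.inr (key (List.mem_append_right _ h1.1))
  have lS : Lk (sX X) {v | v ∈ VV ∧ v ∈ sX X} (dn.getLast N'.nd) (up.head N'.nu) := by
    have hend : ∀ {a b : ℂ}, Lk (sX X) VV a b → a ∈ sX X → Lk (sX X) {v | v ∈ VV ∧ v ∈ sX X} a b := by
      rintro a b ⟨⟨ha, hb⟩, h⟩ haS
      have key : ∀ b, Relation.ReflTransGen (fun u v => DE (sX X) u v ∧ u ∈ VV ∧ v ∈ VV) a b →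
          Lk (sX X) {v | v ∈ VV ∧ v ∈ sX X} a b := by
        intro b hb
        induction hb with
        | refl => exact Lk.refl ⟨ha, haS⟩
        | tail _ h1 ih =>
          obtain ⟨m1, m2⟩ := RingDx117.de_sites h1.1
          exact ih.trans ⟨⟨⟨h1.2.1, m1⟩, ⟨h1.2.2, m2⟩⟩,
            .single ⟨h1.1, ⟨h1.2.1, m1⟩, ⟨h1.2.2, m2⟩⟩⟩
      exact key b h
    have hup : up.head N'.nu ∈ sX X := (N'.cu _ (List.head_mem _)).1
    exact (hend g1.symm hup).symm
  refine ⟨{v | v ∈ VV ∧ v ∈ sX X}, _, _, ⟨lS, fun v hv => hv.2, fun v hv => ?_, fun v hv =>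
    hS' v hv.1 hv.2, ?_, ?_⟩, fun v hv => ?_⟩
  · linarith [g2 v hv.1]
  · have h1 := hwin _ (List.mem_append_right _ (List.mem_cons_of_mem _ (List.getLast_mem N'.nd)))
    exact ⟨abs_le.2 ⟨h1.1.1.le, h1.1.2.le⟩, h1.2.1, N'.bot⟩
  · have h1 := hwin _ (List.mem_append_left _ (List.head_mem N'.nu))
    exact ⟨abs_le.2 ⟨h1.1.1.le, h1.1.2.le⟩, N'.top, h1.2.2⟩
  · rcases g3 v hv.1 with h1 | h1 | h1
    · have h2 := hwin v (List.mem_append_left _ h1.1)
      by_cases h3 : Gatex838.Y (gz (100 * η) W (o + k)) (ge W (o + k)) v < 19 / 2 * η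
      · left
        intro c e
        refine white_Z hR hv.2 (win_BR H (a := o + k) (by omega) (by omega) ?_ ?_) h1.2.1 e
        · rw [abs_lt]; constructor <;> linarith [h2.1.1, h2.1.2]
        · rw [abs_lt]; exact ⟨by linarith [h1.2.2], h3⟩
      · push Not at h3
        exact Or.inr (Or.inr ⟨⟨abs_le.2 ⟨by linarith [h2.1.1], by linarith [h2.1.2]⟩, h3, h2.2.2⟩,
          h1.2.1⟩)
    · left
      intro c e
      refine white_Z hR hv.2 ?_ h1.2.1 e
      rcases h1.2.2 with h2 | h2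
      · exact ⟨o + k - 1, by omega, by omega, RR_mono (by linarith) (by linarith) _ W _ h2⟩
      · exact ⟨o + k, by omega, by omega, RR_mono (by linarith) (by linarith) _ W _ h2⟩
    · exact Or.inr (Or.inl fun c e => C.notExt St hR h1.2 e)

/-- **sites below a straight closing gate** -/
theorem low_white {c : ℝ} {cw : List ℂ} (C : ChW H q T K0 c cw) (hc : 2 * η ≤ c)
    (St : StH H Rs q N T)
    (hR : ∀ s ∈ sX X, s ∈ BR η W M o n → ∃ c ∈ R, c.1 = Quot.mk (hullE (sX X)) s) {k : ℕ}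
    (K : CGH M n W η o K0 k) {v : ℂ}
    (hv : v ∈ Wn η W (o + k) (2 * η) (-(10 * η)) (-(9 * η))) : NE H R q T v := fun c' e =>
  C.notExt St hR (C.low k K v ⟨hv.1.trans hc, by linarith [hv.2.1], hv.2.2⟩) e

/-- **sites of the inner side** -/
theorem low_K0 {c : ℝ} {cw : List ℂ} (C : ChW H q T K0 c cw) (St : StH H Rs q N T)
    (hR : ∀ s ∈ sX X, s ∈ BR η W M o n → ∃ c ∈ R, c.1 = Quot.mk (hullE (sX X)) s) {v : ℂ}
    (hv : v ∈ K0) : NE H R q T v := fun _ e => C.notExt St hR (C.k0 v hv) e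

/-- **the closed white chain for an inner out gate** -/
theorem chainX (St : StH H Rs q N T) (G : Geo (sX X) M n k0 k1 W η o K0)
    (hf : ∀ k : ℕ, k < n → FA (cm0 H.gp) (xc H.gp H.hull)
      (RD (sX X) (RR (19 / 2 * η) (103 / 2 * η) (100 * η) W (o + k))) (H.p (k + 1)) (H.p k))
    {c : ℝ} (hc1 : η ≤ c) (hc : c < 4 * η) {k : ℕ} (h3 : 3 ≤ k) (hk : k + 3 ≤ n)
    (st : ∀ a : ℤ, o + k - 2 ≤ a → a ≤ o + k + 1 → ge W (a + 1) = ge W a)
    (foot : wl (gz (100 * η) W (o + k)) (ge W (o + k)) (-(10 * η)) ∈ K0) {up dn : List ℂ}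
    (Nk : Neck (sX X) (gz (100 * η) W (o + k)) (ge W (o + k)) (-η) η (-(9 * η)) (10 * η) η
      (sX X) (bX X) up (yy η W X (o + k)) dn) (hx : up.getLast Nk.nu = xx η W X (o + k)) :
    ∃ cw : List ℂ, ChW H q T K0 c cw ∧
      (∀ w ∈ Low W (9 * η) η (100 * η) c o k, asum w cw = -(2 * Real.pi)) ∧
      ∀ s ∈ dn, asum s cw = -(2 * Real.pi) := by
  have h0 := H.e0
  have hnM := H.nM
  have n3 := St.n3
  have G' : Geo (sX X) M n k k1 W η o K0 := sgeo_at G h3 hk st (by
    rw [show 9 * η + η = 10 * η by ring]; exact foot)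
  have D := H.corr
  have eB : (fun k : ℕ => RR (19 / 2 * η) (103 / 2 * η) (100 * η) W (o + k)) =
      fun k : ℕ => RR (9 * η + η / 2) (51 * η + η / 2) (100 * η) W (o + k) :=
    funext fun k => rr_eq η W _
  rw [eB] at D
  obtain ⟨t, Bt⟩ := exists_back D (fun k hk => by
    have := hf k hk
    rw [rr_eq] at this
    exact this)
  obtain ⟨Bt', hsub⟩ := exists_tB St D Bt
  have hy0 : cX X (yy η W X (o + ((0 : ℕ) : ℤ))) = 1 := H.coly _
  have Nn : NkG (sX X) k W (9 * η) (51 * η) (100 * η) (10 * η) η o (cX X)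
      (fun k : ℕ => yy η W X (o + k)) (fun k : ℕ => xx η W X (o + k)) (-η) η (sX X) (bX X) up dn := by
    refine ⟨Nk, hx, by linarith, by linarith, ?_, ?_⟩
    · intro j _ _ s hs _ hc
      exact (bX_iff s hs).1 (hc.trans hy0)
    · intro s hs
      exact ((bX_iff s (bX_sub hs)).2 hs).trans hy0.symm
  have hW0 : ∀ j, n ≤ j → j < M → Lk (sX X) (WT (sX X) (cX X) (fun k : ℕ => yy η W X (o + k)) W
      (9 * η) (51 * η) (100 * η) o j) ((fun k : ℕ => xx η W X (o + k)) j)
      ((fun k : ℕ => xx η W X (o + k)) (j + 1)) := by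
    intro j h1 h2
    have h3 := H.wht (o + j)
    show Lk (sX X) _ (xx η W X (o + j)) (xx η W X (o + ((j + 1 : ℕ) : ℤ)))
    rw [show o + ((j + 1 : ℕ) : ℤ) = o + j + 1 by push_cast; ring]
    refine h3.mono ?_
    rintro s ⟨⟨h4, h5⟩, h6⟩
    exact ⟨⟨h4, fun hc => h5 ((bX_iff s h4).1 (hc.trans hy0))⟩, h6⟩
  have hz : ∀ s, cX X s ≠ cX X (yy η W X (o + ((0 : ℕ) : ℤ))) → cX X s = 0 := by
    intro s h2
    rw [hy0] at h2
    revert h2
    generalize cX X s = a
    revert a
    decide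
  obtain ⟨cw, C, hlow, hdn⟩ := sepX_chain G' D Bt' Nn
    (x := fun k : ℕ => xx η W X (o + k)) (fun k _ => rfl)
    (fun j => by
      show xx η W X (o + ((j + M : ℕ) : ℤ)) = xx η W X (o + j)
      rw [show o + ((j + M : ℕ) : ℤ) = o + j + M by push_cast; ring]
      exact H.xper _) hW0 (c := c) (by linarith) (by linarith)
  have c3' : ∀ s ∈ cw, cX X s = 0 := fun s hs => hz s (C.col s hs)
  have c6' : ∀ k, k ≤ n → asum (yy η W X (o + k)) cw = -(2 * Real.pi) := C.gate
  refine ⟨cw, ⟨C.loop, C.sub, c3', ?_, C.k0, c6', ?_, C.low, ?_⟩, hlow, hdn⟩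
  · intro s hs
    rcases C.mem s hs with ⟨k, hk, h⟩ | ⟨j, h1, h2, h3⟩
    · by_cases h4 : 0 < k ∧ k + 1 < n
      · exact Or.inl (hsub k h4.1 h4.2 h)
      · have h5 := Bt'.rB k hk h
        right
        have h6 : s ∈ RR (19 / 2 * η) (103 / 2 * η) (100 * η) W (o + k) := by
          rw [rr_eq]; exact h5
        rcases Nat.eq_zero_or_pos k with h7 | h7
        · refine ⟨o + M, by omega, le_rfl, ?_⟩
          rw [RR_per H.path]
          rw [h7] at h6
          simpa using h6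
        · refine ⟨o + k, by omega, by omega, h6⟩
    · right
      refine ⟨o + j, by omega, by omega, ?_⟩
      exact RR_mono (by linarith) (by linarith) _ W _ h3.1.2
  · intro s hs
    have ho := SepHx697.st_occ St
    have hcol := st_col St
    have off : ∀ v ∈ LS (sX X) (cX X) q.1 (T n), v ∉ cw := by
      intro v hv hc
      have h1 := LS_col H.gp H.hull ho hv
      rw [c3' v hc, hcol] at h1
      exact absurd h1 (by decide)
    have g1 := LS_lk H.gp H.hull ho hs
    have m1 : (H.p (n - 1)).1.1 ∈ LS (sX X) (cX X) q.1 (T n) :=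
      ⟨T 1, st_T St (by omega), by rw [st_at St (by omega) (by omega)]⟩
    have g2 := LS_lk H.gp H.hull ho m1
    rw [← asum_lk H.gp C.loop off g1, asum_lk H.gp C.loop off g2]
    exact c6' (n - 1) (by omega)
  · intro k hk
    obtain ⟨up', dn', N', hx'⟩ := H.neck (o + k)
    obtain ⟨-, g2, VV, g3, g4, g5⟩ := C.white_gate G' D Bt' hW0 (by linarith) hk N' hx'
      ((H.coly _).trans hy0.symm) (by linarith) (by linarith) (by linarith) (by linarith)
    refine ⟨up', dn', N', hx', g2, VV, g3, fun s hs => ?_, fun s hs => ?_⟩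
    · have := g4 s hs
      rw [abs_lt]
      constructor <;> linarith [this.1, this.2]
    · rcases g5 s hs with h1 | h1 | h1
      · refine Or.inl ⟨h1, ?_, N'.upb s h1⟩
        have h2 := N'.cu s h1
        by_contra hc
        have h3 : cX X s = 1 := by
          revert hc
          generalize cX X s = a
          revert a
          decide
        exact h2.2 ((bX_iff s h2.1).1 h3)
      · refine Or.inr (Or.inl ?_)
        have hk1 := hk.nk
        have e1 : o + ((k - 1 : ℕ) : ℤ) = o + k - 1 := by omega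
        rcases h1.1 with h2 | h2
        · refine ⟨h2.1.1, hz s h2.1.2, Or.inl ?_⟩
          have h3 := h2.2
          rw [e1] at h3
          exact h3
        · exact ⟨h2.1.1, hz s h2.1.2, Or.inr h2.2⟩
      · exact Or.inr (Or.inr h1)

section out

variable (St : StH H Rs q N T) (G : Geo (sX X) M n k0 k1 W η o K0)
  (hf : ∀ k : ℕ, k < n → FA (cm0 H.gp) (xc H.gp H.hull)
    (RD (sX X) (RR (19 / 2 * η) (103 / 2 * η) (100 * η) W (o + k))) (H.p (k + 1)) (H.p k))
  (hR : ∀ s ∈ sX X, s ∈ BR η W M o n → ∃ c ∈ R, c.1 = Quot.mk (hullE (sX X)) s)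

include St G hf hR

/-- **sites below an inner out gate** -/
theorem low_out {k : ℕ} (h3 : 3 ≤ k) (hk : k + 3 ≤ n)
    (st : ∀ a : ℤ, o + k - 2 ≤ a → a ≤ o + k + 1 → ge W (a + 1) = ge W a)
    (foot : wl (gz (100 * η) W (o + k)) (ge W (o + k)) (-(10 * η)) ∈ K0) {v : ℂ}
    (hv : v ∈ Wn η W (o + k) (2 * η) (-(10 * η)) (-(9 * η))) : NE H R q T v := by
  have h0 := H.e0
  obtain ⟨up, dn, Nk, hx⟩ := H.neck (o + k)
  obtain ⟨cw, C, h1, -⟩ := chainX St G hf (c := 2 * η) (by linarith) (by linarith) h3 hk st foot Nk hx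
  exact fun c e => C.notExt St hR (h1 v ⟨hv.1, by linarith [hv.2.1], hv.2.2⟩) e

/-- **the lower arm of the neck of an inner out gate** -/
theorem dn_out {k : ℕ} (h3 : 3 ≤ k) (hk : k + 3 ≤ n)
    (st : ∀ a : ℤ, o + k - 2 ≤ a → a ≤ o + k + 1 → ge W (a + 1) = ge W a)
    (foot : wl (gz (100 * η) W (o + k)) (ge W (o + k)) (-(10 * η)) ∈ K0) {up dn : List ℂ}
    (Nk : Neck (sX X) (gz (100 * η) W (o + k)) (ge W (o + k)) (-η) η (-(9 * η)) (10 * η) η
      (sX X) (bX X) up (yy η W X (o + k)) dn) (hx : up.getLast Nk.nu = xx η W X (o + k)) {v : ℂ}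
    (hv : v ∈ dn) : NE H R q T v := by
  have h0 := H.e0
  obtain ⟨cw, C, -, h1⟩ := chainX St G hf (c := 2 * η) (by linarith) (by linarith) h3 hk st foot Nk hx
  exact fun c e => C.notExt St hR (h1 v hv) e



end out

end Crest.Agent.R143.SepVx686
end
end

-- ▼ part R143/LocB_336
section

/-!
# Row 143 (S0194), LOCX of note 3970: crossing half (helper336)

* `first_mem` : the first element of a list which lies in a set
* `KR`, `KL` : right / left sites of the two arcs next to the gate `k`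
* **`col_link`** : the upper arm of the neck of the gate `k`, cut at its first right site `u`, is
  linked to `y k` through left and right sites of the two arcs
* **`col_cross`** : a chain inside the strip which crosses the window of the gate `k` and avoids the
  left and right sites of the two arcs and the lower part `DN` meets the upper arm ABOVE `u`
* **`cross_gate`** : the form of 776: `InG` at the gate `k`, `Z0` contains the right sites; a link
  `PA` off `Z0`, off `dn`, inside `b0 < Y < b1`, from `X ≤ x0` to `x1 ≤ X` contains a site `s` of `up`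
  above the first site of `up` in `Z0`: `Lk S {s | s ∈ up ∧ s ∉ Z0} (up.head) s`
* `cross_gate_list` : the same for a list
* **`vert_chain`** : the vertical chain itself (776's refined form)
-/

set_option autoImplicit false

noncomputable section

open scoped Classical

namespace Crest.Agent.R143.LocBx336

open Crest.Agent.R143.B0x346 Crest.Agent.R143.DelGx806 Crest.Agent.R143.DelRx806
open Crest.Agent.R143.JColx54 (delT_rot)
open Crest.Agent.R143.ToolWx838 Crest.Agent.R143.Blkx838 Crest.Agent.R143.ToolW2x838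
open Crest.Agent.R143.ToolW3x838 Crest.Agent.R143.Gatex838 Crest.Agent.R143.Neckx921
open Crest.Agent.R143.Frame1x395 Crest.Agent.R143.Frame2x395 Crest.Agent.R143.Frame3x395
  Crest.Agent.R143.Frame4x395 Crest.Agent.R143.Frame8x395 Crest.Agent.R143.Frame9x395
  Crest.Agent.R143.Frame10x395 Crest.Agent.R143.Frame11x395
open Crest.Agent.R143.Frame5x395 (sd mem_sd th th_spec)
open Crest.Agent.R143.Splx117 Crest.Agent.R143.WLocx713 Crest.Agent.R143.RingDx117
  Crest.Agent.R143.CorrDx117 Crest.Agent.R143.Sepx686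

variable {S : Finset ℂ} {χ : ℂ → ZMod 2}

/-- the first element of `l` in the set `R` -/
theorem first_mem {R : Set ℂ} (l : List ℂ) (h : ∃ s ∈ l, s ∈ R) :
    ∃ l1 u l2, l = l1 ++ u :: l2 ∧ u ∈ R ∧ ∀ s ∈ l1, s ∉ R := by
  induction l with
  | nil => simp at h
  | cons a l ih =>
    by_cases ha : a ∈ R
    · exact ⟨[], a, l, rfl, ha, by simp⟩
    · obtain ⟨s, hs, hs'⟩ := h
      have hsl : s ∈ l := by
        rcases List.mem_cons.1 hs with h | h
        · exact absurd (h ▸ hs') ha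
        · exact h
      obtain ⟨l1, u, l2, e, hu, hl⟩ := ih ⟨s, hsl, hs'⟩
      refine ⟨a :: l1, u, l2, by rw [e]; rfl, hu, ?_⟩
      intro s hs
      rcases List.mem_cons.1 hs with h | h
      · rw [h]; exact ha
      · exact hl s h

section corr

variable {hS : GP (S : Set ℂ)} {hχ : HullC S χ} {n : ℕ} {y z : ℕ → ℂ} {A B : ℕ → Set ℂ}
  {p : ℕ → D0 S}



variable {D : DCorr hS hχ n y z A B p} {t : ℕ → ℕ}







/-- a list of sites cut at its first site in `Z0`: the prefix is linked to the head -/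
theorem prefix_lk {Z0 : Set ℂ} {up up1 up2 : List ℂ} {u : ℂ} (hup : up ≠ [])
    (dup : ∀ q ∈ prs up, DE S q.1 q.2) (e : up = up1 ++ u :: up2) (h1 : ∀ s ∈ up1, s ∉ Z0) {s : ℂ}
    (hs : s ∈ up1) : Lk S {s | s ∈ up ∧ s ∉ Z0} (up.head hup) s := by
  have hc : ∀ q ∈ prs up1, DE S q.1 q.2 := by
    have h2 := (isChain_iff_prs (R := DE S) up).2 dup
    rw [e, List.isChain_append] at h2
    exact (isChain_iff_prs (R := DE S) _).1 h2.1
  have hne : up1 ≠ [] := by rintro rfl; simp at hs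
  have hhead : up1.head hne = up.head hup := by
    subst e
    cases up1 with
    | nil => exact absurd rfl hne
    | cons a l => rfl
  have h3 : Lk S {s | s ∈ up1} (up.head hup) s := by
    refine lk_list hc (fun s hs => hs) ?_ hs
    rw [← hhead]
    exact List.head_mem _
  refine h3.mono fun s hs => ⟨?_, h1 s hs⟩
  rw [e]
  exact List.mem_append_left _ hs



/-- **LOCX, the vertical chain of one straight gate**, with the origin of its sites: from the last
site of `dn` to the first site of `up`; its sites are in `Z0`, or in `dn`, or in the part of `up`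
above the first site of `up` in `Z0` -/
theorem vert_chain' (T : Back D t) {k : ℕ} {z0 e : ℂ} {a0 a1 b0 b1 m x0 x1 : ℝ} {V β : Finset ℂ}
    {up dn : List ℂ} (G : InG S χ n y z A B k z0 e a0 a1 b0 b1 m x0 x1 V β up dn) {Z0 : Set ℂ}
    (hR : ∀ j, j = k ∨ j + 1 = k → ∀ s ∈ RS S χ (p (j + 1)).1 (t j), s ∈ Z0) (hy : y k ∈ Z0)
    (hZu : ∀ s ∈ up, s ∈ Z0 → ∃ j, (j = k ∨ j + 1 = k) ∧ s ∈ RS S χ (p (j + 1)).1 (t j)) :
    ∃ VV : Set ℂ, Lk S VV (dn.getLast G.neck.nd) (up.head G.neck.nu) ∧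
      (∀ s ∈ VV, x0 < X z0 e s ∧ X z0 e s < x1) ∧
      (∀ s ∈ VV, s ∈ Z0 ∨ s ∈ dn ∨ Lk S {s | s ∈ up ∧ s ∉ Z0} (up.head G.neck.nu) s) ∧
      y k ∈ VV ∧ (∀ s ∈ dn, s ∈ VV) ∧
      ∀ s ∈ VV, s ∈ up ∨ (∃ j, (j = k ∨ j + 1 = k) ∧ s ∈ RS S χ (p (j + 1)).1 (t j)) ∨
        s = y k ∨ s ∈ dn := by
  have hadj := G.neck.adj
  rw [← isChain_iff_prs, List.isChain_append] at hadj
  obtain ⟨c1, c2, -⟩ := hadj
  have dup := (isChain_iff_prs (R := DE S) up).1 c1
  have hk2 := G.h2
  have hk3 := G.h3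
  have hzk : z k ∈ RS S χ (p (k + 1)).1 (t k) := by
    refine ⟨t k, le_rfl, ?_⟩
    rw [T.arr k (by omega), D.st k (by omega)]
  obtain ⟨up1, u, up2, e1, hu, h1⟩ := first_mem (R := Z0) up
    ⟨z k, by rw [← G.upz]; exact List.getLast_mem _, hR k (Or.inl rfl) _ hzk⟩
  have huup : u ∈ up := by rw [e1]; simp
  obtain ⟨j, hjk, huj⟩ := hZu u huup hu
  have hj : j < n := by omega
  have hlk : Lk S (RS S χ (p (j + 1)).1 (t j)) (z k) u := by
    have h3 := T.rlk hj huj
    rcases hjk with h | h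
    · rw [← h]; exact h3.2
    · rw [← h]; exact h3.1
  set RJ : Set ℂ := RS S χ (p (j + 1)).1 (t j) with hRJ
  set VV : Set ℂ := ({s | s ∈ up1} ∪ RJ) ∪ {s | s ∈ y k :: dn} with hVV
  have l1 : Lk S ({s | s ∈ up1} ∪ RJ) (up.head G.neck.nu) (z k) := by
    have hc : ∀ q ∈ prs (up1 ++ [u]), DE S q.1 q.2 := by
      have h2 := (isChain_iff_prs (R := DE S) up).2 dup
      rw [e1, show up1 ++ u :: up2 = (up1 ++ [u]) ++ up2 by simp, List.isChain_append] at h2
      exact (isChain_iff_prs (R := DE S) _).1 h2.1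
    have hne : up1 ++ [u] ≠ [] := by simp
    have hhead : (up1 ++ [u]).head hne = up.head G.neck.nu := by
      subst e1
      cases up1 <;> rfl
    have h3 : Lk S {s | s ∈ up1 ++ [u]} (up.head G.neck.nu) u := by
      refine lk_list hc (fun s hs => hs) ?_ (by simp)
      rw [← hhead]
      exact List.head_mem _
    refine (h3.mono ?_).trans ((hlk.mono Set.subset_union_right).symm)
    intro s hs
    rcases List.mem_append.1 hs with h | h
    · exact Or.inl h
    · rw [List.mem_singleton] at h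
      rw [h]
      exact Or.inr huj
  have l2 : Lk S {s | s ∈ y k :: dn} (y k) (dn.getLast G.neck.nd) :=
    lk_list ((isChain_iff_prs (R := DE S) (y k :: dn)).1 c2) (fun s hs => hs) (by simp)
      (List.mem_cons_of_mem _ (List.getLast_mem _))
  have l3 : Lk S VV (z k) (y k) := by
    have hde := G.neck.de
    rw [G.upz] at hde
    have hz' : z k ∈ VV := Or.inl (Or.inr hlk.1.1)
    have hy' : y k ∈ VV := Or.inr (by simp)
    exact ⟨⟨hz', hy'⟩, .single ⟨hde, hz', hy'⟩⟩
  refine ⟨VV, (((l1.mono Set.subset_union_left).trans l3).trans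
    (l2.mono Set.subset_union_right)).symm, ?_, ?_, Or.inr (by simp), fun s hs =>
      Or.inr (List.mem_cons_of_mem _ hs), ?_⟩
  · have hwin : ∀ s ∈ up ++ y k :: dn, x0 < X z0 e s ∧ X z0 e s < x1 := fun s hs =>
      ⟨G.x0a.trans_lt (G.neck.win s hs).1.1, (G.neck.win s hs).1.2.trans_le G.a1x⟩
    rintro s ((hs | hs) | hs)
    · exact hwin s (List.mem_append_left _ (by rw [e1]; exact List.mem_append_left _ hs))
    · exact G.mid j (by omega) (by omega) s (RS_S D hj hs) (T.rB j hj hs)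
    · exact hwin s (List.mem_append_right _ hs)
  · rintro s ((hs | hs) | hs)
    · exact Or.inr (Or.inr (prefix_lk G.neck.nu dup e1 h1 hs))
    · exact Or.inl (hR j hjk s hs)
    · rcases List.mem_cons.1 hs with h | h
      · exact Or.inl (h ▸ hy)
      · exact Or.inr (Or.inl h)
  · rintro s ((hs | hs) | hs)
    · exact Or.inl (by rw [e1]; exact List.mem_append_left _ hs)
    · exact Or.inr (Or.inl ⟨j, hjk, hs⟩)
    · rcases List.mem_cons.1 hs with h | h
      · exact Or.inr (Or.inr (Or.inl h))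
      · exact Or.inr (Or.inr (Or.inr h))



end corr

end Crest.Agent.R143.LocBx336
end
end

-- ▼ part R143/OutV_336
section

/-!
# Row 143 (S0194), RIG, LOCX: the vertical chain of an OUT gate under the names of `CorH` (helper336)

* `up_off`, `vv_geo` : 686's `SGeo` level: the vertical chain (`LocBx336.vert_chain'`) stays in
  `|X| < 3 h / 2`, `|Y| < A + κ`
* `dn_asum` : the lower arm has index `-2π`
* **`vco`** (776's (C5)) : 697's strand `StH`, `Z = zc (rc0 hS) R q (T n) s`: a vertical chain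
  `LocTx776.VCh` from the last site of `dn` to the first site of `up`; every site of it has its cell
  in `Z`, or is in `dn`, or is joined to the first site of `up` by sites of `up` off `Z`
* `vco_ok` : every site of the chain is `LocDx776.Ok`
-/

set_option autoImplicit false

noncomputable section

open scoped Classical

namespace Crest.Agent.R143.OutVx336

open Crest.Agent.R143.B0x346 Crest.Agent.R143.DelGx806 Crest.Agent.R143.DelRx806
  Crest.Agent.R143.JColx54
open Crest.Agent.R143.ToolWx838 Crest.Agent.R143.Blkx838 Crest.Agent.R143.ToolW2x838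
open Crest.Agent.R143.ToolW3x838 Crest.Agent.R143.Gatex838 Crest.Agent.R143.Neckx921
open Crest.Agent.R143.Frame1x395 Crest.Agent.R143.Frame2x395 Crest.Agent.R143.Frame3x395
  Crest.Agent.R143.Frame4x395 Crest.Agent.R143.Frame8x395 Crest.Agent.R143.Frame9x395
  Crest.Agent.R143.Frame10x395 Crest.Agent.R143.Frame11x395
open Crest.Agent.R143.Frame5x395 (sd mem_sd th th_spec)
open Crest.Agent.R143.Splx117 Crest.Agent.R143.WLocx713 Crest.Agent.R143.RingDx117
  Crest.Agent.R143.CorrDx117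
open Crest.Agent.R143.TileRx228
open Crest.Agent.R143.PP0x831
open Crest.Agent.R143.Sepx686 Crest.Agent.R143.SepLx686
open Crest.Agent.R143.CorHx713
open Crest.Agent.R143.DCorGx713
open Crest.Agent.R143.RcTx422
open Crest.Agent.R143.FinCx811 (rc0 Cs rcol cs)
open Crest.Agent.R143.OutSx358 (zc)
open Crest.Agent.R143.Gntx535 (wl wr)
open Crest.Agent.R143.SepHx697
open Crest.Agent.R143.LocBx336
open Crest.Agent.R143.LocTx776 (VCh Wn)

/-! ### 686's level -/

section geo

variable {S : Finset ℂ} {χ : ℂ → ZMod 2} {hS : GP (S : Set ℂ)} {hχ : HullC S χ} {M n k0 k1 : ℕ}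
  {W : ℤ → ℤ × ℤ} {A B h b1 m ρ τ κ : ℝ} {o : ℤ} {K0 : Set ℂ} {y z : ℕ → ℂ} {p : ℕ → D0 S}

/-- the sites of the neck are off the tiles which do not touch the gate -/
theorem neck_off (G : SGeo S M n k0 k1 W A B h b1 m ρ τ κ o K0) {a0 a1 : ℝ} {V β : Finset ℂ}
    {up dn : List ℂ} (N : NkG S k0 W A B h b1 m o χ y z a0 a1 V β up dn) {a : ℤ}
    (h0 : ¬ (M : ℤ) ∣ (o + k0) - a) (h1 : ¬ (M : ℤ) ∣ (o + k0) - (a + 1)) {s : ℂ}
    (hs : s ∈ up ++ y k0 :: dn) : s ∉ RR (A + κ) (B + κ) h W a := by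
  have hw := N.neck.win s hs
  have h3 := N.a0w
  have h4 := N.a1w
  have hκ : 0 < κ := by linarith [G.ρ0, G.ρτ, G.τκ]
  have hb := G.b1κ
  have hbA := G.b1A
  refine G.win_off h0 h1 ?_ ?_
  · rw [abs_lt]; constructor <;> linarith [hw.1.1, hw.1.2]
  · rw [abs_lt]; constructor <;> linarith [hw.2.1, hw.2.2]

theorem neck_off' (G : SGeo S M n k0 k1 W A B h b1 m ρ τ κ o K0) {a0 a1 : ℝ} {V β : Finset ℂ}
    {up dn : List ℂ} (N : NkG S k0 W A B h b1 m o χ y z a0 a1 V β up dn) {j : ℕ} (hj : j < n)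
    (h1 : j ≠ k0) (h2 : j + 1 ≠ k0) {s : ℂ} (hs : s ∈ up ++ y k0 :: dn) :
    s ∉ RR (A + κ) (B + κ) h W (o + j) := by
  have hn := G.nM
  have hkn := G.kn
  have hk3 := G.k3
  exact neck_off G N (ndvd (by omega) (by omega) (by omega)) (ndvd (by omega) (by omega) (by omega))
    hs

/-- the closing tiles and their neighbours -/
theorem neck_offR (G : SGeo S M n k0 k1 W A B h b1 m ρ τ κ o K0) {a0 a1 : ℝ} {V β : Finset ℂ}
    {up dn : List ℂ} (N : NkG S k0 W A B h b1 m o χ y z a0 a1 V β up dn) {a : ℤ}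
    (h1 : o + n - 1 ≤ a) (h2 : a ≤ o + M) {s : ℂ} (hs : s ∈ up ++ y k0 :: dn) :
    s ∉ RR (A + κ) (B + κ) h W a := by
  have hn := G.nM
  have hkn := G.kn
  have hk3 := G.k3
  exact neck_off G N (ndvd (by omega) (by omega) (by omega)) (ndvd (by omega) (by omega) (by omega))
    hs

/-- **the vertical chain of the gate `k0`** -/
theorem vv_geo (G : SGeo S M n k0 k1 W A B h b1 m ρ τ κ o K0)
    (D : DCorr hS hχ n y z (fun k => RR A B h W (o + k)) (fun k => RR (A + ρ) (B + ρ) h W (o + k)) p)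
    {t : ℕ → ℕ} (T : Back D t) {a0 a1 : ℝ} {V β : Finset ℂ} {up dn : List ℂ}
    (N : NkG S k0 W A B h b1 m o χ y z a0 a1 V β up dn) {Z0 : Set ℂ}
    (hR : ∀ j, j = k0 ∨ j + 1 = k0 → ∀ s ∈ RS S χ (p (j + 1)).1 (t j), s ∈ Z0) (hy : y k0 ∈ Z0)
    (hZu : ∀ s ∈ up, s ∈ Z0 → ∃ j, (j = k0 ∨ j + 1 = k0) ∧ s ∈ RS S χ (p (j + 1)).1 (t j)) :
    ∃ VV : Set ℂ, Lk S VV (dn.getLast N.neck.nd) (up.head N.neck.nu) ∧
      (∀ s ∈ VV, |X (gz h W (o + k0)) (ge W (o + k0)) s| < 3 * h / 2 ∧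
        |Y (gz h W (o + k0)) (ge W (o + k0)) s| < A + κ) ∧
      (∀ s ∈ VV, s ∈ Z0 ∨ s ∈ dn ∨ Lk S {s | s ∈ up ∧ s ∉ Z0} (up.head N.neck.nu) s) ∧
      ∀ s ∈ VV, s ∈ up ∨ (∃ j, (j = k0 ∨ j + 1 = k0) ∧ s ∈ RS S χ (p (j + 1)).1 (t j)) ∨
        s = y k0 ∨ s ∈ dn := by
  have hk3 := G.k3
  have hkn := G.kn
  obtain ⟨VV, h1, h2, h3, -, -, h6⟩ := vert_chain' T (inG G D N) hR hy hZu
  refine ⟨VV, h1, fun s hs => ⟨?_, ?_⟩, h3, h6⟩
  · have := h2 s hs
    rw [abs_lt]
    exact ⟨by linarith [this.1], this.2⟩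
  · have hbA := G.b1A
    have hb := G.b1κ
    have hm := G.m0
    have hρ := G.ρ0
    have hρτ := G.ρτ
    have hτκ := G.τκ
    have hA := G.A0
    have hAB := G.AB
    have hw : ∀ s ∈ up ++ y k0 :: dn, |Y (gz h W (o + k0)) (ge W (o + k0)) s| < A + κ := by
      intro s hs
      have := (N.neck.win s hs).2
      rw [abs_lt]
      constructor <;> linarith [this.1, this.2]
    rcases h6 s hs with h | ⟨j, hj, h⟩ | h | h
    · exact hw s (List.mem_append_left _ h)
    · have h7 := T.rB j (by omega) h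
      have h8 := (G.strip (by linarith) (by linarith) (show k0 ≤ j + 2 by omega)
        (show j < k0 + 2 by omega) h7).1
      linarith
    · exact hw s (List.mem_append_right _ (by rw [h]; exact List.mem_cons_self ..))
    · exact hw s (List.mem_append_right _ (List.mem_cons_of_mem _ h))


end geo

theorem lk_mem {S : Finset ℂ} {A : Set ℂ} {u v : ℂ} (h : Lk S A u v) (hu : u ∈ S) : v ∈ S := by
  obtain ⟨-, h⟩ := h
  induction h with
  | refl => exact hu
  | tail _ h1 _ => exact (de_sites h1.1).2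

theorem neck_mem {S : Finset ℂ} {z0 e : ℂ} {a0 a1 b0 b1 m : ℝ} {V β : Finset ℂ} {up dn : List ℂ}
    {y : ℂ} (N : Neck S z0 e a0 a1 b0 b1 m V β up y dn) (hy : y ∈ S) {s : ℂ}
    (hs : s ∈ up ++ y :: dn) : s ∈ S :=
  lk_mem (lk_list (A := {s | s ∈ up ++ y :: dn}) N.adj (fun _ hs => hs)
    (List.mem_append_right _ (List.mem_cons_self ..)) hs) hy

/-! ### the level of `CorH` -/

section cor

variable {X : Set (ℂ × Bool)} {U K0 : Set ℂ} {M n k0 k1 : ℕ} {W : ℤ → ℤ × ℤ} {η d : ℝ} {o : ℤ}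
  {H : CorH X U M W η d o n} {Rs : Set (D0 (sX X))} {q : D0 (sX X)} {N : ℕ} {T : ℕ → ℕ}

/-- the neck with the names of `CorH` -/
abbrev NkH (X : Set (ℂ × Bool)) (W : ℤ → ℤ × ℤ) (η : ℝ) (o : ℤ) (k0 : ℕ) (up dn : List ℂ) : Prop :=
  NkG (sX X) k0 W (9 * η) (51 * η) (100 * η) (10 * η) η o (cX X)
    (fun k : ℕ => yy η W X (o + k)) (fun k : ℕ => xx η W X (o + k)) (-η) η (sX X) (bX X) up dn

/-- the blocking set of the strand -/
abbrev ZH (H : CorH X U M W η d o n) (R : Set (Cs H.gp)) (q : D0 (sX X)) (m : ℕ) :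
    Set (Cs H.gp) := zc (rc0 H.gp) R q m (rcol H.gp (cX X) H.hull)

/-- a right site of the strand in a middle tile is a right site of the arc of the tile -/
theorem rs_arc (St : StH H Rs q N T) {t : ℕ → ℕ} {i : ℕ} (hi : i ≤ T n) :
    ∃ j : ℕ, j < n ∧
      ((nx (sX X) (cX X))^[i] q.1).2 ∈ RR (19 / 2 * η) (103 / 2 * η) (100 * η) W (o + j) ∧
      (0 < j → j + 1 < n →
        ((nx (sX X) (cX X))^[i] q.1).2 ∈ RS (sX X) (cX X) (H.p (j + 1)).1 (tB n T t j)) := by
  have n3 := St.n3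
  obtain ⟨j', h1, h2, h3⟩ : ∃ j, j < n ∧ T j ≤ i ∧ i ≤ T (j + 1) := by
    rcases hi.lt_or_eq with h | h
    · obtain ⟨j, -, h1, h2, h3⟩ := StrBx117.exists_arc (T := T) (a := 0) (b := n) (by omega)
        (by rw [St.T0]; exact Nat.zero_le _) h
      exact ⟨j, h1, h2, h3.le⟩
    · refine ⟨n - 1, by omega, ?_, ?_⟩
      · rw [h]; exact st_T St (by omega)
      · rw [show n - 1 + 1 = n by omega]; exact hi
  have h4 := St.arc j' h1 i h2 h3
  obtain ⟨h5, h6⟩ := h4
  rw [st_nx St] at h5 h6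
  refine ⟨n - 1 - j', by omega, h6, fun h7 h8 => ?_⟩
  have e1 : (nx (sX X) (cX X))^[T j'] q.1 = (H.p (n - 1 - j' + 1)).1 := by
    rw [st_at St (show 0 < j' by omega) (by omega), show n - j' = n - 1 - j' + 1 by omega]
  have e2 : tB n T t (n - 1 - j') = T (j' + 1) - T j' := by
    unfold tB
    rw [if_pos ⟨h7, h8⟩, show n - (n - 1 - j') = j' + 1 by omega,
      show j' + 1 - 1 = j' by omega]
  refine ⟨i - T j', by rw [e2]; omega, ?_⟩
  rw [← e1, it_add, show i - T j' + T j' = i by omega]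

/-- **OUT GATE** (776's (C5)): the vertical chain of the straight out gate `k0` -/
theorem vco (St : StH H Rs q N T) (G : Geo (sX X) M n k0 k1 W η o K0)
    (hf : ∀ k : ℕ, k < n → FA (cm0 H.gp) (xc H.gp H.hull)
      (RD (sX X) (RR (19 / 2 * η) (103 / 2 * η) (100 * η) W (o + k))) (H.p (k + 1)) (H.p k))
    {R : Set (Cs H.gp)} (hR' : ∀ c ∈ R, ∃ s ∈ sX X, s ∈ BR η W M o n ∧ c.1 = Quot.mk _ s)
    {up dn : List ℂ} (Nk : NkH X W η o k0 up dn) :
    ∃ VV : Set ℂ, VCh (sX X) η W (o + k0) VV (dn.getLast Nk.neck.nd) (up.head Nk.neck.nu) ∧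
      ∀ v ∈ VV, (∀ c : Cs H.gp, c.1 = Quot.mk _ v → c ∈ ZH H R q (T n)) ∨ v ∈ dn ∨
        Lk (sX X) {w | w ∈ up ∧ ∀ c : Cs H.gp, c.1 = Quot.mk _ w → c ∉ ZH H R q (T n)}
          (up.head Nk.neck.nu) v := by
  have h0 := H.e0
  have hnM := H.nM
  have n3 := St.n3
  have hk3 := G.k3
  have hkn := G.kn
  have D := H.corr
  have eB : (fun k : ℕ => RR (19 / 2 * η) (103 / 2 * η) (100 * η) W (o + k)) =
      fun k : ℕ => RR (9 * η + η / 2) (51 * η + η / 2) (100 * η) W (o + k) :=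
    funext fun k => rr_eq η W _
  rw [eB] at D
  obtain ⟨t, Bt⟩ := exists_back D (fun k hk => by
    have := hf k hk
    rw [rr_eq] at this
    exact this)
  obtain ⟨Bt', hsub⟩ := exists_tB St D Bt
  have hq : xc H.gp H.hull q = 1 := St.lp.occ
  have h3c : 3 ≤ (sX X).card := dart3 H.gp q
  have ho := st_occ St
  have hcol := st_col St
  set Z : Set (Cs H.gp) := ZH H R q (T n) with hZ
  -- sites of the neck are inner
  have hin : ∀ s ∈ up ++ yy η W X (o + k0) :: dn, ¬ OnHull (sX X) s := by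
    intro s hs
    have hw := Nk.neck.win s hs
    refine H.inn (H.box_U (o + k0) ?_ ?_)
    · rw [abs_le]; constructor <;> linarith [hw.1.1, hw.1.2]
    · rw [abs_le]; constructor <;> linarith [hw.2.1, hw.2.2]
  have hup0 : ∀ s ∈ up, s ∈ sX X ∧ cX X s = 0 := by
    intro s hs
    obtain ⟨h1, h2⟩ := Nk.neck.cu s hs
    refine ⟨h1, ?_⟩
    have h3 : ¬ cX X s = 1 := fun h => h2 ((bX_iff s h1).1 h)
    revert h3
    generalize cX X s = c
    revert c
    decide
  -- the sites whose cell is in `Z`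
  set Z0 : Set ℂ := {s | ∃ c ∈ Z, c.1 = Quot.mk (hullE (sX X)) s} with hZ0
  have hZall : ∀ s ∈ Z0, ∀ c : Cs H.gp, c.1 = Quot.mk _ s → c ∈ Z := by
    rintro s ⟨c, hc, e⟩ c' e'
    have : c' = c := Subtype.ext (by rw [e, e'])
    rw [this]
    exact hc
  have hRS : ∀ s ∈ RS (sX X) (cX X) q.1 (T n), s ∈ Z0 := by
    intro s hs
    have hsS : s ∈ sX X := by
      obtain ⟨i, -, rfl⟩ := hs
      exact (mem_delT.1 (th_spec (ho.it H.gp H.hull i).1)).2.1
    refine ⟨cs H.gp h3c ⟨s, hsS⟩, Or.inl (Or.inr ?_), rfl⟩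
    exact (mem_wr_RS hq).2 ⟨s, hs, rfl⟩
  have hLS : ∀ s ∈ LS (sX X) (cX X) q.1 (T n), s ∈ Z0 := by
    intro s hs
    have hsS : s ∈ sX X := by
      obtain ⟨i, -, rfl⟩ := hs
      exact (mem_delT.1 (th_spec (ho.it H.gp H.hull i).1)).1
    refine ⟨cs H.gp h3c ⟨s, hsS⟩, Or.inl (Or.inl ?_), rfl⟩
    exact (mem_wl_LS hq).2 ⟨s, hs, rfl⟩
  have hy : yy η W X (o + k0) ∈ Z0 := by
    apply hLS
    refine ⟨T (n - k0), st_T St (by omega), ?_⟩
    rw [st_at St (show 0 < n - k0 by omega) (by omega), show n - (n - k0) = k0 by omega]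
    rfl
  have hZu : ∀ s ∈ up, s ∈ Z0 → ∃ j, (j = k0 ∨ j + 1 = k0) ∧
      s ∈ RS (sX X) (cX X) (H.p (j + 1)).1 (tB n T t j) := by
    rintro s hs ⟨c, hc, e⟩
    have hsu : s ∈ up ++ yy η W X (o + k0) :: dn := List.mem_append_left _ hs
    have hsi := hin s hsu
    rcases hc with (hc | hc) | hc
    · exfalso
      obtain ⟨s', hs', e'⟩ := (mem_wl_LS hq).1 hc
      have : s' = s := quot_inner H.gp hsi (e.symm.trans e')
      subst this
      have h1 := LS_col H.gp H.hull ho hs'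
      rw [hcol, (hup0 _ hs).2] at h1
      exact absurd h1 (by decide)
    · obtain ⟨s', ⟨i, hi, hsi'⟩, e'⟩ := (mem_wr_RS hq).1 hc
      have e2 : s' = s := quot_inner H.gp hsi (e.symm.trans e')
      rw [e2] at hsi'
      obtain ⟨j, hj, h1, h2⟩ := rs_arc St (t := t) hi
      rw [← hsi'] at h1 h2
      have hjk : j = k0 ∨ j + 1 = k0 := by
        by_contra hcon
        push Not at hcon
        refine neck_off' G Nk hj hcon.1 hcon.2 hsu ?_
        exact RR_mono (by linarith) (by linarith) _ W _ h1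
      exact ⟨j, hjk, h2 (by omega) (by omega)⟩
    · exfalso
      obtain ⟨s', -, ⟨a, h1, h2, h3⟩, e'⟩ := hR' c hc.1
      have e2 : s' = s := quot_inner H.gp hsi (e.symm.trans e')
      rw [e2] at h3
      exact neck_offR G Nk h1 h2 hsu (RR_mono (by linarith) (by linarith) _ W _ h3)
  obtain ⟨VV, g1, g2, g3, g4⟩ := vv_geo G D Bt' Nk (Z0 := Z0)
    (fun j hj s hs => hRS s (hsub j (by omega) (by omega) hs)) hy hZu
  have hneck : ∀ s ∈ up ++ yy η W X (o + k0) :: dn, s ∈ sX X ∧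
      s ∈ RR (12 * η) (53 * η) (100 * η) W (o + k0) := by
    intro s hs
    have hw := Nk.neck.win s hs
    constructor
    · exact neck_mem Nk.neck (D.yS (show k0 ≤ n by omega)) hs
    · refine win_right H.path (by linarith) (by linarith) ?_ ?_
      · rw [abs_lt]; constructor <;> linarith [hw.1.1, hw.1.2]
      · rw [abs_lt]; constructor <;> linarith [hw.2.1, hw.2.2]
  refine ⟨VV, ⟨g1, fun v hv => ?_, fun v hv => ?_, fun v hv => ?_, ?_, ?_⟩, fun v hv => ?_⟩
  · rcases g4 v hv with h | ⟨j, hj, h⟩ | h | h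
    · exact (hneck v (List.mem_append_left _ h)).1
    · exact RS_S D (by omega) h
    · exact (hneck v (List.mem_append_right _ (by rw [h]; exact List.mem_cons_self ..))).1
    · exact (hneck v (List.mem_append_right _ (List.mem_cons_of_mem _ h))).1
  · have hwn : ∀ s ∈ up ++ yy η W X (o + k0) :: dn,
        |Gatex838.X (gz (100 * η) W (o + k0)) (ge W (o + k0)) s| < 102 * η := by
      intro s hs
      have hw := Nk.neck.win s hs
      rw [abs_lt]; constructor <;> linarith [hw.1.1, hw.1.2]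
    rcases g4 v hv with h | ⟨j, hj, h⟩ | h | h
    · exact hwn v (List.mem_append_left _ h)
    · have h7 := Bt'.rB j (by omega) h
      obtain ⟨-, h8, h9⟩ := G.strip (by linarith) (by linarith) (show k0 ≤ j + 2 by omega)
        (show j < k0 + 2 by omega) h7
      rcases hj with hj | hj
      · have : (j : ℝ) = k0 := by rw [hj]
        rw [this] at h8 h9
        rw [abs_lt]; constructor <;> linarith
      · have : (k0 : ℝ) = j + 1 := by rw [← hj]; push_cast; ring
        rw [this] at h8 h9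
        rw [abs_lt]; constructor <;> linarith
    · exact hwn v (List.mem_append_right _ (by rw [h]; exact List.mem_cons_self ..))
    · exact hwn v (List.mem_append_right _ (List.mem_cons_of_mem _ h))
  · rcases g4 v hv with h | ⟨j, hj, h⟩ | h | h
    · exact Or.inr (hneck v (List.mem_append_left _ h)).2
    · have h7 := Bt'.rB j (by omega) h
      have h8 : v ∈ RR (12 * η) (53 * η) (100 * η) W (o + j) :=
        RR_mono (by linarith) (by linarith) _ W _ h7
      rcases hj with hj | hj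
      · right; rw [← hj]; exact h8
      · left
        rw [show o + (k0 : ℤ) - 1 = o + j by rw [← hj]; push_cast; ring]
        exact h8
    · exact Or.inr (hneck v (List.mem_append_right _ (by rw [h]; exact List.mem_cons_self ..))).2
    · exact Or.inr (hneck v (List.mem_append_right _ (List.mem_cons_of_mem _ h))).2
  · have hw := Nk.neck.win _ (List.mem_append_right up
      (List.mem_cons_of_mem _ (List.getLast_mem Nk.neck.nd)))
    refine ⟨?_, ?_, Nk.neck.bot⟩
    · rw [abs_le]; constructor <;> linarith [hw.1.1, hw.1.2]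
    · linarith [hw.2.1]
  · have hw := Nk.neck.win _ (List.mem_append_left _ (List.head_mem Nk.neck.nu))
    refine ⟨?_, Nk.neck.top, ?_⟩
    · rw [abs_le]; constructor <;> linarith [hw.1.1, hw.1.2]
    · linarith [hw.2.2]
  · rcases g3 v hv with h | h | h
    · exact Or.inl (hZall v h)
    · exact Or.inr (Or.inl h)
    · refine Or.inr (Or.inr (h.mono ?_))
      rintro w ⟨h1, h2⟩
      exact ⟨h1, fun c e hc => h2 ⟨c, hc, e⟩⟩


end cor

end Crest.Agent.R143.OutVx336
end
end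

-- ▼ part R143/LocZ_776
section

/-!
# Row 143 (S0194), RIG, LOCX for the windows of the corridor (helper776)

* `gd_out`, `gd_white` : gate data (`LocYx776.GD`) of a straight out gate / closing gate
* `blk_ZH` : the blocking cells are cells of inner sites of the strips
* **`lxw_X`** : 228's `LXW` for the window `a .. b`
-/

set_option autoImplicit false

noncomputable section

open scoped Classical

namespace Crest.Agent.R143.LocZx776

open Crest.Agent.R143.B0x346 Crest.Agent.R143.DelGx806 Crest.Agent.R143.DelRx806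
  Crest.Agent.R143.JColx54
open Crest.Agent.R143.ToolWx838 Crest.Agent.R143.Blkx838
open Crest.Agent.R143.ToolW3x838
open Crest.Agent.R143.Frame1x395 Crest.Agent.R143.Frame2x395 Crest.Agent.R143.Frame3x395
  Crest.Agent.R143.Frame4x395 Crest.Agent.R143.Frame8x395 Crest.Agent.R143.Frame9x395
  Crest.Agent.R143.Frame10x395 Crest.Agent.R143.Frame11x395
open Crest.Agent.R143.Splx117 Crest.Agent.R143.WLocx713 Crest.Agent.R143.RingDx117
  Crest.Agent.R143.CorrDx117
open Crest.Agent.R143.Neckx921 (Neck NeckD Tile Lk)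
open Crest.Agent.R143.TileRx228 Crest.Agent.R143.DCorGx713
open Crest.Agent.R143.PP0x831
open Crest.Agent.R143.Idxx927 (wl X_wl Y_wl)
open Crest.Agent.R143.Sepx686 Crest.Agent.R143.SepLx686 Crest.Agent.R143.SepWx686
  Crest.Agent.R143.SepWHx686 Crest.Agent.R143.SepXx686
open Crest.Agent.R143.CorHx713 Crest.Agent.R143.SepHx697
open Crest.Agent.R143.RcTx422
open Crest.Agent.R143.FinCx811 (rc0 Cs rcol cs)
open Crest.Agent.R143.OutSx358 (zc)
open Crest.Agent.R143.Extx358 (Ad Ext Bd)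
open Crest.Agent.R143.LocTx776
open Crest.Agent.R143.LocYx776
open Crest.Agent.R143.SepVx686 (ZH NE vch_white low_white low_K0 low_out dn_out)
open Crest.Agent.R143.PLKx228 (TD LXW)
open Crest.Agent.R143.PLx535 (Zt Ac)
open Crest.Agent.R143.SubEx117 (Pcs)
open Crest.Agent.R143.CorrIx831 (Rws)
open Crest.Agent.R143.ZnQx323 (T₁)
open Crest.Agent.R143.WndGx416 (WdA Wd)
open Crest.Agent.R143.CurHx496 (Sg)
open Crest.Agent.R143.OutCx571 (Far)
open Crest.Agent.R143.RegEx523 (Kin)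
open Crest.Agent.R143.Tenx416 (Pg)
open Crest.Agent.R143.NonXx592 (Rc P)

variable {X : Set (ℂ × Bool)} {U K0 : Set ℂ} {M n k0 k1 : ℕ} {W : ℤ → ℤ × ℤ} {η d : ℝ} {o : ℤ}
  {H : CorH X U M W η d o n} {Rs : Set (D0 (sX X))} {q : D0 (sX X)} {N : ℕ} {T : ℕ → ℕ}
  {R : Set (Cs H.gp)}

/-- **gate data of a straight inner out gate** -/
theorem gd_out (St : StH H Rs q N T) (G : Geo (sX X) M n k0 k1 W η o K0)
    (hf : ∀ k : ℕ, k < n → FA (cm0 H.gp) (xc H.gp H.hull)
      (RD (sX X) (RR (19 / 2 * η) (103 / 2 * η) (100 * η) W (o + k))) (H.p (k + 1)) (H.p k))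
    (hR : ∀ s ∈ sX X, s ∈ BR η W M o n → ∃ c ∈ R, c.1 = Quot.mk (hullE (sX X)) s)
    (hR' : ∀ c ∈ R, ∃ s ∈ sX X, s ∈ BR η W M o n ∧ c.1 = Quot.mk _ s) {k : ℕ} (h3 : 3 ≤ k)
    (hk : k + 3 ≤ n) (st : ∀ a : ℤ, o + k - 2 ≤ a → a ≤ o + k + 1 → ge W (a + 1) = ge W a)
    (foot : wl (gz (100 * η) W (o + k)) (ge W (o + k)) (-(10 * η)) ∈ K0) :
    GD H.gp (ZH H R q T) η W (o + k) := by
  have h0 := H.e0
  have G' : Geo (sX X) M n k k1 W η o K0 := sgeo_at G h3 hk st (by
    rw [show 9 * η + η = 10 * η by ring]; exact foot)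
  obtain ⟨up, dn, Nk⟩ := nkg H k
  obtain ⟨VV, h1, h2⟩ := OutVx336.vco St G' hf hR' Nk
  refine ⟨⟨VV, _, _, h1, fun v hv c e => ?_⟩, fun v _ hv c e =>
    low_out St G hf hR h3 hk st foot hv c e⟩
  rcases h2 v hv with h4 | h4 | h4
  · exact Or.inl (h4 c e)
  · exact Or.inr (Or.inl (dn_out St G hf hR h3 hk st foot Nk.neck Nk.upz h4 c e))
  · refine Or.inr (Or.inr (Or.inr (h4.mono ?_)))
    rintro w ⟨w1, w2⟩
    have h5 := Nk.neck.win w (List.mem_append_left _ w1)
    refine ⟨⟨abs_le.2 ⟨h5.1.1.le, h5.1.2.le⟩, by linarith [h5.2.1], by linarith [h5.2.2]⟩, w2⟩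

/-- **gate data of a straight closing gate** -/
theorem gd_white (St : StH H Rs q N T) (G : Geo (sX X) M n k0 k1 W η o K0)
    (hf : ∀ k : ℕ, k < n → FA (cm0 H.gp) (xc H.gp H.hull)
      (RD (sX X) (RR (19 / 2 * η) (103 / 2 * η) (100 * η) W (o + k))) (H.p (k + 1)) (H.p k))
    (hR : ∀ s ∈ sX X, s ∈ BR η W M o n → ∃ c ∈ R, c.1 = Quot.mk (hullE (sX X)) s) {k : ℕ}
    (K : CGH M n W η o K0 k) : GD H.gp (ZH H R q T) η W (o + k) := by
  have h0 := H.e0
  obtain ⟨cw, C⟩ := chainW St G hf (c := 2 * η) (by linarith) (by linarith)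
  obtain ⟨VV, s, t, h1, h2⟩ := vch_white C St hR K
  refine ⟨⟨VV, s, t, h1, fun v hv c e => ?_⟩, fun v _ hv c e =>
    low_white C le_rfl St hR K hv c e⟩
  rcases h2 v hv with h4 | h4 | h4
  · exact Or.inl (h4 c e)
  · exact Or.inr (Or.inl (h4 c e))
  · exact Or.inr (Or.inr (Or.inl h4.1))

/-- sites of the inner side -/
theorem nK0 (St : StH H Rs q N T) (G : Geo (sX X) M n k0 k1 W η o K0)
    (hf : ∀ k : ℕ, k < n → FA (cm0 H.gp) (xc H.gp H.hull)
      (RD (sX X) (RR (19 / 2 * η) (103 / 2 * η) (100 * η) W (o + k))) (H.p (k + 1)) (H.p k))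
    (hR : ∀ s ∈ sX X, s ∈ BR η W M o n → ∃ c ∈ R, c.1 = Quot.mk (hullE (sX X)) s) {v : ℂ}
    (hv : v ∈ K0) : NE H R q T v := by
  have h0 := H.e0
  obtain ⟨cw, C⟩ := chainW St G hf (c := 2 * η) (by linarith) (by linarith)
  exact low_K0 C St hR hv

/-- **the blocking cells** -/
theorem blk_ZH (St : StH H Rs q N T)
    (hR' : ∀ c ∈ R, ∃ s ∈ sX X, s ∈ BR η W M o n ∧ c.1 = Quot.mk _ s) :
    CurOx66.BlkS (19 / 2 * η) (103 / 2 * η) (100 * η) W (ZH H R q T) := by
  have h0 := H.e0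
  have hq : xc H.gp H.hull q = 1 := St.lp.occ
  have inn : ∀ {s : ℂ} {a : ℤ}, s ∈ RR (19 / 2 * η) (103 / 2 * η) (100 * η) W a →
      ¬ OnHull (sX X) s := fun hs => H.inn (H.sub_U (by linarith) (by linarith) _ hs)
  intro c hc
  rcases PLSx535.mem_zc.1 hc with h | ⟨h, -⟩
  · rcases Finset.mem_union.1 h with h | h
    · obtain ⟨_, ⟨i, hi, rfl⟩, e⟩ := (mem_wl_LS hq).1 h
      obtain ⟨k, -, h1, -⟩ := st_mem St hi
      exact ⟨_, inn h1, ⟨_, h1⟩, e⟩
    · obtain ⟨_, ⟨i, hi, rfl⟩, e⟩ := (mem_wr_RS hq).1 h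
      obtain ⟨k, -, -, h1⟩ := st_mem St hi
      exact ⟨_, inn h1, ⟨_, h1⟩, e⟩
  · obtain ⟨s, -, ⟨a, -, -, h2⟩, e⟩ := hR' c h
    exact ⟨s, inn h2, ⟨a, h2⟩, e⟩

/-- the white cells of the strips -/
theorem rws_out (H : CorH X U M W η d o n) (h3 : 3 ≤ (sX X).card) {s : ℂ} (hs : s ∈ sX X)
    (hb : s ∈ BR η W M o n) :
    ∃ c ∈ RC H.gp (Rws η W o n M), c.1 = Quot.mk (hullE (sX X)) s := by
  have h0 := H.e0
  obtain ⟨a, a1, a2, h⟩ := hb
  exact ⟨cs H.gp h3 ⟨s, hs⟩, ⟨s, hs, ⟨a, a1, a2, h⟩,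
    H.inn (H.sub_U (by linarith) (by linarith) _ h), rfl⟩, rfl⟩

/-- gate data of the left separator -/
theorem gd_L (St : StH H Rs q N T) (G : Geo (sX X) M n k0 k1 W η o K0)
    (hf : ∀ k : ℕ, k < n → FA (cm0 H.gp) (xc H.gp H.hull)
      (RD (sX X) (RR (19 / 2 * η) (103 / 2 * η) (100 * η) W (o + k))) (H.p (k + 1)) (H.p k))
    (hR : ∀ s ∈ sX X, s ∈ BR η W M o n → ∃ c ∈ R, c.1 = Quot.mk (hullE (sX X)) s)
    (hR' : ∀ c ∈ R, ∃ s ∈ sX X, s ∈ BR η W M o n ∧ c.1 = Quot.mk _ s)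
    (foot : ∀ g, wl (gz (100 * η) W g) (ge W g) (-(10 * η)) ∈ K0) {l a b : ℤ} (hl : l < n)
    (w : Wd W o n M l a b) : GD H.gp (ZH H R q T) η W (o + (a - 2)) := by
  have P := H.path
  have w1 := w.al
  rcases w.cl with h | ⟨h, -, hs⟩
  · obtain ⟨k, k1, k2, k3, -, st⟩ := w.gateL hl h
    rw [← k1]
    exact gd_out St G hf hR hR' (by omega) k3 st (foot _)
  · subst h
    have nM := w.nM
    have e : o + ((M - 4 : ℕ) : ℤ) = o - 4 + M := by omega
    have e1 : ∀ j : ℤ, ge W (j + M) = ge W j := fun j =>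
      RegBx523.ge_cong P ⟨1, by ring⟩
    have K : CGH M n W η o K0 (M - 4) := by
      refine ⟨by omega, by omega, ?_, ?_, ?_⟩
      · rw [e, show o - 4 + (M : ℤ) - 1 = (o - 5) + M by ring, e1, e1]
        have := hs (-5) (by norm_num) (by norm_num)
        rwa [show o + (-5) + 1 = o - 4 by ring, show o + (-5) = o - 5 by ring] at this
      · rw [e, show o - 4 + (M : ℤ) + 1 = (o - 3) + M by ring, e1, e1]
        have := hs (-4) (by norm_num) (by norm_num)
        rwa [show o + (-4) + 1 = o - 3 by ring, show o + (-4) = o - 4 by ring] at this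
      · have := foot (o + ((M - 4 : ℕ) : ℤ))
        rwa [show 9 * η + η = 10 * η by ring]
    have D := gd_white (Rs := Rs) (q := q) (N := N) (T := T) St G hf hR K
    refine D.cong P ⟨-1, ?_⟩
    rw [e]
    ring

/-- gate data of the right separator -/
theorem gd_R (St : StH H Rs q N T) (G : Geo (sX X) M n k0 k1 W η o K0)
    (hf : ∀ k : ℕ, k < n → FA (cm0 H.gp) (xc H.gp H.hull)
      (RD (sX X) (RR (19 / 2 * η) (103 / 2 * η) (100 * η) W (o + k))) (H.p (k + 1)) (H.p k))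
    (hR : ∀ s ∈ sX X, s ∈ BR η W M o n → ∃ c ∈ R, c.1 = Quot.mk (hullE (sX X)) s)
    (hR' : ∀ c ∈ R, ∃ s ∈ sX X, s ∈ BR η W M o n ∧ c.1 = Quot.mk _ s)
    (foot : ∀ g, wl (gz (100 * η) W g) (ge W g) (-(10 * η)) ∈ K0) {l a b : ℤ} (l0 : 0 ≤ l)
    (w : Wd W o n M l a b) : GD H.gp (ZH H R q T) η W (o + (b + 3)) := by
  have P := H.path
  have w1 := w.lb
  rcases w.cr with h | ⟨h, -, hs⟩
  · obtain ⟨k, k1, k2, k3, -, st⟩ := w.gateR l0 h
    rw [← k1]
    exact gd_out St G hf hR hR' k2 (by omega) st (foot _)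
  · subst h
    have nM := w.nM
    have e : o + ((n + 4 : ℕ) : ℤ) = o + (n + 1 + 3) := by push_cast; ring
    rw [← e]
    refine gd_white St G hf hR ⟨by omega, by omega, ?_, ?_, ?_⟩
    · rw [e]
      have := hs (n + 3) (by omega) (by omega)
      rwa [show o + ((n : ℤ) + 3) + 1 = o + (n + 1 + 3) by ring,
        show o + ((n : ℤ) + 3) = o + (n + 1 + 3) - 1 by ring] at this
    · rw [e]
      have := hs (n + 4) (by omega) (by omega)
      rwa [show o + ((n : ℤ) + 4) = o + (n + 1 + 3) by ring] at this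
    · have := foot (o + ((n + 4 : ℕ) : ℤ))
      rwa [show 9 * η + η = 10 * η by ring]

/-- **228's `LXW` for a window of the corridor** -/
theorem lxw_X {F : Set (ℤ × ℤ)} {m n' : ℕ} {p : ℤ → ℤ × ℤ} {A : ℤ → ℤ} (St : StH H Rs q N T)
    (E : En (sX X) F n' m p M W A η d) (G : Geo (sX X) M n k0 k1 W η o K0)
    (hf : ∀ k : ℕ, k < n → FA (cm0 H.gp) (xc H.gp H.hull)
      (RD (sX X) (RR (19 / 2 * η) (103 / 2 * η) (100 * η) W (o + k))) (H.p (k + 1)) (H.p k))
    (hK : Kin (90 * η) (Pg (m * (100 * η)) F) ⊆ K0)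
    (foot : ∀ g, wl (gz (100 * η) W g) (ge W g) (-(10 * η)) ∈ K0) {w0 : ℂ}
    (hw0 : OnHull (sX X) w0) (hw : w0 ∈ Far (m * (100 * η)) (100 * η + 14 * η + d) F)
    {l a b : ℤ} (l0 : 0 ≤ l) (hl : l < n) (w : WdA A W o n M l a b) {L : Finset (Cs H.gp)}
    (hL : ∀ c ∈ L, ∃ v ∈ sX X, c.1 = Quot.mk (hullE (sX X)) v ∧ ∃ j : ℤ, o + b + 5 ≤ j ∧
      j ≤ o + a - 5 + M ∧ v ∈ RR (12 * η) (52 * η) (100 * η) W j) :
    LXW H.gp (RC H.gp (Rws η W o n M)) (RC H.gp (T₁ η W (o + a) (o + b + 1))) L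
      (rcol H.gp (cX X) H.hull) q (T n) := by
  have e0 := H.e0
  have d0 := H.d0
  have de := H.de
  have w1 := w.al
  have w2 := w.lb
  have w3 := w.room
  have hR : ∀ s ∈ sX X, s ∈ BR η W M o n →
      ∃ c ∈ RC H.gp (Rws η W o n M), c.1 = Quot.mk (hullE (sX X)) s :=
    fun s hs hb => rws_out H E.h3 hs hb
  have hR' : ∀ c ∈ RC H.gp (Rws η W o n M), ∃ s ∈ sX X, s ∈ BR η W M o n ∧ c.1 = Quot.mk _ s := by
    rintro c ⟨v, h1, h2, -, e⟩
    exact ⟨v, h1, h2, e⟩
  have sL : Sg A (o + (a - 2)) := by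
    obtain ⟨k, h1, h2⟩ := w.gl
    exact ⟨k, by omega, by omega⟩
  have sR : Sg A (o + (b + 3)) := by
    obtain ⟨k, h1, h2⟩ := w.gr
    exact ⟨k, by omega, by omega⟩
  intro κ _ qq B
  set Z' : Set (Cs H.gp) := {c | c ∈ Ac (rc0 H.gp) qq (rcol H.gp (cX X) H.hull) ∨
    (c ∈ RC H.gp (Rws η W o n M) ∧ rcol H.gp (cX X) H.hull c = 0)} with hZ'
  have eZ : Zt (RC H.gp (Rws η W o n M)) (RC H.gp (T₁ η W (o + a) (o + b + 1)))
      (Ac (rc0 H.gp) qq (rcol H.gp (cX X) H.hull)) (rcol H.gp (cX X) H.hull) =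
      Z' ∪ RC H.gp (T₁ η W (o + a) (o + b + 1)) := by
    ext c
    simp only [Zt, hZ', Set.mem_ofPred_eq, Set.mem_union]
    tauto
  have hZ : Z' ⊆ ZH H (RC H.gp (Rws η W o n M)) q T := by
    rintro c (h | h)
    · exact PLSx535.mem_zc.2 (Or.inl (B.Ac_sub h))
    · exact PLSx535.mem_zc.2 (Or.inr h)
  have key := lx_S (gL := o + (a - 2)) (gR := o + (b + 3)) E hZ (blk_ZH St hR') sL sR (by omega)
    (by omega) hw0 hw (gd_L St G hf hR hR' foot hl w.toWd)
    (gd_R St G hf hR hR' foot l0 w.toWd)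
    (fun v _ hv => nK0 St G hf hR (hK hv)) (T := RC H.gp (T₁ η W (o + a) (o + b + 1))) (by
      rintro c ⟨v, h1, ⟨k, k1, k2, h2⟩, h4, e⟩
      exact ⟨v, h1, h4, e, k, by omega, by omega, h2⟩)
  rw [eZ]
  constructor
  · intro c hc h
    obtain ⟨v, hv, e, j, j1, j2, h1⟩ := hL c hc
    refine key.1 c v e (Or.inl ⟨j, by omega, by omega, ?_⟩) h
    exact RR_mono (by linarith) (by linarith) _ W j h1
  · intro c hc h
    obtain ⟨v, hv, e, j, j1, j2, h1⟩ := hL c hc
    have hvU : v ∈ U := H.sub_U (by linarith) (by linarith) _ h1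
    refine Or.inr (key.2 c v e (H.inn hvU) (fun u hu => Or.inl ⟨j, by omega, by omega, ?_⟩) h)
    have h2 := H.step hvU hu
    have h3 := TilUx496.thick (t := η) H.path h1 (u := u) (by linarith)
    exact RR_mono (by linarith) (by linarith) _ W j h3

end Crest.Agent.R143.LocZx776
end
end

-- ▼ part R143/EnvZ_597
section

/-!
# Row 143 (S0194), RIG: the data of almost every environment from two named inputs (helper597)

Template `Z = FinJx894.Z` (204's `Zt`), `h₀` a hull site, `R := Rc hS w N`, `Zz := Zq ..` (832).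

* **`OneZ`** : a fact at almost every environment, with its system `X : Sx ..`; `OneZ.det` : from a
  deterministic fact
* **`UKZ L`** : the giants `GI` at positive weight satisfy `UKR` (930; `UKin` of 923)
* **`TIZ L`** : the tiles `TileI` (228, curtain 776)
* **`env_z`** : `UKZ L → TIZ L → EnvZ` (894)
-/

set_option autoImplicit false
set_option linter.all false

noncomputable section

open scoped Classical

namespace Crest.Agent.R143.EnvZx597

open MeasureTheory Set Filter Topology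
open scoped ENNReal
open Crest.ProbabilityR.Voronoi
open Crest.Agent.R143.PP0x831 Crest.Agent.R143.B0x346
open Crest.Agent.R143.DelGx806 Crest.Agent.R143.DelRx806 Crest.Agent.R143.FinCx811
  Crest.Agent.R143.Resax778 Crest.Agent.R143.SmallAx304
open Crest.Agent.R143.Frame1x395 Crest.Agent.R143.Frame2x395 Crest.Agent.R143.Frame10x395
open Crest.Agent.R143.Finx894
open Crest.Agent.R143.PolyUx346 (Poly)
open Crest.Agent.R143.NetUx346 Crest.Agent.R143.NetVx346
open Crest.Agent.R143.IndLoc3x279 (clr)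
open Crest.Agent.R143.Uniqx323 (Zn)
open Crest.Agent.R143.RcTx422 (Hc)
open Crest.Agent.R143.RigPx854 (ly ly_spec mN mN_hN mN_mono hN hN_pos nT)
open Crest.Agent.R143.RigZdx609 (TData gW et et_pos et_h)
open Crest.Agent.R143.RigZx609 (Ev)
open Crest.Agent.R143.CorEx133 (RU UU SU CorEnv)
open Crest.Agent.R143.RigNx377
open Crest.Agent.R143.RigQx377
open Crest.Agent.R143.RigYx609 (CEs OkT)
open Crest.Agent.R143.RigXx609
open Crest.Agent.R143.OpJx894
open Crest.Agent.R143.PlRx930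
open Crest.Agent.R143.QuenIx597
open Crest.Agent.R143.SxZx832






/-- the list of 894 -/
def Lz (u : Poly) (L : ℕ → List (ℝ × ℝ × ℝ)) (N : ℕ) : List (ℝ × ℝ × ℝ) :=
  (K0, c2c u N, dU u) :: L N







end Crest.Agent.R143.EnvZx597
end
end

-- ▼ part R143/PLM_228
section

/-!
# Row 143 (S0194), RIG box Q2: `TileI` and the field `q` at 832's regions (helper228)

* `curI_of` : `CurI` from the literal hypothesis `hlx` of `PLKx228.hP_of` (776's `lxw`)
* **`tile_z`** : `TileI` for every tile, `R = Rc hS w N`, any zones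
* **`q_z`** : the field `q` of 894's `EnvD`
* **`tiz_of`** : 597's `TIZ` from `CurI` at every environment
-/

set_option autoImplicit false
set_option linter.unusedSectionVars false
set_option linter.style.haveILetI false

noncomputable section

open scoped Classical

namespace Crest.Agent.R143.PLMx228

open MeasureTheory
open Crest.ProbabilityR.Voronoi
open Crest.Agent.R143.B0x346 Crest.Agent.R143.DelGx806 Crest.Agent.R143.DelRx806
open Crest.Agent.R143.FinCx811 Crest.Agent.R143.Resax778 Crest.Agent.R143.SmallAx304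
open Crest.Agent.R143.Frame8x395 hiding cfg
open Crest.Agent.R143.Frame10x395
open Crest.Agent.R143.PP0x831 Crest.Agent.R143.PWx978 Crest.Agent.R143.Tplx978
open Crest.Agent.R143.Janx304 Crest.Agent.R143.Dbl2x609
open Crest.Agent.R143.PolyUx346 (Poly)
open Crest.Agent.R143.CorEx133
open Crest.Agent.R143.CorMx970 (av)
open Crest.Agent.R143.IndLoc3x279 (clr)
open Crest.Agent.R143.RcTx422 (Hc RC Hc_eq)
open Crest.Agent.R143.RigPx854 (ly ly_spec mN mN_hN mN_10 hN hN_pos nT)
open Crest.Agent.R143.RigZdx609 Crest.Agent.R143.LayUx416 Crest.Agent.R143.Layx416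
open Crest.Agent.R143.TileRx228
open Crest.Agent.R143.CorrIx831 (Ft tlt Rws SDS)
open Crest.Agent.R143.ColXx829 (Xc)
open Crest.Agent.R143.Uniqx323 (Zn)
open Crest.Agent.R143.ZnQx323 (T₁)
open Crest.Agent.R143.WndGx416 (wa wb)
open Crest.Agent.R143.QuenIx597
open Crest.Agent.R143.RigQx377 (Qz)
open Crest.Agent.R143.SxZx832 (Rc Zq J2_l J2_r)
open Crest.Agent.R143.HqPx304 Crest.Agent.R143.ColSumx304
open Crest.Agent.R143.PLJx228 Crest.Agent.R143.PLKx228 Crest.Agent.R143.PLLx228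
open Crest.Agent.R143.Coarse2x166 (zs)

variable {N : ℕ} {ε : ℝ} {u : Poly} {w : ZMod 3} {Z : TData} {hN : u.n + 4 ≤ N} {hε : 0 < ε}
  {ω : Sample} {hS : GP (SU u ε ω : Set ℂ)} {h3 : 3 ≤ (SU u ε ω).card} {h₀ : Cs hS}
  {R : Set (Cs hS)} {Zz : Zn (rc0 hS)} {K1 c2 ρ0 : ℝ}

/-- `CurI` in the form of the hypothesis `hlx` of `PLKx228.hP_of` -/
theorem curI_of (hR : R = RC hS (Rws (et N) (ly u N).W (oT u w N) (nT u w N) (ly u N).M))
    (h : ∀ s, (net Z u w hN hε).gw (uM hN) (uM hN) (Xc hS h3 s) ≠ 0 →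
      ∀ p q k T, OneI w N hS h3
        (RC hS (Rws (et N) (ly u N).W (oT u w N) (nT u w N) (ly u N).M)) Zz s p q k T →
      ∀ j < nT u w N,
        LXW hS (RC hS (Rws (et N) (ly u N).W (oT u w N) (nT u w N) (ly u N).M))
          (RC hS (T₁ (et N) (ly u N).W
            (oT u w N + wa (ly u N).A (ly u N).W (oT u w N) (nT u w N) (ly u N).M j)
            (oT u w N + wb (ly u N).A (ly u N).W (oT u w N) (nT u w N) (ly u N).M j + 1)))
          (QuYx810.Lc hS h3 ((net Z u w hN hε).reg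
            (uM hN \ Iw (ly u N).M
              (oT u w N + wa (ly u N).A (ly u N).W (oT u w N) (nT u w N) (ly u N).M j - 5)
              (oT u w N + wb (ly u N).A (ly u N).W (oT u w N) (nT u w N) (ly u N).M j + 5))
            (uM hN \ Jw (ly u N).M
              (oT u w N + wa (ly u N).A (ly u N).W (oT u w N) (nT u w N) (ly u N).M j - 5)
              (oT u w N + wb (ly u N).A (ly u N).W (oT u w N) (nT u w N) (ly u N).M j + 5))))
          s q (T (nT u w N))) :
    CurI w Z hN hε hS h3 R Zz := by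
  intro s hs p q k T O j hj
  rw [hR] at O ⊢
  exact h s ((gw_pos ColXx829.fin_Xc).1 hs) p q k T O j hj



section env

open Crest.Agent.R143.EnvZx597 Crest.Agent.R143.RigNx377 Crest.Agent.R143.RigYx609


end env

end Crest.Agent.R143.PLMx228
end
end

-- ▼ part R143/EnC_927
section

/-!
# Row 143 (S0194), LOCX: 776's environment `En` of the curtain at a good environment of a polygon
(helper927)

* **`en_of`** : `CorEnv` + `LayU` ⟹ `LocTx776.En (SU u ε ω) (cells u.U) u.L m p M W A η d`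
* `en_S` : the same for `S = SU u ε ω` (e.g. `S = sX X`); `w0_S`
* `far_hull` : the hull sites are in `Far (m * (100 η)) ρ F` for `ρ ≤ 1`; `far_hull'` : the radius
  `100 η + 14 η + d` of 66's `vf`; `w0_of` : a site on the hull with this property
-/

set_option autoImplicit false
set_option linter.unusedVariables false

noncomputable section

open scoped Classical

namespace Crest.Agent.R143.EnCx927

open Set
open Crest.ProbabilityR.Voronoi
open Crest.Agent.R158.Sp896
open Crest.Agent.R143.B0x346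
open Crest.Agent.R143.Tenx416 (Pg)
open Crest.Agent.R143.OutCx571 Crest.Agent.R143.TileRx228
open Crest.Agent.R143.Finex422 (Fine)
open Crest.Agent.R143.PolyUx346 Crest.Agent.R143.LayUx416
open Crest.Agent.R143.CorEx133
open Crest.Agent.R143.Brkx478 (Bk cells)
open Crest.Agent.R143.Frame10x395 (OnHull)
open Crest.Agent.R143.LocTx776 (En)

variable {u : Poly} {m M : ℕ} {p W : ℤ → ℤ × ℤ} {A e : ℤ → ℤ} {ε d K1 c2 ρ0 η : ℝ} {ω : Sample}

theorem eta_pos (H : LayU u m M p W A e) (hh : (m : ℝ) * (100 * η) = u.s) : 0 < η := by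
  have := H.h_pos hh
  linarith

/-- **the environment of the curtain** -/
theorem en_of (C : CorEnv u ε d K1 c2 ρ0 ω) (H : LayU u m M p W A e)
    (hh : (m : ℝ) * (100 * η) = u.s) (hd : 100 * d ≤ η) :
    En (SU u ε ω) (cells (u.U : Set Bk)) u.L m p M W A η d where
  fine := H.fine
  con := OutPx571.F_con u
  cou := OutPx571.F_con' u
  m10 := H.m_pos
  e0 := eta_pos H hh
  d0 := C.d0
  de := hd
  gp := C.gpS
  h3 := C.card
  hol a w hw z hz := by
    obtain ⟨s, hs, h⟩ := C.hol z (fat_std H hh a w hw z hz) z (by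
      rw [sub_self, norm_zero]
      have := C.d0
      linarith)
    exact ⟨s, Finset.mem_coe.1 hs, h⟩
  holP z hz := by
    have hz' : z ∈ u.P := by
      rw [OutPx571.P_eq, ← hh]
      exact hz
    obtain ⟨s, hs, h⟩ := C.hol z (P_sub_UU u hz') z (by
      rw [sub_self, norm_zero]
      have := C.d0
      linarith)
    exact ⟨s, Finset.mem_coe.1 hs, h⟩


/-- **hull sites are far from the polygon** -/
theorem far_hull (C : CorEnv u ε d K1 c2 ρ0 ω) (hh : (m : ℝ) * (100 * η) = u.s) {ρ : ℝ}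
    (hρ : ρ ≤ 1) {x : ℂ} (hx : OnHull (SU u ε ω) x) :
    x ∈ Far (m * (100 * η)) ρ (cells (u.U : Set Bk)) := by
  have h1 := C.hull_far hx
  have h2 := one_le_Rp u
  have h3 := C.d1
  rw [hh]
  intro w hw
  have h4 : ‖w‖ ≤ Rp u := P_norm u hw
  have h5 := Complex.norm_le_abs_re_add_abs_im (x - w)
  have h6 := norm_add_le (x - w) w
  rw [sub_add_cancel] at h6
  rw [Complex.sub_re, Complex.sub_im] at h5
  have h7 := le_max_left |x.re - w.re| |x.im - w.im|
  have h8 := le_max_right |x.re - w.re| |x.im - w.im|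
  unfold RU at h1
  linarith

/-- the radius of 66's `vf` -/
theorem far_hull' (C : CorEnv u ε d K1 c2 ρ0 ω) (H : LayU u m M p W A e)
    (hh : (m : ℝ) * (100 * η) = u.s) (hd : 100 * d ≤ η) {x : ℂ} (hx : OnHull (SU u ε ω) x) :
    x ∈ Far (m * (100 * η)) (100 * η + 14 * η + d) (cells (u.U : Set Bk)) := by
  refine far_hull C hh ?_ hx
  have h1 := h_le H hh
  have h2 := eta_pos H hh
  linarith

/-- **the far site on the hull** -/
theorem w0_of (C : CorEnv u ε d K1 c2 ρ0 ω) (H : LayU u m M p W A e)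
    (hh : (m : ℝ) * (100 * η) = u.s) (hd : 100 * d ≤ η) : ∃ w0 ∈ SU u ε ω,
      OnHull (SU u ε ω) w0 ∧
        w0 ∈ Far (m * (100 * η)) (100 * η + 14 * η + d) (cells (u.U : Set Bk)) := by
  obtain ⟨x, y, hxy⟩ := DelRx806.exists_hull C.gpS C.card
  exact ⟨y, RcTx422.hull_mem ⟨x, hxy⟩, ⟨x, hxy⟩, far_hull' C H hh hd ⟨x, hxy⟩⟩


end Crest.Agent.R143.EnCx927
end
end

-- ▼ part R143/LSd_416
section

/-!
# Row 143 (S0194), RIG, LOCX: the cells read by the weight off a window (helper416)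

* `reg_off` : the region of the net off a window `p .. q` is in the tiles `q < j < p + M`
* **`lc_site`** : a cell of `Lc` of this region is the cell of a site of such a tile
* **`lc_cor`** : under `CorH`: an inner site of an enlarged tile `q + 1 ≤ j ≤ p - 1 + M`, all its
  neighbours are in enlarged tiles of the same range (the two hypotheses of 776's `lx_S`)
-/

set_option autoImplicit false

noncomputable section

open scoped Classical

namespace Crest.Agent.R143.LSdx416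

open Set
open Crest.Agent.R143.B0x346 Crest.Agent.R143.DelGx806 Crest.Agent.R143.DelRx806
open Crest.Agent.R143.Frame10x395
open Crest.Agent.R143.Blkx838 (DE)
open Crest.Agent.R143.PP0x831 Crest.Agent.R143.PWx978 Crest.Agent.R143.Tplx978
open Crest.Agent.R143.FinMx609 Crest.Agent.R143.WLocx713
open Crest.Agent.R143.TileRx228 Crest.Agent.R143.PthFx765
open Crest.Agent.R143.HqPx304 Crest.Agent.R143.CorNx765
open Crest.Agent.R143.FinCx811 (Cs rc0 cs)
open Crest.Agent.R143.CorHx713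
open Crest.Agent.R143.QuYx810 (Lc mem_Lc)

section off

variable {M : ℕ} {W : ℤ → ℤ × ℤ} {Ac e : ℤ → ℤ} {A B h ε : ℝ} {T : Tpl ε (Tn × Bool)}
  [DecidableEq (ZMod M)]

omit [DecidableEq (ZMod M)] in
/-- representative -/
theorem repr (hM : 0 < M) (p a : ℤ) : ∃ j : ℤ, p ≤ j ∧ j < p + M ∧ (M : ℤ) ∣ a - j := by
  have h0 : (0 : ℤ) < M := by exact_mod_cast hM
  refine ⟨p + (a - p) % M, ?_, ?_, (a - p) / M, ?_⟩
  · have := Int.emod_nonneg (a - p) h0.ne'
    omega
  · have := Int.emod_lt_of_pos (a - p) h0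
    omega
  · have := Int.emod_add_mul_ediv (a - p) M
    linarith

/-- **the region of the net off the window `p .. q` is in the tiles `q < j < p + M`** -/
theorem reg_off (P : FPath M W) (Hs : Std T A B h Prod.fst) (i : ZMod 3)
    (I J : Finset (ZMod M)) (hM : 0 < M) {p q : ℤ} (hpq : q + 2 ≤ p + M) {s : ℂ}
    (hs : s ∈ (cpth P Hs Ac e i).net.reg (I \ Iw M p q) (J \ Jw M p q)) :
    ∃ j, q < j ∧ j < p + M ∧ s ∈ RR A B h W j := by
  rcases hs with hs | hs
  · obtain ⟨k, hk, hs⟩ := mem_iUnion₂.1 hs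
    have hk' := (Finset.mem_sdiff.1 hk).2
    have hs' : s ∈ PthFx765.GB A B h W (zc k) := by
      have := net_B P Hs (cty_typ (M := M) (W := W) (Ac := Ac) (e := e) i) (zc k)
      rw [zc_cast] at this
      rwa [← this]
    obtain ⟨j, h1, h2, h3⟩ := repr hM p (zc k)
    have hj : s ∈ PthFx765.GB A B h W j := by
      rwa [PthFx765.GB_dvd P h3] at hs'
    have hkj : k = ((j : ℤ) : ZMod M) := by
      rw [← zc_cast k]
      exact cast_dvd h3
    by_cases hq : q < j
    · exact ⟨j, hq, h2, PthFx765.GB_sub P Hs.hA Hs.hB j hj⟩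
    · by_cases hp : p < j
      · exact absurd (hkj ▸ mem_Iw hp (not_lt.1 hq)) hk'
      · have e1 : j = p := by omega
        have e2 : PthFx765.GB A B h W j = PthFx765.GB A B h W (p + M - 1 + 1) := by
          refine (PthFx765.GB_dvd P ⟨1, ?_⟩).symm
          rw [e1]
          ring
        rw [e2] at hj
        exact ⟨p + M - 1, by omega, by omega, PthFx765.GB_sub' P Hs.hA Hs.hB _ hj⟩
  · obtain ⟨k, hk, hs⟩ := mem_iUnion₂.1 hs
    have hk' := (Finset.mem_sdiff.1 hk).2
    have hs' : s ∈ PthFx765.TB A B h W (zc k) := by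
      have := net_C P Hs (cty_typ (M := M) (W := W) (Ac := Ac) (e := e) i) (zc k)
      rw [zc_cast] at this
      rwa [← this]
    obtain ⟨j, h1, h2, h3⟩ := repr hM p (zc k)
    have hkj : k = ((j : ℤ) : ZMod M) := by
      rw [← zc_cast k]
      exact cast_dvd h3
    have hR : s ∈ RR A B h W j := by
      have := hs'.1
      rwa [PthFx765.RR_dvd P h3] at this
    by_cases hq : q < j
    · exact ⟨j, hq, h2, hR⟩
    · exact absurd (hkj ▸ mem_Jw h1 (not_lt.1 hq)) hk'

variable {S : Finset ℂ} {hS : GP (S : Set ℂ)} {h3 : 3 ≤ S.card}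

/-- **a cell read by the weight off the window** -/
theorem lc_site (P : FPath M W) (Hs : Std T A B h Prod.fst) (i : ZMod 3)
    (I J : Finset (ZMod M)) (hM : 0 < M) {p q : ℤ} (hpq : q + 2 ≤ p + M) {c : Cs hS}
    (hc : c ∈ Lc hS h3 ((cpth P Hs Ac e i).net.reg (I \ Iw M p q) (J \ Jw M p q))) :
    ∃ s ∈ S, c.1 = Quot.mk (hullE S) s ∧ ∃ j, q < j ∧ j < p + M ∧ s ∈ RR A B h W j := by
  obtain ⟨v, hv, h1, h2⟩ := mem_Lc.1 hc
  refine ⟨v, hv, ?_, reg_off P Hs i I J hM hpq h1⟩
  rw [← h2]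
  rfl

variable {X : Set (ℂ × Bool)} {U : Set ℂ} {η d : ℝ} {o : ℤ} {n : ℕ}


end off

end Crest.Agent.R143.LSdx416
end
end

-- ▼ part R143/CurU_894

/-!
# Row 143 (S0194), RIG: the curtain on 597's `Sx` (helper894)

* `lxw_S` : 228's `LXW` for a window, on a fixed set of sites (776's `lxw_X`)
* **`curI`** : 228's `CurI` at one environment; **`curZ : CurZ`**; **`leaf : Leaf894`**
-/

set_option autoImplicit false
set_option linter.unusedSectionVars false

noncomputable section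

open scoped Classical

namespace Crest.Agent.R143.CurUx894

open Crest.Agent.R143.B0x346 Crest.Agent.R143.DelGx806 Crest.Agent.R143.DelRx806
open Crest.Agent.R143.Frame1x395 Crest.Agent.R143.Frame2x395 Crest.Agent.R143.Frame3x395
  Crest.Agent.R143.Frame4x395 Crest.Agent.R143.Frame8x395 Crest.Agent.R143.Frame9x395
  Crest.Agent.R143.Frame10x395 Crest.Agent.R143.Frame11x395
open Crest.Agent.R143.WLocx713 Crest.Agent.R143.RingDx117 Crest.Agent.R143.TileRx228
open Crest.Agent.R143.FinCx811 (Cs rc0 rcol cs)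
open Crest.Agent.R143.RcTx422 (Hc RC Hc_eq)
open Crest.Agent.R143.CorHx713
open Crest.Agent.R143.Layx416 (Lay g al mi be nn rr jj)
open Crest.Agent.R143.LayUx416 (LayU)
open Crest.Agent.R143.PolyUx346 (Poly)
open Crest.Agent.R143.OutCx571 (Far)
open Crest.Agent.R143.Brkx478 (Bk cells)
open Crest.Agent.R143.CorrIx831 (SDS Col col_eq Rws)
open Crest.Agent.R143.LocTx776 (En)
open Crest.Agent.R143.PLKx228 (LXW)
open Crest.Agent.R143.ZnQx323 (T₁)
open Crest.Agent.R143.WndGx416 (WdA Wd wa wb wab_lay)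
open Crest.Agent.R143.RegEx523 (Kin)
open Crest.Agent.R143.Tenx416 (Pg)

section fix

variable {S : Finset ℂ} {hS : GP (S : Set ℂ)} {s : Cs hS → ZMod 2} {q : D0 S} {T : ℕ → ℕ} {N : ℕ}
  {p : ℕ → D0 S} {X : Set (ℂ × Bool)} {U : Set ℂ} {M mm : ℕ} {u : Poly} {p' W : ℤ → ℤ × ℤ}
  {A e : ℤ → ℤ} {η d : ℝ} {i : ZMod 3} {w0 : ℂ}

/-- **228's `LXW` on a fixed set of sites** -/
theorem lxw_S (L : LayU u mm M p' W A e) (hh : (mm : ℝ) * (100 * η) = u.s) (hm : 40 ≤ mm)
    (E : En S (cells (u.U : Set Bk)) u.L mm p' M W A η d)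
    (H : CorH X U M W η d (al A e i) (nn A e i)) (h3 : 3 ≤ S.card) (C : Col hS X s)
    (hp : ∀ k : ℕ, (p k).1 = (yy η W X (al A e i + k), xx η W X (al A e i + k)))
    (hT : SDS hS s η W (al A e i) (nn A e i) p q N T) (hw0 : OnHull S w0)
    (hw : w0 ∈ Far (mm * (100 * η)) (100 * η + 14 * η + d) (cells (u.U : Set Bk)))
    {l : ℕ} (hl : l < nn A e i) {Lc : Finset (Cs hS)}
    (hL : ∀ c ∈ Lc, ∃ v ∈ S, c.1 = Quot.mk (hullE S) v ∧
      ∃ j : ℤ, al A e i + wb A W (al A e i) (nn A e i) M l + 5 ≤ j ∧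
        j ≤ al A e i + wa A W (al A e i) (nn A e i) M l - 5 + M ∧
          v ∈ RR (12 * η) (52 * η) (100 * η) W j) :
    LXW hS (RC hS (Rws η W (al A e i) (nn A e i) M))
      (RC hS (T₁ η W (al A e i + wa A W (al A e i) (nn A e i) M l)
        (al A e i + wb A W (al A e i) (nn A e i) M l + 1))) Lc s q (T (nn A e i)) := by
  obtain rfl : sX X = S := C.e
  obtain rfl := col_eq H.hull h3 C
  have hpe : p = H.p := by
    funext k
    exact Subtype.ext (hp k)
  subst hpe
  have e0 := H.e0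
  obtain ⟨k1, G⟩ := SepUx697.geoU L hh H
  have e1 : 9 * η + η = 10 * η := by ring
  have wd := wab_lay L.lay (by exact_mod_cast hm) i (l := (l : ℤ)) (by omega)
    (by exact_mod_cast hl)
  refine LocZx776.lxw_X (SepSx697.sth_of_sd (Rs := RD (sX X) (CorrIx831.Rts η W (al A e i)
    (nn A e i))) (N := N) hT) E G (SepUx697.backU L H).1 ?_ (fun g => ?_) hw0 hw
    (l := (l : ℤ)) (by omega) (by exact_mod_cast hl) wd hL
  · rw [hh, show RegSx523.K0 (100 * η) (9 * η + η) u = Kin (90 * η) u.P by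
      unfold RegSx523.K0
      congr 1
      ring]
    exact le_of_eq rfl
  · rw [e1]
    exact RegSx523.K0_bot L hh (by linarith) (by linarith) g

end fix

/-! ### 597's `Sx` -/

section sx

open Crest.ProbabilityR.Voronoi
open Crest.Agent.R143.CorEx133
open Crest.Agent.R143.RigPx854 (ly ly_spec mN mN_hN hN hN_pos nT)
open Crest.Agent.R143.RigZdx609
open Crest.Agent.R143.QuenIx597
open Crest.Agent.R143.Uniqx323 (Zn)
open Crest.Agent.R143.SxZx832 (Rc Zq)
open Crest.Agent.R143.CorrIx831 (col_Xc)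
open Crest.Agent.R143.PLLx228 (CurI)

variable {Z : TData} {u : Poly} {w : ZMod 3} {N : ℕ} {ε : ℝ} {hn : u.n + 4 ≤ N} {he : 0 < ε}
  {ω : Sample} {hS : GP (SU u ε ω : Set ℂ)} {h3 : 3 ≤ (SU u ε ω).card} {h₀ : Cs hS}
  {Zz : Zn (rc0 hS)} {K1 c2 ρ0 : ℝ}

/-- **228's `CurI` at one environment** -/
theorem curI (C : CorEnv u ε √ε K1 c2 ρ0 ω) (hd : 100 * √ε ≤ et N) (hm : 40 ≤ mN u N) :
    CurI w Z hn he hS h3 (Rc hS w N) Zz := by
  refine PLMx228.curI_of (BrZx609.Rc_RC hn C) fun s _ p q k T O j hj => ?_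
  have L := ly_spec hn
  have num := Z.num N ε
  obtain ⟨w0, -, h1, h2⟩ := EnCx927.w0_of C L (mh hn) hd
  refine lxw_S (N := k) L (mh hn) hm (EnCx927.en_of C L (mh hn) hd) O.H h3 (col_Xc hS h3 s) O.hp
    O.sd h1 h2 hj fun c hc => ?_
  have hm' : (40 : ℤ) ≤ (mN u N : ℕ) := by exact_mod_cast hm
  have wd : WdA (ly u N).A (ly u N).W (oT u w N) (nT u w N) (ly u N).M (j : ℤ)
      (wa (ly u N).A (ly u N).W (oT u w N) (nT u w N) (ly u N).M j)
      (wb (ly u N).A (ly u N).W (oT u w N) (nT u w N) (ly u N).M j) :=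
    wab_lay L.lay hm' w (l := (j : ℤ)) (by omega) (by exact_mod_cast hj)
  have hr := wd.room
  have hb := wd.lb
  have ha := wd.al
  obtain ⟨v, v1, v2, i, i1, i2, v3⟩ := LSdx416.lc_site (fp hn) (Z.std N he) w (uM hn) (uM hn)
    (by have := L.lay.M_pos; omega) (by omega) hc
  rw [num.A', num.B', num.h] at v3
  have k1 : oT u w N + wb (ly u N).A (ly u N).W (oT u w N) (nT u w N) (ly u N).M j + 5 ≤ i := by
    omega
  have k2 : i ≤ oT u w N + wa (ly u N).A (ly u N).W (oT u w N) (nT u w N) (ly u N).M j - 5 +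
      (ly u N).M := by
    omega
  exact ⟨v, v1, v2, i, k1, k2, v3⟩

/-- **the curtain** -/
theorem curZ : OpKx894.CurZ := by
  intro u w
  refine Filter.Eventually.of_forall fun N => Filter.Eventually.of_forall fun ε hn he => ?_
  exact Filter.Eventually.of_forall fun ω C hd hm _ hS h3 h₀ _ => curI C hd hm

/-- **the row** -/
theorem leaf : Finx894.Leaf894 := OpKx894.leaf_cur curZ

end sx

end Crest.Agent.R143.CurUx894
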