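import Crest.Agent.R143.Hit_848
import Crest.Agent.R143.RE0_723
import Crest.Agent.R143.Bnd_377
import Crest.Agent.R143.HitL_54

-- ▼ part R143/PgN_848
section

/-!
# Row 143 (S0194): three classes = network with three marks (helper848)

* `Tg S B r` : three disjoint connected classes `B 0, B 1, B 2` of sites which cover the hull, `r k` =
  the hull edge from the class `k - 1` to the class `k`
* `Tg.N` : its network (killed edges = pairs inside a class, marks `r`); `Tg.hnet`, `Tg.side_iff`,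
  `Tg.pairs`
* `relAt_all` : the relations hold at every triangle of a network with `Pairs`
* `TT_hit'` : end point formula without hypothesis on the relations; `Tg.TT` : for three classes
* `tg_of_net` : the sides of a network form a `Tg`; `TT_net` : **`TT N z = TT (its classes) z`**
* `tg_of_pg`, `Tg.pg` : `RE0x723.Pg` with `m = 2`
-/

set_option autoImplicit false
set_option linter.unusedSimpArgs false

noncomputable section

open scoped Classical

namespace Crest.Agent.R143.PgNx848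

open Crest.Agent.R143.B0x346 Crest.Agent.R143.DelGx806 Crest.Agent.R143.DelRx806
  Crest.Agent.R143.JColx54 Crest.Agent.R143.JCol2x54
  Crest.Agent.R143.JCardx872 Crest.Agent.R143.Oscx63 Crest.Agent.R143.Sidesx697
  Crest.Agent.R143.Bsumx848 Crest.Agent.R143.Massx848 Crest.Agent.R143.Hitx848
open Crest.Agent.R143.J1x872 (cases_z3 Good)
open Crest.Agent.R143.RE0x723 (Pth Pg)

/-! ### joins with the odd triangle at a mark -/

section ins

variable {V : Type} {G : Trg V} {kl : Set (V × V)} {D : Set (V × V)} {a b c : V}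
  {J : Finset (V × V)}

/-- inverse of `erase_mark` -/
theorem insert_mark (ht : (a, b, c) ∈ G.T) (hbd : ∀ c', (b, a, c') ∉ G.T) (hm : (a, b) ∈ D)
    (hm' : (b, a) ∉ D) (hJ : IsJoin G kl ∅ (D \ {(a, b)}) J) :
    IsJoin G kl (rots (a, b, c)) D (insert (a, b) J) := by
  have hab : a ≠ b := G.ne ht
  have h0 : (a, b) ∉ J ∧ (b, a) ∉ J := hJ.bdr a b hbd (fun h => h.2 rfl)
  have n1 : ∀ {x y : V}, (x, y) ∉ D → (x, y) ≠ (a, b) := fun h e => h (e ▸ hm)
  have n2 : ∀ {x y : V}, (x, y) ∉ D → (x, y) ∉ D \ {(a, b)} := fun h h' => h h'.1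
  refine ⟨?_, ?_, ?_, ?_, ?_, ?_⟩
  · intro p hp
    rcases Finset.mem_insert.1 hp with rfl | hp
    · exact (mem_E_of_tri ht).1
    · exact hJ.sub hp
  · intro x y h1 h2
    rw [Finset.mem_insert, Finset.mem_insert]
    have := hJ.sym x y (n2 h1) (n2 h2)
    have e1 := n1 h1
    have e2 := n1 h2
    tauto
  · intro x y h
    by_cases e : (x, y) = (a, b)
    · rw [e]
      rw [Prod.mk.injEq] at e
      obtain ⟨rfl, rfl⟩ := e
      refine ⟨Finset.mem_insert_self _ _, ?_⟩
      rw [Finset.mem_insert]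
      rintro (h1 | h1)
      · rw [Prod.mk.injEq] at h1
        exact hab h1.2
      · exact h0.2 h1
    · have h1 := hJ.mark x y ⟨h, e⟩
      refine ⟨Finset.mem_insert_of_mem h1.1, ?_⟩
      rw [Finset.mem_insert]
      rintro (h2 | h2)
      · rw [Prod.mk.injEq] at h2
        obtain ⟨rfl, rfl⟩ := h2
        exact hm' h
      · exact h1.2 h2
  · intro x y h1 h2
    have h3 := hJ.bdr x y h1 (n2 h2)
    rw [Finset.mem_insert, Finset.mem_insert]
    refine ⟨?_, ?_⟩
    · rintro (h4 | h4)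
      · exact n1 h2 h4
      · exact h3.1 h4
    · rintro (h4 | h4)
      · rw [Prod.mk.injEq] at h4
        obtain ⟨rfl, rfl⟩ := h4
        exact h1 c ht
      · exact h3.2 h4
  · intro x y h1 h2 h3
    have h4 := hJ.kill x y h1 (n2 h2) (n2 h3)
    rw [Finset.mem_insert, Finset.mem_insert]
    exact ⟨fun h => h.elim (n1 h2) h4.1, fun h => h.elim (n1 h3) h4.2⟩
  · intro x y z h
    have hp := hJ.par x y z h
    rw [if_neg (Set.notMem_empty _)] at hp
    obtain ⟨m1, m2, m3⟩ := sides_ne h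
    by_cases hs : (x, y, z) ∈ rots (a, b, c)
    · rw [if_pos hs]
      rcases side_of_mem_rots hs with e | e | e
      · have e2 : (y, z) ≠ (a, b) := by rw [← e]; exact m1.symm
        have e3 : (z, x) ≠ (a, b) := by rw [← e]; exact m3.symm
        simp only [Finset.mem_insert, e2, e3, false_or]
        simp only [e, h0.1, true_or, or_false, if_true, if_false] at hp ⊢
        omega
      · have e2 : (x, y) ≠ (a, b) := by rw [← e]; exact m1
        have e3 : (z, x) ≠ (a, b) := by rw [← e]; exact m2.symm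
        simp only [Finset.mem_insert, e2, e3, false_or]
        simp only [e, h0.1, true_or, or_false, if_true, if_false] at hp ⊢
        omega
      · have e2 : (x, y) ≠ (a, b) := by rw [← e]; exact m3
        have e3 : (y, z) ≠ (a, b) := by rw [← e]; exact m2
        simp only [Finset.mem_insert, e2, e3, false_or]
        simp only [e, h0.1, true_or, or_false, if_true, if_false] at hp ⊢
        omega
    · rw [if_neg hs]
      have e1 : (x, y) ≠ (a, b) := fun e => hs (mem_rots_of_side ht h (Or.inl e))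
      have e2 : (y, z) ≠ (a, b) := fun e => hs (mem_rots_of_side ht h (Or.inr (Or.inl e)))
      have e3 : (z, x) ≠ (a, b) := fun e => hs (mem_rots_of_side ht h (Or.inr (Or.inr e)))
      simp only [Finset.mem_insert, e1, e2, e3, false_or]
      exact hp

end ins

/-! ### the relations -/

section rel

variable {S : Finset ℂ} {N : Net ℂ}

theorem tj_mark (h : HNet S N) (hpr : Pairs N) {a b c : ℂ} (ht : (a, b, c) ∈ N.T)
    (hm : (a, b) ∈ N.exS) : (N.tj (a, b, c)).Nonempty := by
  obtain ⟨k, hk⟩ := hm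
  obtain ⟨J, hJ⟩ := hpr k
  rw [hk] at hJ
  have h1 : ∀ c', (b, a, c') ∉ N.T := by
    intro c'
    have := (J1x872.good_of_hnet h).bd k c'
    rw [hk] at this
    exact this
  have h2 : (b, a) ∉ N.exS := by
    rintro ⟨l, hl⟩
    have h3 := h.hex k
    have h4 := h.hex l
    rw [hk] at h3
    rw [hl] at h4
    exact hullE_asymm h3 h4
  exact ⟨_, mem_joins.2 (insert_mark ht h1 ⟨k, hk⟩ h2 hJ)⟩

/-- **the relations hold everywhere** -/
theorem relAt_all (h : HNet S N) (hpr : Pairs N) : ∀ t ∈ N.T, RelAt N t := by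
  rintro ⟨a, b, c⟩ ht
  refine Rel2x63.relAt h (by rw [← h.tri]; exact ht) ?_
  by_cases h1 : (a, b) ∈ N.exS
  · exact Or.inl (tj_mark h hpr ht h1)
  by_cases h2 : (b, c) ∈ N.exS
  · left
    have := tj_mark h hpr (N.rot ht) h2
    rwa [J1x872.tj_rot] at this
  by_cases h3 : (c, a) ∈ N.exS
  · left
    have := tj_mark h hpr (N.rot (N.rot ht)) h3
    rwa [J1x872.tj_rot, J1x872.tj_rot] at this
  exact Or.inr ⟨h1, h2, h3⟩

/-- **END POINT FORMULA** -/
theorem TT_hit' (h : HNet S N) (hkl : ∀ a b : ℂ, (a, b) ∈ N.kl → (a, b) ∈ N.E → ∃ i, Side N i a)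
    (hpr : Pairs N) (z : ℂ → ℂ) : TT N z = 3 * ∑ i : ZMod 3, omz i * avt N i z :=
  TT_hit h (relAt_all h hpr) hkl hpr z

end rel

/-! ### three classes -/

/-- **three classes** -/
structure Tg (S : Finset ℂ) (B : ZMod 3 → Set ℂ) (r : ZMod 3 → ℂ × ℂ) : Prop where
  gp : GP (S : Set ℂ)
  sub : ∀ i, B i ⊆ S
  disj : ∀ i j, i ≠ j → Disjoint (B i) (B j)
  hr : ∀ k, hullE S (r k).1 (r k).2
  end1 : ∀ k, (r k).1 ∈ B (k - 1)
  end2 : ∀ k, (r k).2 ∈ B k
  /-- a hull edge which is not a mark joins two sites of the same class -/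
  hull : ∀ a b, hullE S a b → (∃ k, r k = (a, b)) ∨ ∃ i, a ∈ B i ∧ b ∈ B i
  /-- the classes are connected -/
  con : ∀ i, ∀ v ∈ B i, ∀ w ∈ B i,
    Relation.ReflTransGen (fun a b => a ∈ B i ∧ b ∈ B i ∧ Adj S a b) v w

variable {S : Finset ℂ} {B : ZMod 3 → Set ℂ} {r : ZMod 3 → ℂ × ℂ}

namespace Tg

variable (O : Tg S B r)

/-- the network of three classes -/
def N (O : Tg S B r) : Net ℂ where
  T := delT S
  rot := fun h => (g1 S O.gp).1 _ _ _ h
  uniq := fun h h' => (g1 S O.gp).2.1 _ _ _ _ h h'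
  ne := fun h => (g1 S O.gp).2.2 _ _ _ h
  kl := {p | ∃ i, p.1 ∈ B i ∧ p.2 ∈ B i}
  klsym := by
    rintro a b ⟨i, h1, h2⟩
    exact ⟨i, h2, h1⟩
  ex := r

include O

/-- the class of a site is unique -/
theorem uniq {v : ℂ} {i j : ZMod 3} (hi : v ∈ B i) (hj : v ∈ B j) : i = j := by
  by_contra h
  exact Set.disjoint_left.1 (O.disj i j h) hi hj

theorem r_ne {i j : ZMod 3} (h : i ≠ j) : r i ≠ r j := fun e => by
  have h1 := O.end2 i
  rw [e] at h1
  exact h (O.uniq h1 (O.end2 j))

/-- the two ends of a mark are in no common class -/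
theorem r_not_same {k i : ZMod 3} (h1 : (r k).1 ∈ B i) (h2 : (r k).2 ∈ B i) : False := by
  have e1 := O.uniq h1 (O.end1 k)
  have e2 := O.uniq h2 (O.end2 k)
  have e3 : k - 1 = k := e1.symm.trans e2
  have : ∀ k : ZMod 3, k - 1 ≠ k := by decide
  exact this k e3

theorem hull_cls {a b : ℂ} (h : hullE S a b) : (∃ i, a ∈ B i) ∧ ∃ i, b ∈ B i := by
  rcases O.hull a b h with ⟨k, hk⟩ | ⟨i, h1, h2⟩
  · have e1 : a = (r k).1 := by rw [hk]
    have e2 : b = (r k).2 := by rw [hk]
    exact ⟨⟨_, e1 ▸ O.end1 k⟩, ⟨_, e2 ▸ O.end2 k⟩⟩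
  · exact ⟨⟨i, h1⟩, ⟨i, h2⟩⟩


/-- an edge inside one class is no mark -/
theorem not_exS {a b : ℂ} {i : ZMod 3} (ha : a ∈ B i) (hb : b ∈ B i) : (a, b) ∉ O.N.exS := by
  rintro ⟨k, hk⟩
  change r k = (a, b) at hk
  apply O.r_not_same (k := k) (i := i)
  · rw [hk]; exact ha
  · rw [hk]; exact hb

/-! #### order of the marks -/

variable {n : ℕ} {w : ℤ → ℂ}

/-- along the hull, as long as there is no mark, the class is constant -/
theorem run (H : HullCyc S n w) {i : ZMod 3} {a b : ℤ} (hab : a ≤ b) (ha : w a ∈ B i)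
    (h : ∀ j, a ≤ j → j < b → ∀ k, r k ≠ (w j, w (j + 1))) : w b ∈ B i := by
  obtain ⟨q, rfl⟩ := Int.le.dest hab
  induction q with
  | zero => simpa using ha
  | succ q ih =>
    have h1 := ih (by linarith) (fun j h1 h2 => h j h1 (by push_cast; linarith))
    rcases O.hull _ _ (H.edge (a + q)) with ⟨k, hk⟩ | ⟨l, h2, h3⟩
    · exact absurd hk (h (a + q) (by linarith) (by push_cast; linarith) k)
    · have : l = i := O.uniq h2 h1
      subst this
      have e : a + ((q + 1 : ℕ) : ℤ) = a + q + 1 := by push_cast; ring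
      rw [e]
      exact h3

/-- the next mark, and the class in between -/
theorem next (H : HullCyc S n w) {k : ZMod 3} {j J : ℤ} {l : ZMod 3} (hj : r k = (w j, w (j + 1)))
    (hJ : r l = (w J, w (J + 1))) (hjJ : j < J) : ∃ j', j < j' ∧ j' ≤ J ∧
      r (k + 1) = (w j', w (j' + 1)) ∧ ∀ i, j < i → i ≤ j' → w i ∈ B k := by
  have hex : ∃ q : ℕ, ∃ l, r l = (w (j + 1 + q), w (j + 1 + q + 1)) := by
    refine ⟨(J - (j + 1)).toNat, l, ?_⟩
    rw [Int.toNat_of_nonneg (by omega)]
    rw [show j + 1 + (J - (j + 1)) = J by ring]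
    exact hJ
  obtain ⟨l', hl'⟩ := Nat.find_spec hex
  set q := Nat.find hex with hq
  have hmin : ∀ q', q' < q → ∀ l, r l ≠ (w (j + 1 + q'), w (j + 1 + q' + 1)) := by
    intro q' h l h'
    exact Nat.find_min hex h ⟨l, h'⟩
  have h0 : w (j + 1) ∈ B k := by
    have := O.end2 k
    rw [hj] at this
    exact this
  have hcl : ∀ i, j < i → i ≤ j + 1 + q → w i ∈ B k := by
    intro i hi1 hi2
    refine O.run H (a := j + 1) (by omega) h0 ?_
    intro i' h2 h3 l h4
    refine hmin (i' - (j + 1)).toNat (by omega) l ?_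
    rw [Int.toNat_of_nonneg (by omega), show j + 1 + (i' - (j + 1)) = i' by ring]
    exact h4
  have h1 : w (j + 1 + q) ∈ B k := hcl _ (by omega) (le_refl _)
  have h2 := O.end1 l'
  rw [hl'] at h2
  have h3 : l' - 1 = k := O.uniq h2 h1
  have h4 : l' = k + 1 := by rw [← h3]; ring
  refine ⟨j + 1 + q, by omega, ?_, by rw [← h4]; exact hl', hcl⟩
  by_contra hc
  push Not at hc
  have := hmin (J - (j + 1)).toNat (by omega) l
  rw [Int.toNat_of_nonneg (by omega), show j + 1 + (J - (j + 1)) = J by ring] at this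
  exact this hJ

/-- **positions of the three marks** -/
theorem pos3 (H : HullCyc S n w) : ∃ j0 j1 j2 : ℤ, j0 < j1 ∧ j1 < j2 ∧
    j2 < j0 + n ∧ r 0 = (w j0, w (j0 + 1)) ∧ r 1 = (w j1, w (j1 + 1)) ∧ r 2 = (w j2, w (j2 + 1)) ∧
    (∀ i, j0 < i → i ≤ j1 → w i ∈ B 0) ∧ (∀ i, j1 < i → i ≤ j2 → w i ∈ B 1) ∧
    (∀ i, j2 < i → i ≤ j0 + n → w i ∈ B 2) := by
  have hn : (0 : ℤ) < n := by exact_mod_cast H.pos
  obtain ⟨j0, -, -, a1, a2⟩ := H.all _ _ (O.hr 0)
  have e0 : r 0 = (w j0, w (j0 + 1)) := Prod.ext a1.symm a2.symm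
  have e0' : r 0 = (w (j0 + n), w (j0 + n + 1)) := by
    rw [H.per, show j0 + (n : ℤ) + 1 = j0 + 1 + n by ring, H.per]
    exact e0
  obtain ⟨j1, h1, h1', e1, f1⟩ := O.next H e0 e0' (by linarith)
  have n1 : j1 ≠ j0 + n := by
    rintro rfl
    exact O.r_ne (by decide : (0 : ZMod 3) + 1 ≠ 0) (e1.trans e0'.symm)
  obtain ⟨j2, h2, h2', e2, f2⟩ := O.next H e1 e0' (lt_of_le_of_ne h1' n1)
  have n2 : j2 ≠ j0 + n := by
    rintro rfl
    exact O.r_ne (by decide : (0 : ZMod 3) + 1 + 1 ≠ 0) (e2.trans e0'.symm)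
  have h2'' := lt_of_le_of_ne h2' n2
  obtain ⟨j3, h3, h3', e3, f3⟩ := O.next H e2 e0' h2''
  have hj3 : j3 = j0 + n := by
    have e4 : r ((0 : ZMod 3) + 1 + 1 + 1) = r 0 := by congr 1
    rw [e4, e0'] at e3
    obtain ⟨q, hq⟩ := hull_inj H (congrArg Prod.fst e3)
    have h5 : j3 ≤ j0 + n := h3'
    have h6 : j0 < j3 := by omega
    by_contra hne
    have h7 : 0 < q := by
      by_contra h8
      push Not at h8
      have : (n : ℤ) * q ≤ 0 := mul_nonpos_of_nonneg_of_nonpos hn.le h8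
      omega
    have h8 : (n : ℤ) ≤ n * q := by nlinarith
    omega
  refine ⟨j0, j1, j2, h1, h2, h2'', e0, e1, e2, f1, f2, ?_⟩
  rw [hj3] at f3
  exact f3

theorem card3 : 3 ≤ S.card := by
  obtain ⟨⟨c, hc⟩, -⟩ := O.hr 0
  obtain ⟨h1, h2, h3, h4, -⟩ := mem_delT.1 hc
  have n1 : (r 0).1 ≠ (r 0).2 := (g1 S O.gp).2.2 _ _ _ hc
  have n2 : (r 0).2 ≠ c := (g1 S O.gp).2.2 _ _ _ ((g1 S O.gp).1 _ _ _ hc)
  have n3 : c ≠ (r 0).1 := (g1 S O.gp).2.2 _ _ _ ((g1 S O.gp).1 _ _ _ ((g1 S O.gp).1 _ _ _ hc))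
  have h5 : ({(r 0).1, (r 0).2, c} : Finset ℂ) ⊆ S := by
    intro x hx
    simp only [Finset.mem_insert, Finset.mem_singleton] at hx
    rcases hx with rfl | rfl | rfl
    · exact h1
    · exact h2
    · exact h3
  have h6 : ({(r 0).1, (r 0).2, c} : Finset ℂ).card = 3 :=
    Finset.card_eq_three.2 ⟨_, _, _, n1, n3.symm, n2, rfl⟩
  rw [← h6]
  exact Finset.card_le_card h5

/-- **the network of three classes is a network** -/
theorem hnet : HNet S O.N where
  gp := O.gp
  tri := rfl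
  hex := O.hr
  live := by
    rintro k ⟨i, h1, h2⟩
    exact O.r_not_same h1 h2
  ccw := by
    obtain ⟨n, w, H⟩ := hull_cycle O.gp O.card3
    obtain ⟨j0, j1, j2, h1, h2, h3, e0, e1, e2, -⟩ := O.pos3 H
    change 0 < cr (mid (r 1) - mid (r 0)) (mid (r 2) - mid (r 0))
    rw [e0, e1, e2]
    exact Planarx54.mid_pos H h1 h2 h3

theorem mem_E' {a b : ℂ} : (a, b) ∈ O.N.E ↔ Adj S a b := mem_E O.hnet.tri

/-- dead edges of a class are walls -/
theorem wall_of {a b : ℂ} {i : ZMod 3} (ha : a ∈ B i) (hb : b ∈ B i) (h : Adj S a b) :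
    Wall O.N a b :=
  ⟨O.mem_E'.2 h, O.not_exS ha hb, O.not_exS hb ha, Or.inl ⟨i, ha, hb⟩⟩

/-- walls stay in the class -/
theorem cls_of_wall {a b : ℂ} {i : ZMod 3} (ha : a ∈ B i) (h : Wall O.N a b) : b ∈ B i := by
  obtain ⟨h1, h2, h3, h4⟩ := h
  have h5 := O.mem_E'.1 h1
  have key : ∀ {x y : ℂ}, hullE S x y → (x, y) ∉ O.N.exS → ∃ i, x ∈ B i ∧ y ∈ B i := by
    intro x y hE hx
    rcases O.hull x y hE with ⟨k, hk⟩ | h
    · exact absurd ⟨k, hk⟩ hx
    · exact h
  rcases h4 with ⟨j, h6, h7⟩ | h4 | h4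
  · rw [O.uniq ha h6]; exact h7
  · have h6 : hullE S a b := by
      rcases h5 with ⟨c, h5⟩ | ⟨c, h5⟩
      · exact ⟨⟨c, h5⟩, h4⟩
      · exact absurd h5 (h4 c)
    obtain ⟨j, h7, h8⟩ := key h6 h2
    rw [O.uniq ha h7]; exact h8
  · have h6 : hullE S b a := by
      rcases h5 with ⟨c, h5⟩ | ⟨c, h5⟩
      · exact absurd h5 (h4 c)
      · exact ⟨⟨c, h5⟩, h4⟩
    obtain ⟨j, h7, h8⟩ := key h6 h3
    rw [O.uniq ha h8]; exact h7

/-- **the sides are the classes** -/
theorem side_iff {k : ZMod 3} {v : ℂ} : Side O.N k v ↔ v ∈ B k := by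
  constructor
  · intro h
    unfold Side at h
    induction h with
    | refl => exact O.end2 k
    | tail _ h2 ih => exact O.cls_of_wall ih h2
  · intro h
    refine Relation.ReflTransGen.mono ?_ _ _ (O.con k _ (O.end2 k) v h)
    rintro a b ⟨h2, h3, h4⟩
    exact O.wall_of h2 h3 h4

/-- **pair joins exist** -/
theorem pairs : Pairs O.N := by
  intro m
  have z1 : ∀ m : ZMod 3, m - 1 ≠ m + 1 ∧ m ≠ m + 1 := by decide
  have z2 : ∀ m k : ZMod 3, k ≠ m → (k = m + 1 ∨ k - 1 = m + 1) := by decide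
  have z3 : ∀ k : ZMod 3, k - 1 ≠ k := by decide
  refine ⟨colJ O.N.toTrg (O.N.exS \ {O.N.ex m}) fun v => decide (v ∈ B (m + 1)), ?_⟩
  refine colJ_isJoin O.gp rfl ?_ (fun a b h => O.N.klsym a b h) ?_
  · rintro a b ⟨⟨k, hk⟩, -⟩
    have := O.hnet.hex k
    rw [hk] at this
    exact this
  · refine ⟨?_, ?_, ?_⟩
    · rintro a b - ⟨i, h1, h2⟩ - -
      by_cases h : i = m + 1
      · subst h
        simp [h1, h2]
      · have n1 : a ∉ B (m + 1) := fun h3 => h (O.uniq h1 h3)
        have n2 : b ∉ B (m + 1) := fun h3 => h (O.uniq h2 h3)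
        simp [n1, n2]
    · intro a b hE hD
      rcases O.hull a b hE with ⟨k, hk⟩ | ⟨i, h1, h2⟩
      · have hkm : k = m := by
          by_contra hne
          exact hD ⟨⟨k, hk⟩, fun h => O.r_ne hne (hk.trans h)⟩
        subst hkm
        have n1 : a ∉ B (k + 1) := fun h3 => by
          have h4 := O.end1 k
          rw [hk] at h4
          exact (z1 k).1 (O.uniq h4 h3)
        have n2 : b ∉ B (k + 1) := fun h3 => by
          have h4 := O.end2 k
          rw [hk] at h4
          exact (z1 k).2 (O.uniq h4 h3)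
        simp [n1, n2]
      · by_cases h : i = m + 1
        · subst h
          simp [h1, h2]
        · have n1 : a ∉ B (m + 1) := fun h3 => h (O.uniq h1 h3)
          have n2 : b ∉ B (m + 1) := fun h3 => h (O.uniq h2 h3)
          simp [n1, n2]
    · rintro a b ⟨⟨k, hk⟩, hk'⟩
      change r k = (a, b) at hk
      have hkm : k ≠ m := by
        rintro rfl
        exact hk' hk.symm
      have e1 := O.end1 k
      have e2 := O.end2 k
      rw [hk] at e1 e2
      simp only at e1 e2
      rcases z2 m k hkm with h | h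
      · rw [h] at e2
        have n1 : a ∉ B (m + 1) := fun h3 => by
          have := O.uniq e1 h3
          rw [← h] at this
          exact z3 k this
        simp [e2, n1]
      · rw [h] at e1
        have n1 : b ∉ B (m + 1) := fun h3 => by
          have := O.uniq e2 h3
          rw [← h] at this
          exact z3 k this.symm
        simp [e1, n1]

theorem att (a b : ℂ) (h : (a, b) ∈ O.N.kl) (_h' : (a, b) ∈ O.N.E) : ∃ i, Side O.N i a := by
  obtain ⟨i, h1, -⟩ := h
  exact ⟨i, O.side_iff.2 h1⟩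

/-- **END POINT FORMULA for three classes** (no hypothesis left) -/
theorem TT (z : ℂ → ℂ) : Bsumx848.TT O.N z = 3 * ∑ i : ZMod 3, omz i * avt O.N i z :=
  TT_hit' O.hnet O.att O.pairs z

end Tg

/-! ### the sides of a network -/

section net

variable {N : Net ℂ}

theorem tg_of_net (h : HNet S N) (hpr : Pairs N) : Tg S (fun k => {v | Side N k v}) N.ex := by
  have hM := marks3_of h
  have hC := hasCol h
  have hmem : ∀ {u v : ℂ}, Wall N u v → u ∈ S ∧ v ∈ S := fun hw => (adj_of_E h hw.1).mem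
  refine ⟨h.gp, ?_, ?_, h.hex, ?_, ?_, ?_, ?_⟩
  · intro i v hv
    rcases Relation.ReflTransGen.cases_tail (show Side N i v from hv) with e | ⟨u, -, hu⟩
    · rw [e]
      exact (adj_of_E h (mem_E_of_hull h (h.hex i))).mem.2
    · exact (hmem hu).2
  · intro i j hij
    rw [Set.disjoint_left]
    intro v hi hj
    exact hij (side_disj hM hC hpr hi hj)
  · intro k
    have := hM.next (k - 1)
    rw [sub_add_cancel] at this
    exact this
  · intro k
    exact Relation.ReflTransGen.refl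
  · intro a b hE
    by_cases hm : (a, b) ∈ N.exS
    · obtain ⟨k, hk⟩ := hm
      exact Or.inl ⟨k, hk⟩
    · obtain ⟨i, hi⟩ := exists_side h hE
      exact Or.inr ⟨i, hi, Relation.ReflTransGen.tail hi (wall_hull h hE hm)⟩
  · intro i v hv w hw
    have key : ∀ {u : ℂ}, Side N i u →
        Relation.ReflTransGen (fun a b => a ∈ {v | Side N i v} ∧ b ∈ {v | Side N i v} ∧ Adj S a b)
          (N.ex i).2 u := by
      intro u hu
      unfold Side at hu
      induction hu with
      | refl => exact Relation.ReflTransGen.refl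
      | tail h1 h2 ih => exact ih.tail ⟨h1, Relation.ReflTransGen.tail h1 h2, adj_of_E h h2.1⟩
    have hsym : ∀ {x y : ℂ},
        Relation.ReflTransGen (fun a b => a ∈ {v | Side N i v} ∧ b ∈ {v | Side N i v} ∧ Adj S a b) x y →
        Relation.ReflTransGen (fun a b => a ∈ {v | Side N i v} ∧ b ∈ {v | Side N i v} ∧ Adj S a b) y x := by
      intro x y hxy
      induction hxy with
      | refl => exact Relation.ReflTransGen.refl
      | tail _ h2 ih => exact Relation.ReflTransGen.head ⟨h2.2.1, h2.1, h2.2.2.symm⟩ ih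
    exact (hsym (key hv)).trans (key hw)






end net

/-! ### polygons with three marks -/

section pg

variable {n : ℕ} {w : ℤ → ℂ} {p : ℕ → ℤ} {A : ℕ → Finset ℂ}


/-- three classes as a polygon -/
theorem Tg.pg (O : Tg S B r) (H : HullCyc S n w) : ∃ p : ℕ → ℤ,
    Pg S n w 2 p (fun k => S.filter fun v => v ∈ B (k : ZMod 3)) ∧
    ∀ k : ℕ, k ≤ 2 → r (k : ZMod 3) = (w (p k), w (p k + 1)) := by
  obtain ⟨j0, j1, j2, h1, h2, h3, e0, e1, e2, f0, f1, f2⟩ := O.pos3 H
  have hcast : ∀ k : ℕ, k ≤ 2 → k = 0 ∨ k = 1 ∨ k = 2 := by intro k hk; omega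
  have hf : ∀ {i : ZMod 3} {v : ℂ}, v ∈ B i → v ∈ S.filter fun v => v ∈ B i := fun h =>
    Finset.mem_filter.2 ⟨O.sub _ h, h⟩
  refine ⟨fun k => if k = 0 then j0 else if k = 1 then j1 else j2, ?_, ?_⟩
  · refine ⟨O.gp, H, ?_, ?_, ?_, ?_, ?_, ?_, ?_⟩
    · intro j hj
      obtain rfl | rfl : j = 0 ∨ j = 1 := by omega
      · simpa using h1
      · simpa using h2
    · simpa using h3
    · intro j _
      exact Finset.filter_subset _ _
    · intro i j hi hj hij
      rw [Finset.disjoint_left]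
      intro v hv hv'
      have h4 := O.uniq (Finset.mem_filter.1 hv).2 (Finset.mem_filter.1 hv').2
      apply hij
      rcases hcast i hi with rfl | rfl | rfl <;> rcases hcast j hj with rfl | rfl | rfl <;>
        first
        | rfl
        | (exfalso; revert h4; decide)
    · intro j _ x hx y hy
      refine ⟨hx, ?_⟩
      have hx' := (Finset.mem_filter.1 hx).2
      have hy' := (Finset.mem_filter.1 hy).2
      refine Relation.ReflTransGen.mono ?_ _ _ (O.con _ x hx' y hy')
      rintro a b ⟨-, h5, h6⟩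
      exact ⟨h6, by exact_mod_cast hf h5⟩
    · intro j hj k hk1 hk2
      obtain rfl | rfl : j = 0 ∨ j = 1 := by omega
      · have := f0 k (by simpa using hk1) (by simpa using hk2)
        exact Finset.mem_filter.2 ⟨O.sub _ this, by simpa using this⟩
      · have := f1 k (by simpa using hk1) (by simpa using hk2)
        exact Finset.mem_filter.2 ⟨O.sub _ this, by simpa using this⟩
    · intro k hk1 hk2
      have := f2 k (by simpa using hk1) (by simpa using hk2)
      exact Finset.mem_filter.2 ⟨O.sub _ this, by simpa using this⟩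
  · intro k hk
    rcases hcast k hk with rfl | rfl | rfl
    · simpa using e0
    · simpa using e1
    · simpa using e2

end pg

end Crest.Agent.R143.PgNx848
end
end

-- ▼ part R143/D1_377

/-!
# Row 143 (S0194), CONT, leaf (D1): the totals of the explored networks are static

* `Fr S K` = sites on no side; `free_of` : 117's `Free`; `dj_of` : disjoint sides
* `alive_net` : an alive state `x` gives `HNet`, `Pairs`, `Dj`, `Free`, `Tr` and attached killed
  edges for `knet N x.1`
* `Y_static` : **`Y S N (rr z) x = 3 * ∑ i, omz i * ec (Fr S K) (fun T => z (yv K i T))`**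
* `Y_we`, `Y_wd` : the same for the weights `we`, `wd`
-/

set_option autoImplicit false

noncomputable section

open scoped Classical

namespace Crest.Agent.R143.Mabx377

open Crest.Agent.R143.B0x346 Crest.Agent.R143.B0Dx346
open Crest.Agent.R143.Oscx63 Crest.Agent.R143.J1x872 Crest.Agent.R143.JCardx872
open Crest.Agent.R143.JWalkx872 Crest.Agent.R143.J4x872 Crest.Agent.R143.Bsumx848
open Crest.Agent.R143.Sidesx697 (Wall Side)

open Crest.Agent.R143.Massx848 (Pairs)
open Crest.Agent.R143.AsmNx758 (we wd)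
open Crest.Agent.R143.HitLx54 (Dj sA yv ec)
open Crest.Agent.R143.K33x877 (Tr fr)

variable {S : Finset ℂ} {N : Net ℂ}

/-- the sites on no side -/
def Fr (S : Finset ℂ) (K : Net ℂ) : Finset ℂ := S.filter fun v => ∀ i, ¬ Side K i v

theorem free_of (h : HNet S N) (hpr : Pairs N)
    (hkl : ∀ a b : ℂ, (a, b) ∈ N.kl → (a, b) ∈ N.E → ∃ i, Side N i a) :
    Crsx117.Free S N (Fr S N) := by
  have hull : ∀ a b, hullE S a b → (∃ i, Side N i a) ∧ ∃ i, Side N i b := fun a b hab =>
    (PgNx848.tg_of_net h hpr).hull_cls hab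
  refine ⟨Finset.filter_subset _ _, ?_, ?_, ?_⟩
  · intro a ha b hab hk
    obtain ⟨i, hi⟩ := hkl a b hk ((JCol2x54.mem_E h.tri).2 hab)
    exact (Finset.mem_filter.1 ha).2 i hi
  · intro a ha b
    constructor
    · intro hab
      obtain ⟨⟨i, hi⟩, -⟩ := hull a b hab
      exact (Finset.mem_filter.1 ha).2 i hi
    · intro hab
      obtain ⟨-, ⟨i, hi⟩⟩ := hull b a hab
      exact (Finset.mem_filter.1 ha).2 i hi
  · intro v hv hv'
    by_contra hc
    push Not at hc
    exact hv' (Finset.mem_filter.2 ⟨hv, hc⟩)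

theorem dj_of (h : HNet S N) (hpr : Pairs N) : Dj N := fun _ _ _ hi hj =>
  Bsumx848.side_disj (Sidesx697.marks3_of h) (Sidesx697.hasCol h) hpr hi hj

/-- the network of an alive state -/
theorem alive_net (h : HNet S N)
    (hkl : ∀ a b : ℂ, (a, b) ∈ N.kl → (a, b) ∈ N.E → ∃ i, Side N i a)
    {x : St ℂ} (hok : Ok N x.1 x.2) (hA : Alive S N x) :
    HNet S (knet N x.1) ∧ Pairs (knet N x.1) ∧ Dj (knet N x.1) ∧
      Crsx117.Free S (knet N x.1) (Fr S (knet N x.1)) ∧ Tr S (sA S (knet N x.1)) ∧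
      (∀ a b : ℂ, (a, b) ∈ (knet N x.1).kl → (a, b) ∈ (knet N x.1).E →
        ∃ i, Side (knet N x.1) i a) := by
  have h2 := alive_ex2 hA
  have hN := hnet_ok h hok h2
  have hpr := alive_pairs h hok hA
  have hk := kl_side h hkl hok h2
  have hd := dj_of hN hpr
  exact ⟨hN, hpr, hd, free_of hN hpr hk, HitLx54.tr_of hN hd, hk⟩

/-- **(D1)** the total of an explored network is a mean over fair colourings of its free sites -/
theorem Y_static (h : HNet S N)
    (hkl : ∀ a b : ℂ, (a, b) ∈ N.kl → (a, b) ∈ N.E → ∃ i, Side N i a)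
    {x : St ℂ} (hok : Ok N x.1 x.2) (hA : Alive S N x) (z : ℂ → ℂ) :
    Y S N (rr z) x = 3 * ∑ i : ZMod 3, omz i *
      ec (Fr S (knet N x.1)) fun T => z (yv (knet N x.1) i T) := by
  obtain ⟨hN, -, hd, hF, -, -⟩ := alive_net h hkl hok hA
  rw [Y_eq_TT h hA z]
  exact HitLx54.TT_static hN hd hF z





end Crest.Agent.R143.Mabx377
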