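import Crest.Agent.R143.ClsC_697
import Crest.Agent.R143.DomE_722
import Crest.Agent.R143.Ad2_422

/-!
# Row 143 (S0194), part B: T1 and T2 for the networks of admissible domains (helper395)

`D.Ad δ` : domain of a configuration with `n ≥ 3` tentacles (helper422).

* `data_S`, `dom_data` : dense sites, `HNet`, `Sides2` (D1, D2, ClsC_697)
* `energy_dom` : `∑ ‖Q t‖ ^ 2 ≤ 12`; `energy_rep_dom` : `≤ 4` for representatives
* `dis_dom` : the drawn triangles are disjoint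
-/

set_option autoImplicit false

noncomputable section

namespace Crest.Agent.R143.En12Ax395

open Set MeasureTheory Filter Topology
open scoped Classical
open Crest.ProbabilityR.Voronoi
open Crest.Agent.R143.B0x346 Crest.Agent.R143.B0Dx346 Crest.Agent.R143.Sidesx697
open Crest.Agent.R143.Tiling2x395 Crest.Agent.R143.DomAx722
open Crest.Agent.R143.Cfgx416

/-- dense sites in an admissible domain: network and description of the boundary -/
theorem data_S {D : Dom} {δ d : ℝ} (hD : D.Ad δ) {S : Finset ℂ} (hS : Dns S D.c D.L d)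
    (hd : 40000 * D.L ^ 5 * d ≤ δ ^ 6) :
    HNet S (D.netS S) ∧ Sides2 (D.netS S) (innS S (D.netS S)) (arcS (D.netS S)) := by
  obtain ⟨n, C, hn, hC, rfl⟩ := hD
  have hO : C.Out S := DomEx722.out_S hn hC hS hd
  exact ⟨hO.hnet, ClsCx697.sides2 hn hO⟩

/-- dense sites, network and boundary for a good environment -/
theorem dom_data {D : Dom} {δ ε d M : ℝ} {ω : Sample} (hD : D.Ad δ)
    (hω : Env ε d M D.c D.L ω) (hd : 40000 * D.L ^ 5 * d ≤ δ ^ 6) :
    Dns (D.sites ε ω) D.c D.L d ∧ HNet (D.sites ε ω) (D.netS (D.sites ε ω)) ∧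
      Sides2 (D.netS (D.sites ε ω)) (innS (D.sites ε ω) (D.netS (D.sites ε ω)))
        (arcS (D.netS (D.sites ε ω))) := by
  have hS := dns_of_env hD.Lpos (small_d hD.Lpos hD.dpos hD.lt.le hd) hω
  exact ⟨hS, data_S hD hS hd⟩

/-- **T2 for a domain** -/
theorem energy_dom (hE : E3) {D : Dom} {δ ε d M : ℝ} {ω : Sample} (hD : D.Ad δ)
    (hω : Env ε d M D.c D.L ω) (hd : 40000 * D.L ^ 5 * d ≤ δ ^ 6)
    {U : Finset (ℂ × ℂ × ℂ)} (hU : U ⊆ delT (D.sites ε ω)) :
    ∑ t ∈ U, ‖(D.netS (D.sites ε ω)).Q t‖ ^ 2 ≤ 12 := by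
  obtain ⟨-, hN, hB⟩ := dom_data hD hω hd
  exact energy2 hN hE hB hU



/-- the text of `EQ5x63.En12` for admissible domains -/
theorem en12 (hE : E3) : ∀ (D : Dom) (δ : ℝ), D.Ad δ → ∀ ρ > (0 : ℝ), ∀ m > (0 : ℝ), ∃ c1 > 0,
    ∀ (ε d M : ℝ) (ω : Sample), Env ε d M D.c D.L ω → 0 < d → d ≤ c1 → ∀ z : ℂ,
      Spinex422.Room D ρ z → Spinex422.Linked D m z → ∀ U ⊆ delT (D.sites ε ω),
        ∑ t ∈ U, ‖(D.netS (D.sites ε ω)).Q t‖ ^ 2 ≤ 12 := by
  intro D δ hD ρ _ m _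
  have hL := hD.Lpos
  have hδ := hD.dpos
  refine ⟨δ ^ 6 / (40000 * D.L ^ 5), by positivity, ?_⟩
  intro ε d M ω hω _ hd z _ _ U hU
  refine energy_dom hE hD hω ?_ hU
  rw [le_div_iff₀ (by positivity)] at hd
  linarith

end Crest.Agent.R143.En12Ax395
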