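import Crest.Agent.R143.M3e_63
import Crest.Agent.R143.Wlk_802
import Crest.Agent.R143.En12A_395
import Crest.Agent.R143.PoisM3c_501
import Crest.Agent.R143.D3B_802
import Crest.Agent.R143.Spine2_422

-- ▼ part R143/T5_63
section

/-!
# Row 143 (S0194): T5 in the form of `EQ4_63` from `Wlk_802` (helper63)
-/

set_option autoImplicit false

noncomputable section

namespace Crest.Agent.R143.T5x63

open Crest.Agent.R143.B0x346 Crest.Agent.R143.EQ2x63 Crest.Agent.R143.EQ4x63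
open Crest.Agent.R143.DelGx806

/-- **T5** from E3 -/
theorem t5 (hE3 : E3) : T5 := by
  intro S N hN W hW hR v hv u hvu
  have hfull : ∀ v ∈ W, Wlkx802.Full N v := by
    intro v hv
    obtain ⟨n, u, h1, h2, h3⟩ := hW v hv
    refine ⟨n, u, h1, h2, fun x y hxy => ?_⟩
    obtain ⟨i, hi1, hi2⟩ := h3 x y hxy
    exact ⟨i, hi1.symm, hi2.symm⟩
  -- a triangle with the directed side `(v, u)`
  have hc : ∃ c, (v, u, c) ∈ delT S := by
    rcases hvu with h | ⟨c, hc⟩
    · exact h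
    · have h1 : (v, c, u) ∈ delT S := (g1 S hN.gp).1 _ _ _ hc
      obtain ⟨n, w, g1', g2, g3⟩ := hW v hv
      obtain ⟨i, hi1, hi2⟩ := g3 c u (by rw [hN.tri]; exact h1)
      have h2 := g1'.mem (i + 1)
      rw [hi2, hN.tri] at h2
      exact ⟨_, h2⟩
  obtain ⟨c, hc⟩ := hc
  have h := Wlkx802.t5 hN.gp hN.tri hfull
    (fun v hv d u hr hl => hE3 S N hN v d u hr hl) hR hv hc
  refine convexHull_mono ?_ h
  rintro z ⟨w, hw, x, y, hxy, hx, rfl⟩
  exact ⟨w, hw, x, hx, Or.inl ⟨y, hxy⟩, rfl⟩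

/-- `LEqui` from E3, the energy bound and M3c -/
theorem lequi'' (hE3 : E3) (hEn : EQ5x63.En12) (hM3c : PP1x831.M3c)
    {Adm : B0Dx346.Dom → ℝ → Prop} (hAdm : ∀ D δ, Adm D δ → D.Ad δ) : Spinex422.LEqui Adm :=
  M3ex63.lequi' (t5 hE3) hEn hM3c hAdm

end Crest.Agent.R143.T5x63
end
end

-- ▼ part R143/LEq_63
section

/-!
# Row 143 (S0194): leaf `LEqui` of the spine from E3 only (helper63)
-/

set_option autoImplicit false

namespace Crest.Agent.R143.LEqx63

open Crest.Agent.R143.B0x346 Crest.Agent.R143.B0Dx346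

/-- **leaf LEqui** for every class of admissible domains contained in `Dom.Ad` -/
theorem lequi (hE3 : E3) {Adm : Dom → ℝ → Prop} (hAdm : ∀ D δ, Adm D δ → D.Ad δ) :
    Spinex422.LEqui Adm :=
  T5x63.lequi'' hE3 (En12Ax395.en12 hE3) PoisM3cx501.m3c hAdm

/-- **leaf LEqui** for `Dom.Ad` -/
theorem lequiAd (hE3 : E3) : Spinex422.LEqui (fun D δ => D.Ad δ) :=
  lequi hE3 fun _ _ h => h

end Crest.Agent.R143.LEqx63
end

-- ▼ part R143/D3C_802

/-!
# Row 143 (S0194), block D3: leaf LALB of the spine (helper802)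

* `path_out` : a region which comes close to `p` contains, with a margin, a point on every circle
* `tri_hyp` : the triangle containing a linked point near `p`
* `quenched` : heights of the quenched observable
* `lalb` : **E3 → LALB Dom.Ad**
-/

set_option autoImplicit false

noncomputable section

open scoped Classical ENNReal

namespace Crest.Agent.R143.D3Cx802

open Set MeasureTheory Filter Topology
open Crest.ProbabilityR.Voronoi
open Crest.Agent.R143.B0x346 Crest.Agent.R143.B0Dx346 Crest.Agent.R143.Oscx63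
open Crest.Agent.R143.DelGx806 Crest.Agent.R143.Circx63 Crest.Agent.R143.Scalx63
open Crest.Agent.R143.EQ2x63 Crest.Agent.R143.Locx922 Crest.Agent.R143.Cfgx416
open Crest.Agent.R143.Ex0x922 Crest.Agent.R143.Wlkx802 Crest.Agent.R143.D3Ax802
open Crest.Agent.R143.Sidesx697 Crest.Agent.R143.G6Wx723 Crest.Agent.R143.PP1x831
open Crest.Agent.R143.D3Bx802 Crest.Agent.R143.EQ5x63 Crest.Agent.R143.Spinex422

variable {n : ℕ} {C : Cfg n} {S : Finset ℂ} {δ d : ℝ} {i : ZMod 3} {p : ℂ} {R0 s K : ℝ}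
  {G T : Set ℂ}

/-- a region which comes close to `p` meets every circle, with a margin -/
theorem path_out (hC : C.OK δ) {j : ZMod n}
    (hball : Metric.closedBall p R0 ⊆ Metric.closedBall C.c (C.L / 2))
    (hj : (C.R j ∩ Metric.ball p s).Nonempty) :
    ∃ e > 0, ∀ ρ : ℝ, s ≤ ρ → ρ ≤ R0 → ∃ y, ‖y - p‖ = ρ ∧ Metric.ball y e ⊆ C.out := by
  have hL := hC.Lpos
  obtain ⟨x, hx, hxs⟩ := hj
  -- a far point
  obtain ⟨e, he, hsec⟩ := hC.sect j C.L (by linarith)
  set ψ := Real.arcsin (δ / C.L) + e / 2 with hψ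
  set x1 := C.c + C.L * C.q j * Complex.exp (ψ * Complex.I) with hx1
  have hx1R : x1 ∈ C.R j := (hsec ψ (by linarith) (by linarith)).1
  have hx1n : ‖x1 - C.c‖ = C.L := by
    rw [hx1, add_sub_cancel_left, norm_mul, norm_mul, hC.qn, Complex.norm_exp_ofReal_mul_I,
      Complex.norm_real, Real.norm_of_nonneg hL.le]
    ring
  have hx1p : R0 < ‖x1 - p‖ := by
    by_contra hcon
    push Not at hcon
    have := hball (mem_closedBall_iff_norm.2 hcon)
    rw [mem_closedBall_iff_norm, hx1n] at this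
    linarith
  -- the path
  have hpc : IsPathConnected (C.R j) := (hC.opn j).isConnected_iff_isPathConnected.1 (hC.con j)
  obtain ⟨γ, hγ⟩ := hpc.joinedIn x hx x1 hx1R
  have hcomp : IsCompact (range γ) := isCompact_range γ.continuous
  obtain ⟨e0, he0, hthick⟩ := hcomp.exists_thickening_subset_open (hC.opn j) (by
    rintro _ ⟨t, rfl⟩; exact hγ t)
  refine ⟨e0, he0, fun ρ h1 h2 => ?_⟩
  have hcont : Continuous fun t => ‖γ t - p‖ := by fun_prop
  have hmem : ρ ∈ range fun t => ‖γ t - p‖ := by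
    apply mem_range_of_exists_le_of_exists_ge hcont
    · refine ⟨0, ?_⟩
      show ‖γ 0 - p‖ ≤ ρ
      rw [γ.source]
      rw [mem_ball_iff_norm] at hxs
      linarith
    · refine ⟨1, ?_⟩
      show ρ ≤ ‖γ 1 - p‖
      rw [γ.target]
      linarith
  obtain ⟨t, ht⟩ := hmem
  refine ⟨γ t, ht, fun w hw => mem_iUnion.2 ⟨j, hthick ?_⟩⟩
  rw [Metric.mem_thickening_iff]
  exact ⟨γ t, mem_range_self t, hw⟩

theorem path_dom (hn : 3 ≤ n) (hC : C.OK δ)
    (hball : Metric.closedBall p R0 ⊆ Metric.closedBall C.c (C.L / 2))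
    (hj : (C.dom.R i ∩ Metric.ball p s).Nonempty) :
    ∃ e > 0, ∀ ρ : ℝ, s ≤ ρ → ρ ≤ R0 → ∃ y, ‖y - p‖ = ρ ∧ Metric.ball y e ⊆ C.out := by
  obtain ⟨x, hx, hxs⟩ := hj
  obtain ⟨j, hj, -⟩ := ClsCx697.dom_R hx hn
  exact path_out hC hball ⟨x, hj, hxs⟩

/-- the centre of a triangle is close to its points -/
theorem centre_near (H : Geo C S δ d i p R0 s K G T) {a b c z o : ℂ} (hz : dist z p ≤ R0)
    (hzT : InT z a b c) (hT : Tri S a b c o) :
    ‖z - o‖ < d ∧ ‖a - z‖ < 2 * d := by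
  have hd := H.dpos
  have hzW : z ∈ WD C d := by
    apply Metric.mem_closedBall.2
    have := near_W H hz
    linarith [H.dL]
  have h6 := inT_disc hT.pos (norm_eq_iff.2 hT.pb) (norm_eq_iff.2 hT.pc) hzT
  have h7 := disc_small hd H.hol hzW (fun s hs => norm_le_iff.2 (hT.emp s hs)) h6
  obtain ⟨o2, -, -, -, -, -, ga, -, -⟩ := del_small hd H.hol hzW (InT.inD hT.pos hzT)
    (mem_delT.1 (mem_delT_iff.2 ⟨o, hT⟩))
  exact ⟨h6.trans_lt h7, ga⟩

/-- **sites around a point with room are inner** -/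
theorem inn_of_room (H : Geo C S δ d i p R0 s K G T) {z a : ℂ} {m : ℝ} (hm : 3 * d ≤ m)
    (hz : z ∈ Metric.closedBall C.c (3 / 4 * C.L)) (hzm : Disjoint (Metric.ball z m) C.out)
    (ha : a ∈ S) (haz : ‖a - z‖ < 2 * d) : a ∈ C.inn S := by
  have hd := H.dpos
  have haW : a ∈ WD C d := by
    apply Metric.mem_closedBall.2
    have h1 := dist_triangle a z C.c
    rw [dist_eq_norm a z] at h1
    have h2 := Metric.mem_closedBall.1 hz
    linarith [H.dL]
  rw [DomEx722.mem_inn]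
  refine ⟨ha, fun j hj => ?_⟩
  rcases hj with ⟨-, y, hy, hyR⟩ | hj
  · have h1 := cell_sub_ball hd H.hol haW hy
    have h2 := norm_tri y a z
    exact Set.disjoint_left.1 hzm (mem_ball_iff_norm.2 (by linarith)) (mem_iUnion.2 ⟨j, hyR⟩)
  · exact not_harc H haW j hj

/-- **a triangle around a linked point of `G`** : it is in `TT` and its vertices are in `WW` -/
theorem tri_hyp {ε M : ℝ} {ω : Sample} (H : Geo C (C.dom.sites ε ω) δ d i p R0 s K G T)
    (h : Env ε d M C.dom.c C.dom.L ω) (hd6 : 40000 * C.dom.L ^ 5 * d ≤ δ ^ 6) {m : ℝ}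
    (hm : 3 * d ≤ m) {z : ℂ} (hzp : dist z p + d < R0) (hzG : z ∈ G) (hL : Linked C.dom m z)
    {a b c : ℂ} (ht : (a, b, c) ∈ delT (C.dom.sites ε ω)) (hz : InT z a b c) :
    (a, b, c) ∈ TT C (C.dom.sites ε ω) G ∧ a ∈ C.inn (C.dom.sites ε ω) ∧ ‖a - z‖ < 2 * d := by
  have hd := H.dpos
  obtain ⟨Z, hZ, hzZ, hZb, hZq, hZm⟩ := hL
  obtain ⟨o, hT⟩ := mem_delT_iff.1 ht
  obtain ⟨h1, h2⟩ := centre_near H (by linarith) hz hT
  have hzm : Disjoint (Metric.ball z m) C.out := by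
    have := hZm z hzZ
    rwa [C.dom_out] at this
  have hW : C.dom.W δ := Adx422.w_dom H.hn H.ok
  refine ⟨⟨ht, (Ex2x922.exm_envW hW h hd6 hm hZ hZb hZq hZm ht ⟨z, hz, hzZ⟩).1, o, ?_, hT⟩,
    inn_of_room H hm (hZb hzZ) hzm hT.ma h2, h2⟩
  have hop : dist o p < R0 := by
    have := dist_triangle o z p
    rw [dist_eq_norm o z, norm_sub_rev] at this
    linarith
  rcases H.g1 z hzG o (by rw [dist_eq_norm]; linarith [H.dK]) hop with h3 | h3
  · exact h3
  · exfalso
    exact Set.disjoint_left.1 hzm (mem_ball_iff_norm.2 (by rw [norm_sub_rev]; linarith))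
      (out_dom h3)

theorem hgt_mean (i : ZMod 3) (x y w : ℂ) :
    hgt i ((x + y + w) / 3) = (hgt i x + hgt i y + hgt i w) / 3 := by
  unfold hgt
  have e : ((x + y + w) / 3 - omz i) / sd i =
      ((1 / 3 : ℝ) : ℂ) * ((x - omz i) / sd i + (y - omz i) / sd i + (w - omz i) / sd i) := by
    push_cast
    ring
  rw [e, Complex.im_ofReal_mul, Complex.add_im, Complex.add_im]
  ring

theorem inT_of_inTri {z a b c : ℂ} (h : InTri z a b c) : InT z a b c :=
  ⟨h.1.le, h.2.1.le, h.2.2.le⟩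

theorem hval_spec {N : Net ℂ} {z : ℂ} (h : ∃ t : ℂ × ℂ × ℂ, t ∈ N.T ∧ InTri z t.1 t.2.1 t.2.2) :
    ∃ a b c, (a, b, c) ∈ N.T ∧ InTri z a b c ∧ hval N z = (N.F a b + N.F b c + N.F c a) / 3 := by
  unfold hval
  rw [dif_pos h]
  exact ⟨h.choose.1, h.choose.2.1, h.choose.2.2, h.choose_spec.1, h.choose_spec.2, rfl⟩

/-- **the quenched estimate** -/
theorem quenched (hE : E3) (hn : 3 ≤ n) (hC : C.OK δ) (hs : 0 < s)
    (hball : Metric.closedBall p R0 ⊆ Metric.closedBall C.c (C.L / 2))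
    (hR : (C.dom.R i ∩ Metric.ball p s).Nonempty) (hK : 0 < K)
    {z : ℂ} (hz : dist z p < s) (hG : LocC C.dom {i} p R0 z K G) {m : ℝ} (hm : 0 < m)
    (hL : Linked C.dom m z) {k0 : ℤ} {N : ℕ} (hN : 0 < N) (hk1 : (2 : ℝ) ^ (k0 + 1) ≤ 1)
    (hk0 : (2 : ℝ) ^ k0 < R0) (hsk : s < (2 : ℝ) ^ (k0 - N)) :
    ∃ c2 > 0, ∀ (ε d M : ℝ) (ω : Sample), Env ε d M C.dom.c C.dom.L ω → 0 < d → d ≤ c2 →
      (∀ z ∈ Metric.closedBall (0 : ℂ) (‖C.dom.c‖ + C.dom.L + 1), ∀ ρ : ℝ,
        (2 : ℝ) ^ (k0 - N) ≤ ρ → ρ ≤ 1 →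
        diamSum (points ε ω) (Metric.ball z ρ) ≤ ENNReal.ofReal (CM * ρ ^ 2)) →
      (∀ a ∈ points ε ω, ∀ b ∈ points ε ω, a ≠ b → cr (b - a) (z - a) ≠ 0) →
      0 ≤ hgt i (C.dom.h ε ω z) ∧ hgt i (C.dom.h ε ω z) ≤ om2 (64 * CM) N := by
  have hLp := hC.Lpos
  have hδ := hC.dpos
  have hle : (2 : ℝ) ^ (k0 - N) ≤ (2 : ℝ) ^ k0 := zpow_le_zpow_right₀ (by norm_num) (by omega)
  obtain ⟨e, he, hkill⟩ := path_dom hn hC hball hR
  set c2 := min (min e (K / 3)) (min (min (C.L / 16) (m / 3))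
    (min (min ((R0 - (2 : ℝ) ^ k0) / 4) (((2 : ℝ) ^ (k0 - N) - s) / 5))
      (δ ^ 6 / (40000 * C.L ^ 5)))) with hc2
  have p1 : 0 < (R0 - (2 : ℝ) ^ k0) / 4 := by linarith
  have p2 : 0 < ((2 : ℝ) ^ (k0 - N) - s) / 5 := by linarith
  have p3 : 0 < δ ^ 6 / (40000 * C.L ^ 5) := by positivity
  refine ⟨c2, by
    rw [hc2]
    exact lt_min (lt_min he (by positivity)) (lt_min (lt_min (by positivity) (by positivity))
      (lt_min (lt_min p1 p2) p3)), ?_⟩
  intro ε d M ω h hd hdc hM hzl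
  have d1 : d ≤ e := hdc.trans ((min_le_left _ _).trans (min_le_left _ _))
  have d2 : d ≤ K / 3 := hdc.trans ((min_le_left _ _).trans (min_le_right _ _))
  have d3 : d ≤ C.L / 16 :=
    hdc.trans ((min_le_right _ _).trans ((min_le_left _ _).trans (min_le_left _ _)))
  have d4 : d ≤ m / 3 :=
    hdc.trans ((min_le_right _ _).trans ((min_le_left _ _).trans (min_le_right _ _)))
  have d5 : d ≤ (R0 - (2 : ℝ) ^ k0) / 4 := hdc.trans ((min_le_right _ _).trans
    ((min_le_right _ _).trans ((min_le_left _ _).trans (min_le_left _ _))))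
  have d6 : d ≤ ((2 : ℝ) ^ (k0 - N) - s) / 5 := hdc.trans ((min_le_right _ _).trans
    ((min_le_right _ _).trans ((min_le_left _ _).trans (min_le_right _ _))))
  have d7 : d ≤ δ ^ 6 / (40000 * C.L ^ 5) := hdc.trans ((min_le_right _ _).trans
    ((min_le_right _ _).trans (min_le_right _ _)))
  have d8 : 40000 * C.L ^ 5 * d ≤ δ ^ 6 := by
    rw [le_div_iff₀ (by positivity)] at d7
    linarith
  have hW : C.dom.W δ := Adx422.w_dom hn hC
  have hS : DomAx722.Dns (C.dom.sites ε ω) C.c C.L d :=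
    DomAx722.dns_of_env (D := C.dom) hLp (by show 8 * d ≤ C.L; linarith) h
  have hO : C.Out (C.dom.sites ε ω) := DomEx722.out_S hn hC hS d8
  obtain ⟨hzG, hG0, hG1⟩ := hG
  have H : Geo C (C.dom.sites ε ω) δ d i p R0 s K G ∅ :=
    { hn := hn
      ok := hC
      out := hO
      hol := Env.hol_sites h
      dpos := hd
      dL := by linarith
      dK := by linarith
      s0 := hs
      ball := hball
      g0 := by rw [← C.dom_out]; exact hG0
      TG := empty_subset _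
      g1 := fun y hy y' h1 h2 => by
        rcases hG1 y hy y' h1 h2 with h3 | ⟨i', hi', h3⟩
        · exact Or.inl h3
        · rw [mem_singleton_iff] at hi'
          rw [hi'] at h3
          exact Or.inr h3
      g2 := fun y hy => absurd hy (notMem_empty y) }
  have hpR : ‖p‖ ≤ ‖C.dom.c‖ + C.dom.L + 1 := by
    have hR0 : 0 ≤ R0 := by
      have : (0 : ℝ) < (2 : ℝ) ^ k0 := by positivity
      linarith
    have h1 : p ∈ Metric.closedBall C.c (C.L / 2) := hball (Metric.mem_closedBall_self hR0)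
    rw [mem_closedBall_iff_norm] at h1
    have h2 := norm_add_le (p - C.c) C.c
    rw [sub_add_cancel] at h2
    show ‖p‖ ≤ ‖C.c‖ + C.L + 1
    linarith
  have hAd : C.dom.Ad δ := ⟨n, C, hn, hC, rfl⟩
  have hHyp := hyp_of hE H h (fun U hU => En12Ax395.energy_dom hE hAd h d8 hU) (k0 := k0) (m := N)
    hN (by linarith) (by linarith) CM_nonneg (by
      intro k hk
      rw [Finset.mem_Ico] at hk
      apply hM p (by rw [mem_closedBall_zero_iff]; exact hpR)
      · exact zpow_le_zpow_right₀ (by norm_num) (by omega)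
      · exact (zpow_le_zpow_right₀ (by norm_num) (by omega)).trans hk1)
    (fun ρ h1 h2 => by
      obtain ⟨y, hy, hyo⟩ := hkill ρ (by linarith) (by linarith)
      exact ⟨y, hy, (Metric.ball_subset_ball d1).trans hyo⟩)
  obtain ⟨ρ, hρ1, hρ2, hdet, -⟩ := det hHyp
  -- the triangle of `z`
  have hsites : ∀ s ∈ C.dom.sites ε ω, s ∈ points ε ω := fun s hs => ((mem_sites h.fin).1 hs).1
  have hzb : z ∈ WD C d := by
    apply Metric.mem_closedBall.2
    have := near_W H (o := z) (by linarith)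
    linarith
  have hex : ∃ t : ℂ × ℂ × ℂ, t ∈ (C.dom.netS (C.dom.sites ε ω)).T ∧ InTri z t.1 t.2.1 t.2.2 := by
    obtain ⟨a, b, c, ht, hy'⟩ := exists_tri_W hO.gp hd H.hol hzb
    obtain ⟨t, ht', hz'⟩ := EQ4x63.inTri_of ht hy'
      (fun a ha b hb => hzl a (hsites a ha) b (hsites b hb))
    exact ⟨t, by rw [hO.hnet.tri]; exact ht', hz'⟩
  obtain ⟨a, b, c, ht, hzt, hval⟩ := hval_spec hex
  rw [hO.hnet.tri] at ht
  have hzT := inT_of_inTri hzt
  have key : ∀ a b c : ℂ, (a, b, c) ∈ delT (C.dom.sites ε ω) → InT z a b c →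
      0 ≤ hgt i ((C.dom.netS (C.dom.sites ε ω)).F a b) ∧
        hgt i ((C.dom.netS (C.dom.sites ε ω)).F a b) ≤ om2 (64 * CM) N := by
    intro a b c ht hzT
    obtain ⟨h1, h2, h3⟩ := tri_hyp H h d8 (by linarith) (by linarith) hzG hL ht hzT
    refine hdet a (mem_WW.2 ⟨(DomEx722.mem_inn.1 h2).1, h2, Or.inl ?_, b, c, h1⟩) b c ht
    have h4 := norm_tri a z p
    rw [dist_eq_norm] at hz
    linarith
  have hrot := (g1 (C.dom.sites ε ω) hO.gp).1
  obtain ⟨a1, a2⟩ := key a b c ht hzT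
  obtain ⟨b1, b2⟩ := key b c a (hrot _ _ _ ht) (InT.rot hzT)
  obtain ⟨c1, c2'⟩ := key c a b (hrot _ _ _ (hrot _ _ _ ht)) (InT.rot (InT.rot hzT))
  unfold Dom.h
  rw [hval, hgt_mean]
  constructor <;> linarith

/-- small oscillation with many scales -/
theorem exists_om2 {η : ℝ} (hη : 0 < η) : ∃ n : ℕ, 0 < n ∧ om2 (64 * CM) n ≤ η := by
  obtain ⟨n, hn⟩ := exists_nat_gt
    (3 * (64 * CM * (Real.sqrt (64 * CM) + 2) * 12) * (1 / η) ^ 2)
  have hn0 : (0 : ℝ) < n := lt_of_le_of_lt (by have := CM_nonneg; positivity) hn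
  refine ⟨n, by exact_mod_cast hn0, ?_⟩
  unfold om2
  rw [← Real.sqrt_mul (by norm_num)]
  rw [Real.sqrt_le_left (by positivity)]
  rw [mul_div_assoc', div_le_iff₀ hn0]
  have h1 : (1 / η) ^ 2 * η ^ 2 = 1 := by
    rw [← mul_pow, one_div, inv_mul_cancel₀ hη.ne', one_pow]
  have h2 : 0 < η ^ 2 := by positivity
  have h3 := mul_lt_mul_of_pos_right hn h2
  rw [mul_assoc, h1, mul_one] at h3
  linarith

theorem abs_hgt_le (i : ZMod 3) (w : ℂ) : |hgt i w| ≤ ‖w‖ + 1 := by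
  unfold hgt
  refine (Complex.abs_im_le_norm _).trans ?_
  rw [norm_div]
  refine (div_le_self (norm_nonneg _) (one_le_sd i)).trans ?_
  have h1 := norm_sub_le w (omz i)
  have h2 := D3Ax802.norm_omz i
  linarith

/-- **leaf LALB of the spine** -/
theorem lalb (hE : E3) : LALB Dom.Ad := by
  intro i η hη
  obtain ⟨N, hN, hom⟩ := exists_om2 (η := η / 4) (by linarith)
  refine ⟨(2 : ℝ) ^ (N + 2), one_lt_pow₀ (by norm_num) (by omega), ?_⟩
  intro D δ hAd G hG p R0 s hs hR1 hΛ hR z hz hLoc m hm hL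
  obtain ⟨n, C, hn, hC, rfl⟩ := hAd
  obtain ⟨hball, K, hK, Cc, hLocC⟩ := hLoc
  have hΛ0 : (0 : ℝ) < (2 : ℝ) ^ (N + 2) := by positivity
  have hR0 : 0 < R0 := lt_of_lt_of_le (mul_pos hΛ0 hs) hΛ
  obtain ⟨k0, hk0⟩ := exists_mem_Ico_zpow (x := R0 / 2) (y := (2 : ℝ)) (by linarith) (by norm_num)
  rw [mem_Ico] at hk0
  have hk1 : (2 : ℝ) ^ (k0 + 1) ≤ 1 := by
    rw [zpow_add₀ (by norm_num), zpow_one]
    linarith [hk0.1]
  have hk2 : (2 : ℝ) ^ k0 < R0 := by linarith [hk0.1]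
  have hsk : s < (2 : ℝ) ^ (k0 - N) := by
    have h1 : (2 : ℝ) ^ (k0 + 1) = (2 : ℝ) ^ (k0 - N) * (2 : ℝ) ^ (N + 1) := by
      rw [← zpow_natCast, ← zpow_add₀ (by norm_num)]
      congr 1
      push_cast
      ring
    have h2 : (2 : ℝ) ^ (N + 2) = 2 * (2 : ℝ) ^ (N + 1) := by ring
    have h3 : (0 : ℝ) < (2 : ℝ) ^ (N + 1) := by positivity
    have h4 : (2 : ℝ) ^ (N + 1) * s < (2 : ℝ) ^ (N + 1) * (2 : ℝ) ^ (k0 - N) := by
      rw [h2] at hΛ
      have h5 := hk0.2
      rw [h1] at h5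
      linarith
    exact lt_of_mul_lt_mul_left h4 h3.le
  obtain ⟨c2, hc2, hq⟩ := quenched hE hn hC hs hball hR hK hz hLocC hm hL hN hk1 hk2 hsk
  set R := ‖C.dom.c‖ + C.dom.L + 1 with hRdef
  obtain ⟨C0, hC0, hhole⟩ := PoisM3cx501.m3c R 1
  have hrad := rad_lim C0
  have hbpos : 0 < (2 : ℝ) ^ (k0 - N) := by positivity
  have e1 : ∀ᶠ ε : ℝ in 𝓝[>] 0, 0 < ε := eventually_mem_nhdsWithin
  have e2 : ∀ᶠ ε : ℝ in 𝓝[>] 0, ε < min (1 / 2) (η / 24) :=
    nhdsWithin_le_nhds (eventually_lt_nhds (by positivity))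
  have e3 : ∀ᶠ ε : ℝ in 𝓝[>] 0, rad C0 ε < c2 := hrad.eventually_lt_const hc2
  have e4 : ∀ᶠ ε : ℝ in 𝓝[>] 0, ε * Real.log (1 / ε) ^ (8 : ℕ) < (2 : ℝ) ^ (k0 - N) :=
    scale_lim.eventually_lt_const hbpos
  filter_upwards [e1, e2, e3, e4, hhole, m4u R 1, hG.hm1, hG.prob] with ε h1 h2 h3 h4 h5 h6 h7 h8
  have hε1 : ε < 1 / 2 := h2.trans_le (min_le_left _ _)
  have hε2 : ε < η / 24 := h2.trans_le (min_le_right _ _)
  have hdpos : 0 < rad C0 ε := by
    unfold rad
    have : 0 < Real.log (1 / ε) := Real.log_pos (by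
      rw [lt_div_iff₀ h1]; linarith)
    positivity
  -- the bad event
  set B1 : Set Sample := {ω | ∃ z ∈ Metric.closedBall (0 : ℂ) R,
    points ε ω ∩ Metric.ball z (rad C0 ε) = ∅} with hB1
  set B2 : Set Sample := {ω | ¬ ∀ z ∈ Metric.closedBall (0 : ℂ) R, ∀ ρ : ℝ,
      ε * Real.log (1 / ε) ^ (8 : ℕ) ≤ ρ → ρ ≤ 1 →
      diamSum (points ε ω) (Metric.ball z ρ) ≤ ENNReal.ofReal (CM * ρ ^ 2)} with hB2
  set B := toMeasurable sampleLaw (B1 ∪ B2) with hB
  have hBm : MeasurableSet B := measurableSet_toMeasurable _ _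
  have hBs : B1 ∪ B2 ⊆ B := subset_toMeasurable _ _
  have hBp : sampleLaw B ≤ ENNReal.ofReal (2 * ε) := by
    rw [hB, measure_toMeasurable]
    refine (measure_union_le _ _).trans ?_
    rw [Real.rpow_one] at h5 h6
    refine (add_le_add h5 h6).trans (le_of_eq ?_)
    rw [← ENNReal.ofReal_add h1.le h1.le]
    congr 1
    ring
  -- pointwise
  have hpt : ∀ᵐ ω ∂(sampleLaw.restrict (G ε)),
      ‖hgt i (C.dom.h ε ω z)‖ ≤ η / 4 + B.indicator (fun _ => (4 : ℝ)) ω := by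
    apply ae_restrict_of_ae
    filter_upwards [PoisM3x930.m3a ε h1, M3ex63.m3e ε h1 z] with ω g1 g2
    rw [Real.norm_eq_abs]
    by_cases hω : ω ∈ B
    · rw [Set.indicator_of_mem hω]
      have a1 := norm_h_le C.dom ε ω z
      have a2 := abs_hgt_le i (C.dom.h ε ω z)
      linarith
    · rw [Set.indicator_of_notMem hω, add_zero]
      have b1 : ω ∉ B1 := fun h => hω (hBs (Or.inl h))
      have b2 : ω ∉ B2 := fun h => hω (hBs (Or.inr h))
      have hholes : ∀ z ∈ Metric.closedBall (0 : ℂ) R,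
          (points ε ω ∩ Metric.ball z (rad C0 ε)).Nonempty := by
        intro z hz
        by_contra hcon
        rw [Set.not_nonempty_iff_eq_empty] at hcon
        exact b1 ⟨z, hz, hcon⟩
      obtain ⟨M, hEnv⟩ := env_of (D := C.dom) (R := R) (by linarith) hdpos g1.1 g1.2.2 hholes
      rw [hB2, Set.mem_ofPred_eq, not_not] at b2
      obtain ⟨q1, q2⟩ := hq ε (rad C0 ε) M ω hEnv hdpos h3.le (by
        intro y hy r hr hr1
        exact b2 y hy r (h4.le.trans hr) hr1) g2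
      rw [abs_of_nonneg q1]
      exact q2.trans hom
  -- integrals
  have hfin : IsFiniteMeasure (sampleLaw.restrict (G ε)) := by infer_instance
  have i1 : Integrable (fun ω => C.dom.h ε ω z) (sampleLaw.restrict (G ε)) :=
    Integrable.of_bound (h7 z) 3 (ae_of_all _ fun ω => norm_h_le C.dom ε ω z)
  have i2 : Integrable (fun ω => (C.dom.h ε ω z - omz i) / sd i) (sampleLaw.restrict (G ε)) :=
    (i1.sub (integrable_const _)).div_const _
  have i3 : Integrable (fun ω => η / 4 + B.indicator (fun _ => (4 : ℝ)) ω)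
      (sampleLaw.restrict (G ε)) :=
    (integrable_const _).add ((integrable_const _).indicator hBm)
  set P := (sampleLaw.restrict (G ε)).real univ with hP
  have p1 : P ≤ 1 := by
    rw [hP, measureReal_def, Measure.restrict_apply_univ]
    exact ENNReal.toReal_le_of_le_ofReal zero_le_one (by simpa using prob_le_one)
  have p0 : 0 ≤ P := measureReal_nonneg
  have p3 : 1 - P ≤ ε := by
    have e : P = sampleLaw.real (G ε) := by
      rw [hP, measureReal_def, Measure.restrict_apply_univ, measureReal_def]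
    have e' : sampleLaw.real (G ε)ᶜ = 1 - sampleLaw.real (G ε) := by
      rw [measureReal_compl (hG.meas ε)]
      simp
    rw [e, ← e', measureReal_def]
    apply ENNReal.toReal_le_of_le_ofReal h1.le
    refine h8.trans (ENNReal.ofReal_le_ofReal ?_)
    calc ε ^ (10 : ℝ) ≤ ε ^ (1 : ℝ) :=
          Real.rpow_le_rpow_of_exponent_ge h1 (by linarith) (by norm_num)
      _ = ε := Real.rpow_one ε
  have p2 : ((sampleLaw.restrict (G ε)).restrict B).real univ ≤ 2 * ε := by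
    rw [measureReal_def, Measure.restrict_apply_univ]
    apply ENNReal.toReal_le_of_le_ofReal (by linarith)
    exact (Measure.restrict_apply_le _ _).trans hBp
  have hint : ∫ ω in G ε, (C.dom.h ε ω z - omz i) / sd i ∂sampleLaw =
      (HG C.dom G ε z - (P : ℂ) * omz i) / sd i := by
    rw [integral_div, integral_sub i1 (integrable_const _), integral_const]
    rfl
  have e5 : (HG C.dom G ε z - omz i) / (omz (i + 1) - omz i) =
      ∫ ω in G ε, (C.dom.h ε ω z - omz i) / sd i ∂sampleLaw - ((1 - P : ℝ) : ℂ) * (omz i / sd i) := by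
    rw [hint]
    show _ / sd i = _
    push_cast
    ring
  rw [e5, Complex.sub_im, Complex.im_ofReal_mul]
  have him : (∫ ω in G ε, (C.dom.h ε ω z - omz i) / sd i ∂sampleLaw).im =
      ∫ ω in G ε, hgt i (C.dom.h ε ω z) ∂sampleLaw :=
    (Complex.imCLM.integral_comp_comm i2).symm
  rw [him]
  have b1 : |∫ ω in G ε, hgt i (C.dom.h ε ω z) ∂sampleLaw| ≤ η / 4 + 8 * ε := by
    rw [← Real.norm_eq_abs]
    refine (norm_integral_le_of_norm_le i3 hpt).trans ?_
    rw [integral_add (integrable_const _) ((integrable_const _).indicator hBm), integral_const,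
      integral_indicator hBm, integral_const, smul_eq_mul, smul_eq_mul, ← hP]
    nlinarith
  have b2 : |(1 - P) * (omz i / sd i).im| ≤ ε := by
    rw [abs_mul, abs_of_nonneg (by linarith : (0 : ℝ) ≤ 1 - P)]
    have h9 : |(omz i / sd i).im| ≤ 1 := by
      refine (Complex.abs_im_le_norm _).trans ?_
      rw [norm_div, D3Ax802.norm_omz]
      exact div_le_one_of_le₀ (one_le_sd i) (norm_nonneg _)
    calc (1 - P) * |(omz i / sd i).im| ≤ (1 - P) * 1 :=
          mul_le_mul_of_nonneg_left h9 (by linarith)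
      _ ≤ ε := by linarith
  have b3 := abs_sub (∫ ω in G ε, hgt i (C.dom.h ε ω z) ∂sampleLaw) ((1 - P) * (omz i / sd i).im)
  linarith

end Crest.Agent.R143.D3Cx802
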