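import Crest.Agent.R143.Law_872
import Crest.Agent.R143.CB_838
import Crest.Agent.R143.Sides_697

-- ▼ part R143/D3E_802
section

/-!
# Row 143 (S0194), block D3 without (E3), part 1: free chains and colours (helper802)

* `Gd` : a closed form with the only odd triangle `t` has a primitive on the set of sites `V`
* `gd_hull`, `gd_move`, `gd_conn` : `t` can be moved to the hull without crossing edges inside `V`
* `FArm` : a chain of sites of `V` without occupied edges which crosses an annulus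
* `law` : its probability is at most twice the probability of a crossing by one colour
-/

set_option autoImplicit false

noncomputable section

open scoped Classical

namespace Crest.Agent.R143.D3Ex802

open Crest.Agent.R143.B0x346 Crest.Agent.R143.DelGx806 Crest.Agent.R143.DelRx806
open Crest.Agent.R143.Circx63 Crest.Agent.R143.JColx54 Crest.Agent.R143.Harx315

local notation "flp" => Crest.Agent.R143.X0Bx683.flip
local notation "bdy" => Crest.Agent.R143.X0Bx683.bd

variable {S : Finset ℂ} {N : Net ℂ} {V : Finset ℂ} {J : Finset (ℂ × ℂ)} {t t' : ℂ × ℂ × ℂ}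

/-! ### moving the odd triangle -/

/-- symmetric, odd exactly at `t` -/
structure Odd1 (S : Finset ℂ) (t : ℂ × ℂ × ℂ) (f : ℂ → ℂ → ZMod 2) : Prop where
  symm : ∀ a b, Adj S a b → f a b = f b a
  par : ∀ a b c, (a, b, c) ∈ delT S →
    f a b + f b c + f c a = if (a, b, c) ∈ rots t then 1 else 0

/-- a form with the odd triangle `t` has a primitive on `V` -/
def Gd (S V : Finset ℂ) (t : ℂ × ℂ × ℂ) : Prop := ∀ f, Odd1 S t f →
  ∃ σ : ℂ → ZMod 2, ∀ a ∈ V, ∀ b ∈ V, Adj S a b → f a b = σ b - σ a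

theorem gd_rots (h : t' ∈ rots t) (hg : Gd S V t) : Gd S V t' := by
  intro f hf
  refine hg f ⟨hf.symm, fun a b c habc => ?_⟩
  rw [hf.par a b c habc, rots_eq h]

/-- indicator of the edge `{a, b}` -/
def ie (a b x y : ℂ) : ZMod 2 := if (x, y) = (a, b) ∨ (x, y) = (b, a) then 1 else 0

theorem ie_symm (a b x y : ℂ) : ie a b x y = ie a b y x := by
  unfold ie
  have : ((x, y) = (a, b) ∨ (x, y) = (b, a)) ↔ ((y, x) = (a, b) ∨ (y, x) = (b, a)) := by
    simp only [Prod.mk.injEq]
    tauto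
  simp only [this]

theorem ie_ne {a b x y : ℂ} (hV : ¬ (a ∈ V ∧ b ∈ V)) (hx : x ∈ V) (hy : y ∈ V) :
    ie a b x y = 0 := by
  unfold ie
  rw [if_neg]
  rintro (h | h)
  · rw [Prod.mk.injEq] at h
    exact hV ⟨h.1 ▸ hx, h.2 ▸ hy⟩
  · rw [Prod.mk.injEq] at h
    exact hV ⟨h.2 ▸ hy, h.1 ▸ hx⟩

/-- `(u, v)` is a side of `(x, y, z)` -/
def Sd (u v x y z : ℂ) : Prop := (x, y) = (u, v) ∨ (y, z) = (u, v) ∨ (z, x) = (u, v)

theorem sd_count {u v x y z : ℂ} (h1 : x ≠ y) (h2 : y ≠ z) (h3 : x ≠ z) :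
    (if (x, y) = (u, v) then (1 : ZMod 2) else 0) + (if (y, z) = (u, v) then 1 else 0) +
      (if (z, x) = (u, v) then 1 else 0) = if Sd u v x y z then 1 else 0 := by
  unfold Sd
  by_cases g1 : (x, y) = (u, v)
  · have g2 : ¬ (y, z) = (u, v) := by
      rw [← g1, Prod.mk.injEq]; exact fun h => h1 h.1.symm
    have g3 : ¬ (z, x) = (u, v) := by
      rw [← g1, Prod.mk.injEq]; exact fun h => h3 h.1.symm
    simp [g1, g2, g3]
  · by_cases g2 : (y, z) = (u, v)
    · have g3 : ¬ (z, x) = (u, v) := by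
        rw [← g2, Prod.mk.injEq]; exact fun h => h2 h.1.symm
      simp [g1, g2, g3]
    · by_cases g3 : (z, x) = (u, v) <;> simp [g1, g2, g3]

/-- the indicator of an edge around a triangle -/
theorem ie_par {a b x y z : ℂ} (hab : a ≠ b) (h1 : x ≠ y) (h2 : y ≠ z) (h3 : x ≠ z) :
    ie a b x y + ie a b y z + ie a b z x =
      (if Sd a b x y z then 1 else 0) + (if Sd b a x y z then 1 else 0) := by
  rw [← sd_count h1 h2 h3, ← sd_count h1 h2 h3]
  have e : ∀ u v : ℂ, ie a b u v =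
      (if (u, v) = (a, b) then (1 : ZMod 2) else 0) + (if (u, v) = (b, a) then 1 else 0) := by
    intro u v
    unfold ie
    by_cases g1 : (u, v) = (a, b)
    · have g2 : ¬ (u, v) = (b, a) := by
        rw [g1, Prod.mk.injEq]; exact fun h => hab h.1
      simp [g1, hab]
    · simp [g1]
  rw [e, e, e]
  ring

/-- a side determines the triangle -/
theorem sd_iff (hS : GP (S : Set ℂ)) {a b c x y z : ℂ} (h : (a, b, c) ∈ delT S)
    (h' : (x, y, z) ∈ delT S) : Sd a b x y z ↔ (x, y, z) ∈ rots (a, b, c) := by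
  have huniq := (g1 S hS).2.1
  have hrot := (g1 S hS).1
  constructor
  · rintro (h1 | h1 | h1)
    · rw [Prod.mk.injEq] at h1
      obtain ⟨rfl, rfl⟩ := h1
      rw [huniq _ _ _ _ h h']
      exact mem_rots_self _
    · rw [Prod.mk.injEq] at h1
      obtain ⟨rfl, rfl⟩ := h1
      rw [huniq _ _ _ _ h (hrot _ _ _ h')]
      simp [rots]
    · rw [Prod.mk.injEq] at h1
      obtain ⟨rfl, rfl⟩ := h1
      rw [huniq _ _ _ _ h (hrot _ _ _ (hrot _ _ _ h'))]
      simp [rots]
  · intro h1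
    unfold rots at h1
    simp only [Set.mem_insert_iff, Set.mem_singleton_iff, Prod.mk.injEq] at h1
    unfold Sd
    simp only [Prod.mk.injEq]
    tauto

theorem tri_ne {a b c : ℂ} (h : (a, b, c) ∈ delT S) : a ≠ b ∧ b ≠ c ∧ a ≠ c := by
  obtain ⟨o, hT⟩ := mem_delT_iff.1 h
  obtain ⟨n1, n2, n3⟩ := hT.ne
  exact ⟨n1, n2, n3⟩

/-- **one step**: across an edge which is not inside `V` -/
theorem gd_step (hS : GP (S : Set ℂ)) {a b c c' : ℂ} (h : (a, b, c) ∈ delT S)
    (h' : (b, a, c') ∈ delT S) (hV : ¬ (a ∈ V ∧ b ∈ V)) (hg : Gd S V (b, a, c')) :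
    Gd S V (a, b, c) := by
  intro f hf
  have hab := (tri_ne h).1
  obtain ⟨σ, hσ⟩ := hg (fun x y => f x y + ie a b x y) ⟨fun x y hxy => by
      show f x y + ie a b x y = f y x + ie a b y x
      rw [hf.symm x y hxy, ie_symm], fun x y z hxyz => by
      obtain ⟨n1, n2, n3⟩ := tri_ne hxyz
      have e1 := hf.par x y z hxyz
      have e2 := ie_par (a := a) (b := b) hab n1 n2 n3
      have e3 : (if Sd a b x y z then (1 : ZMod 2) else 0) =
          if (x, y, z) ∈ rots (a, b, c) then 1 else 0 := by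
        simp only [sd_iff hS h hxyz]
      have e4 : (if Sd b a x y z then (1 : ZMod 2) else 0) =
          if (x, y, z) ∈ rots (b, a, c') then 1 else 0 := by
        simp only [sd_iff hS h' hxyz]
      rw [e3, e4] at e2
      have h2 : ∀ w : ZMod 2, w + w = 0 := by decide
      calc f x y + ie a b x y + (f y z + ie a b y z) + (f z x + ie a b z x) =
          (f x y + f y z + f z x) + (ie a b x y + ie a b y z + ie a b z x) := by ring
        _ = _ := by
          rw [e1, e2, ← add_assoc, h2, zero_add]⟩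
  refine ⟨σ, fun x hx y hy hxy => ?_⟩
  have := hσ x hx y hy hxy
  simp only [ie_ne hV hx hy, add_zero] at this
  exact this

/-- **the end**: a triangle at a hull edge which is not inside `V` -/
theorem gd_hull (hS : GP (S : Set ℂ)) {a b c : ℂ} (h : (a, b, c) ∈ delT S)
    (hh : ∀ c, (b, a, c) ∉ delT S) (hV : ¬ (a ∈ V ∧ b ∈ V)) : Gd S V (a, b, c) := by
  intro f hf
  have hab := (tri_ne h).1
  have h2 : ∀ w : ZMod 2, -w = w := by decide
  obtain ⟨σ, hσ⟩ := exact (A := ZMod 2) hS (f := fun x y => f x y + ie a b x y)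
    (fun x y hxy => by
      show f y x + ie a b y x = -(f x y + ie a b x y)
      rw [hf.symm x y hxy, ie_symm, h2]) (fun x y z hxyz => by
      obtain ⟨n1, n2, n3⟩ := tri_ne hxyz
      have e1 := hf.par x y z hxyz
      have e2 := ie_par (a := a) (b := b) hab n1 n2 n3
      have e3 : (if Sd a b x y z then (1 : ZMod 2) else 0) =
          if (x, y, z) ∈ rots (a, b, c) then 1 else 0 := by
        simp only [sd_iff hS h hxyz]
      have e4 : (if Sd b a x y z then (1 : ZMod 2) else 0) = 0 := by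
        rw [if_neg]
        have hrot := (g1 S hS).1
        rintro (g | g | g)
        · rw [Prod.mk.injEq] at g
          rw [g.1, g.2] at hxyz
          exact hh _ hxyz
        · rw [Prod.mk.injEq] at g
          have := hrot _ _ _ hxyz
          rw [g.1, g.2] at this
          exact hh _ this
        · rw [Prod.mk.injEq] at g
          have := hrot _ _ _ (hrot _ _ _ hxyz)
          rw [g.1, g.2] at this
          exact hh _ this
      rw [e3, e4] at e2
      have h2 : ∀ w : ZMod 2, w + w = 0 := by decide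
      calc f x y + ie a b x y + (f y z + ie a b y z) + (f z x + ie a b z x) =
          (f x y + f y z + f z x) + (ie a b x y + ie a b y z + ie a b z x) := by ring
        _ = 0 := by
          rw [e1, e2, add_zero, h2])
  refine ⟨σ, fun x hx y hy hxy => ?_⟩
  have := hσ x y hxy
  simp only [ie_ne hV hx hy, add_zero] at this
  exact this

/-- all the triangles at the site `u` are good -/
def GdS (S V : Finset ℂ) (u : ℂ) : Prop := ∀ a b, (u, a, b) ∈ delT S → Gd S V (u, a, b)

/-- **a site of the hull** -/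
theorem gdS_hull (hS : GP (S : Set ℂ)) {w a : ℂ} (h : hullE S a w) (hw : w ∉ V) : GdS S V w := by
  have hrot := (g1 S hS).1
  -- the bad neighbours
  set O : Finset ℂ := (nbs S w).filter fun u => ¬ Gd S V (w, u, nxt S w u) with hO
  by_contra hcon
  have hne : O.Nonempty := by
    unfold GdS at hcon
    push Not at hcon
    obtain ⟨x, y, h1, h2⟩ := hcon
    refine ⟨x, ?_⟩
    rw [hO, Finset.mem_filter]
    refine ⟨mem_nbs.2 ⟨y, h1⟩, ?_⟩
    rw [nxt_eq hS h1]
    exact h2
  obtain ⟨c', hc'⟩ := h.1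
  have hnx : ∀ u ∈ O, nxt S w u ∈ O := by
    intro u hu
    rw [hO, Finset.mem_filter] at hu
    obtain ⟨hu1, hu2⟩ := hu
    have h1 := nxt_spec hu1
    -- the next edge is not on the hull
    have h2 : nxt S w u ∈ nbs S w := by
      by_contra h3
      rw [mem_nbs] at h3
      push Not at h3
      apply hu2
      have h4 : (nxt S w u, w, u) ∈ delT S := hrot _ _ _ (hrot _ _ _ h1)
      have h5 : Gd S V (nxt S w u, w, u) := gd_hull hS h4 h3 (fun h => hw h.2)
      refine gd_rots ?_ h5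
      simp [rots]
    rw [hO, Finset.mem_filter]
    refine ⟨h2, fun h3 => hu2 ?_⟩
    have h4 : (nxt S w u, w, u) ∈ delT S := hrot _ _ _ (hrot _ _ _ h1)
    have h5 := gd_step hS h4 (nxt_spec h2) (fun h => hw h.2) h3
    refine gd_rots ?_ h5
    simp [rots]
  have hanw : a ≠ w := DelRx806.hullE.ne h
  have hne' : a - w ≠ 0 := sub_ne_zero.2 hanw
  obtain ⟨u, hu, h1, h2⟩ := sector hne (f := fun u => u - w) hnx (fun u hu => by
    rw [hO, Finset.mem_filter] at hu
    exact (mem_delT.1 (nxt_spec hu.1)).2.2.2.1) hne'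
  rw [hO, Finset.mem_filter] at hu
  have h3 := nxt_spec hu.1
  have h4 : (w, c', a) ∈ delT S := hrot _ _ _ hc'
  have h5 := (mem_delT.1 h4).2.2.2.1
  rcases h1.eq_or_lt with h6 | h6
  · -- `u` is on the ray of `a`
    have hmem := mem_delT.1 h3
    have hmem' := mem_delT.1 h4
    by_cases h7 : u = a
    · rw [h7] at h3
      exact h.2 _ h3
    · exact hS.line w hmem.1 u hmem.2.1 a hmem'.2.2.1 (tri_ne h3).1 h7 hanw.symm h6.symm
  · have h7 := sector_unique hS h3 h4 h6 h2 h5.le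
      (by unfold cr; rw [mul_comm]; exact (sub_self _).ge)
    rw [h7.2] at h2
    simp [cr] at h2
    linarith

/-- **from a site to a neighbour** -/
theorem gdS_move (hS : GP (S : Set ℂ)) {u w : ℂ} (h : GdS S V u) (hw : w ∉ V)
    (ha : Adj S u w) : GdS S V w := by
  by_cases hh : ∃ a, hullE S a w
  · obtain ⟨a, ha⟩ := hh
    exact gdS_hull hS ha hw
  push Not at hh
  have hrot := (g1 S hS).1
  -- a triangle at `w` which is good
  obtain ⟨x, y, hxy, hg⟩ : ∃ x y, (w, x, y) ∈ delT S ∧ Gd S V (w, x, y) := by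
    rcases ha with ⟨c, hc⟩ | ⟨c, hc⟩
    · refine ⟨c, u, hrot _ _ _ hc, gd_rots ?_ (h _ _ hc)⟩
      simp [rots]
    · refine ⟨u, c, hc, ?_⟩
      have h1 : (u, c, w) ∈ delT S := hrot _ _ _ hc
      refine gd_rots ?_ (h _ _ h1)
      simp [rots]
  intro a b hab
  set G : Trg ℂ := { T := delT S, rot := fun {a b c} h => hrot a b c h,
                     uniq := fun {a b c d} h1 h2 => (g1 S hS).2.1 a b c d h1 h2,
                     ne := fun {a b c} h => (g1 S hS).2.2 a b c h } with hG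
  obtain ⟨d, v, hR, h0, hall⟩ := ring_exists hS (v := w) (u0 := x) (mem_nbs.2 ⟨y, hxy⟩) hh
    (G := G) rfl
  have hmem : ∀ i, (w, v i, v (i + 1)) ∈ delT S := fun i => hR.mem i
  have hback : ∀ i, Gd S V (w, v (i + 1), v (i + 1 + 1)) → Gd S V (w, v i, v (i + 1)) := by
    intro i hi
    have h4 : (v (i + 1), w, v i) ∈ delT S := hrot _ _ _ (hrot _ _ _ (hmem i))
    have h5 := gd_step hS h4 (hmem (i + 1)) (fun h => hw h.2) hi
    refine gd_rots ?_ h5
    simp [rots]
  -- the good triangle is in the ring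
  obtain ⟨i0, hi0, hi1⟩ := hall x y hxy
  obtain ⟨j0, hj0, hj1⟩ := hall a b hab
  have key : ∀ k : ℕ, Gd S V (w, v (i0 - k), v (i0 - k + 1)) := by
    intro k
    induction k with
    | zero => simpa [hi0, hi1] using hg
    | succ k ih =>
      have := hback (i0 - (k + 1)) (by
        have e : i0 - ((k : ℤ) + 1) + 1 = i0 - k := by ring
        rw [e]; exact ih)
      push_cast
      exact this
  have hdz : (0 : ℤ) < d := by exact_mod_cast hR.pos
  have h2 := key ((i0 - j0) % d).toNat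
  rw [Int.toNat_of_nonneg (Int.emod_nonneg _ hdz.ne')] at h2
  have hper : ∀ q i : ℤ, v (i + d * q) = v i := by
    intro q i
    have h6 := mod_per hR.pos hR.per (i + d * q)
    rw [← h6, Int.add_mul_emod_self_left, mod_per hR.pos hR.per]
  have e1 : i0 - (i0 - j0) % d = j0 + d * ((i0 - j0) / d) := by
    have := Int.emod_add_mul_ediv (i0 - j0) d
    linarith
  have e2 : i0 - (i0 - j0) % d + 1 = (j0 + 1) + d * ((i0 - j0) / d) := by
    rw [e1]; ring
  rw [e2, hper, e1, hper, hj0, hj1] at h2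
  exact h2

/-- **connected to the hull outside `V`** -/
theorem gdS_conn (hS : GP (S : Set ℂ)) {w a v : ℂ} (h : hullE S a w) (hw : w ∉ V)
    (hc : Relation.ReflTransGen (fun x y => Adj S x y ∧ y ∉ V) w v) : GdS S V v := by
  induction hc with
  | refl => exact gdS_hull hS h hw
  | tail _ hs ih => exact gdS_move hS ih hs.2 hs.1

/-- the colouring of the sites of `V` for a join -/
theorem col_of_gd (h : HNet S N) (hg : Gd S V t)
    (hJ : IsJoin N.toTrg N.kl (rots t) N.exS J) :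
    ∃ τ : ℂ → Bool, ∀ a ∈ V, ∀ b ∈ V, Adj S a b → (τ a ≠ τ b ↔ ((a, b) ∈ J ∨ (b, a) ∈ J)) := by
  have hgd := J1x872.good_of_hnet h
  have side : ∀ a b c : ℂ, (a, b, c) ∈ delT S → (((a, b) ∈ J ∨ (b, a) ∈ J) ↔ (a, b) ∈ J) := by
    intro a b c ht
    refine ⟨?_, Or.inl⟩
    rintro (h1 | h1)
    · exact h1
    · by_cases h2 : (a, b) ∈ N.exS
      · exact (hJ.mark _ _ h2).1
      · by_cases h3 : (b, a) ∈ N.exS
        · exfalso
          obtain ⟨k, hk⟩ := h3
          have h4 := hgd.bd k c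
          rw [hk, h.tri] at h4
          exact h4 ht
        · exact (hJ.sym _ _ h2 h3).2 h1
  obtain ⟨σ, hσ⟩ := hg (fun a b => if (a, b) ∈ J ∨ (b, a) ∈ J then 1 else 0)
    ⟨fun a b _ => by
      show (if (a, b) ∈ J ∨ (b, a) ∈ J then (1 : ZMod 2) else 0) =
        if (b, a) ∈ J ∨ (a, b) ∈ J then 1 else 0
      simp only [or_comm], fun a b c ht => by
      have ht1 := N.rot (by rw [h.tri]; exact ht)
      have ht2 := N.rot ht1
      have s1 := side a b c ht
      have s2 := side b c a (by rw [← h.tri]; exact ht1)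
      have s3 := side c a b (by rw [← h.tri]; exact ht2)
      have hp := hJ.par a b c (by rw [h.tri]; exact ht)
      simp only [s1, s2, s3]
      by_cases g1 : (a, b) ∈ J <;> by_cases g2 : (b, c) ∈ J <;> by_cases g3 : (c, a) ∈ J <;>
        by_cases g4 : (a, b, c) ∈ rots t <;>
        simp only [g1, g2, g3, g4, if_true, if_false] at hp ⊢ <;> first | decide | omega⟩
  refine ⟨fun z => decide (σ z = 1), fun u hu v hv huv => ?_⟩
  have h1 := hσ u hu v hv huv
  have hz : ∀ x y : ZMod 2, (decide (x = 1) ≠ decide (y = 1)) ↔ y - x ≠ 0 := by decide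
  rw [hz, ← h1]
  by_cases h3 : (u, v) ∈ J ∨ (v, u) ∈ J
  · simp [h3]
  · simp [h3]

end Crest.Agent.R143.D3Ex802
end
end

-- ▼ part R143/D3F_802

/-!
# Row 143 (S0194), block D3 without (E3), part 2: the law of free chains (helper802)

* `FArm` : a chain of sites of `V` without occupied edges which crosses an annulus
* `law` : its probability is at most twice the probability of a crossing by one colour
* `carm_pow` : many scales
-/

set_option autoImplicit false

noncomputable section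

open scoped Classical

namespace Crest.Agent.R143.D3Fx802

open Crest.Agent.R143.B0x346 Crest.Agent.R143.DelGx806 Crest.Agent.R143.DelRx806
open Crest.Agent.R143.Circx63 Crest.Agent.R143.JColx54 Crest.Agent.R143.Harx315
open Crest.Agent.R143.D3Ex802 Crest.Agent.R143.ToolWx838
open Crest.Agent.R143.Lawx872 (ConnIn)
open Crest.Agent.R143.CBx838 (Arm)

local notation "flp" => Crest.Agent.R143.X0Bx683.flip
local notation "bdy" => Crest.Agent.R143.X0Bx683.bd

variable {S : Finset ℂ} {N : Net ℂ} {V β : Finset ℂ} {J : Finset (ℂ × ℂ)} {t t' : ℂ × ℂ × ℂ}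
  {p : ℂ} {r1 r2 : ℝ}

/-- a step without occupied edge inside `V` -/
def FStep (S V : Finset ℂ) (J : Finset (ℂ × ℂ)) (a b : ℂ) : Prop :=
  a ∈ V ∧ b ∈ V ∧ Adj S a b ∧ (a, b) ∉ J ∧ (b, a) ∉ J

/-- a chain of sites of `V` without occupied edges across an annulus -/
def FArm (S V : Finset ℂ) (J : Finset (ℂ × ℂ)) (p : ℂ) (r1 r2 : ℝ) : Prop :=
  ∃ x y, x ∈ V ∧ y ∈ V ∧ ‖x - p‖ ≤ r1 ∧ r2 ≤ ‖y - p‖ ∧ Relation.ReflTransGen (FStep S V J) x y

/-- a chain of sites of the colour `β` across an annulus -/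
def CArm (S β : Finset ℂ) (p : ℂ) (r1 r2 : ℝ) : Prop :=
  ∃ x y, x ∈ β ∧ y ∈ β ∧ ‖x - p‖ ≤ r1 ∧ r2 ≤ ‖y - p‖ ∧ ConnIn S β x y

/-- along a path which does not leave `A` -/
theorem conn_of_steps {A : Finset ℂ} {R : ℂ → ℂ → Prop} {x y : ℂ}
    (hR : ∀ a b, R a b → Adj S a b ∧ (a ∈ A → b ∈ A)) (hx : x ∈ A)
    (h : Relation.ReflTransGen R x y) : y ∈ A ∧ ConnIn S A x y := by
  induction h with
  | refl => exact ⟨hx, Relation.ReflTransGen.refl⟩
  | tail _ hs ih =>
    obtain ⟨h1, h2⟩ := hR _ _ hs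
    exact ⟨h2 ih.1, ih.2.tail ⟨h1, ih.1, h2 ih.1⟩⟩

/-- **one join** -/
theorem law_one (h : HNet S N) (hV : J8x872.FreeS S N.kl V) (hg : Gd S V t)
    (hJ : IsJoin N.toTrg N.kl (rots t) N.exS J) :
    pr V (fun β => FArm S V (flp N.toTrg J β) p r1 r2) ≤ 2 * pr V (fun β => CArm S β p r1 r2) := by
  obtain ⟨τ, hτ⟩ := col_of_gd h hg hJ
  set T : Finset ℂ := V.filter fun s => τ s = true with hT
  have hTV : T ⊆ V := Finset.filter_subset _ _
  have hbd := J8x872.bd_mark' h hV
  have e1 : pr V (fun β => CArm S (symmDiff β T) p r1 r2) = pr V (fun β => CArm S β p r1 r2) := by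
    rw [← XW1x315.ex_ind, ← XW1x315.ex_ind]
    exact XW1x315.ex_symm hTV (fun β => if CArm S β p r1 r2 then (1 : ℝ) else 0)
  have e2 : pr V (fun β => CArm S (V \ symmDiff β T) p r1 r2) =
      pr V (fun β => CArm S β p r1 r2) := by
    have e3 : pr V (fun β => CArm S (V \ symmDiff β T) p r1 r2) =
        pr V (fun β => CArm S (V \ β) p r1 r2) := by
      rw [← XW1x315.ex_ind, ← XW1x315.ex_ind]
      exact XW1x315.ex_symm hTV (fun β => if CArm S (V \ β) p r1 r2 then (1 : ℝ) else 0)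
    rw [e3]
    exact pr_flip V fun β => CArm S β p r1 r2
  have e4 : pr V (fun β => FArm S V (flp N.toTrg J β) p r1 r2) ≤
      pr V (fun β => CArm S (symmDiff β T) p r1 r2 ∨ CArm S (V \ symmDiff β T) p r1 r2) := by
    apply pr_mono
    rintro β hβ ⟨x, y, hx, hy, h1, h2, h3⟩
    have step : ∀ a b, FStep S V (flp N.toTrg J β) a b →
        (a ∈ symmDiff β T ↔ b ∈ symmDiff β T) := by
      rintro a b ⟨ha, hb, hab, g1, g2⟩
      have h4 := J8x872.occ_flip (β := β) h.tri (hbd β hβ) hJ hab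
      have h5 : ¬ ((a, b) ∈ flp N.toTrg J β ∨ (b, a) ∈ flp N.toTrg J β) := by
        rintro (h6 | h6)
        · exact g1 h6
        · exact g2 h6
      rw [h4, ← hτ a ha b hb hab] at h5
      rw [Finset.mem_symmDiff, Finset.mem_symmDiff, hT, Finset.mem_filter, Finset.mem_filter]
      cases h7 : τ a <;> cases h8 : τ b <;> simp only [h7, h8] at h5 <;>
        by_cases h9 : a ∈ β <;> by_cases h10 : b ∈ β <;> simp_all
    by_cases hxs : x ∈ symmDiff β T
    · left
      obtain ⟨h6, h7⟩ := conn_of_steps (A := symmDiff β T) (fun a b hab =>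
        ⟨hab.2.2.1, (step a b hab).1⟩) hxs h3
      exact ⟨x, y, hxs, h6, h1, h2, h7⟩
    · right
      obtain ⟨h6, h7⟩ := conn_of_steps (A := V \ symmDiff β T) (fun a b hab =>
        ⟨hab.2.2.1, fun g => Finset.mem_sdiff.2 ⟨hab.2.1, fun g' =>
          (Finset.mem_sdiff.1 g).2 ((step a b hab).2 g')⟩⟩) (Finset.mem_sdiff.2 ⟨hx, hxs⟩) h3
      exact ⟨x, y, Finset.mem_sdiff.2 ⟨hx, hxs⟩, h6, h1, h2, h7⟩
  refine e4.trans (pr_or_le.trans ?_)
  rw [e1, e2]
  linarith

/-- **the law of free chains** -/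
theorem law (h : HNet S N) (hV : J8x872.FreeS S N.kl V) (hg : Gd S V t) (p : ℂ) (r1 r2 : ℝ) :
    (((N.tj t).filter fun J => FArm S V J p r1 r2).card : ℝ) ≤
      2 * pr V (fun β => CArm S β p r1 r2) * ((N.tj t).card : ℝ) := by
  rw [J8x872.card_tj h hV t]
  calc ∑ J ∈ N.tj t, pr V (fun β => FArm S V (flp N.toTrg J β) p r1 r2) ≤
      ∑ _J ∈ N.tj t, 2 * pr V (fun β => CArm S β p r1 r2) :=
        Finset.sum_le_sum fun J hJ => law_one h hV hg (JCardx872.mem_joins.1 hJ)
    _ = _ := by rw [Finset.sum_const, nsmul_eq_mul]; ring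

/-! ### scales -/

/-- a chain as a list -/
theorem list_of_conn {x y : ℂ} (hy : y ∈ β) (h : ConnIn S β x y) :
    ∃ (l : List ℂ) (ne : l ≠ []), (∀ q ∈ prs l, Blkx838.DE S q.1 q.2) ∧ (∀ s ∈ l, s ∈ β) ∧
      l.head ne = x ∧ l.getLast ne = y := by
  induction h using Relation.ReflTransGen.head_induction_on with
  | refl => exact ⟨[y], by simp, by simp [prs], by simpa using hy, rfl, rfl⟩
  | head hs _ ih =>
    obtain ⟨l, ne, h1, h2, h3, h4⟩ := ih
    rename_i a c _
    obtain ⟨z, l', rfl⟩ := List.exists_cons_of_ne_nil ne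
    simp only [List.head_cons] at h3
    refine ⟨a :: z :: l', by simp, ?_, ?_, rfl, ?_⟩
    · intro q hq
      simp only [prs, List.mem_cons] at hq
      rcases hq with rfl | hq
      · rw [h3]; exact hs.1
      · exact h1 q hq
    · intro s hsm
      rcases List.mem_cons.1 hsm with rfl | hsm
      · exact hs.2.1
      · exact h2 s hsm
    · rw [List.getLast_cons (by simp)]
      exact h4

/-- a crossing of an annulus contains a crossing of a smaller annulus -/
theorem extract {a b e : ℝ} (hab : a < b)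
    (hst : ∀ u v, Adj S u v → ‖u - p‖ < b → ‖v - u‖ ≤ e) {x y : ℂ} (hx : x ∈ β)
    (hxa : ‖x - p‖ ≤ a) (hyb : b ≤ ‖y - p‖) (h : ConnIn S β x y) :
    ∃ x' y', x' ∈ β.filter (fun s => a - e ≤ ‖s - p‖ ∧ ‖s - p‖ ≤ b + e) ∧
      y' ∈ β.filter (fun s => a - e ≤ ‖s - p‖ ∧ ‖s - p‖ ≤ b + e) ∧ ‖x' - p‖ ≤ a ∧
      b ≤ ‖y' - p‖ ∧ ConnIn S (β.filter fun s => a - e ≤ ‖s - p‖ ∧ ‖s - p‖ ≤ b + e) x' y' := by
  set A := β.filter fun s => a - e ≤ ‖s - p‖ ∧ ‖s - p‖ ≤ b + e with hA
  have tri : ∀ u v : ℂ, ‖v - p‖ ≤ ‖v - u‖ + ‖u - p‖ := fun u v => by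
    have := norm_add_le (v - u) (u - p)
    rwa [sub_add_sub_cancel] at this
  -- along the chain
  have key : ∀ z, ConnIn S β x z → z ∈ β ∧ ((∃ x' y', x' ∈ A ∧ y' ∈ A ∧ ‖x' - p‖ ≤ a ∧
      b ≤ ‖y' - p‖ ∧ ConnIn S A x' y') ∨ (‖z - p‖ < b ∧ (‖z - p‖ ≤ a ∨
        ∃ x', x' ∈ A ∧ ‖x' - p‖ ≤ a ∧ z ∈ A ∧ ConnIn S A x' z))) := by
    intro z hz
    induction hz with
    | refl => exact ⟨hx, Or.inr ⟨by linarith, Or.inl hxa⟩⟩
    | tail _ hs ih =>
      rename_i u v _
      obtain ⟨h1, h2, h3⟩ := hs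
      refine ⟨h3, ?_⟩
      rcases ih.2 with g | ⟨g1, g2⟩
      · exact Or.inl g
      have h4 := hst u v h1 g1
      have h5 := tri u v
      have h6 := tri v u
      rw [norm_sub_rev] at h6
      by_cases hv : ‖v - p‖ ≤ a
      · exact Or.inr ⟨by linarith, Or.inl hv⟩
      push Not at hv
      have hvA : v ∈ A := by
        rw [hA, Finset.mem_filter]
        have he : 0 ≤ e := (norm_nonneg _).trans h4
        exact ⟨h3, by linarith, by linarith⟩
      -- the chain inside `A`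
      have hch : ∃ x', x' ∈ A ∧ ‖x' - p‖ ≤ a ∧ ConnIn S A x' v := by
        rcases g2 with g2 | ⟨x', g2, g3, g4, g5⟩
        · have huA : u ∈ A := by
            rw [hA, Finset.mem_filter]
            have he : 0 ≤ e := (norm_nonneg _).trans h4
            exact ⟨h2, by linarith, by linarith⟩
          exact ⟨u, huA, g2, Relation.ReflTransGen.single ⟨h1, huA, hvA⟩⟩
        · exact ⟨x', g2, g3, g5.tail ⟨h1, g4, hvA⟩⟩
      obtain ⟨x', k1, k2, k3⟩ := hch
      by_cases hvb : b ≤ ‖v - p‖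
      · exact Or.inl ⟨x', v, k1, hvA, k2, hvb, k3⟩
      · push Not at hvb
        exact Or.inr ⟨hvb, Or.inr ⟨x', k1, k2, hvA, k3⟩⟩
  rcases (key y h).2 with g | ⟨g, -⟩
  · exact g
  · linarith

/-- **many scales** -/
theorem carm_pow (hV : V ⊆ S) {r q : ℝ} (hr : 0 < r) (m : ℕ)
    (h1 : ∀ j < m, ∀ W ⊆ S, pr W (fun β => ∃ l, Arm S p (8 ^ j * r) (3 * (8 ^ j * r)) β l) ≤ q)
    (hst : ∀ u v, Adj S u v → ‖u - p‖ < 8 ^ m * r → ‖v - u‖ ≤ r / 4)
    (hr1 : r1 ≤ r) (hr2 : 8 ^ m * r ≤ r2) :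
    pr V (fun β => CArm S β p r1 r2) ≤ q ^ m := by
  set W : ℕ → Finset ℂ := fun j => V.filter fun s => 8 ^ j * r / 2 < ‖s - p‖ ∧
    ‖s - p‖ < 4 * (8 ^ j * r) with hW
  set A : ℕ → Finset ℂ → Prop := fun j β =>
    ∃ l, Arm S p (8 ^ j * r) (3 * (8 ^ j * r)) (β ∩ W j) l with hA
  have hpow : ∀ j : ℕ, (1 : ℝ) ≤ 8 ^ j := fun j => one_le_pow₀ (by norm_num)
  have hmono : ∀ i j : ℕ, i ≤ j → (8 : ℝ) ^ i ≤ 8 ^ j := fun i j h =>
    pow_le_pow_right₀ (by norm_num) h
  have s1 : pr V (fun β => CArm S β p r1 r2) ≤ pr V (fun β => ∀ j ∈ Finset.range m, A j β) := by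
    apply pr_mono
    rintro β hβ ⟨x, y, hx, hy, g1, g2, g3⟩ j hj
    rw [Finset.mem_range] at hj
    have hjr : 0 < 8 ^ j * r := by positivity
    have h8 : 8 ^ (j + 1) * r ≤ 8 ^ m * r := mul_le_mul_of_nonneg_right (hmono _ _ hj) hr.le
    have h8' : (8 : ℝ) ^ (j + 1) * r = 8 * (8 ^ j * r) := by ring
    have hjr1 : r ≤ 8 ^ j * r := by
      have := mul_le_mul_of_nonneg_right (hpow j) hr.le
      linarith
    obtain ⟨x', y', k1, k2, k3, k4, k5⟩ := extract (S := S) (β := β) (p := p)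
      (a := 8 ^ j * r) (b := 3 * (8 ^ j * r)) (e := r / 4)
      (by linarith) (fun u v huv hu => hst u v huv (by linarith)) hx (by linarith) (by linarith) g3
    have hsub : ∀ s ∈ β.filter (fun s => 8 ^ j * r - r / 4 ≤ ‖s - p‖ ∧
        ‖s - p‖ ≤ 3 * (8 ^ j * r) + r / 4), s ∈ β ∩ W j := by
      intro s hs
      rw [Finset.mem_filter] at hs
      rw [hW, Finset.mem_inter, Finset.mem_filter]
      exact ⟨hs.1, hβ hs.1, by linarith [hs.2.1], by linarith [hs.2.2]⟩
    obtain ⟨l, ne, l1, l2, l3, l4⟩ := list_of_conn k2 k5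
    exact ⟨l, ⟨ne, l1, fun s hs => hsub s (l2 s hs), by rw [l3]; exact k3, by rw [l4]; exact k4⟩⟩
  have hWV : ∀ j, W j ⊆ V := fun j => Finset.filter_subset _ _
  have hdep : ∀ j, Dep V (W j) (A j) := by
    intro j β _
    rw [hA]
    simp only [Finset.inter_assoc, Finset.inter_self]
  have s2 : pr V (fun β => ∀ j ∈ Finset.range m, A j β) = ∏ j ∈ Finset.range m, pr V (A j) := by
    apply pr_indep_prod _ (W := W) _ (fun j _ => hdep j)
    have hlt : ∀ i j : ℕ, i < j → Disjoint (W i) (W j) := by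
      intro i j hij
      rw [Finset.disjoint_left]
      intro s hs hs'
      rw [hW, Finset.mem_filter] at hs hs'
      have h8 : 8 ^ (i + 1) * r ≤ 8 ^ j * r := mul_le_mul_of_nonneg_right (hmono _ _ hij) hr.le
      have h8' : (8 : ℝ) ^ (i + 1) * r = 8 * (8 ^ i * r) := by ring
      linarith [hs.2.2, hs'.2.1]
    intro i _ j _ hij
    rcases lt_or_gt_of_ne hij with h | h
    · exact hlt i j h
    · exact (hlt j i h).symm
  rw [s2] at s1
  refine s1.trans ?_
  have s3 : ∀ j ∈ Finset.range m, pr V (A j) ≤ q := by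
    intro j hj
    rw [pr_dep (hWV j) (hdep j)]
    have : pr (W j) (A j) = pr (W j) (fun β => ∃ l, Arm S p (8 ^ j * r) (3 * (8 ^ j * r)) β l) := by
      apply pr_congr
      intro β hβ
      rw [hA]
      simp only [Finset.inter_eq_left.2 hβ]
    rw [this]
    exact h1 j (Finset.mem_range.1 hj) _ ((hWV j).trans hV)
  calc ∏ j ∈ Finset.range m, pr V (A j) ≤ ∏ _j ∈ Finset.range m, q :=
        Finset.prod_le_prod (fun j _ => pr_nonneg) s3
    _ = q ^ m := by rw [Finset.prod_const, Finset.card_range]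

end Crest.Agent.R143.D3Fx802
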