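import Crest.Agent.R143.D3G_802
import Crest.Agent.R143.D3B_802

-- ▼ part R143/D3H_802
section

/-!
# Row 143 (S0194), block D3 without (E3), part 4: the observable near the boundary (helper802)

* `EK` : the two other marks are joined outside `W`
* `near_ek` : otherwise there is a free chain across the annulus
* `est` : heights and horizontal oscillation of the observable near `p`
-/

set_option autoImplicit false

noncomputable section

open scoped Classical

namespace Crest.Agent.R143.D3Hx802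

open Crest.Agent.R143.B0x346 Crest.Agent.R143.DelGx806 Crest.Agent.R143.DelRx806
open Crest.Agent.R143.Circx63 Crest.Agent.R143.JColx54 Crest.Agent.R143.Wlkx802
open Crest.Agent.R143.D3Ax802 Crest.Agent.R143.D3Ex802 Crest.Agent.R143.D3Fx802
open Crest.Agent.R143.D3Gx802
open Crest.Agent.R143.Sidesx697 (Side IsCol off rev)

variable {S : Finset ℂ} {N : Net ℂ} {i : ZMod 3} {p : ℂ} {r0 e R1 : ℝ} {Y : Set ℂ}
  {T1 : Set (ℂ × ℂ × ℂ)} {inn : Set ℂ}

/-- a step of the walker outside `W` -/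
def StepW (N : Net ℂ) (W : Finset ℂ) (J : Finset (ℂ × ℂ)) (q r : ℂ × ℂ) : Prop :=
  q.1 ∉ W ∧ q.2 ∉ W ∧ ∃ c, c ∉ W ∧ (q.1, q.2, c) ∈ N.T ∧
    (((q.2, c) ∈ J ∧ r = (c, q.2)) ∨ ((c, q.1) ∈ J ∧ (q.2, c) ∉ J ∧ r = (q.1, c)))

/-- the marks `k + 1` and `k + 2` are joined outside `W` -/
def EK (N : Net ℂ) (W : Finset ℂ) (k : ZMod 3) (J : Finset (ℂ × ℂ)) : Prop :=
  Relation.ReflTransGen (StepW N W J) (N.ex (k + 1)) (rev (N.ex (k + 2)))

theorem stepW_congr {W : Finset ℂ} {J J2 : Finset (ℂ × ℂ)}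
    (h : ∀ x y, x ∉ W → y ∉ W → ((x, y) ∈ J ↔ (x, y) ∈ J2)) {q r : ℂ × ℂ}
    (hs : StepW N W J q r) : StepW N W J2 q r := by
  obtain ⟨h1, h2, c, h3, h4, h5⟩ := hs
  refine ⟨h1, h2, c, h3, h4, ?_⟩
  rw [← h q.2 c h2 h3, ← h c q.1 h3 h1]
  exact h5

theorem ek_congr {W : Finset ℂ} {J J2 : Finset (ℂ × ℂ)} {k : ZMod 3}
    (h : ∀ x y, x ∉ W → y ∉ W → ((x, y) ∈ J ↔ (x, y) ∈ J2)) : EK N W k J ↔ EK N W k J2 :=
  ⟨fun g => Relation.ReflTransGen.mono (fun _ _ => stepW_congr h) _ _ g,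
    fun g => Relation.ReflTransGen.mono
      (fun _ _ => stepW_congr fun x y hx hy => (h x y hx hy).symm) _ _ g⟩

section legs

variable (H : HG S N i p r0 e R1 Y T1 inn)

include H

/-- steps outside `W` are steps -/
theorem step_of_W {p0 : ℂ × ℂ} {J' : Finset (ℂ × ℂ)}
    (h0 : p0.1 ∈ WW S p r0 Y T1 inn ∨ p0.2 ∈ WW S p r0 Y T1 inn) {q r : ℂ × ℂ}
    (hs : StepW N (WW S p r0 Y T1 inn) J' q r) : Step N.toTrg ∅ (N.exS ∪ {p0}) J' q r := by
  obtain ⟨h1, h2, c, h3, h4, h5⟩ := hs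
  refine ⟨c, h4, by simp, ?_, h5⟩
  rintro (⟨l, hl⟩ | h6)
  · have := (J1x872.good_of_hnet H.net).bd l c
    rw [hl] at this
    exact this h4
  · rw [Set.mem_singleton_iff] at h6
    rw [← h6] at h0
    rcases h0 with h | h
    · exact h2 h
    · exact h1 h

theorem ek_leads {p0 : ℂ × ℂ} {J' : Finset (ℂ × ℂ)} {k : ZMod 3}
    (h0 : p0.1 ∈ WW S p r0 Y T1 inn ∨ p0.2 ∈ WW S p r0 Y T1 inn)
    (h : EK N (WW S p r0 Y T1 inn) k J') :
    Leads N.toTrg ∅ (N.exS ∪ {p0}) J' (N.ex (k + 1)) (rev (N.ex (k + 2))) :=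
  Relation.ReflTransGen.mono (fun _ _ hs => step_of_W H h0 hs) _ _ h

omit H in
/-- reversed walks between marks -/
theorem rev_leads {p0 x y : ℂ × ℂ} {J' : Finset (ℂ × ℂ)}
    (hJ : IsJoin N.toTrg N.kl ∅ (N.exS ∪ {p0}) J') (hx : x ∈ N.exS ∪ {p0})
    (h : Leads N.toTrg ∅ (N.exS ∪ {p0}) J' x (rev y)) :
    Leads N.toTrg ∅ (N.exS ∪ {p0}) J' y (rev x) := by
  have h1 := JWalkx872.leads_rev hJ JWalkx872.rotInv_empty (hJ.mark _ _ hx).1 h
  exact h1

open Crest.Agent.R143.Sidesx697 in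
/-- if the two other marks are joined then the leg ends at the mark `k` -/
theorem ek_end {p0 : ℂ × ℂ} {J' : Finset (ℂ × ℂ)} {k l : ZMod 3}
    (h0 : p0.1 ∈ WW S p r0 Y T1 inn ∨ p0.2 ∈ WW S p r0 Y T1 inn)
    (hJ : IsJoin N.toTrg N.kl ∅ (N.exS ∪ {p0}) J')
    (h : EK N (WW S p r0 Y T1 inn) k J')
    (hl : Leads N.toTrg ∅ (N.exS ∪ {p0}) J' p0 (rev (N.ex l))) : l = k := by
  obtain ⟨hp, -⟩ := p0_not H h0
  have hM := ek_leads H h0 h
  have hpD : p0 ∈ N.exS ∪ {p0} := Or.inr rfl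
  have hxD : ∀ j, N.ex j ∈ N.exS ∪ {p0} := fun j => Or.inl ⟨j, rfl⟩
  have hr := rev_leads hJ hpD hl
  rcases zcases k l with rfl | rfl | rfl
  · rfl
  · exfalso
    have h1 := Sidesx697.ends_unique hpD (hxD _) hr hM
    exact hp (by rw [h1]; exact ⟨_, rfl⟩)
  · exfalso
    have h1 := Sidesx697.ends_unique hpD (hxD _) hr (rev_leads hJ (hxD _) hM)
    exact hp (by rw [h1]; exact ⟨_, rfl⟩)

open Crest.Agent.R143.Sidesx697 in
/-- **otherwise** there is a free chain across the annulus -/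
theorem near_ek {p0 : ℂ × ℂ} {J' : Finset (ℂ × ℂ)} {k : ZMod 3}
    (h0 : p0.1 ∈ WW S p r0 Y T1 inn ∨ p0.2 ∈ WW S p r0 Y T1 inn)
    (hJ : IsJoin N.toTrg N.kl ∅ (N.exS ∪ {p0}) J')
    (hk : Leads N.toTrg ∅ (N.exS ∪ {p0}) J' p0 (rev (N.ex k)))
    (hn : ¬ EK N (WW S p r0 Y T1 inn) k J') :
    FArm S (VV S p r0 e R1 Y T1 inn) J' p (r0 + 2 * e) (R1 - e) := by
  obtain ⟨hp, -⟩ := p0_not H h0
  have hg := J1x872.good_of_hnet H.net
  have hpD : p0 ∈ N.exS ∪ {p0} := Or.inr rfl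
  have hxD : ∀ j, N.ex j ∈ N.exS ∪ {p0} := fun j => Or.inl ⟨j, rfl⟩
  have hne : ∀ k : ZMod 3, k + 1 ≠ k ∧ k + 2 ≠ k + 1 := by decide
  -- the other leg
  have hM : Leads N.toTrg ∅ (N.exS ∪ {p0}) J' (N.ex (k + 1)) (rev (N.ex (k + 2))) := by
    have hxJ : N.ex (k + 1) ∈ J' := (hJ.mark _ _ (hxD _)).1
    obtain ⟨x, h1, h2⟩ := JWalkx872.exists_end hJ JWalkx872.rotInv_empty hxJ
      (fun q _ => JWalkx872.mark_pre hJ (hxD _) q)
    rcases h2 with h2 | ⟨-, c, -, h2⟩
    · have hx : rev x ∈ N.exS ∪ {p0} := h2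
      have h1' : Leads N.toTrg ∅ (N.exS ∪ {p0}) J' (N.ex (k + 1)) (rev (rev x)) := h1
      rcases hx with ⟨l, hl⟩ | hx
      · rw [← hl] at h1'
        rcases zcases k l with rfl | rfl | rfl
        · exfalso
          have h3 := Sidesx697.ends_unique hpD (hxD _) (rev_leads hJ hpD hk)
            (rev_leads hJ (hxD _) h1')
          exact hp (by rw [h3]; exact ⟨_, rfl⟩)
        · exfalso
          exact JWalkx872.not_leads_swap hJ JWalkx872.rotInv_empty hxJ h1'
        · exact h1'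
      · exfalso
        rw [Set.mem_singleton_iff] at hx
        rw [hx] at h1'
        have h3 := Sidesx697.ends_unique (hxD _) (hxD _) hk (rev_leads hJ (hxD _) h1')
        exact (hne k).1 (hg.inj h3).symm
    · exact h2.elim
  -- a step which is not outside `W`
  have key : ∀ q, Leads N.toTrg ∅ (N.exS ∪ {p0}) J' (N.ex (k + 1)) q →
      Leads N.toTrg ∅ (N.exS ∪ {p0}) J' q (rev (N.ex (k + 2))) →
      Relation.ReflTransGen (StepW N (WW S p r0 Y T1 inn) J') (N.ex (k + 1)) q ∨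
      FArm S (VV S p r0 e R1 Y T1 inn) J' p (r0 + 2 * e) (R1 - e) := by
    intro q hq
    induction hq with
    | refl => exact fun _ => Or.inl Relation.ReflTransGen.refl
    | @tail q r hq hs ih =>
      intro hr
      have hq' : Leads N.toTrg ∅ (N.exS ∪ {p0}) J' q (rev (N.ex (k + 2))) :=
        Relation.ReflTransGen.head hs hr
      rcases ih hq' with ih | ih
      swap
      · exact Or.inr ih
      by_cases g1 : q.1 ∈ WW S p r0 Y T1 inn ∨ q.2 ∈ WW S p r0 Y T1 inn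
      · exact Or.inr (other H h0 hJ hk hq g1 hq')
      by_cases g2 : r.1 ∈ WW S p r0 Y T1 inn ∨ r.2 ∈ WW S p r0 Y T1 inn
      · exact Or.inr (other H h0 hJ hk (hq.tail hs) g2 hr)
      left
      push Not at g1 g2
      refine ih.tail ⟨g1.1, g1.2, ?_⟩
      obtain ⟨c, k1, k2, k3, k4⟩ := hs
      refine ⟨c, ?_, k1, k4⟩
      rcases k4 with ⟨-, k4⟩ | ⟨-, -, k4⟩
      · rw [k4] at g2; exact g2.1
      · rw [k4] at g2; exact g2.2
  rcases key _ hM Relation.ReflTransGen.refl with h | h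
  · exact absurd h hn
  · exact h

end legs

/-! ### counting -/

theorem fstep_congr {V : Finset ℂ} {J J2 : Finset (ℂ × ℂ)}
    (h : ∀ x ∈ V, ∀ y ∈ V, ((x, y) ∈ J ↔ (x, y) ∈ J2)) {a b : ℂ} (hs : FStep S V J a b) :
    FStep S V J2 a b :=
  ⟨hs.1, hs.2.1, hs.2.2.1, fun g => hs.2.2.2.1 ((h a hs.1 b hs.2.1).2 g),
    fun g => hs.2.2.2.2 ((h b hs.2.1 a hs.1).2 g)⟩

theorem farm_congr {V : Finset ℂ} {J J2 : Finset (ℂ × ℂ)} {r1 r2 : ℝ}
    (h : ∀ x ∈ V, ∀ y ∈ V, ((x, y) ∈ J ↔ (x, y) ∈ J2)) :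
    FArm S V J p r1 r2 ↔ FArm S V J2 p r1 r2 := by
  constructor
  · rintro ⟨x, y, h1, h2, h3, h4, h5⟩
    exact ⟨x, y, h1, h2, h3, h4, Relation.ReflTransGen.mono (fun _ _ => fstep_congr h) _ _ h5⟩
  · rintro ⟨x, y, h1, h2, h3, h4, h5⟩
    exact ⟨x, y, h1, h2, h3, h4, Relation.ReflTransGen.mono
      (fun _ _ => fstep_congr fun x hx y hy => (h x hx y hy).symm) _ _ h5⟩

/-- predicates which do not look at the edge `{x, y}` -/
theorem half_sum {x y z : ℂ} (ht : (x, y, z) ∈ N.T) (hk : (x, y) ∉ N.kl)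
    (h1 : (x, y) ∉ N.exS) (h2 : (y, x) ∉ N.exS) (P : Finset (ℂ × ℂ) → Prop)
    (hi : ∀ J, P J ↔ P (insert (x, y) J)) (he : ∀ J, P J ↔ P (J.erase (x, y))) :
    ((N.hj x y).filter P).card + ((N.hj y x).filter P).card =
      ((N.tj (x, y, z)).filter P).card := by
  have hk' : (y, x) ∉ N.kl := fun h => hk (N.klsym _ _ h)
  have a1 := JCardx872.card_half_left (G := N.toTrg) (D := N.exS) ht hk hk' h1 h2 P P
    (fun J _ _ => hi J)
  have a2 := JCardx872.card_half_right (G := N.toTrg) (D := N.exS) ht hk hk' h1 h2 P P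
    (fun J _ _ => he J)
  unfold Net.hj Net.tj
  rw [a1, a2]
  rw [← Finset.card_union_of_disjoint]
  · congr 1
    ext J
    simp only [Finset.mem_union, Finset.mem_filter]
    tauto
  · rw [Finset.disjoint_filter]
    intro J _ g g'
    exact g.1 g'.1

/-- the number of joins -/
theorem half_card {x y z : ℂ} (ht : (x, y, z) ∈ N.T) (hk : (x, y) ∉ N.kl)
    (h1 : (x, y) ∉ N.exS) (h2 : (y, x) ∉ N.exS) :
    (N.hj x y).card + (N.hj y x).card = (N.tj (x, y, z)).card := by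
  have := half_sum ht hk h1 h2 (fun _ => True) (fun _ => Iff.rfl) (fun _ => Iff.rfl)
  simpa using this

/-- probability that the marks `k + 1`, `k + 2` are joined outside `W` -/
def mu (N : Net ℂ) (W : Finset ℂ) (k : ZMod 3) (x y : ℂ) : ℝ :=
  ((((N.hj x y).filter (EK N W k)).card + ((N.hj y x).filter (EK N W k)).card : ℕ) : ℝ) /
    (((N.hj x y).card + (N.hj y x).card : ℕ) : ℝ)

theorem mu_symm (W : Finset ℂ) (k : ZMod 3) (x y : ℂ) : mu N W k x y = mu N W k y x := by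
  unfold mu
  rw [Nat.add_comm ((N.hj x y).filter (EK N W k)).card, Nat.add_comm (N.hj x y).card]

theorem mu_tri {W : Finset ℂ} {k : ZMod 3} {x y z : ℂ} (ht : (x, y, z) ∈ N.T)
    (hk : (x, y) ∉ N.kl) (h1 : (x, y) ∉ N.exS) (h2 : (y, x) ∉ N.exS) (hW : x ∈ W ∨ y ∈ W) :
    mu N W k x y = (((N.tj (x, y, z)).filter (EK N W k)).card : ℝ) /
      ((N.tj (x, y, z)).card : ℝ) := by
  unfold mu
  have hne : ∀ u v : ℂ, u ∉ W → v ∉ W → (u, v) ≠ (x, y) := by
    intro u v hu hv h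
    rw [Prod.mk.injEq] at h
    rcases hW with hW | hW
    · exact hu (h.1 ▸ hW)
    · exact hv (h.2 ▸ hW)
  rw [half_sum ht hk h1 h2 (EK N W k) (fun J => ek_congr fun u v hu hv => by
      rw [Finset.mem_insert]
      exact ⟨Or.inr, fun h => h.resolve_left (hne u v hu hv)⟩)
    (fun J => ek_congr fun u v hu hv => by
      rw [Finset.mem_erase]
      exact ⟨fun h => ⟨hne u v hu hv, h⟩, fun h => h.2⟩), half_card ht hk h1 h2]

theorem tj_rots {t t' : ℂ × ℂ × ℂ} (h : t' ∈ rots t) : N.tj t' = N.tj t := by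
  unfold Net.tj
  rw [rots_eq h]

section est

variable (H : HG S N i p r0 e R1 Y T1 inn)

include H

/-- edges at a site of `W1` : live, not marked, in two triangles -/
theorem edge_ok {x y : ℂ} (hx : x ∈ WW S p R1 Y T1 inn) :
    (x, y) ∉ N.kl ∧ (x, y) ∉ N.exS ∧ (y, x) ∉ N.exS :=
  ⟨H.live x (mem_WW.1 hx).2.1 y, (ex_VV H hx).1, (ex_VV H hx).2⟩

/-- around a site of `W` -/
theorem mu_next {k : ZMod 3} {v a b : ℂ} (hv : v ∈ WW S p r0 Y T1 inn)
    (h : (v, a, b) ∈ delT S) :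
    mu N (WW S p r0 Y T1 inn) k v a = mu N (WW S p r0 Y T1 inn) k v b := by
  have hT := H.net.tri
  have h1 : (v, a, b) ∈ N.T := by rw [hT]; exact h
  have h2 : (b, v, a) ∈ N.T := N.rot (N.rot h1)
  obtain ⟨a1, a2, a3⟩ := edge_ok H (y := a) (W_sub H hv)
  obtain ⟨b1, b2, b3⟩ := edge_ok H (y := b) (W_sub H hv)
  rw [mu_tri h1 a1 a2 a3 (Or.inl hv), mu_symm _ _ v b,
    mu_tri h2 (fun g => b1 (N.klsym _ _ g)) b3 b2 (Or.inr hv),
    tj_rots (t := (v, a, b)) (t' := (b, v, a)) (by simp [rots])]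

theorem mu_star {k : ZMod 3} {v a b a' b' : ℂ} (hv : v ∈ WW S p r0 Y T1 inn)
    (h : (v, a, b) ∈ delT S) (h' : (v, a', b') ∈ delT S) :
    mu N (WW S p r0 Y T1 inn) k v a = mu N (WW S p r0 Y T1 inn) k v a' := by
  obtain ⟨m, u, hr, -, hall⟩ := W1_full H (W_sub H hv)
  obtain ⟨i0, rfl, rfl⟩ := hall a b (by rw [H.net.tri]; exact h)
  obtain ⟨j0, rfl, rfl⟩ := hall a' b' (by rw [H.net.tri]; exact h')
  have key : ∀ l : ℕ, mu N (WW S p r0 Y T1 inn) k v (u i0) =
      mu N (WW S p r0 Y T1 inn) k v (u (i0 + l)) := by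
    intro l
    induction l with
    | zero => simp
    | succ l ih =>
      rw [ih, mu_next H hv (by rw [← H.net.tri]; exact hr.mem (i0 + l))]
      push_cast
      rw [add_assoc]
  have hdz : (0 : ℤ) < m := by exact_mod_cast hr.pos
  have h2 := key ((j0 - i0) % m).toNat
  rw [Int.toNat_of_nonneg (Int.emod_nonneg (j0 - i0) hdz.ne')] at h2
  have h3 := DelRx806.mod_per hr.pos (w := fun k => u (i0 + k))
    (fun k => by show u (i0 + (k + m)) = u (i0 + k); rw [← add_assoc, hr.per]) (j0 - i0)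
  rw [h3, show i0 + (j0 - i0) = j0 by ring] at h2
  exact h2

/-- along a path in `W` -/
theorem mu_conn {k : ZMod 3} {v v' : ℂ} (hv : v ∈ WW S p r0 Y T1 inn)
    (hc : Relation.ReflTransGen
      (fun v v' => v' ∈ WW S p r0 Y T1 inn ∧ ∃ b, (v, v', b) ∈ delT S) v v') :
    v' ∈ WW S p r0 Y T1 inn ∧ ∀ a b a' b', (v, a, b) ∈ delT S → (v', a', b') ∈ delT S →
    mu N (WW S p r0 Y T1 inn) k v a = mu N (WW S p r0 Y T1 inn) k v' a' := by
  induction hc with
  | refl => exact ⟨hv, fun a b a' b' h h' => mu_star H hv h h'⟩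
  | @tail w w' _ hs ih =>
    obtain ⟨hw', c, hc⟩ := hs
    refine ⟨hw', fun a b a' b' h h' => ?_⟩
    rw [ih.2 a b w' c h hc, mu_symm]
    have hadj : Adj S w' w := Or.inr ⟨c, hc⟩
    obtain ⟨y, hy⟩ := adj_fst H.net (W1_full H (W_sub H hw')) hadj
    exact mu_star H hw' hy h'

/-- **bounds for the probabilities of the marks** at an edge with an end in `W` -/
theorem pe_bounds {η : ℝ} {x y z : ℂ}
    (hxy : x ∈ WW S p r0 Y T1 inn ∨ y ∈ WW S p r0 Y T1 inn) (ht : (x, y, z) ∈ N.T)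
    (hη : (((N.tj (x, y, z)).filter fun J =>
      FArm S (VV S p r0 e R1 Y T1 inn) J p (r0 + 2 * e) (R1 - e)).card : ℝ) ≤
        η * ((N.tj (x, y, z)).card : ℝ)) (hpos : 0 < (N.tj (x, y, z)).card) (k : ZMod 3) :
    mu N (WW S p r0 Y T1 inn) k x y ≤ Sidesx697.Net.pe N x y k ∧
      Sidesx697.Net.pe N x y k ≤ mu N (WW S p r0 Y T1 inn) k x y + η ∧
      Sidesx697.Net.pe N x y (i + 2) ≤ η := by
  set W := WW S p r0 Y T1 inn with hW
  set V := VV S p r0 e R1 Y T1 inn with hV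
  have hok : (x, y) ∉ N.kl ∧ (x, y) ∉ N.exS ∧ (y, x) ∉ N.exS := by
    rcases hxy with h | h
    · exact edge_ok H (W_sub H h)
    · obtain ⟨h1, h2, h3⟩ := edge_ok H (y := x) (W_sub H h)
      exact ⟨fun g => h1 (N.klsym _ _ g), h3, h2⟩
  obtain ⟨hk, hm, hm'⟩ := hok
  have hcard := half_card ht hk hm hm'
  have hVne : ∀ u ∈ V, ∀ v ∈ V, (u, v) ≠ (x, y) := by
    intro u hu v hv h
    rw [Prod.mk.injEq] at h
    rcases hxy with g | g
    · exact W_notV H g (h.1 ▸ hu)
    · exact W_notV H g (h.2 ▸ hv)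
  have hF := half_sum ht hk hm hm' (fun J => FArm S V J p (r0 + 2 * e) (R1 - e))
    (fun J => farm_congr fun u hu v hv => by
      rw [Finset.mem_insert]
      exact ⟨Or.inr, fun h => h.resolve_left (hVne u hu v hv)⟩)
    (fun J => farm_congr fun u hu v hv => by
      rw [Finset.mem_erase]
      exact ⟨fun h => ⟨hVne u hu v hv, h⟩, fun h => h.2⟩)
  -- one half edge
  have one : ∀ p0 : ℂ × ℂ, (p0.1 ∈ W ∨ p0.2 ∈ W) → ∀ k,
      ((N.hj p0.1 p0.2).filter (EK N W k)).card ≤ N.cnt p0.1 p0.2 k ∧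
      N.cnt p0.1 p0.2 k ≤ ((N.hj p0.1 p0.2).filter (EK N W k)).card +
        ((N.hj p0.1 p0.2).filter fun J => FArm S V J p (r0 + 2 * e) (R1 - e)).card ∧
      N.cnt p0.1 p0.2 (i + 2) ≤
        ((N.hj p0.1 p0.2).filter fun J => FArm S V J p (r0 + 2 * e) (R1 - e)).card := by
    intro p0 h0 k
    refine ⟨?_, ?_, ?_⟩
    · unfold Net.cnt
      apply Finset.card_le_card
      intro J hJ
      rw [Finset.mem_filter] at hJ ⊢
      refine ⟨hJ.1, ?_⟩
      obtain ⟨l, hl⟩ := Sidesx697.ends_some (p := p0) hJ.1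
      have h1 := ek_end H h0 (JCardx872.mem_joins.1 hJ.1) hJ.2 hl
      rw [h1] at hl
      exact hl
    · unfold Net.cnt
      refine (Finset.card_le_card ?_).trans (Finset.card_union_le _ _)
      intro J hJ
      rw [Finset.mem_filter] at hJ
      rw [Finset.mem_union, Finset.mem_filter, Finset.mem_filter]
      by_cases h1 : EK N W k J
      · exact Or.inl ⟨hJ.1, h1⟩
      · exact Or.inr ⟨hJ.1, near_ek H h0 (JCardx872.mem_joins.1 hJ.1) hJ.2 h1⟩
    · unfold Net.cnt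
      apply Finset.card_le_card
      intro J hJ
      rw [Finset.mem_filter] at hJ ⊢
      exact ⟨hJ.1, opp H h0 (JCardx872.mem_joins.1 hJ.1) hJ.2⟩
  have o1 := one (x, y) hxy
  have o2 := one (y, x) hxy.symm
  simp only at o1 o2
  have hT0 : (0 : ℝ) < ((N.tj (x, y, z)).card : ℝ) := by exact_mod_cast hpos
  unfold mu Sidesx697.Net.pe
  rw [hcard]
  refine ⟨?_, ?_, ?_⟩
  · apply div_le_div_of_nonneg_right _ hT0.le
    exact_mod_cast Nat.add_le_add (o1 k).1 (o2 k).1
  · rw [div_add' _ _ _ hT0.ne']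
    apply div_le_div_of_nonneg_right _ hT0.le
    refine le_trans ?_ (add_le_add_right hη _)
    have h1 := (o1 k).2.1
    have h2 := (o2 k).2.1
    rw [← hF]
    exact_mod_cast (by omega)
  · rw [div_le_iff₀ hT0]
    refine le_trans ?_ hη
    have h1 := (o1 k).2.2
    have h2 := (o2 k).2.2
    rw [← hF]
    exact_mod_cast (by omega)

end est

/-! ### the estimate -/

theorem sum3 {A : Type} [AddCommMonoid A] (i : ZMod 3) (f : ZMod 3 → A) :
    ∑ k : ZMod 3, f k = f i + f (i + 1) + f (i + 2) := by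
  have hs : ∑ k : ZMod 3, f k = f 0 + f 1 + f 2 := Fin.sum_univ_three f
  rw [hs]
  rcases D3Gx802.zcases 0 i with rfl | rfl | rfl
  · simp
  · have a1 : (0 + 1 + 1 : ZMod 3) = 2 := by decide
    have a2 : (0 + 1 + 2 : ZMod 3) = 0 := by decide
    rw [a1, a2, zero_add]
    abel
  · have a1 : (0 + 2 + 1 : ZMod 3) = 0 := by decide
    have a2 : (0 + 2 + 2 : ZMod 3) = 1 := by decide
    rw [a1, a2, zero_add]
    abel

/-- the height through the probability of the opposite mark -/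
theorem hgt_pe {a b : ℂ} (hab : (a, b) ∉ N.exS) (hba : (b, a) ∉ N.exS) (hN : HNet S N)
    (hpos : 0 < (N.hj a b).card + (N.hj b a).card) (i : ZMod 3) :
    hgt i (N.F a b) = Sidesx697.Net.pe N a b (i + 2) * (Real.sqrt 3 / 2) := by
  have hg := J1x872.good_of_hnet hN
  have h3 := Sidesx697.sum_cnt hg a b i
  have h4 := Sidesx697.sum_cnt hg b a i
  have hp : (0 : ℝ) < (((N.hj a b).card + (N.hj b a).card : ℕ) : ℝ) := by exact_mod_cast hpos
  have e1 : Sidesx697.Net.pe N a b i + Sidesx697.Net.pe N a b (i + 1) +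
      Sidesx697.Net.pe N a b (i + 2) = 1 := by
    unfold Sidesx697.Net.pe
    rw [← add_div, ← add_div, div_eq_one_iff_eq hp.ne']
    norm_cast
    omega
  have hs := sd_ne i
  rw [Sidesx697.F_eq_Fob N hab hba, Sidesx697.Fob_eq, sum3 i]
  unfold hgt
  have w1 : omz (i + 1) = omz i + sd i := by unfold sd; ring
  have w2 : omz (i + 2) = omz i + (om + 1) * sd i := by
    rw [sd_eq, show i + 2 = (i + 1) + 1 by ring, Oscx63.omz_add_one, Oscx63.omz_add_one]
    ring
  have e2 : ((Sidesx697.Net.pe N a b i : ℂ) * omz i + (Sidesx697.Net.pe N a b (i + 1) : ℂ) *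
      omz (i + 1) + (Sidesx697.Net.pe N a b (i + 2) : ℂ) * omz (i + 2) - omz i) / sd i =
      (Sidesx697.Net.pe N a b (i + 1) : ℂ) + (Sidesx697.Net.pe N a b (i + 2) : ℂ) * (om + 1) := by
    rw [div_eq_iff hs, w1, w2]
    have : (Sidesx697.Net.pe N a b i : ℂ) + Sidesx697.Net.pe N a b (i + 1) +
      Sidesx697.Net.pe N a b (i + 2) = 1 := by exact_mod_cast e1
    linear_combination (omz i) * this
  rw [e2, Complex.add_im, Complex.ofReal_im, Complex.im_ofReal_mul, Complex.add_im, om_im,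
    Complex.one_im]
  ring

theorem F_sum {a b : ℂ} (hab : (a, b) ∉ N.exS) (hba : (b, a) ∉ N.exS) :
    N.F a b = ∑ k : ZMod 3, (Sidesx697.Net.pe N a b k : ℂ) * omz k := by
  rw [Sidesx697.F_eq_Fob N hab hba, Sidesx697.Fob_eq]

/-- **heights and horizontal oscillation** of the observable near `p` -/
theorem est (H : HG S N i p r0 e R1 Y T1 inn) {η : ℝ}
    (hη : ∀ v ∈ WW S p r0 Y T1 inn, ∀ a b, (v, a, b) ∈ delT S →
      (((N.tj (v, a, b)).filter fun J =>
        FArm S (VV S p r0 e R1 Y T1 inn) J p (r0 + 2 * e) (R1 - e)).card : ℝ) ≤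
        η * ((N.tj (v, a, b)).card : ℝ)) :
    (∀ v ∈ WW S p r0 Y T1 inn, ∀ a b, (v, a, b) ∈ delT S →
      0 ≤ hgt i (N.F v a) ∧ hgt i (N.F v a) ≤ η) ∧
    ∀ v ∈ WW S p r0 Y T1 inn, ∀ v', Relation.ReflTransGen
      (fun v v' => v' ∈ WW S p r0 Y T1 inn ∧ ∃ b, (v, v', b) ∈ delT S) v v' →
      ∀ a b a' b', (v, a, b) ∈ delT S → (v', a', b') ∈ delT S →
      ‖N.F v' a' - N.F v a‖ ≤ 4 * η := by
  have hN := H.net
  have hT := hN.tri
  have hg := J1x872.good_of_hnet hN
  -- one edge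
  have one : ∀ v ∈ WW S p r0 Y T1 inn, ∀ a b, (v, a, b) ∈ delT S →
      (v, a) ∉ N.exS ∧ (a, v) ∉ N.exS ∧ 0 < (N.hj v a).card + (N.hj a v).card ∧ 0 ≤ η ∧
      ∀ k, mu N (WW S p r0 Y T1 inn) k v a ≤ Sidesx697.Net.pe N v a k ∧
      Sidesx697.Net.pe N v a k ≤ mu N (WW S p r0 Y T1 inn) k v a + η ∧
      Sidesx697.Net.pe N v a (i + 2) ≤ η := by
    intro v hv a b h
    obtain ⟨e1, e2, e3⟩ := edge_ok H (y := a) (W_sub H hv)
    have hT1 : (v, a, b) ∈ T1 := by
      obtain ⟨-, g2, -, b', c', g4⟩ := mem_WW.1 (W_sub H hv)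
      exact star hN H.bd g2 (W1_X (W_sub H hv)) g4 h
    have hpos := Exx395.hj_pos hg (H.bd.exm _ hT1) e1 e2
    have hcard := half_card (z := b) (by rw [hT]; exact h) e1 e2 e3
    have hpos' : 0 < (N.tj (v, a, b)).card := by rw [← hcard]; exact hpos
    have hη0 : 0 ≤ η := by
      have h1 := hη v hv a b h
      have h2 : (0 : ℝ) < ((N.tj (v, a, b)).card : ℝ) := by exact_mod_cast hpos'
      by_contra hcon
      push Not at hcon
      have h3 : η * ((N.tj (v, a, b)).card : ℝ) < 0 := mul_neg_of_neg_of_pos hcon h2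
      have h4 : (0 : ℝ) ≤ (((N.tj (v, a, b)).filter fun J =>
        FArm S (VV S p r0 e R1 Y T1 inn) J p (r0 + 2 * e) (R1 - e)).card : ℝ) := Nat.cast_nonneg _
      linarith
    exact ⟨e2, e3, hpos, hη0, fun k => pe_bounds H (Or.inl hv) (by rw [hT]; exact h)
      (hη v hv a b h) hpos' k⟩
  refine ⟨fun v hv a b h => ⟨hgt_nonneg hN i v a, ?_⟩, fun v hv v' hc a b a' b' h h' => ?_⟩
  · obtain ⟨e1, e2, e3, e4, e5⟩ := one v hv a b h
    rw [hgt_pe e1 e2 hN e3 i]
    have h1 := (e5 0).2.2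
    have h2 := Sidesx697.pe_nonneg (N := N) v a (i + 2)
    have h3 : Real.sqrt 3 ≤ 2 := by
      rw [Real.sqrt_le_left (by norm_num)]; norm_num
    nlinarith
  · obtain ⟨e1, e2, e3, e4, e5⟩ := one v hv a b h
    have hc' := fun k => mu_conn H (k := k) hv hc
    obtain ⟨f1, f2, f3, f4, f5⟩ := one v' (hc' 0).1 a' b' h'
    have hk : ∀ k, |Sidesx697.Net.pe N v' a' k - Sidesx697.Net.pe N v a k| ≤ η := by
      intro k
      have h1 := (hc' k).2 a b a' b' h h'
      obtain ⟨g1, g2, -⟩ := e5 k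
      obtain ⟨g3, g4, -⟩ := f5 k
      rw [← h1] at g3 g4
      rw [abs_le]
      constructor <;> linarith
    rw [F_sum f1 f2, F_sum e1 e2, ← Finset.sum_sub_distrib]
    calc ‖∑ k : ZMod 3, ((Sidesx697.Net.pe N v' a' k : ℂ) * omz k -
          (Sidesx697.Net.pe N v a k : ℂ) * omz k)‖ ≤
          ∑ k : ZMod 3, ‖(Sidesx697.Net.pe N v' a' k : ℂ) * omz k -
          (Sidesx697.Net.pe N v a k : ℂ) * omz k‖ := norm_sum_le _ _
      _ ≤ ∑ _k : ZMod 3, η := by
          apply Finset.sum_le_sum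
          intro k _
          rw [← sub_mul, norm_mul, D3Ax802.norm_omz, mul_one, ← Complex.ofReal_sub,
            Complex.norm_real, Real.norm_eq_abs]
          exact hk k
      _ = 3 * η := by
          rw [Finset.sum_const, Finset.card_univ, ZMod.card, nsmul_eq_mul]
          norm_num
      _ ≤ 4 * η := by linarith

end Crest.Agent.R143.D3Hx802
end
end

-- ▼ part R143/D3J_802

/-!
# Row 143 (S0194), block D3 without (E3), part 5: the boundary estimate (helper802)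

* `CBp` : crossing of an annulus by one colour (weak form, from RB or RBp)
* `mesh_ball` : sum of the squares of the longest sides of the triangles meeting a disc
* `conn_hull` : the sites near `p` are joined to the hull outside the annulus
* `BDE`, `bde` : heights and horizontal oscillation of the observable near `p`
-/

set_option autoImplicit false

noncomputable section

open scoped Classical ENNReal

namespace Crest.Agent.R143.D3Jx802

open Set MeasureTheory
open Crest.ProbabilityR.Voronoi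
open Crest.Agent.R143.B0x346 Crest.Agent.R143.B0Dx346 Crest.Agent.R143.Oscx63
open Crest.Agent.R143.DelGx806 Crest.Agent.R143.Circx63 Crest.Agent.R143.Scalx63
open Crest.Agent.R143.EQ2x63 Crest.Agent.R143.Locx922 Crest.Agent.R143.Cfgx416
open Crest.Agent.R143.Ex0x922 Crest.Agent.R143.Wlkx802 Crest.Agent.R143.D3Ax802
open Crest.Agent.R143.G6Wx723 Crest.Agent.R143.PP1x831
open Crest.Agent.R143.D3Bx802 Crest.Agent.R143.D3Gx802
open Crest.Agent.R143.Harx315 (pr pr_nonneg)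
open Crest.Agent.R143.RB0x838 (LDns Mesh RB)
open Crest.Agent.R143.CBx838 (Arm)
open Crest.Agent.R143.Sidesx697 (Side Wall)

/-- **crossing of an annulus by one colour**, weak form -/
def CBp : Prop := ∀ C4 : ℝ, 0 ≤ C4 → ∃ p c1 K : ℝ, 0 < p ∧ 0 < c1 ∧ 0 < K ∧
  ∀ (S : Finset ℂ) (z0 : ℂ) (r d : ℝ), 0 < r → LDns S z0 (K * r) d →
  Mesh S z0 (K * r) r C4 → d ≤ c1 * r → ∀ V : Finset ℂ, V ⊆ S →
  pr V (fun β => ∃ l, Arm S z0 r (3 * r) β l) ≤ 1 - p


/-- **crossing of an annulus by one colour**, with the mesh bound at the radii in `[c2 r, r]`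
(the conclusion of `RBmx838.cbm`) -/
def CBm : Prop := ∀ C4 : ℝ, 0 ≤ C4 → ∃ p c1 c2 K : ℝ, 0 < p ∧ 0 < c1 ∧ 0 < c2 ∧ c2 ≤ 1 ∧ 0 < K ∧
  ∀ (S : Finset ℂ) (z0 : ℂ) (r d : ℝ), 0 < r → LDns S z0 (K * r) d →
  (∀ b' : ℝ, c2 * r ≤ b' → b' ≤ r → Mesh S z0 (K * r) b' C4) → d ≤ c1 * r →
  ∀ V : Finset ℂ, V ⊆ S → pr V (fun β => ∃ l, Arm S z0 r (3 * r) β l) ≤ 1 - p

theorem cbm_of_cbp (h : CBp) : CBm := by
  intro C4 hC4
  obtain ⟨p, c1, K, hp, hc1, hK, hmain⟩ := h C4 hC4
  exact ⟨p, c1, 1, K, hp, hc1, one_pos, le_rfl, hK, fun S z0 r d hr hD hM hd V hV =>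
    hmain S z0 r d hr hD (hM r (by rw [one_mul]) le_rfl) hd V hV⟩

/-- the sum of the squares of the longest sides of the triangles meeting a disc -/
theorem mesh_ball {D : Dom} {ε d M : ℝ} {ω : Sample} (hd : 0 < d) (h : Env ε d M D.c D.L ω)
    {x : ℂ} {b C : ℝ} (hC : 0 ≤ C) (hb : 2 * d ≤ b)
    (hx : Metric.closedBall x b ⊆ Metric.closedBall D.c (D.L - 2 * d))
    (hM : diamSum (points ε ω) (Metric.ball x (2 * b)) ≤ ENNReal.ofReal (C * (2 * b) ^ 2)) :
    ∑ t ∈ (delT (D.sites ε ω)).filter (fun t => (cT t ∩ Metric.closedBall x b).Nonempty),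
      dm t ^ 2 ≤ 16 * C * b ^ 2 := by
  set F := (delT (D.sites ε ω)).filter
    (fun t => (cT t ∩ Metric.closedBall x b).Nonempty) with hF
  set P : Set (ℂ × ℂ × ℂ) := {t : ℂ × ℂ × ℂ | Del (points ε ω) t.1 t.2.1 t.2.2 ∧
    ((voronoiCell (points ε ω) t.1 ∪ voronoiCell (points ε ω) t.2.1 ∪
      voronoiCell (points ε ω) t.2.2) ∩ Metric.ball x (2 * b)).Nonempty} with hP
  -- every triangle of `F`
  have key : ∀ t ∈ F, t ∈ P ∧
      ENNReal.ofReal (dm t ^ 2) ≤ 4 * (Metric.ediam (voronoiCell (points ε ω) t.1)) ^ 2 := by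
    rintro ⟨a, b', c⟩ ht
    rw [hF, Finset.mem_filter] at ht
    obtain ⟨htS, y, hy, hyb⟩ := ht
    obtain ⟨o', hT⟩ := mem_delT_iff.1 htS
    have hyx : ‖y - x‖ ≤ b := by rwa [mem_closedBall_iff_norm] at hyb
    have hyW : y ∈ Metric.closedBall D.c (D.L - 2 * d) := hx hyb
    have hyT : InT y a b' c := hy
    have hDel : Del (points ε ω) a b' c := (Env.mem_delT hd h hyW hyT).1 htS
    obtain ⟨o, h1, h2, h3, h4, h5, ga, gb, gc⟩ := del_small hd (Env.hol h) hyW
      (InT.inD hT.pos hyT) hDel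
    constructor
    · refine ⟨hDel, a, Or.inl (Or.inl ?_), ?_⟩
      · intro s hs
        simp
      · rw [mem_ball_iff_norm]
        have := norm_tri a y x
        linarith
    · have hdm : dm (a, b', c) ≤ 2 * ‖a - o‖ := EQ4x63.dm_le le_rfl h1.le h2.le
      have hdm0 : 0 ≤ dm (a, b', c) := le_max_of_le_right (norm_nonneg _)
      have ha : a ∈ voronoiCell (points ε ω) a := fun s hs => by simp
      have ho : o ∈ voronoiCell (points ε ω) a := by
        intro s hs
        rw [norm_sub_rev o a, norm_sub_rev o s]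
        exact h3 s hs
      have h6 : ENNReal.ofReal ‖a - o‖ ≤ Metric.ediam (voronoiCell (points ε ω) a) := by
        have := Metric.edist_le_ediam_of_mem ha ho
        rwa [edist_dist, dist_eq_norm] at this
      calc ENNReal.ofReal (dm (a, b', c) ^ 2) ≤ ENNReal.ofReal (4 * ‖a - o‖ ^ 2) := by
            apply ENNReal.ofReal_le_ofReal
            nlinarith [norm_nonneg (a - o)]
        _ = 4 * (ENNReal.ofReal ‖a - o‖) ^ 2 := by
            rw [ENNReal.ofReal_mul (by norm_num), ENNReal.ofReal_pow (norm_nonneg _)]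
            norm_num
        _ ≤ 4 * (Metric.ediam (voronoiCell (points ε ω) a)) ^ 2 := by gcongr
  have hsum : ∑ t ∈ F, ENNReal.ofReal (dm t ^ 2) ≤
      4 * diamSum (points ε ω) (Metric.ball x (2 * b)) := by
    have e1 : diamSum (points ε ω) (Metric.ball x (2 * b)) =
        ∑' t : ℂ × ℂ × ℂ, P.indicator
          (fun t => (Metric.ediam (voronoiCell (points ε ω) t.1)) ^ 2) t := by
      rw [← tsum_subtype]
      rfl
    rw [e1]
    calc ∑ t ∈ F, ENNReal.ofReal (dm t ^ 2)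
        ≤ ∑ t ∈ F, 4 * P.indicator
          (fun t => (Metric.ediam (voronoiCell (points ε ω) t.1)) ^ 2) t := by
          apply Finset.sum_le_sum
          intro t ht
          rw [Set.indicator_of_mem (key t ht).1]
          exact (key t ht).2
      _ = 4 * ∑ t ∈ F, P.indicator
          (fun t => (Metric.ediam (voronoiCell (points ε ω) t.1)) ^ 2) t := by
          rw [Finset.mul_sum]
      _ ≤ _ := by
          gcongr
          exact ENNReal.sum_le_tsum _
  have h7 : ENNReal.ofReal (∑ t ∈ F, dm t ^ 2) ≤ ENNReal.ofReal (16 * C * b ^ 2) := by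
    rw [ENNReal.ofReal_sum_of_nonneg fun t _ => sq_nonneg _]
    refine hsum.trans ((mul_le_mul_right hM 4).trans (le_of_eq ?_))
    have e2 : (4 : ℝ≥0∞) = ENNReal.ofReal 4 := by norm_num
    rw [e2, ← ENNReal.ofReal_mul (by norm_num)]
    congr 1
    ring
  exact (ENNReal.ofReal_le_ofReal_iff (by positivity)).1 h7

variable {n : ℕ} {C : Cfg n} {S : Finset ℂ} {δ d : ℝ} {i : ZMod 3} {p : ℂ} {R0 s K : ℝ}
  {G T : Set ℂ}

/-- **the abstract data** -/
theorem hg_of (H : Geo C S δ d i p R0 s K G T) {r0 R1 : ℝ} (h1 : s + 4 * d < r0)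
    (h2 : R1 + 3 * d < R0) (h3 : r0 + 6 * d ≤ R1) :
    HG S (C.dom.netS S) i p r0 (2 * d) R1 (Yt C S T) (TT C S G) (C.inn S : Set ℂ) where
  net := H.out.hnet
  bd := bd_of H (by linarith [H.dpos]) h2
  ex := ex_of H h1 (by linarith [H.dpos])
  step := by
    have hd := H.dpos
    intro u v huv hu
    have huW : u ∈ WD C d := by
      apply Metric.mem_closedBall.2
      have := near_W H (o := u) (by rw [dist_eq_norm]; linarith)
      linarith [H.dL]
    rcases huv with ⟨c, hc⟩ | ⟨c, hc⟩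
    · obtain ⟨o, hT⟩ := mem_delT_iff.1 hc
      have := (del_side hd H.hol huW (InT.inD hT.pos (vertex_mem hT.pos).1) (mem_delT.1 hc)).1
      rw [norm_sub_rev]
      exact this.le
    · obtain ⟨o, hT⟩ := mem_delT_iff.1 hc
      have := (del_side hd H.hol huW (InT.inD hT.pos (vertex_mem hT.pos).2.1) (mem_delT.1 hc)).1
      exact this.le
  rad := by linarith
  e0 := by linarith [H.dpos]
  live := by
    intro v hv x hx
    rw [ClsCx697.kl_iff H.out] at hx
    exact (H.out.inn v hv).1 x hx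

/-- sites of a side are joined to the hull outside `V` -/
theorem side_conn {N : Net ℂ} {r0 e R1 : ℝ} {Y : Set ℂ} {T1 : Set (ℂ × ℂ × ℂ)} {inn : Set ℂ}
    (H : HG S N i p r0 e R1 Y T1 inn) {u : ℂ} (hu : Side N i u) :
    Relation.ReflTransGen (fun x y => JColx54.Adj S x y ∧ y ∉ VV S p r0 e R1 Y T1 inn)
      (N.ex i).2 u := by
  induction hu with
  | refl => exact Relation.ReflTransGen.refl
  | @tail x y _ hw ih =>
    obtain ⟨w1, w2, w3, w4⟩ := hw
    refine ih.tail ⟨Sidesx697.adj_of_E H.net w1, fun hy => ?_⟩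
    have hyW := (mem_VV.1 hy).1
    have hF := W1_full H hyW
    have hadj : JColx54.Adj S y x := D3Gx802.adj_symm (Sidesx697.adj_of_E H.net w1)
    obtain ⟨c, hc⟩ := adj_fst H.net hF hadj
    have hh := full_not_hull H.net hF x
    rcases w4 with w4 | w4 | w4
    · exact H.live y (mem_WW.1 hyW).2.1 x (N.klsym _ _ w4)
    · exact w4 c (by rw [H.net.tri]; exact hc)
    · exact hh.1 ⟨⟨c, hc⟩, fun c' hc' => w4 c' (by rw [H.net.tri]; exact hc')⟩

/-- **the sites near `p` are joined to the hull outside the annulus** -/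
theorem conn_hull (H : Geo C S δ d i p R0 s K G T) {r0 R1 : ℝ} (h1 : s + 4 * d < r0)
    (h2 : R1 + 3 * d < R0) (h3 : r0 + 6 * d ≤ R1) (h4 : (C.dom.R i ∩ Metric.ball p s).Nonempty)
    {v : ℂ} (hv : v ∈ WW S p r0 (Yt C S T) (TT C S G) (C.inn S : Set ℂ)) :
    Relation.ReflTransGen (fun x y => JColx54.Adj S x y ∧
      y ∉ VV S p r0 (2 * d) R1 (Yt C S T) (TT C S G) (C.inn S : Set ℂ))
      ((C.dom.netS S).ex i).2 v := by
  have HG := hg_of H h1 h2 h3
  have hd := H.dpos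
  set V := VV S p r0 (2 * d) R1 (Yt C S T) (TT C S G) (C.inn S : Set ℂ) with hV
  set W := WW S p r0 (Yt C S T) (TT C S G) (C.inn S : Set ℂ) with hW
  have hgp := H.out.gp
  have hcard : 3 ≤ S.card := Sidesx697.card3 H.out.hnet
  have hne : S.Nonempty := by
    rw [← Finset.card_pos]; omega
  -- the site of the side
  obtain ⟨y0, hy0, hy0s⟩ := h4
  obtain ⟨u, hu, huy⟩ := exists_cell hne y0
  have hside : Side (C.dom.netS S) i u := ClsCx697.cls_of_out H.hn H.out i u hu ⟨y0, huy, hy0⟩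
  -- cells of points close to `p`
  have hcell : ∀ z : ℂ, ‖z - p‖ < r0 → ∀ w ∈ S, z ∈ voronoiCell (S : Set ℂ) w →
      w ∈ S.filter (fun w => w ∉ V) := by
    intro z hz w hw hzw
    have hzW : z ∈ WD C d := by
      apply Metric.mem_closedBall.2
      have := near_W H (o := z) (by rw [dist_eq_norm]; linarith)
      linarith [H.dL]
    have g1 : ‖z - w‖ < d := cell_dist (H.hol z hzW z (by simp; exact hd.le)) hzw
    rw [Finset.mem_filter]
    refine ⟨hw, fun g2 => ?_⟩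
    have g3 := (mem_VV.1 g2).2.2
    have g4 := norm_tri w z p
    rw [norm_sub_rev w z] at g4
    linarith
  -- sites close to `p`
  have near : ∀ w ∈ S, ‖w - p‖ < r0 → Relation.ReflTransGen (fun x y => JColx54.Adj S x y ∧
      y ∉ V) ((C.dom.netS S).ex i).2 w := by
    intro w hw hwp
    have g1 := Lawx872.conn_of_set hgp hcard (C := segment ℝ y0 w)
      (V := S.filter (fun w => w ∉ V)) (convex_segment y0 w).isPreconnected (by
        intro z hz
        apply hcell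
        have g2 : z ∈ Metric.ball p r0 := (convex_ball p r0).segment_subset (by
          rw [Metric.mem_ball, dist_eq_norm]
          rw [Metric.mem_ball, dist_eq_norm] at hy0s
          linarith) (by rw [Metric.mem_ball, dist_eq_norm]; exact hwp) hz
        rwa [Metric.mem_ball, dist_eq_norm] at g2) hu hw ⟨y0, left_mem_segment ℝ _ _, huy⟩
      ⟨w, right_mem_segment ℝ _ _, fun s _ => by simp⟩
    refine (side_conn HG hside).trans ?_
    exact Relation.ReflTransGen.mono (fun a b hab =>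
      ⟨hab.1, (Finset.mem_filter.1 hab.2.2).2⟩) _ _ g1
  obtain ⟨hvS, hvi, hvor, hvT⟩ := mem_WW.1 hv
  rcases hvor with hvp | hvY
  · exact near v hvS hvp
  -- the component of `v` in `Yt`
  set A : Finset ℂ := W.filter fun w => w ∈ Yt C S T ∧ Relation.ReflTransGen
    (fun x y => JColx54.Adj S x y ∧ y ∉ V) w v with hA
  have hvA : v ∈ A := by
    rw [hA, Finset.mem_filter]
    exact ⟨hv, hvY, Relation.ReflTransGen.refl⟩
  obtain ⟨w, hw, a, b, hab, haA⟩ := exists_out hgp H.out.hnet.tri ⟨v, hvA⟩ (fun w hw => by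
    rw [hA, Finset.mem_filter] at hw
    exact W1_full HG (W_sub HG hw.1))
  rw [hA, Finset.mem_filter] at hw
  obtain ⟨hw1, hw2, hw3⟩ := hw
  have hadj : JColx54.Adj S w a := Or.inl ⟨b, hab⟩
  obtain ⟨g1, g2, g3⟩ := next_site HG (W_sub HG hw1) hadj
  have haS : a ∈ S := (adj_mem hadj).2
  have hwV : w ∉ V := W_notV HG hw1
  have last : Relation.ReflTransGen (fun x y => JColx54.Adj S x y ∧ y ∉ V)
      ((C.dom.netS S).ex i).2 a → Relation.ReflTransGen (fun x y => JColx54.Adj S x y ∧ y ∉ V)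
      ((C.dom.netS S).ex i).2 v := fun g =>
    (g.tail ⟨D3Gx802.adj_symm hadj, hwV⟩).trans hw3
  rcases g1 with g1 | g1
  · rcases g3 hw2 g1 with g4 | g4
    · exact last (near a haS g4)
    · exfalso
      apply haA
      rw [hA, Finset.mem_filter]
      exact ⟨mem_WW.2 ⟨haS, g1, Or.inr g4, g2⟩, g4, Relation.ReflTransGen.head
        ⟨D3Gx802.adj_symm hadj, hwV⟩ hw3⟩
  · exact last (side_conn HG g1)

/-- **the boundary estimate** with the number of scales `N` -/
def BDEat (η : ℝ) (N : ℕ) (c1 : ℝ) : Prop :=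
  ∀ {n : ℕ} (C : Cfg n) (ε δ d M : ℝ) (ω : Sample) (i : ZMod 3) (p : ℂ) (R0 s K : ℝ)
    (G T : Set ℂ) (k0 : ℤ),
    Geo C (C.dom.sites ε ω) δ d i p R0 s K G T → Env ε d M C.dom.c C.dom.L ω →
    (2 : ℝ) ^ k0 + 3 * d < R0 → s + 4 * d < (2 : ℝ) ^ (k0 - N) → d ≤ c1 * (2 : ℝ) ^ (k0 - N) →
    (2 : ℝ) ^ (k0 + 1) ≤ 1 →
    (∀ z ∈ Metric.closedBall (0 : ℂ) (‖C.dom.c‖ + C.dom.L + 1), ∀ ρ : ℝ,
      (2 : ℝ) ^ (k0 - N) ≤ ρ → ρ ≤ 1 →
      diamSum (points ε ω) (Metric.ball z ρ) ≤ ENNReal.ofReal (EQ5x63.CM * ρ ^ 2)) →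
    (C.dom.R i ∩ Metric.ball p s).Nonempty →
    (∀ v ∈ WW (C.dom.sites ε ω) p ((2 : ℝ) ^ (k0 - N)) (Yt C (C.dom.sites ε ω) T)
        (TT C (C.dom.sites ε ω) G) (C.inn (C.dom.sites ε ω) : Set ℂ),
      ∀ a b, (v, a, b) ∈ delT (C.dom.sites ε ω) →
        0 ≤ hgt i ((C.dom.netS (C.dom.sites ε ω)).F v a) ∧
          hgt i ((C.dom.netS (C.dom.sites ε ω)).F v a) ≤ η) ∧
    ∀ v ∈ WW (C.dom.sites ε ω) p ((2 : ℝ) ^ (k0 - N)) (Yt C (C.dom.sites ε ω) T)
        (TT C (C.dom.sites ε ω) G) (C.inn (C.dom.sites ε ω) : Set ℂ),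
      ∀ v', Relation.ReflTransGen
        (fun v v' => v' ∈ WW (C.dom.sites ε ω) p ((2 : ℝ) ^ (k0 - N)) (Yt C (C.dom.sites ε ω) T)
          (TT C (C.dom.sites ε ω) G) (C.inn (C.dom.sites ε ω) : Set ℂ) ∧
          ∃ b, (v, v', b) ∈ delT (C.dom.sites ε ω)) v v' →
        ∀ a b a' b', (v, a, b) ∈ delT (C.dom.sites ε ω) →
          (v', a', b') ∈ delT (C.dom.sites ε ω) →
          ‖(C.dom.netS (C.dom.sites ε ω)).F v' a' -
            (C.dom.netS (C.dom.sites ε ω)).F v a‖ ≤ 4 * η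

/-- **the boundary estimate** -/
def BDE : Prop := ∀ η : ℝ, 0 < η → ∃ (N : ℕ) (c1 : ℝ), 0 < N ∧ 0 < c1 ∧ BDEat η N c1

/-- **the boundary estimate from RSW only** -/
theorem bdem (hCB : CBm) : BDE := by
  intro η hη
  obtain ⟨q0, c1, c2, K1, hq0, hc1, hc2, hc2', hK1, hone⟩ := hCB (16 * EQ5x63.CM) (by
    have := EQ5x63.CM_nonneg; positivity)
  obtain ⟨A, hA1, hA2⟩ : ∃ A : ℝ, 1 ≤ A ∧ c2 * A = 1 :=
    ⟨1 / c2, by rw [le_div_iff₀ hc2]; linarith, by field_simp⟩
  set q : ℝ := 1 - min q0 1 with hq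
  have hq1 : q < 1 := by
    have : 0 < min q0 1 := lt_min hq0 one_pos
    linarith
  have hqn : 0 ≤ q := by
    have := min_le_right q0 1
    linarith
  obtain ⟨m, hm⟩ := exists_pow_lt_of_lt_one (half_pos hη) hq1
  obtain ⟨N, hN⟩ := pow_unbounded_of_one_lt (4 * (K1 + 1) * 8 ^ m * A) (one_lt_two (α := ℝ))
  have hNpos : 0 < N := by
    rcases Nat.eq_zero_or_pos N with h | h
    · exfalso
      rw [h, pow_zero] at hN
      have h1 : (1 : ℝ) ≤ 8 ^ m := one_le_pow₀ (by norm_num)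
      have h2 : (1 : ℝ) ≤ 4 * (K1 + 1) := by linarith
      have h3 : (1 : ℝ) ≤ 4 * (K1 + 1) * 8 ^ m := one_le_mul_of_one_le_of_one_le h2 h1
      have h4 : (1 : ℝ) ≤ 4 * (K1 + 1) * 8 ^ m * A := one_le_mul_of_one_le_of_one_le h3 hA1
      linarith
    · exact h
  refine ⟨N, c1, hNpos, hc1, ?_⟩
  intro n C ε δ d M ω i p R0 s K G T k0 H h hR hs hdc hk1 hM hRi
  set S := C.dom.sites ε ω with hS
  set r0 : ℝ := (2 : ℝ) ^ (k0 - N) with hr0
  set R1 : ℝ := (2 : ℝ) ^ k0 with hR1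
  have hd := H.dpos
  have hs0 := H.s0
  have hL := H.dL
  have hr0p : 0 < r0 := by positivity
  have hR1p : 0 < R1 := by positivity
  have e1 : R1 = r0 * 2 ^ N := by
    rw [hR1, hr0, ← zpow_natCast (2 : ℝ) N, ← zpow_add₀ (by norm_num)]
    congr 1; ring
  have h8 : (1 : ℝ) ≤ 8 ^ m := one_le_pow₀ (by norm_num)
  set ra : ℝ := A * r0 with hra
  have hra0 : r0 ≤ ra := by
    have := mul_le_mul_of_nonneg_right hA1 hr0p.le
    rwa [one_mul] at this
  have hrap : 0 < ra := by linarith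
  have e2 : 4 * (K1 + 1) * 8 ^ m * ra ≤ R1 := by
    have := mul_le_mul_of_nonneg_right hN.le hr0p.le
    rw [e1, mul_comm r0]
    calc 4 * (K1 + 1) * 8 ^ m * ra = 4 * (K1 + 1) * 8 ^ m * A * r0 := by rw [hra]; ring
      _ ≤ _ := this
  have e3 : 4 * 8 ^ m * ra ≤ R1 := by
    have : 0 ≤ 4 * K1 * 8 ^ m * ra := by positivity
    nlinarith
  have e4 : 4 * ra ≤ R1 := by nlinarith
  have hHG := hg_of H (r0 := r0) (R1 := R1) hs hR (by linarith)
  set V := VV S p r0 (2 * d) R1 (Yt C S T) (TT C S G) (C.inn S : Set ℂ) with hV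
  have hVS : V ⊆ S := fun v hv => (mem_WW.1 (mem_VV.1 hv).1).1
  have hRb : ∀ z : ℂ, ‖z - p‖ ≤ R0 → z ∈ Metric.closedBall C.dom.c (C.dom.L / 2) := by
    intro z hz
    have := near_W H (o := z) (by rw [dist_eq_norm]; exact hz)
    exact Metric.mem_closedBall.2 this
  -- the probability of a crossing by one colour
  have hpr : pr V (fun β => D3Fx802.CArm S β p (r0 + 2 * (2 * d)) (R1 - 2 * d)) ≤ q ^ m := by
    refine D3Fx802.carm_pow hVS (r := 2 * ra) (q := q) (by linarith) m ?_ ?_ (by linarith)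
      (by linarith)
    · intro j hj W hW
      have hjm : (8 : ℝ) ^ j ≤ 8 ^ m := pow_le_pow_right₀ (by norm_num) hj.le
      have hj1 : (1 : ℝ) ≤ 8 ^ j := one_le_pow₀ (by norm_num)
      set b : ℝ := 8 ^ j * (2 * ra) with hb
      have hb0 : 0 < b := by positivity
      have hb1 : b ≤ 8 ^ m * (2 * ra) := mul_le_mul_of_nonneg_right hjm (by linarith)
      have hb2 : 2 * ra ≤ b := by
        have := mul_le_mul_of_nonneg_right hj1 (show (0 : ℝ) ≤ 2 * ra by linarith)
        rw [one_mul] at this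
        exact this
      have hb3 : 2 * ((K1 + 1) * b) ≤ R1 := by
        have := mul_le_mul_of_nonneg_left hb1 (show (0 : ℝ) ≤ 2 * (K1 + 1) by linarith)
        nlinarith
      have hb4 : (K1 + 1) * b ≤ R0 := by nlinarith
      have hKb : 0 < K1 * b := by positivity
      have hcb : 2 * r0 ≤ c2 * b := by
        have g1 := mul_le_mul_of_nonneg_left hb2 hc2.le
        have g2 : c2 * (2 * ra) = 2 * r0 := by
          calc c2 * (2 * ra) = (c2 * A) * (2 * r0) := by rw [hra]; ring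
            _ = 2 * r0 := by rw [hA2, one_mul]
        linarith
      refine (hone S p b d hb0 ?_ ?_ ?_ W hW).trans ?_
      · exact ⟨H.out.gp, hd, fun z hz => H.hol z (by
          apply Metric.mem_closedBall.2
          have := Metric.mem_closedBall.1 (hRb z (by linarith))
          have hcc : C.dom.c = C.c := rfl
          have hLL : C.dom.L = C.L := rfl
          rw [hcc, hLL] at this
          linarith) z (by simp; exact hd.le)⟩
      · intro b' hb'1 hb'2 z hz
        apply mesh_ball hd h EQ5x63.CM_nonneg (by linarith)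
        · intro y hy
          rw [mem_closedBall_iff_norm] at hy
          have g1 := norm_tri y z p
          have g2 := Metric.mem_closedBall.1 (hRb y (by linarith))
          apply Metric.mem_closedBall.2
          have hLL : C.dom.L = C.L := rfl
          rw [hLL] at g2 ⊢
          linarith
        · apply hM
          · have g2 := Metric.mem_closedBall.1 (hRb z (by linarith))
            rw [mem_closedBall_zero_iff]
            rw [dist_eq_norm] at g2
            have g3 := norm_add_le (z - C.dom.c) C.dom.c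
            rw [sub_add_cancel] at g3
            have hLL : C.dom.L = C.L := rfl
            rw [hLL] at g2 ⊢
            linarith
          · linarith
          · have g4 : (2 : ℝ) ^ (k0 + 1) = 2 * R1 := by
              rw [zpow_add₀ (by norm_num), zpow_one, mul_comm]
            rw [g4] at hk1
            nlinarith
      · have := mul_le_mul_of_nonneg_left hb2 hc1.le
        nlinarith
      · have := min_le_left q0 1
        linarith
    · intro u v huv hu
      have g1 := hHG.step u v huv (by nlinarith)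
      linarith
  -- the law of free chains
  have hfree := free_VV hHG
  refine D3Hx802.est hHG (η := η) ?_
  intro v hv a b hab
  have hgd : D3Ex802.Gd S V (v, a, b) := by
    have hex := H.out.hnet.hex i
    refine D3Ex802.gdS_conn H.out.gp hex ?_ (conn_hull H hs hR (by linarith) hRi hv) a b hab
    intro hw
    exact (full_not_hull H.out.hnet (W1_full hHG (mem_VV.1 hw).1) _).2 hex
  have hlaw := D3Fx802.law H.out.hnet hfree hgd p (r0 + 2 * (2 * d)) (R1 - 2 * d)
  refine hlaw.trans ?_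
  apply mul_le_mul_of_nonneg_right _ (Nat.cast_nonneg _)
  linarith

theorem bde (hCB : CBp) : BDE := bdem (cbm_of_cbp hCB)

end Crest.Agent.R143.D3Jx802
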