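import Crest.Agent.R143.D3J_802
import Crest.Agent.R143.RBm_838
import Crest.Agent.R143.D3C_802

-- ▼ part R143/BdeM_422
section

/-!
# Row 143 (S0194), block D3: the boundary estimate from RBm (helper422)

* `CBm` : crossing of an annulus by one colour, mesh at all scales (from `RBmx838.RBm`)
* `bdem` : CBm → BDE (the proof of 802's `bde` with annuli starting at the radius `r0 / c3`)
-/

set_option autoImplicit false

noncomputable section

open scoped Classical ENNReal

namespace Crest.Agent.R143.BdeMx422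

open Set MeasureTheory
open Crest.ProbabilityR.Voronoi
open Crest.Agent.R143.B0x346 Crest.Agent.R143.B0Dx346 Crest.Agent.R143.Oscx63
open Crest.Agent.R143.DelGx806 Crest.Agent.R143.Circx63 Crest.Agent.R143.Scalx63
open Crest.Agent.R143.EQ2x63 Crest.Agent.R143.Locx922 Crest.Agent.R143.Cfgx416
open Crest.Agent.R143.Ex0x922 Crest.Agent.R143.Wlkx802 Crest.Agent.R143.D3Ax802
open Crest.Agent.R143.G6Wx723 Crest.Agent.R143.PP1x831
open Crest.Agent.R143.D3Bx802 Crest.Agent.R143.D3Gx802 Crest.Agent.R143.D3Jx802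
open Crest.Agent.R143.Harx315 (pr pr_nonneg)
open Crest.Agent.R143.RB0x838 (LDns Mesh)
open Crest.Agent.R143.CBx838 (Arm)
open Crest.Agent.R143.Sidesx697 (Side Wall)

/-- **crossing of an annulus by one colour**, mesh at all scales -/
def CBm : Prop := ∀ C4 : ℝ, 0 ≤ C4 → ∃ p c1 c2 K : ℝ, 0 < p ∧ 0 < c1 ∧ 0 < c2 ∧ c2 ≤ 1 ∧ 0 < K ∧
  ∀ (S : Finset ℂ) (z0 : ℂ) (r d : ℝ), 0 < r → LDns S z0 (K * r) d →
  RBmx838.MeshA S z0 (K * r) c2 r C4 → d ≤ c1 * r → ∀ V : Finset ℂ, V ⊆ S →
  pr V (fun β => ∃ l, Arm S z0 r (3 * r) β l) ≤ 1 - p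

theorem cbm_of (h : RBmx838.RBm) : CBm := RBmx838.cbm h

/-- **the boundary estimate from the quenched RSW with mesh at all scales** -/
theorem bdem (hCB : CBm) : BDE := by
  intro η hη
  obtain ⟨q0, c1, c3, K1, hq0, hc1, hc3, hc31, hK1, hone⟩ := hCB (16 * EQ5x63.CM) (by
    have := EQ5x63.CM_nonneg; positivity)
  set q : ℝ := 1 - min q0 1 with hq
  have hq1 : q < 1 := by
    have : 0 < min q0 1 := lt_min hq0 one_pos
    linarith
  have hqn : 0 ≤ q := by
    have := min_le_right q0 1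
    linarith
  obtain ⟨m, hm⟩ := exists_pow_lt_of_lt_one (half_pos hη) hq1
  obtain ⟨N, hN⟩ := pow_unbounded_of_one_lt (4 * (K1 + 1) * 8 ^ m / c3) (one_lt_two (α := ℝ))
  rw [div_lt_iff₀ hc3] at hN
  have hNpos : 0 < N := by
    rcases Nat.eq_zero_or_pos N with h | h
    · exfalso
      rw [h, pow_zero, one_mul] at hN
      have : (1 : ℝ) ≤ 8 ^ m := one_le_pow₀ (by norm_num)
      nlinarith
    · exact h
  refine ⟨N, c1, hNpos, hc1, ?_⟩
  intro n C ε δ d M ω i p R0 s K G T k0 H h hR hs hdc hk1 hM hRi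
  set S := C.dom.sites ε ω with hS
  set r0 : ℝ := (2 : ℝ) ^ (k0 - N) with hr0
  set R1 : ℝ := (2 : ℝ) ^ k0 with hR1
  have hd := H.dpos
  have hs0 := H.s0
  have hL := H.dL
  have hr0p : 0 < r0 := by positivity
  have hR1p : 0 < R1 := by positivity
  have e1 : R1 = r0 * 2 ^ N := by
    rw [hR1, hr0, ← zpow_natCast (2 : ℝ) N, ← zpow_add₀ (by norm_num)]
    congr 1; ring
  have h8 : (1 : ℝ) ≤ 8 ^ m := one_le_pow₀ (by norm_num)
  set ra : ℝ := r0 / c3 with hra
  have hrap : 0 < ra := div_pos hr0p hc3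
  have hra0 : c3 * ra = r0 := by rw [hra]; field_simp
  have hra1 : r0 ≤ ra := by
    rw [hra, le_div_iff₀ hc3]
    nlinarith
  have e2a : 4 * (K1 + 1) * 8 ^ m * ra ≤ R1 := by
    rw [e1]
    have h1 := mul_le_mul_of_nonneg_right hN.le hrap.le
    have h2 : (2 : ℝ) ^ N * c3 * ra = r0 * 2 ^ N := by
      rw [mul_assoc, hra0, mul_comm]
    linarith
  have e2 : 4 * (K1 + 1) * 8 ^ m * r0 ≤ R1 :=
    (mul_le_mul_of_nonneg_left hra1 (by positivity)).trans e2a
  have e3a : 4 * 8 ^ m * ra ≤ R1 := by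
    have g1 : 0 ≤ 4 * K1 * 8 ^ m * ra := by positivity
    have g2 : 4 * (K1 + 1) * 8 ^ m * ra = 4 * K1 * 8 ^ m * ra + 4 * 8 ^ m * ra := by ring
    linarith
  have e3 : 4 * 8 ^ m * r0 ≤ R1 :=
    (mul_le_mul_of_nonneg_left hra1 (by positivity)).trans e3a
  have e4 : 4 * r0 ≤ R1 := by nlinarith
  have hHG := hg_of H (r0 := r0) (R1 := R1) hs hR (by linarith)
  set V := VV S p r0 (2 * d) R1 (Yt C S T) (TT C S G) (C.inn S : Set ℂ) with hV
  have hVS : V ⊆ S := fun v hv => (mem_WW.1 (mem_VV.1 hv).1).1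
  have hRb : ∀ z : ℂ, ‖z - p‖ ≤ R0 → z ∈ Metric.closedBall C.dom.c (C.dom.L / 2) := by
    intro z hz
    have := near_W H (o := z) (by rw [dist_eq_norm]; exact hz)
    exact Metric.mem_closedBall.2 this
  -- the probability of a crossing by one colour
  have hpr : pr V (fun β => D3Fx802.CArm S β p (r0 + 2 * (2 * d)) (R1 - 2 * d)) ≤ q ^ m := by
    refine D3Fx802.carm_pow hVS (r := 2 * ra) (q := q) (by linarith) m ?_ ?_ (by linarith)
      (by linarith)
    · intro j hj W hW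
      have hjm : (8 : ℝ) ^ j ≤ 8 ^ m := pow_le_pow_right₀ (by norm_num) hj.le
      have hj1 : (1 : ℝ) ≤ 8 ^ j := one_le_pow₀ (by norm_num)
      set b : ℝ := 8 ^ j * (2 * ra) with hb
      have hb0 : 0 < b := by positivity
      have hb1 : b ≤ 8 ^ m * (2 * ra) := mul_le_mul_of_nonneg_right hjm (by linarith)
      have hb2 : 2 * ra ≤ b := by
        have := mul_le_mul_of_nonneg_right hj1 (show (0 : ℝ) ≤ 2 * ra by linarith)
        rw [one_mul] at this
        exact this
      have hKb : 0 < K1 * b := by positivity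
      have hb3 : 2 * (K1 * b) + 2 * b ≤ R1 := by
        have g1 := mul_le_mul_of_nonneg_left hb1 (show (0 : ℝ) ≤ 2 * (K1 + 1) by linarith)
        have g2 : 2 * (K1 + 1) * b = 2 * (K1 * b) + 2 * b := by ring
        have g3 : 2 * (K1 + 1) * (8 ^ m * (2 * ra)) = 4 * (K1 + 1) * 8 ^ m * ra := by ring
        linarith
      have hb4 : K1 * b + b ≤ R0 := by linarith
      refine (hone S p b d hb0 ?_ ?_ ?_ W hW).trans ?_
      · exact ⟨H.out.gp, hd, fun z hz => H.hol z (by
          apply Metric.mem_closedBall.2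
          have := Metric.mem_closedBall.1 (hRb z (by linarith))
          have hcc : C.dom.c = C.c := rfl
          have hLL : C.dom.L = C.L := rfl
          rw [hcc, hLL] at this
          linarith) z (by simp; exact hd.le)⟩
      · intro b' hb5 hb6 z hz
        have hb7 : 2 * r0 ≤ b' := by
          have g1 := mul_le_mul_of_nonneg_left hb2 hc3.le
          have g2 : c3 * (2 * ra) = 2 * (c3 * ra) := by ring
          rw [g2, hra0] at g1
          linarith
        apply mesh_ball hd h EQ5x63.CM_nonneg (by linarith)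
        · intro y hy
          rw [mem_closedBall_iff_norm] at hy
          have g1 := norm_tri y z p
          have g2 := Metric.mem_closedBall.1 (hRb y (by linarith))
          apply Metric.mem_closedBall.2
          have hLL : C.dom.L = C.L := rfl
          rw [hLL] at g2 ⊢
          linarith
        · apply hM
          · have g2 := Metric.mem_closedBall.1 (hRb z (by linarith))
            rw [mem_closedBall_zero_iff]
            rw [dist_eq_norm] at g2
            have g3 := norm_add_le (z - C.dom.c) C.dom.c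
            rw [sub_add_cancel] at g3
            have hLL : C.dom.L = C.L := rfl
            rw [hLL] at g2 ⊢
            linarith
          · linarith
          · have g4 : (2 : ℝ) ^ (k0 + 1) = 2 * R1 := by
              rw [zpow_add₀ (by norm_num), zpow_one, mul_comm]
            rw [g4] at hk1
            linarith
      · exact hdc.trans (mul_le_mul_of_nonneg_left (by linarith) hc1.le)
      · have := min_le_left q0 1
        linarith
    · intro u v huv hu
      have g0 : (8 : ℝ) ^ m * (2 * ra) = 4 * 8 ^ m * ra / 2 := by ring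
      have g1 := hHG.step u v huv (by linarith)
      linarith
  -- the law of free chains
  have hfree := free_VV hHG
  refine D3Hx802.est hHG (η := η) ?_
  intro v hv a b hab
  have hgd : D3Ex802.Gd S V (v, a, b) := by
    have hex := H.out.hnet.hex i
    refine D3Ex802.gdS_conn H.out.gp hex ?_ (conn_hull H hs hR (by linarith) hRi hv) a b hab
    intro hw
    exact (full_not_hull H.out.hnet (W1_full hHG (mem_VV.1 hw).1) _).2 hex
  have hlaw := D3Fx802.law H.out.hnet hfree hgd p (r0 + 2 * (2 * d)) (R1 - 2 * d)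
  refine hlaw.trans ?_
  apply mul_le_mul_of_nonneg_right _ (Nat.cast_nonneg _)
  linarith

theorem bde_of_rbm (h : RBmx838.RBm) : BDE := bdem (cbm_of h)

end Crest.Agent.R143.BdeMx422
end
end

-- ▼ part R143/D3K_802

/-!
# Row 143 (S0194), block D3 without (E3), part 6: leaf LALB of the spine from RSW only (helper802)

* `quenchedE` : heights of the quenched observable
* `lalbE` : **CBp → LALB Dom.Ad**
-/

set_option autoImplicit false

noncomputable section

open scoped Classical ENNReal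

namespace Crest.Agent.R143.D3Kx802

open Set MeasureTheory Filter Topology
open Crest.ProbabilityR.Voronoi
open Crest.Agent.R143.B0x346 Crest.Agent.R143.B0Dx346 Crest.Agent.R143.Oscx63
open Crest.Agent.R143.DelGx806 Crest.Agent.R143.Circx63 Crest.Agent.R143.Scalx63
open Crest.Agent.R143.EQ2x63 Crest.Agent.R143.Locx922 Crest.Agent.R143.Cfgx416
open Crest.Agent.R143.Ex0x922 Crest.Agent.R143.Wlkx802 Crest.Agent.R143.D3Ax802
open Crest.Agent.R143.Sidesx697 Crest.Agent.R143.G6Wx723 Crest.Agent.R143.PP1x831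
open Crest.Agent.R143.D3Bx802 Crest.Agent.R143.EQ5x63 Crest.Agent.R143.Spinex422
open Crest.Agent.R143.D3Cx802 Crest.Agent.R143.D3Jx802

variable {n : ℕ} {C : Cfg n} {S : Finset ℂ} {δ d : ℝ} {i : ZMod 3} {p : ℂ} {R0 s K : ℝ}
  {G T : Set ℂ}

/-- **the quenched estimate** -/
theorem quenchedE {N : ℕ} {c1 η : ℝ} (hc1 : 0 < c1) (hB : BDEat η N c1) (hn : 3 ≤ n)
    (hC : C.OK δ) (hs : 0 < s)
    (hball : Metric.closedBall p R0 ⊆ Metric.closedBall C.c (C.L / 2))
    (hR : (C.dom.R i ∩ Metric.ball p s).Nonempty) (hK : 0 < K)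
    {z : ℂ} (hz : dist z p < s) (hG : LocC C.dom {i} p R0 z K G) {m : ℝ} (hm : 0 < m)
    (hL : Linked C.dom m z) {k0 : ℤ} (hk1 : (2 : ℝ) ^ (k0 + 1) ≤ 1)
    (hk0 : (2 : ℝ) ^ k0 < R0) (hsk : s < (2 : ℝ) ^ (k0 - N)) :
    ∃ c2 > 0, ∀ (ε d M : ℝ) (ω : Sample), Env ε d M C.dom.c C.dom.L ω → 0 < d → d ≤ c2 →
      (∀ z ∈ Metric.closedBall (0 : ℂ) (‖C.dom.c‖ + C.dom.L + 1), ∀ ρ : ℝ,
        (2 : ℝ) ^ (k0 - N) ≤ ρ → ρ ≤ 1 →
        diamSum (points ε ω) (Metric.ball z ρ) ≤ ENNReal.ofReal (CM * ρ ^ 2)) →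
      (∀ a ∈ points ε ω, ∀ b ∈ points ε ω, a ≠ b → cr (b - a) (z - a) ≠ 0) →
      0 ≤ hgt i (C.dom.h ε ω z) ∧ hgt i (C.dom.h ε ω z) ≤ η := by
  have hLp := hC.Lpos
  have hδ := hC.dpos
  have hle : (2 : ℝ) ^ (k0 - N) ≤ (2 : ℝ) ^ k0 := zpow_le_zpow_right₀ (by norm_num) (by omega)
  have he : 0 < c1 * (2 : ℝ) ^ (k0 - N) := by positivity
  set c2 := min (min (c1 * (2 : ℝ) ^ (k0 - N)) (K / 3)) (min (min (C.L / 16) (m / 3))
    (min (min ((R0 - (2 : ℝ) ^ k0) / 4) (((2 : ℝ) ^ (k0 - N) - s) / 5))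
      (δ ^ 6 / (40000 * C.L ^ 5)))) with hc2
  have p1 : 0 < (R0 - (2 : ℝ) ^ k0) / 4 := by linarith
  have p2 : 0 < ((2 : ℝ) ^ (k0 - N) - s) / 5 := by linarith
  have p3 : 0 < δ ^ 6 / (40000 * C.L ^ 5) := by positivity
  refine ⟨c2, by
    rw [hc2]
    exact lt_min (lt_min he (by positivity)) (lt_min (lt_min (by positivity) (by positivity))
      (lt_min (lt_min p1 p2) p3)), ?_⟩
  intro ε d M ω h hd hdc hM hzl
  have d1 : d ≤ c1 * (2 : ℝ) ^ (k0 - N) := hdc.trans ((min_le_left _ _).trans (min_le_left _ _))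
  have d2 : d ≤ K / 3 := hdc.trans ((min_le_left _ _).trans (min_le_right _ _))
  have d3 : d ≤ C.L / 16 :=
    hdc.trans ((min_le_right _ _).trans ((min_le_left _ _).trans (min_le_left _ _)))
  have d4 : d ≤ m / 3 :=
    hdc.trans ((min_le_right _ _).trans ((min_le_left _ _).trans (min_le_right _ _)))
  have d5 : d ≤ (R0 - (2 : ℝ) ^ k0) / 4 := hdc.trans ((min_le_right _ _).trans
    ((min_le_right _ _).trans ((min_le_left _ _).trans (min_le_left _ _))))
  have d6 : d ≤ ((2 : ℝ) ^ (k0 - N) - s) / 5 := hdc.trans ((min_le_right _ _).trans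
    ((min_le_right _ _).trans ((min_le_left _ _).trans (min_le_right _ _))))
  have d7 : d ≤ δ ^ 6 / (40000 * C.L ^ 5) := hdc.trans ((min_le_right _ _).trans
    ((min_le_right _ _).trans (min_le_right _ _)))
  have d8 : 40000 * C.L ^ 5 * d ≤ δ ^ 6 := by
    rw [le_div_iff₀ (by positivity)] at d7
    linarith
  have hW : C.dom.W δ := Adx422.w_dom hn hC
  have hS : DomAx722.Dns (C.dom.sites ε ω) C.c C.L d :=
    DomAx722.dns_of_env (D := C.dom) hLp (by show 8 * d ≤ C.L; linarith) h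
  have hO : C.Out (C.dom.sites ε ω) := DomEx722.out_S hn hC hS d8
  obtain ⟨hzG, hG0, hG1⟩ := hG
  have H : Geo C (C.dom.sites ε ω) δ d i p R0 s K G ∅ :=
    { hn := hn
      ok := hC
      out := hO
      hol := Env.hol_sites h
      dpos := hd
      dL := by linarith
      dK := by linarith
      s0 := hs
      ball := hball
      g0 := by rw [← C.dom_out]; exact hG0
      TG := empty_subset _
      g1 := fun y hy y' h1 h2 => by
        rcases hG1 y hy y' h1 h2 with h3 | ⟨i', hi', h3⟩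
        · exact Or.inl h3
        · rw [mem_singleton_iff] at hi'
          rw [hi'] at h3
          exact Or.inr h3
      g2 := fun y hy => absurd hy (notMem_empty y) }
  obtain ⟨hdet, -⟩ := hB C ε δ d M ω i p R0 s K G ∅ k0 H h (by linarith) (by linarith) d1 hk1 hM hR
  -- the triangle of `z`
  have hsites : ∀ s ∈ C.dom.sites ε ω, s ∈ points ε ω := fun s hs => ((mem_sites h.fin).1 hs).1
  have hzb : z ∈ WD C d := by
    apply Metric.mem_closedBall.2
    have := near_W H (o := z) (by linarith)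
    linarith
  have hex : ∃ t : ℂ × ℂ × ℂ, t ∈ (C.dom.netS (C.dom.sites ε ω)).T ∧ InTri z t.1 t.2.1 t.2.2 := by
    obtain ⟨a, b, c, ht, hy'⟩ := exists_tri_W hO.gp hd H.hol hzb
    obtain ⟨t, ht', hz'⟩ := EQ4x63.inTri_of ht hy'
      (fun a ha b hb => hzl a (hsites a ha) b (hsites b hb))
    exact ⟨t, by rw [hO.hnet.tri]; exact ht', hz'⟩
  obtain ⟨a, b, c, ht, hzt, hval⟩ := hval_spec hex
  rw [hO.hnet.tri] at ht
  have hzT := inT_of_inTri hzt
  have key : ∀ a b c : ℂ, (a, b, c) ∈ delT (C.dom.sites ε ω) → InT z a b c →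
      0 ≤ hgt i ((C.dom.netS (C.dom.sites ε ω)).F a b) ∧
        hgt i ((C.dom.netS (C.dom.sites ε ω)).F a b) ≤ η := by
    intro a b c ht hzT
    obtain ⟨h1, h2, h3⟩ := tri_hyp H h d8 (by linarith) (by linarith) hzG hL ht hzT
    refine hdet a (mem_WW.2 ⟨(DomEx722.mem_inn.1 h2).1, h2, Or.inl ?_, b, c, h1⟩) b c ht
    have h4 := norm_tri a z p
    rw [dist_eq_norm] at hz
    linarith
  have hrot := (g1 (C.dom.sites ε ω) hO.gp).1
  obtain ⟨a1, a2⟩ := key a b c ht hzT
  obtain ⟨b1, b2⟩ := key b c a (hrot _ _ _ ht) (InT.rot hzT)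
  obtain ⟨c1', c2'⟩ := key c a b (hrot _ _ _ (hrot _ _ _ ht)) (InT.rot (InT.rot hzT))
  unfold Dom.h
  rw [hval, hgt_mean]
  constructor <;> linarith

/-- **leaf LALB of the spine** -/
theorem lalb_of_bde (hE : BDE) : LALB Dom.Ad := by
  intro i η hη
  obtain ⟨N, c1, hN, hc1, hB⟩ := hE (η / 4) (by linarith)
  refine ⟨(2 : ℝ) ^ (N + 2), one_lt_pow₀ (by norm_num) (by omega), ?_⟩
  intro D δ hAd G hG p R0 s hs hR1 hΛ hR z hz hLoc m hm hL
  obtain ⟨n, C, hn, hC, rfl⟩ := hAd
  obtain ⟨hball, K, hK, Cc, hLocC⟩ := hLoc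
  have hΛ0 : (0 : ℝ) < (2 : ℝ) ^ (N + 2) := by positivity
  have hR0 : 0 < R0 := lt_of_lt_of_le (mul_pos hΛ0 hs) hΛ
  obtain ⟨k0, hk0⟩ := exists_mem_Ico_zpow (x := R0 / 2) (y := (2 : ℝ)) (by linarith) (by norm_num)
  rw [mem_Ico] at hk0
  have hk1 : (2 : ℝ) ^ (k0 + 1) ≤ 1 := by
    rw [zpow_add₀ (by norm_num), zpow_one]
    linarith [hk0.1]
  have hk2 : (2 : ℝ) ^ k0 < R0 := by linarith [hk0.1]
  have hsk : s < (2 : ℝ) ^ (k0 - N) := by
    have h1 : (2 : ℝ) ^ (k0 + 1) = (2 : ℝ) ^ (k0 - N) * (2 : ℝ) ^ (N + 1) := by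
      rw [← zpow_natCast, ← zpow_add₀ (by norm_num)]
      congr 1
      push_cast
      ring
    have h2 : (2 : ℝ) ^ (N + 2) = 2 * (2 : ℝ) ^ (N + 1) := by ring
    have h3 : (0 : ℝ) < (2 : ℝ) ^ (N + 1) := by positivity
    have h4 : (2 : ℝ) ^ (N + 1) * s < (2 : ℝ) ^ (N + 1) * (2 : ℝ) ^ (k0 - N) := by
      rw [h2] at hΛ
      have h5 := hk0.2
      rw [h1] at h5
      linarith
    exact lt_of_mul_lt_mul_left h4 h3.le
  obtain ⟨c2, hc2, hq⟩ := quenchedE hc1 hB hn hC hs hball hR hK hz hLocC hm hL hk1 hk2 hsk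
  set R := ‖C.dom.c‖ + C.dom.L + 1 with hRdef
  obtain ⟨C0, hC0, hhole⟩ := PoisM3cx501.m3c R 1
  have hrad := rad_lim C0
  have hbpos : 0 < (2 : ℝ) ^ (k0 - N) := by positivity
  have e1 : ∀ᶠ ε : ℝ in 𝓝[>] 0, 0 < ε := eventually_mem_nhdsWithin
  have e2 : ∀ᶠ ε : ℝ in 𝓝[>] 0, ε < min (1 / 2) (η / 24) :=
    nhdsWithin_le_nhds (eventually_lt_nhds (by positivity))
  have e3 : ∀ᶠ ε : ℝ in 𝓝[>] 0, rad C0 ε < c2 := hrad.eventually_lt_const hc2
  have e4 : ∀ᶠ ε : ℝ in 𝓝[>] 0, ε * Real.log (1 / ε) ^ (8 : ℕ) < (2 : ℝ) ^ (k0 - N) :=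
    scale_lim.eventually_lt_const hbpos
  filter_upwards [e1, e2, e3, e4, hhole, m4u R 1, hG.hm1, hG.prob] with ε h1 h2 h3 h4 h5 h6 h7 h8
  have hε1 : ε < 1 / 2 := h2.trans_le (min_le_left _ _)
  have hε2 : ε < η / 24 := h2.trans_le (min_le_right _ _)
  have hdpos : 0 < rad C0 ε := by
    unfold rad
    have : 0 < Real.log (1 / ε) := Real.log_pos (by
      rw [lt_div_iff₀ h1]; linarith)
    positivity
  -- the bad event
  set B1 : Set Sample := {ω | ∃ z ∈ Metric.closedBall (0 : ℂ) R,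
    points ε ω ∩ Metric.ball z (rad C0 ε) = ∅} with hB1
  set B2 : Set Sample := {ω | ¬ ∀ z ∈ Metric.closedBall (0 : ℂ) R, ∀ ρ : ℝ,
      ε * Real.log (1 / ε) ^ (8 : ℕ) ≤ ρ → ρ ≤ 1 →
      diamSum (points ε ω) (Metric.ball z ρ) ≤ ENNReal.ofReal (CM * ρ ^ 2)} with hB2
  set B := toMeasurable sampleLaw (B1 ∪ B2) with hB
  have hBm : MeasurableSet B := measurableSet_toMeasurable _ _
  have hBs : B1 ∪ B2 ⊆ B := subset_toMeasurable _ _
  have hBp : sampleLaw B ≤ ENNReal.ofReal (2 * ε) := by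
    rw [hB, measure_toMeasurable]
    refine (measure_union_le _ _).trans ?_
    rw [Real.rpow_one] at h5 h6
    refine (add_le_add h5 h6).trans (le_of_eq ?_)
    rw [← ENNReal.ofReal_add h1.le h1.le]
    congr 1
    ring
  -- pointwise
  have hpt : ∀ᵐ ω ∂(sampleLaw.restrict (G ε)),
      ‖hgt i (C.dom.h ε ω z)‖ ≤ η / 4 + B.indicator (fun _ => (4 : ℝ)) ω := by
    apply ae_restrict_of_ae
    filter_upwards [PoisM3x930.m3a ε h1, M3ex63.m3e ε h1 z] with ω g1 g2
    rw [Real.norm_eq_abs]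
    by_cases hω : ω ∈ B
    · rw [Set.indicator_of_mem hω]
      have a1 := norm_h_le C.dom ε ω z
      have a2 := abs_hgt_le i (C.dom.h ε ω z)
      linarith
    · rw [Set.indicator_of_notMem hω, add_zero]
      have b1 : ω ∉ B1 := fun h => hω (hBs (Or.inl h))
      have b2 : ω ∉ B2 := fun h => hω (hBs (Or.inr h))
      have hholes : ∀ z ∈ Metric.closedBall (0 : ℂ) R,
          (points ε ω ∩ Metric.ball z (rad C0 ε)).Nonempty := by
        intro z hz
        by_contra hcon
        rw [Set.not_nonempty_iff_eq_empty] at hcon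
        exact b1 ⟨z, hz, hcon⟩
      obtain ⟨M, hEnv⟩ := env_of (D := C.dom) (R := R) (by linarith) hdpos g1.1 g1.2.2 hholes
      rw [hB2, Set.mem_ofPred_eq, not_not] at b2
      obtain ⟨q1, q2⟩ := hq ε (rad C0 ε) M ω hEnv hdpos h3.le (by
        intro y hy r hr hr1
        exact b2 y hy r (h4.le.trans hr) hr1) g2
      rw [abs_of_nonneg q1]
      exact q2
  -- integrals
  have hfin : IsFiniteMeasure (sampleLaw.restrict (G ε)) := by infer_instance
  have i1 : Integrable (fun ω => C.dom.h ε ω z) (sampleLaw.restrict (G ε)) :=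
    Integrable.of_bound (h7 z) 3 (ae_of_all _ fun ω => norm_h_le C.dom ε ω z)
  have i2 : Integrable (fun ω => (C.dom.h ε ω z - omz i) / sd i) (sampleLaw.restrict (G ε)) :=
    (i1.sub (integrable_const _)).div_const _
  have i3 : Integrable (fun ω => η / 4 + B.indicator (fun _ => (4 : ℝ)) ω)
      (sampleLaw.restrict (G ε)) :=
    (integrable_const _).add ((integrable_const _).indicator hBm)
  set P := (sampleLaw.restrict (G ε)).real univ with hP
  have p1 : P ≤ 1 := by
    rw [hP, measureReal_def, Measure.restrict_apply_univ]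
    exact ENNReal.toReal_le_of_le_ofReal zero_le_one (by simpa using prob_le_one)
  have p0 : 0 ≤ P := measureReal_nonneg
  have p3 : 1 - P ≤ ε := by
    have e : P = sampleLaw.real (G ε) := by
      rw [hP, measureReal_def, Measure.restrict_apply_univ, measureReal_def]
    have e' : sampleLaw.real (G ε)ᶜ = 1 - sampleLaw.real (G ε) := by
      rw [measureReal_compl (hG.meas ε)]
      simp
    rw [e, ← e', measureReal_def]
    apply ENNReal.toReal_le_of_le_ofReal h1.le
    refine h8.trans (ENNReal.ofReal_le_ofReal ?_)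
    calc ε ^ (10 : ℝ) ≤ ε ^ (1 : ℝ) :=
          Real.rpow_le_rpow_of_exponent_ge h1 (by linarith) (by norm_num)
      _ = ε := Real.rpow_one ε
  have p2 : ((sampleLaw.restrict (G ε)).restrict B).real univ ≤ 2 * ε := by
    rw [measureReal_def, Measure.restrict_apply_univ]
    apply ENNReal.toReal_le_of_le_ofReal (by linarith)
    exact (Measure.restrict_apply_le _ _).trans hBp
  have hint : ∫ ω in G ε, (C.dom.h ε ω z - omz i) / sd i ∂sampleLaw =
      (HG C.dom G ε z - (P : ℂ) * omz i) / sd i := by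
    rw [integral_div, integral_sub i1 (integrable_const _), integral_const]
    rfl
  have e5 : (HG C.dom G ε z - omz i) / (omz (i + 1) - omz i) =
      ∫ ω in G ε, (C.dom.h ε ω z - omz i) / sd i ∂sampleLaw - ((1 - P : ℝ) : ℂ) * (omz i / sd i) := by
    rw [hint]
    show _ / sd i = _
    push_cast
    ring
  rw [e5, Complex.sub_im, Complex.im_ofReal_mul]
  have him : (∫ ω in G ε, (C.dom.h ε ω z - omz i) / sd i ∂sampleLaw).im =
      ∫ ω in G ε, hgt i (C.dom.h ε ω z) ∂sampleLaw :=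
    (Complex.imCLM.integral_comp_comm i2).symm
  rw [him]
  have b1 : |∫ ω in G ε, hgt i (C.dom.h ε ω z) ∂sampleLaw| ≤ η / 4 + 8 * ε := by
    rw [← Real.norm_eq_abs]
    refine (norm_integral_le_of_norm_le i3 hpt).trans ?_
    rw [integral_add (integrable_const _) ((integrable_const _).indicator hBm), integral_const,
      integral_indicator hBm, integral_const, smul_eq_mul, smul_eq_mul, ← hP]
    nlinarith
  have b2 : |(1 - P) * (omz i / sd i).im| ≤ ε := by
    rw [abs_mul, abs_of_nonneg (by linarith : (0 : ℝ) ≤ 1 - P)]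
    have h9 : |(omz i / sd i).im| ≤ 1 := by
      refine (Complex.abs_im_le_norm _).trans ?_
      rw [norm_div, D3Ax802.norm_omz]
      exact div_le_one_of_le₀ (one_le_sd i) (norm_nonneg _)
    calc (1 - P) * |(omz i / sd i).im| ≤ (1 - P) * 1 :=
          mul_le_mul_of_nonneg_left h9 (by linarith)
      _ ≤ ε := by linarith
  have b3 := abs_sub (∫ ω in G ε, hgt i (C.dom.h ε ω z) ∂sampleLaw) ((1 - P) * (omz i / sd i).im)
  linarith


end Crest.Agent.R143.D3Kx802
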