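import Crest.Agent.R143.Frame8_395

/-!
# Row 143 (S0194), dichotomy without part A, 1 (helper831): root blocks in a closed map

* `root_sum` : block sums against a function supported on the root face
* `root_bil` : the product with a spin function of the same spin = amplitudes of thetas
* `root_off` : the product with a spin function of the other spin vanishes
* `Rr`, `Br` : first moment and tail probability of a sum over the root block
-/

set_option autoImplicit false

noncomputable section

open scoped Classical

namespace Crest.Agent.R143.DicAx831

open Crest.Agent.R143.Frame1x395 Crest.Agent.R143.Frame2x395 Crest.Agent.R143.Frame3x395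
  Crest.Agent.R143.Frame4x395 Crest.Agent.R143.Frame8x395

variable {D C : Type} [Fintype D] {M : CMap D C} {x : D → ZMod 2}

/-- the sum of `f` over the block of the gap `g` -/
def bs (M : CMap D C) (x : D → ZMod 2) (f : D → ℂ) (g : D) : ℂ := ∑ k ∈ blk M x g, f k













/-! ### second moment -/





end Crest.Agent.R143.DicAx831
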