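import Crest.Agent.R143.Var2_831
import Mathlib

/-!
# R143 (helper831, Y2): quenched differences with the SUM = 1 trick, complex Efron-Stein
-/

set_option autoImplicit false
set_option linter.unusedSectionVars false

noncomputable section

namespace Crest.Agent.R143.Var3x831

open MeasureTheory Set Function
open Crest.Agent.R151.V
open Crest.Agent.R143.ESx831 Crest.Agent.R143.Revx831 Crest.Agent.R143.Lawx831
open Crest.Agent.R143.Varx831
open scoped ENNReal

section quenched

variable {I : Type*} [DecidableEq I]

/-- average over the colours -/
def av (φ : (I → unitInterval) → ℝ) : ℝ := ∫ c, φ c ∂(cl I)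


/-- nice functionals on the set `T` of colours -/
structure Nice (φ : (I → unitInterval) → ℝ) (T : Finset I) : Prop where
  meas : Measurable φ
  nonneg : ∀ c, 0 ≤ φ c
  le_one : ∀ c, φ c ≤ 1
  col : ∀ i ∈ T, ColDep φ i
  mono : ∀ i ∈ T, ∀ c, φ (update c i 1) ≤ φ (update c i 0)

variable {φ ψ : (I → unitInterval) → ℝ} {T : Finset I}

lemma Nice.abs_le (h : Nice φ T) (c : I → unitInterval) : |φ c| ≤ 1 := by
  rw [abs_of_nonneg (h.nonneg c)]; exact h.le_one c








/-- a stopping set that determines `φ` -/
structure Stop (φ : (I → unitInterval) → ℝ) (J : (I → unitInterval) → Set I) : Prop where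
  meas : ∀ i, MeasurableSet {c | i ∈ J c}
  stop : ∀ x y : I → unitInterval, (∀ i ∈ J x, x i = y i) → J y = J x
  det : ∀ x y : I → unitInterval, (∀ i ∈ J x, x i = y i) → φ y = φ x


end quenched

/-! ### complex Efron-Stein -/

section complex

variable {K : Type*} [DecidableEq K] {X : Type*} [MeasurableSpace X] (G : Measure X)
  [IsProbabilityMeasure G]






end complex

/-! ### the sum over the blocks for an integral against a kernel -/

section kernel

variable {K : Type*}


end kernel

end Crest.Agent.R143.Var3x831
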