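import Crest.Agent.R143.Law_831

/-!
# R143 (helper126), leaf Y1: symmetries of the sample law

* `reidx_mp` : reindexing a countable product and moving every coordinate preserves the product law
* `rho`, `rm`, `rpb` : the rotation by `90` degrees on cells, marks in a cell, blocks
* `Iso2` : a symmetry of the lattice of unit cells: cells `sg`, marks `mm`, motion `z ↦ e z + b`
* `Iso2.S`, `Iso2.P`, `Iso2.C` : the action on samples, positions, colours; measure preserving
* `Iso2.SK`, ... : the same on the cells of an invariant set `K` only
* `rotI m` : rotation by `90` degrees about the lattice corner `m`; `trI m` : translation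
* `fr` : frozen outside
-/

set_option autoImplicit false
set_option linter.unusedSectionVars false

noncomputable section

namespace Crest.Agent.R143.Y1x126

open MeasureTheory Set
open Crest.ProbabilityR.Voronoi
open Crest.Agent.R143.Lawx831 Crest.Agent.R143.PP0x831
open scoped ENNReal

theorem prob_sampleLaw : IsProbabilityMeasure sampleLaw := by
  unfold sampleLaw
  infer_instance

attribute [local instance] prob_sampleLaw

/-! ### products -/


/-! ### symmetries of the lattice of unit cells -/

/-- symmetry of the lattice of unit cells -/
structure Iso2 where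
  /-- cells -/
  sg : ℤ × ℤ ≃ ℤ × ℤ
  /-- marks inside a cell -/
  mm : unitInterval × unitInterval ≃ᵐ unitInterval × unitInterval
  mp : MeasurePreserving mm ((volume : Measure unitInterval).prod volume)
    ((volume : Measure unitInterval).prod volume)
  /-- rotation part -/
  e : ℂ
  /-- translation part -/
  b : ℂ
  he : ‖e‖ = 1
  pos : ∀ (k : ℤ × ℤ) (u : unitInterval × unitInterval),
    ((((sg k).1 : ℝ) + ((mm u).1 : ℝ) : ℝ) : ℂ) + ((((sg k).2 : ℝ) + ((mm u).2 : ℝ) : ℝ) : ℂ) *
      Complex.I = e * ((((k.1 : ℝ) + (u.1 : ℝ) : ℝ) : ℂ) + (((k.2 : ℝ) + (u.2 : ℝ) : ℝ) : ℂ) *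
        Complex.I) + b

/-- mark map on three marks -/
def m3 (g : unitInterval × unitInterval → unitInterval × unitInterval) (m : Fin 3 → unitInterval) :
    Fin 3 → unitInterval :=
  ![(g (m 0, m 1)).1, (g (m 0, m 1)).2, m 2]


/-- a map on blocks of positions -/
def bP (g : unitInterval × unitInterval → unitInterval × unitInterval) (x : PB) : PB :=
  (x.1, fun j => g (x.2 j))


namespace Iso2

variable (g : Iso2)

/-- action on samples -/
def S (ω : Sample) : Sample :=
  (fun k => ω.1 (g.sg.symm k), fun k j => m3 g.mm (ω.2 (g.sg.symm k) j))

/-- action on positions -/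
def P (p : Pos) : Pos := fun k => bP g.mm (p (g.sg.symm k))

/-- action on colours -/
def C (c : Col) : Col := fun q => c (g.sg.symm q.1, q.2)

















/-! #### the action on the cells of an invariant set -/









end Iso2

/-! ### frozen outside -/












/-! ### rotation by 90 degrees and translations -/

/-- rotation of the cells about the corner `m` -/
def rho (m : ℤ × ℤ) : ℤ × ℤ ≃ ℤ × ℤ where
  toFun k := (m.1 - (k.2 - m.2) - 1, m.2 + (k.1 - m.1))
  invFun k := (m.1 + (k.2 - m.2), m.2 - (k.1 - m.1) - 1)
  left_inv k := by ext <;> simp only <;> ring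
  right_inv k := by ext <;> simp only <;> ring










end Crest.Agent.R143.Y1x126
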