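import Crest.Agent.R143.Y0_831
import Crest.Agent.R143.Law_831
import Crest.Agent.R143.Var3_831
import Crest.Agent.R143.Var2_831
import Crest.Agent.R143.B0D_346
import Crest.Agent.R143.DelG_806
import Crest.Agent.R143.Y1_126
import Crest.Agent.R143.Asm_336

-- ▼ part R143/Y5D_831
section

/-!
# R143, block Y: the functionals at the level of (positions, colours) (helper831)

* `ptP`, `presP`, `SP`, `NP` : points, present indices, sites and network of the positions `p`
* `whiteP`, `wP` : white sites for the colours `c`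
* `FP D ε a b t k p c` : indicator of `SS` for the half edge `e = {a, b}` (killed, the colour of `b`
  replaced by the colour of `a`), target triangle `t`
* `GoodP` : good positions
* leaves `Y4a`, `Y5a`, `Y5b`, `Y5c`
-/

set_option autoImplicit false

noncomputable section

open scoped Classical

namespace Crest.Agent.R143.Y5Dx831

open MeasureTheory Set
open Crest.ProbabilityR.Voronoi
open Crest.Agent.R143.B0x346 Crest.Agent.R143.B0Dx346 Crest.Agent.R143.PP1x831
open Crest.Agent.R143.Y0x831 Crest.Agent.R143.Lawx831 Crest.Agent.R143.Varx831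
open Crest.Agent.R143.Var3x831

/-- the index set of the colours -/
abbrev Idx : Type := (ℤ × ℤ) × ℕ

/-- present indices -/
def presP (p : Pos) : Set Idx := {i | i.2 < (p i.1).1}

/-- the position of the index `i` -/
def ptP (ε : ℝ) (p : Pos) (i : Idx) : ℂ := point ε (mk p fun _ => 0) i.1 i.2

lemma point_mk (ε : ℝ) (p : Pos) (c : Col) (k : ℤ × ℤ) (j : ℕ) :
    point ε (mk p c) k j = ptP ε p (k, j) := by
  simp [ptP, point, mk]

lemma present_mk (p : Pos) (c : Col) (q : ℤ × ℤ × ℕ) :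
    q ∈ present (mk p c) ↔ ((q.1, q.2.1), q.2.2) ∈ presP p := by
  simp [present, presP, mk]

lemma points_mk (ε : ℝ) (p : Pos) (c : Col) : points ε (mk p c) = ptP ε p '' presP p := by
  ext z
  constructor
  · rintro ⟨q, hq, rfl⟩
    exact ⟨((q.1, q.2.1), q.2.2), (present_mk p c q).1 hq, (point_mk ε p c _ _).symm⟩
  · rintro ⟨i, hi, rfl⟩
    exact ⟨(i.1.1, i.1.2, i.2), (present_mk p c _).2 hi, point_mk ε p c _ _⟩

/-- sites of the domain -/
def SP (D : Dom) (ε : ℝ) (p : Pos) : Finset ℂ := D.sites ε (mk p fun _ => 0)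

lemma sites_mk (D : Dom) (ε : ℝ) (p : Pos) (c : Col) : D.sites ε (mk p c) = SP D ε p := by
  have h : points ε (mk p c) = points ε (mk p fun _ => 0) := by rw [points_mk, points_mk]
  unfold SP Dom.sites
  simp only [h]

/-- network of the domain -/
def NP (D : Dom) (ε : ℝ) (p : Pos) : Net ℂ := D.netS (SP D ε p)

/-- free sites -/
def IP (D : Dom) (ε : ℝ) (p : Pos) : Finset ℂ := innN (NP D ε p) (SP D ε p)

/-- white points -/
def whiteP (ε : ℝ) (p : Pos) (c : Col) : Set ℂ :=
  {v | ∃ i ∈ presP p, ptP ε p i = v ∧ ¬ ((c i : ℝ) < 1 / 2)}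

/-- white sites for the index `k` -/
def wP (D : Dom) (ε : ℝ) (k : ZMod 3) (p : Pos) (c : Col) : Set ℂ :=
  wK (NP D ε p) k (whiteP ε p c ∩ (IP D ε p : Set ℂ))

/-- the colour of `b` is replaced by the colour of `a` -/
def mrg (a b : ℂ) (w : Set ℂ) : Set ℂ := {v | if v = b then a ∈ w else v ∈ w}

/-- the functional of the half edge `(a, b)` -/
def FP (D : Dom) (ε : ℝ) (a b : ℂ) (t : ℂ × ℂ × ℂ) (k : ZMod 3) (p : Pos) (c : Col) : ℝ :=
  if SS (killE (NP D ε p) a b) k (mrg a b (wP D ε k p c)) t then 1 else 0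

/-- the white cluster of the arc -/
def CP (D : Dom) (ε : ℝ) (a b : ℂ) (k : ZMod 3) (p : Pos) (c : Col) : Set ℂ :=
  Cl (NP D ε p).toTrg (mrg a b (wP D ε k p c)) ((NP D ε p).ex (k + 1)).2

/-- the explored indices -/
def JP (D : Dom) (ε : ℝ) (a b : ℂ) (k : ZMod 3) (p : Pos) (c : Col) : Set Idx :=
  {i | i ∈ presP p ∧ ptP ε p i ∈ IP D ε p ∧
    ((ptP ε p i ≠ b ∧ Tch (NP D ε p).toTrg (CP D ε a b k p c) (ptP ε p i)) ∨
      (ptP ε p i = a ∧ Tch (NP D ε p).toTrg (CP D ε a b k p c) b))}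

/-- different present indices have different points -/
def InjP (ε : ℝ) (p : Pos) : Prop := Set.InjOn (ptP ε p) (presP p)

/-- the half edge `(a, b)` with the triangle `t = (a, b, c)` on its left, both ends free -/
structure Half (D : Dom) (ε : ℝ) (p : Pos) (a b : ℂ) (t : ℂ × ℂ × ℂ) : Prop where
  t1 : t.1 = a
  t2 : t.2.1 = b
  mem : t ∈ delT (SP D ε p)
  opp : ∃ d, (b, a, d) ∈ delT (SP D ε p)
  ina : a ∈ IP D ε p
  inb : b ∈ IP D ε p

/-- **leaf Y4a** : a deep inner site can be deleted without changing the arcs -/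
def Y4a : Prop := ∀ (D : Dom) (S : Finset ℂ) (u : ℂ), GP (S : Set ℂ) → u ∈ S →
  (∀ x y : ℂ, hullE S x y → x ≠ u ∧ y ≠ u) → voronoiCell (S : Set ℂ) u ∩ D.out = ∅ →
  (∀ k, arcN (D.netS (S.erase u)) k = arcN (D.netS S) k) ∧
  (∀ t ∈ delT S, t.1 ≠ u → t.2.1 ≠ u → t.2.2 ≠ u → t ∈ delT (S.erase u)) ∧
  (∀ x y : ℂ, hullE (S.erase u) x y ↔ hullE S x y)

/-- **leaf Y5a** : averages over the colours are counting averages -/
def Y5a : Prop := ∀ (D : Dom) (ε : ℝ) (p : Pos), 0 < ε → InjP ε p →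
  HNet (SP D ε p) (NP D ε p) → ArcOK (NP D ε p) (SP D ε p) →
  (SP D ε p : Set ℂ) ⊆ ptP ε p '' presP p →
  ∀ (a b : ℂ) (t : ℂ × ℂ × ℂ), Half D ε p a b t → ∀ k : ZMod 3,
    av (FP D ε a b t k p) =
      (((whs (killE (NP D ε p) a b) (SP D ε p) k).filter
        fun w => SS (killE (NP D ε p) a b) k (w : Set ℂ) t).card : ℝ) /
        ((whs (killE (NP D ε p) a b) (SP D ε p) k).card : ℝ)

/-- **leaf Y5b** : `FP` is nice and `JP` is a stopping set for it -/
def Y5b : Prop := ∀ (D : Dom) (ε : ℝ) (p : Pos), 0 < ε → InjP ε p →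
  HNet (SP D ε p) (NP D ε p) → ArcOK (NP D ε p) (SP D ε p) →
  (SP D ε p : Set ℂ) ⊆ ptP ε p '' presP p →
  ∀ (a b : ℂ) (t : ℂ × ℂ × ℂ), Half D ε p a b t → ∀ (k : ZMod 3),
    (∀ T : Finset Idx, Nice (FP D ε a b t k p) T) ∧ Stop (FP D ε a b t k p) (JP D ε a b k p)

/-- **leaf Y5c** : the revealment in terms of the one-arm count of `OA` -/
def Y5c : Prop := ∀ (D : Dom) (ε : ℝ) (p : Pos), 0 < ε → InjP ε p →
  HNet (SP D ε p) (NP D ε p) → ArcOK (NP D ε p) (SP D ε p) →
  (SP D ε p : Set ℂ) ⊆ ptP ε p '' presP p →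
  ∀ (a b : ℂ) (t : ℂ × ℂ × ℂ), Half D ε p a b t → ∀ (k : ZMod 3) (δ : ℝ) (B : Set ℂ), a ∈ B → b ∈ B →
    (∀ v ∈ B, v ∈ IP D ε p → (((IP D ε p).powerset.filter fun β =>
      Tch (NP D ε p).toTrg (Cl (NP D ε p).toTrg (wK (NP D ε p) k (β : Set ℂ))
        ((NP D ε p).ex (k + 1)).2) v).card : ℝ) ≤ δ * 2 ^ (IP D ε p).card) →
    ∀ i : Idx, ptP ε p i ∈ B → (cl Idx).real {c | i ∈ JP D ε a b k p c} ≤ 4 * δ

end Crest.Agent.R143.Y5Dx831
end
end

-- ▼ part R143/Y6A_831
section

/-!
# R143, block Y (helper831): deletion of a block of inner sites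

* `Del1` : deletion of one inner site (from the leaves `Y4`, `Y4a`)
* `del_block` : deletion of a finite set `U` of inner sites
* sample level: `SP_del`, `IP_del`, `wP_del`, `FP_del`
-/

set_option autoImplicit false

noncomputable section

open scoped Classical

namespace Crest.Agent.R143.Y6Ax831

open MeasureTheory Set Function
open Crest.ProbabilityR.Voronoi
open Crest.Agent.R143.B0x346 Crest.Agent.R143.B0Dx346 Crest.Agent.R143.PP1x831
open Crest.Agent.R143.Y0x831 Crest.Agent.R143.Lawx831 Crest.Agent.R143.Varx831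
open Crest.Agent.R143.Var3x831 Crest.Agent.R143.Y5Dx831

local notation "smk" => Crest.Agent.R143.Lawx831.mk
local notation "Tk" => Crest.Agent.R143.Var2x831.Tk
local notation "del" => Crest.Agent.R143.Var2x831.del

/-- no site of `t` is in `U` -/
def Off (U : Finset ℂ) (t : ℂ × ℂ × ℂ) : Prop := t.1 ∉ U ∧ t.2.1 ∉ U ∧ t.2.2 ∉ U

/-- the sites `U` are inner and remain inner whatever part of `U` has been deleted -/
structure DelOK (D : Dom) (S U : Finset ℂ) : Prop where
  gp : GP (S : Set ℂ)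
  sub : U ⊆ S
  hull : ∀ u ∈ U, ∀ x y : ℂ, hullE S x y → x ≠ u ∧ y ≠ u
  cell : ∀ u ∈ U, voronoiCell ((S \ U : Finset ℂ) ∪ {u} : Set ℂ) u ∩ D.out = ∅

lemma GP.mono {S S' : Set ℂ} (h : GP S) (hs : S' ⊆ S) : GP S' where
  line a ha b hb c hc := h.line a (hs ha) b (hs hb) c (hs hc)
  circ a ha b hb c hc e he := h.circ a (hs ha) b (hs hb) c (hs hc) e (hs he)


/-- the network after the deletion -/
structure Deleted (D : Dom) (S U : Finset ℂ) : Prop where
  arc : ∀ k, arcN (D.netS (S \ U)) k = arcN (D.netS S) k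
  tri : ∀ t ∈ delT S, Off U t → t ∈ delT (S \ U)
  hull : ∀ x y : ℂ, hullE (S \ U) x y ↔ hullE S x y
  ss : ∀ a b c : ℂ, (a, b, c) ∈ delT S → Off U (a, b, c) → ∀ (k : ZMod 3) (w : Set ℂ)
    (t : ℂ × ℂ × ℂ), t ∈ delT S → Off U t → (U : Set ℂ) ⊆ w →
      SS (killE (D.netS S) a b) k w t → SS (killE (D.netS (S \ U)) a b) k (w \ U) t


/-! ### sample level -/

/-- the points of block `k'` -/
def Ub (ε : ℝ) (p : Pos) (k' : ℤ × ℤ) : Finset ℂ := (Tk p k').image (ptP ε p)

/-- block `k'` can be deleted -/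
structure BlkOK (D : Dom) (ε : ℝ) (p : Pos) (k' : ℤ × ℤ) : Prop where
  inj : InjP ε p
  fin : (points ε (smk p fun _ => 0) ∩ Metric.closedBall D.c D.L).Finite
  dok : DelOK D (SP D ε p) (Ub ε p k')
  inn : Ub ε p k' ⊆ IP D ε p

variable {D : Dom} {ε : ℝ} {p : Pos} {k' : ℤ × ℤ}





lemma mem_SP (hfin : (points ε (smk p fun _ => 0) ∩ Metric.closedBall D.c D.L).Finite) {v : ℂ} :
    v ∈ SP D ε p ↔ v ∈ points ε (smk p fun _ => 0) ∩ Metric.closedBall D.c D.L := by
  unfold SP Dom.sites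
  rw [dif_pos hfin, Set.Finite.mem_toFinset]







end Crest.Agent.R143.Y6Ax831
end
end

-- ▼ part R143/B1c_796
section

/-!
# Row 143 (S0194), PART B, leaf B1: the observable as a step function on the open Delaunay triangles
(helper796)
-/

set_option autoImplicit false

noncomputable section

open scoped Classical

namespace Crest.Agent.R143.B1cx796

open Complex Set Filter Topology MeasureTheory
open Crest.Agent.R143.B0x346 Crest.Agent.R143.B0Dx346 Crest.Agent.R143.DelGx806

/-- mean of the observable over the sides of a triangle -/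
def hm (N : Net ℂ) (t : ℂ × ℂ × ℂ) : ℂ := (N.F t.1 t.2.1 + N.F t.2.1 t.2.2 + N.F t.2.2 t.1) / 3

/-- rotation -/
def rt (t : ℂ × ℂ × ℂ) : ℂ × ℂ × ℂ := (t.2.1, t.2.2, t.1)



/-- the open triangle -/
def opn (t : ℂ × ℂ × ℂ) : Set ℂ := {z | InTri z t.1 t.2.1 t.2.2}





variable {S : Finset ℂ} {N : Net ℂ}








end Crest.Agent.R143.B1cx796
end
end

-- ▼ part R143/Y6B_831
section

/-!
# R143, block Y (helper831): quenched bound for the change of the observable under the deletion of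
the far blocks

* `F_edge` : the observable at an edge between free sites in terms of the averages `av (FP ..)`
* `edge_diff` : one edge, one deleted block
* `sum_Lam_le` : the sum over the far blocks
* `sum_hval_le` : `∑_{k'} ‖h^p(z) - h^{del k' p}(z)‖² ≤ 324 M 4^M δ`
-/

set_option autoImplicit false

noncomputable section

open scoped Classical

namespace Crest.Agent.R143.Y6Bx831

open MeasureTheory Set Function
open Crest.ProbabilityR.Voronoi
open Crest.Agent.R143.B0x346 Crest.Agent.R143.B0Dx346 Crest.Agent.R143.PP1x831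
open Crest.Agent.R143.Y0x831 Crest.Agent.R143.Lawx831 Crest.Agent.R143.Varx831
open Crest.Agent.R143.Var3x831 Crest.Agent.R143.Y5Dx831 Crest.Agent.R143.Y6Ax831
open Crest.Agent.R143.B1cx796

local notation "smk" => Crest.Agent.R143.Lawx831.mk
local notation "Tk" => Crest.Agent.R143.Var2x831.Tk
local notation "del" => Crest.Agent.R143.Var2x831.del

/-- good positions (network level) -/
structure YG (D : Dom) (ε : ℝ) (p : Pos) : Prop where
  inj : InjP ε p
  fin : (points ε (smk p fun _ => 0) ∩ Metric.closedBall D.c D.L).Finite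
  hnet : HNet (SP D ε p) (NP D ε p)
  arc : ArcOK (NP D ε p) (SP D ε p)

/-- a good edge between two free sites -/
structure Edg (D : Dom) (ε : ℝ) (p : Pos) (a b : ℂ) : Prop where
  l : ∃ c, (a, b, c) ∈ delT (SP D ε p)
  r : ∃ c, (b, a, c) ∈ delT (SP D ε p)
  ia : a ∈ IP D ε p
  ib : b ∈ IP D ε p
  eqc : ((NP D ε p).hj a b).card = ((NP D ε p).hj b a).card
  ne : ((NP D ε p).hj a b).card ≠ 0

variable {D : Dom} {ε : ℝ} {p : Pos} {k' : ℤ × ℤ} {a b : ℂ} {t t' : ℂ × ℂ × ℂ}

lemma Edg.symm (h : Edg D ε p a b) : Edg D ε p b a :=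
  ⟨h.r, h.l, h.ib, h.ia, h.eqc.symm, fun h0 => h.ne (h.eqc.trans h0)⟩













/-- the data of one edge for `p` and for the deletion of block `k'` -/
structure EdgD (D : Dom) (ε : ℝ) (p : Pos) (k' : ℤ × ℤ) (a b : ℂ) (t t' : ℂ × ℂ × ℂ) : Prop where
  e : Edg D ε p a b
  e' : Edg D ε (del k' p) a b
  hl : Half D ε p a b t
  hr : Half D ε p b a t'
  hl' : Half D ε (del k' p) a b t
  hr' : Half D ε (del k' p) b a t'
  ol : Off (Ub ε p k') t
  or : Off (Ub ε p k') t'




/-- the three edges of a triangle, `t i` is the triangle on the left of the edge `i` (a rotation of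
`t`), `s i` the one on the right -/
structure TriD (D : Dom) (ε : ℝ) (p : Pos) (k' : ℤ × ℤ) (t s0 s1 s2 : ℂ × ℂ × ℂ) : Prop where
  e0 : EdgD D ε p k' t.1 t.2.1 t s0
  e1 : EdgD D ε p k' t.2.1 t.2.2 (rt t) s1
  e2 : EdgD D ε p k' t.2.2 t.1 (rt (rt t)) s2




end Crest.Agent.R143.Y6Bx831
end
end

-- ▼ part R143/Y8D_831

/-!
# R143, block Y (helper831): literal leaves of the concentration step

* `Y8` : geometry of the deletion of one block in a good environment (deterministic)
* `M5Y` : measurability of the observable on the good positions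
* `M6` : no block near the origin with more than `η log(1/ε)` points
* `M7` : no site on a given ray
* `YOUT` : the output (concentration of the mollified derivatives of the reference observable)
-/

set_option autoImplicit false

noncomputable section

open scoped Classical

namespace Crest.Agent.R143.Y8Dx831

open MeasureTheory Set Filter Topology
open Crest.ProbabilityR.Voronoi
open Crest.Agent.R143.B0x346 Crest.Agent.R143.B0Dx346 Crest.Agent.R143.PP1x831
open Crest.Agent.R143.Y0x831 Crest.Agent.R143.Lawx831 Crest.Agent.R143.Varx831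
open Crest.Agent.R143.Var3x831 Crest.Agent.R143.Y5Dx831 Crest.Agent.R143.Y6Ax831
open Crest.Agent.R143.Y6Bx831 Crest.Agent.R143.B1cx796 Crest.Agent.R143.Y1x126
open Crest.Agent.R143.Mollx887 Crest.Agent.R143.Asmx336
open scoped ENNReal

local notation "smk" => Crest.Agent.R143.Lawx831.mk
local notation "Tk" => Crest.Agent.R143.Var2x831.Tk
local notation "del" => Crest.Agent.R143.Var2x831.del

/-- the closed cell `k` of the lattice at scale `ε` -/
def cellS (ε : ℝ) (k : ℤ × ℤ) : Set ℂ :=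
  {z | ∃ x y : ℝ, 0 ≤ x ∧ x ≤ 1 ∧ 0 ≤ y ∧ y ≤ 1 ∧
    z = (ε : ℂ) * ((((k.1 : ℝ) + x : ℝ) : ℂ) + (((k.2 : ℝ) + y : ℝ) : ℂ) * Complex.I)}

/-- `R1` is a radius of the free disc of `D` -/
structure Free1 (D : Dom) (R1 : ℝ) : Prop where
  pos : 0 < R1
  out : Metric.closedBall D.c (4 * R1) ∩ D.out = ∅
  le : 8 * R1 ≤ D.L



/-- positions on which the observable is a measurable function -/
structure GdP (D : Dom) (ε d : ℝ) (p : Pos) : Prop where
  env : ∃ M : ℝ, Env ε d M D.c D.L (smk p fun _ => 0)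
  inj : InjP ε p
  /-- no site on the three rays -/
  ray : ∀ k : ZMod 3, ∀ v ∈ points ε (smk p fun _ => 0), ∀ t : ℝ, 0 ≤ t → v ≠ D.c + t * D.q k






end Crest.Agent.R143.Y8Dx831
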