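import Crest.Agent.R143.B0D_346
import Crest.Agent.R143.DelG_806
import Crest.Agent.R143.DelR_806
import Crest.Agent.R143.Loc_922
import Crest.Agent.R143.PoisM3_930
import Crest.Agent.R143.DomA_722
import Crest.Agent.R143.Y8D_831
import Crest.Agent.R143.Spine_422
import Crest.Agent.R143.Ad_422
import Crest.Agent.R143.PoisM3c_501

-- ▼ part R143/M5A_606
section

/-!
# Row 143, block M, leaf M5 part A (helper606): deterministic transport of the observable

* `F_map` : the observable `F` of a network is transported by an injective relabelling of the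
  vertices which respects triangles, killed edges (on edges) and marks.
* `hval_eq` : for sites `x : Fin n → ℂ` in general position, `hval (D.netS S) z` is a finite sum over
  the triangles of an abstract network on `Fin n`.
-/

set_option autoImplicit false

noncomputable section

open scoped Classical

namespace Crest.Agent.R143.M5Ax606

open Crest.Agent.R143.B0x346 Crest.Agent.R143.B0Dx346

variable {V W : Type}

/-- the embedding on pairs -/
def pe (f : V ↪ W) : V × V ↪ W × W := f.prodMap f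

@[simp] theorem pe_apply (f : V ↪ W) (p : V × V) : pe f p = (f p.1, f p.2) := rfl

theorem pe_mem_map (f : V ↪ W) (J : Finset (V × V)) (a b : V) :
    (f a, f b) ∈ J.map (pe f) ↔ (a, b) ∈ J := by
  have : (f a, f b) = pe f (a, b) := rfl
  rw [this, Finset.mem_map' (pe f)]

/-- the embedding on joins -/
def je (f : V ↪ W) : Finset (V × V) ↪ Finset (W × W) := (Finset.mapEmbedding (pe f)).toEmbedding

@[simp] theorem je_apply (f : V ↪ W) (J : Finset (V × V)) : je f J = J.map (pe f) := rfl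

/-- relabelling of triangulations -/
structure TMap (f : V ↪ W) (G : Trg V) (G' : Trg W) : Prop where
  iff : ∀ a b c, (f a, f b, f c) ∈ G'.T ↔ (a, b, c) ∈ G.T
  surj : ∀ t ∈ G'.T, ∃ a b c, t = (f a, f b, f c)

variable {f : V ↪ W} {G : Trg V} {G' : Trg W}

theorem mem_E {G : Trg V} {a b : V} :
    (a, b) ∈ G.E ↔ (∃ c, (a, b, c) ∈ G.T) ∨ (∃ c, (b, a, c) ∈ G.T) := by
  unfold Trg.E
  simp only [Finset.mem_union, Finset.mem_image, Prod.exists, Prod.mk.injEq]
  constructor
  · rintro (⟨x, y, z, h, rfl, rfl⟩ | ⟨x, y, z, h, rfl, rfl⟩)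
    · exact Or.inl ⟨z, h⟩
    · exact Or.inr ⟨z, h⟩
  · rintro (⟨c, h⟩ | ⟨c, h⟩)
    · exact Or.inl ⟨a, b, c, h, rfl, rfl⟩
    · exact Or.inr ⟨b, a, c, h, rfl, rfl⟩

theorem E_symm {G : Trg V} {a b : V} (h : (a, b) ∈ G.E) : (b, a) ∈ G.E := by
  rw [mem_E] at h ⊢; exact h.symm

theorem TMap.third (h : TMap f G G') {a b : V} {c' : W} (hc : (f a, f b, c') ∈ G'.T) :
    ∃ c, c' = f c ∧ (a, b, c) ∈ G.T := by
  obtain ⟨x, y, z, e⟩ := h.surj _ hc
  simp only [Prod.mk.injEq] at e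
  obtain ⟨e1, e2, e3⟩ := e
  have e1 := f.injective e1
  have e2 := f.injective e2
  subst e1; subst e2; subst e3
  exact ⟨z, rfl, (h.iff _ _ _).1 hc⟩

theorem TMap.memE (h : TMap f G G') {a b : V} : (f a, f b) ∈ G'.E ↔ (a, b) ∈ G.E := by
  rw [mem_E, mem_E]
  constructor
  · rintro (⟨c, hc⟩ | ⟨c, hc⟩)
    · obtain ⟨c, -, hc1⟩ := h.third hc; exact Or.inl ⟨c, hc1⟩
    · obtain ⟨c, -, hc1⟩ := h.third hc; exact Or.inr ⟨c, hc1⟩
  · rintro (⟨c, hc⟩ | ⟨c, hc⟩)
    · exact Or.inl ⟨f c, (h.iff _ _ _).2 hc⟩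
    · exact Or.inr ⟨f c, (h.iff _ _ _).2 hc⟩

theorem TMap.E_surj (h : TMap f G G') {a' b' : W} (he : (a', b') ∈ G'.E) :
    ∃ a b, a' = f a ∧ b' = f b := by
  rw [mem_E] at he
  rcases he with ⟨c, hc⟩ | ⟨c, hc⟩
  · obtain ⟨x, y, z, e⟩ := h.surj _ hc
    simp only [Prod.mk.injEq] at e
    exact ⟨x, y, e.1, e.2.1⟩
  · obtain ⟨x, y, z, e⟩ := h.surj _ hc
    simp only [Prod.mk.injEq] at e
    exact ⟨y, x, e.2.1, e.1⟩

theorem TMap.E_eq (h : TMap f G G') : G'.E = G.E.map (pe f) := by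
  ext ⟨a', b'⟩
  constructor
  · intro he
    obtain ⟨a, b, rfl, rfl⟩ := h.E_surj he
    rw [pe_mem_map]; exact h.memE.1 he
  · intro he
    rw [Finset.mem_map] at he
    obtain ⟨⟨a, b⟩, hm, e⟩ := he
    rw [← e]; exact h.memE.2 hm

/-- pairs not in the range are not in a mapped set -/
theorem mem_map_range {J : Finset (V × V)} {a' b' : W} (h : (a', b') ∈ J.map (pe f)) :
    ∃ a b, a' = f a ∧ b' = f b ∧ (a, b) ∈ J := by
  rw [Finset.mem_map] at h
  obtain ⟨⟨a, b⟩, hm, e⟩ := h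
  simp only [pe_apply, Prod.mk.injEq] at e
  exact ⟨a, b, e.1.symm, e.2.symm, hm⟩

theorem TMap.isJoin (h : TMap f G G') {kl : Set (V × V)} {kl' : Set (W × W)}
    (hk : ∀ a b, (a, b) ∈ G.E → ((f a, f b) ∈ kl' ↔ (a, b) ∈ kl))
    {O : Set (V × V × V)} {O' : Set (W × W × W)}
    (hO : ∀ a b c, (f a, f b, f c) ∈ O' ↔ (a, b, c) ∈ O)
    {D : Set (V × V)} {D' : Set (W × W)}
    (hD : ∀ a b, (f a, f b) ∈ D' ↔ (a, b) ∈ D) (hD' : ∀ p ∈ D', ∃ a b, p = (f a, f b))
    (J : Finset (V × V)) :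
    IsJoin G' kl' O' D' (J.map (pe f)) ↔ IsJoin G kl O D J := by
  constructor
  · intro H
    refine ⟨?_, ?_, ?_, ?_, ?_, ?_⟩
    · rintro ⟨a, b⟩ hab
      have := H.sub ((pe_mem_map f J a b).2 hab)
      exact h.memE.1 this
    · intro a b h1 h2
      have := H.sym (f a) (f b) (by rwa [hD]) (by rwa [hD])
      rwa [pe_mem_map, pe_mem_map] at this
    · intro a b h1
      have := H.mark (f a) (f b) (by rwa [hD])
      rwa [pe_mem_map, pe_mem_map] at this
    · intro a b h1 h2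
      have := H.bdr (f a) (f b) (fun c' hc => by
        obtain ⟨c, -, hc1⟩ := h.third hc
        exact h1 c hc1) (by rwa [hD])
      rwa [pe_mem_map, pe_mem_map] at this
    · intro a b h1 h2 h3
      by_cases he : (a, b) ∈ G.E
      · have := H.kill (f a) (f b) ((hk a b he).2 h1) (by rwa [hD]) (by rwa [hD])
        rwa [pe_mem_map, pe_mem_map] at this
      · constructor
        · intro hab
          exact he (h.memE.1 (H.sub ((pe_mem_map f J a b).2 hab)))
        · intro hab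
          exact he (E_symm (h.memE.1 (H.sub ((pe_mem_map f J b a).2 hab))))
    · intro a b c hc
      have := H.par (f a) (f b) (f c) ((h.iff _ _ _).2 hc)
      simp only [pe_mem_map, hO] at this
      exact this
  · intro H
    refine ⟨?_, ?_, ?_, ?_, ?_, ?_⟩
    · rw [h.E_eq]
      exact Finset.map_subset_map.2 H.sub
    · intro a' b' h1 h2
      constructor
      · intro hab
        obtain ⟨a, b, rfl, rfl, hm⟩ := mem_map_range hab
        rw [pe_mem_map]
        exact (H.sym a b (by rwa [← hD]) (by rwa [← hD])).1 hm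
      · intro hab
        obtain ⟨b, a, rfl, rfl, hm⟩ := mem_map_range hab
        rw [pe_mem_map]
        exact (H.sym a b (by rwa [← hD]) (by rwa [← hD])).2 hm
    · intro a' b' h1
      obtain ⟨a, b, e⟩ := hD' _ h1
      simp only [Prod.mk.injEq] at e
      obtain ⟨rfl, rfl⟩ := e
      rw [pe_mem_map, pe_mem_map]
      exact H.mark a b (by rwa [← hD])
    · intro a' b' h1 h2
      constructor
      · intro hab
        obtain ⟨a, b, rfl, rfl, hm⟩ := mem_map_range hab
        exact (H.bdr a b (fun c hc => h1 (f c) ((h.iff _ _ _).2 hc)) (by rwa [← hD])).1 hm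
      · intro hab
        obtain ⟨b, a, rfl, rfl, hm⟩ := mem_map_range hab
        exact (H.bdr a b (fun c hc => h1 (f c) ((h.iff _ _ _).2 hc)) (by rwa [← hD])).2 hm
    · intro a' b' h1 h2 h3
      constructor
      · intro hab
        obtain ⟨a, b, rfl, rfl, hm⟩ := mem_map_range hab
        exact (H.kill a b ((hk a b (H.sub hm)).1 h1) (by rwa [← hD]) (by rwa [← hD])).1 hm
      · intro hab
        obtain ⟨b, a, rfl, rfl, hm⟩ := mem_map_range hab
        exact (H.kill a b ((hk a b (E_symm (H.sub hm))).1 h1) (by rwa [← hD]) (by rwa [← hD])).2 hm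
    · intro a' b' c' hc
      obtain ⟨a, b, c, e⟩ := h.surj _ hc
      simp only [Prod.mk.injEq] at e
      obtain ⟨rfl, rfl, rfl⟩ := e
      simp only [pe_mem_map, hO]
      exact H.par a b c ((h.iff _ _ _).1 hc)

theorem TMap.joins_eq (h : TMap f G G') {kl : Set (V × V)} {kl' : Set (W × W)}
    (hk : ∀ a b, (a, b) ∈ G.E → ((f a, f b) ∈ kl' ↔ (a, b) ∈ kl))
    {O : Set (V × V × V)} {O' : Set (W × W × W)}
    (hO : ∀ a b c, (f a, f b, f c) ∈ O' ↔ (a, b, c) ∈ O)
    {D : Set (V × V)} {D' : Set (W × W)}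
    (hD : ∀ a b, (f a, f b) ∈ D' ↔ (a, b) ∈ D) (hD' : ∀ p ∈ D', ∃ a b, p = (f a, f b)) :
    joins G' kl' O' D' = (joins G kl O D).map (je f) := by
  ext J'
  simp only [joins, Finset.mem_filter, Finset.mem_powerset, Finset.mem_map, je_apply]
  constructor
  · rintro ⟨h1, h2⟩
    rw [h.E_eq] at h1
    obtain ⟨J, hJ, rfl⟩ := Finset.subset_map_iff.1 h1
    exact ⟨J, ⟨hJ, (h.isJoin hk hO hD hD' J).1 h2⟩, rfl⟩
  · rintro ⟨J, ⟨h1, h2⟩, rfl⟩
    refine ⟨?_, (h.isJoin hk hO hD hD' J).2 h2⟩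
    rw [h.E_eq]
    exact Finset.map_subset_map.2 h1

theorem TMap.step (h : TMap f G G') {O : Set (V × V × V)} {O' : Set (W × W × W)}
    (hO : ∀ a b c, (f a, f b, f c) ∈ O' ↔ (a, b, c) ∈ O)
    {D : Set (V × V)} {D' : Set (W × W)}
    (hD : ∀ a b, (f a, f b) ∈ D' ↔ (a, b) ∈ D) (J : Finset (V × V)) (p : V × V) (q' : W × W) :
    Step G' O' D' (J.map (pe f)) (pe f p) q' ↔ ∃ q, q' = pe f q ∧ Step G O D J p q := by
  obtain ⟨a, b⟩ := p
  simp only [Step, pe_apply]
  constructor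
  · rintro ⟨c', h1, h2, h3, h4⟩
    obtain ⟨c, rfl, hc⟩ := h.third h1
    rw [hO] at h2
    rw [hD] at h3
    simp only [pe_mem_map] at h4
    rcases h4 with ⟨h4, rfl⟩ | ⟨h4, h5, rfl⟩
    · exact ⟨(c, b), rfl, c, hc, h2, h3, Or.inl ⟨h4, rfl⟩⟩
    · exact ⟨(a, c), rfl, c, hc, h2, h3, Or.inr ⟨h4, h5, rfl⟩⟩
  · rintro ⟨q, rfl, c, h1, h2, h3, h4⟩
    refine ⟨f c, (h.iff _ _ _).2 h1, by rwa [hO], by rwa [hD], ?_⟩
    simp only [pe_mem_map]
    rcases h4 with ⟨h4, rfl⟩ | ⟨h4, h5, rfl⟩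
    · exact Or.inl ⟨h4, rfl⟩
    · exact Or.inr ⟨h4, h5, rfl⟩

theorem TMap.leads (h : TMap f G G') {O : Set (V × V × V)} {O' : Set (W × W × W)}
    (hO : ∀ a b c, (f a, f b, f c) ∈ O' ↔ (a, b, c) ∈ O)
    {D : Set (V × V)} {D' : Set (W × W)}
    (hD : ∀ a b, (f a, f b) ∈ D' ↔ (a, b) ∈ D) (J : Finset (V × V)) (p q : V × V) :
    Leads G' O' D' (J.map (pe f)) (pe f p) (pe f q) ↔ Leads G O D J p q := by
  constructor
  · intro H
    have key : ∀ r' : W × W, Leads G' O' D' (J.map (pe f)) (pe f p) r' →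
        ∃ r, r' = pe f r ∧ Leads G O D J p r := by
      intro r' hr
      induction hr with
      | refl => exact ⟨p, rfl, Relation.ReflTransGen.refl⟩
      | tail _ hst ih =>
        obtain ⟨r, rfl, hr⟩ := ih
        obtain ⟨s, rfl, hs⟩ := (h.step hO hD J r _).1 hst
        exact ⟨s, rfl, Relation.ReflTransGen.tail hr hs⟩
    obtain ⟨r, e, hr⟩ := key _ H
    rw [(pe f).injective e]; exact hr
  · intro H
    induction H with
    | refl => exact Relation.ReflTransGen.refl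
    | tail _ hst ih => exact Relation.ReflTransGen.tail ih ((h.step hO hD J _ _).2 ⟨_, rfl, hst⟩)

/-- relabelling of networks -/
structure NMap (f : V ↪ W) (N : Net V) (N' : Net W) : Prop extends TMap f N.toTrg N'.toTrg where
  kl : ∀ a b, (a, b) ∈ N.toTrg.E → ((f a, f b) ∈ N'.kl ↔ (a, b) ∈ N.kl)
  ex : ∀ k, N'.ex k = (f (N.ex k).1, f (N.ex k).2)

variable {N : Net V} {N' : Net W}

theorem NMap.exS (h : NMap f N N') (a b : V) : (f a, f b) ∈ N'.exS ↔ (a, b) ∈ N.exS := by
  simp only [Net.exS, Set.mem_range, h.ex]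
  constructor
  · rintro ⟨k, e⟩
    simp only [Prod.mk.injEq] at e
    exact ⟨k, Prod.ext (f.injective e.1) (f.injective e.2)⟩
  · rintro ⟨k, e⟩
    exact ⟨k, by rw [e]⟩

theorem NMap.exS_range (h : NMap f N N') : ∀ p ∈ N'.exS, ∃ a b, p = (f a, f b) := by
  rintro p ⟨k, rfl⟩
  exact ⟨_, _, h.ex k⟩

theorem NMap.exSu (h : NMap f N N') (x y a b : V) :
    (f a, f b) ∈ N'.exS ∪ {(f x, f y)} ↔ (a, b) ∈ N.exS ∪ {(x, y)} := by
  simp only [Set.mem_union, h.exS, Set.mem_singleton_iff, Prod.mk.injEq, f.injective.eq_iff]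

theorem NMap.exSu_range (h : NMap f N N') (x y : V) :
    ∀ p ∈ N'.exS ∪ {(f x, f y)}, ∃ a b, p = (f a, f b) := by
  rintro p (hp | hp)
  · exact h.exS_range p hp
  · exact ⟨x, y, hp⟩

theorem NMap.hj (h : NMap f N N') (x y : V) : N'.hj (f x) (f y) = (N.hj x y).map (je f) :=
  h.toTMap.joins_eq h.kl (by simp) (h.exSu x y) (h.exSu_range x y)

theorem NMap.ends (h : NMap f N N') (x y : V) (J : Finset (V × V)) (k : ZMod 3) :
    Ends N'.toTrg ∅ (N'.exS ∪ {(f x, f y)}) (J.map (pe f)) (f x, f y) (N'.ex k) ↔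
      Ends N.toTrg ∅ (N.exS ∪ {(x, y)}) J (x, y) (N.ex k) := by
  have := h.toTMap.leads (O := ∅) (O' := ∅) (by simp) (h.exSu x y) J (x, y)
    ((N.ex k).2, (N.ex k).1)
  unfold Ends
  rw [h.ex k]
  exact this

theorem NMap.cnt (h : NMap f N N') (x y : V) (k : ZMod 3) :
    N'.cnt (f x) (f y) k = N.cnt x y k := by
  unfold Net.cnt
  rw [h.hj, Finset.filter_map, Finset.card_map]
  congr 1
  apply Finset.filter_congr
  intro J _
  exact h.ends x y J k

theorem NMap.card_hj (h : NMap f N N') (x y : V) : (N'.hj (f x) (f y)).card = (N.hj x y).card := by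
  rw [h.hj, Finset.card_map]

theorem NMap.Fob (h : NMap f N N') (x y : V) : N'.Fob (f x) (f y) = N.Fob x y := by
  unfold Net.Fob
  simp only [h.cnt, h.card_hj]

theorem NMap.F (h : NMap f N N') (x y : V) : N'.F (f x) (f y) = N.F x y := by
  have e : (fun k => N'.ex k = (f x, f y) ∨ N'.ex k = (f y, f x)) =
      fun k => N.ex k = (x, y) ∨ N.ex k = (y, x) := by
    funext k
    rw [h.ex]
    simp only [f.injective.eq_iff, Prod.ext_iff]
  unfold Net.F
  rw [h.Fob]
  simp only [e]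


/-! ### (A2) -/

theorem rot_inTri {z a b c : ℂ} (h : InTri z a b c) : InTri z b c a := ⟨h.2.1, h.2.2, h.1⟩

/-- uniqueness of the triangle containing `z` -/
theorem tri_unique {S : Finset ℂ} (hS : GP (S : Set ℂ)) {z : ℂ} {t t' : ℂ × ℂ × ℂ}
    (h : t ∈ delT S) (h' : t' ∈ delT S) (hz : InTri z t.1 t.2.1 t.2.2)
    (hz' : InTri z t'.1 t'.2.1 t'.2.2) : t' ∈ rots t := by
  obtain ⟨a, b, c⟩ := t
  obtain ⟨a', b', c'⟩ := t'
  obtain ⟨o, ho⟩ := DelGx806.mem_delT_iff.1 h
  obtain ⟨o', ho'⟩ := DelGx806.mem_delT_iff.1 h'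
  exact DelGx806.disj hS ho ho' hz (DelGx806.InO.inT hz')

/-- **(A2)** general form: `N₀` a network on the Delaunay triangulation of `S`, `N` a copy of it on
labels -/
theorem hval_copy {S : Finset ℂ} (hS : GP (S : Set ℂ)) (N₀ : Net ℂ) (h0 : N₀.T = delT S)
    {f : V ↪ ℂ} {N : Net V} (h : NMap f N N₀) (z : ℂ) :
    hval N₀ z = ∑ t ∈ N.T, if InTri z (f t.1) (f t.2.1) (f t.2.2) then
      (N.F t.1 t.2.1 + N.F t.2.1 t.2.2 + N.F t.2.2 t.1) / 9 else 0 := by
  rw [← Finset.sum_filter]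
  by_cases hz : ∃ t : ℂ × ℂ × ℂ, t ∈ N₀.T ∧ InTri z t.1 t.2.1 t.2.2
  · unfold hval
    rw [dif_pos hz]
    obtain ⟨h1, h2⟩ := hz.choose_spec
    obtain ⟨i, j, k, e⟩ := h.surj _ h1
    rw [e] at h1 h2 ⊢
    simp only at h2 ⊢
    have hm : (i, j, k) ∈ N.T := (h.iff _ _ _).1 h1
    have hij : i ≠ j := N.ne hm
    have hjk : j ≠ k := N.ne (N.rot hm)
    have hki : k ≠ i := N.ne (N.rot (N.rot hm))
    have hfil : N.T.filter (fun t => InTri z (f t.1) (f t.2.1) (f t.2.2)) =
        {(i, j, k), (j, k, i), (k, i, j)} := by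
      ext ⟨a, b, c⟩
      simp only [Finset.mem_filter, Finset.mem_insert, Finset.mem_singleton]
      constructor
      · rintro ⟨g1, g2⟩
        have g3 : ((f a, f b, f c) : ℂ × ℂ × ℂ) ∈ N₀.T := (h.iff _ _ _).2 g1
        rw [h0] at g3 h1
        have := tri_unique (t := (f i, f j, f k)) (t' := (f a, f b, f c)) hS h1 g3 h2 g2
        simp only [rots, Set.mem_insert_iff, Set.mem_singleton_iff, Prod.mk.injEq,
          f.injective.eq_iff] at this
        simp only [Prod.mk.injEq]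
        exact this
      · rintro (g | g | g)
        · simp only [Prod.mk.injEq] at g
          obtain ⟨rfl, rfl, rfl⟩ := g
          exact ⟨hm, h2⟩
        · simp only [Prod.mk.injEq] at g
          obtain ⟨rfl, rfl, rfl⟩ := g
          exact ⟨N.rot hm, rot_inTri h2⟩
        · simp only [Prod.mk.injEq] at g
          obtain ⟨rfl, rfl, rfl⟩ := g
          exact ⟨N.rot (N.rot hm), rot_inTri (rot_inTri h2)⟩
    rw [hfil, Finset.sum_insert, Finset.sum_insert, Finset.sum_singleton]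
    · simp only [h.F]
      ring
    · simp only [Finset.mem_singleton, Prod.mk.injEq]
      rintro ⟨e1, -, -⟩
      exact hjk e1
    · simp only [Finset.mem_insert, Finset.mem_singleton, Prod.mk.injEq]
      rintro (⟨e1, -, -⟩ | ⟨e1, -, -⟩)
      · exact hij e1
      · exact hki e1.symm
  · unfold hval
    rw [dif_neg hz, Finset.filter_eq_empty_iff.2, Finset.sum_empty]
    intro t ht hin
    exact hz ⟨(f t.1, f t.2.1, f t.2.2), (h.iff _ _ _).2 ht, hin⟩

theorem netS_T {D : Dom} {S : Finset ℂ} (hS : GP (S : Set ℂ)) : (D.netS S).T = delT S := by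
  unfold Dom.netS
  rw [dif_pos (DelGx806.g1 S hS)]
  rfl


end Crest.Agent.R143.M5Ax606
end
end

-- ▼ part R143/Meas_304
section

/-!
# Row 143 (S0194), leaf M5, part B : measurability (helper304)

* `proj_meas` : the projection of a closed set along a sigma-compact set is measurable
* `DelX`, `VedX`, `CrsX` : the combinatorial predicates as functions of the configuration
  `x : V → ℂ` (`V` finite); they are measurable sets of configurations
-/

set_option autoImplicit false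
set_option linter.all false

noncomputable section

open scoped Classical

namespace Crest.Agent.R143.Measx304

open MeasureTheory Set Filter Topology
open Crest.ProbabilityR.Voronoi
open Crest.Agent.R143.B0x346 Crest.Agent.R143.B0Dx346 Crest.Agent.R143.DelGx806
  Crest.Agent.R143.DelRx806

/-! ### projections -/

theorem proj_closed {X Y : Type*} [TopologicalSpace X] [TopologicalSpace Y] {K : Set Y}
    (hK : IsCompact K) {C : Set (X × Y)} (hC : IsClosed C) : IsClosed {x | ∃ y ∈ K, (x, y) ∈ C} := by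
  haveI : CompactSpace K := isCompact_iff_compactSpace.1 hK
  have h1 : IsClosed {p : X × K | (p.1, (p.2 : Y)) ∈ C} :=
    hC.preimage (continuous_fst.prodMk (continuous_subtype_val.comp continuous_snd))
  have h2 := isClosedMap_fst_of_compactSpace (X := X) (Y := K) _ h1
  convert h2 using 1
  ext x
  constructor
  · rintro ⟨y, hy, h⟩
    exact ⟨(x, ⟨y, hy⟩), h, rfl⟩
  · rintro ⟨⟨x', y⟩, h, rfl⟩
    exact ⟨y, y.2, h⟩

theorem proj_meas {X Y : Type*} [TopologicalSpace X] [MeasurableSpace X] [OpensMeasurableSpace X]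
    [TopologicalSpace Y] {U : Set Y} (hU : IsSigmaCompact U) {C : Set (X × Y)} (hC : IsClosed C) :
    MeasurableSet {x | ∃ y ∈ U, (x, y) ∈ C} := by
  obtain ⟨K, hK, rfl⟩ := hU
  have : {x | ∃ y ∈ ⋃ n, K n, (x, y) ∈ C} = ⋃ n, {x | ∃ y ∈ K n, (x, y) ∈ C} := by
    ext x
    simp only [mem_iUnion, mem_ofPred_eq]
    constructor
    · rintro ⟨y, ⟨n, hn⟩, h⟩
      exact ⟨n, y, hn, h⟩
    · rintro ⟨n, y, hn, h⟩
      exact ⟨y, ⟨n, hn⟩, h⟩
  rw [this]
  exact MeasurableSet.iUnion fun n => (proj_closed (hK n) hC).measurableSet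

theorem sigmaCompact_open {Y : Type*} [PseudoEMetricSpace Y] [SigmaCompactSpace Y] {U : Set Y}
    (hU : IsOpen U) : IsSigmaCompact U := by
  obtain ⟨F, hF, -, h, -⟩ := hU.exists_iUnion_isClosed
  rw [← h]
  exact isSigmaCompact_iUnion _ fun n => IsSigmaCompact.of_isClosed_subset isSigmaCompact_univ (hF n) (subset_univ _)

theorem sigmaCompact_closed {Y : Type*} [TopologicalSpace Y] [SigmaCompactSpace Y] {U : Set Y}
    (hU : IsClosed U) : IsSigmaCompact U :=
  IsSigmaCompact.of_isClosed_subset isSigmaCompact_univ hU (subset_univ _)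

/-! ### configurations -/

variable {V : Type} [Fintype V]

/-- Delaunay triangle of the configuration -/
def DelX (x : V → ℂ) (i j k : V) : Prop := Del (range x) (x i) (x j) (x k)

theorem delX_meas (i j k : V) : MeasurableSet {x : V → ℂ | DelX x i j k} := by
  have h1 : MeasurableSet {x : V → ℂ | 0 < cr (x j - x i) (x k - x i)} := by
    apply IsOpen.measurableSet
    apply isOpen_lt continuous_const
    unfold cr
    fun_prop
  have h2 : MeasurableSet {x : V → ℂ | ∃ o ∈ (univ : Set ℂ), (x, o) ∈ {p : (V → ℂ) × ℂ |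
      ‖p.1 j - p.2‖ = ‖p.1 i - p.2‖ ∧ ‖p.1 k - p.2‖ = ‖p.1 i - p.2‖ ∧
        ∀ l, ‖p.1 i - p.2‖ ≤ ‖p.1 l - p.2‖}} := by
    apply proj_meas isSigmaCompact_univ
    have e : {p : (V → ℂ) × ℂ | ‖p.1 j - p.2‖ = ‖p.1 i - p.2‖ ∧ ‖p.1 k - p.2‖ = ‖p.1 i - p.2‖ ∧
        ∀ l, ‖p.1 i - p.2‖ ≤ ‖p.1 l - p.2‖} =
        {p : (V → ℂ) × ℂ | ‖p.1 j - p.2‖ = ‖p.1 i - p.2‖} ∩
        ({p : (V → ℂ) × ℂ | ‖p.1 k - p.2‖ = ‖p.1 i - p.2‖} ∩
        ⋂ l, {p : (V → ℂ) × ℂ | ‖p.1 i - p.2‖ ≤ ‖p.1 l - p.2‖}) := by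
      ext p
      simp only [mem_inter_iff, mem_iInter, mem_ofPred_eq]
    rw [e]
    refine (isClosed_eq (by fun_prop) (by fun_prop)).inter
      ((isClosed_eq (by fun_prop) (by fun_prop)).inter
        (isClosed_iInter fun l => isClosed_le (by fun_prop) (by fun_prop)))
  convert h1.inter h2 using 1
  ext x
  unfold DelX Del
  simp only [mem_inter_iff, mem_ofPred_eq, mem_univ, true_and, mem_range, exists_apply_eq_apply,
    forall_exists_index, forall_apply_eq_imp_iff]

/-- the Voronoi edge meets `U` -/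
def VedX (U : Set ℂ) (x : V → ℂ) (i j : V) : Prop := (vedge (range x) (x i) (x j) ∩ U).Nonempty

theorem vedX_meas {U : Set ℂ} (hU : IsOpen U) (i j : V) :
    MeasurableSet {x : V → ℂ | VedX U x i j} := by
  have h2 : MeasurableSet {x : V → ℂ | ∃ o ∈ U, (x, o) ∈ {p : (V → ℂ) × ℂ |
      ‖p.2 - p.1 i‖ = ‖p.2 - p.1 j‖ ∧ ∀ l, ‖p.2 - p.1 i‖ ≤ ‖p.2 - p.1 l‖}} := by
    apply proj_meas (sigmaCompact_open hU)
    have e : {p : (V → ℂ) × ℂ | ‖p.2 - p.1 i‖ = ‖p.2 - p.1 j‖ ∧ ∀ l, ‖p.2 - p.1 i‖ ≤ ‖p.2 - p.1 l‖} =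
        {p : (V → ℂ) × ℂ | ‖p.2 - p.1 i‖ = ‖p.2 - p.1 j‖} ∩
        ⋂ l, {p : (V → ℂ) × ℂ | ‖p.2 - p.1 i‖ ≤ ‖p.2 - p.1 l‖} := by
      ext p
      simp only [mem_inter_iff, mem_iInter, mem_ofPred_eq]
    rw [e]
    exact (isClosed_eq (by fun_prop) (by fun_prop)).inter
        (isClosed_iInter fun l => isClosed_le (by fun_prop) (by fun_prop))
  convert h2 using 1
  ext x
  unfold VedX vedge
  simp only [mem_ofPred_eq, mem_range, forall_exists_index, forall_apply_eq_imp_iff]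
  constructor
  · rintro ⟨z, h, hz⟩
    exact ⟨z, hz, h⟩
  · rintro ⟨z, hz, h⟩
    exact ⟨z, h, hz⟩

/-- the ray crosses the segment -/
def SegX (c q : ℂ) (x : V → ℂ) (i j : V) : Prop :=
  ∃ t : ℝ, 0 ≤ t ∧ c + t * q ∈ segment ℝ (x i) (x j)

theorem segX_meas (c q : ℂ) (i j : V) : MeasurableSet {x : V → ℂ | SegX c q x i j} := by
  have h2 : MeasurableSet {x : V → ℂ | ∃ p ∈ (Ici (0 : ℝ)) ×ˢ (Icc (0 : ℝ) 1),
      (x, p) ∈ {p : (V → ℂ) × (ℝ × ℝ) |
        c + (p.2.1 : ℂ) * q = (1 - (p.2.2 : ℂ)) * p.1 i + (p.2.2 : ℂ) * p.1 j}} := by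
    apply proj_meas (sigmaCompact_closed (isClosed_Ici.prod isClosed_Icc))
    exact isClosed_eq (by fun_prop) (by fun_prop)
  convert h2 using 1
  ext x
  unfold SegX
  simp only [mem_ofPred_eq, mem_prod, mem_Ici]
  constructor
  · rintro ⟨t, ht, h⟩
    rw [segment_eq_image] at h
    obtain ⟨s, hs, h⟩ := h
    refine ⟨(t, s), ⟨ht, hs⟩, ?_⟩
    simp only [Complex.real_smul] at h
    rw [← h]
    push_cast
    rfl
  · rintro ⟨⟨t, s⟩, ⟨ht, hs⟩, h⟩
    refine ⟨t, ht, ?_⟩
    rw [segment_eq_image]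
    refine ⟨s, hs, ?_⟩
    simp only [Complex.real_smul]
    dsimp only at h
    rw [h]
    push_cast
    rfl

/-! ### the fibers -/

/-- hull edge of the configuration -/
def HullX (x : V → ℂ) (i j : V) : Prop := (∃ k, DelX x i j k) ∧ ∀ k, ¬ DelX x j i k

/-- the configuration `x` has the combinatorics `N` -/
structure FibX (D : Dom) (N : Net V) (x : V → ℂ) : Prop where
  T : ∀ i j k, (i, j, k) ∈ N.T ↔ DelX x i j k
  kl : ∀ i j, (i, j) ∈ N.kl ↔ (VedX D.out x i j ∧ (∀ k, N.ex k ≠ (i, j)) ∧ ∀ k, N.ex k ≠ (j, i))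
  ex : ∀ k, HullX x (N.ex k).1 (N.ex k).2 ∧ SegX D.c (D.q k) x (N.ex k).1 (N.ex k).2

theorem hullX_meas (i j : V) : MeasurableSet {x : V → ℂ | HullX x i j} := by
  have h1 : Measurable fun x : V → ℂ => HullX x i j := by
    unfold HullX
    exact (Measurable.exists fun k => measurableSet_setOfPred.1 (delX_meas i j k)).and
      (Measurable.forall fun k => (measurableSet_setOfPred.1 (delX_meas j i k)).not)
  exact measurableSet_setOfPred.2 h1

theorem fibX_meas {D : Dom} (hD : IsOpen D.out) (N : Net V) :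
    MeasurableSet {x : V → ℂ | FibX D N x} := by
  have e : {x : V → ℂ | FibX D N x} = {x : V → ℂ | (∀ i j k, (i, j, k) ∈ N.T ↔ DelX x i j k) ∧
      (∀ i j, (i, j) ∈ N.kl ↔
        (VedX D.out x i j ∧ (∀ k, N.ex k ≠ (i, j)) ∧ ∀ k, N.ex k ≠ (j, i))) ∧
      ∀ k, HullX x (N.ex k).1 (N.ex k).2 ∧ SegX D.c (D.q k) x (N.ex k).1 (N.ex k).2} := by
    ext x
    exact ⟨fun h => ⟨h.T, h.kl, h.ex⟩, fun h => ⟨h.1, h.2.1, h.2.2⟩⟩
  rw [e]
  refine measurableSet_setOfPred.2 (Measurable.and ?_ (Measurable.and ?_ ?_))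
  · refine Measurable.forall fun i => Measurable.forall fun j => Measurable.forall fun k => ?_
    exact measurable_const.iff (measurableSet_setOfPred.1 (delX_meas i j k))
  · refine Measurable.forall fun i => Measurable.forall fun j => ?_
    exact measurable_const.iff ((measurableSet_setOfPred.1 (vedX_meas hD i j)).and measurable_const)
  · refine Measurable.forall fun k => ?_
    exact (measurableSet_setOfPred.1 (hullX_meas _ _)).and
      (measurableSet_setOfPred.1 (segX_meas _ _ _ _))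

theorem coe_img (x : V → ℂ) : ((Finset.univ.image x : Finset ℂ) : Set ℂ) = range x := by simp

theorem delT_img (x : V → ℂ) (i j k : V) :
    (x i, x j, x k) ∈ delT (Finset.univ.image x) ↔ DelX x i j k := by
  rw [mem_delT, coe_img]
  rfl

theorem hullE_img (x : V → ℂ) (i j : V) :
    hullE (Finset.univ.image x) (x i) (x j) ↔ HullX x i j := by
  have hm : ∀ {a b c : ℂ}, (a, b, c) ∈ delT (Finset.univ.image x) → ∃ k, x k = c := by
    intro a b c h
    obtain ⟨o, h⟩ := mem_delT_iff.1 h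
    obtain ⟨k, -, hk⟩ := Finset.mem_image.1 h.mc
    exact ⟨k, hk⟩
  unfold hullE HullX
  constructor
  · rintro ⟨⟨c, hc⟩, h2⟩
    obtain ⟨k, rfl⟩ := hm hc
    exact ⟨⟨k, (delT_img x i j k).1 hc⟩, fun k hk => h2 (x k) ((delT_img x j i k).2 hk)⟩
  · rintro ⟨⟨k, hk⟩, h2⟩
    refine ⟨⟨x k, (delT_img x i j k).2 hk⟩, fun c hc => ?_⟩
    obtain ⟨k', rfl⟩ := hm hc
    exact h2 k' ((delT_img x j i k').1 hc)

theorem crossRay_img (x : V → ℂ) (c q : ℂ) (i j : V) :
    crossRay (Finset.univ.image x) c q (x i, x j) ↔ HullX x i j ∧ SegX c q x i j := by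
  unfold crossRay SegX
  dsimp only
  rw [hullE_img]

theorem crossRay_ex {x : V → ℂ} {c q : ℂ} {p : ℂ × ℂ}
    (h : crossRay (Finset.univ.image x) c q p) : ∃ i j, p = (x i, x j) := by
  obtain ⟨h1, h2⟩ := hullE.mem h.1
  obtain ⟨i, -, hi⟩ := Finset.mem_image.1 h1
  obtain ⟨j, -, hj⟩ := Finset.mem_image.1 h2
  exact ⟨i, j, Prod.ext hi.symm hj.symm⟩

/-- **every good configuration is in a fiber** -/
theorem exists_fib (D : Dom) {x : V → ℂ} (hx : Function.Injective x) (hS : GP (range x))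
    (hc : ∀ k, ∃ p, crossRay (Finset.univ.image x) D.c (D.q k) p) : ∃ N : Net V, FibX D N x := by
  have hS' : GP ((Finset.univ.image x : Finset ℂ) : Set ℂ) := by rw [coe_img]; exact hS
  have hc' : ∀ k, ∃ p : V × V, HullX x p.1 p.2 ∧ SegX D.c (D.q k) x p.1 p.2 := by
    intro k
    obtain ⟨p, hp⟩ := hc k
    obtain ⟨i, j, rfl⟩ := crossRay_ex hp
    exact ⟨(i, j), (crossRay_img x _ _ i j).1 hp⟩
  choose e he using hc'
  obtain ⟨g1a, g1b, g1c⟩ := g1 _ hS'
  let G : Trg V :=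
    { T := Finset.univ.filter fun t => DelX x t.1 t.2.1 t.2.2
      rot := by
        intro a b c h
        rw [Finset.mem_filter] at h ⊢
        exact ⟨Finset.mem_univ _, (delT_img x b c a).1 (g1a _ _ _ ((delT_img x a b c).2 h.2))⟩
      uniq := by
        intro a b c d h h'
        rw [Finset.mem_filter] at h h'
        exact hx (g1b _ _ _ _ ((delT_img x a b c).2 h.2) ((delT_img x a b d).2 h'.2))
      ne := by
        intro a b c h
        rw [Finset.mem_filter] at h
        exact fun h' => g1c _ _ _ ((delT_img x a b c).2 h.2) (by rw [h']) }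
  refine ⟨{ toTrg := G, kl := {p | VedX D.out x p.1 p.2 ∧ (∀ k, e k ≠ (p.1, p.2)) ∧
      ∀ k, e k ≠ (p.2, p.1)}, klsym := ?_, ex := e }, ?_, ?_, he⟩
  · rintro a b ⟨⟨z, hz, hz'⟩, h2, h3⟩
    refine ⟨⟨z, ?_, hz'⟩, h3, h2⟩
    rw [Crest.Agent.R143.Locx922.vedge_symm]
    exact hz
  · intro i j k
    show (i, j, k) ∈ Finset.univ.filter (fun t : V × V × V => DelX x t.1 t.2.1 t.2.2) ↔ _
    rw [Finset.mem_filter]
    simp only [Finset.mem_univ, true_and]
  · intro i j
    exact Iff.rfl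

/-- the observable of the configuration `x` with the combinatorics `N` at the point `z` -/
def gN (N : Net V) (x : V → ℂ) (z : ℂ) : ℂ :=
  ∑ t ∈ N.T, if InTri z (x t.1) (x t.2.1) (x t.2.2) then
    (N.F t.1 t.2.1 + N.F t.2.1 t.2.2 + N.F t.2.2 t.1) / 9 else 0

theorem gN_meas (N : Net V) : Measurable fun p : (V → ℂ) × ℂ => gN N p.1 p.2 := by
  unfold gN
  refine Finset.measurable_fun_sum _ fun t _ => ?_
  refine Measurable.ite ?_ measurable_const measurable_const
  have h : IsOpen {p : (V → ℂ) × ℂ | InTri p.2 (p.1 t.1) (p.1 t.2.1) (p.1 t.2.2)} := by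
    have key : ∀ i j : V, IsOpen {p : (V → ℂ) × ℂ | Lft p.2 (p.1 i) (p.1 j)} := by
      intro i j
      unfold Lft
      apply isOpen_lt continuous_const
      unfold cr
      fun_prop
    exact (key _ _).inter ((key _ _).inter (key _ _))
  exact h.measurableSet

/-- **the observable on the fiber** -/
theorem hval_fib (D : Dom) {x : V → ℂ} (hx : Function.Injective x) (hS : GP (range x))
    (hu : ∀ k p p', crossRay (Finset.univ.image x) D.c (D.q k) p →
      crossRay (Finset.univ.image x) D.c (D.q k) p' → p = p') {N : Net V} (hN : FibX D N x)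
    (z : ℂ) : hval (D.netS (Finset.univ.image x)) z = gN N x z := by
  have hS' : GP ((Finset.univ.image x : Finset ℂ) : Set ℂ) := by rw [coe_img]; exact hS
  have hT0 := Crest.Agent.R143.DomAx722.netS_T (D := D) hS'
  have hex : ∀ k, rayMark (Finset.univ.image x) D.c (D.q k) = (x (N.ex k).1, x (N.ex k).2) := by
    intro k
    have h1 : crossRay (Finset.univ.image x) D.c (D.q k) (x (N.ex k).1, x (N.ex k).2) :=
      (crossRay_img x _ _ _ _).2 (hN.ex k)
    exact hu k _ _ (Crest.Agent.R143.DomAx722.rayMark_spec ⟨_, h1⟩) h1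
  refine Crest.Agent.R143.M5Ax606.hval_copy (f := ⟨x, hx⟩) hS' _ hT0 ⟨⟨?_, ?_⟩, ?_, ?_⟩ z
  · intro a b c
    rw [hT0, hN.T]
    exact delT_img x a b c
  · rintro ⟨a, b, c⟩ ht
    rw [hT0, DelGx806.mem_delT, coe_img] at ht
    obtain ⟨⟨i, rfl⟩, ⟨j, rfl⟩, ⟨k, rfl⟩, -⟩ := ht
    exact ⟨i, j, k, rfl⟩
  · intro a b hab
    rw [hN.kl, Crest.Agent.R143.DomAx722.netS_kl (D := D) hS']
    have e1 : ((⟨x, hx⟩ : V ↪ ℂ) a, (⟨x, hx⟩ : V ↪ ℂ) b) ∈ D.kl (Finset.univ.image x) ↔
        VedX D.out x a b := by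
      unfold Dom.kl VedX
      rw [coe_img]
      rfl
    rw [e1]
    simp only [hex]
    refine and_congr_right fun _ => and_congr (forall_congr' fun k => ?_)
      (forall_congr' fun k => ?_)
    · refine not_congr ?_
      constructor
      · intro h
        have h' := Prod.ext_iff.1 h
        exact Prod.ext (hx h'.1) (hx h'.2)
      · intro h
        rw [h]
        rfl
    · refine not_congr ?_
      constructor
      · intro h
        have h' := Prod.ext_iff.1 h
        exact Prod.ext (hx h'.1) (hx h'.2)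
      · intro h
        rw [h]
        rfl
  · intro k
    rw [Crest.Agent.R143.DomAx722.netS_ex (D := D) hS', hex]
    rfl

instance : Finite (Net V) := by
  have hinj : Function.Injective fun N : Net V => (N.T, N.kl, N.ex) := by
    rintro ⟨⟨T, h1, h2, h3⟩, kl, h4, ex⟩ ⟨⟨T', h1', h2', h3'⟩, kl', h4', ex'⟩ h
    simp only [Prod.mk.injEq] at h
    obtain ⟨rfl, rfl, rfl⟩ := h
    rfl
  exact Finite.of_injective _ hinj

/-! ### partition by the indices of the sites -/

/-- indices of points -/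
abbrev Ix : Type := (ℤ × ℤ) × ℕ

/-- the index `i` is present and its point is in the big disc -/
def InD (D : Dom) (ε : ℝ) (ω : Sample) (i : Ix) : Prop :=
  i.2 < ω.1 i.1 ∧ point ε ω i.1 i.2 ∈ Metric.closedBall D.c D.L

/-- `I` is the set of the indices in the big disc -/
def AI (D : Dom) (ε : ℝ) (I : Finset Ix) : Set Sample := {ω | ∀ i : Ix, i ∈ I ↔ InD D ε ω i}

/-- the configuration of the indices in `I` -/
def xI (ε : ℝ) (I : Finset Ix) (ω : Sample) (i : I) : ℂ := point ε ω i.1.1 i.1.2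

theorem point_meas (ε : ℝ) (i : Ix) : Measurable fun ω : Sample => point ε ω i.1 i.2 := by
  have h : Measurable Crest.Agent.R143.PoisM3x930.marks := by
    refine measurable_pi_iff.2 fun i => ?_
    exact (measurable_pi_apply i.2).comp ((measurable_pi_apply i.1).comp measurable_snd)
  exact (Crest.Agent.R143.PoisM3x930.measurable_q ε i).comp h

theorem xI_meas (ε : ℝ) (I : Finset Ix) : Measurable (xI ε I) :=
  measurable_pi_iff.2 fun i => point_meas ε i

theorem AI_meas (D : Dom) (ε : ℝ) (I : Finset Ix) : MeasurableSet (AI D ε I) := by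
  refine measurableSet_setOfPred.2 (Measurable.forall fun i => measurable_const.iff ?_)
  refine Measurable.and ?_ ?_
  · have h : Measurable fun ω : Sample => ω.1 i.1 := (measurable_pi_apply i.1).comp measurable_fst
    exact measurableSet_setOfPred.1 (h (measurableSet_Ioi (a := i.2)))
  · exact measurableSet_setOfPred.1 (point_meas ε i Metric.isClosed_closedBall.measurableSet)

/-- good samples for the measurability -/
structure GM (D : Dom) (ε : ℝ) (ω : Sample) : Prop where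
  fin : (points ε ω ∩ Metric.closedBall D.c D.L).Finite
  inj : ∀ p ∈ present ω, ∀ q ∈ present ω,
    point ε ω (p.1, p.2.1) p.2.2 = point ε ω (q.1, q.2.1) q.2.2 → p = q
  gp : GP (D.sites ε ω : Set ℂ)
  ex : ∀ k, ∃ p, crossRay (D.sites ε ω) D.c (D.q k) p
  uniq : ∀ k p p', crossRay (D.sites ε ω) D.c (D.q k) p → crossRay (D.sites ε ω) D.c (D.q k) p' →
    p = p'

variable {D : Dom} {ε : ℝ} {ω : Sample}

theorem sites_img (h : GM D ε ω) {I : Finset Ix} (hI : ω ∈ AI D ε I) :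
    D.sites ε ω = Finset.univ.image (xI ε I ω) := by
  ext s
  rw [Crest.Agent.R143.DomAx722.mem_sites h.fin, Finset.mem_image]
  constructor
  · rintro ⟨⟨p, hp, rfl⟩, h2⟩
    have h3 : ((p.1, p.2.1), p.2.2) ∈ I := (hI _).2 ⟨hp, by
      rw [Metric.mem_closedBall, dist_eq_norm]; exact h2⟩
    exact ⟨⟨_, h3⟩, Finset.mem_univ _, rfl⟩
  · rintro ⟨⟨i, hi⟩, -, rfl⟩
    have h3 := (hI i).1 hi
    refine ⟨⟨(i.1.1, i.1.2, i.2), h3.1, rfl⟩, ?_⟩
    have := h3.2
    rw [Metric.mem_closedBall, dist_eq_norm] at this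
    exact this

theorem xI_inj (h : GM D ε ω) {I : Finset Ix} (hI : ω ∈ AI D ε I) :
    Function.Injective (xI ε I ω) := by
  rintro ⟨i, hi⟩ ⟨j, hj⟩ hij
  have h1 := h.inj (i.1.1, i.1.2, i.2) ((hI i).1 hi).1 (j.1.1, j.1.2, j.2) ((hI j).1 hj).1 hij
  simp only [Prod.mk.injEq] at h1
  exact Subtype.ext (Prod.ext (Prod.ext h1.1 h1.2.1) h1.2.2)

theorem exists_AI (h : GM D ε ω) : ∃ I, ω ∈ AI D ε I := by
  have hfin : {i : Ix | InD D ε ω i}.Finite := by
    refine Set.Finite.of_finite_image (f := fun i : Ix => point ε ω i.1 i.2) (h.fin.subset ?_) ?_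
    · rintro z ⟨i, hi, rfl⟩
      exact ⟨⟨(i.1.1, i.1.2, i.2), hi.1, rfl⟩, hi.2⟩
    · intro i hi j hj hij
      have h1 := h.inj (i.1.1, i.1.2, i.2) hi.1 (j.1.1, j.1.2, j.2) hj.1 hij
      simp only [Prod.mk.injEq] at h1
      exact Prod.ext (Prod.ext h1.1 h1.2.1) h1.2.2
  refine ⟨hfin.toFinset, fun i => ?_⟩
  rw [Set.Finite.mem_toFinset]
  rfl

theorem h_fib (h : GM D ε ω) {I : Finset Ix} (hI : ω ∈ AI D ε I) {N : Net I}
    (hN : FibX D N (xI ε I ω)) (z : ℂ) : D.h ε ω z = gN N (xI ε I ω) z := by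
  have e := sites_img h hI
  unfold Dom.h
  rw [e]
  refine hval_fib D (xI_inj h hI) ?_ ?_ hN z
  · rw [← coe_img, ← e]
    exact h.gp
  · rw [← e]
    exact h.uniq

theorem exists_cover (h : GM D ε ω) :
    ∃ i : (Σ I : Finset Ix, Net I), ω ∈ AI D ε i.1 ∧ FibX D i.2 (xI ε i.1 ω) := by
  obtain ⟨I, hI⟩ := exists_AI h
  have e := sites_img h hI
  obtain ⟨N, hN⟩ := exists_fib D (xI_inj h hI) (by rw [← coe_img, ← e]; exact h.gp)
    (by rw [← e]; exact h.ex)
  exact ⟨⟨I, N⟩, hI, hN⟩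

/-- the index set of the pieces -/
abbrev Pc : Type := Σ I : Finset Ix, Net I

instance : Countable Pc := by
  unfold Pc
  infer_instance

/-- the pieces -/
def CP (D : Dom) (ε : ℝ) (i : Pc) : Set Sample :=
  AI D ε i.1 ∩ (xI ε i.1) ⁻¹' {x | FibX D i.2 x}

theorem CP_meas (hD : IsOpen D.out) (ε : ℝ) (i : Pc) : MeasurableSet (CP D ε i) :=
  (AI_meas D ε i.1).inter (xI_meas ε i.1 (fibX_meas hD i.2))

/-- the observable on a piece -/
def gC (ε : ℝ) (i : Pc) (p : Sample × ℂ) : ℂ := gN i.2 (xI ε i.1 p.1) p.2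

theorem gC_meas (ε : ℝ) (i : Pc) : Measurable (gC ε i) := by
  obtain ⟨I, N⟩ := i
  have h0 : Measurable fun p : Sample × ℂ => xI ε I p.1 := (xI_meas ε I).comp measurable_fst
  have h1 : Measurable fun p : Sample × ℂ => (xI ε I p.1, p.2) := h0.prodMk measurable_snd
  have h2 := (gN_meas N).comp h1
  exact h2

theorem h_gC (h : GM D ε ω) {i : Pc} (hi : ω ∈ CP D ε i) (z : ℂ) : D.h ε ω z = gC ε i (ω, z) :=
  h_fib h hi.1 hi.2 z

theorem exists_CP (h : GM D ε ω) : ∃ i : Pc, ω ∈ CP D ε i := exists_cover h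

/-- **joint measurability of the observable** -/
theorem h_aesm (hD : IsOpen D.out) {ρ : Measure (Sample × ℂ)} (h : ∀ᵐ p ∂ρ, GM D ε p.1) :
    AEStronglyMeasurable (fun p : Sample × ℂ => D.h ε p.1 p.2) ρ := by
  have hcov : ∀ᵐ p ∂ρ, p ∈ ⋃ i : Pc, (Prod.fst ⁻¹' CP D ε i : Set (Sample × ℂ)) := by
    filter_upwards [h] with p hp
    obtain ⟨i, hi⟩ := exists_CP hp
    exact mem_iUnion.2 ⟨i, hi⟩
  rw [← Measure.restrict_eq_self_of_ae_mem hcov]
  refine aestronglyMeasurable_iUnion_iff.2 fun i => ?_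
  have hm : MeasurableSet (Prod.fst ⁻¹' CP D ε i : Set (Sample × ℂ)) :=
    measurable_fst (CP_meas hD ε i)
  have hae : (fun p : Sample × ℂ => D.h ε p.1 p.2) =ᵐ[ρ.restrict (Prod.fst ⁻¹' CP D ε i)]
      gC ε i := by
    rw [Filter.EventuallyEq, ae_restrict_iff' hm]
    filter_upwards [h] with p hp hpC
    exact h_gC hp hpC p.2
  exact (gC_meas ε i).aestronglyMeasurable.congr hae.symm

theorem hm1 (hD : IsOpen D.out) {μ : Measure Sample} (h : ∀ᵐ ω ∂μ, GM D ε ω) (z : ℂ) :
    AEStronglyMeasurable (fun ω => D.h ε ω z) μ := by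
  have hm : Measurable fun ω : Sample => (ω, z) := measurable_id.prodMk measurable_const
  have h1 : ∀ᵐ p ∂(μ.map fun ω : Sample => (ω, z)), GM D ε p.1 := by
    rw [ae_iff] at h ⊢
    obtain ⟨t, ht, htm, h0⟩ := exists_measurable_superset_of_null h
    refine measure_mono_null (t := Prod.fst ⁻¹' t) (fun p hp => ht hp) ?_
    rw [Measure.map_apply hm (measurable_fst htm)]
    exact h0
  exact (h_aesm hD h1).comp_measurable hm

theorem hm2 (hD : IsOpen D.out) {μ : Measure Sample} [SFinite μ] (h : ∀ᵐ ω ∂μ, GM D ε ω) :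
    AEStronglyMeasurable (fun p : Sample × ℂ => D.h ε p.1 p.2) (μ.prod volume) :=
  h_aesm hD (Measure.quasiMeasurePreserving_fst.ae h)


end Crest.Agent.R143.Measx304
end
end

-- ▼ part R143/M5_304

/-!
# Row 143 (S0194), leaf M5 : `M5Y` and `LGood` (helper304)

* `uniq_cross` : the hull edge crossed by a ray from the centre is unique
* `gm_of` : good samples (`Meas_304.GM`)
* `m5y` : the literal leaf `M5Y`
-/

set_option autoImplicit false
set_option linter.all false

noncomputable section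

open scoped Classical

namespace Crest.Agent.R143.M5x304

open MeasureTheory Set Filter Topology
open Crest.ProbabilityR.Voronoi
open Crest.Agent.R143.B0x346 Crest.Agent.R143.B0Dx346 Crest.Agent.R143.DelGx806
  Crest.Agent.R143.DelRx806 Crest.Agent.R143.DomAx722 Crest.Agent.R143.Measx304
  Crest.Agent.R143.Lawx831 Crest.Agent.R143.Y5Dx831 Crest.Agent.R143.Y8Dx831
  Crest.Agent.R143.PP1x831

/-- an affine function on a segment -/
theorem cr_seg {a b a' b' z : ℂ} (hz : z ∈ segment ℝ a' b') : ∃ s : ℝ, 0 ≤ s ∧ s ≤ 1 ∧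
    z = (1 - s : ℝ) * a' + (s : ℝ) * b' ∧
    cr (b - a) (z - a) = (1 - s) * cr (b - a) (a' - a) + s * cr (b - a) (b' - a) := by
  rw [segment_eq_image] at hz
  obtain ⟨s, ⟨hs0, hs1⟩, rfl⟩ := hz
  refine ⟨s, hs0, hs1, ?_, ?_⟩
  · simp only [Complex.real_smul]
  · simp only [Complex.real_smul]
    unfold cr
    simp only [Complex.add_re, Complex.add_im, Complex.sub_re, Complex.sub_im, Complex.mul_re,
      Complex.mul_im, Complex.ofReal_re, Complex.ofReal_im]
    ring

/-- **the crossed hull edge is unique** -/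
theorem uniq_cross {S : Finset ℂ} {c q : ℂ} (hS : GP (S : Set ℂ))
    (hc : ∀ a b, hullE S a b → 0 < cr (b - a) (c - a))
    (hray : ∀ s ∈ S, ∀ t : ℝ, 0 ≤ t → c + t * q ≠ s) {p p' : ℂ × ℂ} (h : crossRay S c q p)
    (h' : crossRay S c q p') : p = p' := by
  obtain ⟨a, b⟩ := p
  obtain ⟨a', b'⟩ := p'
  obtain ⟨h1, t, ht, hz⟩ := h
  obtain ⟨h1', t', ht', hz'⟩ := h'
  dsimp only at h1 h1' hz hz'
  have hA : ∀ t : ℝ, ∀ a b : ℂ, cr (b - a) (c + t * q - a) = cr (b - a) (c - a) + t * cr (b - a) q := by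
    intro t a b
    unfold cr
    simp only [Complex.add_re, Complex.add_im, Complex.sub_re, Complex.sub_im, Complex.mul_re,
      Complex.mul_im, Complex.ofReal_re, Complex.ofReal_im]
    ring
  have key : ∀ {a b a' b' : ℂ} {t t' : ℝ}, hullE S a b → hullE S a' b' → 0 ≤ t → 0 ≤ t' →
      c + t * q ∈ segment ℝ a b → c + t' * q ∈ segment ℝ a' b' → t' ≤ t := by
    intro a b a' b' t t' h1 h1' ht ht' hz hz'
    obtain ⟨s, -, -, -, e⟩ := cr_seg (a := a) (b := b) hz
    obtain ⟨s', hs0, hs1, -, e'⟩ := cr_seg (a := a) (b := b) hz'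
    rw [cr_left, cr_right, hA] at e
    rw [hA] at e'
    have k1 := hull_side h1 a' (hullE.mem h1').1
    have k2 := hull_side h1 b' (hullE.mem h1').2
    have k3 := hc a b h1
    have k4 : 0 ≤ cr (b - a) (c - a) + t' * cr (b - a) q := by
      rw [e']
      have := mul_nonneg (sub_nonneg.2 hs1) k1
      have := mul_nonneg hs0 k2
      linarith
    have k5 : cr (b - a) (c - a) + t * cr (b - a) q = 0 := by rw [e]; ring
    by_contra hcon
    push Not at hcon
    have hm : cr (b - a) q < 0 := by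
      by_contra hm
      push Not at hm
      have := mul_nonneg ht hm
      linarith
    have := mul_lt_mul_of_neg_right hcon hm
    linarith
  have hle := key h1 h1' ht ht' hz hz'
  have hge := key h1' h1 ht' ht hz' hz
  have htt : t = t' := le_antisymm hge hle
  subst htt
  -- the crossing point is on the line `a' b'`
  obtain ⟨s, hs0, hs1, ez, e⟩ := cr_seg (a := a') (b := b') hz
  obtain ⟨s', -, -, -, e'⟩ := cr_seg (a := a') (b := b') hz'
  rw [cr_left, cr_right, e] at e'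
  have k1 := hull_side h1' a (hullE.mem h1).1
  have k2 := hull_side h1' b (hullE.mem h1).2
  have s0 : 0 < s := by
    rcases hs0.lt_or_eq with h | h
    · exact h
    · exfalso
      apply hray a (hullE.mem h1).1 t ht
      rw [ez, ← h]
      push_cast
      ring
  have s1 : s < 1 := by
    rcases hs1.lt_or_eq with h | h
    · exact h
    · exfalso
      apply hray b (hullE.mem h1).2 t ht
      rw [ez, h]
      push_cast
      ring
  have m1 := mul_nonneg (sub_nonneg.2 hs1) k1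
  have m2 := mul_nonneg hs0 k2
  have z1 : cr (b' - a') (a - a') = 0 := by
    have : (1 - s) * cr (b' - a') (a - a') = 0 := by linarith
    exact (mul_eq_zero.1 this).resolve_left (by linarith)
  have z2 : cr (b' - a') (b - a') = 0 := by
    have : s * cr (b' - a') (b - a') = 0 := by linarith
    exact (mul_eq_zero.1 this).resolve_left (by linarith)
  have hab := hullE.ne h1
  have hab' := hullE.ne h1'
  have mem : ∀ x ∈ S, cr (b' - a') (x - a') = 0 → x = a' ∨ x = b' := by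
    intro x hx h0
    by_contra hcon
    push Not at hcon
    exact hS.line a' (hullE.mem h1').1 b' (hullE.mem h1').2 x hx hab' hcon.2.symm hcon.1.symm h0
  rcases mem a (hullE.mem h1).1 z1 with ha | ha
  · rcases mem b (hullE.mem h1).2 z2 with hb | hb
    · exact absurd (ha.trans hb.symm) hab
    · rw [ha, hb]
  · rcases mem b (hullE.mem h1).2 z2 with hb | hb
    · exfalso
      rw [ha, hb] at h1
      obtain ⟨e1, he1⟩ := h1.1
      exact h1'.2 e1 he1
    · exact absurd (ha.trans hb.symm) hab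

/-- **good samples** -/
theorem gm_of {D : Dom} {δ ε d : ℝ} {ω : Sample} (hD : D.W δ)
    (hfin : (points ε ω ∩ Metric.closedBall D.c D.L).Finite)
    (hinj : ∀ p ∈ present ω, ∀ q ∈ present ω,
      point ε ω (p.1, p.2.1) p.2.2 = point ε ω (q.1, q.2.1) q.2.2 → p = q)
    (hS : Dns (D.sites ε ω) D.c D.L d)
    (hray : ∀ k : ZMod 3, ∀ v ∈ points ε ω, ∀ t : ℝ, 0 ≤ t → v ≠ D.c + t * D.q k) :
    GM D ε ω where
  fin := hfin
  inj := hinj
  gp := hS.gp
  ex k := crossRay_exists hS (hD.qn k)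
  uniq k p p' h h' := by
    refine uniq_cross hS.gp (fun a b hab => ?_) (fun s hs t ht => ?_) h h'
    · have h1 := edge_dist hS hab
      have h2 : 0 < ‖b - a‖ := norm_pos_iff.2 (sub_ne_zero.2 (hullE.ne hab).symm)
      have h3 := hS.dpos
      have h4 := hS.dL
      exact lt_of_lt_of_le (mul_pos (by linarith) h2) h1
    · exact (hray k s ((mem_sites hfin).1 hs).1 t ht).symm

theorem out_open {D : Dom} {δ : ℝ} (hD : D.W δ) : IsOpen D.out := isOpen_iUnion hD.opn



/-! ### LGood -/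

theorem ray_null {ε : ℝ} (hε : 0 < ε) (c : ℂ) {q : ℂ} (hq : q ≠ 0) :
    ∀ᵐ ω ∂sampleLaw, ∀ v ∈ points ε ω, ∀ t : ℝ, v ≠ c + t * q := by
  have h1 : ∀ᵐ x ∂Crest.Agent.R143.PoisM3x930.nu, ∀ i : Ix,
      cr q (Crest.Agent.R143.PoisM3x930.q ε x i - c) ≠ 0 := by
    rw [ae_all_iff]
    intro i
    refine Crest.Agent.R143.PoisM3x930.fresh hε i (fun x z => cr q (z - c)) ?_ (fun x m z => rfl)
      (Eventually.of_forall fun x => Crest.Agent.R143.PoisM3x930.line_null hq c)
    exact Crest.Agent.R143.PoisM3x930.measurable_cr measurable_const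
      (measurable_snd.sub measurable_const)
  filter_upwards [Crest.Agent.R143.PoisM3x930.marks_ae h1] with ω hω
  rintro v ⟨p, -, rfl⟩ t ht
  apply hω ((p.1, p.2.1), p.2.2)
  rw [← Crest.Agent.R143.PoisM3x930.point_eq]
  show cr q (point ε ω (p.1, p.2.1) p.2.2 - c) = 0
  dsimp only at ht
  rw [ht]
  unfold cr
  simp only [Complex.add_re, Complex.add_im, Complex.sub_re, Complex.sub_im, Complex.mul_re,
    Complex.mul_im, Complex.ofReal_re, Complex.ofReal_im]
  ring

theorem rad_small (C : ℝ) : Tendsto (fun ε : ℝ => rad C ε) (𝓝[>] 0) (𝓝 0) := by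
  have h1 : Tendsto (fun ε : ℝ => ε * Real.sqrt (Real.log (1 / ε))) (𝓝[>] 0) (𝓝 0) := by
    have h2 : Tendsto (fun ε : ℝ => Real.log ε * ε ^ (1 : ℝ)) (𝓝[>] 0) (𝓝 0) :=
      tendsto_log_mul_rpow_nhdsGT_zero zero_lt_one
    have h3 : Tendsto (fun ε : ℝ => Real.sqrt (ε * (-(Real.log ε * ε ^ (1 : ℝ))))) (𝓝[>] 0)
        (𝓝 (Real.sqrt (0 * (-0)))) := by
      refine (Real.continuous_sqrt.tendsto _).comp (Tendsto.mul ?_ h2.neg)
      exact tendsto_nhdsWithin_of_tendsto_nhds tendsto_id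
    rw [zero_mul, Real.sqrt_zero] at h3
    refine h3.congr' ?_
    filter_upwards [self_mem_nhdsWithin] with ε hε
    have hε' : (0 : ℝ) < ε := hε
    rw [Real.rpow_one, one_div, Real.log_inv]
    have e : ε * -(Real.log ε * ε) = ε ^ 2 * (-Real.log ε) := by ring
    rw [e, Real.sqrt_mul (by positivity), Real.sqrt_sq hε'.le]
  have h4 : (fun ε : ℝ => rad C ε) = fun ε : ℝ => C * (ε * Real.sqrt (Real.log (1 / ε))) := by
    funext ε
    unfold rad
    ring
  rw [h4]
  simpa using h1.const_mul C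

/-- **leaf LGood** (from M3c) -/
theorem lgood (hM3c : M3c) {Adm : Dom → ℝ → Prop} (hA : ∀ D δ, Adm D δ → D.W δ) :
    Crest.Agent.R143.Spinex422.LGood Adm := by
  intro D δ hDA
  have hD := hA D δ hDA
  obtain ⟨C, hC, hev⟩ := hM3c (‖D.c‖ + D.L) 10
  have hGM : ∀ᶠ ε : ℝ in 𝓝[>] 0,
      sampleLaw {ω | ¬ GM D ε ω} ≤ ENNReal.ofReal (ε ^ (10 : ℝ)) := by
    have hL := hD.Lpos
    have h8 : ∀ᶠ ε : ℝ in 𝓝[>] 0, rad C ε < D.L / 8 :=
      (rad_small C).eventually_lt_const (by positivity)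
    have h1 : ∀ᶠ ε : ℝ in 𝓝[>] 0, ε < 1 := by
      refine nhdsWithin_le_nhds ?_
      exact Iio_mem_nhds one_pos
    filter_upwards [hev, h8, h1, self_mem_nhdsWithin] with ε hε h8 h1 hpos
    have hpos' : (0 : ℝ) < ε := hpos
    have hrad : 0 < rad C ε := by
      unfold rad
      have : 0 < Real.log (1 / ε) := Real.log_pos (by rw [lt_div_iff₀ hpos']; linarith)
      positivity
    have hray : ∀ k : ZMod 3, ∀ᵐ ω ∂sampleLaw, ∀ v ∈ points ε ω, ∀ t : ℝ, v ≠ D.c + t * D.q k :=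
      fun k => ray_null hpos' D.c (fun h => by have := hD.qn k; rw [h, norm_zero] at this; norm_num at this)
    have hae : ∀ᵐ ω ∂sampleLaw, ¬ GM D ε ω → ω ∈ {ω | ∃ z ∈ Metric.closedBall (0 : ℂ) (‖D.c‖ + D.L),
        points ε ω ∩ Metric.ball z (rad C ε) = ∅} := by
      filter_upwards [Crest.Agent.R143.PoisM3x930.m3a ε hpos', ae_all_iff.2 hray] with ω hω hr hn
      by_contra hcon
      apply hn
      have hfin : (points ε ω ∩ Metric.closedBall D.c D.L).Finite := by
        refine (hω.2.2 (‖D.c‖ + D.L)).subset ?_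
        rintro z ⟨hz, hz2⟩
        refine ⟨hz, ?_⟩
        rw [Metric.mem_closedBall, dist_eq_norm] at hz2 ⊢
        rw [sub_zero]
        calc ‖z‖ = ‖D.c + (z - D.c)‖ := by congr 1; ring
          _ ≤ ‖D.c‖ + ‖z - D.c‖ := norm_add_le _ _
          _ ≤ _ := by linarith
      refine gm_of (d := rad C ε) hD hfin hω.2.1 ?_ (fun k v hv t _ => hr k v hv t)
      refine ⟨gp_mono (fun s hs => ((mem_sites hfin).1 hs).1) hω.1, hrad, by linarith,
        fun s hs => ((mem_sites hfin).1 hs).2, fun z hz => ?_⟩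
      have hz0 : z ∈ Metric.closedBall (0 : ℂ) (‖D.c‖ + D.L) := by
        rw [Metric.mem_closedBall, dist_eq_norm, sub_zero]
        calc ‖z‖ = ‖D.c + (z - D.c)‖ := by congr 1; ring
          _ ≤ ‖D.c‖ + ‖z - D.c‖ := norm_add_le _ _
          _ ≤ _ := by linarith
      have hne : (points ε ω ∩ Metric.ball z (rad C ε)).Nonempty := by
        rw [Set.nonempty_iff_ne_empty]
        exact fun h => hcon ⟨z, hz0, h⟩
      obtain ⟨s, hs1, hs2⟩ := hne
      rw [Metric.mem_ball, dist_eq_norm] at hs2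
      refine ⟨s, (mem_sites hfin).2 ⟨hs1, ?_⟩, hs2⟩
      calc ‖s - D.c‖ = ‖(s - z) + (z - D.c)‖ := by congr 1; ring
        _ ≤ ‖s - z‖ + ‖z - D.c‖ := norm_add_le _ _
        _ ≤ D.L := by linarith
    exact (measure_mono_ae hae).trans hε
  have hsub : ∀ ε, ∀ ω ∈ (toMeasurable sampleLaw {ω | ¬ GM D ε ω})ᶜ, GM D ε ω := by
    intro ε ω hω
    by_contra hcon
    exact hω (subset_toMeasurable _ _ hcon)
  have hae : ∀ ε, ∀ᵐ ω ∂(sampleLaw.restrict (toMeasurable sampleLaw {ω | ¬ GM D ε ω})ᶜ),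
      GM D ε ω := by
    intro ε
    rw [ae_restrict_iff' (measurableSet_toMeasurable _ _).compl]
    exact Eventually.of_forall fun ω hω => hsub ε ω hω
  haveI : IsProbabilityMeasure sampleLaw := by unfold sampleLaw; infer_instance
  refine ⟨fun ε => (toMeasurable sampleLaw {ω | ¬ GM D ε ω})ᶜ,
    fun ε => (measurableSet_toMeasurable _ _).compl, ?_, ?_, ?_⟩
  · filter_upwards [hGM] with ε hε
    rw [compl_compl, measure_toMeasurable]
    exact hε
  · exact Eventually.of_forall fun ε z => hm1 (out_open hD) (hae ε) z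
  · exact Eventually.of_forall fun ε => hm2 (out_open hD) (hae ε)

/-- **leaf LGood** -/
theorem lgood' {Adm : Dom → ℝ → Prop} (hA : ∀ D δ, Adm D δ → D.W δ) :
    Crest.Agent.R143.Spinex422.LGood Adm := lgood Crest.Agent.R143.PoisM3cx501.m3c hA

end Crest.Agent.R143.M5x304
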