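import Crest.Agent.R143.DicD_831
import Crest.Agent.R143.M5_304

/-!
# Row 143 (S0194), dichotomy without part A, 5 (helper831): annealed end leaf

* `y_aesm` : for every measurable weight `w`, `ω ↦ ∑ t, Q t * w t` is measurable on good samples
* `Gc` : canonical good environments, `goodfam_gc`
* `yb_bdd` : `‖Yb‖, ‖Yd‖ ≤ B` on good environments
* `YG` : **annealed leaf** (means over a good set of environments chosen by the prover)
* `lmin_of_yg` : `YG → LMinW`, `yg_of_yw` : `YW → YG`, `yg_of_ye` : `YE → YG`
-/

set_option autoImplicit false
set_option linter.all false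

noncomputable section

open scoped Classical

namespace Crest.Agent.R143.DicEx831

open Complex Set Filter Topology MeasureTheory
open scoped ENNReal
open Crest.ProbabilityR.Voronoi
open Crest.Agent.R143.B0x346 Crest.Agent.R143.B0Dx346 Crest.Agent.R143.PP1x831
open Crest.Agent.R143.Mollx887 Crest.Agent.R143.EndBx336
open Crest.Agent.R143.Asmx336
open Crest.Agent.R143.Y0x831 (Good)
open Crest.Agent.R143.Spinex422 (Room Linked GoodFam HG norm_h_le)
open Crest.Agent.R143.B6Ix903 (net)
open Crest.Agent.R143.DicBx831 Crest.Agent.R143.DicCx831 Crest.Agent.R143.DicDx831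
open Crest.Agent.R143.Measx304
open Crest.Agent.R143.M5Ax606 (NMap TMap pe je pe_mem_map)

/-! ### transport of `Q` -/

section transport

variable {V W : Type} {f : V ↪ W} {N : Net V} {N' : Net W}








end transport

/-! ### the sum on a piece -/

section fib

variable {V : Type} [Fintype V]




end fib











/-! ### canonical good environments -/

instance : IsProbabilityMeasure sampleLaw := by unfold sampleLaw; infer_instance

/-- good environments for the measurability and for the estimates -/
def Gok (D : Dom) (ε C K a C4 : ℝ) (ω : Sample) : Prop := GM D ε ω ∧ Good D ε C K a C4 ω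







/-! ### boundedness -/



/-! ### annealed leaves -/

/-- admissible sets of environments -/
structure GS (D : Dom) (ε C K a C4 η : ℝ) (G : Set Sample) : Prop where
  meas : MeasurableSet G
  prob : sampleLaw Gᶜ ≤ ENNReal.ofReal η
  ok : ∀ ω ∈ G, Gok D ε C K a C4 ω









end Crest.Agent.R143.DicEx831
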