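import Crest.Agent.R143.Gauge1_950
import Crest.Agent.R143.XD_697

-- ▼ part R143/Gauge2_950
section

/-!
# Row 143 (S0194), block X, GAUGE part 2 (helper950): the explored edges

* `Xp` : states of the explored legs; `exf` : indicator of the explored edges
* `ex_ds` : sum over the sides of a triangle which is not odd = indicator of the tip triangles;
  `ex_out`, `ex_inn` : outer and inner legs, all triangles
* `blk_of` : a colouring which is constant on the unexplored differences is constant along the legs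
-/

set_option autoImplicit false

noncomputable section

open scoped Classical

namespace Crest.Agent.R143.Gax950

open Crest.Agent.R143.B0x346 Crest.Agent.R143.DelGx806 Crest.Agent.R143.DelRx806
open Crest.Agent.R143.JColx54 Crest.Agent.R143.JCol2x54 Crest.Agent.R143.Planarx54
open Crest.Agent.R143.X0Bx683 Crest.Agent.R143.JCardx872 Crest.Agent.R143.JWalkx872
open Crest.Agent.R143.Circx63 Crest.Agent.R143.XLegx126

variable {S : Finset ℂ} {G : Trg ℂ} {kl : Set (ℂ × ℂ)} {O : Set (ℂ × ℂ × ℂ)} {D : Set (ℂ × ℂ)}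
  {J : Finset (ℂ × ℂ)} {W : Set ℂ} {st0 q : ZMod 3 → ℂ × ℂ} {c : ZMod 3 → ℂ}

/-- states of the explored legs -/
def Xp (G : Trg ℂ) (O : Set (ℂ × ℂ × ℂ)) (D : Set (ℂ × ℂ)) (J : Finset (ℂ × ℂ)) (W : Set ℂ)
    (st0 : ZMod 3 → ℂ × ℂ) (x : ℂ × ℂ) : Prop := ∃ i, LeadsO G O D J W (st0 i) x




theorem Xp.out {x : ℂ × ℂ} (h : Xp G O D J W st0 x) : OutP W x := by
  obtain ⟨i, h⟩ := h
  exact LeadsO.out_right h


/-- a state which enters a triangle is occupied -/
theorem Xp.mem (hD : HullM S D) (hJ : IsJoin G kl O D J)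
    (hs : Starts G O D J st0) {a b z : ℂ} (h : Xp G O D J W st0 (a, b))
    (ht : (a, b, z) ∈ delT S) : (a, b) ∈ J := by
  obtain ⟨i, h⟩ := h
  rcases LeadsO.tail_cases h with h | ⟨r, hr, hr'⟩
  · rw [h]; exact hs.occ i
  · have h1 := step_exit hr'
    have h2 := step_notMark hJ hr'
    have h3 : (b, a) ∉ D := fun h => hD b a h z ht
    exact (hJ.sym a b h2 h3).2 h1














/-! ### colours along the legs -/




end Crest.Agent.R143.Gax950
end
end

-- ▼ part R143/Gauge3_950

/-!
# Row 143 (S0194), block X, GAUGE part 3 (helper950): half lines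

* `pnt z0 e c y` : point with the coordinates `c, y`
* `exists_line` : a line `X = c`, `c < 0` small, without sites between `X = c` and `X = 0`
* `exists_gen` : a height such that the point is not on a Delaunay edge
* `Gen` : generic point; `Hx` : edges crossing the half line above the point
* `H_ds` : sum over the sides = indicator of the triangle which contains the point
* `H_seg` : the difference of two half lines consists of edges through the segment
-/

set_option autoImplicit false

noncomputable section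

open scoped Classical

namespace Crest.Agent.R143.Gax950

open Crest.Agent.R143.B0x346 Crest.Agent.R143.DelGx806 Crest.Agent.R143.DelRx806
open Crest.Agent.R143.JColx54 Crest.Agent.R143.JCol2x54 Crest.Agent.R143.Planarx54
open Crest.Agent.R143.Planar2x54 Crest.Agent.R143.ToolWx838
open Crest.Agent.R143.X0Bx683 Crest.Agent.R143.JCardx872 Crest.Agent.R143.JWalkx872
open Crest.Agent.R143.Circx63 Crest.Agent.R143.XLegx126 Crest.Agent.R143.Gatex838
open Crest.Agent.R143.RB0x838

variable {S : Finset ℂ} {z0 e : ℂ} {c y : ℝ}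

/-- indicator of a proposition mod 2 -/
def zi (P : Prop) : ZMod 2 := if P then 1 else 0

theorem zi_one {P : Prop} : zi P = 1 ↔ P := by
  unfold zi
  split_ifs with h
  · exact ⟨fun _ => h, fun _ => rfl⟩
  · exact ⟨fun h' => absurd h' zero_ne_one, fun h' => absurd h' h⟩


theorem zi_true {P : Prop} (h : P) : zi P = 1 := zi_one.2 h

theorem zi_false {P : Prop} (h : ¬ P) : zi P = 0 := if_neg h


/-! ### the sign lemma -/

theorem key1 {α β γ A B C : ℝ} (hα : α < 0) (hβ : 0 < β) (hγ : 0 < γ) (hΔ : 0 < A + B + C)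
    (h0 : B * α + C * β + A * γ = 0) (hA : A ≠ 0) (hC : C ≠ 0) :
    zi (A < 0) + zi (0 < C) = zi (0 < A ∧ 0 < B ∧ 0 < C) := by
  rcases lt_or_gt_of_ne hA with a | a
  · rw [zi_true a, zi_false (P := 0 < A ∧ _) (fun h => by linarith [h.1])]
    rcases lt_or_gt_of_ne hC with c | c
    · exfalso
      have h1 : C * β < 0 := mul_neg_of_neg_of_pos c hβ
      have h2 : A * γ < 0 := mul_neg_of_neg_of_pos a hγ
      have h3 : 0 < B * α := by linarith
      have h4 : B < 0 := by
        by_contra hB
        push Not at hB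
        have := mul_nonpos_of_nonneg_of_nonpos hB hα.le
        linarith
      linarith
    · rw [zi_true c]; decide
  · rw [zi_false (P := A < 0) (by linarith), zero_add]
    rcases lt_or_gt_of_ne hC with c | c
    · rw [zi_false (P := 0 < C) (by linarith), zi_false (fun h => by linarith [h.2.2])]
    · have h1 : 0 < C * β := mul_pos c hβ
      have h2 : 0 < A * γ := mul_pos a hγ
      have h3 : B * α < 0 := by linarith
      have h4 : 0 < B := by
        by_contra hB
        push Not at hB
        have := mul_nonneg_of_nonpos_of_nonpos hB hα.le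
        linarith
      rw [zi_true c, zi_true ⟨a, h4, c⟩]

theorem zi_flip {A : ℝ} (hA : A ≠ 0) : zi (A < 0) = 1 + zi (0 < A) := by
  rcases lt_or_gt_of_ne hA with a | a
  · rw [zi_true a, zi_false (P := 0 < A) (by linarith), add_zero]
  · rw [zi_false (P := A < 0) (by linarith), zi_true a]; decide





theorem key2 {α β γ A B C : ℝ} (hα : 0 < α) (hβ : β < 0) (hγ : γ < 0) (hΔ : 0 < A + B + C)
    (h0 : B * α + C * β + A * γ = 0) (hA : A ≠ 0) (hC : C ≠ 0) :
    zi (0 < A) + zi (C < 0) = zi (0 < A ∧ 0 < B ∧ 0 < C) := by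
  have h := key1 (α := -α) (β := -β) (γ := -γ) (by linarith) (by linarith) (by linarith) hΔ
    (by linarith) hA hC
  rw [← h, zi_flip hA, zi_flip hC]
  generalize zi (0 < A) = u
  generalize zi (0 < C) = v
  ring


/-! ### coordinates -/








/-- generic point of the line `X = c` -/
structure Gen (S : Finset ℂ) (z0 e : ℂ) (c : ℝ) (x : ℂ) : Prop where
  he : ‖e‖ = 1
  hX : X z0 e x = c
  ne : ∀ s ∈ S, X z0 e s ≠ c
  cr : ∀ a ∈ S, ∀ b ∈ S, X z0 e a < c → c < X z0 e b → B0x346.cr (b - a) (x - a) ≠ 0










/-! ### triangles which contain the point -/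



/-! ### short edges -/

variable {R1 d ρ : ℝ}

theorem adj_seg (hD : LDns S z0 R1 d) (hρ : ρ + d ≤ R1) {a b p : ℂ} (h : Adj S a b)
    (hp : p ∈ segment ℝ a b) (hn : ‖p - z0‖ ≤ ρ) : ‖a - p‖ < 2 * d ∧ ‖b - p‖ < 2 * d := by
  have hH := XFx903.hol_ldns hD hρ
  have hw : p ∈ Metric.closedBall z0 ρ := by
    rw [Metric.mem_closedBall, dist_eq_norm]; exact hn
  rcases h with ⟨z, h⟩ | ⟨z, h⟩
  · have hpos := B1gx991.tri_pos h
    obtain ⟨o, -, -, -, -, -, h1, h2, -⟩ := Locx922.del_small hD.dpos hH hw
      (Locx922.InT.inD hpos (B1gx991.side_inT hpos hp)) (mem_delT.1 h)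
    exact ⟨h1, h2⟩
  · have hpos := B1gx991.tri_pos h
    rw [segment_symm] at hp
    obtain ⟨o, -, -, -, -, -, h1, h2, -⟩ := Locx922.del_small hD.dpos hH hw
      (Locx922.InT.inD hpos (B1gx991.side_inT hpos hp)) (mem_delT.1 h)
    exact ⟨h2, h1⟩

theorem adj_len (hD : LDns S z0 R1 d) (hρ : ρ + d ≤ R1) {a b : ℂ} (h : Adj S a b)
    (hn : ‖a - z0‖ ≤ ρ) : ‖b - a‖ < 2 * d :=
  (adj_seg hD hρ h (left_mem_segment _ _ _) hn).2



end Crest.Agent.R143.Gax950
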