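import Crest.Agent.R143.BK_315

/-!
# R143, block X, winding tail XW (helper315), part 1: abstract tools

* `label_bound` : a function which only changes along the edges inside a labelled set, and little
  on every label, changes little along every path if few labels are visited
* `ex V f` : expectation over the fair colourings of `V`; `ex_prod` : independence;
  `ex_symm` : translation; `ex_pow_le` : exponential moment from a geometric tail
* `Cl`, `cls`, `card_cls_le` : crossing clusters and disjoint occurrence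
-/

set_option autoImplicit false

noncomputable section

open scoped Classical

namespace Crest.Agent.R143.XW1x315

open Finset
open Crest.Agent.R143.Harx315 Crest.Agent.R143.BKx315

/-! ### labels -/

section label

variable {V Λ : Type*} {R : V → V → Prop} {Z : Set V} {lab : V → Λ} {B : V → ℝ} {M0 M : ℝ}

/-- steps whose labels are in `F` -/
def Rl (R : V → V → Prop) (Z : Set V) (lab : V → Λ) (F : Finset Λ) (a b : V) : Prop :=
  R a b ∧ (a ∈ Z → lab a ∈ F) ∧ (b ∈ Z → lab b ∈ F)

/-- the last visit of a label -/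
lemma last_visit {F : Finset Λ} {f : Λ} {u v : V} (hu : u ∈ Z) (huf : lab u = f)
    (h : Relation.ReflTransGen (Rl R Z lab F) u v) :
    ∃ a, a ∈ Z ∧ lab a = f ∧ (a = v ∨ ∃ b, R a b ∧ (b ∈ Z → lab b ∈ F.erase f) ∧
      Relation.ReflTransGen (Rl R Z lab (F.erase f)) b v) := by
  induction h with
  | refl => exact ⟨u, hu, huf, Or.inl rfl⟩
  | @tail v' v _ h2 ih =>
      obtain ⟨a, ha, haf, h3⟩ := ih
      by_cases hv : v ∈ Z ∧ lab v = f
      · exact ⟨v, hv.1, hv.2, Or.inl rfl⟩
      · have hvF : v ∈ Z → lab v ∈ F.erase f := fun h => mem_erase.2 ⟨fun e => hv ⟨h, e⟩, h2.2.2 h⟩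
        refine ⟨a, ha, haf, Or.inr ?_⟩
        rcases h3 with rfl | ⟨b, hb, hbF, hp⟩
        · exact ⟨v, h2.1, hvF, Relation.ReflTransGen.refl⟩
        · refine ⟨b, hb, hbF, hp.tail ⟨h2.1, ?_, hvF⟩⟩
          rcases Relation.ReflTransGen.cases_tail hp with rfl | ⟨c, _, hc⟩
          · exact hbF
          · exact hc.2.2




end label

/-! ### expectations -/

section expect

variable {α : Type*} {V W : Finset α}

/-- expectation over the fair colourings of `V` -/
def ex (V : Finset α) (f : Finset α → ℝ) : ℝ := (∑ β ∈ V.powerset, f β) / 2 ^ V.card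

lemma ex_mono {f g : Finset α → ℝ} (h : ∀ β, β ⊆ V → f β ≤ g β) : ex V f ≤ ex V g := by
  unfold ex
  apply div_le_div_of_nonneg_right _ (by positivity)
  exact sum_le_sum fun β hβ => h β (mem_powerset.1 hβ)

lemma ex_congr {f g : Finset α → ℝ} (h : ∀ β, β ⊆ V → f β = g β) : ex V f = ex V g := by
  unfold ex
  rw [sum_congr rfl fun β hβ => h β (mem_powerset.1 hβ)]

lemma ex_nonneg {f : Finset α → ℝ} (h : ∀ β, β ⊆ V → 0 ≤ f β) : 0 ≤ ex V f := by
  unfold ex
  exact div_nonneg (sum_nonneg fun β hβ => h β (mem_powerset.1 hβ)) (by positivity)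

lemma ex_const (V : Finset α) (c : ℝ) : ex V (fun _ => c) = c := by
  unfold ex
  rw [sum_const, card_powerset, nsmul_eq_mul]
  push_cast
  field_simp


lemma ex_mul_const (f : Finset α → ℝ) (c : ℝ) : ex V (fun β => c * f β) = c * ex V f := by
  unfold ex
  rw [← mul_sum, mul_div_assoc]

lemma ex_sum {ι : Type*} (s : Finset ι) (f : ι → Finset α → ℝ) :
    ex V (fun β => ∑ i ∈ s, f i β) = ∑ i ∈ s, ex V (f i) := by
  unfold ex
  rw [sum_comm, sum_div]

lemma ex_ind (A : Finset α → Prop) : ex V (fun β => if A β then 1 else 0) = pr V A := by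
  unfold ex pr nb fl
  rw [← sum_filter, sum_const, nsmul_eq_mul, mul_one]

/-- fix the colours of `W` -/
theorem ex_split (hW : W ⊆ V) (f : Finset α → ℝ) :
    ex V f = ex W (fun γ => ex (V \ W) (fun β => f (β ∪ γ))) := by
  unfold ex
  have h1 : (∑ β ∈ V.powerset, f β) =
      ∑ γ ∈ W.powerset, ∑ β ∈ (V \ W).powerset, f (β ∪ γ) := by
    rw [← sum_product']
    symm
    apply sum_bij (fun p _ => p.2 ∪ p.1)
    · rintro ⟨γ, β⟩ hp
      rw [mem_product, mem_powerset, mem_powerset] at hp
      rw [mem_powerset]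
      exact union_subset (hp.2.trans sdiff_subset) (hp.1.trans hW)
    · rintro ⟨γ, β⟩ hp ⟨γ', β'⟩ hp' h
      rw [mem_product, mem_powerset, mem_powerset] at hp hp'
      have k1 : ∀ {γ β : Finset α}, γ ⊆ W → β ⊆ V \ W → (β ∪ γ) ∩ W = γ := by
        intro γ β hγ hβ
        ext x
        simp only [mem_inter, mem_union]
        constructor
        · rintro ⟨h1 | h1, h2⟩
          · exact absurd h2 (mem_sdiff.1 (hβ h1)).2
          · exact h1
        · intro h1; exact ⟨Or.inr h1, hγ h1⟩
      have k2 : ∀ {γ β : Finset α}, γ ⊆ W → β ⊆ V \ W → (β ∪ γ) \ W = β := by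
        intro γ β hγ hβ
        ext x
        simp only [mem_sdiff, mem_union]
        constructor
        · rintro ⟨h1 | h1, h2⟩
          · exact h1
          · exact absurd (hγ h1) h2
        · intro h1; exact ⟨Or.inl h1, (mem_sdiff.1 (hβ h1)).2⟩
      dsimp only at h hp hp'
      rw [Prod.mk.injEq]
      exact ⟨by rw [← k1 hp.1 hp.2, h, k1 hp'.1 hp'.2], by rw [← k2 hp.1 hp.2, h, k2 hp'.1 hp'.2]⟩
    · intro β hβ
      rw [mem_powerset] at hβ
      refine ⟨(β ∩ W, β \ W), ?_, ?_⟩
      · rw [mem_product, mem_powerset, mem_powerset]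
        exact ⟨inter_subset_right, sdiff_subset_sdiff hβ subset_rfl⟩
      · simp only
        exact sdiff_union_inter β W
    · intro _ _; rfl
  rw [h1, sum_div, sum_div]
  apply sum_congr rfl
  intro γ _
  rw [div_div]
  congr 1
  rw [← pow_add, card_sdiff_of_subset hW]
  congr 1
  have := card_le_card hW
  omega

/-- independence of two functions -/
theorem ex_mul {f g : Finset α → ℝ} (hW : W ⊆ V) (hf : ∀ β, β ⊆ V → f β = f (β ∩ W))
    (hg : ∀ β, β ⊆ V → g β = g (β \ W)) :
    ex V (fun β => f β * g β) = ex W f * ex (V \ W) g := by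
  rw [ex_split hW]
  have h1 : ∀ γ, γ ⊆ W → ex (V \ W) (fun β => f (β ∪ γ) * g (β ∪ γ)) =
      f γ * ex (V \ W) g := by
    intro γ hγ
    rw [← ex_mul_const]
    apply ex_congr
    intro β hβ
    have hs : β ∪ γ ⊆ V := union_subset (hβ.trans sdiff_subset) (hγ.trans hW)
    have e1 : (β ∪ γ) ∩ W = γ := by
      ext x
      simp only [mem_inter, mem_union]
      constructor
      · rintro ⟨h1 | h1, h2⟩
        · exact absurd h2 (mem_sdiff.1 (hβ h1)).2
        · exact h1
      · intro h1; exact ⟨Or.inr h1, hγ h1⟩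
    have e2 : (β ∪ γ) \ W = β := by
      ext x
      simp only [mem_sdiff, mem_union]
      constructor
      · rintro ⟨h1 | h1, h2⟩
        · exact h1
        · exact absurd (hγ h1) h2
      · intro h1; exact ⟨Or.inl h1, (mem_sdiff.1 (hβ h1)).2⟩
    rw [hf _ hs, hg _ hs, e1, e2]
  rw [ex_congr h1]
  have h2 : ex W (fun γ => f γ * ex (V \ W) g) = ex W (fun γ => ex (V \ W) g * f γ) :=
    ex_congr fun γ _ => mul_comm _ _
  rw [h2, ex_mul_const, mul_comm]

/-- marginal -/
theorem ex_dep {f : Finset α → ℝ} (hW : W ⊆ V) (hf : ∀ β, β ⊆ V → f β = f (β ∩ W)) :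
    ex V f = ex W f := by
  have h1 := ex_mul (g := fun _ => 1) hW hf (fun _ _ => rfl)
  rw [ex_const, mul_one] at h1
  rw [← h1]
  exact ex_congr fun β _ => (mul_one _).symm


/-- translation of the colours -/
theorem ex_symm {τ : Finset α} (hτ : τ ⊆ V) (f : Finset α → ℝ) :
    ex V (fun β => f (symmDiff β τ)) = ex V f := by
  unfold ex
  congr 1
  apply sum_bij (fun β _ => symmDiff β τ)
  · intro β hβ
    rw [mem_powerset] at hβ ⊢
    exact (symmDiff_le_sup (a := β) (b := τ)).trans (union_subset hβ hτ)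
  · intro β _ β' _ h
    exact symmDiff_left_injective τ h
  · intro β hβ
    rw [mem_powerset] at hβ
    refine ⟨symmDiff β τ, ?_, symmDiff_symmDiff_cancel_right τ β⟩
    rw [mem_powerset]
    exact (symmDiff_le_sup (a := β) (b := τ)).trans (union_subset hβ hτ)
  · intro _ _; rfl

/-- exponential moment from a geometric tail -/
theorem ex_pow_le {N : Finset α → ℕ} {p x : ℝ} (hx : 0 ≤ x) (hp : 0 ≤ p) (hxp : x * p < 1)
    (h : ∀ k : ℕ, pr V (fun β => k ≤ N β) ≤ p ^ k) :
    ex V (fun β => x ^ N β) ≤ 1 / (1 - x * p) := by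
  have hx1 : 0 < 1 - x * p := by linarith
  -- a common bound for `N`
  set n := V.powerset.sup N with hn
  have h1 : ∀ β, β ⊆ V → x ^ N β ≤
      ∑ k ∈ Finset.range (n + 1), x ^ k * (if k ≤ N β then 1 else 0) := by
    intro β hβ
    have h2 : N β ∈ Finset.range (n + 1) := by
      rw [Finset.mem_range]
      exact Nat.lt_succ_of_le (Finset.le_sup (f := N) (mem_powerset.2 hβ))
    have h3 := single_le_sum (f := fun k => x ^ k * (if k ≤ N β then (1 : ℝ) else 0))
      (fun k _ => mul_nonneg (pow_nonneg hx k) (by split_ifs <;> norm_num)) h2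
    simpa using h3
  refine (ex_mono h1).trans ?_
  rw [ex_sum]
  have h4 : ∀ k ∈ Finset.range (n + 1),
      ex V (fun β => x ^ k * (if k ≤ N β then 1 else 0)) ≤ (x * p) ^ k := by
    intro k _
    have e : ex V (fun β => if k ≤ N β then (1 : ℝ) else 0) = pr V (fun β => k ≤ N β) := by
      rw [← ex_ind]
      exact ex_congr fun β _ => by split_ifs <;> rfl
    rw [ex_mul_const, e, mul_pow]
    exact mul_le_mul_of_nonneg_left (h k) (pow_nonneg hx k)
  refine (sum_le_sum h4).trans ?_
  have h5 := (hasSum_geometric_of_lt_one (mul_nonneg hx hp) hxp)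
  rw [one_div]
  exact sum_le_hasSum _ (fun k _ => pow_nonneg (mul_nonneg hx hp) k) h5

end expect

/-! ### crossing clusters -/

section clusters

variable {α : Type*}

/-- `a` and `b` are joined in `β` -/
def Jn (E : α → α → Prop) (β : Finset α) (a b : α) : Prop :=
  Relation.ReflTransGen (fun x y => E x y ∧ x ∈ β ∧ y ∈ β) a b

/-- the cluster of `a` in `β` -/
def Cl (E : α → α → Prop) (β : Finset α) (a : α) : Finset α := β.filter fun b => Jn E β a b

/-- `β` contains a crossing from `q` to `o` -/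
def Crs (E : α → α → Prop) (q o : Set α) (β : Finset α) : Prop :=
  ∃ a b, a ∈ β ∧ b ∈ β ∧ a ∈ q ∧ b ∈ o ∧ Jn E β a b

variable {E : α → α → Prop} {q o : Set α} {V : Finset α}

lemma Jn.mono {β β' : Finset α} (h : β ⊆ β') {a b : α} (hab : Jn E β a b) : Jn E β' a b := by
  induction hab with
  | refl => exact Relation.ReflTransGen.refl
  | tail _ h2 ih => exact ih.tail ⟨h2.1, h h2.2.1, h h2.2.2⟩

lemma Jn.symm (hE : ∀ x y, E x y → E y x) {β : Finset α} {a b : α} (h : Jn E β a b) :
    Jn E β b a := by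
  induction h with
  | refl => exact Relation.ReflTransGen.refl
  | tail _ h2 ih => exact Relation.ReflTransGen.head ⟨hE _ _ h2.1, h2.2.2, h2.2.1⟩ ih

lemma Crs.up (V : Finset α) (E : α → α → Prop) (q o : Set α) : Up V (Crs E q o) := by
  rintro β β' h _ ⟨a, b, ha, hb, haq, hbo, hab⟩
  exact ⟨a, b, h ha, h hb, haq, hbo, hab.mono h⟩

/-- a path in `β` from `a` stays in the cluster of `a` -/
lemma Jn.cl {β : Finset α} {a b : α} (ha : a ∈ β) (h : Jn E β a b) : Jn E (Cl E β a) a b := by
  have key : Jn E (Cl E β a) a b ∧ b ∈ Cl E β a := by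
    induction h with
    | refl => exact ⟨Relation.ReflTransGen.refl, by
        unfold Cl; rw [mem_filter]; exact ⟨ha, Relation.ReflTransGen.refl⟩⟩
    | @tail b c hab h2 ih =>
        have hc : c ∈ Cl E β a := by
          unfold Cl
          rw [mem_filter]
          exact ⟨h2.2.2, Relation.ReflTransGen.tail hab h2⟩
        exact ⟨ih.1.tail ⟨h2.1, ih.2, hc⟩, hc⟩
  exact key.1

/-- the crossing clusters -/
def cls (E : α → α → Prop) (q o : Set α) (β : Finset α) : Finset (Finset α) :=
  (β.filter fun a => a ∈ q ∧ ∃ b ∈ β, b ∈ o ∧ Jn E β a b).image (Cl E β)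






end clusters

end Crest.Agent.R143.XW1x315
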