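import Crest.Agent.R143.X0B_683
import Crest.Agent.R143.XW1_315
import Crest.Agent.R143.JCol2_54

/-!
# Row 143, block J, leaf J8 / gauge (helper872)

* `FreeS S N V` : the sites of `V` can be flipped (live, no hull edge, hence no mark)
* `flip_flip`, `flip_isJoin`, `flip_mem` (a join stays a join), `occ_flip` (occupied edges of a flipped
  join), `flip_inj`
* `sum_tj` : **averaging identity** `∑ J ∈ tj, f J = ∑ J ∈ tj, ex V (fun β => f (flip J β))`,
  `card_tj` : the same for counts, `sum_joins`, `card_joins'` : any odd set / marks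
* `loc_col` : **local colouring**: away from the cut of a branch `B` of the argument seen from a point
  of the odd triangle the join is the boundary of a colouring; `loc_col_hp` (half plane),
  `loc_col_open` (convex open set), `loc_col_closed` (convex compact set)
-/

set_option autoImplicit false

noncomputable section

open scoped Classical

namespace Crest.Agent.R143.J8x872

open Crest.Agent.R143.B0x346 Crest.Agent.R143.DelGx806 Crest.Agent.R143.DelRx806
  Crest.Agent.R143.JColx54 Crest.Agent.R143.JCol2x54 Crest.Agent.R143.Planarx54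
  Crest.Agent.R143.Planar2x54 Crest.Agent.R143.Harx315

local notation "flp" => Crest.Agent.R143.X0Bx683.flip
local notation "bdy" => Crest.Agent.R143.X0Bx683.bd
local notation "eex" => Crest.Agent.R143.XW1x315.ex

variable {S : Finset ℂ} {N : Net ℂ} {G : Trg ℂ} {kl : Set (ℂ × ℂ)} {O : Set (ℂ × ℂ × ℂ)}
  {D : Set (ℂ × ℂ)} {J J' : Finset (ℂ × ℂ)} {V β β' : Finset ℂ}

/-- sites which may be flipped: all edges at the site are live and not on the hull -/
def FreeS (S : Finset ℂ) (kl : Set (ℂ × ℂ)) (V : Finset ℂ) : Prop :=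
  ∀ s ∈ V, ∀ x, (s, x) ∉ kl ∧ (x, s) ∉ kl ∧ ¬ hullE S s x ∧ ¬ hullE S x s

theorem FreeS.mono (h : FreeS S kl V) (hβ : β ⊆ V) : FreeS S kl β := fun s hs => h s (hβ hs)


theorem mem_bd (hG : G.T = delT S) {a b : ℂ} :
    (a, b) ∈ bdy G β ↔ Adj S a b ∧ ¬ (a ∈ β ↔ b ∈ β) := by
  unfold X0Bx683.bd
  rw [Finset.mem_filter, mem_E hG]



theorem flip_self : flp G (flp G J β) β = J := by
  unfold X0Bx683.flip
  exact symmDiff_symmDiff_cancel_right _ _

theorem bd_isJoin (hS : GP (S : Set ℂ)) (hG : G.T = delT S) (hβ : FreeS S kl β) : IsJoin G kl ∅ ∅ (bdy G β) := by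
  refine ⟨Finset.filter_subset _ _, ?_, ?_, ?_, ?_, ?_⟩
  · intro a b _ _
    rw [mem_bd hG, mem_bd hG]
    constructor
    · rintro ⟨h1, h2⟩
      exact ⟨h1.symm, fun h => h2 h.symm⟩
    · rintro ⟨h1, h2⟩
      exact ⟨h1.symm, fun h => h2 h.symm⟩
  · intro a b h
    simp at h
  · intro a b h1 _
    rw [hG] at h1
    have key : Adj S a b → (a ∈ β ↔ b ∈ β) := by
      intro hab
      have hh : hullE S a b := by
        rcases hab with hc | ⟨c, hc⟩
        · exact ⟨hc, h1⟩
        · exact absurd hc (h1 c)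
      constructor
      · intro ha
        exact absurd hh (hβ a ha b).2.2.1
      · intro hb
        exact absurd hh (hβ b hb a).2.2.2
    rw [mem_bd hG, mem_bd hG]
    exact ⟨fun h => h.2 (key h.1), fun h => h.2 (key h.1.symm).symm⟩
  · intro a b h1 _ _
    have key : (a ∈ β ↔ b ∈ β) := by
      constructor
      · intro ha
        exact absurd h1 (hβ a ha b).1
      · intro hb
        exact absurd h1 (hβ b hb a).2.1
    rw [mem_bd hG, mem_bd hG]
    exact ⟨fun h => h.2 key, fun h => h.2 key.symm⟩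
  · intro a b c h
    rw [hG] at h
    have e1 : (a, b) ∈ bdy G β ↔ ¬ (a ∈ β ↔ b ∈ β) := by
      rw [mem_bd hG]; exact ⟨fun h => h.2, fun h' => ⟨adj_tri h, h'⟩⟩
    have e2 : (b, c) ∈ bdy G β ↔ ¬ (b ∈ β ↔ c ∈ β) := by
      rw [mem_bd hG]
      exact ⟨fun h => h.2, fun h' => ⟨adj_tri' hS h, h'⟩⟩
    have e3 : (c, a) ∈ bdy G β ↔ ¬ (c ∈ β ↔ a ∈ β) := by
      rw [mem_bd hG]
      exact ⟨fun h => h.2, fun h' => ⟨adj_tri'' hS h, h'⟩⟩
    simp only [e1, e2, e3, Set.mem_empty_iff_false, if_false]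
    by_cases x1 : a ∈ β <;> by_cases x2 : b ∈ β <;> by_cases x3 : c ∈ β <;>
      simp [x1, x2, x3]

/-- a mark on the hull is not at a free site -/
theorem bd_mark (hD : ∀ a b, (a, b) ∈ D → hullE S a b) (hG : G.T = delT S)
    (hβ : FreeS S kl β) : ∀ x ∈ D, x ∉ bdy G β := by
  rintro ⟨a, b⟩ hx h
  obtain ⟨-, h2⟩ := (mem_bd hG).1 h
  have hh := hD a b hx
  apply h2
  constructor
  · intro ha
    exact absurd hh (hβ a ha b).2.2.1
  · intro hb
    exact absurd hh (hβ b hb a).2.2.2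

/-- flipping free sites, any odd set, marks avoiding the boundary of `β` -/
theorem flip_isJoin (hS : GP (S : Set ℂ)) (hG : G.T = delT S) (hβ : FreeS S kl β)
    (hD : ∀ x ∈ D, x ∉ bdy G β) (hJ : IsJoin G kl O D J) : IsJoin G kl O D (flp G J β) := by
  have h := JCardx872.xor_isJoin (bd_isJoin hS hG hβ) hD hJ
  have e : symmDiff O (∅ : Set (ℂ × ℂ × ℂ)) = O := by
    have : (∅ : Set (ℂ × ℂ × ℂ)) = ⊥ := rfl
    rw [this, symmDiff_bot]
  rw [e, symmDiff_comm] at h
  exact h

theorem flip_joins_iff (hS : GP (S : Set ℂ)) (hG : G.T = delT S) (hβ : FreeS S kl β)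
    (hD : ∀ x ∈ D, x ∉ bdy G β) : flp G J β ∈ joins G kl O D ↔ J ∈ joins G kl O D := by
  rw [JCardx872.mem_joins, JCardx872.mem_joins]
  refine ⟨fun h => ?_, flip_isJoin hS hG hβ hD⟩
  have := flip_isJoin hS hG hβ hD h
  rwa [flip_self] at this


/-- occupied edges of the flipped join -/
theorem occ_flip (hG : G.T = delT S) (hD : ∀ x ∈ D, x ∉ bdy G β) (hJ : IsJoin G kl O D J) {a b : ℂ}
    (hab : Adj S a b) : ((a, b) ∈ flp G J β ∨ (b, a) ∈ flp G J β) ↔
      (((a, b) ∈ J ∨ (b, a) ∈ J) ↔ (a ∈ β ↔ b ∈ β)) := by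
  unfold X0Bx683.flip
  rw [Finset.mem_symmDiff, Finset.mem_symmDiff, mem_bd hG, mem_bd hG]
  have h1 := hab.symm
  by_cases hd : (a, b) ∈ D
  · have h2 := hJ.mark a b hd
    have h3 := hD _ hd
    rw [mem_bd hG] at h3
    tauto
  · by_cases hd' : (b, a) ∈ D
    · have h2 := hJ.mark b a hd'
      have h3 := hD _ hd'
      rw [mem_bd hG] at h3
      tauto
    · have h2 := hJ.sym a b hd hd'
      tauto


/-! ### averaging -/

/-- **averaging identity** -/
theorem sum_joins (hS : GP (S : Set ℂ)) (hG : G.T = delT S) (hV : FreeS S kl V)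
    (hD : ∀ β, β ⊆ V → ∀ x ∈ D, x ∉ bdy G β) (f : Finset (ℂ × ℂ) → ℝ) :
    ∑ J ∈ joins G kl O D, f J = ∑ J ∈ joins G kl O D, eex V (fun β => f (flp G J β)) := by
  unfold XW1x315.ex
  rw [← Finset.sum_div, Finset.sum_comm]
  have key : ∀ β ∈ V.powerset, ∑ J ∈ joins G kl O D, f (flp G J β) = ∑ J ∈ joins G kl O D, f J := by
    intro β hβ
    rw [Finset.mem_powerset] at hβ
    have hi : ∀ J, flp G J β ∈ joins G kl O D ↔ J ∈ joins G kl O D := fun J =>
      flip_joins_iff hS hG (hV.mono hβ) (hD β hβ)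
    refine Finset.sum_bij' (fun J _ => flp G J β) (fun J _ => flp G J β) ?_ ?_ ?_ ?_ ?_
    · intro J hJ
      exact (hi J).2 hJ
    · intro J hJ
      exact (hi J).2 hJ
    · intro J _
      exact flip_self
    · intro J _
      exact flip_self
    · intro J _
      rfl
  rw [Finset.sum_congr rfl key, Finset.sum_const, Finset.card_powerset, nsmul_eq_mul]
  push_cast
  field_simp

theorem bd_mark' (H : HNet S N) (hV : FreeS S N.kl V) :
    ∀ β, β ⊆ V → ∀ x ∈ N.exS, x ∉ bdy N.toTrg β := fun β hβ =>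
  bd_mark (fun a b h => by
    obtain ⟨k, hk⟩ := h
    have := H.hex k
    rw [hk] at this
    exact this) H.tri (hV.mono hβ)


/-- counts as sums of probabilities -/
theorem card_joins (hS : GP (S : Set ℂ)) (hG : G.T = delT S) (hV : FreeS S kl V)
    (hD : ∀ β, β ⊆ V → ∀ x ∈ D, x ∉ bdy G β) (P : Finset (ℂ × ℂ) → Prop) :
    (((joins G kl O D).filter P).card : ℝ) =
      ∑ J ∈ joins G kl O D, pr V (fun β => P (flp G J β)) := by
  rw [Finset.card_filter]
  push_cast
  rw [sum_joins hS hG hV hD]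
  refine Finset.sum_congr rfl fun J _ => ?_
  exact XW1x315.ex_ind _

/-- counts as sums of probabilities -/
theorem card_tj (H : HNet S N) (hV : FreeS S N.kl V) (t : ℂ × ℂ × ℂ)
    (P : Finset (ℂ × ℂ) → Prop) :
    (((N.tj t).filter P).card : ℝ) = ∑ J ∈ N.tj t, pr V (fun β => P (flp N.toTrg J β)) :=
  card_joins H.gp H.tri hV (bd_mark' H hV) P

/-! ### local colourings -/

theorem exS_hull (H : HNet S N) : HullM S N.exS := by
  rintro a b ⟨k, hk⟩
  have := H.hex k
  rw [hk] at this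
  exact this.2


/-- the sites are not the point `x` of an open triangle -/
theorem adj_ne (hS : GP (S : Set ℂ)) {t : ℂ × ℂ × ℂ} (ht : t ∈ delT S) {x : ℂ} (hx : InO' x t)
    {a b : ℂ} (h : Adj S a b) : a - x ≠ 0 ∧ b - x ≠ 0 := by
  obtain ⟨d, h1, h2⟩ := adj_hp hS ht hx h
  exact ⟨h1.ne, h2.ne⟩

/-- the argument relative to a direction is a branch -/
theorem branch_L (hS : GP (S : Set ℂ)) {t : ℂ × ℂ × ℂ} (ht : t ∈ delT S) {x : ℂ} (hx : InO' x t)
    {d : ℂ} (hd : d ≠ 0) {a b : ℂ} (h : Adj S a b) :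
    ∃ k : ℤ, ang x a b = L d x b - L d x a + k * (2 * Real.pi) := by
  obtain ⟨ha, hb⟩ := adj_ne hS ht hx h
  have e1 : ∀ y : ℂ, y - x ≠ 0 → Rot (L d x y) d (y - x) := by
    intro y hy
    refine ⟨‖(y - x) / d‖, norm_pos_iff.2 (div_ne_zero hy hd), ?_⟩
    unfold L
    rw [Complex.norm_mul_exp_arg_mul_I]
    field_simp
  have h1 := (e1 a ha).trans (ang_rot ha hb)
  obtain ⟨k, hk⟩ := Rot.unique hd (e1 b hb) h1
  exact ⟨k, by linarith⟩





end Crest.Agent.R143.J8x872
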