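import Crest.Agent.R143.GateB_838
import Crest.Agent.R143.X0B_683
import Crest.Agent.R143.XD_697
import Crest.Agent.R143.Gauge3_950
import Crest.Agent.R143.J8_872
import Crest.Agent.R143.EQE1_63
import Crest.Agent.R143.RBm_838

-- ▼ part R143/XV1_796
section

/-!
# Row 143, block X: three gates in one annulus, probabilistic part (helper796)

* `MZ V W A` : `A` is increasing in the colours outside `W`; `harris_mz`
* `fub` : good colours of the annulus (continuations outside and inside have probability `≥ c`)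
* `ed k` : directions of the four boxes; `GateE`, `AL`, `AR`, `AB`, `VP`, `Cout`, `Cin`, `BB`
* `vplus` : the good colours have probability `≥ p ^ 41 / 2`
-/

set_option autoImplicit false

noncomputable section

open scoped Classical

namespace Crest.Agent.R143.XV1x796

open Crest.Agent.R143.B0x346 Crest.Agent.R143.DelGx806 Crest.Agent.R143.DelRx806
open Crest.Agent.R143.ToolWx838 Crest.Agent.R143.Blkx838 Crest.Agent.R143.ToolW2x838
open Crest.Agent.R143.ToolW3x838 Crest.Agent.R143.Circ4x838 Crest.Agent.R143.Harx315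
open Crest.Agent.R143.RB0x838 Crest.Agent.R143.CircPx838 Crest.Agent.R143.Gatex838
open Crest.Agent.R143.X0Bx683

/-! ### Harris with explored windows -/

section abs

variable {α : Type*} {V W W' : Finset α} {A B : Finset α → Prop}

/-- increasing in the colours outside `W` -/
def MZ (V W : Finset α) (A : Finset α → Prop) : Prop :=
  ∀ β β', β ⊆ β' → β' ⊆ V → β ∩ W = β' ∩ W → A β → A β'

theorem MZ.of_up (h : Up V A) : MZ V W A := fun β β' h1 h2 _ h4 => h β β' h1 h2 h4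

theorem MZ.and (hA : MZ V W A) (hB : MZ V W' B) : MZ V (W ∪ W') (fun β => A β ∧ B β) := by
  intro β β' h1 h2 h3 h4
  have e1 : β ∩ W = β' ∩ W := by
    have : (W ∪ W') ∩ W = W := by
      ext x; simp only [Finset.mem_inter, Finset.mem_union]; tauto
    calc β ∩ W = β ∩ (W ∪ W') ∩ W := by rw [Finset.inter_assoc, this]
      _ = β' ∩ (W ∪ W') ∩ W := by rw [h3]
      _ = β' ∩ W := by rw [Finset.inter_assoc, this]
  have e2 : β ∩ W' = β' ∩ W' := by
    have : (W ∪ W') ∩ W' = W' := by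
      ext x; simp only [Finset.mem_inter, Finset.mem_union]; tauto
    calc β ∩ W' = β ∩ (W ∪ W') ∩ W' := by rw [Finset.inter_assoc, this]
      _ = β' ∩ (W ∪ W') ∩ W' := by rw [h3]
      _ = β' ∩ W' := by rw [Finset.inter_assoc, this]
  exact ⟨hA β β' h1 h2 e1 h4.1, hB β β' h1 h2 e2 h4.2⟩

theorem MZ.up (h : MZ V W A) (hW : W ⊆ V) {γ : Finset α} (hγ : γ ⊆ W) :
    Up (V \ W) (fun β => A (β ∪ γ)) := by
  intro β β' h1 h2 h3
  refine h _ _ (Finset.union_subset_union h1 subset_rfl)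
    (Finset.union_subset (h2.trans Finset.sdiff_subset) (hγ.trans hW)) ?_ h3
  have e : ∀ δ, δ ⊆ V \ W → (δ ∪ γ) ∩ W = γ := by
    intro δ hδ
    ext x
    simp only [Finset.mem_inter, Finset.mem_union]
    constructor
    · rintro ⟨h4 | h4, h5⟩
      · exact absurd h5 (Finset.mem_sdiff.1 (hδ h4)).2
      · exact h4
    · intro h4
      exact ⟨Or.inr h4, hγ h4⟩
  rw [e β (h1.trans h2), e β' h2]

/-- **Harris for events which are increasing outside disjoint windows** -/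
theorem harris_mz (hW : W ⊆ V) (hW' : W' ⊆ V) (hd : Disjoint W W') (hA : MZ V W A)
    (hA' : Dep V (V \ W') A) (hB : MZ V W' B) (hB' : Dep V (V \ W) B) :
    pr V A * pr V B ≤ pr V (fun β => A β ∧ B β) := by
  rw [mul_comm]
  apply cond_ge hW
  intro γ hγ
  have hWV : W' ⊆ V \ W := fun x hx =>
    Finset.mem_sdiff.2 ⟨hW' hx, fun h => Finset.disjoint_left.1 hd h hx⟩
  have e1 : ∀ β, β ⊆ V \ W → (B (β ∪ γ) ↔ B β) := by
    intro β hβ
    have h1 : (β ∪ γ) ∩ (V \ W) = β := by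
      ext x
      simp only [Finset.mem_inter, Finset.mem_union, Finset.mem_sdiff]
      constructor
      · rintro ⟨h2 | h2, h3, h4⟩
        · exact h2
        · exact absurd (hγ h2) h4
      · intro h2
        exact ⟨Or.inl h2, Finset.mem_sdiff.1 (hβ h2)⟩
    rw [hB' (β ∪ γ) (Finset.union_subset (hβ.trans Finset.sdiff_subset) (hγ.trans hW)), h1]
  rw [pr_congr (V := V \ W) (A := fun β => A (β ∪ γ) ∧ B (β ∪ γ))
    (B := fun β => B β ∧ A (β ∪ γ)) (fun β hβ => by rw [e1 β hβ]; exact and_comm),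
    pr_dep (W := V \ W) Finset.sdiff_subset hB', mul_comm]
  apply cond_ge hWV
  intro γ' hγ'
  have u1 : Up ((V \ W) \ W') (fun β => B (β ∪ γ')) := by
    have h1 := hB.up hW' hγ'
    intro β β' h2 h3 h4
    refine h1 β β' h2 ?_ h4
    intro x hx
    have := Finset.mem_sdiff.1 (h3 hx)
    exact Finset.mem_sdiff.2 ⟨(Finset.mem_sdiff.1 this.1).1, this.2⟩
  have u0 := hA.up hW hγ
  have u2 : Up ((V \ W) \ W') (fun β => A (β ∪ γ' ∪ γ)) := by
    intro β β' h2 h3 h4
    exact u0 (β ∪ γ') (β' ∪ γ') (Finset.union_subset_union h2 subset_rfl)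
      (Finset.union_subset (h3.trans Finset.sdiff_subset) (hγ'.trans hWV)) h4
  have h1 := harris_up u1 u2
  refine le_trans (le_of_eq ?_) h1
  rw [mul_comm]
  congr 1
  -- the event `A` does not look at `W'`
  have hdep : Dep (V \ W) ((V \ W) \ W') (fun β => A (β ∪ γ)) := by
    intro β hβ
    have k1 : β ∪ γ ⊆ V := Finset.union_subset (hβ.trans Finset.sdiff_subset) (hγ.trans hW)
    have k2 : β ∩ ((V \ W) \ W') ∪ γ ⊆ V :=
      Finset.union_subset ((Finset.inter_subset_left.trans hβ).trans Finset.sdiff_subset)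
        (hγ.trans hW)
    change A (β ∪ γ) ↔ A (β ∩ ((V \ W) \ W') ∪ γ)
    rw [hA' _ k1, hA' _ k2]
    have : (β ∪ γ) ∩ (V \ W') = (β ∩ ((V \ W) \ W') ∪ γ) ∩ (V \ W') := by
      ext x
      simp only [Finset.mem_inter, Finset.mem_union, Finset.mem_sdiff]
      constructor
      · rintro ⟨h2 | h2, h3, h4⟩
        · exact ⟨Or.inl ⟨h2, Finset.mem_sdiff.1 (hβ h2), h4⟩, h3, h4⟩
        · exact ⟨Or.inr h2, h3, h4⟩
      · rintro ⟨⟨h2, -⟩ | h2, h3, h4⟩
        · exact ⟨Or.inl h2, h3, h4⟩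
        · exact ⟨Or.inr h2, h3, h4⟩
    rw [this]
  rw [pr_dep (W := (V \ W) \ W') Finset.sdiff_subset hdep]
  apply pr_congr
  intro β hβ
  have k1 : β ∪ γ ⊆ V := Finset.union_subset
    ((hβ.trans Finset.sdiff_subset).trans Finset.sdiff_subset) (hγ.trans hW)
  have k2 : β ∪ γ' ∪ γ ⊆ V := Finset.union_subset (Finset.union_subset
    ((hβ.trans Finset.sdiff_subset).trans Finset.sdiff_subset) (hγ'.trans hW')) (hγ.trans hW)
  rw [hA' _ k1, hA' _ k2]
  have : (β ∪ γ) ∩ (V \ W') = (β ∪ γ' ∪ γ) ∩ (V \ W') := by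
    ext x
    simp only [Finset.mem_inter, Finset.mem_union, Finset.mem_sdiff]
    constructor
    · rintro ⟨h2 | h2, h3, h4⟩
      · exact ⟨Or.inl (Or.inl h2), h3, h4⟩
      · exact ⟨Or.inr h2, h3, h4⟩
    · rintro ⟨(h2 | h2) | h2, h3, h4⟩
      · exact ⟨Or.inl h2, h3, h4⟩
      · exact absurd (hγ' h2) h4
      · exact ⟨Or.inr h2, h3, h4⟩
  rw [this]

/-- change of the gauge does not change the probabilities -/
theorem pr_symm {D : Finset α} (hD : D ⊆ V) (A : Finset α → Prop) :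
    pr V (fun β => A (symmDiff β D)) = pr V A := by
  have hsub : ∀ β, β ⊆ V → symmDiff β D ⊆ V := by
    intro β hβ x hx
    rcases Finset.mem_symmDiff.1 hx with h | h
    · exact hβ h.1
    · exact hD h.1
  unfold pr
  congr 2
  unfold nb
  apply Finset.card_bij (fun β _ => symmDiff β D)
  · intro β hβ
    rw [mem_fil] at hβ ⊢
    exact ⟨hsub β hβ.1, hβ.2⟩
  · intro β _ β' _ h
    exact symmDiff_left_injective D h
  · intro β hβ
    rw [mem_fil] at hβ
    refine ⟨symmDiff β D, ?_, symmDiff_symmDiff_cancel_right D β⟩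
    rw [mem_fil, symmDiff_symmDiff_cancel_right]
    exact ⟨hsub β hβ.1, hβ.2⟩



end abs

end Crest.Agent.R143.XV1x796
end
end

-- ▼ part R143/XV2_796
section

/-!
# Row 143, block X: three gates in one annulus, events and probability (helper796)

Unit `q = ρ / 1600`. Box `k = 0, 1, 2` (right, top, left side), bottom side `k = 3`, first axis `ed k`
(clockwise), second axis = outwards. `D k` = the sites of the box `k` on the right side of the reference
path; gauge colours `β`, local colours of the box `symmDiff β (D k)`.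
-/

set_option autoImplicit false

noncomputable section

open scoped Classical

namespace Crest.Agent.R143.XV2x796

open Crest.Agent.R143.B0x346 Crest.Agent.R143.DelGx806 Crest.Agent.R143.DelRx806
open Crest.Agent.R143.ToolWx838 Crest.Agent.R143.Blkx838 Crest.Agent.R143.ToolW2x838
open Crest.Agent.R143.ToolW3x838 Crest.Agent.R143.Circ4x838 Crest.Agent.R143.Harx315
open Crest.Agent.R143.RB0x838 Crest.Agent.R143.CircPx838 Crest.Agent.R143.Gatex838
open Crest.Agent.R143.X0Bx683 Crest.Agent.R143.XV1x796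

/-! ### directions -/

/-- first axis of the side `k` -/
def ed (k : ℕ) : ℂ := -Complex.I * Complex.I ^ k

theorem ed_succ (k : ℕ) : ed (k + 1) = ed k * Complex.I := by
  unfold ed; rw [pow_succ, mul_assoc]

theorem norm_ed (k : ℕ) : ‖ed k‖ = 1 := by
  unfold ed; simp

theorem ed_ne (k : ℕ) : ed k ≠ 0 := by
  intro h
  have := norm_ed k
  rw [h] at this
  simp at this

variable {S V : Finset ℂ} {z0 : ℂ} {q : ℝ} {β β' : Finset ℂ} {D : ℕ → Finset ℂ}

theorem X_succ (z0 : ℂ) (k : ℕ) (s : ℂ) : X z0 (ed (k + 1)) s = Y z0 (ed k) s := by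
  rw [ed_succ, X_turn]

theorem Y_succ (z0 : ℂ) (k : ℕ) (s : ℂ) : Y z0 (ed (k + 1)) s = -X z0 (ed k) s := by
  rw [ed_succ, Y_turn]

/-- coordinates and norm -/
theorem norm_XY (z0 : ℂ) (k : ℕ) (s : ℂ) : ‖s - z0‖ ^ 2 = X z0 (ed k) s ^ 2 + Y z0 (ed k) s ^ 2 := by
  have h : ‖s - z0‖ = ‖(s - z0) / ed k‖ := by rw [norm_div, norm_ed, div_one]
  rw [h, Complex.sq_norm, Complex.normSq_apply]
  unfold X Y
  ring

theorem norm_ge_of {k : ℕ} {s : ℂ} {a : ℝ} (ha : 0 ≤ a) (h : a ≤ Y z0 (ed k) s) : a ≤ ‖s - z0‖ := by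
  have h1 := norm_XY z0 k s
  by_contra hcon
  push Not at hcon
  nlinarith [norm_nonneg (s - z0), sq_nonneg (X z0 (ed k) s)]

theorem norm_lt_of {k : ℕ} {s : ℂ} {a b r : ℝ} (hr : 0 ≤ r) (h1 : |X z0 (ed k) s| ≤ a)
    (h2 : |Y z0 (ed k) s| ≤ b) (h : a ^ 2 + b ^ 2 < r ^ 2) : ‖s - z0‖ < r := by
  have h3 := norm_XY z0 k s
  have h4 : X z0 (ed k) s ^ 2 ≤ a ^ 2 := by
    rw [← sq_abs]; exact pow_le_pow_left₀ (abs_nonneg _) h1 2
  have h5 : Y z0 (ed k) s ^ 2 ≤ b ^ 2 := by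
    rw [← sq_abs]; exact pow_le_pow_left₀ (abs_nonneg _) h2 2
  by_contra hcon
  push Not at hcon
  nlinarith [norm_nonneg (s - z0)]

/-! ### boxes -/

/-- the box `k` -/
def Bx (z0 : ℂ) (q : ℝ) (k : ℕ) (s : ℂ) : Prop :=
  |X z0 (ed k) s| ≤ 12 * q ∧ 100 * q ≤ Y z0 (ed k) s ∧ Y z0 (ed k) s ≤ 141 * q

/-- middle window of the box `k` -/
def Md (z0 : ℂ) (q : ℝ) (k : ℕ) (s : ℂ) : Prop :=
  (-(6 * q) < X z0 (ed k) s ∧ X z0 (ed k) s < 6 * q) ∧
    115 * q < Y z0 (ed k) s ∧ Y z0 (ed k) s < 125 * q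

/-- the sites of the middle window -/
def Zk (V : Finset ℂ) (z0 : ℂ) (q : ℝ) (k : ℕ) : Finset ℂ := V.filter fun s => Md z0 q k s

theorem mem_Zk {k : ℕ} {s : ℂ} : s ∈ Zk V z0 q k ↔ s ∈ V ∧ Md z0 q k s := by
  unfold Zk; simp

/-- the reference path of the box passes between the windows -/
structure DOK (V : Finset ℂ) (z0 : ℂ) (q : ℝ) (D : ℕ → Finset ℂ) : Prop where
  sub : ∀ k < 3, D k ⊆ V
  left : ∀ k < 3, ∀ s ∈ V, Bx z0 q k s → X z0 (ed k) s ≤ -(6 * q) → s ∉ D k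
  right : ∀ k < 3, ∀ s ∈ V, Bx z0 q k s → 6 * q ≤ X z0 (ed k) s → s ∈ D k


theorem md_bx (hq : 0 < q) {k : ℕ} {s : ℂ} (h : Md z0 q k s) : Bx z0 q k s := by
  obtain ⟨⟨a1, a2⟩, a3, a4⟩ := h
  refine ⟨?_, by linarith, by linarith⟩
  rw [abs_le]; constructor <;> linarith

/-! ### the gates -/

/-- one gate in the box `k` -/
def GateE (S V : Finset ℂ) (z0 : ℂ) (q : ℝ) (D : ℕ → Finset ℂ) (k : ℕ) (β : Finset ℂ) : Prop :=
  ∃ L R χ1 χ2, Gate S z0 (ed k) (-(10 * q)) (-(6 * q)) (6 * q) (10 * q) (115 * q) (125 * q)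
    (105 * q) (138 * q) (2 * q) V (symmDiff β (D k)) L R χ1 χ2

theorem not_mem_symmDiff {s : ℂ} {A B : Finset ℂ} : s ∉ symmDiff A B ↔ (s ∈ A ↔ s ∈ B) := by
  rw [Finset.mem_symmDiff]; tauto

/-- the gate event is monotone in the colours of the sites on the left and on the right -/
theorem gate_tr (hq : 0 < q) (hD : DOK V z0 q D) {k : ℕ} (hk : k < 3) (hβ : β ⊆ V) (hβ' : β' ⊆ V)
    (h1 : ∀ s ∈ V, Bx z0 q k s → X z0 (ed k) s ≤ -(6 * q) → s ∈ β → s ∈ β')
    (h2 : ∀ s ∈ V, Bx z0 q k s → 6 * q ≤ X z0 (ed k) s → s ∈ β → s ∈ β')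
    (h3 : ∀ s ∈ V, Md z0 q k s → (s ∈ β ↔ s ∈ β')) (h : GateE S V z0 q D k β) :
    GateE S V z0 q D k β' := by
  obtain ⟨L, R, χ1, χ2, g⟩ := h
  have hsub : symmDiff β (D k) ⊆ V := by
    intro x hx
    rcases Finset.mem_symmDiff.1 hx with h | h
    · exact hβ h.1
    · exact hD.sub k hk h.1
  have lft : ∀ s ∈ V, Bx z0 q k s → X z0 (ed k) s ≤ -(6 * q) → s ∈ symmDiff β (D k) →
      s ∈ symmDiff β' (D k) := by
    intro s hs hb hx hsy
    have hn := hD.left k hk s hs hb hx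
    rw [Finset.mem_symmDiff] at hsy ⊢
    rcases hsy with h | h
    · exact Or.inl ⟨h1 s hs hb hx h.1, hn⟩
    · exact absurd h.1 hn
  have rgt : ∀ s ∈ V, Bx z0 q k s → 6 * q ≤ X z0 (ed k) s → s ∉ symmDiff β (D k) →
      s ∉ symmDiff β' (D k) := by
    intro s hs hb hx hsy
    have hn := hD.right k hk s hs hb hx
    rw [not_mem_symmDiff] at hsy ⊢
    exact ⟨fun _ => hn, fun _ => h2 s hs hb hx (hsy.2 hn)⟩
  have mdl : ∀ s ∈ V, Md z0 q k s → (s ∈ symmDiff β (D k) ↔ s ∈ symmDiff β' (D k)) := by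
    intro s hs hm
    rw [Finset.mem_symmDiff, Finset.mem_symmDiff, h3 s hs hm]
  refine ⟨L, R, χ1, χ2, ⟨g.left.ne, g.left.adj, fun s hs => ?_, g.left.strip, g.left.loc,
    g.left.left, g.left.right⟩, ⟨g.right.ne, g.right.adj, fun s hs => ?_, g.right.strip,
    g.right.loc, g.right.left, g.right.right⟩, g.n1, g.n2, g.d1, g.d2, fun s hs => ?_,
    fun s hs => ?_, g.b1, g.b2, g.h1, g.h2, g.gate⟩
  · have a1 := g.left.strip s hs
    have a2 := g.left.loc s hs
    refine lft s (hsub (g.left.col s hs)) ⟨?_, by linarith, by linarith⟩ a1.2.le (g.left.col s hs)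
    rw [abs_le]; constructor <;> linarith
  · have a1 := g.right.strip s hs
    have a2 := g.right.loc s hs
    have a3 := Finset.mem_sdiff.1 (g.right.col s hs)
    refine Finset.mem_sdiff.2 ⟨a3.1, rgt s a3.1 ⟨?_, by linarith, by linarith⟩ a1.1.le a3.2⟩
    rw [abs_le]; constructor <;> linarith
  · have a1 := g.b1 s hs
    have a2 := g.c1 s hs
    have hV := hsub a2
    rcases le_or_gt (X z0 (ed k) s) (-(6 * q)) with hx | hx
    · refine lft s hV ⟨?_, by linarith, by linarith⟩ hx a2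
      rw [abs_le]; constructor <;> linarith
    · exact (mdl s hV ⟨⟨hx, a1.1.2⟩, a1.2.1, a1.2.2⟩).1 a2
  · have a1 := g.b2 s hs
    have a2 := g.c2 s hs
    refine ⟨a2.1, ?_⟩
    rcases lt_or_ge (X z0 (ed k) s) (6 * q) with hx | hx
    · exact fun h => a2.2 ((mdl s a2.1 ⟨⟨a1.1.1, hx⟩, a1.2.1, a1.2.2⟩).2 h)
    · refine rgt s a2.1 ⟨?_, by linarith, by linarith⟩ hx a2.2
      rw [abs_le]; constructor <;> linarith

theorem gate_mz (hq : 0 < q) (hD : DOK V z0 q D) {k : ℕ} (hk : k < 3) :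
    MZ V (Zk V z0 q k) (GateE S V z0 q D k) := by
  intro β β' h1 h2 h3 h4
  refine gate_tr hq hD hk (h1.trans h2) h2 (fun s _ _ _ hs => h1 hs) (fun s _ _ _ hs => h1 hs)
    (fun s hs hm => ⟨fun h => h1 h, fun h => ?_⟩) h4
  have : s ∈ β' ∩ Zk V z0 q k := Finset.mem_inter.2 ⟨h, mem_Zk.2 ⟨hs, hm⟩⟩
  rw [← h3] at this
  exact (Finset.mem_inter.1 this).1

/-- the gate event only looks at the box -/
theorem gate_dep (hq : 0 < q) (hD : DOK V z0 q D) {k : ℕ} (hk : k < 3) {W : Finset ℂ}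
    (hW : ∀ s ∈ V, Bx z0 q k s → s ∈ W) : Dep V W (GateE S V z0 q D k) := by
  intro β hβ
  have hβ' : β ∩ W ⊆ V := Finset.inter_subset_left.trans hβ
  constructor
  · refine gate_tr hq hD hk hβ hβ' (fun s hs hb _ h => Finset.mem_inter.2 ⟨h, hW s hs hb⟩)
      (fun s hs hb _ h => Finset.mem_inter.2 ⟨h, hW s hs hb⟩) (fun s hs hm => ?_)
    rw [Finset.mem_inter]
    exact ⟨fun h => ⟨h, hW s hs (md_bx hq hm)⟩, fun h => h.1⟩
  · refine gate_tr hq hD hk hβ' hβ (fun s hs hb _ h => (Finset.mem_inter.1 h).1)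
      (fun s hs hb _ h => (Finset.mem_inter.1 h).1) (fun s hs hm => ?_)
    rw [Finset.mem_inter]
    exact ⟨fun h => h.1, fun h => ⟨h, hW s hs (md_bx hq hm)⟩⟩

/-! ### arms and continuations -/

theorem dep_hc {W : Finset ℂ} {e : ℂ} {x0 x1 y0 y1 m : ℝ}
    (hW : ∀ s ∈ V, y0 < Y z0 e s → Y z0 e s < y1 → x0 - m ≤ X z0 e s → X z0 e s ≤ x1 + m → s ∈ W) :
    Dep V W (fun β => ∃ l, HC S z0 e x0 x1 y0 y1 m β l) := by
  intro β hβ
  constructor
  · rintro ⟨l, h⟩
    refine ⟨l, h.ne, h.adj, fun s hs => Finset.mem_inter.2 ⟨h.col s hs, ?_⟩, h.strip, h.loc,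
      h.left, h.right⟩
    exact hW s (hβ (h.col s hs)) (h.strip s hs).1 (h.strip s hs).2 (h.loc s hs).1 (h.loc s hs).2
  · rintro ⟨l, h⟩
    exact ⟨l, h.mono Finset.inter_subset_left⟩


/-- left arm of the box `k` in the strip `(a, b)` -/
def AL (S : Finset ℂ) (z0 : ℂ) (q : ℝ) (k : ℕ) (a b : ℝ) (β : Finset ℂ) : Prop :=
  ∃ l, HC S z0 (ed k) (-(b * q)) (-(6 * q)) (a * q) (b * q) (2 * q) β l

/-- right arm of the box `k` in the strip `(a, b)` -/
def AR (S : Finset ℂ) (z0 : ℂ) (q : ℝ) (k : ℕ) (a b : ℝ) (β : Finset ℂ) : Prop :=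
  ∃ l, HC S z0 (ed k) (6 * q) (b * q) (a * q) (b * q) (2 * q) β l

/-- bottom chain in the strip `(a, b)` -/
def AB (S : Finset ℂ) (z0 : ℂ) (q : ℝ) (a b : ℝ) (β : Finset ℂ) : Prop :=
  ∃ l, HC S z0 (ed 3) (-(b * q)) (b * q) (a * q) (b * q) (2 * q) β l

/-- all arms of one strip -/
structure Arms (S : Finset ℂ) (z0 : ℂ) (q : ℝ) (a b : ℝ) (β : Finset ℂ) : Prop where
  al : ∀ k < 3, AL S z0 q k a b β
  ar : ∀ k < 3, AR S z0 q k a b β
  ab : AB S z0 q a b β

/-- **three gates**: the event on the colours of the annulus -/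
structure VP (S V : Finset ℂ) (z0 : ℂ) (q : ℝ) (D : ℕ → Finset ℂ) (β : Finset ℂ) : Prop where
  gate : ∀ k < 3, GateE S V z0 q D k β
  arms : Arms S z0 q 107 111 β

/-- continuation to the outside -/
def Cout (S : Finset ℂ) (z0 : ℂ) (q : ℝ) (β : Finset ℂ) : Prop := ∀ k < 3,
  (∃ l, VC S z0 (ed k) (-(10 * q)) (-(6 * q)) (102 * q) (220 * q) (2 * q) β l) ∧
    ∃ l, VC S z0 (ed k) (6 * q) (10 * q) (102 * q) (220 * q) (2 * q) β l

/-- continuation to the inside -/
def Cin (S : Finset ℂ) (z0 : ℂ) (q : ℝ) (β : Finset ℂ) : Prop := ∀ k < 3,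
  (∃ l, VC S z0 (ed k) (-(10 * q)) (-(6 * q)) (80 * q) (141 * q) (2 * q) β l) ∧
    ∃ l, VC S z0 (ed k) (6 * q) (10 * q) (80 * q) (141 * q) (2 * q) β l

/-- the sites of the annulus -/
def A1 (S : Finset ℂ) (z0 : ℂ) (q : ℝ) : Finset ℂ := Ann S z0 (100 * q) (200 * q)

theorem mem_A1 {s : ℂ} : s ∈ A1 S z0 q ↔ s ∈ S ∧ 100 * q ≤ ‖s - z0‖ ∧ ‖s - z0‖ < 200 * q := by
  unfold A1 Ann; simp

/-- good colours of the annulus -/
def BB (S V2 V0 : Finset ℂ) (z0 : ℂ) (q : ℝ) (D : ℕ → Finset ℂ) (c : ℝ) (b : Finset ℂ) : Prop :=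
  VP S (A1 S z0 q) z0 q D b ∧ c ≤ pr V2 (fun a => Cout S z0 q (b ∪ a)) ∧
    c ≤ pr V0 (fun i => Cin S z0 q (b ∪ i))

end Crest.Agent.R143.XV2x796
end
end

-- ▼ part R143/XV3_796
section

/-!
# Row 143, block X: three gates in one annulus, probability (helper796)

`vplus` : with `p = exp (- C (1 + C4))` the good colours of the annulus (with `c = p ^ 34 / 4`) have
probability `≥ p ^ 34 / 2`
-/

set_option autoImplicit false

noncomputable section

open scoped Classical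

namespace Crest.Agent.R143.XV3x796

open Crest.Agent.R143.B0x346 Crest.Agent.R143.DelGx806 Crest.Agent.R143.DelRx806
open Crest.Agent.R143.ToolWx838 Crest.Agent.R143.Blkx838 Crest.Agent.R143.ToolW2x838
open Crest.Agent.R143.ToolW3x838 Crest.Agent.R143.Circ4x838 Crest.Agent.R143.Harx315
open Crest.Agent.R143.RB0x838 Crest.Agent.R143.CircPx838 Crest.Agent.R143.Gatex838
open Crest.Agent.R143.X0Bx683 Crest.Agent.R143.XV1x796 Crest.Agent.R143.XV2x796

variable {S V V2 V0 : Finset ℂ} {z0 : ℂ} {q p : ℝ} {β β' : Finset ℂ} {D : ℕ → Finset ℂ}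

/-- crossing probabilities at least `p` for all rectangles which are used, colours `V` -/
structure HP (S V : Finset ℂ) (z0 : ℂ) (q p : ℝ) : Prop where
  hc : ∀ (k : ℕ) (x0 x1 y0 y1 : ℝ), |x0| ≤ 300 * q → |x1| ≤ 300 * q → |y0| ≤ 300 * q →
    |y1| ≤ 300 * q → 4 * q ≤ x1 - x0 → y1 - y0 = 4 * q →
    (∀ s ∈ S, y0 < Y z0 (ed k) s → Y z0 (ed k) s < y1 → x0 - 2 * q ≤ X z0 (ed k) s →
      X z0 (ed k) s ≤ x1 + 2 * q → s ∈ V) →
    p ≤ pr V (fun β => ∃ l, HC S z0 (ed k) x0 x1 y0 y1 (2 * q) β l)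
  vc : ∀ (k : ℕ) (x0 x1 y0 y1 : ℝ), |x0| ≤ 300 * q → |x1| ≤ 300 * q → |y0| ≤ 300 * q →
    |y1| ≤ 300 * q → 4 * q ≤ y1 - y0 → x1 - x0 = 4 * q →
    (∀ s ∈ S, x0 < X z0 (ed k) s → X z0 (ed k) s < x1 → y0 - 2 * q ≤ Y z0 (ed k) s →
      Y z0 (ed k) s ≤ y1 + 2 * q → s ∈ V) →
    p ≤ pr V (fun β => ∃ l, VC S z0 (ed k) x0 x1 y0 y1 (2 * q) β l)

theorem Nv.mono {R R' ρ d C4 : ℝ} (h : Nv S z0 R ρ d C4) (hR : R' ≤ R) : Nv S z0 R' ρ d C4 :=
  ⟨Crest.Agent.R143.CircPx838.LDns.mono h.dns hR, fun z hz => h.mesh z (hz.trans hR), h.C4⟩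


/-- sites of the square annulus are in `A1` -/
theorem a1_of {k : ℕ} {s : ℂ} (hq : 0 < q) (hs : s ∈ S) (h1 : 100 * q ≤ Y z0 (ed k) s)
    (h2 : Y z0 (ed k) s ≤ 141 * q) (h3 : |X z0 (ed k) s| ≤ 137 * q) : s ∈ A1 S z0 q := by
  rw [mem_A1]
  refine ⟨hs, norm_ge_of (by positivity) h1, norm_lt_of (k := k) (a := 137 * q) (b := 141 * q)
    (by positivity) h3 (abs_le.2 ⟨by linarith, h2⟩) (by nlinarith)⟩

/-- **one gate** -/
theorem gateE_pr (hq : 0 < q) (hS : GP (S : Set ℂ)) (hp : 0 ≤ p) (hP : HP S (A1 S z0 q) z0 q p)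
    (hD : DOK (A1 S z0 q) z0 q D) {k : ℕ} (hk : k < 3) :
    p ^ 5 ≤ pr (A1 S z0 q) (GateE S (A1 S z0 q) z0 q D k) := by
  have w : Wn (-(10 * q)) (-(6 * q)) (-(2 * q)) (6 * q) (10 * q) (115 * q) (125 * q) (118 * q)
      (122 * q) (105 * q) (138 * q) (2 * q) := by
    constructor <;> linarith
  have hb : ∀ a : ℝ, |a| ≤ 300 → |a * q| ≤ 300 * q := by
    intro a ha
    rw [abs_mul, abs_of_pos hq]
    exact mul_le_mul_of_nonneg_right ha hq.le
  have hb' : ∀ a : ℝ, |a| ≤ 300 → |-(a * q)| ≤ 300 * q := by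
    intro a ha
    rw [abs_neg]
    exact hb a ha
  have key := gate_pr (V := A1 S z0 q) (z0 := z0) w hS (ed_ne k) hp
    (hP.hc k _ _ _ _ (hb' 10 (by norm_num)) (hb' 2 (by norm_num)) (hb 118 (by norm_num))
      (hb 122 (by norm_num)) (by linarith) (by ring) (fun s hs a1 a2 a3 a4 =>
        a1_of hq hs (by linarith) (by linarith) (by rw [abs_le]; constructor <;> linarith)))
    (hP.vc k _ _ _ _ (hb' 10 (by norm_num)) (hb' 6 (by norm_num)) (hb 105 (by norm_num))
      (hb 138 (by norm_num)) (by linarith) (by ring) (fun s hs a1 a2 a3 a4 =>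
        a1_of hq hs (by linarith) (by linarith) (by rw [abs_le]; constructor <;> linarith)))
    (hP.vc k _ _ _ _ (hb' 6 (by norm_num)) (hb' 2 (by norm_num)) (hb 118 (by norm_num))
      (hb 122 (by norm_num)) (by linarith) (by ring) (fun s hs a1 a2 a3 a4 =>
        a1_of hq hs (by linarith) (by linarith) (by rw [abs_le]; constructor <;> linarith)))
    (hP.hc k _ _ _ _ (hb' 6 (by norm_num)) (hb 10 (by norm_num)) (hb 118 (by norm_num))
      (hb 122 (by norm_num)) (by linarith) (by ring) (fun s hs a1 a2 a3 a4 =>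
        a1_of hq hs (by linarith) (by linarith) (by rw [abs_le]; constructor <;> linarith)))
    (hP.vc k _ _ _ _ (hb 6 (by norm_num)) (hb 10 (by norm_num)) (hb 105 (by norm_num))
      (hb 138 (by norm_num)) (by linarith) (by ring) (fun s hs a1 a2 a3 a4 =>
        a1_of hq hs (by linarith) (by linarith) (by rw [abs_le]; constructor <;> linarith)))
  refine key.trans (le_of_eq ?_)
  exact (pr_symm (hD.sub k hk) (fun β => ∃ L R χ1 χ2, Gate S z0 (ed k) (-(10 * q)) (-(6 * q))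
    (6 * q) (10 * q) (115 * q) (125 * q) (105 * q) (138 * q) (2 * q) (A1 S z0 q) β L R χ1 χ2)).symm

/-! ### increasing events -/

/-- `U` is increasing, does not look at the middle windows, has probability `≥ p ^ n` -/
structure UE (V Z : Finset ℂ) (p : ℝ) (n : ℕ) (U : Finset ℂ → Prop) : Prop where
  up : Up V U
  dep : Dep V (V \ Z) U
  le : p ^ n ≤ pr V U

theorem UE.and {Z : Finset ℂ} {n n' : ℕ} {U U' : Finset ℂ → Prop} (hp : 0 ≤ p)
    (h : UE V Z p n U) (h' : UE V Z p n' U') : UE V Z p (n + n') (fun β => U β ∧ U' β) := by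
  refine ⟨h.up.and h'.up, h.dep.and h'.dep, ?_⟩
  rw [pow_add]
  exact (mul_le_mul h.le h'.le (by positivity) pr_nonneg).trans (harris_up h.up h'.up)


theorem ue_hc {Z : Finset ℂ} {k : ℕ} {x0 x1 y0 y1 : ℝ} (hP : HP S V z0 q p)
    (a1 : |x0| ≤ 300 * q) (a2 : |x1| ≤ 300 * q) (a3 : |y0| ≤ 300 * q)
    (a4 : |y1| ≤ 300 * q) (a5 : 4 * q ≤ x1 - x0) (a6 : y1 - y0 = 4 * q)
    (hV : ∀ s ∈ S, y0 < Y z0 (ed k) s → Y z0 (ed k) s < y1 → x0 - 2 * q ≤ X z0 (ed k) s →
      X z0 (ed k) s ≤ x1 + 2 * q → s ∈ V)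
    (hZ : ∀ s ∈ V, y0 < Y z0 (ed k) s → Y z0 (ed k) s < y1 → x0 - 2 * q ≤ X z0 (ed k) s →
      X z0 (ed k) s ≤ x1 + 2 * q → s ∉ Z) :
    UE V Z p 1 (fun β => ∃ l, HC S z0 (ed k) x0 x1 y0 y1 (2 * q) β l) := by
  refine ⟨up_hc V S z0 _ _ _ _ _ _, dep_hc fun s hs b1 b2 b3 b4 =>
    Finset.mem_sdiff.2 ⟨hs, hZ s hs b1 b2 b3 b4⟩, ?_⟩
  rw [pow_one]
  exact hP.hc k x0 x1 y0 y1 a1 a2 a3 a4 a5 a6 hV


/-- all the middle windows -/
def ZZ (V : Finset ℂ) (z0 : ℂ) (q : ℝ) : Finset ℂ := Zk V z0 q 0 ∪ (Zk V z0 q 1 ∪ Zk V z0 q 2)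

theorem mem_ZZ {s : ℂ} : s ∈ ZZ V z0 q ↔ ∃ j < 3, s ∈ Zk V z0 q j := by
  unfold ZZ
  rw [Finset.mem_union, Finset.mem_union]
  constructor
  · rintro (h | h | h)
    · exact ⟨0, by norm_num, h⟩
    · exact ⟨1, by norm_num, h⟩
    · exact ⟨2, by norm_num, h⟩
  · rintro ⟨j, hj, h⟩
    interval_cases j
    · exact Or.inl h
    · exact Or.inr (Or.inl h)
    · exact Or.inr (Or.inr h)

/-- the middle windows in the coordinates of another side -/
theorem zz_coord {s : ℂ} (hq : 0 < q) (h : s ∈ ZZ V z0 q) {k : ℕ} (hk : k < 4)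
    (h1 : 70 * q ≤ Y z0 (ed k) s) : Md z0 q k s ∧ k < 3 := by
  obtain ⟨j, hj, hz⟩ := mem_ZZ.1 h
  have hm := (mem_Zk.1 hz).2
  have hm' := hm
  obtain ⟨⟨m1, m2⟩, m3, m4⟩ := hm'
  have s1 := X_succ z0 0 s
  have s2 := Y_succ z0 0 s
  have s3 := X_succ z0 1 s
  have s4 := Y_succ z0 1 s
  have s5 := X_succ z0 2 s
  have s6 := Y_succ z0 2 s
  norm_num at s1 s2 s3 s4 s5 s6
  interval_cases j <;> interval_cases k <;>
    first | exact ⟨hm, by norm_num⟩ | (exfalso; linarith)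

/-- hypotheses on the other sites -/
structure VOK (S V2 V0 : Finset ℂ) (z0 : ℂ) (q : ℝ) : Prop where
  s2 : V2 ⊆ S
  s0 : V0 ⊆ S
  d12 : Disjoint (A1 S z0 q) V2
  d10 : Disjoint (A1 S z0 q) V0
  d20 : Disjoint V2 V0
  m2 : ∀ s ∈ S, 200 * q ≤ ‖s - z0‖ → ‖s - z0‖ ≤ 230 * q → s ∈ V2
  m0 : ∀ s ∈ S, 70 * q ≤ ‖s - z0‖ → ‖s - z0‖ < 100 * q → s ∈ V0

/-- all the colours -/
def VT (S V2 V0 : Finset ℂ) (z0 : ℂ) (q : ℝ) : Finset ℂ := A1 S z0 q ∪ V2 ∪ V0

theorem VOK.sub (h : VOK S V2 V0 z0 q) : VT S V2 V0 z0 q ⊆ S := by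
  unfold VT
  refine Finset.union_subset (Finset.union_subset (fun s hs => (mem_A1.1 hs).1) h.s2) h.s0

theorem VOK.mem (h : VOK S V2 V0 z0 q) {s : ℂ} (hs : s ∈ S) (h1 : 70 * q ≤ ‖s - z0‖)
    (h2 : ‖s - z0‖ ≤ 230 * q) : s ∈ VT S V2 V0 z0 q := by
  unfold VT
  rw [Finset.mem_union, Finset.mem_union]
  rcases lt_or_ge ‖s - z0‖ (100 * q) with h3 | h3
  · exact Or.inr (h.m0 s hs h1 h3)
  · rcases lt_or_ge ‖s - z0‖ (200 * q) with h4 | h4
    · exact Or.inl (Or.inl (mem_A1.2 ⟨hs, h3, h4⟩))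
    · exact Or.inl (Or.inr (h.m2 s hs h4 h2))



theorem bq {q : ℝ} (hq : 0 < q) {a : ℝ} (ha : |a| ≤ 300) : |a * q| ≤ 300 * q := by
  rw [abs_mul, abs_of_pos hq]
  exact mul_le_mul_of_nonneg_right ha hq.le

theorem bq' {q : ℝ} (hq : 0 < q) {a : ℝ} (ha : |a| ≤ 300) : |-(a * q)| ≤ 300 * q := by
  rw [abs_neg]
  exact bq hq ha



end Crest.Agent.R143.XV3x796
end
end

-- ▼ part R143/XV4_796
section

/-!
# Row 143, block X: three gates in one annulus, assembly of the probability (helper796)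

`total_pr`, `vplus`
-/

set_option autoImplicit false

noncomputable section

open scoped Classical

namespace Crest.Agent.R143.XV4x796

open Crest.Agent.R143.B0x346 Crest.Agent.R143.DelGx806 Crest.Agent.R143.DelRx806
open Crest.Agent.R143.ToolWx838 Crest.Agent.R143.Blkx838 Crest.Agent.R143.ToolW2x838
open Crest.Agent.R143.ToolW3x838 Crest.Agent.R143.Circ4x838 Crest.Agent.R143.Harx315
open Crest.Agent.R143.RB0x838 Crest.Agent.R143.CircPx838 Crest.Agent.R143.Gatex838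
open Crest.Agent.R143.X0Bx683 Crest.Agent.R143.XV1x796 Crest.Agent.R143.XV2x796
open Crest.Agent.R143.XV3x796

variable {S V V2 V0 : Finset ℂ} {z0 : ℂ} {q p : ℝ} {β β' : Finset ℂ} {D : ℕ → Finset ℂ}

/-- the gate event as an event on all the colours -/
def GG (S : Finset ℂ) (z0 : ℂ) (q : ℝ) (D : ℕ → Finset ℂ) (k : ℕ) (β : Finset ℂ) : Prop :=
  GateE S (A1 S z0 q) z0 q D k (β ∩ A1 S z0 q)





/-- the increasing part -/
def UU (S : Finset ℂ) (z0 : ℂ) (q : ℝ) (β : Finset ℂ) : Prop :=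
  Arms S z0 q 107 111 β ∧ Cout S z0 q β ∧ Cin S z0 q β







end Crest.Agent.R143.XV4x796
end
end

-- ▼ part R143/XG3_796
section

/-!
# Row 143, block X: loops with three gates, definitions (helper796)

Unit `q = ρ / 1600`, annulus `A1` = sites with `100 q ≤ |s - z0| < 200 q`.

* `JF` : the join `J` in the annulus = edges which cross an axis, flipped by the colours `β`
* `Dax` : reference sites (right side of the axis)
* `G3` : closed chain (counterclockwise) of sites of `A1` with exactly three occupied edges `gt k`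
  (directed counterclockwise: a walker at `gt k` enters the inside); `Pa k`, `Pb k` = passage through
  the box `k` before / after the gate
* `sig`, `gat` : canonical choice from the occupied edges inside `A1`
-/

set_option autoImplicit false

noncomputable section

open scoped Classical

namespace Crest.Agent.R143.XG3x796

open Crest.Agent.R143.B0x346 Crest.Agent.R143.DelGx806 Crest.Agent.R143.DelRx806
open Crest.Agent.R143.ToolWx838 Crest.Agent.R143.Blkx838 Crest.Agent.R143.ToolW2x838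
open Crest.Agent.R143.ToolW3x838 Crest.Agent.R143.Circ4x838 Crest.Agent.R143.Harx315
open Crest.Agent.R143.RB0x838 Crest.Agent.R143.CircPx838 Crest.Agent.R143.Gatex838
open Crest.Agent.R143.X0Bx683 Crest.Agent.R143.XDx697 Crest.Agent.R143.XV2x796

/-- the form of the join `J` in the annulus `A1`, colours `β` -/
def JF (S : Finset ℂ) (z0 : ℂ) (q : ℝ) (J : Finset (ℂ × ℂ)) (β : Finset ℂ) : Prop :=
  ∀ p : ℂ × ℂ, DE S p.1 p.2 → p.1 ∈ A1 S z0 q → p.2 ∈ A1 S z0 q →
    (p ∈ J ↔ ¬ (AxE z0 p ↔ ¬ (p.1 ∈ β ↔ p.2 ∈ β)))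

/-- the sites on the right side of the axis of the box `k` -/
def Dax (S : Finset ℂ) (z0 : ℂ) (q : ℝ) (k : ℕ) : Finset ℂ :=
  (A1 S z0 q).filter fun s => 0 ≤ X z0 (XV2x796.ed k) s

/-- closed chain with exactly three occupied edges -/
structure G3 (S : Finset ℂ) (z0 : ℂ) (q : ℝ) (J : Finset (ℂ × ℂ)) (c : List ℂ)
    (gt : ZMod 3 → ℂ × ℂ) (Pa Pb : ZMod 3 → List ℂ) : Prop where
  loop : Loop S c
  ann : ∀ s ∈ c, s ∈ A1 S z0 q
  wind : ∀ z : ℂ, |z.re - z0.re| ≤ 100 * q → |z.im - z0.im| ≤ 100 * q → asum z c = 2 * Real.pi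
  occ : ∀ k, gt k ∈ J ∧ (gt k).swap ∈ J
  cnt : ∀ k, (prs c).count (gt k) = 1 ∧ (gt k).swap ∉ prs c
  only : ∀ p ∈ prs c, (p ∈ J ∨ p.swap ∈ J) → ∃ k, p = gt k
  a_ne : ∀ k, Pa k ≠ []
  b_ne : ∀ k, Pb k ≠ []
  a_last : ∀ k, (Pa k).getLast? = some (gt k).1
  b_head : ∀ k, (Pb k).head? = some (gt k).2
  a_prs : ∀ k, ∀ p ∈ prs (Pa k), p ∈ prs c
  b_prs : ∀ k, ∀ p ∈ prs (Pb k), p ∈ prs c
  a_free : ∀ k, JFree J (Pa k)
  b_free : ∀ k, JFree J (Pb k)
  a_mem : ∀ k, ∀ s ∈ Pa k, s ∈ c ∧ -(6 * q) < X z0 (XDx697.ed k) s ∧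
    102 * q < Y z0 (XDx697.ed k) s ∧ Y z0 (XDx697.ed k) s < 141 * q
  b_mem : ∀ k, ∀ s ∈ Pb k, s ∈ c ∧ X z0 (XDx697.ed k) s < 6 * q ∧
    102 * q < Y z0 (XDx697.ed k) s ∧ Y z0 (XDx697.ed k) s < 141 * q
  a_x : ∀ k, ∀ s, (Pa k).head? = some s → 10 * q ≤ X z0 (XDx697.ed k) s
  b_x : ∀ k, ∀ s, (Pb k).getLast? = some s → X z0 (XDx697.ed k) s ≤ -(10 * q)
  /-- position of the gates -/
  g_pos : ∀ k, (-(6 * q) < X z0 (XDx697.ed k) (gt k).1 ∧ X z0 (XDx697.ed k) (gt k).1 ≤ 12 * q ∧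
      115 * q < Y z0 (XDx697.ed k) (gt k).1 ∧ Y z0 (XDx697.ed k) (gt k).1 < 125 * q) ∧
    (-(10 * q) < X z0 (XDx697.ed k) (gt k).2 ∧ X z0 (XDx697.ed k) (gt k).2 < 6 * q ∧
      115 * q < Y z0 (XDx697.ed k) (gt k).2 ∧ Y z0 (XDx697.ed k) (gt k).2 < 125 * q)









variable {S : Finset ℂ} {z0 : ℂ} {q : ℝ} {J J' : Finset (ℂ × ℂ)}


/-- the structure only depends on the occupied edges inside `A1` -/
theorem G3.congr {c : List ℂ} {gt : ZMod 3 → ℂ × ℂ} {Pa Pb : ZMod 3 → List ℂ}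
    (h : G3 S z0 q J c gt Pa Pb)
    (hJ : ∀ p : ℂ × ℂ, p.1 ∈ A1 S z0 q → p.2 ∈ A1 S z0 q → (p ∈ J ↔ p ∈ J')) :
    G3 S z0 q J' c gt Pa Pb := by
  have hm : ∀ p ∈ prs c, p.1 ∈ A1 S z0 q ∧ p.2 ∈ A1 S z0 q := fun p hp =>
    ⟨h.ann _ (mem_of_prs hp).1, h.ann _ (mem_of_prs hp).2⟩
  have ha : ∀ k, ∀ p ∈ prs (Pa k), p.1 ∈ A1 S z0 q ∧ p.2 ∈ A1 S z0 q := fun k p hp =>
    hm p (h.a_prs k p hp)
  have hb : ∀ k, ∀ p ∈ prs (Pb k), p.1 ∈ A1 S z0 q ∧ p.2 ∈ A1 S z0 q := fun k p hp =>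
    hm p (h.b_prs k p hp)
  have hg : ∀ k, (gt k).1 ∈ A1 S z0 q ∧ (gt k).2 ∈ A1 S z0 q := by
    intro k
    have h1 : gt k ∈ prs c := by
      rw [← List.count_pos_iff, (h.cnt k).1]; norm_num
    exact hm _ h1
  refine ⟨h.loop, h.ann, h.wind, fun k => ⟨(hJ _ (hg k).1 (hg k).2).1 (h.occ k).1,
    (hJ (gt k).swap (hg k).2 (hg k).1).1 (h.occ k).2⟩, h.cnt, fun p hp hpJ => ?_, h.a_ne, h.b_ne,
    h.a_last, h.b_head, h.a_prs, h.b_prs, fun k p hp => ?_, fun k p hp => ?_, h.a_mem, h.b_mem,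
    h.a_x, h.b_x, h.g_pos⟩
  · refine h.only p hp ?_
    rw [hJ p (hm p hp).1 (hm p hp).2, hJ p.swap (hm p hp).2 (hm p hp).1]
    exact hpJ
  · rw [← hJ p (ha k p hp).1 (ha k p hp).2, ← hJ p.swap (ha k p hp).2 (ha k p hp).1]
    exact h.a_free k p hp
  · rw [← hJ p (hb k p hp).1 (hb k p hp).2, ← hJ p.swap (hb k p hp).2 (hb k p hp).1]
    exact h.b_free k p hp






end Crest.Agent.R143.XG3x796
end
end

-- ▼ part R143/XV5_796
section

/-!
# Row 143, block X: three gates in one annulus, the loop (helper796)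

`hasG` : the colours `VP` and the join of the form `JF` have a loop with three gates
-/

set_option autoImplicit false

noncomputable section

open scoped Classical

namespace Crest.Agent.R143.XV5x796

open Crest.Agent.R143.B0x346 Crest.Agent.R143.DelGx806 Crest.Agent.R143.DelRx806
open Crest.Agent.R143.ToolWx838 Crest.Agent.R143.Blkx838 Crest.Agent.R143.ToolW2x838
open Crest.Agent.R143.ToolW3x838 Crest.Agent.R143.Circ4x838 Crest.Agent.R143.Harx315
open Crest.Agent.R143.RB0x838 Crest.Agent.R143.CircPx838 Crest.Agent.R143.Gatex838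
open Crest.Agent.R143.X0Bx683
open Crest.Agent.R143.XDx697 (AxE)
open Crest.Agent.R143.XV1x796 Crest.Agent.R143.XV2x796 Crest.Agent.R143.XV3x796
open Crest.Agent.R143.XG3x796

variable {S V : Finset ℂ} {z0 : ℂ} {q : ℝ} {β : Finset ℂ} {J : Finset (ℂ × ℂ)}

/-! ### coordinates -/

theorem ed_four (k : ℕ) : ed (k + 4) = ed k := by
  unfold ed
  rw [pow_add, Complex.I_pow_four, mul_one]

theorem edz (k : ZMod 3) : XDx697.ed k = ed k.val := rfl

/-- all coordinates in terms of the side `0` -/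
theorem coords (z0 s : ℂ) : (X z0 (ed 1) s = Y z0 (ed 0) s ∧ Y z0 (ed 1) s = -X z0 (ed 0) s) ∧
    (X z0 (ed 2) s = -X z0 (ed 0) s ∧ Y z0 (ed 2) s = -Y z0 (ed 0) s) ∧
    (X z0 (ed 3) s = -Y z0 (ed 0) s ∧ Y z0 (ed 3) s = X z0 (ed 0) s) := by
  have s1 := X_succ z0 0 s
  have s2 := Y_succ z0 0 s
  have s3 := X_succ z0 1 s
  have s4 := Y_succ z0 1 s
  have s5 := X_succ z0 2 s
  have s6 := Y_succ z0 2 s
  norm_num at s1 s2 s3 s4 s5 s6
  refine ⟨⟨s1, s2⟩, ⟨?_, ?_⟩, ?_, ?_⟩ <;> linarith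

theorem coords0 (z0 s : ℂ) : Y z0 (ed 0) s = s.re - z0.re ∧ X z0 (ed 0) s = z0.im - s.im := by
  unfold X Y ed
  rw [pow_zero, mul_one, div_negI]
  simp


theorem mid_Y (z0 e : ℂ) (p : ℂ × ℂ) : Y z0 e (mid p) = (Y z0 e p.1 + Y z0 e p.2) / 2 := by
  unfold Y
  have : (mid p - z0) / e = ((p.1 - z0) / e + (p.2 - z0) / e) / 2 := by unfold mid; ring
  rw [this]
  simp

/-- the edges which cross an axis, near the side `k` -/
theorem axe_iff {k : ℕ} (hk : k < 3) {p : ℂ × ℂ} (h1 : 0 < Y z0 (ed k) p.1)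
    (h2 : 0 < Y z0 (ed k) p.2) :
    AxE z0 p ↔ ¬ (0 ≤ X z0 (ed k) p.1 ↔ 0 ≤ X z0 (ed k) p.2) := by
  obtain ⟨⟨a1, a2⟩, ⟨a3, a4⟩, -, -⟩ := coords z0 p.1
  obtain ⟨⟨b1, b2⟩, ⟨b3, b4⟩, -, -⟩ := coords z0 p.2
  constructor
  · rintro ⟨j, hj, hx⟩
    rw [edz] at hj hx
    rw [mid_Y] at hj
    have hjv : j.val < 3 := ZMod.val_lt j
    generalize j.val = m at hj hx hjv
    intro hcon
    apply hx
    interval_cases m <;> interval_cases k
    all_goals first
      | exact hcon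
      | (exfalso; linarith)
      | (constructor <;> intro _ <;> linarith)
  · intro h
    refine ⟨(k : ZMod 3), ?_, ?_⟩
    · rw [edz, ZMod.val_natCast, Nat.mod_eq_of_lt hk, mid_Y]; linarith
    · rw [edz, ZMod.val_natCast, Nat.mod_eq_of_lt hk]; exact h


theorem mem_Dax {k : ℕ} {s : ℂ} : s ∈ Dax S z0 q k ↔ s ∈ A1 S z0 q ∧ 0 ≤ X z0 (ed k) s := by
  unfold Dax; simp

theorem dok (hq : 0 < q) : DOK (A1 S z0 q) z0 q (Dax S z0 q) where
  sub k _ := Finset.filter_subset _ _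
  left k _ s _ _ h := by
    rw [mem_Dax]
    rintro ⟨-, h1⟩
    linarith
  right k _ s hs _ h := mem_Dax.2 ⟨hs, by linarith⟩

/-- the join in the box `k` is the boundary of the local colours -/
theorem jf_box (hJ : JF S z0 q J β) {k : ℕ} (hk : k < 3) {p : ℂ × ℂ} (hde : DE S p.1 p.2)
    (m1 : p.1 ∈ A1 S z0 q) (m2 : p.2 ∈ A1 S z0 q) (h1 : 0 < Y z0 (ed k) p.1)
    (h2 : 0 < Y z0 (ed k) p.2) :
    p ∈ J ↔ ¬ (p.1 ∈ symmDiff β (Dax S z0 q k) ↔ p.2 ∈ symmDiff β (Dax S z0 q k)) := by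
  rw [hJ p hde m1 m2, axe_iff hk h1 h2, Finset.mem_symmDiff, Finset.mem_symmDiff, mem_Dax, mem_Dax]
  tauto

/-- an edge without axis and without change of colour is empty -/
theorem jf_free (hJ : JF S z0 q J β) {p : ℂ × ℂ} (hde : DE S p.1 p.2)
    (m1 : p.1 ∈ A1 S z0 q) (m2 : p.2 ∈ A1 S z0 q) (hax : ¬ AxE z0 p) (h1 : p.1 ∈ β)
    (h2 : p.2 ∈ β) : p ∉ J := by
  rw [hJ p hde m1 m2]
  tauto

/-! ### chains -/

/-- chain with ends `a`, `b`, without occupied edges, all sites satisfy `Q` -/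
structure Cn (S : Finset ℂ) (J : Finset (ℂ × ℂ)) (a b : ℂ) (Q : ℂ → Prop) (m : List ℂ) : Prop where
  head : m.head? = some a
  last : m.getLast? = some b
  adj : ∀ p ∈ prs m, DE S p.1 p.2
  free : JFree J m
  mem : ∀ s ∈ m, Q s

theorem Cn.ne {a b : ℂ} {Q : ℂ → Prop} {m : List ℂ} (h : Cn S J a b Q m) : m ≠ [] := by
  rintro rfl
  simpa using h.head

theorem Cn.mono {a b : ℂ} {Q Q' : ℂ → Prop} {m : List ℂ} (h : Cn S J a b Q m)
    (hQ : ∀ s, Q s → Q' s) : Cn S J a b Q' m :=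
  ⟨h.head, h.last, h.adj, h.free, fun s hs => hQ s (h.mem s hs)⟩

theorem Cn.cat {a b c : ℂ} {Q : ℂ → Prop} {l m : List ℂ} (h : Cn S J a b Q l)
    (h' : Cn S J b c Q m) : Cn S J a c Q (Circ4x838.cat l m) := by
  have hp := prs_cat h.last h'.head
  refine ⟨?_, ?_, ?_, ?_, ?_⟩
  · rw [cat_head h.ne]; exact h.head
  · rw [cat_last h.last h'.head]; exact h'.last
  · intro p hp'
    rw [hp, List.mem_append] at hp'
    exact hp'.elim (h.adj p) (h'.adj p)
  · intro p hp'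
    rw [hp, List.mem_append] at hp'
    exact hp'.elim (h.free p) (h'.free p)
  · intro s hs
    exact (mem_cat hs).elim (h.mem s) (h'.mem s)

theorem Cn.reverse {a b : ℂ} {Q : ℂ → Prop} {m : List ℂ} (h : Cn S J a b Q m) :
    Cn S J b a Q m.reverse := by
  refine ⟨?_, ?_, ?_, ?_, fun s hs => h.mem s (List.mem_reverse.1 hs)⟩
  · rw [List.head?_reverse]; exact h.last
  · rw [List.getLast?_reverse]; exact h.head
  · intro p hp
    rw [prs_reverse] at hp
    simp only [List.mem_reverse, List.mem_map] at hp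
    obtain ⟨r, hr, rfl⟩ := hp
    exact (h.adj r hr).symm
  · intro p hp
    rw [prs_reverse] at hp
    simp only [List.mem_reverse, List.mem_map] at hp
    obtain ⟨r, hr, rfl⟩ := hp
    rw [Prod.swap_swap]
    exact (h.free r hr).symm

/-- part of a chain -/
theorem Cn.sub {a b : ℂ} {Q : ℂ → Prop} {l : List ℂ} (ha : a ∈ l) (hb : b ∈ l)
    (hadj : ∀ p ∈ prs l, DE S p.1 p.2) (hfree : JFree J l) (hQ : ∀ s ∈ l, Q s) :
    ∃ m, Cn S J a b Q m := by
  obtain ⟨m, hm⟩ := sub_chain ha hb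
  refine ⟨m, hm.head, hm.last, fun p hp => ?_, fun p hp => ?_, fun s hs => hQ s (hm.mem s hs)⟩
  · rcases hm.prs p hp with h | h
    · exact hadj p h
    · exact (hadj _ h).symm
  · rcases hm.prs p hp with h | h
    · exact hfree p h
    · have := hfree _ h
      rw [Prod.swap_swap] at this
      exact this.symm

/-! ### the passage through a box -/

/-- passage through the box `k` from the right to the left -/
structure Pass (S : Finset ℂ) (z0 : ℂ) (q : ℝ) (J : Finset (ℂ × ℂ)) (k : ℕ) (c a : ℂ) (g : ℂ × ℂ)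
    (Pa Pb : List ℂ) : Prop where
  pa : Cn S J c g.1 (fun s => s ∈ A1 S z0 q ∧ -(6 * q) < X z0 (ed k) s ∧ 102 * q < Y z0 (ed k) s ∧
    Y z0 (ed k) s < 141 * q) Pa
  pb : Cn S J g.2 a (fun s => s ∈ A1 S z0 q ∧ X z0 (ed k) s < 6 * q ∧ 102 * q < Y z0 (ed k) s ∧
    Y z0 (ed k) s < 141 * q) Pb
  de : DE S g.1 g.2
  ne : g.1 ≠ g.2
  occ : g ∈ J ∧ g.swap ∈ J
  pos : (-(6 * q) < X z0 (ed k) g.1 ∧ X z0 (ed k) g.1 ≤ 12 * q ∧
      115 * q < Y z0 (ed k) g.1 ∧ Y z0 (ed k) g.1 < 125 * q) ∧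
    (-(10 * q) < X z0 (ed k) g.2 ∧ X z0 (ed k) g.2 < 6 * q ∧
      115 * q < Y z0 (ed k) g.2 ∧ Y z0 (ed k) g.2 < 125 * q)

theorem pass (hq : 0 < q) (hS : GP (S : Set ℂ)) (hβ : β ⊆ A1 S z0 q) (hJ : JF S z0 q J β) {k : ℕ}
    (hk : k < 3) (hg : GateE S (A1 S z0 q) z0 q (Dax S z0 q) k β) {l r : List ℂ}
    (hl : HC S z0 (ed k) (-(111 * q)) (-(6 * q)) (107 * q) (111 * q) (2 * q) β l)
    (hr : HC S z0 (ed k) (6 * q) (111 * q) (107 * q) (111 * q) (2 * q) β r)
    {a c : ℂ} (ha : a ∈ l) (hc : c ∈ r) : ∃ g Pa Pb, Pass S z0 q J k c a g Pa Pb := by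
  obtain ⟨L, R, χ1, χ2, g⟩ := hg
  have hsd : symmDiff β (Dax S z0 q k) ⊆ A1 S z0 q := by
    intro x hx
    rcases Finset.mem_symmDiff.1 hx with h | h
    · exact hβ h.1
    · exact (mem_Dax.1 h.1).1
  obtain ⟨l1, l1a, l1b⟩ := hl.meet hS (ed_ne k) g.left (by linarith) (by linarith) (by linarith)
    (by linarith)
  obtain ⟨r1, r1a, r1b⟩ := hr.meet hS (ed_ne k) g.right (by linarith) (by linarith) (by linarith)
    (by linarith)
  -- the chains are free
  have bxfree : ∀ m : List ℂ, (∀ p ∈ prs m, DE S p.1 p.2) → (∀ s ∈ m, s ∈ A1 S z0 q ∧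
      0 < Y z0 (ed k) s) → ((∀ s ∈ m, s ∈ symmDiff β (Dax S z0 q k)) ∨
      ∀ s ∈ m, s ∉ symmDiff β (Dax S z0 q k)) → JFree J m := by
    intro m hadj hm hcol p hp
    have h1 := hm _ (mem_of_prs hp).1
    have h2 := hm _ (mem_of_prs hp).2
    have e : (p.1 ∈ symmDiff β (Dax S z0 q k) ↔ p.2 ∈ symmDiff β (Dax S z0 q k)) := by
      rcases hcol with h | h
      · exact ⟨fun _ => h _ (mem_of_prs hp).2, fun _ => h _ (mem_of_prs hp).1⟩
      · exact ⟨fun h' => absurd h' (h _ (mem_of_prs hp).1), fun h' => absurd h' (h _ (mem_of_prs hp).2)⟩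
    refine ⟨?_, ?_⟩
    · rw [jf_box hJ hk (hadj p hp) h1.1 h2.1 h1.2 h2.2]
      exact fun h => h e
    · rw [jf_box (p := p.swap) hJ hk (hadj p hp).symm h2.1 h1.1 h2.2 h1.2]
      exact fun h => h e.symm
  have armfree : ∀ m : List ℂ, (∀ p ∈ prs m, DE S p.1 p.2) → (∀ s ∈ m, s ∈ β) →
      (∀ s ∈ m, 0 < Y z0 (ed k) s) → ((∀ s ∈ m, 0 ≤ X z0 (ed k) s) ∨ ∀ s ∈ m, X z0 (ed k) s < 0) →
      JFree J m := by
    intro m hadj hm hY hX p hp
    have i1 := (mem_of_prs hp).1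
    have i2 := (mem_of_prs hp).2
    have hax : ¬ AxE z0 p := by
      rw [axe_iff hk (hY _ i1) (hY _ i2), not_not]
      rcases hX with h | h
      · exact ⟨fun _ => h _ i2, fun _ => h _ i1⟩
      · exact ⟨fun h' => absurd (h _ i1) (not_lt.2 h'), fun h' => absurd (h _ i2) (not_lt.2 h')⟩
    have hax' : ¬ AxE z0 p.swap := by
      rw [axe_iff (p := p.swap) hk (hY _ i2) (hY _ i1), not_not]
      rcases hX with h | h
      · exact ⟨fun _ => h _ i1, fun _ => h _ i2⟩
      · exact ⟨fun h' => absurd (h _ i2) (not_lt.2 h'), fun h' => absurd (h _ i1) (not_lt.2 h')⟩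
    exact ⟨jf_free hJ (hadj p hp) (hβ (hm _ i1)) (hβ (hm _ i2)) hax (hm _ i1) (hm _ i2),
      jf_free (p := p.swap) hJ (hadj p hp).symm (hβ (hm _ i2)) (hβ (hm _ i1)) hax' (hm _ i2)
        (hm _ i1)⟩
  have fL : JFree J L := bxfree L g.left.adj (fun s hs => ⟨hsd (g.left.col s hs), by
    have := g.left.loc s hs
    linarith⟩) (Or.inl g.left.col)
  have fR : JFree J R := bxfree R g.right.adj (fun s hs =>
    ⟨(Finset.mem_sdiff.1 (g.right.col s hs)).1, by
      have := g.right.loc s hs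
      linarith⟩) (Or.inr fun s hs => (Finset.mem_sdiff.1 (g.right.col s hs)).2)
  have f1 : JFree J χ1 := bxfree χ1 g.d1 (fun s hs => ⟨hsd (g.c1 s hs), by
    have := (g.b1 s hs).2
    linarith⟩) (Or.inl g.c1)
  have f2 : JFree J χ2 := bxfree χ2 g.d2 (fun s hs => ⟨(g.c2 s hs).1, by
    have := (g.b2 s hs).2
    linarith⟩) (Or.inr fun s hs => (g.c2 s hs).2)
  have fl : JFree J l := armfree l hl.adj hl.col (fun s hs => by
    have := hl.strip s hs
    linarith) (Or.inr fun s hs => by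
    have := hl.loc s hs
    linarith)
  have fr : JFree J r := armfree r hr.adj hr.col (fun s hs => by
    have := hr.strip s hs
    linarith) (Or.inl fun s hs => by
    have := hr.loc s hs
    linarith)
  -- left part
  obtain ⟨m1, k1⟩ := Cn.sub (S := S) (J := J) (Q := fun s => s ∈ A1 S z0 q ∧ X z0 (ed k) s < 6 * q ∧
    102 * q < Y z0 (ed k) s ∧ Y z0 (ed k) s < 141 * q) ha l1a hl.adj fl (fun s hs => by
      have h1 := hl.strip s hs
      have h2 := hl.loc s hs
      exact ⟨hβ (hl.col s hs), by linarith, by linarith, by linarith⟩)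
  obtain ⟨m2, k2⟩ := Cn.sub (S := S) (J := J) (Q := fun s => s ∈ A1 S z0 q ∧ X z0 (ed k) s < 6 * q ∧
    102 * q < Y z0 (ed k) s ∧ Y z0 (ed k) s < 141 * q) l1b g.h1 g.left.adj fL (fun s hs => by
      have h1 := g.left.strip s hs
      have h2 := g.left.loc s hs
      exact ⟨hsd (g.left.col s hs), by linarith, by linarith, by linarith⟩)
  have k3 : Cn S J (χ1.head g.n1) (χ1.getLast g.n1) (fun s => s ∈ A1 S z0 q ∧ X z0 (ed k) s < 6 * q ∧
      102 * q < Y z0 (ed k) s ∧ Y z0 (ed k) s < 141 * q) χ1 :=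
    ⟨List.head?_eq_some_head g.n1, List.getLast?_eq_some_getLast g.n1, g.d1, f1, fun s hs => by
      have h1 := g.b1 s hs
      exact ⟨hsd (g.c1 s hs), by linarith, by linarith, by linarith⟩⟩
  have P1 := ((k1.cat k2).cat k3).reverse
  -- right part
  obtain ⟨m4, k4⟩ := Cn.sub (S := S) (J := J) (Q := fun s => s ∈ A1 S z0 q ∧
    -(6 * q) < X z0 (ed k) s ∧ 102 * q < Y z0 (ed k) s ∧ Y z0 (ed k) s < 141 * q) r1a hc hr.adj fr
    (fun s hs => by
      have h1 := hr.strip s hs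
      have h2 := hr.loc s hs
      exact ⟨hβ (hr.col s hs), by linarith, by linarith, by linarith⟩)
  obtain ⟨m5, k5⟩ := Cn.sub (S := S) (J := J) (Q := fun s => s ∈ A1 S z0 q ∧
    -(6 * q) < X z0 (ed k) s ∧ 102 * q < Y z0 (ed k) s ∧ Y z0 (ed k) s < 141 * q) g.h2 r1b
    g.right.adj fR (fun s hs => by
      have h1 := g.right.strip s hs
      have h2 := g.right.loc s hs
      exact ⟨(Finset.mem_sdiff.1 (g.right.col s hs)).1, by linarith, by linarith, by linarith⟩)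
  have k6 : Cn S J (χ2.head g.n2) (χ2.getLast g.n2) (fun s => s ∈ A1 S z0 q ∧
      -(6 * q) < X z0 (ed k) s ∧ 102 * q < Y z0 (ed k) s ∧ Y z0 (ed k) s < 141 * q) χ2 :=
    ⟨List.head?_eq_some_head g.n2, List.getLast?_eq_some_getLast g.n2, g.d2, f2, fun s hs => by
      have h1 := g.b2 s hs
      exact ⟨(g.c2 s hs).1, by linarith, by linarith, by linarith⟩⟩
  have P2 := ((k6.cat k5).cat k4).reverse
  have e1 := g.c1 _ (List.getLast_mem g.n1)
  have e2 := g.c2 _ (List.head_mem g.n2)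
  have b1 := g.b1 _ (List.getLast_mem g.n1)
  have b2 := g.b2 _ (List.head_mem g.n2)
  refine ⟨(χ2.head g.n2, χ1.getLast g.n1), _, _, P2, P1, g.gate.symm, ?_, ⟨?_, ?_⟩,
    ⟨by linarith [b2.1.1], by linarith [b2.1.2], by linarith [b2.2.1], by linarith [b2.2.2]⟩,
    by linarith [b1.1.1], by linarith [b1.1.2], by linarith [b1.2.1], by linarith [b1.2.2]⟩
  · intro h
    have h' : χ2.head g.n2 = χ1.getLast g.n1 := h
    rw [h'] at e2
    exact e2.2 e1
  · rw [jf_box hJ hk g.gate.symm e2.1 (hsd e1) (by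
      change 0 < Y z0 (ed k) (χ2.head g.n2)
      linarith [b2.2.1]) (by
      change 0 < Y z0 (ed k) (χ1.getLast g.n1)
      linarith [b1.2.1])]
    intro h
    exact e2.2 (h.2 e1)
  · rw [Prod.swap_prod_mk, jf_box (p := (χ1.getLast g.n1, χ2.head g.n2)) hJ hk g.gate (hsd e1) e2.1 (by
      change 0 < Y z0 (ed k) (χ1.getLast g.n1)
      linarith [b1.2.1]) (by
      change 0 < Y z0 (ed k) (χ2.head g.n2)
      linarith [b2.2.1])]
    intro h
    exact e2.2 (h.1 e1)

/-! ### the whole side -/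

/-- the passage as one chain -/
theorem prs_pass {c a : ℂ} {k : ℕ} {g : ℂ × ℂ} {Pa Pb : List ℂ} (h : Pass S z0 q J k c a g Pa Pb) :
    prs (Pa ++ Pb) = prs Pa ++ g :: prs Pb := by
  have h1 := h.pa.last
  have h2 := h.pb.head
  have n1 := h.pa.ne
  cases Pb with
  | nil => simp at h2
  | cons y m =>
    simp only [List.head?_cons, Option.some.injEq] at h2
    rw [List.getLast?_eq_some_getLast n1, Option.some.injEq] at h1
    have e : Pa = Pa.dropLast ++ [g.1] := by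
      conv_lhs => rw [← List.dropLast_append_getLast n1, h1]
    have e2 : prs (Pa ++ y :: m) = prs Pa ++ prs (g.1 :: y :: m) := by
      conv_lhs => rw [e]
      rw [List.append_assoc, List.singleton_append, prs_append, ← e]
    rw [e2, prs_cons, h2]

theorem pass_head {c a : ℂ} {k : ℕ} {g : ℂ × ℂ} {Pa Pb : List ℂ}
    (h : Pass S z0 q J k c a g Pa Pb) : (Pa ++ Pb).head? = some c := by
  rw [List.head?_append_of_ne_nil _ h.pa.ne]; exact h.pa.head

theorem pass_last {c a : ℂ} {k : ℕ} {g : ℂ × ℂ} {Pa Pb : List ℂ}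
    (h : Pass S z0 q J k c a g Pa Pb) : (Pa ++ Pb).getLast? = some a := by
  rw [List.getLast?_append_of_ne_nil _ h.pb.ne]; exact h.pb.last

theorem pass_mem {c a : ℂ} {k : ℕ} {g : ℂ × ℂ} {Pa Pb : List ℂ}
    (h : Pass S z0 q J k c a g Pa Pb) {s : ℂ} (hs : s ∈ Pa ++ Pb) :
    s ∈ A1 S z0 q ∧ 102 * q < Y z0 (ed k) s ∧ Y z0 (ed k) s < 141 * q := by
  rcases List.mem_append.1 hs with h1 | h1
  · have := h.pa.mem s h1
    exact ⟨this.1, this.2.2⟩
  · have := h.pb.mem s h1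
    exact ⟨this.1, this.2.2⟩

/-- corner: the left arm of the side `k` and the right arm of the side `k + 1` -/
theorem corner (hq : 0 < q) (hS : GP (S : Set ℂ)) {k : ℕ} {x0 x1 : ℝ} {P Q : List ℂ} {β' : Finset ℂ}
    (hP : HC S z0 (ed k) (-(111 * q)) x1 (107 * q) (111 * q) (2 * q) β P) (h1 : -(107 * q) ≤ x1)
    (hQ : HC S z0 (ed (k + 1)) x0 (111 * q) (107 * q) (111 * q) (2 * q) β' Q)
    (h0 : x0 ≤ 107 * q) : ∃ s, s ∈ P ∧ s ∈ Q := by
  refine cross_e hS (ed_ne k) hP.ne hQ.ne hP.adj hQ.adj (x0 := -(111 * q)) (x1 := -(107 * q))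
    (y0 := 107 * q) (y1 := 111 * q) hP.strip (fun s hs => ?_) hP.left (h1.trans hP.right) ?_ ?_
  · have h := hQ.strip s hs
    rw [Y_succ] at h
    constructor <;> linarith
  · have h := hQ.left
    rw [X_succ] at h
    linarith
  · have h := hQ.right
    rw [X_succ] at h
    linarith

end Crest.Agent.R143.XV5x796
end
end

-- ▼ part R143/XV6_796
section

/-!
# Row 143, block X: three gates in one annulus, existence of the loop (helper796)

`hasG` : the colours `VP` and a join of the form `JF` have a loop with three gates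
-/

set_option autoImplicit false

noncomputable section

open scoped Classical

namespace Crest.Agent.R143.XV6x796

open Crest.Agent.R143.B0x346 Crest.Agent.R143.DelGx806 Crest.Agent.R143.DelRx806
open Crest.Agent.R143.ToolWx838 Crest.Agent.R143.Blkx838 Crest.Agent.R143.ToolW2x838
open Crest.Agent.R143.ToolW3x838 Crest.Agent.R143.Circ4x838 Crest.Agent.R143.Harx315
open Crest.Agent.R143.RB0x838 Crest.Agent.R143.CircPx838 Crest.Agent.R143.Gatex838
open Crest.Agent.R143.X0Bx683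
open Crest.Agent.R143.XDx697 (AxE)
open Crest.Agent.R143.XV1x796 Crest.Agent.R143.XV2x796 Crest.Agent.R143.XV3x796
open Crest.Agent.R143.XG3x796 Crest.Agent.R143.XV5x796

variable {S V : Finset ℂ} {z0 : ℂ} {q : ℝ} {β : Finset ℂ} {J : Finset (ℂ × ℂ)}


theorem mem_pass {c a : ℂ} {k : ℕ} {g : ℂ × ℂ} {Pa Pb : List ℂ} (h : Pass S z0 q J k c a g Pa Pb)
    {p : ℂ × ℂ} : p ∈ prs (Pa ++ Pb) ↔ p ∈ prs Pa ∨ p = g ∨ p ∈ prs Pb := by
  rw [prs_pass h, List.mem_append, List.mem_cons]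







end Crest.Agent.R143.XV6x796
end
end

-- ▼ part R143/Gauge4_950
section

/-!
# Row 143 (S0194), block X, GAUGE part 4 (helper950): tubes and axes

* `Bt` : sites of a tube; `tube_cn` : the tip triangle and the port triangle are connected by edges
  at the sites of the tube
* `axis_fun` : the part of an axis between two heights as a mod 2 function
-/

set_option autoImplicit false

noncomputable section

open scoped Classical

namespace Crest.Agent.R143.Gax950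

open Crest.Agent.R143.B0x346 Crest.Agent.R143.DelGx806 Crest.Agent.R143.DelRx806
open Crest.Agent.R143.JColx54 Crest.Agent.R143.JCol2x54 Crest.Agent.R143.Planarx54
open Crest.Agent.R143.Planar2x54 Crest.Agent.R143.ToolWx838
open Crest.Agent.R143.X0Bx683 Crest.Agent.R143.JCardx872 Crest.Agent.R143.JWalkx872
open Crest.Agent.R143.Circx63 Crest.Agent.R143.XLegx126 Crest.Agent.R143.Gatex838
open Crest.Agent.R143.RB0x838 Crest.Agent.R143.CircPx838 Crest.Agent.R143.XDx697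

variable {S : Finset ℂ} {z0 e : ℂ} {c y R1 d ρ : ℝ} {W : Set ℂ} {h : ℝ} {n : ℕ} {l : ℕ → ℂ}
  {th : ℕ → ℝ}



theorem tr (x y z : ℂ) : ‖x - z‖ ≤ ‖x - y‖ + ‖y - z‖ := norm_sub_le_norm_sub_add_norm_sub x y z






/-! ### rays -/








/-! ### the three axes -/









theorem norm_ed (k : ZMod 3) : ‖ed k‖ = 1 := by
  unfold ed
  rw [norm_mul, norm_pow, norm_neg, Complex.norm_I, one_pow, one_mul]


theorem abs_X (he : ‖e‖ = 1) (s t : ℂ) : |X z0 e s - X z0 e t| ≤ ‖s - t‖ := by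
  have h1 : X z0 e s - X z0 e t = ((s - t) / e).re := by
    unfold X
    rw [← Complex.sub_re]
    congr 1
    ring
  rw [h1]
  refine (Complex.abs_re_le_norm _).trans ?_
  rw [norm_div, he, div_one]

theorem abs_Y (he : ‖e‖ = 1) (s t : ℂ) : |Y z0 e s - Y z0 e t| ≤ ‖s - t‖ := by
  have h1 : Y z0 e s - Y z0 e t = ((s - t) / e).im := by
    unfold Y
    rw [← Complex.sub_im]
    congr 1
    ring
  rw [h1]
  refine (Complex.abs_im_le_norm _).trans ?_
  rw [norm_div, he, div_one]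

theorem norm_XY (he : ‖e‖ = 1) (s : ℂ) : ‖s - z0‖ ≤ |X z0 e s| + |Y z0 e s| := by
  have h1 : ‖s - z0‖ = ‖(s - z0) / e‖ := by rw [norm_div, he, div_one]
  rw [h1]
  exact Complex.norm_le_abs_re_add_abs_im _





end Crest.Agent.R143.Gax950
end
end

-- ▼ part R143/EQE2_63
section

/-!
# Row 143 (S0194), leaf EQE, part 2 (helper63): the gauge and the chain with one gate

* `loc_full` : the join = the boundary of a colouring plus the cut of a branch of the argument
* `JF1` : form of the join in the annulus `A1`, `jf1_exists`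
* `G1` : closed chain of sites of `A1` with one gate, `g1_exists`
-/

set_option autoImplicit false

noncomputable section

open scoped Classical

namespace Crest.Agent.R143.EQE2x63

open Crest.Agent.R143.B0x346 Crest.Agent.R143.DelGx806 Crest.Agent.R143.DelRx806
open Crest.Agent.R143.ToolWx838 hiding ang
open Crest.Agent.R143.Blkx838 Crest.Agent.R143.ToolW2x838
open Crest.Agent.R143.ToolW3x838 Crest.Agent.R143.Circ4x838 Crest.Agent.R143.Harx315
open Crest.Agent.R143.RB0x838 Crest.Agent.R143.CircPx838 Crest.Agent.R143.Gatex838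
open Crest.Agent.R143.X0Bx683
open Crest.Agent.R143.XV1x796 Crest.Agent.R143.XV2x796 Crest.Agent.R143.XV3x796
open Crest.Agent.R143.XG3x796 Crest.Agent.R143.XV5x796 Crest.Agent.R143.XV6x796
open Crest.Agent.R143.JColx54 Crest.Agent.R143.JCol2x54 Crest.Agent.R143.Planarx54
open Crest.Agent.R143.Planar2x54 Crest.Agent.R143.J8x872
open Crest.Agent.R143.XDx697 (AxE)
open Crest.Agent.R143.XV2x796 (ed)

variable {S V : Finset ℂ} {N : Net ℂ} {z0 : ℂ} {q : ℝ} {β : Finset ℂ} {J : Finset (ℂ × ℂ)}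

/-- **gauge**: the join and the cut of the branch `B` -/
theorem loc_full (H : HNet S N) {t : ℂ × ℂ × ℂ} (ht : t ∈ delT S) {x : ℂ} (hx : InO' x t)
    (hJ : J ∈ N.tj t) (B : ℂ → ℝ)
    (hB : ∀ a b, Adj S a b → ∃ k : ℤ, ang x a b = B b - B a + k * (2 * Real.pi)) :
    ∃ σ : ℂ → ZMod 2, ∀ a b, Adj S a b → ∀ n : ℤ, ang x a b = B b - B a + n * (2 * Real.pi) →
      (if (a, b) ∈ J ∨ (b, a) ∈ J then 1 else 0) + (n : ZMod 2) = σ b - σ a := by
  have hJ' : IsJoin N.toTrg N.kl (rots t) N.exS J := JCardx872.mem_joins.1 hJ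
  have hpi := Real.pi_pos
  choose! n hn using hB
  have hadd : ∀ a b, Adj S a b → n b a = - n a b := by
    intro a b hab
    have h1 := hn a b hab
    have h2 := hn b a hab.symm
    have h3 := adj_anti H.gp ht hx hab
    have h4 : ((n b a + n a b : ℤ) : ℝ) * (2 * Real.pi) = 0 := by
      push_cast
      linarith
    have h5 : ((n b a + n a b : ℤ) : ℝ) = 0 := by
      rcases mul_eq_zero.1 h4 with h | h
      · exact h
      · exact absurd h (by positivity)
    have h6 : n b a + n a b = 0 := by exact_mod_cast h5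
    omega
  have htri : ∀ a b c, (a, b, c) ∈ delT S →
      n a b + n b c + n c a = if (a, b, c) ∈ rots t then 1 else 0 := by
    intro a b c h
    have h1 := hn a b (adj_tri h)
    have h2 := hn b c (adj_tri' H.gp h)
    have h3 := hn c a (adj_tri'' H.gp h)
    have h4 := ang_tri H.gp ht hx h
    have h5 : ((n a b + n b c + n c a : ℤ) : ℝ) * (2 * Real.pi) =
        (if (a, b, c) ∈ rots t then 1 else 0) * (2 * Real.pi) := by
      push_cast
      split_ifs at h4 ⊢ <;> linarith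
    have h6 : ((n a b + n b c + n c a : ℤ) : ℝ) = if (a, b, c) ∈ rots t then 1 else 0 :=
      mul_right_cancel₀ (by positivity) h5
    split_ifs at h6 ⊢ <;> exact_mod_cast h6
  obtain ⟨σ, hσ⟩ := exact H.gp (A := ZMod 2)
    (f := fun a b => (if (a, b) ∈ J ∨ (b, a) ∈ J then 1 else 0) + (n a b : ZMod 2))
    (by
      intro a b hab
      have e : ((b, a) ∈ J ∨ (a, b) ∈ J) ↔ ((a, b) ∈ J ∨ (b, a) ∈ J) := or_comm
      simp only [e, hadd a b hab]
      push_cast
      generalize ((n a b : ℤ) : ZMod 2) = u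
      split_ifs <;> revert u <;> decide)
    (by
      intro a b c h
      have hG' : (a, b, c) ∈ N.T := by rw [H.tri]; exact h
      have h1 := occ_iff H.tri (exS_hull H) hJ' h
      have h2 := occ_iff H.tri (exS_hull H) hJ' (delT_rot H.gp h)
      have h3 := occ_iff H.tri (exS_hull H) hJ' (delT_rot H.gp (delT_rot H.gp h))
      have hp := hJ'.par a b c hG'
      have hk := congrArg (fun z : ℤ => (z : ZMod 2)) (htri a b c h)
      simp only [h1, h2, h3]
      push_cast at hk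
      generalize ((n a b : ℤ) : ZMod 2) = u at hk ⊢
      generalize ((n b c : ℤ) : ZMod 2) = v at hk ⊢
      generalize ((n c a : ℤ) : ZMod 2) = w at hk ⊢
      by_cases hr : (a, b, c) ∈ rots t
      · simp only [hr, if_true] at hp hk
        by_cases x1 : (a, b) ∈ J <;> by_cases x2 : (b, c) ∈ J <;> by_cases x3 : (c, a) ∈ J <;>
          simp only [x1, x2, x3, if_true, if_false] at hp ⊢ <;>
          first
            | omega
            | (revert hk; revert u v w; decide)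
      · simp only [hr, if_false] at hp hk
        by_cases x1 : (a, b) ∈ J <;> by_cases x2 : (b, c) ∈ J <;> by_cases x3 : (c, a) ∈ J <;>
          simp only [x1, x2, x3, if_true, if_false] at hp ⊢ <;>
          first
            | omega
            | (revert hk; revert u v w; decide))
  refine ⟨σ, fun a b hab m hm => ?_⟩
  have h := hσ a b hab
  have h0 : n a b = m := by
    have h1 := hn a b hab
    have h2 : ((n a b - m : ℤ) : ℝ) * (2 * Real.pi) = 0 := by push_cast; linarith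
    rcases mul_eq_zero.1 h2 with h3 | h3
    · have : n a b - m = 0 := by exact_mod_cast h3
      omega
    · exact absurd h3 (by positivity)
  rw [← h0]
  exact h

/-! ### the cut -/

/-- the edges which cross the axis of the side `0` -/
def Ax1 (z0 : ℂ) (p : ℂ × ℂ) : Prop := (0 < Y z0 (ed 0) p.1 ∧ 0 < Y z0 (ed 0) p.2) ∧
  ¬ (0 ≤ X z0 (ed 0) p.1 ↔ 0 ≤ X z0 (ed 0) p.2)

/-- the form of the join `J` in the annulus `A1`, colours `β` -/
def JF1 (S : Finset ℂ) (z0 : ℂ) (q : ℝ) (J : Finset (ℂ × ℂ)) (β : Finset ℂ) : Prop :=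
  ∀ p : ℂ × ℂ, DE S p.1 p.2 → p.1 ∈ A1 S z0 q → p.2 ∈ A1 S z0 q →
    (p ∈ J ↔ ¬ (Ax1 z0 p ↔ ¬ (p.1 ∈ β ↔ p.2 ∈ β)))

theorem L_coord (z0 y : ℂ) : L (-1) z0 y = Complex.arg (-(Y z0 (ed 0) y : ℂ) + X z0 (ed 0) y * Complex.I) := by
  unfold L
  congr 1
  obtain ⟨h1, h2⟩ := coords0 z0 y
  rw [h1, h2, div_neg, div_one]
  apply Complex.ext <;> simp

/-- the branch of the argument near the annulus -/
theorem cut_par {a b : ℂ} {n : ℤ} (hn : ang z0 a b = L (-1) z0 b - L (-1) z0 a + n * (2 * Real.pi))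
    (h : (0 < X z0 (ed 0) a ∧ 0 < X z0 (ed 0) b) ∨ (X z0 (ed 0) a < 0 ∧ X z0 (ed 0) b < 0) ∨
      (Y z0 (ed 0) a < 0 ∧ Y z0 (ed 0) b < 0) ∨ (0 < Y z0 (ed 0) a ∧ 0 < Y z0 (ed 0) b)) :
    (n : ZMod 2) = if Ax1 z0 (a, b) then 1 else 0 := by
  have hpi := Real.pi_pos
  rw [L_coord, L_coord] at hn
  have hang1 := Complex.neg_pi_lt_arg ((b - z0) / (a - z0))
  have hang2 := Complex.arg_le_pi ((b - z0) / (a - z0))
  change ang z0 a b ≤ _ at hang2
  change _ < ang z0 a b at hang1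
  set xa := X z0 (ed 0) a
  set xb := X z0 (ed 0) b
  set ya := Y z0 (ed 0) a
  set yb := Y z0 (ed 0) b
  set wa : ℂ := -(ya : ℂ) + xa * Complex.I with hwa
  set wb : ℂ := -(yb : ℂ) + xb * Complex.I with hwb
  have ra : wa.re = -ya := by rw [hwa]; simp
  have ia : wa.im = xa := by rw [hwa]; simp
  have rb : wb.re = -yb := by rw [hwb]; simp
  have ib : wb.im = xb := by rw [hwb]; simp
  have ua := Complex.neg_pi_lt_arg wa
  have va := Complex.arg_le_pi wa
  have ub := Complex.neg_pi_lt_arg wb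
  have vb := Complex.arg_le_pi wb
  -- conclusion from the bounds
  have zero : |wb.arg - wa.arg| < Real.pi → n = 0 := by
    intro hh
    rw [abs_lt] at hh
    have h1 : (n : ℝ) < 1 := by
      by_contra hc
      push Not at hc
      nlinarith
    have h2 : (-1 : ℝ) < n := by
      by_contra hc
      push Not at hc
      nlinarith
    have h1' : n < 1 := by exact_mod_cast h1
    have h2' : -1 < n := by exact_mod_cast h2
    omega
  have hz2 : ∀ m : ℤ, m = 0 → (m : ZMod 2) = 0 := by rintro m rfl; simp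
  rcases h with h | h | h | h
  · -- both above
    rw [if_neg (fun hx => hx.2 ⟨fun _ => h.2.le, fun _ => h.1.le⟩)]
    apply hz2
    apply zero
    have a1 : 0 ≤ wa.arg := Complex.arg_nonneg_iff.2 (by rw [ia]; exact h.1.le)
    have b1 : 0 ≤ wb.arg := Complex.arg_nonneg_iff.2 (by rw [ib]; exact h.2.le)
    have a2 : wa.arg ≠ 0 := fun h0 => by
      have := (Complex.arg_eq_zero_iff.1 h0).2
      rw [ia] at this; linarith [h.1]
    have b2 : wb.arg ≠ 0 := fun h0 => by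
      have := (Complex.arg_eq_zero_iff.1 h0).2
      rw [ib] at this; linarith [h.2]
    have a3 : wa.arg ≠ Real.pi := fun h0 => by
      have := (Complex.arg_eq_pi_iff.1 h0).2
      rw [ia] at this; linarith [h.1]
    have b3 : wb.arg ≠ Real.pi := fun h0 => by
      have := (Complex.arg_eq_pi_iff.1 h0).2
      rw [ib] at this; linarith [h.2]
    have a4 := lt_of_le_of_ne a1 (Ne.symm a2)
    have b4 := lt_of_le_of_ne b1 (Ne.symm b2)
    have a5 := lt_of_le_of_ne va a3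
    have b5 := lt_of_le_of_ne vb b3
    rw [abs_lt]; constructor <;> linarith
  · rw [if_neg (fun hx => hx.2 ⟨fun h' => absurd h.1 (not_lt.2 h'),
      fun h' => absurd h.2 (not_lt.2 h')⟩)]
    apply hz2
    apply zero
    have a1 : wa.arg < 0 := Complex.arg_neg_iff.2 (by rw [ia]; exact h.1)
    have b1 : wb.arg < 0 := Complex.arg_neg_iff.2 (by rw [ib]; exact h.2)
    rw [abs_lt]; constructor <;> linarith
  · rw [if_neg (fun hx => absurd h.1 (not_lt.2 hx.1.1.le))]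
    apply hz2
    apply zero
    have a1 : |wa.arg| < Real.pi / 2 := Complex.abs_arg_lt_pi_div_two_iff.2 (Or.inl (by
      rw [ra]; linarith [h.1]))
    have b1 : |wb.arg| < Real.pi / 2 := Complex.abs_arg_lt_pi_div_two_iff.2 (Or.inl (by
      rw [rb]; linarith [h.2]))
    rw [abs_lt] at a1 b1
    rw [abs_lt]; constructor <;> linarith
  · -- near the axis
    have big : ∀ w : ℂ, w.re < 0 → 0 ≤ w.im → Real.pi / 2 < w.arg := by
      intro w h1 h2
      by_contra hc
      push Not at hc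
      rcases Complex.arg_le_pi_div_two_iff.1 hc with h3 | h3 <;> linarith
    have small : ∀ w : ℂ, w.re < 0 → w.im < 0 → w.arg < -(Real.pi / 2) := by
      intro w h1 h2
      by_contra hc
      push Not at hc
      rcases Complex.neg_pi_div_two_le_arg_iff.1 hc with h3 | h3 <;> linarith
    have rea : wa.re < 0 := by rw [ra]; linarith [h.1]
    have reb : wb.re < 0 := by rw [rb]; linarith [h.2]
    by_cases hxa : 0 ≤ xa
    · have Aa := big wa rea (by rw [ia]; exact hxa)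
      by_cases hxb : 0 ≤ xb
      · have Ab := big wb reb (by rw [ib]; exact hxb)
        rw [if_neg (fun hx => hx.2 ⟨fun _ => hxb, fun _ => hxa⟩)]
        apply hz2
        apply zero
        rw [abs_lt]; constructor <;> linarith
      · have Ab := small wb reb (by rw [ib]; exact not_le.1 hxb)
        rw [if_pos ⟨h, fun hx => hxb (hx.1 hxa)⟩]
        have h1 : (0 : ℝ) < n := by
          by_contra hc
          push Not at hc
          nlinarith
        have h2 : (n : ℝ) < 2 := by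
          by_contra hc
          push Not at hc
          nlinarith
        have h1' : 0 < n := by exact_mod_cast h1
        have h2' : n < 2 := by exact_mod_cast h2
        have : n = 1 := by omega
        rw [this]; simp
    · have Aa := small wa rea (by rw [ia]; exact not_le.1 hxa)
      by_cases hxb : 0 ≤ xb
      · have Ab := big wb reb (by rw [ib]; exact hxb)
        rw [if_pos ⟨h, fun hx => hxa (hx.2 hxb)⟩]
        have h1 : (n : ℝ) < 0 := by
          by_contra hc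
          push Not at hc
          nlinarith
        have h2 : (-2 : ℝ) < n := by
          by_contra hc
          push Not at hc
          nlinarith
        have h1' : n < 0 := by exact_mod_cast h1
        have h2' : -2 < n := by exact_mod_cast h2
        have : n = -1 := by omega
        rw [this]; decide
      · have Ab := small wb reb (by rw [ib]; exact not_le.1 hxb)
        rw [if_neg (fun hx => hx.2 ⟨fun h' => absurd h' hxa, fun h' => absurd h' hxb⟩)]
        apply hz2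
        apply zero
        rw [abs_lt]; constructor <;> linarith

/-- a short edge of the annulus is on one side of a line through `z0` -/
theorem one_side {a b : ℂ} (hq : 0 < q) (ha : 100 * q ≤ ‖a - z0‖) (hab : ‖b - a‖ < 10 * q) :
    (0 < X z0 (ed 0) a ∧ 0 < X z0 (ed 0) b) ∨ (X z0 (ed 0) a < 0 ∧ X z0 (ed 0) b < 0) ∨
      (Y z0 (ed 0) a < 0 ∧ Y z0 (ed 0) b < 0) ∨ (0 < Y z0 (ed 0) a ∧ 0 < Y z0 (ed 0) b) := by
  have h1 := XV2x796.norm_XY z0 0 a
  have hx : |X z0 (ed 0) b - X z0 (ed 0) a| ≤ ‖b - a‖ := Gax950.abs_X (XV2x796.norm_ed 0) b a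
  have hy : |Y z0 (ed 0) b - Y z0 (ed 0) a| ≤ ‖b - a‖ := Gax950.abs_Y (XV2x796.norm_ed 0) b a
  rw [abs_le] at hx hy
  by_contra hcon
  push Not at hcon
  obtain ⟨c1, c2, c3, c4⟩ := hcon
  have k1 : X z0 (ed 0) a ≤ 10 * q := by
    by_contra hc
    push Not at hc
    have := c1 (by linarith)
    linarith
  have k2 : -(10 * q) ≤ X z0 (ed 0) a := by
    by_contra hc
    push Not at hc
    have := c2 (by linarith)
    linarith
  have k3 : -(10 * q) ≤ Y z0 (ed 0) a := by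
    by_contra hc
    push Not at hc
    have := c3 (by linarith)
    linarith
  have k4 : Y z0 (ed 0) a ≤ 10 * q := by
    by_contra hc
    push Not at hc
    have := c4 (by linarith)
    linarith
  nlinarith [norm_nonneg (a - z0)]

/-- **existence of the gauge** -/
theorem jf1_exists (H : HNet S N) {t : ℂ × ℂ × ℂ} (ht : t ∈ delT S) (hx : InO' z0 t)
    (hJ : J ∈ N.tj t) {R1 d : ℝ} (hq : 0 < q) (hD : LDns S z0 R1 d) (hR : 200 * q + d ≤ R1)
    (hd : d ≤ q)
    (hin : ∀ a b : ℂ, ‖a - z0‖ < 200 * q → ¬ hullE S a b ∧ ¬ hullE S b a) :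
    ∃ σ : Finset ℂ, σ ⊆ A1 S z0 q ∧ JF1 S z0 q J σ := by
  obtain ⟨σ, hσ⟩ := loc_full H ht hx hJ (L (-1) z0)
    (fun a b h => branch_L H.gp ht hx (by norm_num) h)
  refine ⟨(A1 S z0 q).filter fun s => σ s = 1, Finset.filter_subset _ _, ?_⟩
  rintro ⟨a, b⟩ hde ha hb
  simp only at hde ha hb ⊢
  have hJ' : IsJoin N.toTrg N.kl (rots t) N.exS J := JCardx872.mem_joins.1 hJ
  have ha' := mem_A1.1 ha
  have hb' := mem_A1.1 hb
  have hnm : ∀ a b : ℂ, ‖a - z0‖ < 200 * q → (a, b) ∉ N.exS ∧ (b, a) ∉ N.exS := by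
    intro a b h
    constructor
    · rintro ⟨k, hk⟩
      have := H.hex k
      rw [hk] at this
      exact (hin a b h).1 this
    · rintro ⟨k, hk⟩
      have := H.hex k
      rw [hk] at this
      exact (hin a b h).2 this
  have hocc : ((a, b) ∈ J ∨ (b, a) ∈ J) ↔ (a, b) ∈ J := by
    have := hJ'.sym a b (hnm a b ha'.2.2).1 (hnm a b ha'.2.2).2
    tauto
  have hlen : ‖b - a‖ < 10 * q := by
    have := Gax950.adj_len hD hR hde ha'.2.2.le
    linarith
  obtain ⟨n, hn⟩ := branch_L H.gp ht hx (d := -1) (by norm_num) hde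
  have h1 := hσ a b hde n hn
  rw [cut_par hn (one_side hq ha'.2.1 hlen)] at h1
  simp only [hocc] at h1
  simp only [Finset.mem_filter, ha, hb, true_and]
  generalize σ a = u at h1 ⊢
  generalize σ b = v at h1 ⊢
  by_cases hA : Ax1 z0 (a, b)
  · by_cases hJab : (a, b) ∈ J
    · simp only [hA, hJab, if_true, true_iff, not_not] at h1 ⊢
      revert h1; revert u v; decide
    · simp only [hA, hJab, if_true, if_false, false_iff, not_not, true_iff] at h1 ⊢
      revert h1; revert u v; decide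
  · by_cases hJab : (a, b) ∈ J
    · simp only [hA, hJab, if_true, if_false, true_iff, false_iff, not_not] at h1 ⊢
      revert h1; revert u v; decide
    · simp only [hA, hJab, if_false, false_iff, not_not] at h1 ⊢
      revert h1; revert u v; decide

/-! ### the chain with one gate -/

/-- closed chain (counterclockwise) of sites of `A1` with at most one occupied edge -/
structure G1 (S : Finset ℂ) (z0 : ℂ) (q : ℝ) (J : Finset (ℂ × ℂ)) (c : List ℂ) (g : ℂ × ℂ) :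
    Prop where
  loop : Loop S c
  ann : ∀ s ∈ c, s ∈ A1 S z0 q
  wind : ∀ z : ℂ, |z.re - z0.re| ≤ 100 * q → |z.im - z0.im| ≤ 100 * q → asum z c = 2 * Real.pi
  only : ∀ p ∈ prs c, (p ∈ J ∨ p.swap ∈ J) → p = g

/-- the event on the colours of the annulus -/
structure VP1 (S V : Finset ℂ) (z0 : ℂ) (q : ℝ) (β : Finset ℂ) : Prop where
  gate : GateE S V z0 q (Dax S z0 q) 0 β
  al : AL S z0 q 0 107 111 β
  ar : AR S z0 q 0 107 111 β
  sd : ∀ k ∈ ({1, 2, 3} : Finset ℕ),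
    ∃ l, HC S z0 (ed k) (-(111 * q)) (111 * q) (107 * q) (111 * q) (2 * q) β l

/-- the join of the form `JF` with the same colours -/
def JT (S : Finset ℂ) (z0 : ℂ) (q : ℝ) (β : Finset ℂ) : Finset (ℂ × ℂ) :=
  (A1 S z0 q ×ˢ A1 S z0 q).filter fun p => ¬ (AxE z0 p ↔ ¬ (p.1 ∈ β ↔ p.2 ∈ β))

theorem jt_jf (β : Finset ℂ) : JF S z0 q (JT S z0 q β) β := by
  intro p _ h1 h2
  unfold JT
  rw [Finset.mem_filter, Finset.mem_product]
  tauto

/-- the two forms agree near the side `0` -/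
theorem jt_iff (hJ : JF1 S z0 q J β) {p : ℂ × ℂ} (hde : DE S p.1 p.2) (m1 : p.1 ∈ A1 S z0 q)
    (m2 : p.2 ∈ A1 S z0 q) (h1 : 0 < Y z0 (ed 0) p.1) (h2 : 0 < Y z0 (ed 0) p.2) :
    p ∈ JT S z0 q β ↔ p ∈ J := by
  rw [hJ p hde m1 m2, jt_jf β p hde m1 m2, axe_iff (k := 0) (by norm_num) h1 h2]
  unfold Ax1
  tauto

theorem cn_of {a b : ℂ} {Q : ℂ → Prop} {m : List ℂ} (hJ : JF1 S z0 q J β)
    (h : XV5x796.Cn S (JT S z0 q β) a b Q m) (hQ : ∀ s, Q s → s ∈ A1 S z0 q ∧ 0 < Y z0 (ed 0) s) :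
    XV5x796.Cn S J a b Q m := by
  refine ⟨h.head, h.last, h.adj, fun p hp => ?_, h.mem⟩
  have i1 := hQ _ (h.mem _ (mem_of_prs hp).1)
  have i2 := hQ _ (h.mem _ (mem_of_prs hp).2)
  have hde := h.adj p hp
  have hf := h.free p hp
  rw [jt_iff hJ hde i1.1 i2.1 i1.2 i2.2, jt_iff (p := p.swap) hJ hde.symm i2.1 i1.1 i2.2 i1.2] at hf
  exact hf

theorem side_axis {k : ℕ} (hk : k ∈ ({1, 2, 3} : Finset ℕ)) {p : ℂ × ℂ}
    (h1 : 0 < Y z0 (ed k) p.1) (h2 : 0 < Y z0 (ed k) p.2) : ¬ Ax1 z0 p := by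
  obtain ⟨⟨a1, a2⟩, ⟨a3, a4⟩, a5, a6⟩ := coords z0 p.1
  obtain ⟨⟨b1, b2⟩, ⟨b3, b4⟩, b5, b6⟩ := coords z0 p.2
  rintro ⟨⟨y1, y2⟩, hx⟩
  apply hx
  simp only [Finset.mem_insert, Finset.mem_singleton] at hk
  rcases hk with rfl | rfl | rfl
  · exact ⟨fun h => by linarith, fun h => by linarith⟩
  · exact absurd y1 (by linarith)
  · exact ⟨fun _ => by linarith, fun _ => by linarith⟩

/-- part of a chain of one of the sides `1, 2, 3` -/
theorem side_cn (hβ : β ⊆ A1 S z0 q) (hJ : JF1 S z0 q J β) (hq : 0 < q) {k : ℕ}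
    (hk : k ∈ ({1, 2, 3} : Finset ℕ)) {l : List ℂ}
    (hl : HC S z0 (ed k) (-(111 * q)) (111 * q) (107 * q) (111 * q) (2 * q) β l) {a b : ℂ}
    (ha : a ∈ l) (hb : b ∈ l) :
    ∃ m, XV5x796.Cn S J a b (fun s => s ∈ A1 S z0 q ∧ 102 * q < Y z0 (ed k) s) m := by
  refine XV5x796.Cn.sub ha hb hl.adj (fun p hp => ?_) (fun s hs => ?_)
  · have i1 := (mem_of_prs hp).1
    have i2 := (mem_of_prs hp).2
    have y1 := (hl.strip _ i1).1
    have y2 := (hl.strip _ i2).1
    have n1 := side_axis hk (p := p) (z0 := z0) (by linarith) (by linarith)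
    have n2 := side_axis hk (p := p.swap) (z0 := z0) (by
      change 0 < Y z0 (ed k) p.2; linarith) (by change 0 < Y z0 (ed k) p.1; linarith)
    have c1 := hl.col _ i1
    have c2 := hl.col _ i2
    rw [hJ p (hl.adj p hp) (hβ c1) (hβ c2), hJ p.swap (hl.adj p hp).symm (hβ c2) (hβ c1)]
    simp only [Prod.fst_swap, Prod.snd_swap]
    tauto
  · have h1 := hl.strip s hs
    exact ⟨hβ (hl.col s hs), by linarith⟩

/-- **existence of the chain with one gate** -/
theorem g1_exists (hq : 0 < q) (hS : GP (S : Set ℂ)) (hβ : β ⊆ A1 S z0 q)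
    (hJ : JF1 S z0 q J β) (hV : VP1 S (A1 S z0 q) z0 q β) : ∃ c g, G1 S z0 q J c g := by
  obtain ⟨l0, hl0⟩ := hV.al
  obtain ⟨r0, hr0⟩ := hV.ar
  obtain ⟨b1, hb1⟩ := hV.sd 1 (by simp)
  obtain ⟨b2, hb2⟩ := hV.sd 2 (by simp)
  obtain ⟨b3, hb3⟩ := hV.sd 3 (by simp)
  obtain ⟨s1, s1a, s1b⟩ := corner (k := 0) hq hS hl0 (by linarith) hb1 (by linarith)
  obtain ⟨s2, s2a, s2b⟩ := corner (k := 1) hq hS hb1 (by linarith) hb2 (by linarith)
  obtain ⟨s3, s3a, s3b⟩ := corner (k := 2) hq hS hb2 (by linarith) hb3 (by linarith)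
  have hr0' : HC S z0 (ed (3 + 1)) (6 * q) (111 * q) (107 * q) (111 * q) (2 * q) β r0 := by
    have e : ed (3 + 1) = ed 0 := by
      have := ed_four 0
      rw [zero_add] at this
      exact this
    rw [e]
    exact hr0
  obtain ⟨s4, s4a, s4b⟩ := corner (k := 3) hq hS hb3 (by linarith) hr0' (by linarith)
  obtain ⟨g, Pa, Pb, hp⟩ := pass hq hS hβ (jt_jf β) (k := 0) (by norm_num) hV.gate hl0 hr0 s1a s4b
  have pa := cn_of hJ hp.pa (fun s h => ⟨h.1, by linarith [h.2.2.1]⟩)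
  have pb := cn_of hJ hp.pb (fun s h => ⟨h.1, by linarith [h.2.2.1]⟩)
  obtain ⟨m1, k1⟩ := side_cn hβ hJ hq (k := 1) (by simp) hb1 s1b s2a
  obtain ⟨m2, k2⟩ := side_cn hβ hJ hq (k := 2) (by simp) hb2 s2b s3a
  obtain ⟨m3, k3⟩ := side_cn hβ hJ hq (k := 3) (by simp) hb3 s3b s4a
  set F : List ℂ := Pa ++ Pb with hF
  have F0h : F.head? = some s4 := pass_head hp
  have F0l : F.getLast? = some s1 := pass_last hp
  have n1 := k1.ne
  have e2 : (cat m1 m2).getLast? = some s3 := by rw [cat_last k1.last k2.head]; exact k2.last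
  have n2 : cat m1 m2 ≠ [] := by intro h; rw [h] at e2; simp at e2
  have e3 : (cat (cat m1 m2) m3).getLast? = some s4 := by
    rw [cat_last e2 k3.head]; exact k3.last
  have n3 : cat (cat m1 m2) m3 ≠ [] := by intro h; rw [h] at e3; simp at e3
  have hprs : prs (cat (cat (cat m1 m2) m3) F) = prs m1 ++ prs m2 ++ prs m3 ++ prs F := by
    rw [prs_cat e3 F0h, prs_cat e2 k3.head, prs_cat k1.last k2.head]
  have hFp : ∀ p, p ∈ prs F ↔ p ∈ prs Pa ∨ p = g ∨ p ∈ prs Pb := fun p => mem_pass hp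
  refine ⟨cat (cat (cat m1 m2) m3) F, g, ⟨?_, ?_⟩, ?_, ?_, ?_⟩
  · rw [cat_last e3 F0h, F0l, cat_head n3, cat_head n2, cat_head n1, k1.head]
  · intro p h
    rw [hprs] at h
    simp only [List.mem_append] at h
    rcases h with ((h | h) | h) | h
    · exact k1.adj p h
    · exact k2.adj p h
    · exact k3.adj p h
    · rcases (hFp p).1 h with h | rfl | h
      · exact pa.adj p h
      · exact hp.de
      · exact pb.adj p h
  · intro s hs
    rcases mem_cat hs with hs | hs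
    · rcases mem_cat hs with hs | hs
      · rcases mem_cat hs with hs | hs
        · exact (k1.mem s hs).1
        · exact (k2.mem s hs).1
      · exact (k3.mem s hs).1
    · exact (pass_mem hp hs).1
  · intro z hz1 hz2
    rw [abs_le] at hz1 hz2
    rw [asum_cat e3 F0h, asum_cat e2 k3.head, asum_cat k1.last k2.head]
    refine asum_glue k1.head k1.last k2.head k2.last k3.head k3.last F0h F0l ?_ ?_ ?_ ?_
    · intro s hs
      have h1 := (k1.mem s hs).2
      have h2 := (coords z0 s).1.2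
      have h3 := coords0 z0 s
      linarith
    · intro s hs
      have h1 := (k2.mem s hs).2
      have h2 := (coords z0 s).2.1.2
      have h3 := coords0 z0 s
      linarith
    · intro s hs
      have h1 := (k3.mem s hs).2
      have h2 := (coords z0 s).2.2.2
      have h3 := coords0 z0 s
      linarith
    · intro s hs
      have h1 := (pass_mem hp hs).2.1
      have h3 := coords0 z0 s
      linarith
  · intro p h hpJ
    rw [hprs] at h
    simp only [List.mem_append] at h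
    rcases h with ((h | h) | h) | h
    · have := k1.free p h; tauto
    · have := k2.free p h; tauto
    · have := k3.free p h; tauto
    · rcases (hFp p).1 h with h | h | h
      · have := pa.free p h; tauto
      · exact h
      · have := pb.free p h; tauto

end Crest.Agent.R143.EQE2x63
end
end

-- ▼ part R143/EQE3_63

/-!
# Row 143 (S0194), leaf EQE, part 3 (helper63): probability of a chain with one gate

* `vp1_pr` : the event `VP1` has probability `≥ p ^ 10`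
* `has_pr` : given the colours outside, a chain with one gate exists in `A1` with probability `≥ p ^ 10`
* `no_gate` : `n` annuli
* `hh_close` : the values of the observable at two triangles inside `n` annuli differ by at most
  `6 (1 - p ^ 10) ^ n`
-/

set_option autoImplicit false

noncomputable section

open scoped Classical

namespace Crest.Agent.R143.EQE3x63

open Crest.Agent.R143.B0x346 Crest.Agent.R143.DelGx806 Crest.Agent.R143.DelRx806
open Crest.Agent.R143.ToolWx838 hiding ang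
open Crest.Agent.R143.Blkx838 Crest.Agent.R143.ToolW2x838
open Crest.Agent.R143.ToolW3x838 Crest.Agent.R143.Circ4x838 Crest.Agent.R143.Harx315
open Crest.Agent.R143.RB0x838 Crest.Agent.R143.CircPx838 Crest.Agent.R143.Gatex838
open Crest.Agent.R143.X0Bx683
open Crest.Agent.R143.XV1x796 Crest.Agent.R143.XV2x796 Crest.Agent.R143.XV3x796
open Crest.Agent.R143.XV4x796 Crest.Agent.R143.XG3x796 Crest.Agent.R143.XV5x796
open Crest.Agent.R143.JColx54 Crest.Agent.R143.JCol2x54 Crest.Agent.R143.Planarx54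
open Crest.Agent.R143.Planar2x54 Crest.Agent.R143.J8x872
open Crest.Agent.R143.J1x872 Crest.Agent.R143.XFx903
open Crest.Agent.R143.EQE1x63 Crest.Agent.R143.EQE2x63
open Crest.Agent.R143.XV2x796 (ed)

variable {S V : Finset ℂ} {N : Net ℂ} {z0 : ℂ} {q p : ℝ} {β : Finset ℂ} {J : Finset (ℂ × ℂ)}

/-! ### the event -/


/-- the increasing part of `VP1` -/
def U1 (S : Finset ℂ) (z0 : ℂ) (q : ℝ) (β : Finset ℂ) : Prop :=
  (AL S z0 q 0 107 111 β ∧ AR S z0 q 0 107 111 β) ∧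
    ((∃ l, HC S z0 (ed 1) (-(111 * q)) (111 * q) (107 * q) (111 * q) (2 * q) β l) ∧
      (∃ l, HC S z0 (ed 2) (-(111 * q)) (111 * q) (107 * q) (111 * q) (2 * q) β l) ∧
      ∃ l, HC S z0 (ed 3) (-(111 * q)) (111 * q) (107 * q) (111 * q) (2 * q) β l)

theorem ue_u1 (hq : 0 < q) (hp : 0 ≤ p) (hP : HP S (A1 S z0 q) z0 q p) :
    UE (A1 S z0 q) (ZZ (A1 S z0 q) z0 q) p 5 (U1 S z0 q) := by
  have nz : ∀ k < 4, ∀ s ∈ A1 S z0 q, 107 * q < Y z0 (ed k) s → Y z0 (ed k) s < 111 * q →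
      s ∉ ZZ (A1 S z0 q) z0 q := by
    intro k hk s _ h1 h2 hz
    obtain ⟨⟨-, m3, m4⟩, -⟩ := zz_coord hq hz hk (by linarith)
    linarith
  have el : UE (A1 S z0 q) (ZZ (A1 S z0 q) z0 q) p 1 (AL S z0 q 0 107 111) := by
    refine ue_hc hP (bq' hq (by norm_num)) (bq' hq (by norm_num)) (bq hq (by norm_num))
      (bq hq (by norm_num)) (by linarith)
      (by ring) (fun s hs b1 b2 b3 b4 => a1_of hq hs (by linarith) (by linarith) ?_)
      (fun s hs b1 b2 _ _ => nz 0 (by omega) s hs b1 b2)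
    rw [abs_le]; constructor <;> linarith
  have er : UE (A1 S z0 q) (ZZ (A1 S z0 q) z0 q) p 1 (AR S z0 q 0 107 111) := by
    refine ue_hc hP (bq hq (by norm_num)) (bq hq (by norm_num)) (bq hq (by norm_num))
      (bq hq (by norm_num)) (by linarith)
      (by ring) (fun s hs b1 b2 b3 b4 => a1_of hq hs (by linarith) (by linarith) ?_)
      (fun s hs b1 b2 _ _ => nz 0 (by omega) s hs b1 b2)
    rw [abs_le]; constructor <;> linarith
  have eb : ∀ k < 4, UE (A1 S z0 q) (ZZ (A1 S z0 q) z0 q) p 1 (fun β =>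
      ∃ l, HC S z0 (ed k) (-(111 * q)) (111 * q) (107 * q) (111 * q) (2 * q) β l) := by
    intro k hk
    refine ue_hc hP (bq' hq (by norm_num)) (bq hq (by norm_num)) (bq hq (by norm_num))
      (bq hq (by norm_num)) (by linarith)
      (by ring) (fun s hs b1 b2 b3 b4 => a1_of hq hs (by linarith) (by linarith) ?_)
      (fun s hs b1 b2 _ _ => nz k hk s hs b1 b2)
    rw [abs_le]; constructor <;> linarith
  exact (el.and hp er).and hp ((eb 1 (by norm_num)).and hp ((eb 2 (by norm_num)).and hp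
    (eb 3 (by norm_num))))

theorem vp1_pr (hq : 0 < q) (hS : GP (S : Set ℂ)) (hp : 0 ≤ p) (hP : HP S (A1 S z0 q) z0 q p) :
    p ^ 10 ≤ pr (A1 S z0 q) (VP1 S (A1 S z0 q) z0 q) := by
  have hD := dok (S := S) (z0 := z0) hq
  have hU := ue_u1 hq hp hP
  have hg := gateE_pr hq hS hp hP hD (k := 0) (by norm_num)
  have hZ : Zk (A1 S z0 q) z0 q 0 ⊆ A1 S z0 q := Finset.filter_subset _ _
  have dU : Dep (A1 S z0 q) (A1 S z0 q \ Zk (A1 S z0 q) z0 q 0) (U1 S z0 q) :=
    hU.dep.mono (Finset.sdiff_subset_sdiff subset_rfl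
      (fun s hs => mem_ZZ.2 ⟨0, by norm_num, hs⟩))
  have H := harris_mz hZ (Finset.empty_subset (A1 S z0 q)) (Finset.disjoint_empty_right _)
    (gate_mz (S := S) hq hD (k := 0) (by norm_num))
    (gate_dep (S := S) hq hD (k := 0) (W := A1 S z0 q \ ∅) (by norm_num)
      (fun s hs _ => Finset.mem_sdiff.2 ⟨hs, Finset.notMem_empty s⟩))
    (MZ.of_up (W := ∅) hU.up) dU
  calc p ^ 10 = p ^ 5 * p ^ 5 := by ring
    _ ≤ _ := mul_le_mul hg hU.le (by positivity) pr_nonneg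
    _ ≤ _ := H
    _ ≤ _ := pr_mono fun β _ h => ⟨h.1, h.2.1.1, h.2.1.2, by
      intro k hk
      simp only [Finset.mem_insert, Finset.mem_singleton] at hk
      rcases hk with rfl | rfl | rfl
      · exact h.2.2.1
      · exact h.2.2.2.1
      · exact h.2.2.2.2⟩

/-- there is a chain with one gate -/
def Has (S : Finset ℂ) (z0 : ℂ) (q : ℝ) (J : Finset (ℂ × ℂ)) : Prop := ∃ c g, G1 S z0 q J c g

theorem Has.congr {J' : Finset (ℂ × ℂ)} (h : Has S z0 q J)
    (hJ : ∀ p : ℂ × ℂ, DE S p.1 p.2 → p.1 ∈ A1 S z0 q → p.2 ∈ A1 S z0 q → (p ∈ J ↔ p ∈ J')) :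
    Has S z0 q J' := by
  obtain ⟨c, g, h⟩ := h
  refine ⟨c, g, h.loop, h.ann, h.wind, fun p hp hpJ => h.only p hp ?_⟩
  have i1 := h.ann _ (mem_of_prs hp).1
  have i2 := h.ann _ (mem_of_prs hp).2
  have hde := h.loop.del p hp
  rw [hJ p hde i1 i2, hJ p.swap hde.symm i2 i1]
  exact hpJ

theorem mem_flip {G : Trg ℂ} (hG : G.T = delT S) {p : ℂ × ℂ} (hde : DE S p.1 p.2) :
    p ∈ X0Bx683.flip G J β ↔ ¬ (p ∈ J ↔ ¬ (p.1 ∈ β ↔ p.2 ∈ β)) := by
  have h : (p.1, p.2) ∈ X0Bx683.bd G β ↔ _ := J8x872.mem_bd hG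
  unfold X0Bx683.flip
  rw [Finset.mem_symmDiff]
  have hA : Adj S p.1 p.2 := hde
  have h' : p ∈ X0Bx683.bd G β ↔ ¬ (p.1 ∈ β ↔ p.2 ∈ β) := by
    rw [show p = (p.1, p.2) from rfl, h]
    tauto
  rw [h']
  tauto

theorem has_dep {G : Trg ℂ} (hG : G.T = delT S) (J : Finset (ℂ × ℂ)) :
    Dep V (A1 S z0 q) (fun β => Has S z0 q (X0Bx683.flip G J β)) := by
  intro β _
  have key : ∀ p : ℂ × ℂ, DE S p.1 p.2 → p.1 ∈ A1 S z0 q → p.2 ∈ A1 S z0 q →
      (p ∈ X0Bx683.flip G J β ↔ p ∈ X0Bx683.flip G J (β ∩ A1 S z0 q)) := by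
    intro p hde h1 h2
    rw [mem_flip hG hde, mem_flip hG hde, Finset.mem_inter, Finset.mem_inter]
    tauto
  exact ⟨fun h => h.congr key, fun h => h.congr fun p a b c => (key p a b c).symm⟩

/-- **one annulus** -/
theorem has_pr {G : Trg ℂ} (hG : G.T = delT S) (hq : 0 < q) (hS : GP (S : Set ℂ)) (hp : 0 ≤ p)
    (hP : HP S (A1 S z0 q) z0 q p) {σ : Finset ℂ} (hσ : σ ⊆ A1 S z0 q) (hJ : JF1 S z0 q J σ) :
    p ^ 10 ≤ pr (A1 S z0 q) (fun β => Has S z0 q (X0Bx683.flip G J β)) := by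
  refine (vp1_pr hq hS hp hP).trans ?_
  rw [← pr_symm hσ (VP1 S (A1 S z0 q) z0 q)]
  refine pr_mono fun β hβ h => ?_
  have hsub : symmDiff β σ ⊆ A1 S z0 q := by
    intro x hx
    rcases Finset.mem_symmDiff.1 hx with h | h
    · exact hβ h.1
    · exact hσ h.1
  refine g1_exists hq hS hsub ?_ h
  intro p hde h1 h2
  rw [mem_flip hG hde, hJ p hde h1 h2, Finset.mem_symmDiff, Finset.mem_symmDiff]
  tauto

/-- **`n` annuli** -/
theorem no_gate {G : Trg ℂ} (hG : G.T = delT S) (hq : 0 < q) (hS : GP (S : Set ℂ)) (hp : 0 ≤ p)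
    {n : ℕ} (hP : ∀ j < n, HP S (A1 S z0 (2 ^ j * q)) z0 (2 ^ j * q) p)
    (hJ : ∀ j < n, ∃ σ : Finset ℂ, σ ⊆ A1 S z0 (2 ^ j * q) ∧ JF1 S z0 (2 ^ j * q) J σ)
    (hV : ∀ j < n, A1 S z0 (2 ^ j * q) ⊆ V) :
    pr V (fun β => ∀ j ∈ Finset.range n, ¬ Has S z0 (2 ^ j * q) (X0Bx683.flip G J β)) ≤
      (1 - p ^ 10) ^ n := by
  have hdis : ∀ i ∈ Finset.range n, ∀ j ∈ Finset.range n, i ≠ j →
      Disjoint (A1 S z0 (2 ^ i * q)) (A1 S z0 (2 ^ j * q)) := by
    have key : ∀ i j : ℕ, i < j → Disjoint (A1 S z0 (2 ^ i * q)) (A1 S z0 (2 ^ j * q)) := by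
      intro i j hij
      rw [Finset.disjoint_left]
      intro s h1 h2
      rw [mem_A1] at h1 h2
      have h3 : (2 : ℝ) ^ (i + 1) ≤ 2 ^ j := pow_le_pow_right₀ (by norm_num) hij
      rw [pow_succ] at h3
      have := mul_le_mul_of_nonneg_right h3 hq.le
      linarith [h1.2.2, h2.2.1]
    intro i _ j _ hij
    rcases lt_or_gt_of_ne hij with h | h
    · exact key i j h
    · exact (key j i h).symm
  rw [pr_indep_prod (Finset.range n) hdis (fun j _ => (has_dep hG J).not)]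
  have h1 : ∀ j ∈ Finset.range n,
      pr V (fun β => ¬ Has S z0 (2 ^ j * q) (X0Bx683.flip G J β)) ≤ 1 - p ^ 10 := by
    intro j hj
    rw [Finset.mem_range] at hj
    rw [pr_not, pr_dep (hV j hj) (has_dep hG J)]
    obtain ⟨σ, hσ, hJF⟩ := hJ j hj
    have := has_pr (J := J) hG (q := 2 ^ j * q) (by positivity) hS hp (hP j hj) hσ hJF
    linarith
  refine (Finset.prod_le_prod (fun j _ => pr_nonneg) h1).trans ?_
  rw [Finset.prod_const, Finset.card_range]

/-! ### the observable -/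

/-- value of the leg -/
def zt (N : Net ℂ) (t : ℂ × ℂ × ℂ) (J : Finset (ℂ × ℂ)) : ℂ :=
  ∑ k : ZMod 3, if Rk N t J k then omz k else 0

theorem norm_omz (k : ZMod 3) : ‖omz k‖ = 1 := by
  unfold omz om
  rw [norm_pow, Complex.norm_exp_ofReal_mul_I, one_pow]

theorem norm_zt (t : ℂ × ℂ × ℂ) (J : Finset (ℂ × ℂ)) : ‖zt N t J‖ ≤ 3 := by
  unfold zt
  refine (norm_sum_le _ _).trans ?_
  have h : ∀ k ∈ (Finset.univ : Finset (ZMod 3)), ‖(if Rk N t J k then omz k else 0 : ℂ)‖ ≤ 1 := by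
    intro k _
    split_ifs
    · rw [norm_omz]
    · rw [norm_zero]; exact zero_le_one
  refine (Finset.sum_le_sum h).trans ?_
  rw [Finset.sum_const, Finset.card_univ, ZMod.card]
  norm_num

theorem hh_zt (t : ℂ × ℂ × ℂ) : hh N t = (∑ J ∈ N.tj t, zt N t J) / ((N.tj t).card : ℂ) := by
  unfold hh zt
  congr 1
  rw [Finset.sum_comm]
  refine Finset.sum_congr rfl fun k _ => ?_
  rw [← Finset.sum_filter, Finset.sum_const, nsmul_eq_mul]

/-- network which is standard in the disc `B(z0, R)` -/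
structure Wd (S : Finset ℂ) (N : Net ℂ) (z0 : ℂ) (R d : ℝ) : Prop where
  hnet : HNet S N
  dns : LDns S z0 (R + d) d
  live : ∀ a b : ℂ, ‖a - z0‖ < R → (a, b) ∉ N.kl
  inner : ∀ a b : ℂ, ‖a - z0‖ < R → ¬ hullE S a b ∧ ¬ hullE S b a

variable {R d : ℝ}

theorem Wd.free (W : Wd S N z0 R d) : FreeS S N.kl (Fs S z0 R) := by
  intro s hs x
  have hs' : ‖s - z0‖ < R := (Finset.mem_filter.1 hs).2
  exact ⟨W.live s x hs', fun h' => W.live s x hs' (N.klsym x s h'), (W.inner s x hs').1,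
    (W.inner s x hs').2⟩

theorem a1_fs {n j : ℕ} (hq : 0 < q) (hR : 100 * (2 ^ n * q) ≤ R) (hj : j < n) :
    A1 S z0 (2 ^ j * q) ⊆ Fs S z0 R := by
  intro s hs
  obtain ⟨h1, -, h3⟩ := mem_A1.1 hs
  refine Finset.mem_filter.2 ⟨h1, h3.trans_le ?_⟩
  have h4 : (2 : ℝ) ^ (j + 1) ≤ 2 ^ n := pow_le_pow_right₀ (by norm_num) hj
  rw [pow_succ] at h4
  have := mul_le_mul_of_nonneg_right h4 hq.le
  linarith

/-- winding of a chain with one gate around the near triangles -/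
theorem G1.wind_gc {c : List ℂ} {g : ℂ × ℂ} (h : G1 S z0 q J c g) {T : ℂ × ℂ × ℂ}
    (hc : Cor z0 (100 * q) T) : asum (gc T) c = 2 * Real.pi := by
  have h1 := gc_near hc
  have h2 := (Complex.abs_re_le_norm (gc T - z0)).trans h1.le
  have h3 := (Complex.abs_im_le_norm (gc T - z0)).trans h1.le
  rw [Complex.sub_re] at h2
  rw [Complex.sub_im] at h3
  exact h.wind _ h2 h3

theorem has_le_one (hp : 0 ≤ p) (hP : HP S (A1 S z0 (2 ^ 0 * q)) z0 (2 ^ 0 * q) p)
    (hq : 0 < q) : p ^ 10 ≤ 1 := by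
  have hq' : 0 < 2 ^ 0 * q := by simpa using hq
  have h := (ue_u1 hq' hp hP).le.trans pr_le_one
  calc p ^ 10 = p ^ 5 * p ^ 5 := by ring
    _ ≤ 1 * 1 := mul_le_mul h h (by positivity) zero_le_one
    _ = 1 := by norm_num

/-- **the values of the observable at two triangles inside `n` annuli** -/
theorem hh_close (W : Wd S N z0 R d) (hq : 0 < q) (hd : d ≤ q) {n : ℕ} (hn : 0 < n)
    (hR : 100 * (2 ^ n * q) ≤ R) (hp : 0 ≤ p)
    (hP : ∀ j < n, HP S (A1 S z0 (2 ^ j * q)) z0 (2 ^ j * q) p) {t t' : ℂ × ℂ × ℂ}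
    (ht : t ∈ delT S) (ht' : t' ∈ delT S) (hx : InO' z0 t) (hc : Cor z0 (90 * q) t)
    (hc' : Cor z0 (90 * q) t') : ‖hh N t - hh N t'‖ ≤ 6 * (1 - p ^ 10) ^ n := by
  have H := W.hnet
  have hS := H.gp
  have hd0 := W.dns.dpos
  have h2n : (2 : ℝ) ≤ 2 ^ n := by
    calc (2 : ℝ) = 2 ^ 1 := by norm_num
      _ ≤ 2 ^ n := pow_le_pow_right₀ (by norm_num) hn
  have hRq : 200 * q ≤ R := by
    have := mul_le_mul_of_nonneg_right h2n hq.le
    linarith
  have hgood := good_of_hnet H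
  -- the reference path
  obtain ⟨gam, hg1, hg2⟩ := exists_gam H.tri W.dns W.live (r0 := 90 * q) (r := 94 * q) (by linarith)
    (by linarith) (by linarith) ht ht' hc hc'
  have hAT : ∀ u ∈ Af S z0 (94 * q), u ∈ N.T := fun u hu => by
    rw [H.tri]; exact (Finset.mem_filter.1 hu).1
  have hAc : ∀ u ∈ Af S z0 (94 * q), Cor z0 (94 * q) u := fun u hu => (Finset.mem_filter.1 hu).2
  have hgn : ∀ p ∈ gam, ‖p.1 - z0‖ < 94 * q ∧ ‖p.2 - z0‖ < 94 * q := by
    intro p hp
    obtain ⟨u, hu, he⟩ := hg1 p hp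
    exact sd_near hAc hu he
  have hpth := hg2 N.toTrg N.kl hAT (fun u hu e he => by
    have := (sd_near hAc hu he).1
    exact W.live e.1 e.2 (by linarith))
  have hav : ∀ x ∈ N.exS, x ∉ gam := by
    rintro x ⟨k, rfl⟩
    refine JCardx872.avoid_bdry hpth _ _ fun c => ?_
    rw [H.tri]
    exact (H.hex k).2 c
  set T : Finset (ℂ × ℂ) → Finset (ℂ × ℂ) := fun J => symmDiff J gam with hT
  have hTT : ∀ J, T (T J) = J := fun J => by rw [hT]; exact symmDiff_symmDiff_cancel_right _ _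
  have hm : ∀ J, J ∈ N.tj t → T J ∈ N.tj t' := by
    intro J hJ
    have h := JCardx872.xor_isJoin hpth hav (tj_join hJ)
    rw [symmDiff_symmDiff_cancel_left, symmDiff_comm] at h
    exact JCardx872.mem_joins.2 h
  have hm' : ∀ J, J ∈ N.tj t' → T J ∈ N.tj t := by
    intro J hJ
    have h := JCardx872.xor_isJoin hpth hav (tj_join hJ)
    rw [symmDiff_comm (rots t), symmDiff_symmDiff_cancel_left, symmDiff_comm] at h
    exact JCardx872.mem_joins.2 h
  have hcard : (N.tj t).card = (N.tj t').card :=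
    Finset.card_bij' (fun J _ => T J) (fun J _ => T J) hm hm' (fun J _ => hTT J) (fun J _ => hTT J)
  have hsum : ∑ J ∈ N.tj t', zt N t' J = ∑ J ∈ N.tj t, zt N t' (T J) :=
    Finset.sum_bij' (fun J _ => T J) (fun J _ => T J) hm' hm (fun J _ => hTT J) (fun J _ => hTT J)
      (fun J _ => by rw [hTT])
  -- good joins
  set B : Finset (ℂ × ℂ) → Prop := fun J => ∀ j ∈ Finset.range n, ¬ Has S z0 (2 ^ j * q) J with hB
  have hgoodJ : ∀ J ∈ N.tj t, ¬ B J → zt N t J = zt N t' (T J) := by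
    intro J hJ hnB
    rw [hB] at hnB
    push Not at hnB
    obtain ⟨j, hjr, c, g, hG⟩ := hnB
    rw [Finset.mem_range] at hjr
    have h1j : (1 : ℝ) ≤ 2 ^ j := one_le_pow₀ (by norm_num)
    have hqj : q ≤ 2 ^ j * q := le_mul_of_one_le_left hq.le h1j
    have hA1 : ∀ s ∈ c, 100 * q ≤ ‖s - z0‖ := fun s hs => by
      have := (mem_A1.1 (hG.ann s hs)).2.1
      linarith
    have hnotg : ∀ p ∈ prs c, p ∉ gam ∧ p.swap ∉ gam := by
      intro p hp
      have i1 := hA1 _ (mem_of_prs hp).1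
      have i2 := hA1 _ (mem_of_prs hp).2
      exact ⟨fun h => by linarith [(hgn _ h).1], fun h => by
        have : ‖p.2 - z0‖ < 94 * q := (hgn _ h).1
        linarith⟩
    have hGt : Gt1 S J c g := ⟨hG.loop, fun s hs => (mem_A1.1 (hG.ann s hs)).1,
      fun p hp h => Or.inl (hG.only p hp h)⟩
    have hmono : ∀ {T : ℂ × ℂ × ℂ} {r : ℝ}, Cor z0 r T → r ≤ 100 * (2 ^ j * q) →
        asum (gc T) c ≠ 0 := by
      intro T r hT hr
      have hT' : Cor z0 (100 * (2 ^ j * q)) T :=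
        ⟨hT.1.trans_le hr, hT.2.1.trans_le hr, hT.2.2.trans_le hr⟩
      rw [G1.wind_gc hG hT']
      exact (by positivity : (0 : ℝ) < 2 * Real.pi).ne'
    have hex : ∀ k, Avoid c (N.ex k) := by
      intro k
      have hh := H.hex k
      have key : ∀ p ∈ prs c, ¬ hullE S p.1 p.2 ∧ ¬ hullE S p.2 p.1 := by
        intro p hp
        have i1 := (mem_A1.1 (hG.ann _ (mem_of_prs hp).1)).2.2
        exact W.inner p.1 p.2 (Finset.mem_filter.1 (a1_fs hq hR hjr
          (hG.ann _ (mem_of_prs hp).1))).2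
      exact ⟨fun h => (key _ h).1 hh, fun h => (key _ h).2 hh⟩
    have hiff : ∀ k, Rk N t J k ↔ Rk N t' (T J) k := by
      intro k
      refine rk_iff H ht ht' hJ (hm J hJ) hGt (fun p hp => ?_) hex (hmono hc (by linarith))
        (hmono hc' (by linarith)) (fun a b x habx h0 => ?_) k
      · have := hnotg p hp
        rw [hT]
        simp only [Finset.mem_symmDiff]
        tauto
      · have hab : (a, b) ∉ gam := by
          intro h
          obtain ⟨n1, n2⟩ := hgn _ h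
          simp only at n1 n2
          refine hmono (T := (a, b, x)) (r := 97 * q) ⟨?_, ?_, ?_⟩ (by linarith) h0
          · simp only; linarith
          · simp only; linarith
          · simp only
            have h3 := Gax950.adj_len W.dns (ρ := R) le_rfl (a := a) (b := x)
              (adj_tri'' hS habx).symm (by linarith)
            have : x - z0 = (x - a) + (a - z0) := by ring
            rw [this]
            refine (norm_add_le _ _).trans_lt ?_
            linarith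
        rw [hT]
        simp only [Finset.mem_symmDiff]
        tauto
    unfold zt
    refine Finset.sum_congr rfl fun k _ => ?_
    simp only [hiff k]
  -- probability
  have hbad : (((N.tj t).filter B).card : ℝ) ≤ (N.tj t).card * (1 - p ^ 10) ^ n := by
    have hct : (((N.tj t).filter B).card : ℝ) =
        ∑ J ∈ N.tj t, pr (Fs S z0 R) (fun β => B (X0Bx683.flip N.toTrg J β)) := by
      convert card_tj H W.free t B
    rw [hct]
    have h1 : ∀ J ∈ N.tj t, pr (Fs S z0 R) (fun β => B (X0Bx683.flip N.toTrg J β)) ≤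
        (1 - p ^ 10) ^ n := by
      intro J hJ
      refine no_gate H.tri hq hS hp hP (fun j hj => ?_) (fun j hj => a1_fs hq hR hj)
      have h1j : (1 : ℝ) ≤ 2 ^ j := one_le_pow₀ (by norm_num)
      have hqj : q ≤ 2 ^ j * q := le_mul_of_one_le_left hq.le h1j
      have h4 : (2 : ℝ) ^ (j + 1) ≤ 2 ^ n := pow_le_pow_right₀ (by norm_num) hj
      rw [pow_succ] at h4
      have h5 := mul_le_mul_of_nonneg_right h4 hq.le
      have h6 : 200 * (2 ^ j * q) ≤ R := by linarith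
      exact jf1_exists H ht hx hJ (by positivity) W.dns (by linarith) (by linarith)
        (fun a b hab => W.inner a b (by linarith))
    refine (Finset.sum_le_sum h1).trans ?_
    rw [Finset.sum_const, nsmul_eq_mul]
  -- conclusion
  rcases Nat.eq_zero_or_pos (N.tj t).card with h0 | h0
  · rw [hh_zt, hh_zt, ← hcard, h0]
    simp only [Nat.cast_zero, div_zero, sub_self, norm_zero]
    have : p ^ 10 ≤ 1 := has_le_one hp (hP 0 hn) hq
    have : 0 ≤ 1 - p ^ 10 := by linarith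
    positivity
  · rw [hh_zt, hh_zt, ← hcard, hsum, ← sub_div, ← Finset.sum_sub_distrib, norm_div,
      Complex.norm_natCast, div_le_iff₀ (by exact_mod_cast h0)]
    refine (norm_sum_le _ _).trans ?_
    have h1 : ∀ J ∈ N.tj t, ‖zt N t J - zt N t' (T J)‖ ≤ if B J then 6 else 0 := by
      intro J hJ
      split_ifs with h
      · have a1 := norm_zt (N := N) t J
        have a2 := norm_zt (N := N) t' (T J)
        have a3 := norm_sub_le (zt N t J) (zt N t' (T J))
        linarith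
      · rw [hgoodJ J hJ h, sub_self, norm_zero]
    refine (Finset.sum_le_sum h1).trans ?_
    rw [← Finset.sum_filter, Finset.sum_const, nsmul_eq_mul]
    nlinarith

end Crest.Agent.R143.EQE3x63
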