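import Crest.Agent.R143.StrB_117
import Crest.Agent.R143.Uniq_323
import Crest.Agent.R143.R5q_166

-- ▼ part R143/RootJ_117
section

/-!
# Row 143 (S0194), part B without E3: the root gap at a gate (helper117)

* `ink_last` : the last visit of the first left cell of an arc is a gap of the block path
* `Str.root` : a gap of the block path of the strand whose old cell is the left cell of the gate `j`
* `Str.root_cm0` : the same for the strand of a corridor on `cm0 hS`
-/

set_option autoImplicit false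

noncomputable section

open scoped Classical

namespace Crest.Agent.R143.StrBx117

open Crest.Agent.R143.B0x346 Crest.Agent.R143.DelGx806 Crest.Agent.R143.DelRx806
  Crest.Agent.R143.JColx54
open Crest.Agent.R143.Frame1x395 Crest.Agent.R143.Frame2x395 Crest.Agent.R143.Frame3x395
  Crest.Agent.R143.Frame4x395 Crest.Agent.R143.Frame8x395 Crest.Agent.R143.Frame9x395
  Crest.Agent.R143.Frame10x395 Crest.Agent.R143.Frame11x395
open Crest.Agent.R143.Splx117 Crest.Agent.R143.WLocx713 Crest.Agent.R143.RingDx117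
  Crest.Agent.R143.CorrDx117

section cm

variable {D C : Type} {M : CMap D C} {x : D → ZMod 2} {N : ℕ} {q p : D}

/-- **the last visit of the first left cell** of the arc `[A, B]` is a gap of the block path -/
theorem ink_last [Finite D] (L : Lp M x p N) {A B : ℕ} (h1 : A ≤ B) (h2 : B < A + N)
    (hne : lc M x p A ≠ lc M x p B) :
    ∃ i, InK M x p A B i ∧ lc M x p i = lc M x p A ∧
      ∀ j, i < j → j ≤ B → lc M x p j ≠ lc M x p A := by
  have hlt : A < B := by
    rcases h1.lt_or_eq with h | h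
    · exact h
    · exact absurd (by rw [h]) hne
  obtain ⟨i, a1, a2, a3, a4⟩ := last_time (Q := fun i => lc M x p i = lc M x p A) hlt rfl
    (fun e => hne e.symm)
  refine ⟨i, ⟨a1, a2, L.gap_of_ne ?_, fun j l b1 b2 b3 b4 e => ?_⟩, a3, a4⟩
  · rw [a3]
    exact a4 (i + 1) (by omega) (by omega)
  · have c1 : lc M x p l ≠ lc M x p A := a4 l b3 b4
    have c2 : lc M x p j ≠ lc M x p A := by rw [e]; exact c1
    have c3 : j ≠ A := by rintro rfl; exact c2 rfl
    have c4 : j ≠ i := by rintro rfl; exact c2 a3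
    have hit : ∀ n, (stp M x)^[n] ((stp M x)^[A] p) = (stp M x)^[n + A] p := fun n => by
      rw [← Function.iterate_add_apply]
    apply c2
    have := NonXx592.noncross L.even (p := (stp M x)^[A] p) (L.st A) (k := j - A) (j := i - A)
      (l := l - A) (by omega) (by omega) (by omega) (fun a b hab hb => by
        show (stp M x)^[a] _ ≠ (stp M x)^[b] _
        rw [hit, hit]
        exact L.ne (by omega) (by omega))
      (by
        show M.cell ((stp M x)^[i - A] _) = _
        rw [hit, show i - A + A = i by omega]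
        exact a3)
      (by
        show M.cell ((stp M x)^[j - A] _) = M.cell ((stp M x)^[l - A] _)
        rw [hit, hit, show j - A + A = j by omega, show l - A + A = l by omega]
        exact e)
    change M.cell ((stp M x)^[j - A] _) = _ at this
    rw [hit, show j - A + A = j by omega] at this
    exact this

variable {n : ℕ} {Rs : Set D} {P : ℕ → D} {R : ℕ → Set D} {T : ℕ → ℕ}

/-- **a root gap at the gate `j`** -/
theorem Str.root [Finite D] (A : Str M x n Rs P R q N T) {j : ℕ} (h1 : j + 1 < n)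
    (hne : lc M x q (T j) ≠ lc M x q (T (j + 1))) :
    ∃ r, T j ≤ r ∧ r < T (j + 1) ∧ InK M x q 0 (T n) r ∧ lc M x q r = lc M x q (T j) ∧
      ∀ i, r < i → i ≤ T (j + 1) → lc M x q i ≠ lc M x q (T j) := by
  have hTn : T (j + 1) ≤ T n := mono_of (a := 0) (b := n) (fun k _ h => A.mono k h)
    (Nat.zero_le _) (by omega) le_rfl
  have hN := A.TN
  obtain ⟨r, a1, a2, a3⟩ := ink_last A.lp (A.mono j (by omega)) (by omega) hne
  exact ⟨r, a1.lo, a1.hi, (A.ink (by omega) a1.lo a1.hi).2 a1, a2, a3⟩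

end cm

section dc

variable {S : Finset ℂ} {χ : ℂ → ZMod 2} {hS : GP (S : Set ℂ)} {hχ : HullC S χ} {n N : ℕ}
  {y z : ℕ → ℂ} {A B : ℕ → Set ℂ} {p : ℕ → D0 S} {Rs : Set (D0 S)} {q : D0 S} {T : ℕ → ℕ}

/-- **the root gap of the corridor at the gate `n - j`**: its old left cell is the neck -/
theorem root_cm0 (R : DCorr hS hχ n y z A B p)
    (H : Str (cm0 hS) (xc hS hχ) n Rs (fun k => p (n - k)) (fun k => RD S (B (n - 1 - k))) q N T)
    {j : ℕ} (h0 : 0 < j) (h1 : j + 1 < n) :
    ∃ r, T j ≤ r ∧ r < T (j + 1) ∧ InK (cm0 hS) (xc hS hχ) q 0 (T n) r ∧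
      lc (cm0 hS) (xc hS hχ) q r = Quot.mk _ (y (n - j)) ∧
      (stp (cm0 hS) (xc hS hχ))^[r] q ∈ RD S (B (n - 1 - j)) ∧
      (stp (cm0 hS) (xc hS hχ))^[r + 1] q ∈ RD S (B (n - 1 - j)) := by
  have c : ∀ k, 0 < k → k < n → lc (cm0 hS) (xc hS hχ) q (T k) = Quot.mk _ (y (n - k)) := by
    intro k h2 h3
    unfold lc
    rw [H.at_ k h2 h3]
    exact R.cell (by omega)
  have inn : ¬ OnHull S (y (n - j)) := by
    have h2 := R.innA (n - j - 1) (by omega) (y (n - j)) (R.yS (by omega)) (by
      have := R.mem1 (n - j - 1) (by omega)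
      rwa [show n - j - 1 + 1 = n - j by omega] at this)
    exact h2
  have hne : lc (cm0 hS) (xc hS hχ) q (T j) ≠ lc (cm0 hS) (xc hS hχ) q (T (j + 1)) := by
    rw [c j h0 (by omega), c (j + 1) (by omega) h1]
    intro e
    have h2 := quot_inner hS inn e
    have h3 := R.ne (n - (j + 1)) (by omega)
    rw [show n - (j + 1) + 1 = n - j by omega] at h3
    exact h3 h2
  obtain ⟨r, a1, a2, a3, a4, -⟩ := H.root h1 hne
  refine ⟨r, a1, a2, a3, a4.trans (c j h0 (by omega)), ?_, ?_⟩
  · exact H.arc j (by omega) r a1 a2.le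
  · exact H.arc j (by omega) (r + 1) (by omega) (by omega)

end dc

end Crest.Agent.R143.StrBx117
end
end

-- ▼ part R143/EvG_117

/-!
# Row 143 (S0194), part B without E3: the strand of a corridor is an out strand (helper117)

* `strd_of` : `StrBx117.Str` (strand of the corridor in the fixed region) + zones + column ==>
  `Uniqx323.Strd` (the event of the family of out strands)
-/

set_option autoImplicit false

noncomputable section

open scoped Classical

namespace Crest.Agent.R143.EvGx117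

open Crest.Agent.R143.Frame1x395 Crest.Agent.R143.Frame2x395 Crest.Agent.R143.Frame3x395
  Crest.Agent.R143.Frame4x395 Crest.Agent.R143.Frame8x395 Crest.Agent.R143.Frame9x395
  Crest.Agent.R143.NonXx592 Crest.Agent.R143.Coarsex166
open Crest.Agent.R143.Splx117 Crest.Agent.R143.StrBx117 Crest.Agent.R143.Uniqx323
  Crest.Agent.R143.K33x137

variable {D C : Type} [Fintype D] {M : CMap D C} {χ : C → ZMod 2} {N : ℕ} {q : D} {Z : Zn M}
  {n : ℕ} {p : ℕ → D} {R : ℕ → Set D} {T : ℕ → ℕ}

/-- states with both cells in `A` -/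
def Rd (M : CMap D C) (A : Set C) : Set D := {d | M.cell d ∈ A ∧ Rc M d ∈ A}

omit [Fintype D] in
/-- the new cell of the face between two consecutive states -/
theorem third_next {x : D → ZMod 2} (h : IsC M ∅ x) {d : D} (hd : x d = 1) {A : Set C}
    (h1 : d ∈ Rd M A) (h2 : stp M x d ∉ Rd M A) :
    M.cell (M.rho (M.rho d)) ∉ A ∧
      (M.cell (M.rho (M.rho d)) = M.cell (stp M x d) ∨ M.cell (M.rho (M.rho d)) = Rc M (stp M x d)) := by
  rcases stp_cases h hd (Set.notMem_empty _) with ⟨h3, h4, e⟩ | ⟨h3, h4, e⟩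
  · have hl := h.lv h3
    have c1 : M.cell (stp M x d) = M.cell (M.rho (M.rho d)) := by rw [e, M.cell_iota _ hl]
    have c2 : Rc M (stp M x d) = Rc M d := by
      show M.cell (M.rho (stp M x d)) = _
      rw [e, cell_rho_iota M hl]
    refine ⟨fun hc => h2 ⟨by rw [c1]; exact hc, by rw [c2]; exact h1.2⟩, Or.inl c1.symm⟩
  · have hl := h.lv h4
    have c1 : M.cell (stp M x d) = M.cell d := by rw [e, M.cell_iota _ hl, M.rho3]
    have c2 : Rc M (stp M x d) = M.cell (M.rho (M.rho d)) := by
      show M.cell (M.rho (stp M x d)) = _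
      rw [e, cell_rho_iota M hl]
    refine ⟨fun hc => h2 ⟨by rw [c1]; exact h1.1, by rw [c2]; exact hc⟩, Or.inr c2.symm⟩

omit [Fintype D] in
/-- the third cell of the face behind a state is a cell of the previous state -/
theorem third_prev {x : D → ZMod 2} (h : IsC M ∅ x) {d : D} (hd : x d = 1) {A : Set C}
    (h1 : stp M x d ∈ Rd M A) (h2 : d ∉ Rd M A) :
    M.cell (M.rho (M.rho (M.iota (stp M x d)))) ∉ A ∧
      (M.cell (M.rho (M.rho (M.iota (stp M x d)))) = M.cell d ∨
        M.cell (M.rho (M.rho (M.iota (stp M x d)))) = Rc M d) := by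
  rcases stp_cases h hd (Set.notMem_empty _) with ⟨h3, h4, e⟩ | ⟨h3, h4, e⟩
  · have hl := h.lv h3
    have c2 : Rc M (stp M x d) = Rc M d := by
      show M.cell (M.rho (stp M x d)) = _
      rw [e, cell_rho_iota M hl]
    have e2 : M.cell (M.rho (M.rho (M.iota (stp M x d)))) = M.cell d := by
      rw [e, M.iota2, M.rho3]
    rw [e2]
    exact ⟨fun hc => h2 ⟨hc, by rw [← c2]; exact h1.2⟩, Or.inl rfl⟩
  · have hl := h.lv h4
    have c1 : M.cell (stp M x d) = M.cell d := by rw [e, M.cell_iota _ hl, M.rho3]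
    have e2 : M.cell (M.rho (M.rho (M.iota (stp M x d)))) = Rc M d := by
      rw [e, M.iota2, M.rho3]
    rw [e2]
    exact ⟨fun hc => h2 ⟨by rw [← c1]; exact h1.1, hc⟩, Or.inr rfl⟩

/-- **the strand of the corridor is an out strand** -/
theorem strd_of {b : ZMod 2}
    (A : Str M (cfg M χ) n (Rd M Z.R) p R q N T) (hb : χ (M.cell q) = b)
    (h0 : ∀ d ∈ R 0, ∀ c, (c = M.cell d ∨ c = Rc M d) → c ∉ Z.R → c ∈ Z.E)
    (h1 : ∀ d ∈ R (n - 1), ∀ c, (c = M.cell d ∨ c = Rc M d) → c ∉ Z.R → c ∈ Z.W)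
    (hcol : ∃ j ≤ T n, ∃ t ∈ Z.T, Lk M ({c | c ∈ Z.K ∧ χ c = b + 1} ∪ Z.T)
      (Rc M (P M (cfg M χ) q j)) t) : Strd M Z b χ q (T n) where
  bl := hb
  occ := A.lp.occ
  ent := by
    have hx : IsC M ∅ (cfg M χ) := cfg_isC χ
    have hN := A.lp.pos
    have e : stp M (cfg M χ) ((stp M (cfg M χ))^[N - 1] q) = q := by
      rw [← Function.iterate_succ_apply' (stp M (cfg M χ)), show (N - 1).succ = N by omega]
      exact A.lp.per
    have h2 := third_prev hx (A.lp.st (N - 1)) (A := Z.R) (by rw [e]; exact A.mem 0 (Nat.zero_le _))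
      A.bef
    rw [e] at h2
    exact h0 _ A.befR _ h2.2 h2.1
  inl := fun j hj => (A.mem j hj).1
  inr := fun j hj => (A.mem j hj).2
  ext := by
    have hx : IsC M ∅ (cfg M χ) := cfg_isC χ
    have e : stp M (cfg M χ) ((stp M (cfg M χ))^[T n] q) = (stp M (cfg M χ))^[T n + 1] q := by
      rw [Function.iterate_succ_apply']
    have h2 := third_next hx (A.lp.st (T n)) (A := Z.R) (A.mem (T n) le_rfl)
      (by rw [e]; exact A.aft)
    rw [e] at h2
    exact h1 _ A.aftR _ h2.2 h2.1
  col := hcol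

end Crest.Agent.R143.EvGx117
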