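import Crest.Agent.R143.Scal_63
import Crest.Agent.R143.Rsw_63

/-!
# Row 143 (S0194), leaf FAM : weighted finite families of curves (helper930)

* `fam_real` : for a parameter interval `[α, β]` and finitely many sets `M t` of parameters with
  diameter `≤ d t` : a finite family of parameters with weights such that `cw t ≤ d t / (β - α)`
* `GFam` : the family for a one-parameter family of curves `C h` and the closed triangles `cT t`
* `par_fam` (F1), `sec_fam` (F2), `arc_fam` (F3) : parallel segments, rays in a sector, arcs of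
  concentric circles; the sums of squares
* `GFam.conn`, `GFam.kill` : the walks along the curves
-/

set_option autoImplicit false

noncomputable section

namespace Crest.Agent.R143.Famx930

open Set MeasureTheory
open scoped Classical
open Crest.Agent.R143.B0x346 Crest.Agent.R143.Oscx63 Crest.Agent.R143.DelGx806
open Crest.Agent.R143.Circx63 Crest.Agent.R143.Scalx63 Crest.Agent.R143.Rswx63

/-! ### the abstract family -/

section abs

variable {τ : Type}

/-- the interval hull of the parameters in `[α, β]` -/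
def hull (M : Set ℝ) (α β : ℝ) : Set ℝ :=
  if (M ∩ Icc α β).Nonempty then Icc (sInf (M ∩ Icc α β)) (sSup (M ∩ Icc α β)) else ∅

theorem hull_meas (M : Set ℝ) (α β : ℝ) : MeasurableSet (hull M α β) := by
  unfold hull
  split_ifs
  · exact measurableSet_Icc
  · exact MeasurableSet.empty

theorem sub_hull {M : Set ℝ} {α β x : ℝ} (h : x ∈ M) (hx : x ∈ Icc α β) : x ∈ hull M α β := by
  have hne : (M ∩ Icc α β).Nonempty := ⟨x, h, hx⟩
  unfold hull
  rw [if_pos hne]
  exact ⟨csInf_le ⟨α, fun y hy => hy.2.1⟩ ⟨h, hx⟩, le_csSup ⟨β, fun y hy => hy.2.2⟩ ⟨h, hx⟩⟩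

theorem hull_vol {M : Set ℝ} {α β d : ℝ}
    (hd : ∀ p ∈ M ∩ Icc α β, ∀ q ∈ M ∩ Icc α β, p - q ≤ d) :
    (volume : Measure ℝ) (hull M α β) ≤ ENNReal.ofReal d := by
  unfold hull
  split_ifs with hne
  · rw [Real.volume_Icc]
    apply ENNReal.ofReal_le_ofReal
    have h1 : sSup (M ∩ Icc α β) ≤ d + sInf (M ∩ Icc α β) := by
      apply csSup_le hne
      intro p hp
      have h2 : p - d ≤ sInf (M ∩ Icc α β) := by
        apply le_csInf hne
        intro q hq
        linarith [hd p hp q hq]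
      linarith
    linarith
  · simp

/-- **the abstract family** -/
theorem fam_real (U : Finset τ) (M : τ → Set ℝ) (d : τ → ℝ) {α β : ℝ} (hαβ : α < β)
    (hd0 : ∀ t ∈ U, 0 ≤ d t)
    (hd : ∀ t ∈ U, ∀ p ∈ M t ∩ Icc α β, ∀ q ∈ M t ∩ Icc α β, p - q ≤ d t)
    (bad : Set ℝ) (hbad : bad.Countable) :
    ∃ (J : Finset (Finset τ)) (lam : Finset τ → ℝ) (p : Finset τ → ℝ),
      (∀ s ∈ J, 0 ≤ lam s) ∧ ∑ s ∈ J, lam s = 1 ∧
      (∀ s ∈ J, s ⊆ U ∧ p s ∈ Icc α β ∧ p s ∉ bad ∧ (∀ t ∈ U, p s ∈ M t → t ∈ s) ∧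
        ∀ t ∈ s, (M t ∩ Icc α β).Nonempty) ∧
      ∀ t ∈ U, cw J lam (fun s => s) t ≤ d t / (β - α) := by
  have hβα : 0 < β - α := sub_pos.2 hαβ
  set X : Set ℝ := Icc α β \ bad with hX
  have hXm : MeasurableSet X := measurableSet_Icc.diff hbad.measurableSet
  have hXv : (volume : Measure ℝ).real X = β - α := by
    rw [Measure.real, hX, measure_sdiff_null (hbad.measure_zero _), Real.volume_Icc,
      ENNReal.toReal_ofReal hβα.le]
  have hXfin : (volume : Measure ℝ) X ≠ ⊤ := by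
    refine ne_top_of_le_ne_top ?_ (measure_mono (sdiff_subset : X ⊆ Icc α β))
    rw [Real.volume_Icc]
    exact ENNReal.ofReal_ne_top
  set g : ℝ → Finset τ := fun x => U.filter fun t => x ∈ hull (M t) α β with hg
  have hgm : ∀ s : Finset τ, MeasurableSet (g ⁻¹' {s}) := by
    intro s
    by_cases hs : s ⊆ U
    · have : g ⁻¹' {s} = ⋂ t ∈ U, if t ∈ s then hull (M t) α β else (hull (M t) α β)ᶜ := by
        ext x
        simp only [mem_preimage, mem_singleton_iff, hg, mem_iInter]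
        constructor
        · intro h t ht
          split_ifs with hts
          · rw [← h] at hts
            exact (Finset.mem_filter.mp hts).2
          · intro hx
            exact hts (by rw [← h]; exact Finset.mem_filter.mpr ⟨ht, hx⟩)
        · intro h
          ext t
          rw [Finset.mem_filter]
          constructor
          · rintro ⟨ht, hx⟩
            have := h t ht
            by_contra hts
            rw [if_neg hts] at this
            exact this hx
          · intro hts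
            have := h t (hs hts)
            rw [if_pos hts] at this
            exact ⟨hs hts, this⟩
      rw [this]
      apply Finset.measurableSet_biInter
      intro t _
      split_ifs
      · exact hull_meas _ _ _
      · exact (hull_meas _ _ _).compl
    · have : g ⁻¹' {s} = ∅ := by
        ext x
        simp only [mem_preimage, mem_singleton_iff, mem_empty_iff_false, iff_false]
        intro h
        apply hs
        rw [← h]
        exact Finset.filter_subset _ _
      rw [this]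
      exact MeasurableSet.empty
  set At : Finset τ → Set ℝ := fun s => g ⁻¹' {s} ∩ X with hAt
  have hAm : ∀ s, MeasurableSet (At s) := fun s => (hgm s).inter hXm
  have hAfin : ∀ s, (volume : Measure ℝ) (At s) ≠ ⊤ := fun s =>
    ne_top_of_le_ne_top hXfin (measure_mono inter_subset_right)
  have hdisj : ∀ K : Finset (Finset τ), (K : Set (Finset τ)).PairwiseDisjoint At := by
    intro K s _ s' _ hss
    rw [Function.onFun, Set.disjoint_left]
    rintro x ⟨h1, _⟩ ⟨h2, _⟩
    simp only [mem_preimage, mem_singleton_iff] at h1 h2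
    exact hss (h1.symm.trans h2)
  have hsum : ∀ K : Finset (Finset τ), ∑ s ∈ K, (volume : Measure ℝ).real (At s) =
      (volume : Measure ℝ).real (⋃ s ∈ K, At s) := by
    intro K
    rw [measureReal_biUnion_finset (hdisj K) (fun s _ => hAm s) (fun s _ => hAfin s)]
  set J : Finset (Finset τ) := U.powerset.filter fun s => (At s).Nonempty with hJ
  have hJU : (⋃ s ∈ J, At s) = X := by
    ext x
    simp only [mem_iUnion]
    constructor
    · rintro ⟨s, _, hx⟩
      exact hx.2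
    · intro hx
      refine ⟨g x, ?_, rfl, hx⟩
      rw [hJ, Finset.mem_filter, Finset.mem_powerset]
      exact ⟨Finset.filter_subset _ _, x, rfl, hx⟩
  refine ⟨J, fun s => (volume : Measure ℝ).real (At s) / (β - α),
    fun s => if h : (At s).Nonempty then h.choose else 0, ?_, ?_, ?_, ?_⟩
  · intro s _
    positivity
  · rw [← Finset.sum_div, hsum, hJU, hXv, div_self hβα.ne']
  · intro s hs
    rw [hJ, Finset.mem_filter, Finset.mem_powerset] at hs
    obtain ⟨hsU, hne⟩ := hs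
    simp only [dif_pos hne]
    obtain ⟨h1, h2⟩ := hne.choose_spec
    set x := hne.choose
    simp only [mem_preimage, mem_singleton_iff] at h1
    refine ⟨hsU, h2.1, h2.2, ?_, ?_⟩
    · intro t ht hxt
      rw [← h1]
      exact Finset.mem_filter.mpr ⟨ht, sub_hull hxt h2.1⟩
    · intro t ht
      rw [← h1] at ht
      have h3 := (Finset.mem_filter.mp ht).2
      unfold hull at h3
      split_ifs at h3 with h4
      · exact h4
      · exact h3.elim
  · intro t ht
    have h1 : cw J (fun s => (volume : Measure ℝ).real (At s) / (β - α)) (fun s => s) t =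
        (volume : Measure ℝ).real (⋃ s ∈ J.filter (fun s => t ∈ s), At s) / (β - α) := by
      rw [cw, ← Finset.sum_div, ← hsum]
    rw [h1]
    apply div_le_div_of_nonneg_right _ hβα.le
    have h2 : (⋃ s ∈ J.filter (fun s => t ∈ s), At s) ⊆ hull (M t) α β := by
      intro x hx
      simp only [mem_iUnion, Finset.mem_filter] at hx
      obtain ⟨s, ⟨_, hts⟩, hxs, _⟩ := hx
      simp only [mem_preimage, mem_singleton_iff] at hxs
      rw [← hxs] at hts
      exact (Finset.mem_filter.mp hts).2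
    rw [Measure.real]
    exact ENNReal.toReal_le_of_le_ofReal (hd0 t ht)
      ((measure_mono h2).trans (hull_vol (hd t ht)))

end abs

/-! ### families of curves -/

/-- the family for the curves `C h`, `h ∈ [α, β]` -/
structure GFam (U : Finset (ℂ × ℂ × ℂ)) (S : Finset ℂ) (C : ℝ → Set ℂ) (α β : ℝ)
    (J : Finset (Finset (ℂ × ℂ × ℂ))) (lam : Finset (ℂ × ℂ × ℂ) → ℝ)
    (p : Finset (ℂ × ℂ × ℂ) → ℝ) : Prop where
  nn : ∀ s ∈ J, 0 ≤ lam s
  sum : ∑ s ∈ J, lam s = 1
  sub : ∀ s ∈ J, s ⊆ U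
  mem : ∀ s ∈ J, p s ∈ Icc α β
  off : ∀ s ∈ J, ∀ y ∈ C (p s), y ∉ S
  hit : ∀ s ∈ J, ∀ t ∈ U, (cT t ∩ C (p s)).Nonempty → t ∈ s
  meet : ∀ s ∈ J, ∀ t ∈ s, ∃ h ∈ Icc α β, (cT t ∩ C h).Nonempty

section GFam

variable {U : Finset (ℂ × ℂ × ℂ)} {S : Finset ℂ} {C : ℝ → Set ℂ} {α β : ℝ}
  {J : Finset (Finset (ℂ × ℂ × ℂ))} {lam : Finset (ℂ × ℂ × ℂ) → ℝ}
  {p : Finset (ℂ × ℂ × ℂ) → ℝ}

theorem GFam.fam (h : GFam U S C α β J lam p) (hh Q : ℂ × ℂ × ℂ → ℂ) :
    Fam U hh Q J lam (fun s => s) := ⟨h.nn, h.sum, h.sub⟩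

theorem GFam.ne (h : GFam U S C α β J lam p) : J.Nonempty := by
  by_contra hcon
  rw [Finset.not_nonempty_iff_eq_empty] at hcon
  have := h.sum
  rw [hcon] at this
  simp at this

/-- a triangle which does not meet the region has weight `0` -/
theorem GFam.cw_zero (h : GFam U S C α β J lam p) {t : ℂ × ℂ × ℂ}
    (ht : ¬ ∃ h ∈ Icc α β, (cT t ∩ C h).Nonempty) : cw J lam (fun s => s) t = 0 := by
  unfold cw
  apply Finset.sum_eq_zero
  intro s hs
  simp only [Finset.mem_filter] at hs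
  exact absurd (h.meet s hs.1 t hs.2) ht

theorem gfam (U : Finset (ℂ × ℂ × ℂ)) (S : Finset ℂ) (C : ℝ → Set ℂ) (d : ℂ × ℂ × ℂ → ℝ)
    {α β : ℝ} (hαβ : α < β) (hd0 : ∀ t ∈ U, 0 ≤ d t)
    (hd : ∀ t ∈ U, ∀ h ∈ Icc α β, ∀ h' ∈ Icc α β, (cT t ∩ C h).Nonempty →
      (cT t ∩ C h').Nonempty → h - h' ≤ d t)
    (hS : ∀ y ∈ S, {h | y ∈ C h ∧ h ∈ Icc α β}.Countable) :
    ∃ J lam p, GFam U S C α β J lam p ∧ ∀ t ∈ U, cw J lam (fun s => s) t ≤ d t / (β - α) := by
  obtain ⟨J, lam, p, h1, h2, h3, h4⟩ := fam_real U (fun t => {h | (cT t ∩ C h).Nonempty}) d hαβ hd0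
    (fun t ht h hh h' hh' => hd t ht h hh.2 h' hh'.2 hh.1 hh'.1)
    (⋃ y ∈ S, {h | y ∈ C h ∧ h ∈ Icc α β}) (Set.Countable.biUnion (Finset.countable_toSet S) hS)
  refine ⟨J, lam, p, ⟨h1, h2, fun s hs => (h3 s hs).1, fun s hs => (h3 s hs).2.1, ?_, ?_, ?_⟩, h4⟩
  · intro s hs y hy hyS
    apply (h3 s hs).2.2.1
    simp only [mem_iUnion]
    exact ⟨y, hyS, hy, (h3 s hs).2.1⟩
  · intro s hs t ht hm
    exact (h3 s hs).2.2.2.1 t ht hm
  · intro s hs t ht
    obtain ⟨h, hh, hh'⟩ := (h3 s hs).2.2.2.2 t ht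
    exact ⟨h, hh', hh⟩

/-- `U` contains a rotation of every triangle of `S` -/
def Rep (S : Finset ℂ) (U : Finset (ℂ × ℂ × ℂ)) : Prop := ∀ t ∈ delT S, ∃ t' ∈ U, t' ∈ rots t

theorem GFam.hA (h : GFam U S C α β J lam p) (hU : Rep S U) {s : Finset (ℂ × ℂ × ℂ)}
    (hs : s ∈ J) : ∀ t ∈ delT S, (cT t ∩ C (p s)).Nonempty → ∃ t' ∈ s, t' ∈ rots t := by
  intro t ht hm
  obtain ⟨t', ht', hr⟩ := hU t ht
  refine ⟨t', h.hit s hs t' ht' ?_, hr⟩
  rwa [cT_rots hr]


/-- the walk along a curve which meets a killed edge -/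
theorem GFam.kill (h : GFam U S C α β J lam p) (hU : Rep S U) {N : Net ℂ} (hS : GP (S : Set ℂ))
    {s : Finset (ℂ × ℂ × ℂ)} (hs : s ∈ J) (hC : IsPreconnected (C (p s)))
    (hcov : ∀ x ∈ C (p s), ∃ t ∈ delT S, x ∈ cT t)
    {u v w x : ℂ} (huv : (u, v, w) ∈ delT S) (hk : (u, v) ∈ N.kl) (hx : x ∈ C (p s))
    (hseg : x ∈ segment ℝ u v)
    {t : ℂ × ℂ × ℂ} (ht : t ∈ delT S) (hm : (cT t ∩ C (p s)).Nonempty) {e : ℂ × ℂ}
    (he : LSide N t e) :
    ∃ r ∈ delT S, (cT r ∩ C (p s)).Nonempty ∧ (∃ f, LSide N r f) ∧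
      (∀ f, LSide N r f → Conn N s e f) ∧
      ∃ u v w : ℂ, (u, v, w) ∈ rots r ∧ (u, v) ∈ N.kl ∧ ∃ x ∈ C (p s), x ∈ segment ℝ u v :=
  conn_kill hS hC hcov (h.off s hs) (h.hA hU hs) huv hk hx hseg ht hm he

end GFam

/-! ### diameter -/

theorem dm_nonneg (t : ℂ × ℂ × ℂ) : 0 ≤ dm t := (norm_nonneg _).trans (le_max_right _ _)

theorem dist_le_dm {S : Finset ℂ} {t : ℂ × ℂ × ℂ} (ht : t ∈ delT S) {y y' : ℂ} (hy : y ∈ cT t)
    (hy' : y' ∈ cT t) : ‖y - y'‖ ≤ dm t := by
  obtain ⟨o, hT⟩ := mem_delT_iff.1 (show (t.1, t.2.1, t.2.2) ∈ delT S from ht)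
  have hp := hT.pos
  have hd : ∀ v ∈ ({t.1, t.2.1, t.2.2} : Set ℂ), ‖v - y'‖ ≤ dm t := by
    have d1 : ‖t.1 - t.2.1‖ ≤ dm t := (le_max_left _ _).trans (le_max_left _ _)
    have d2 : ‖t.2.1 - t.2.2‖ ≤ dm t := (le_max_right _ _).trans (le_max_left _ _)
    have d3 : ‖t.2.2 - t.1‖ ≤ dm t := le_max_right _ _
    have d0 : 0 ≤ dm t := (norm_nonneg _).trans d1
    rintro v (rfl | rfl | rfl)
    · rw [norm_sub_rev]
      exact norm_le_of_cT hp hy' (by simpa using d0) (by rwa [norm_sub_rev]) d3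
    · rw [norm_sub_rev]
      exact norm_le_of_cT hp hy' d1 (by simpa using d0) (by rwa [norm_sub_rev])
    · rw [norm_sub_rev]
      exact norm_le_of_cT hp hy' (by rwa [norm_sub_rev]) d2 (by simpa using d0)
  exact norm_le_of_cT hp hy (hd _ (by simp)) (hd _ (by simp)) (hd _ (by simp))

/-! ### (F1) parallel segments -/

/-- the segment at the height `h` -/
def par (z0 u : ℂ) (l h : ℝ) : Set ℂ :=
  (fun s : ℝ => z0 + u * ((s : ℂ) + (h : ℂ) * Complex.I)) '' Icc 0 l

theorem par_conn (z0 u : ℂ) (l h : ℝ) : IsPreconnected (par z0 u l h) := by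
  apply isPreconnected_Icc.image
  fun_prop

theorem par_fam (U : Finset (ℂ × ℂ × ℂ)) {S : Finset ℂ} (hUS : U ⊆ delT S) (z0 : ℂ) {u : ℂ}
    (hu : ‖u‖ = 1) (l : ℝ) {w : ℝ} (hw : 0 < w) :
    ∃ J lam p, GFam U S (par z0 u l) 0 w J lam p ∧
      ∀ t ∈ U, cw J lam (fun s => s) t ≤ dm t / w := by
  have key : ∀ s s' h h' : ℝ,
      |h - h'| ≤ ‖(z0 + u * ((s : ℂ) + (h : ℂ) * Complex.I)) -
        (z0 + u * ((s' : ℂ) + (h' : ℂ) * Complex.I))‖ := by
    intro s s' h h'
    have e : (z0 + u * ((s : ℂ) + (h : ℂ) * Complex.I)) -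
        (z0 + u * ((s' : ℂ) + (h' : ℂ) * Complex.I)) =
        u * (((s - s' : ℝ) : ℂ) + ((h - h' : ℝ) : ℂ) * Complex.I) := by
      push_cast; ring
    rw [e, norm_mul, hu, one_mul]
    have h1 := Complex.abs_im_le_norm (((s - s' : ℝ) : ℂ) + ((h - h' : ℝ) : ℂ) * Complex.I)
    simpa using h1
  have := gfam U S (par z0 u l) dm hw (fun t _ => dm_nonneg t)
    (by
      rintro t ht h _ h' _ ⟨y, hy, s, _, rfl⟩ ⟨y', hy', s', _, rfl⟩
      exact (le_abs_self _).trans ((key s s' h h').trans (dist_le_dm (hUS ht) hy hy')))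
    (by
      intro y _
      apply Set.Subsingleton.countable
      rintro h ⟨⟨s, _, hs⟩, _⟩ h' ⟨⟨s', _, hs'⟩, _⟩
      have h1 := key s s' h h'
      simp only at hs hs'
      rw [hs, hs', sub_self, norm_zero] at h1
      exact sub_eq_zero.1 (abs_eq_zero.1 (le_antisymm h1 (abs_nonneg _))))
  simpa only [sub_zero] using this

/-- the sum of the squares for a rectangle -/
theorem par_sq {U : Finset (ℂ × ℂ × ℂ)} {S : Finset ℂ} {z0 u : ℂ} (hu : ‖u‖ = 1) {l w C : ℝ}
    (hw : 0 < w) (hC : 0 ≤ C) (hl : 0 ≤ l) {J lam p} (h : GFam U S (par z0 u l) 0 w J lam p)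
    (hcw : ∀ t ∈ U, cw J lam (fun s => s) t ≤ dm t / w)
    (hM : ∀ s ∈ Icc 0 l,
      ∑ t ∈ U.filter (fun t => (cT t ∩
        Metric.closedBall (z0 + u * ((s : ℂ) + ((w / 2 : ℝ) : ℂ) * Complex.I)) w).Nonempty),
        dm t ^ 2 ≤ C * w ^ 2) :
    ∑ t ∈ U, cw J lam (fun s => s) t ^ 2 ≤ C * (l / w + 1) := by
  set n := ⌊l / w⌋₊ + 1 with hn
  set z : ℕ → ℝ := fun j => min ((j : ℝ) * w + w / 2) l with hz
  have hzm : ∀ j, z j ∈ Icc 0 l := fun j => ⟨le_min (by positivity) hl, min_le_right _ _⟩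
  set B : ℕ → Finset (ℂ × ℂ × ℂ) := fun j => U.filter (fun t => (cT t ∩
        Metric.closedBall (z0 + u * ((z j : ℂ) + ((w / 2 : ℝ) : ℂ) * Complex.I)) w).Nonempty)
    with hB
  have h1 : ∀ t ∈ U, cw J lam (fun s => s) t ^ 2 ≤
      ∑ j ∈ Finset.range n, if t ∈ B j then dm t ^ 2 / w ^ 2 else 0 := by
    intro t ht
    have hnn : ∀ j ∈ Finset.range n, 0 ≤ if t ∈ B j then dm t ^ 2 / w ^ 2 else 0 := by
      intro j _
      split_ifs <;> positivity
    by_cases hm : ∃ h ∈ Icc 0 w, (cT t ∩ par z0 u l h).Nonempty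
    · obtain ⟨h', hh', y, hy, s, hs, rfl⟩ := hm
      have hsw : 0 ≤ s / w := div_nonneg hs.1 hw.le
      have hj1 : (⌊s / w⌋₊ : ℝ) * w ≤ s := by
        have := Nat.floor_le hsw
        rwa [le_div_iff₀ hw] at this
      have hj2 : s < ((⌊s / w⌋₊ : ℝ) + 1) * w := by
        have := Nat.lt_floor_add_one (s / w)
        rwa [div_lt_iff₀ hw] at this
      have hjn : ⌊s / w⌋₊ ∈ Finset.range n := by
        rw [Finset.mem_range, hn]
        exact Nat.lt_succ_of_le (Nat.floor_le_floor (div_le_div_of_nonneg_right hs.2 hw.le))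
      have htB : t ∈ B ⌊s / w⌋₊ := by
        rw [hB, Finset.mem_filter]
        refine ⟨ht, _, hy, ?_⟩
        rw [mem_closedBall_iff_norm]
        have e : (z0 + u * ((s : ℂ) + (h' : ℂ) * Complex.I)) -
            (z0 + u * ((z ⌊s / w⌋₊ : ℂ) + ((w / 2 : ℝ) : ℂ) * Complex.I)) =
            u * (((s - z ⌊s / w⌋₊ : ℝ) : ℂ) + ((h' - w / 2 : ℝ) : ℂ) * Complex.I) := by
          push_cast; ring
        rw [e, norm_mul, hu, one_mul]
        have h2 : |s - z ⌊s / w⌋₊| ≤ w / 2 := by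
          rw [abs_le, hz]
          simp only
          rcases le_total ((⌊s / w⌋₊ : ℝ) * w + w / 2) l with h3 | h3
          · rw [min_eq_left h3]
            constructor <;> linarith
          · rw [min_eq_right h3]
            constructor <;> linarith [hs.2]
        have h3 : |h' - w / 2| ≤ w / 2 := by
          rw [abs_le]
          constructor <;> linarith [hh'.1, hh'.2]
        refine (norm_add_le _ _).trans ?_
        rw [norm_mul, Complex.norm_I, mul_one, Complex.norm_real, Complex.norm_real,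
          Real.norm_eq_abs, Real.norm_eq_abs]
        linarith
      have h4 : cw J lam (fun s => s) t ^ 2 ≤ dm t ^ 2 / w ^ 2 := by
        rw [← div_pow]
        exact pow_le_pow_left₀ (cw_nonneg h.nn _ t) (hcw t ht) 2
      refine h4.trans ?_
      have h5 := Finset.single_le_sum hnn hjn
      rwa [if_pos htB] at h5
    · rw [h.cw_zero hm]
      have := Finset.sum_nonneg hnn
      simpa using this
  calc ∑ t ∈ U, cw J lam (fun s => s) t ^ 2
      ≤ ∑ t ∈ U, ∑ j ∈ Finset.range n, (if t ∈ B j then dm t ^ 2 / w ^ 2 else 0) :=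
        Finset.sum_le_sum h1
    _ = ∑ j ∈ Finset.range n, ∑ t ∈ B j, dm t ^ 2 / w ^ 2 := by
        rw [Finset.sum_comm]
        apply Finset.sum_congr rfl
        intro j _
        rw [← Finset.sum_filter]
        apply Finset.sum_congr _ fun _ _ => rfl
        ext t
        simp only [Finset.mem_filter]
        exact ⟨fun h => h.2, fun h => ⟨(Finset.mem_filter.mp h).1, h⟩⟩
    _ ≤ ∑ j ∈ Finset.range n, C := by
        apply Finset.sum_le_sum
        intro j _
        rw [← Finset.sum_div, div_le_iff₀ (by positivity)]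
        exact hM (z j) (hzm j)
    _ = n * C := by rw [Finset.sum_const, Finset.card_range, nsmul_eq_mul]
    _ ≤ C * (l / w + 1) := by
        rw [mul_comm]
        apply mul_le_mul_of_nonneg_left _ hC
        rw [hn]
        push_cast
        have := Nat.floor_le (div_nonneg hl hw.le)
        linarith

/-! ### (F2) rays in a sector -/

/-- the ray in the direction `a` -/
def ray (x : ℂ) (r R a : ℝ) : Set ℂ :=
  (fun s : ℝ => x + (s : ℂ) * Complex.exp ((a : ℂ) * Complex.I)) '' Icc r R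


theorem norm_ray {x : ℂ} {s a : ℝ} (hs : 0 ≤ s) :
    ‖(x + (s : ℂ) * Complex.exp ((a : ℂ) * Complex.I)) - x‖ = s := by
  rw [add_sub_cancel_left, norm_mul, Complex.norm_exp_ofReal_mul_I, mul_one, Complex.norm_real,
    Real.norm_eq_abs, abs_of_nonneg hs]






/-! ### (F3) arcs of concentric circles -/

/-- the arc with the radius `ρ` -/
def arc (x : ℂ) (φ ψ ρ : ℝ) : Set ℂ :=
  (fun a : ℝ => x + (ρ : ℂ) * Complex.exp ((a : ℂ) * Complex.I)) '' Icc φ ψ

theorem arc_conn (x : ℂ) (φ ψ ρ : ℝ) : IsPreconnected (arc x φ ψ ρ) := by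
  apply isPreconnected_Icc.image
  fun_prop




end Crest.Agent.R143.Famx930
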