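import Crest.Agent.R143.FinM2_609
import Crest.Agent.R143.NetU_346
import Crest.Agent.R143.IndLoc4_279
import Crest.Agent.R143.NetV_346
import Crest.Agent.R143.Dbl2_609

-- ▼ part R143/FinT_609
section

/-!
# Row 143 (S0194), RIG: measurability of `Ey`, `TS`, of the hits (helper609)

`X` = coloured configuration, `Sf W X` = the finite set of its positions in `W`, `A P i` = the class
`i` as a function of the set of positions `P` (NATURAL: transported by `PIso`).

* `SIso` : isomorphism of Delaunay triangulations; `hitO_iso`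
* `fme_hits` : `X ↦ ∑ t ∈ hits (Sf W X) (A (ps X)) i (black X), f t` is `FMe`
* `TS_cav` : `TS S A z` is the colour mean of `HT`, `HT X = 3 ∑ i, omz i * ∑ hits z t.1`
-/

set_option autoImplicit false
set_option linter.unusedSectionVars false

noncomputable section

open scoped Classical

namespace Crest.Agent.R143.FinTx609

open MeasureTheory Set Filter Topology
open Crest.Agent.R143.B0x346 Crest.Agent.R143.DelGx806
open Crest.Agent.R143.Prodx609 Crest.Agent.R143.FinMx609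
open Crest.Agent.R143.JColx54 (Adj)
open Crest.Agent.R143.RE0x723 (Pth)
open Crest.Agent.R143.K33x877 (Clu fr)
open Crest.Agent.R143.NetUx346
open Crest.Agent.R143.IndLoc3x279 (fs clr cav)

/-! ### isomorphisms of triangulations -/

/-- isomorphism of the Delaunay triangulations of `S` and `S'` -/
structure SIso (S S' : Finset ℂ) (e : ℂ → ℂ) : Prop where
  bij : BijOn e (S : Set ℂ) (S' : Set ℂ)
  tri : ∀ x ∈ S, ∀ y ∈ S, ∀ w ∈ S, (x, y, w) ∈ delT S ↔ (e x, e y, e w) ∈ delT S'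

theorem mem_delT' {S : Finset ℂ} {t : ℂ × ℂ × ℂ} :
    t ∈ delT S ↔ Del (S : Set ℂ) t.1 t.2.1 t.2.2 := by
  unfold delT
  rw [Finset.mem_filter, Finset.mem_product, Finset.mem_product]
  exact ⟨fun h => h.2, fun h => ⟨⟨h.1, h.2.1, h.2.2.1⟩, h⟩⟩

theorem del_mem {S : Finset ℂ} {x y w : ℂ} (h : (x, y, w) ∈ delT S) : x ∈ S ∧ y ∈ S ∧ w ∈ S := by
  have := mem_delT'.1 h
  exact ⟨this.1, this.2.1, this.2.2.1⟩

variable {S S' : Finset ℂ} {e : ℂ → ℂ}

theorem SIso.symm (h : SIso S S' e) : SIso S' S (Function.invFunOn e (S : Set ℂ)) := by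
  have hinv := h.bij.invOn_invFunOn
  have hm : MapsTo (Function.invFunOn e (S : Set ℂ)) (S' : Set ℂ) (S : Set ℂ) := fun y hy =>
    Function.invFunOn_mem (h.bij.surjOn hy)
  have hr : ∀ y ∈ S', e (Function.invFunOn e (S : Set ℂ) y) = y := fun y hy => hinv.2 hy
  refine ⟨⟨hm, hinv.2.injOn, ?_⟩, ?_⟩
  · intro x hx
    exact ⟨e x, h.bij.mapsTo hx, hinv.1 hx⟩
  · intro x hx y hy w hw
    rw [h.tri _ (hm hx) _ (hm hy) _ (hm hw), hr x hx, hr y hy, hr w hw]

theorem SIso.mem (h : SIso S S' e) {x : ℂ} (hx : x ∈ S) : e x ∈ S' := h.bij.mapsTo hx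

theorem SIso.adj (h : SIso S S' e) {a b : ℂ} (hab : Adj S a b) : Adj S' (e a) (e b) := by
  rcases hab with ⟨c, hc⟩ | ⟨c, hc⟩
  · obtain ⟨h1, h2, h3⟩ := del_mem hc
    exact Or.inl ⟨e c, (h.tri _ h1 _ h2 _ h3).1 hc⟩
  · obtain ⟨h1, h2, h3⟩ := del_mem hc
    exact Or.inr ⟨e c, (h.tri _ h1 _ h2 _ h3).1 hc⟩

theorem SIso.pth (h : SIso S S' e) {V V' : Set ℂ} (hV : ∀ x ∈ S, x ∈ V → e x ∈ V') {x y : ℂ}
    (hx : x ∈ S) (hp : Pth S V x y) : Pth S' V' (e x) (e y) := by
  obtain ⟨h1, h2⟩ := hp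
  refine ⟨hV x hx h1, ?_⟩
  have key : y ∈ S ∧ Relation.ReflTransGen (fun a b => Adj S' a b ∧ b ∈ V') (e x) (e y) := by
    induction h2 with
    | refl => exact ⟨hx, Relation.ReflTransGen.refl⟩
    | tail _ h3 ih =>
      obtain ⟨h4, h5⟩ := h3
      have hb := h4.mem.2
      exact ⟨hb, ih.2.tail ⟨h.adj h4, hV _ hb h5⟩⟩
  exact key.2

theorem SIso.fr (h : SIso S S' e) {A A' : ZMod 3 → Set ℂ}
    (hA : ∀ i, ∀ x ∈ S, x ∈ A i ↔ e x ∈ A' i) {x : ℂ} (hx : x ∈ S) :
    x ∈ fr S A ↔ e x ∈ fr S' A' := by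
  unfold K33x877.fr
  simp only [mem_ofPred_eq]
  constructor
  · rintro ⟨-, h2⟩; exact ⟨h.mem hx, fun i hi => h2 i ((hA i x hx).2 hi)⟩
  · rintro ⟨-, h2⟩; exact ⟨hx, fun i hi => h2 i ((hA i x hx).1 hi)⟩

theorem SIso.clu (h : SIso S S' e) {B B' T T' : Set ℂ} (hBS : B ⊆ S)
    (hB : ∀ x ∈ S, x ∈ B → e x ∈ B') (hT : ∀ x ∈ S, x ∈ T → e x ∈ T') {v : ℂ}
    (hv : v ∈ Clu S T B) : e v ∈ Clu S' T' B' := by
  obtain ⟨x, hx, hp⟩ := hv
  refine ⟨e x, hB x (hBS hx) hx, h.pth ?_ (hBS hx) hp⟩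
  rintro y hy (h1 | h1)
  · exact Or.inl (hT y hy h1)
  · exact Or.inr (hB y hy h1)


/-! ### the configuration -/

/-- the sites of the configuration `X` in `W` -/
def Sf (W : Set ℂ) (X : Set (ℂ × Bool)) : Finset ℂ := fs (ps X ∩ W)

theorem fs_coe {P : Set ℂ} (h : P.Finite) : (fs P : Set ℂ) = P := by
  unfold IndLoc3x279.fs
  rw [dif_pos h]
  exact h.coe_toFinset

theorem ps_fin {X : Set (ℂ × Bool)} (hX : X.Finite) : (ps X).Finite := hX.image _

theorem Sf_coe {W : Set ℂ} {X : Set (ℂ × Bool)} (hX : X.Finite) : (Sf W X : Set ℂ) = ps X ∩ W :=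
  fs_coe ((ps_fin hX).inter_of_left W)

theorem mem_Sf {W : Set ℂ} {X : Set (ℂ × Bool)} (hX : X.Finite) {x : ℂ} :
    x ∈ Sf W X ↔ x ∈ ps X ∧ x ∈ W := by
  rw [← Finset.mem_coe, Sf_coe hX]
  rfl

/-- the black points -/
def bl (X : Set (ℂ × Bool)) : Set ℂ := {x | (x, true) ∈ X}

section piso

variable {ι κ : Type*} {U : ι → Set ℂ} {R : κ → ℂ × ℂ × ℂ → Prop} {X X' : Set (ℂ × Bool)}

theorem siso_of_piso (h : PIso U R X X' e) (hX : X.Finite) (hX' : X'.Finite) (a : ι) :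
    SIso (Sf (U a) X) (Sf (U a) X') e := by
  refine ⟨?_, ?_⟩
  · rw [Sf_coe hX, Sf_coe hX']
    refine ⟨?_, ?_, ?_⟩
    · rintro x ⟨h1, h2⟩; exact ⟨h.bij.mapsTo h1, (h.loc x h1 a).1 h2⟩
    · rintro x ⟨h1, -⟩ y ⟨h2, -⟩ hxy; exact h.bij.injOn h1 h2 hxy
    · rintro y ⟨h1, h2⟩
      obtain ⟨x, hx, rfl⟩ := h.bij.surjOn h1
      exact ⟨x, ⟨hx, (h.loc x hx a).2 h2⟩, rfl⟩
  · intro x hx y hy w hw
    rw [mem_delT', mem_delT', Sf_coe hX, Sf_coe hX']
    exact h.delU x ((mem_Sf hX).1 hx).1 y ((mem_Sf hX).1 hy).1 w ((mem_Sf hX).1 hw).1 a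

end piso

/-! ### measurability of the hits -/

section fme

variable {ι κ : Type*} [Finite ι] [Finite κ] {U : ι → Set ℂ} {R : κ → ℂ × ℂ × ℂ → Prop}

/-- natural classes -/
structure NatA (U : ι → Set ℂ) (R : κ → ℂ × ℂ × ℂ → Prop) (W : Set ℂ)
    (A : Set (ℂ × Bool) → ZMod 3 → Set ℂ) : Prop where
  sub : ∀ X, X.Finite → ∀ i, A X i ⊆ ps X ∩ W
  iso : ∀ X X' : Set (ℂ × Bool), X.Finite → X'.Finite → ∀ e, PIso U R X X' e →
    ∀ i, ∀ x ∈ ps X, x ∈ W → (x ∈ A X i ↔ e x ∈ A X' i)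


end fme

/-! ### the totals -/

section total

variable {W : Set ℂ}

/-- coloured functional whose colour mean is `TS` -/
def HT (W : Set ℂ) (A : Set ℂ → ZMod 3 → Set ℂ) (z : ℂ → ℂ) (X : Set (ℂ × Bool)) : ℂ :=
  3 * ∑ i : ZMod 3, omz i * ∑ t ∈ hits (Sf W X) (A (ps X ∩ W)) i (bl X), z t.1


theorem ps_clr (S β : Finset ℂ) : ps (clr S β) = S := by
  ext x
  simp only [ps, clr, mem_image, mem_ofPred_eq, Prod.exists, exists_and_right, exists_eq_right,
    Finset.mem_coe]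
  constructor
  · rintro ⟨b, h, -⟩; exact h
  · intro h
    by_cases hb : x ∈ β
    · exact ⟨true, h, by simp [hb]⟩
    · exact ⟨false, h, by simp [hb]⟩

theorem clr_fin (S β : Finset ℂ) : (clr S β).Finite := by
  refine (S.finite_toSet.prod (Set.finite_univ (α := Bool))).subset ?_
  rintro ⟨x, b⟩ h
  exact ⟨h.1, mem_univ _⟩

theorem bl_clr {S β : Finset ℂ} (h : β ⊆ S) : bl (clr S β) = (β : Set ℂ) := by
  ext x
  simp only [bl, clr, mem_ofPred_eq, true_iff, Finset.mem_coe]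
  exact ⟨fun h => h.2, fun h' => ⟨h h', h'⟩⟩

theorem Sf_clr {S β : Finset ℂ} (hS : (S : Set ℂ) ⊆ W) : Sf W (clr S β) = S := by
  rw [← Finset.coe_inj, Sf_coe (clr_fin S β), ps_clr, inter_eq_left.2 hS]


/-- averages over all colourings of functions of the black sites in `V` -/
theorem sum_pow_inter {M : Type*} [AddCommMonoid M] {V D : Finset ℂ} (h : Disjoint V D)
    (g : Finset ℂ → M) : ∑ β ∈ (V ∪ D).powerset, g (β ∩ V) =
      (2 ^ D.card) • ∑ T ∈ V.powerset, g T := by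
  rw [IndLoc3x279.sum_powerset_union h]
  have e : ∀ a ∈ V.powerset, ∑ b ∈ D.powerset, g ((a ∪ b) ∩ V) = (2 ^ D.card) • g a := by
    intro a ha
    rw [Finset.mem_powerset] at ha
    have e2 : ∀ b ∈ D.powerset, g ((a ∪ b) ∩ V) = g a := by
      intro b hb
      rw [Finset.mem_powerset] at hb
      congr 1
      ext x
      simp only [Finset.mem_inter, Finset.mem_union]
      constructor
      · rintro ⟨h1 | h1, h2⟩
        · exact h1
        · exact absurd (hb h1) (Finset.disjoint_left.1 h h2)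
      · intro h1; exact ⟨Or.inl h1, ha h1⟩
    rw [Finset.sum_congr rfl e2, Finset.sum_const, Finset.card_powerset]
  rw [Finset.sum_congr rfl e, ← Finset.smul_sum]





variable {ι κ : Type*} [Finite ι] [Finite κ] {U : ι → Set ℂ} {R : κ → ℂ × ℂ × ℂ → Prop}






end total

end Crest.Agent.R143.FinTx609
end
end

-- ▼ part R143/FinU_609

/-!
# Row 143 (S0194), RIG: measurability of `TU` (frozen object `NetV_346`) (helper609)

* `fme_hitsV`, `fme_zV`, `TV_cav`, `fme_TV` : natural free sets and labels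
* `fme_yU`, `fme_TU` : the end points (of a colouring) and the totals of a labelled region
  (`P`, `L`), `W` = window (Borel), `{x | closedBall x (2 d) ⊆ P}` and `{x | L x = i}` Borel
* `meas_ball_closed`, `meas_ball_open` : `{x | closedBall x r ⊆ P}` is Borel
* `TUω`, `meas_TU`, `indep_TU` : on the sample
-/

set_option autoImplicit false
set_option linter.unusedSectionVars false

noncomputable section

open scoped Classical

namespace Crest.Agent.R143.FinUx609

open MeasureTheory Set Filter Topology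
open Crest.ProbabilityR.Voronoi
open Crest.Agent.R143.PP0x831 Crest.Agent.R143.Janx304 Crest.Agent.R143.Dblx609
open Crest.Agent.R143.Dbl2x609
open Crest.Agent.R143.B0x346 Crest.Agent.R143.DelGx806
open Crest.Agent.R143.Prodx609 Crest.Agent.R143.FinMx609 Crest.Agent.R143.FinTx609
open Crest.Agent.R143.JColx54 (Adj)
open Crest.Agent.R143.RE0x723 (Pth)
open Crest.Agent.R143.K33x877 (Clu)
open Crest.Agent.R143.NetUx346 Crest.Agent.R143.NetVx346
open Crest.Agent.R143.IndLoc3x279 (clr cav)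

/-! ### transport -/

section tr

variable {S S' V V' : Finset ℂ} {B B' : ZMod 3 → Set ℂ} {e : ℂ → ℂ}

theorem hitV_iso (h : SIso S S' e) (hBS : ∀ i, B i ⊆ S)
    (hV : ∀ x ∈ S, x ∈ V ↔ e x ∈ V') (hB : ∀ i, ∀ x ∈ S, x ∈ B i ↔ e x ∈ B' i)
    {T T' : Set ℂ} (hT : ∀ x ∈ S, x ∈ T ↔ e x ∈ T') {i : ZMod 3} {t : ℂ × ℂ × ℂ}
    (ht : HitV S V B i T t) : HitV S' V' B' i T' (e t.1, e t.2.1, e t.2.2) := by
  obtain ⟨h1, h2, h3, h4, h5⟩ := ht
  obtain ⟨m1, m2, m3⟩ := del_mem (x := t.1) (y := t.2.1) (w := t.2.2) h1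
  refine ⟨(h.tri _ m1 _ m2 _ m3).1 h1, (hB i _ m1).1 h2, ?_, ?_, ?_⟩
  · rcases h3 with h3 | h3
    · exact Or.inl ((hV _ m2).1 h3)
    · exact Or.inr ((hV _ m3).1 h3)
  · refine h.clu (hBS _) (fun x hx hx' => (hB _ x hx).1 hx') ?_ h4
    rintro x hx ⟨h6, h7⟩
    exact ⟨(hV x hx).1 h6, (hT x hx).1 h7⟩
  · refine h.clu (hBS _) (fun x hx hx' => (hB _ x hx).1 hx') ?_ h5
    rintro x hx ⟨h6, h7⟩
    exact ⟨(hV x hx).1 h6, fun h8 => h7 ((hT x hx).2 h8)⟩

end tr

/-! ### natural free sets and labels -/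

section fme

variable {ι κ : Type*} [Finite ι] [Finite κ] {U : ι → Set ℂ} {R : κ → ℂ × ℂ × ℂ → Prop}

/-- natural free set and labels in the window `W` -/
structure NatV (U : ι → Set ℂ) (R : κ → ℂ × ℂ × ℂ → Prop) (W : Set ℂ)
    (V : Set (ℂ × Bool) → Finset ℂ) (B : Set (ℂ × Bool) → ZMod 3 → Set ℂ) : Prop where
  sub : ∀ X, X.Finite → ∀ i, B X i ⊆ ps X ∩ W
  isoV : ∀ X X' : Set (ℂ × Bool), X.Finite → X'.Finite → ∀ e, PIso U R X X' e →
    ∀ x ∈ ps X, x ∈ W → (x ∈ V X ↔ e x ∈ V X')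
  isoB : ∀ X X' : Set (ℂ × Bool), X.Finite → X'.Finite → ∀ e, PIso U R X X' e →
    ∀ i, ∀ x ∈ ps X, x ∈ W → (x ∈ B X i ↔ e x ∈ B X' i)

theorem fme_hitsV {C : Type*} [MeasurableSpace C] [AddCommMonoid C] [MeasurableAdd₂ C]
    (hU : ∀ a, MeasurableSet (U a)) (hR : ∀ a, MeasurableSet {t | R a t}) (a : ι)
    {V : Set (ℂ × Bool) → Finset ℂ} {B : Set (ℂ × Bool) → ZMod 3 → Set ℂ}
    (hA : NatV U R (U a) V B) (i : ZMod 3) {f : ℂ × ℂ × ℂ → C} (hf : Measurable f) :
    FMe fun X => ∑ t ∈ hitsV (Sf (U a) X) (V X) (B X) i (bl X), f t := by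
  have key := fme_sum (C := C) hU hR
    (P := fun X t => X.Finite ∧ HitV (Sf (U a) X) (V X) (B X) i (bl X) t)
    (by
      rintro X t ⟨hX, h⟩
      obtain ⟨m1, m2, m3⟩ := del_mem (x := t.1) (y := t.2.1) (w := t.2.2) h.1
      exact ⟨((mem_Sf hX).1 m1).1, ((mem_Sf hX).1 m2).1, ((mem_Sf hX).1 m3).1⟩)
    (by
      rintro X X' hX hX' e he x hx y hy w hw ⟨-, h⟩
      refine ⟨hX', ?_⟩
      have hs := siso_of_piso he hX hX' a
      refine hitV_iso hs ?_ ?_ ?_ ?_ h
      · intro j z hz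
        rw [Sf_coe hX]
        exact hA.sub X hX j hz
      · intro z hz
        obtain ⟨h1, h2⟩ := (mem_Sf hX).1 hz
        exact hA.isoV X X' hX hX' e he z h1 h2
      · intro j z hz
        obtain ⟨h1, h2⟩ := (mem_Sf hX).1 hz
        exact hA.isoB X X' hX hX' e he j z h1 h2
      · intro z hz
        exact he.col z ((mem_Sf hX).1 hz).1 true)
    hf
  have e : ∀ n : ℕ, (fun z : Fin n → ℂ × Bool =>
      ∑ t ∈ hitsV (Sf (U a) (range z)) (V (range z)) (B (range z)) i (bl (range z)), f t) =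
      fun z => ∑ᶠ (t : ℂ × ℂ × ℂ) (_ : (range z).Finite ∧
        HitV (Sf (U a) (range z)) (V (range z)) (B (range z)) i (bl (range z)) t), f t := by
    intro n
    funext z
    rw [← finsum_mem_coe_finset]
    refine finsum_congr fun t => ?_
    have e1 : (t ∈ ((hitsV (Sf (U a) (range z)) (V (range z)) (B (range z)) i (bl (range z)) :
        Finset (ℂ × ℂ × ℂ)) : Set (ℂ × ℂ × ℂ))) = ((range z).Finite ∧
        HitV (Sf (U a) (range z)) (V (range z)) (B (range z)) i (bl (range z)) t) := by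
      rw [Finset.mem_coe, mem_hitsV]
      exact propext ⟨fun h => ⟨finite_range z, h⟩, fun h => h.2⟩
    rw [e1]
  intro n
  rw [show (fun z : Fin n → ℂ × Bool => (fun X =>
    ∑ t ∈ hitsV (Sf (U a) X) (V X) (B X) i (bl X), f t) (range z)) = _ from e n]
  exact key n

/-- **the end point in a colouring** -/
theorem fme_zV (hU : ∀ a, MeasurableSet (U a)) (hR : ∀ a, MeasurableSet {t | R a t}) (a : ι)
    {V : Set (ℂ × Bool) → Finset ℂ} {B : Set (ℂ × Bool) → ZMod 3 → Set ℂ}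
    (hA : NatV U R (U a) V B) (i : ZMod 3) {z : ℂ → ℂ} (hz : Measurable z) :
    FMe fun X => zV (Sf (U a) X) (V X) (B X) i (bl X) z := by
  intro n
  have h1 := fme_hitsV (C := ℕ) hU hR a hA i (f := fun _ => 1) measurable_const n
  have h2 := fme_hitsV hU hR a hA i (f := fun t => z t.1) (hz.comp measurable_fst) n
  simp only [Finset.sum_const, smul_eq_mul, mul_one] at h1
  exact Measurable.ite (h1 (measurableSet_singleton 1)) h2 measurable_const

end fme

/-! ### `TV` as a colour mean -/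

section total

variable {W : Set ℂ}


theorem hitsV_inter (S V : Finset ℂ) (B : ZMod 3 → Set ℂ) (i : ZMod 3) (β : Finset ℂ) :
    hitsV S V B i (β : Set ℂ) = hitsV S V B i ((β ∩ V : Finset ℂ) : Set ℂ) := by
  have e1 : {x | x ∈ V} ∩ (β : Set ℂ) = {x | x ∈ V} ∩ ((β ∩ V : Finset ℂ) : Set ℂ) := by
    ext x
    simp only [mem_inter_iff, Finset.mem_coe, Finset.mem_inter, mem_ofPred_eq]
    tauto
  have e2 : {x | x ∈ V} \ (β : Set ℂ) = {x | x ∈ V} \ ((β ∩ V : Finset ℂ) : Set ℂ) := by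
    ext x
    simp only [Set.mem_sdiff, Finset.mem_coe, Finset.mem_inter, mem_ofPred_eq]
    tauto
  ext t
  rw [mem_hitsV, mem_hitsV]
  unfold HitV
  rw [e1, e2]

/-- a mean over the colourings of `V` is a mean over the colourings of `S` -/
theorem exC_all {S V : Finset ℂ} (hV : V ⊆ S) {g : Finset ℂ → ℂ} (hg : ∀ β, g β = g (β ∩ V)) :
    exC V g = ((2⁻¹ : ℝ) ^ S.card) • ∑ β ∈ S.powerset, g β := by
  have hd : Disjoint V (S \ V) := Finset.disjoint_sdiff
  have hu : V ∪ (S \ V) = S := Finset.union_sdiff_of_subset hV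
  have h1 := sum_pow_inter hd g
  rw [hu] at h1
  have h2 : ∑ β ∈ S.powerset, g β = ∑ β ∈ S.powerset, g (β ∩ V) :=
    Finset.sum_congr rfl fun β _ => hg β
  rw [h2, h1]
  have hc : S.card = (S \ V).card + V.card := by
    rw [Finset.card_sdiff_add_card_eq_card hV]
  unfold exC
  rw [hc, pow_add, ← Nat.cast_smul_eq_nsmul ℝ, smul_smul]
  rw [show (2⁻¹ : ℝ) ^ (S \ V).card * (2⁻¹ : ℝ) ^ V.card *
      ((2 ^ (S \ V).card : ℕ) : ℝ) = (2⁻¹ : ℝ) ^ V.card by
    push_cast
    rw [inv_pow, inv_pow]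
    field_simp]
  rw [Complex.real_smul, div_eq_inv_mul]
  push_cast
  rw [inv_pow]


variable {ι κ : Type*} [Finite ι] [Finite κ] {U : ι → Set ℂ} {R : κ → ℂ × ℂ × ℂ → Prop}


/-- a colour mean of an `FMe` functional is an `FMe` functional (of the positions) -/
theorem fme_cav {F : Set (ℂ × Bool) → ℂ} (hF : FMe F) {W : Set ℂ} (hW : MeasurableSet W) :
    FMe fun X => cav F (Sf W X) :=
  IndLoc4x279.ps_measX (f := fun P => cav F (IndLoc3x279.fs P))
    (fun n => IndLoc4x279.cav_meas (F := F) hF n) hW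


end total

/-! ### labelled regions -/

section region

/-- the family of Borel sets of a labelled region -/
def UF (W P : Set ℂ) (d : ℝ) (L : ℂ → ZMod 3) : Option (Option (ZMod 3)) → Set ℂ
  | none => W
  | some none => {x | Metric.closedBall x (2 * d) ⊆ P}
  | some (some i) => {x | L x = i}

theorem meas_UF {W P : Set ℂ} {d : ℝ} {L : ℂ → ZMod 3} (hW : MeasurableSet W)
    (hP : MeasurableSet {x | Metric.closedBall x (2 * d) ⊆ P})
    (hL : ∀ i, MeasurableSet {x | L x = i}) : ∀ a, MeasurableSet (UF W P d L a)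
  | none => hW
  | some none => hP
  | some (some i) => hL i

/-- no relation -/
def R0 : Empty → ℂ × ℂ × ℂ → Prop := fun a => a.elim

variable {W P : Set ℂ} {d : ℝ} {L : ℂ → ZMod 3}

theorem Vin_fs {X : Set (ℂ × Bool)} (hX : X.Finite) {x : ℂ} :
    x ∈ Vin (Sf W X) P d ↔ (x ∈ ps X ∧ x ∈ W) ∧ Metric.closedBall x (2 * d) ⊆ P := by
  unfold Vin
  rw [Finset.mem_filter, mem_Sf hX]

/-- the region data are natural -/
theorem natV_region : NatV (UF W P d L) R0 W
    (fun X => Vin (Sf W X) P d) (fun X => Bl (Sf W X) (Vin (Sf W X) P d) L) := by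
  have hVi : ∀ X X' : Set (ℂ × Bool), X.Finite → X'.Finite → ∀ e, PIso (UF W P d L) R0 X X' e →
      ∀ x ∈ ps X, x ∈ Vin (Sf W X) P d ↔ e x ∈ Vin (Sf W X') P d := by
    intro X X' hX hX' e he x hx
    rw [Vin_fs hX, Vin_fs hX']
    have h1 := he.loc x hx none
    have h2 := he.loc x hx (some none)
    have h3 : e x ∈ ps X' := he.bij.mapsTo hx
    simp only [UF, mem_ofPred_eq] at h1 h2
    rw [h1, h2]
    simp only [hx, h3, true_and]
  refine ⟨?_, fun X X' hX hX' e he x hx _ => hVi X X' hX hX' e he x hx, ?_⟩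
  · rintro X hX i x ⟨h1, -⟩
    exact (mem_Sf hX).1 h1
  · intro X X' hX hX' e he i x hx hxW
    have hs : SIso (Sf W X) (Sf W X') e := siso_of_piso he hX hX' none
    have hs' := hs.symm
    have hl := he.loc x hx (some (some i))
    simp only [UF, mem_ofPred_eq] at hl
    have hxS : x ∈ Sf W X := (mem_Sf hX).2 ⟨hx, hxW⟩
    unfold NetVx346.Bl
    simp only [mem_ofPred_eq]
    rw [← hl, ← hVi X X' hX hX' e he x hx]
    constructor
    · rintro ⟨h1, h2, ⟨v, hv, hxv⟩, h4⟩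
      refine ⟨hs.mem h1, h2, ⟨e v, ?_, hs.adj hxv⟩, h4⟩
      exact (hVi X X' hX hX' e he v ((Vin_fs hX).1 hv).1.1).1 hv
    · rintro ⟨h1, h2, ⟨v', hv', hxv⟩, h4⟩
      obtain ⟨v, hv, rfl⟩ := he.bij.surjOn ((Vin_fs hX').1 hv').1.1
      have hvV := (hVi X X' hX hX' e he v hv).2 hv'
      have hvS : v ∈ Sf W X := (mem_Sf hX).2 ((Vin_fs hX).1 hvV).1
      refine ⟨hxS, h2, ⟨v, hvV, ?_⟩, h4⟩
      have h5 := hs'.adj hxv
      have hinv := hs.bij.invOn_invFunOn
      rwa [hinv.1 (show x ∈ (Sf W X : Set ℂ) from hxS),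
        hinv.1 (show v ∈ (Sf W X : Set ℂ) from hvS)] at h5

/-- **the end point of the labelled region, in the colouring of `X`** -/
theorem fme_yU (hW : MeasurableSet W)
    (hP : MeasurableSet {x | Metric.closedBall x (2 * d) ⊆ P})
    (hL : ∀ i, MeasurableSet {x | L x = i}) (i : ZMod 3) {z : ℂ → ℂ} (hz : Measurable z) :
    FMe fun X => zV (Sf W X) (Vin (Sf W X) P d) (Bl (Sf W X) (Vin (Sf W X) P d) L) i (bl X) z :=
  fme_zV (meas_UF hW hP hL) (R := R0) (fun a => a.elim) none natV_region i hz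


/-- `{x | closedBall x r ⊆ P}` for `P` open -/
theorem meas_ball_open {r : ℝ} (hP : IsOpen P) :
    MeasurableSet {x : ℂ | Metric.closedBall x r ⊆ P} := by
  by_cases hne : (Pᶜ).Nonempty
  · rcases lt_or_ge r 0 with hr | hr
    · have : {x : ℂ | Metric.closedBall x r ⊆ P} = univ := by
        ext x; simp [Metric.closedBall_eq_empty.2 hr]
      rw [this]; exact MeasurableSet.univ
    · have e : {x : ℂ | Metric.closedBall x r ⊆ P} = {x | r < Metric.infDist x Pᶜ} := by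
        ext x
        simp only [mem_ofPred_eq]
        constructor
        · intro h
          obtain ⟨y, hy, he⟩ := (hP.isClosed_compl).exists_infDist_eq_dist hne x
          rw [he]
          by_contra hc
          exact hy (h (by rw [Metric.mem_closedBall, dist_comm]; exact not_lt.1 hc))
        · intro h y hy
          by_contra hc
          have h1 := Metric.infDist_le_dist_of_mem (x := x) (show y ∈ Pᶜ from hc)
          rw [Metric.mem_closedBall, dist_comm] at hy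
          linarith
      rw [e]
      exact measurableSet_lt measurable_const (Metric.continuous_infDist_pt _).measurable
  · have h : P = univ := by
      rw [Set.not_nonempty_iff_eq_empty] at hne
      rw [← compl_compl P, hne, compl_empty]
    rw [h]
    simp

/-- `{x | closedBall x r ⊆ P}` for `P` closed -/
theorem meas_ball_closed {r : ℝ} (hP : IsClosed P) :
    MeasurableSet {x : ℂ | Metric.closedBall x r ⊆ P} := by
  have e : {x : ℂ | Metric.closedBall x r ⊆ P} = ⋂ n : ℕ,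
      {x | Metric.closedBall x r ⊆ Metric.thickening (1 / (n + 1)) P} := by
    ext x
    simp only [mem_ofPred_eq, mem_iInter]
    constructor
    · intro h n
      exact h.trans (Metric.self_subset_thickening (by positivity) P)
    · intro h y hy
      have h1 : y ∈ ⋂ δ > 0, Metric.thickening δ P := by
        simp only [mem_iInter]
        intro δ hδ
        obtain ⟨n, hn⟩ := exists_nat_one_div_lt hδ
        exact Metric.thickening_mono hn.le P (h n hy)
      rw [← Metric.closure_eq_iInter_thickening, hP.closure_eq] at h1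
      exact h1
  rw [e]
  exact MeasurableSet.iInter fun n => meas_ball_open Metric.isOpen_thickening

end region

/-! ### on the sample -/

section sample

variable {W P : Set ℂ} {d ε : ℝ} {L : ℂ → ZMod 3}

theorem Sf_cfg (hε : 0 < ε) (hb : Bornology.IsBounded W) (ω : Sample) :
    Sf W (cfg ε ω ∩ ovr W) = Ap ε W ω := by
  rw [← Finset.coe_inj, coe_Ap hε hb]
  have h1 : ps (cfg ε ω ∩ ovr W) ∩ W = points ε ω ∩ W := by
    rw [← fst_cfg ε ω]
    ext x
    simp only [ps, mem_inter_iff, mem_image]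
    constructor
    · rintro ⟨⟨q, ⟨h1, h2⟩, rfl⟩, h3⟩; exact ⟨⟨q, h1, rfl⟩, h3⟩
    · rintro ⟨⟨q, h1, rfl⟩, h3⟩; exact ⟨⟨q, ⟨h1, h3⟩, rfl⟩, h3⟩
  unfold Sf
  rw [h1]
  exact fs_coe (finite_points hε hb ω)





end sample

end Crest.Agent.R143.FinUx609
end
private theorem rz_7dc1993cd4 : type_of% @_root_.Crest.Agent.R143.FinUx609.UF.eq_1 := @_root_.Crest.Agent.R143.FinUx609.UF.eq_1 -- L255
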