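import Mathlib

-- ▼ part R143/Frame1_395
section

/-!
# Row 143 (S0194), part B without E3: the tight frame, part 1 (helper395, after helper493)

* `CMap D C` : closed sphere map with triangular faces, given by darts `D` and cells `C`
* `IsC M O x` : configurations (`ZMod 2` valued, odd faces `O`)
* `stp`, `Tr` : the walker and the set of his states up to the first state in the stop set `B`
* `swap` : adding the boundary of the cells on the left of an arc, except the arc itself
* `card_eq` : bijection (pairs of gaps with separated arcs) <-> thetas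
-/

set_option autoImplicit false

noncomputable section

open scoped Classical

namespace Crest.Agent.R143.Frame1x395

/-- closed sphere map with triangular faces. Darts = sides of faces; `rho` = next side of the face
(counterclockwise), `iota` = the other side of the edge, `cell d` = tail of the dart. -/
structure CMap (D C : Type) where
  rho : D → D
  rho3 : ∀ d, rho (rho (rho d)) = d
  rho_ne : ∀ d, rho d ≠ d
  iota : D → D
  iota2 : ∀ d, iota (iota d) = d
  live : Set D
  iota_live : ∀ d, d ∈ live → iota d ∈ live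
  iota_ne : ∀ d, d ∈ live → iota d ≠ d
  cell : D → C
  cell_iota : ∀ d, d ∈ live → cell (iota d) = cell (rho d)
  dead : ∀ d, d ∉ live → cell d = cell (rho d)
  ex : ∀ x : D → ZMod 2, (∀ d, d ∉ live → x d = 0) → (∀ d, x (iota d) = x d) →
    (∀ d, x d + x (rho d) + x (rho (rho d)) = 0) →
    ∃ χ : C → ZMod 2, ∀ d, x d = χ (cell d) + χ (cell (rho d))

variable {D C : Type} {M : CMap D C} {x y : D → ZMod 2} {O B : Set D}

theorem z01 : ∀ a : ZMod 2, a = 0 ∨ a = 1 := by decide



theorem z_self : ∀ a : ZMod 2, a + a = 0 := by decide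

theorem iota_inj (M : CMap D C) {a b : D} (h : M.iota a = M.iota b) : a = b := by
  rw [← M.iota2 a, h, M.iota2]

theorem rho_inj (M : CMap D C) {a b : D} (h : M.rho a = M.rho b) : a = b := by
  rw [← M.rho3 a, h, M.rho3]

theorem rho2_ne (M : CMap D C) (d : D) : M.rho (M.rho d) ≠ d := by
  intro h
  have := M.rho3 d
  rw [h] at this
  exact M.rho_ne d this

/-- configurations with odd faces `O` -/
structure IsC (M : CMap D C) (O : Set D) (x : D → ZMod 2) : Prop where
  dead : ∀ d, d ∉ M.live → x d = 0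
  iot : ∀ d, x (M.iota d) = x d
  par : ∀ d, x d + x (M.rho d) + x (M.rho (M.rho d)) = if d ∈ O then 1 else 0

theorem IsC.lv (h : IsC M O x) {d : D} (hd : x d = 1) : d ∈ M.live := by
  by_contra hn
  rw [h.dead d hn] at hd
  exact absurd hd (by decide)

/-- the right cell of the state `p` -/
theorem cell_rho_iota (M : CMap D C) {d : D} (hd : d ∈ M.live) :
    M.cell (M.rho (M.iota d)) = M.cell d := by
  rw [← M.cell_iota _ (M.iota_live d hd), M.iota2]

/-- one step of the walker -/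
def stp (M : CMap D C) (x : D → ZMod 2) (p : D) : D :=
  if x (M.rho p) = 1 then M.iota (M.rho p) else M.iota (M.rho (M.rho p))

theorem stp_cases (h : IsC M O x) {p : D} (hp : x p = 1) (hO : p ∉ O) :
    (x (M.rho p) = 1 ∧ x (M.rho (M.rho p)) = 0 ∧ stp M x p = M.iota (M.rho p)) ∨
    (x (M.rho p) = 0 ∧ x (M.rho (M.rho p)) = 1 ∧ stp M x p = M.iota (M.rho (M.rho p))) := by
  have h1 := h.par p
  rw [if_neg hO, hp] at h1
  unfold stp
  rcases z01 (x (M.rho p)) with h2 | h2 <;> rcases z01 (x (M.rho (M.rho p))) with h3 | h3 <;>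
    rw [h2, h3] at h1
  · exact absurd h1 (by decide)
  · right
    exact ⟨h2, h3, by rw [if_neg]; rw [h2]; decide⟩
  · left
    exact ⟨h2, h3, by rw [if_pos h2]⟩
  · exact absurd h1 (by decide)

theorem stp_occ (h : IsC M O x) {p : D} (hp : x p = 1) (hO : p ∉ O) : x (stp M x p) = 1 := by
  rcases stp_cases h hp hO with ⟨h1, -, e⟩ | ⟨-, h1, e⟩
  · rw [e, h.iot, h1]
  · rw [e, h.iot, h1]

/-- **reversal** -/
theorem stp_rev (h : IsC M O x) {p : D} (hp : x p = 1) (hO : p ∉ O) :
    stp M x (M.iota (stp M x p)) = M.iota p := by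
  rcases stp_cases h hp hO with ⟨h1, h2, e⟩ | ⟨h1, h2, e⟩
  · rw [e, M.iota2]
    unfold stp
    rw [if_neg (by rw [h2]; decide), M.rho3]
  · rw [e, M.iota2]
    unfold stp
    rw [M.rho3, if_pos hp]

theorem stp_inj (h : IsC M O x) {p q : D} (hp : x p = 1) (hO : p ∉ O) (hq : x q = 1)
    (hO' : q ∉ O) (e : stp M x p = stp M x q) : p = q := by
  have h1 := stp_rev h hp hO
  rw [e, stp_rev h hq hO'] at h1
  exact (iota_inj M h1).symm

/-- stop sets -/
def Inv (M : CMap D C) (B : Set D) : Prop := ∀ d, M.rho d ∈ B ↔ d ∈ B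

/-- the exit is a side of the face of `p`, different from `p` -/
theorem exit_mem (h : IsC M O x) (hB : Inv M B) {p : D} (hp : x p = 1) (hO : p ∉ O)
    (hpB : p ∉ B) : M.iota (stp M x p) ∉ B := by
  rcases stp_cases h hp hO with ⟨-, -, e⟩ | ⟨-, -, e⟩
  · rw [e, M.iota2, hB]; exact hpB
  · rw [e, M.iota2, hB, hB]; exact hpB

theorem exit_ne (h : IsC M O x) {p : D} (hp : x p = 1) (hO : p ∉ O) :
    M.iota (stp M x p) ≠ p := by
  rcases stp_cases h hp hO with ⟨-, -, e⟩ | ⟨-, -, e⟩
  · rw [e, M.iota2]; exact M.rho_ne p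
  · rw [e, M.iota2]; exact rho2_ne M p

/-- the states of the walker up to the first state in `B` -/
def Tr (M : CMap D C) (x : D → ZMod 2) (B : Set D) (p0 : D) : Set D :=
  {d | ∃ n, (stp M x)^[n] p0 = d ∧ ∀ k < n, (stp M x)^[k] p0 ∉ B}

variable {p0 : D}

theorem tr_start : p0 ∈ Tr M x B p0 := ⟨0, rfl, fun k hk => absurd hk (Nat.not_lt_zero k)⟩

theorem tr_step {p : D} (hp : p ∈ Tr M x B p0) (hB : p ∉ B) : stp M x p ∈ Tr M x B p0 := by
  obtain ⟨n, rfl, h2⟩ := hp
  refine ⟨n + 1, Function.iterate_succ_apply' _ _ _, fun k hk => ?_⟩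
  rcases Nat.lt_succ_iff_lt_or_eq.1 hk with h | rfl
  · exact h2 k h
  · exact hB

theorem tr_ind {P : D → Prop} (h0 : P p0)
    (hs : ∀ p, p ∈ Tr M x B p0 → p ∉ B → P p → P (stp M x p)) : ∀ p, p ∈ Tr M x B p0 → P p := by
  rintro p ⟨n, rfl, h2⟩
  induction n with
  | zero => exact h0
  | succ n ih =>
    rw [Function.iterate_succ_apply']
    have h3 : ∀ k < n, (stp M x)^[k] p0 ∉ B := fun k hk => h2 k (by omega)
    exact hs _ ⟨n, rfl, h3⟩ (h2 n (by omega)) (ih h3)

theorem tr_cases {p : D} (hp : p ∈ Tr M x B p0) :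
    p = p0 ∨ ∃ q, q ∈ Tr M x B p0 ∧ q ∉ B ∧ p = stp M x q := by
  obtain ⟨n, rfl, h2⟩ := hp
  cases n with
  | zero => left; rfl
  | succ n =>
    right
    exact ⟨(stp M x)^[n] p0, ⟨n, rfl, fun k hk => h2 k (by omega)⟩, h2 n (by omega),
      Function.iterate_succ_apply' _ _ _⟩

theorem tr_end {e e' : D} (h : e ∈ Tr M x B p0) (h' : e' ∈ Tr M x B p0) (hB : e ∈ B)
    (hB' : e' ∈ B) : e = e' := by
  obtain ⟨n, rfl, h2⟩ := h
  obtain ⟨m, rfl, h3⟩ := h'
  rcases lt_trichotomy n m with hl | rfl | hl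
  · exact absurd hB (h3 n hl)
  · rfl
  · exact absurd hB' (h2 m hl)

theorem tr_occ (h : IsC M O x) (hOB : O ⊆ B) (h0 : x p0 = 1) :
    ∀ p, p ∈ Tr M x B p0 → x p = 1 :=
  tr_ind h0 fun _ _ hB hp => stp_occ h hp fun hO => hB (hOB hO)

theorem tr_congr (he : ∀ p, p ∈ Tr M x B p0 → p ∉ B → stp M y p = stp M x p) :
    Tr M y B p0 = Tr M x B p0 := by
  have key : ∀ n, (∀ k < n, (stp M x)^[k] p0 ∉ B) → (stp M y)^[n] p0 = (stp M x)^[n] p0 := by
    intro n
    induction n with
    | zero => intro _; rfl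
    | succ n ih =>
      intro h
      have h3 : ∀ k < n, (stp M x)^[k] p0 ∉ B := fun k hk => h k (by omega)
      rw [Function.iterate_succ_apply', Function.iterate_succ_apply', ih h3]
      exact he _ ⟨n, rfl, h3⟩ (h n (by omega))
  have key2 : ∀ n, (∀ k < n, (stp M y)^[k] p0 ∉ B) → ∀ k < n, (stp M x)^[k] p0 ∉ B := by
    intro n
    induction n with
    | zero => intro _ k hk; exact absurd hk (Nat.not_lt_zero k)
    | succ n ih =>
      intro h k hk
      have h3 := ih fun k hk => h k (by omega)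
      rcases Nat.lt_succ_iff_lt_or_eq.1 hk with hl | rfl
      · exact h3 k hl
      · rw [← key k h3]; exact h k (by omega)
  ext d
  constructor
  · rintro ⟨n, h1, h2⟩
    have h3 := key2 n h2
    exact ⟨n, by rw [← key n h3]; exact h1, h3⟩
  · rintro ⟨n, h1, h2⟩
    refine ⟨n, by rw [key n h2]; exact h1, fun k hk => ?_⟩
    rw [key k fun j hj => h2 j (by omega)]
    exact h2 k hk

theorem tr_cons {a : D} (ha : a ∉ B) {p : D} (hp : p ∈ Tr M x B (stp M x a)) :
    p ∈ Tr M x B a := by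
  obtain ⟨n, rfl, h2⟩ := hp
  refine ⟨n + 1, rfl, fun k hk => ?_⟩
  cases k with
  | zero => exact ha
  | succ k => exact h2 k (by omega)

/-- **reversal of a walk** -/
theorem tr_rev (h : IsC M O x) (hOB : O ⊆ B) (hB : Inv M B) (h0 : x p0 = 1) :
    ∀ p, p ∈ Tr M x B p0 → M.iota p0 ∈ Tr M x B (M.iota p) := by
  refine tr_ind tr_start ?_
  intro p hp hpB ih
  have hx := tr_occ h hOB h0 p hp
  have hO : p ∉ O := fun hO => hpB (hOB hO)
  have h1 := exit_mem h hB hx hO hpB
  apply tr_cons h1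
  rw [stp_rev h hx hO]
  exact ih

/-- a walk from `B` does not return -/
theorem tr_noret (h : IsC M O x) (hOB : O ⊆ B) (h0 : x p0 = 1) :
    M.iota p0 ∉ Tr M x B p0 := by
  rintro ⟨n, h1, h2⟩
  set p : ℕ → D := fun k => (stp M x)^[k] p0 with hp
  have hs : ∀ k, p (k + 1) = stp M x (p k) := fun k => Function.iterate_succ_apply' _ _ _
  have hocc : ∀ k, k ≤ n → x (p k) = 1 := by
    intro k hk
    exact tr_occ h hOB h0 _ ⟨k, rfl, fun j hj => h2 j (by omega)⟩
  have hO : ∀ k, k < n → p k ∉ O := fun k hk hO => h2 k hk (hOB hO)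
  have key : ∀ k, k ≤ n → p (n - k) = M.iota (p k) := by
    intro k
    induction k with
    | zero => intro _; exact h1
    | succ k ih =>
      intro hk
      have h3 := ih (by omega)
      have h4 : n - k = (n - (k + 1)) + 1 := by omega
      rw [h4, hs] at h3
      have h5 := stp_rev h (hocc (n - (k + 1)) (by omega)) (hO _ (by omega))
      rw [h3, M.iota2, ← hs] at h5
      rw [h5, M.iota2]
  rcases Nat.even_or_odd' n with ⟨m, hm | hm⟩
  · have h3 := key m (by omega)
    rw [show n - m = m by omega] at h3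
    exact M.iota_ne _ (h.lv (hocc m (by omega))) h3.symm
  · have h3 := key m (by omega)
    rw [show n - m = m + 1 by omega, hs] at h3
    have h4 := exit_ne h (hocc m (by omega)) (hO m (by omega))
    rw [h3, M.iota2] at h4
    exact h4 rfl

/-- a walk from `B` ends -/
theorem tr_fin [Finite D] (h : IsC M O x) (hOB : O ⊆ B) (hB : Inv M B) (h0 : x p0 = 1)
    (hp0 : M.iota p0 ∈ B) : ∃ e, e ∈ Tr M x B p0 ∧ e ∈ B := by
  by_contra hc
  push Not at hc
  set p : ℕ → D := fun k => (stp M x)^[k] p0 with hp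
  have hs : ∀ k, p (k + 1) = stp M x (p k) := fun k => Function.iterate_succ_apply' _ _ _
  have hn : ∀ n, p n ∉ B := by
    intro n
    induction n using Nat.strong_induction_on with
    | _ n ih => exact hc _ ⟨n, rfl, ih⟩
  have hocc : ∀ n, x (p n) = 1 := fun n => tr_occ h hOB h0 _ ⟨n, rfl, fun k _ => hn k⟩
  have hO : ∀ n, p n ∉ O := fun n hO => hn n (hOB hO)
  have key : ∀ a b, a < b → p a ≠ p b := by
    intro a
    induction a with
    | zero =>
      intro b hb he
      obtain ⟨c, rfl⟩ := Nat.exists_eq_succ_of_ne_zero hb.ne'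
      rw [Nat.succ_eq_add_one, hs] at he
      have h1 := exit_mem h hB (hocc c) (hO c) (hn c)
      rw [← he] at h1
      exact h1 hp0
    | succ a ih =>
      intro b hb he
      obtain ⟨c, rfl⟩ := Nat.exists_eq_succ_of_ne_zero (show b ≠ 0 by omega)
      rw [Nat.succ_eq_add_one, hs, hs] at he
      exact ih c (by omega) (stp_inj h (hocc a) (hO a) (hocc c) (hO c) he)
  have hinj : Function.Injective p := by
    intro a b hab
    rcases lt_trichotomy a b with hl | rfl | hl
    · exact absurd hab (key a b hl)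
    · rfl
    · exact absurd hab.symm (key b a hl)
  exact not_injective_infinite_finite p hinj

/-! ### left and right cells -/

/-- left and right cells of a walk, seen by a colouring whose boundary is contained in `x` -/
theorem tr_col (h : IsC M O x) (hOB : O ⊆ B) (h0 : x p0 = 1) {χ : C → ZMod 2}
    (hχ : ∀ d, x d = 0 → χ (M.cell d) = χ (M.cell (M.rho d))) :
    ∀ p, p ∈ Tr M x B p0 → χ (M.cell p) = χ (M.cell p0) ∧
      χ (M.cell (M.rho p)) = χ (M.cell (M.rho p0)) := by
  refine tr_ind ⟨rfl, rfl⟩ ?_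
  intro p hp hpB ih
  have hx := tr_occ h hOB h0 p hp
  rcases stp_cases h hx fun hO => hpB (hOB hO) with ⟨h1, h2, e⟩ | ⟨h1, h2, e⟩
  · have e1 := M.cell_iota _ (h.lv h1)
    have e2 := cell_rho_iota M (h.lv h1)
    have e3 := hχ _ h2
    rw [M.rho3] at e3
    rw [e, e1, e2]
    exact ⟨e3.trans ih.1, ih.2⟩
  · have e1 := M.cell_iota _ (h.lv h2)
    have e2 := cell_rho_iota M (h.lv h2)
    have e3 := hχ _ h1
    rw [e, e1, e2, M.rho3]
    exact ⟨ih.1, e3.symm.trans ih.2⟩

/-- darts of an arc -/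
def arc (M : CMap D C) (x : D → ZMod 2) (B : Set D) (p0 : D) (d : D) : ZMod 2 :=
  if d ∈ Tr M x B p0 ∨ M.iota d ∈ Tr M x B p0 then 1 else 0

theorem arc_iot (d : D) : arc M x B p0 (M.iota d) = arc M x B p0 d := by
  unfold arc
  rw [M.iota2]
  by_cases h : d ∈ Tr M x B p0 ∨ M.iota d ∈ Tr M x B p0
  · rw [if_pos h, if_pos h.symm]
  · rw [if_neg h, if_neg fun h' => h h'.symm]

theorem arc_le (h : IsC M O x) (hOB : O ⊆ B) (h0 : x p0 = 1) {d : D} (hd : x d = 0) :
    arc M x B p0 d = 0 := by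
  unfold arc
  rw [if_neg]
  rintro (h1 | h1)
  · rw [tr_occ h hOB h0 _ h1] at hd
    exact absurd hd (by decide)
  · have h2 := tr_occ h hOB h0 _ h1
    rw [h.iot, hd] at h2
    exact absurd h2 (by decide)

/-- the arc in the stop faces -/
theorem arc_stop (h : IsC M O x) (hOB : O ⊆ B) (hB : Inv M B) (h0 : x p0 = 1) {e d : D}
    (he : e ∈ Tr M x B p0) (heB : e ∈ B) (hd : d ∈ B) :
    arc M x B p0 d = if d = e ∨ d = M.iota p0 then 1 else 0 := by
  unfold arc
  congr 1
  apply propext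
  constructor
  · rintro (h1 | h1)
    · left; exact tr_end h1 he hd heB
    · rcases tr_cases h1 with h2 | ⟨q, h2, h3, h4⟩
      · right; rw [← h2, M.iota2]
      · exfalso
        have h5 := exit_mem h hB (tr_occ h hOB h0 q h2) (fun hO => h3 (hOB hO)) h3
        rw [← h4, M.iota2] at h5
        exact h5 hd
  · rintro (rfl | rfl)
    · left; exact he
    · right; rw [M.iota2]; exact tr_start

theorem sum_rot (f : D → ZMod 2) (d : D) :
    f (M.rho d) + f (M.rho (M.rho d)) + f (M.rho (M.rho (M.rho d))) =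
      f d + f (M.rho d) + f (M.rho (M.rho d)) := by
  rw [M.rho3]; ring

/-- the arc in the other faces -/
theorem arc_off (h : IsC M O x) (hOB : O ⊆ B) (hB : Inv M B) (h0 : x p0 = 1)
    (hp0 : M.iota p0 ∈ B) {d : D} (hd : d ∉ B) :
    arc M x B p0 d + arc M x B p0 (M.rho d) + arc M x B p0 (M.rho (M.rho d)) = 0 := by
  -- the face of a state
  have key : ∀ p, p ∈ Tr M x B p0 → p ∉ B →
      arc M x B p0 p + arc M x B p0 (M.rho p) + arc M x B p0 (M.rho (M.rho p)) = 0 := by
    intro p hp hpB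
    have hx := tr_occ h hOB h0 p hp
    have h1 : arc M x B p0 p = 1 := if_pos (Or.inl hp)
    have h2 := tr_step hp hpB
    rcases stp_cases h hx fun hO => hpB (hOB hO) with ⟨h3, h4, e⟩ | ⟨h3, h4, e⟩
    · have h5 : arc M x B p0 (M.rho p) = 1 := if_pos (Or.inr (e ▸ h2))
      rw [h1, h5, arc_le h hOB h0 h4]; decide
    · have h5 : arc M x B p0 (M.rho (M.rho p)) = 1 := if_pos (Or.inr (e ▸ h2))
      rw [h1, h5, arc_le h hOB h0 h3]; decide
  -- the face of a dart of the arc
  have key2 : ∀ p, p ∉ B → arc M x B p0 p ≠ 0 →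
      arc M x B p0 p + arc M x B p0 (M.rho p) + arc M x B p0 (M.rho (M.rho p)) = 0 := by
    intro p hpB hp
    have hp' : p ∈ Tr M x B p0 ∨ M.iota p ∈ Tr M x B p0 := by
      by_contra hc
      exact hp (if_neg hc)
    rcases hp' with h1 | h1
    · exact key p h1 hpB
    · rcases tr_cases h1 with h2 | ⟨q, h2, h3, h4⟩
      · exfalso
        rw [← h2, M.iota2] at hp0
        exact hpB hp0
      · have hq := key q h2 h3
        rcases stp_cases h (tr_occ h hOB h0 q h2) (fun hO => h3 (hOB hO)) with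
          ⟨-, -, e⟩ | ⟨-, -, e⟩
        · rw [e] at h4
          have h5 := iota_inj M h4
          rw [h5, sum_rot]
          exact hq
        · rw [e] at h4
          have h5 := iota_inj M h4
          rw [h5, sum_rot, sum_rot]
          exact hq
  by_cases c1 : arc M x B p0 d = 0
  · by_cases c2 : arc M x B p0 (M.rho d) = 0
    · by_cases c3 : arc M x B p0 (M.rho (M.rho d)) = 0
      · rw [c1, c2, c3]; decide
      · have := key2 _ (by rw [hB, hB]; exact hd) c3
        rwa [sum_rot, sum_rot] at this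
    · have := key2 _ (by rw [hB]; exact hd) c2
      rwa [sum_rot] at this
  · exact key2 d hd c1

end Crest.Agent.R143.Frame1x395
end
end

-- ▼ part R143/Frame2_395
section

/-!
# Row 143 (S0194), part B without E3: the tight frame, part 2 (helper395, after helper493)

* `Sw` : hypotheses of the swap; `sw` : the swap
* `IsS`, `IsT` : two gaps with separated arcs; thetas; `card_eq` : they are equinumerous
-/

set_option autoImplicit false

noncomputable section

open scoped Classical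

namespace Crest.Agent.R143.Frame2x395

open Crest.Agent.R143.Frame1x395

variable {D C : Type} {M : CMap D C} {x y : D → ZMod 2} {O B : Set D} {p0 q0 : D}

/-- cells on the left of the arc -/
def Wc (M : CMap D C) (x : D → ZMod 2) (B : Set D) (p0 : D) (c : C) : ZMod 2 :=
  if ∃ p, p ∈ Tr M x B p0 ∧ M.cell p = c then 1 else 0

/-- their boundary -/
def dW (M : CMap D C) (x : D → ZMod 2) (B : Set D) (p0 : D) (d : D) : ZMod 2 :=
  Wc M x B p0 (M.cell d) + Wc M x B p0 (M.cell (M.rho d))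

/-- the swap -/
def sw (M : CMap D C) (x : D → ZMod 2) (B : Set D) (p0 : D) (d : D) : ZMod 2 :=
  x d + dW M x B p0 d + arc M x B p0 d

/-- hypotheses of the swap -/
structure Sw (M : CMap D C) (O B : Set D) (x : D → ZMod 2) (p0 q0 : D) : Prop where
  c : IsC M O x
  ob : O ⊆ B
  inv : Inv M B
  xp : x p0 = 1
  xq : x q0 = 1
  ip : M.iota p0 ∈ B
  s1 : ∀ p, p ∈ Tr M x B p0 → Wc M x B p0 (M.cell (M.rho p)) = 0
  s2 : ∀ q, q ∈ Tr M x B q0 → Wc M x B p0 (M.cell q) = 0
  s3 : ∀ q, q ∈ Tr M x B q0 → Wc M x B p0 (M.cell (M.rho q)) = 0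

theorem wc_mem {p : D} (hp : p ∈ Tr M x B p0) : Wc M x B p0 (M.cell p) = 1 :=
  if_pos ⟨p, hp, rfl⟩

/-- on the arc the boundary is `1` -/
theorem Sw.arc1 (h : Sw M O B x p0 q0) {d : D} (hd : arc M x B p0 d = 1) :
    dW M x B p0 d = 1 := by
  have h1 : d ∈ Tr M x B p0 ∨ M.iota d ∈ Tr M x B p0 := by
    by_contra hc
    unfold arc at hd
    rw [if_neg hc] at hd
    exact absurd hd (by decide)
  rcases h1 with h1 | h1
  · unfold dW
    rw [wc_mem h1, h.s1 _ h1]; decide
  · have h2 := tr_occ h.c h.ob h.xp _ h1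
    have h3 := M.cell_iota _ (h.c.lv h2)
    have h4 := cell_rho_iota M (h.c.lv h2)
    rw [M.iota2] at h3 h4
    unfold dW
    rw [h3, h4, wc_mem h1, h.s1 _ h1]; decide

/-- no change in the faces of the first arc -/
theorem Sw.fix1 (h : Sw M O B x p0 q0) {p : D} (hp : p ∈ Tr M x B p0) (hB : p ∉ B) :
    sw M x B p0 p = x p ∧ sw M x B p0 (M.rho p) = x (M.rho p) ∧
      sw M x B p0 (M.rho (M.rho p)) = x (M.rho (M.rho p)) := by
  have hx := tr_occ h.c h.ob h.xp p hp
  have hs := tr_step hp hB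
  have on : ∀ d, arc M x B p0 d = 1 → sw M x B p0 d = x d := by
    intro d hd
    unfold sw
    rw [hd, h.arc1 hd, add_assoc, z_self, add_zero]
  have off : ∀ d, arc M x B p0 d = 0 → dW M x B p0 d = 0 → sw M x B p0 d = x d := by
    intro d h1 h2
    unfold sw
    rw [h1, h2, add_zero, add_zero]
  refine ⟨on p (if_pos (Or.inl hp)), ?_⟩
  rcases stp_cases h.c hx fun hO => hB (h.ob hO) with ⟨h1, h2, e⟩ | ⟨h1, h2, e⟩
  · refine ⟨on _ (if_pos (Or.inr (e ▸ hs))), off _ (arc_le h.c h.ob h.xp h2) ?_⟩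
    have e1 := M.cell_iota _ (h.c.lv h1)
    unfold dW
    rw [M.rho3, wc_mem hp, ← e1, wc_mem (e ▸ hs)]; decide
  · refine ⟨off _ (arc_le h.c h.ob h.xp h1) ?_, on _ (if_pos (Or.inr (e ▸ hs)))⟩
    have e1 := cell_rho_iota M (h.c.lv h2)
    unfold dW
    rw [h.s1 _ hp, ← e1, h.s1 _ (e ▸ hs)]; decide

/-- no change in the faces of the second arc -/
theorem Sw.fix2 (h : Sw M O B x p0 q0) {q : D} (hq : q ∈ Tr M x B q0) (hB : q ∉ B) :
    sw M x B p0 q = x q ∧ sw M x B p0 (M.rho q) = x (M.rho q) ∧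
      sw M x B p0 (M.rho (M.rho q)) = x (M.rho (M.rho q)) := by
  have hx := tr_occ h.c h.ob h.xq q hq
  have hs := tr_step hq hB
  have off : ∀ d, dW M x B p0 d = 0 → sw M x B p0 d = x d := by
    intro d h2
    have h1 : arc M x B p0 d = 0 := by
      rcases z01 (arc M x B p0 d) with h1 | h1
      · exact h1
      · rw [h.arc1 h1] at h2; exact absurd h2 (by decide)
    unfold sw
    rw [h1, h2, add_zero, add_zero]
  have h1 := h.s2 _ hq
  have h2 := h.s3 _ hq
  have h3 : Wc M x B p0 (M.cell (M.rho (M.rho q))) = 0 := by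
    rcases stp_cases h.c hx fun hO => hB (h.ob hO) with ⟨h1, -, e⟩ | ⟨-, h2, e⟩
    · rw [← M.cell_iota _ (h.c.lv h1)]; exact h.s2 _ (e ▸ hs)
    · rw [← cell_rho_iota M (h.c.lv h2)]; exact h.s3 _ (e ▸ hs)
  refine ⟨off _ ?_, off _ ?_, off _ ?_⟩
  · unfold dW; rw [h1, h2]; decide
  · unfold dW; rw [h2, h3]; decide
  · unfold dW; rw [M.rho3, h3, h1]; decide

theorem Sw.tr1 (h : Sw M O B x p0 q0) : Tr M (sw M x B p0) B p0 = Tr M x B p0 :=
  tr_congr fun p hp hB => by
    unfold stp
    rw [(h.fix1 hp hB).2.1]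

theorem Sw.tr2 (h : Sw M O B x p0 q0) : Tr M (sw M x B p0) B q0 = Tr M x B q0 :=
  tr_congr fun p hp hB => by
    unfold stp
    rw [(h.fix2 hp hB).2.1]

/-- the swap is an involution -/
theorem Sw.invol (h : Sw M O B x p0 q0) : sw M (sw M x B p0) B p0 = x := by
  have h1 : dW M (sw M x B p0) B p0 = dW M x B p0 := by
    funext d
    unfold dW Wc
    rw [h.tr1]
  have h2 : arc M (sw M x B p0) B p0 = arc M x B p0 := by
    funext d
    unfold arc
    rw [h.tr1]
  funext d
  have e : sw M (sw M x B p0) B p0 d =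
      sw M x B p0 d + dW M (sw M x B p0) B p0 d + arc M (sw M x B p0) B p0 d := rfl
  rw [e, h1, h2]
  unfold sw
  generalize x d = a
  generalize dW M x B p0 d = b
  generalize arc M x B p0 d = c
  revert a b c
  decide

/-- dead darts and edges -/
theorem Sw.dead (h : Sw M O B x p0 q0) (d : D) (hd : d ∉ M.live) : sw M x B p0 d = 0 := by
  have h1 := h.c.dead d hd
  have h2 := M.dead d hd
  unfold sw dW
  rw [h1, ← h2, z_self, arc_le h.c h.ob h.xp h1]; decide

theorem Sw.iot (h : Sw M O B x p0 q0) (d : D) : sw M x B p0 (M.iota d) = sw M x B p0 d := by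
  by_cases hd : d ∈ M.live
  · unfold sw dW
    rw [h.c.iot, arc_iot, M.cell_iota d hd, cell_rho_iota M hd, add_comm (Wc M x B p0 _)]
  · have h1 : M.iota d ∉ M.live := fun h1 => hd (by
      have := M.iota_live _ h1
      rwa [M.iota2] at this)
    rw [h.dead _ hd, h.dead _ h1]

theorem Sw.sum (h : Sw M O B x p0 q0) (d : D) :
    sw M x B p0 d + sw M x B p0 (M.rho d) + sw M x B p0 (M.rho (M.rho d)) =
      (if d ∈ O then 1 else 0) +
        (arc M x B p0 d + arc M x B p0 (M.rho d) + arc M x B p0 (M.rho (M.rho d))) := by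
  rw [← h.c.par d]
  unfold sw dW
  rw [M.rho3]
  generalize Wc M x B p0 (M.cell d) = a
  generalize Wc M x B p0 (M.cell (M.rho d)) = b
  generalize Wc M x B p0 (M.cell (M.rho (M.rho d))) = c
  have := z_self a
  have := z_self b
  have := z_self c
  linear_combination z_self a + z_self b + z_self c

/-! ### two faces -/

/-- the face of `g` -/
def Fa (M : CMap D C) (g : D) : Set D := {d | d = g ∨ d = M.rho g ∨ d = M.rho (M.rho g)}

/-- the two faces -/
def BB (M : CMap D C) (g h : D) : Set D := Fa M g ∪ Fa M h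

theorem fa_inv (M : CMap D C) (g : D) : Inv M (Fa M g) := by
  intro d
  constructor
  · rintro (h | h | h)
    · right; right; rw [← h, M.rho3]
    · left; exact rho_inj M h
    · right; left; exact rho_inj M h
  · rintro (rfl | rfl | rfl)
    · right; left; rfl
    · right; right; rfl
    · left; exact M.rho3 _

theorem bb_inv (M : CMap D C) (g h : D) : Inv M (BB M g h) := by
  intro d
  unfold BB
  rw [Set.mem_union, Set.mem_union, fa_inv M g d, fa_inv M h d]

theorem bb_symm (M : CMap D C) (g h : D) : BB M g h = BB M h g := Set.union_comm _ _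

theorem fa_rot (M : CMap D C) (g : D) : Fa M (M.rho g) = Fa M g := by
  ext d
  unfold Fa
  simp only [Set.mem_setOf_eq, M.rho3]
  tauto

theorem bb_rot (M : CMap D C) (g h : D) : BB M (M.rho g) (M.rho (M.rho h)) = BB M g h := by
  unfold BB
  rw [fa_rot, fa_rot, fa_rot]

theorem fa0 (M : CMap D C) (g : D) : g ∈ Fa M g := Or.inl rfl
theorem fa1 (M : CMap D C) (g : D) : M.rho g ∈ Fa M g := Or.inr (Or.inl rfl)
theorem fa2 (M : CMap D C) (g : D) : M.rho (M.rho g) ∈ Fa M g := Or.inr (Or.inr rfl)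

/-- darts of different faces are different -/
theorem ne_of_fa {g h a b : D} (hgh : h ∉ Fa M g) (ha : a ∈ Fa M g) (hb : b ∈ Fa M h) : a ≠ b := by
  rintro rfl
  apply hgh
  rcases hb with rfl | rfl | rfl
  · exact ha
  · exact (fa_inv M g _).1 ha
  · exact (fa_inv M g _).1 ((fa_inv M g _).1 ha)

theorem fa_symm {g h : D} (hgh : h ∉ Fa M g) : g ∉ Fa M h := fun hg =>
  ne_of_fa hgh (fa0 M g) hg rfl

/-- **two gaps with separated arcs** -/
structure IsS (M : CMap D C) (g h : D) (x : D → ZMod 2) : Prop where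
  c : IsC M ∅ x
  g0 : x g = 0
  g1 : x (M.rho g) = 1
  g2 : x (M.rho (M.rho g)) = 1
  h0 : x h = 0
  h1 : x (M.rho h) = 1
  h2 : x (M.rho (M.rho h)) = 1
  a1 : M.rho h ∈ Tr M x (BB M g h) (M.iota (M.rho (M.rho g)))
  a2 : M.rho g ∈ Tr M x (BB M g h) (M.iota (M.rho (M.rho h)))
  dj : ∀ p, p ∈ Tr M x (BB M g h) (M.iota (M.rho (M.rho g))) →
    ∀ q, q ∈ Tr M x (BB M g h) (M.iota (M.rho (M.rho h))) → M.cell p ≠ M.cell q

/-- **thetas** -/
structure IsT (M : CMap D C) (g h : D) (y : D → ZMod 2) : Prop where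
  c : IsC M (BB M g h) y
  g0 : y g = 1
  g1 : y (M.rho g) = 1
  g2 : y (M.rho (M.rho g)) = 1
  h0 : y h = 1
  h1 : y (M.rho h) = 1
  h2 : y (M.rho (M.rho h)) = 1
  l0 : h ∈ Tr M y (BB M g h) (M.iota g)
  l1 : M.rho (M.rho h) ∈ Tr M y (BB M g h) (M.iota (M.rho g))
  l2 : M.rho h ∈ Tr M y (BB M g h) (M.iota (M.rho (M.rho g)))

theorem IsT.rot {g h : D} (H : IsT M g h y) : IsT M (M.rho g) (M.rho (M.rho h)) y := by
  refine ⟨?_, H.g1, H.g2, ?_, H.h2, ?_, ?_, ?_, ?_, ?_⟩
  · rw [bb_rot]; exact H.c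
  · rw [M.rho3]; exact H.g0
  · rw [M.rho3]; exact H.h0
  · rw [M.rho3]; exact H.h1
  · rw [bb_rot]; exact H.l1
  · rw [bb_rot, M.rho3]; exact H.l2
  · rw [bb_rot, M.rho3, M.rho3]; exact H.l0

theorem isT_rot {g h : D} : IsT M (M.rho g) (M.rho (M.rho h)) y ↔ IsT M g h y := by
  refine ⟨fun H => ?_, IsT.rot⟩
  have h1 := H.rot.rot
  rwa [M.rho3, M.rho3, M.rho3] at h1

section two

variable {g h : D}

theorem memg (M : CMap D C) (g h : D) : g ∈ BB M g h := Or.inl (fa0 M g)
theorem memg1 (M : CMap D C) (g h : D) : M.rho g ∈ BB M g h := Or.inl (fa1 M g)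
theorem memg2 (M : CMap D C) (g h : D) : M.rho (M.rho g) ∈ BB M g h := Or.inl (fa2 M g)
theorem memh (M : CMap D C) (g h : D) : h ∈ BB M g h := Or.inr (fa0 M h)
theorem memh1 (M : CMap D C) (g h : D) : M.rho h ∈ BB M g h := Or.inr (fa1 M h)
theorem memh2 (M : CMap D C) (g h : D) : M.rho (M.rho h) ∈ BB M g h := Or.inr (fa2 M h)

/-- **a pair of gaps satisfies the hypotheses of the swap** -/
theorem IsS.sw (H : IsS M g h x) :
    Sw M ∅ (BB M g h) x (M.iota (M.rho (M.rho g))) (M.iota (M.rho (M.rho h))) := by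
  have hob : (∅ : Set D) ⊆ BB M g h := Set.empty_subset _
  have hxp : x (M.iota (M.rho (M.rho g))) = 1 := by rw [H.c.iot]; exact H.g2
  have hxq : x (M.iota (M.rho (M.rho h))) = 1 := by rw [H.c.iot]; exact H.h2
  obtain ⟨χ, hχ⟩ := M.ex x H.c.dead H.c.iot (fun d => by rw [H.c.par d, if_neg (Set.notMem_empty d)])
  have hχ0 : ∀ d, x d = 0 → χ (M.cell d) = χ (M.cell (M.rho d)) := by
    intro d hd
    rw [hχ d] at hd
    revert hd
    generalize χ (M.cell d) = a
    generalize χ (M.cell (M.rho d)) = b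
    revert a b; decide
  have hl := H.c.lv H.g2
  have hl' := H.c.lv H.h2
  have e1 := M.cell_iota _ hl
  have e2 := cell_rho_iota M hl
  have e3 := M.cell_iota _ hl'
  have e4 := cell_rho_iota M hl'
  rw [M.rho3] at e1 e3
  have cp := tr_col H.c hob hxp hχ0
  have cq := tr_col H.c hob hxq hχ0
  rw [e1, e2] at cp
  rw [e3, e4] at cq
  -- the value on the left of the two arcs
  have k1 := cq _ H.a2
  have k2 := hχ0 _ H.g0
  have k3 := hχ (M.rho (M.rho g))
  rw [H.g2, M.rho3] at k3
  have hW : ∀ c, χ c ≠ χ (M.cell g) →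
      Wc M x (BB M g h) (M.iota (M.rho (M.rho g))) c = 0 := by
    intro c hc
    unfold Wc
    rw [if_neg]
    rintro ⟨p, hp, rfl⟩
    exact hc (cp p hp).1
  have hne : χ (M.cell (M.rho (M.rho g))) ≠ χ (M.cell g) := by
    intro e
    rw [e, z_self] at k3
    exact absurd k3 (by decide)
  refine ⟨H.c, hob, bb_inv M g h, hxp, hxq, ?_, ?_, ?_, ?_⟩
  · rw [M.iota2]; exact memg2 M g h
  · intro p hp
    exact hW _ (by rw [(cp p hp).2]; exact hne)
  · intro q hq
    unfold Wc
    rw [if_neg]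
    rintro ⟨p, hp, e⟩
    exact H.dj p hp q hq e
  · intro q hq
    apply hW
    rw [(cq q hq).2, ← k1.2]
    exact hne

/-- **a theta satisfies the hypotheses of the swap** -/
theorem IsT.sw (hgh : h ∉ Fa M g) (H : IsT M g h y) :
    Sw M (BB M g h) (BB M g h) y (M.iota (M.rho (M.rho g))) (M.iota (M.rho (M.rho h))) ∧
      M.rho g ∈ Tr M y (BB M g h) (M.iota (M.rho (M.rho h))) := by
  set B := BB M g h with hBdef
  have hob : B ⊆ B := subset_rfl
  have hinv : Inv M B := bb_inv M g h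
  have hxp : y (M.iota (M.rho (M.rho g))) = 1 := by rw [H.c.iot]; exact H.g2
  have hxq : y (M.iota (M.rho (M.rho h))) = 1 := by rw [H.c.iot]; exact H.h2
  have hxr : y (M.iota g) = 1 := by rw [H.c.iot]; exact H.g0
  have hx1 : y (M.iota (M.rho g)) = 1 := by rw [H.c.iot]; exact H.g1
  have harc : M.rho g ∈ Tr M y B (M.iota (M.rho (M.rho h))) := by
    have := tr_rev H.c hob hinv hx1 _ H.l1
    rwa [M.iota2] at this
  have hip : M.iota (M.iota (M.rho (M.rho g))) ∈ B := by rw [M.iota2]; exact memg2 M g h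
  have hir : M.iota (M.iota g) ∈ B := by rw [M.iota2]; exact memg M g h
  -- the colouring of the legs 0 and 2
  set a1 := arc M y B (M.iota (M.rho (M.rho g))) with ha1
  set a3 := arc M y B (M.iota g) with ha3
  have s1 : ∀ d, d ∈ B → a1 d = if d = M.rho h ∨ d = M.rho (M.rho g) then 1 else 0 := by
    intro d hd
    have := arc_stop H.c hob hinv hxp H.l2 (memh1 M g h) hd
    rwa [M.iota2] at this
  have s3 : ∀ d, d ∈ B → a3 d = if d = h ∨ d = g then 1 else 0 := by
    intro d hd
    have := arc_stop H.c hob hinv hxr H.l0 (memh M g h) hd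
    rwa [M.iota2] at this
  have n1 := M.rho_ne g
  have n2 := rho2_ne M g
  have n3 : M.rho (M.rho g) ≠ M.rho g := M.rho_ne (M.rho g)
  have m1 := M.rho_ne h
  have m2 := rho2_ne M h
  have m3 : M.rho (M.rho h) ≠ M.rho h := M.rho_ne (M.rho h)
  have gg0 := ne_of_fa hgh (fa0 M g) (fa0 M h)
  have gg1 := ne_of_fa hgh (fa0 M g) (fa1 M h)
  have gg2 := ne_of_fa hgh (fa0 M g) (fa2 M h)
  have gh0 := ne_of_fa hgh (fa1 M g) (fa0 M h)
  have gh1 := ne_of_fa hgh (fa1 M g) (fa1 M h)
  have gh2 := ne_of_fa hgh (fa1 M g) (fa2 M h)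
  have gi0 := ne_of_fa hgh (fa2 M g) (fa0 M h)
  have gi1 := ne_of_fa hgh (fa2 M g) (fa1 M h)
  have gi2 := ne_of_fa hgh (fa2 M g) (fa2 M h)
  have A1g : a1 g = 0 := by rw [s1 _ (memg M g h), if_neg]; tauto
  have A1g1 : a1 (M.rho g) = 0 := by rw [s1 _ (memg1 M g h), if_neg]; tauto
  have A1g2 : a1 (M.rho (M.rho g)) = 1 := by rw [s1 _ (memg2 M g h), if_pos]; tauto
  have A1h : a1 h = 0 := by rw [s1 _ (memh M g h), if_neg]; tauto
  have A1h1 : a1 (M.rho h) = 1 := by rw [s1 _ (memh1 M g h), if_pos]; tauto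
  have A1h2 : a1 (M.rho (M.rho h)) = 0 := by rw [s1 _ (memh2 M g h), if_neg]; tauto
  have A3g : a3 g = 1 := by rw [s3 _ (memg M g h), if_pos]; tauto
  have A3g1 : a3 (M.rho g) = 0 := by rw [s3 _ (memg1 M g h), if_neg]; tauto
  have A3g2 : a3 (M.rho (M.rho g)) = 0 := by rw [s3 _ (memg2 M g h), if_neg]; tauto
  have A3h : a3 h = 1 := by rw [s3 _ (memh M g h), if_pos]; tauto
  have A3h1 : a3 (M.rho h) = 0 := by rw [s3 _ (memh1 M g h), if_neg]; tauto
  have A3h2 : a3 (M.rho (M.rho h)) = 0 := by rw [s3 _ (memh2 M g h), if_neg]; tauto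
  obtain ⟨χ, hχ⟩ := M.ex (fun d => a1 d + a3 d)
    (fun d hd => by
      have h1 := H.c.dead d hd
      show a1 d + a3 d = 0
      rw [ha1, ha3, arc_le H.c hob hxp h1, arc_le H.c hob hxr h1]; decide)
    (fun d => by
      show a1 (M.iota d) + a3 (M.iota d) = a1 d + a3 d
      rw [ha1, ha3, arc_iot, arc_iot])
    (fun d => by
      show a1 d + a3 d + (a1 (M.rho d) + a3 (M.rho d)) +
        (a1 (M.rho (M.rho d)) + a3 (M.rho (M.rho d))) = 0
      by_cases hd : d ∈ B
      · have hG : ∀ f : D → ZMod 2, f g + f (M.rho g) + f (M.rho (M.rho g)) = 1 → d ∈ Fa M g →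
            f d + f (M.rho d) + f (M.rho (M.rho d)) = 1 := by
          intro f hf hd
          rcases hd with rfl | rfl | rfl
          · exact hf
          · rw [sum_rot]; exact hf
          · rw [sum_rot, sum_rot]; exact hf
        have hH : ∀ f : D → ZMod 2, f h + f (M.rho h) + f (M.rho (M.rho h)) = 1 → d ∈ Fa M h →
            f d + f (M.rho d) + f (M.rho (M.rho d)) = 1 := by
          intro f hf hd
          rcases hd with rfl | rfl | rfl
          · exact hf
          · rw [sum_rot]; exact hf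
          · rw [sum_rot, sum_rot]; exact hf
        have e1 : a1 d + a1 (M.rho d) + a1 (M.rho (M.rho d)) = 1 := by
          rcases hd with hd | hd
          · exact hG a1 (by rw [A1g, A1g1, A1g2]; decide) hd
          · exact hH a1 (by rw [A1h, A1h1, A1h2]; decide) hd
        have e3 : a3 d + a3 (M.rho d) + a3 (M.rho (M.rho d)) = 1 := by
          rcases hd with hd | hd
          · exact hG a3 (by rw [A3g, A3g1, A3g2]; decide) hd
          · exact hH a3 (by rw [A3h, A3h1, A3h2]; decide) hd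
        linear_combination e1 + e3 + z_self 1
      · have e1 := arc_off H.c hob hinv hxp hip hd
        have e3 := arc_off H.c hob hinv hxr hir hd
        linear_combination e1 + e3)
  have hχ0 : ∀ d, y d = 0 → χ (M.cell d) = χ (M.cell (M.rho d)) := by
    intro d hd
    have h1 := hχ d
    simp only [ha1, ha3, arc_le H.c hob hxp hd, arc_le H.c hob hxr hd] at h1
    revert h1
    generalize χ (M.cell d) = a
    generalize χ (M.cell (M.rho d)) = b
    revert a b; decide
  have hl := H.c.lv H.g2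
  have e1 := M.cell_iota _ hl
  have e2 := cell_rho_iota M hl
  rw [M.rho3] at e1
  have cp := tr_col H.c hob hxp hχ0
  have cq := tr_col H.c hob hxq hχ0
  rw [e1, e2] at cp
  have k1 := cq _ harc
  have k0 := hχ g
  have k2 := hχ (M.rho (M.rho g))
  simp only [A1g, A3g] at k0
  simp only [A1g2, A3g2, M.rho3] at k2
  have hW : ∀ c, χ c ≠ χ (M.cell g) → Wc M y B (M.iota (M.rho (M.rho g))) c = 0 := by
    intro c hc
    unfold Wc
    rw [if_neg]
    rintro ⟨p, hp, rfl⟩
    exact hc (cp p hp).1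
  have hne2 : χ (M.cell (M.rho (M.rho g))) ≠ χ (M.cell g) := by
    intro e
    rw [e, z_self] at k2
    exact absurd k2 (by decide)
  have hne1 : χ (M.cell (M.rho g)) ≠ χ (M.cell g) := by
    intro e
    rw [e, z_self] at k0
    exact absurd k0 (by decide)
  refine ⟨⟨H.c, hob, hinv, hxp, hxq, hip, ?_, ?_, ?_⟩, harc⟩
  · intro p hp
    exact hW _ (by rw [(cp p hp).2]; exact hne2)
  · intro q hq
    exact hW _ (by rw [(cq q hq).1, ← k1.1]; exact hne1)
  · intro q hq
    exact hW _ (by rw [(cq q hq).2, ← k1.2]; exact hne2)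

/-- the values after the swap in the two faces -/
theorem Sw.face (hgh : h ∉ Fa M g)
    (H : Sw M O (BB M g h) x (M.iota (M.rho (M.rho g))) (M.iota (M.rho (M.rho h))))
    (hl1 : M.rho (M.rho g) ∈ M.live) (hl2 : M.rho (M.rho h) ∈ M.live)
    (ha1 : M.rho h ∈ Tr M x (BB M g h) (M.iota (M.rho (M.rho g))))
    (ha2 : M.rho g ∈ Tr M x (BB M g h) (M.iota (M.rho (M.rho h)))) :
    let z := sw M x (BB M g h) (M.iota (M.rho (M.rho g)))
    z g = x g + 1 ∧ z (M.rho g) = x (M.rho g) ∧ z (M.rho (M.rho g)) = x (M.rho (M.rho g)) ∧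
    z h = x h + 1 ∧ z (M.rho h) = x (M.rho h) ∧ z (M.rho (M.rho h)) = x (M.rho (M.rho h)) ∧
    ∀ d, d ∈ BB M g h →
      arc M x (BB M g h) (M.iota (M.rho (M.rho g))) d +
      arc M x (BB M g h) (M.iota (M.rho (M.rho g))) (M.rho d) +
      arc M x (BB M g h) (M.iota (M.rho (M.rho g))) (M.rho (M.rho d)) = 1 := by
  set B := BB M g h with hBdef
  set p0 := M.iota (M.rho (M.rho g)) with hp0
  set q0 := M.iota (M.rho (M.rho h)) with hq0
  have s1 : ∀ d, d ∈ B → arc M x B p0 d = if d = M.rho h ∨ d = M.rho (M.rho g) then 1 else 0 := by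
    intro d hd
    have := arc_stop H.c H.ob H.inv H.xp ha1 (memh1 M g h) hd
    rwa [hp0, M.iota2] at this
  have n1 := M.rho_ne g
  have n2 := rho2_ne M g
  have n3 : M.rho (M.rho g) ≠ M.rho g := M.rho_ne (M.rho g)
  have m1 := M.rho_ne h
  have m2 := rho2_ne M h
  have m3 : M.rho (M.rho h) ≠ M.rho h := M.rho_ne (M.rho h)
  have gg0 := ne_of_fa hgh (fa0 M g) (fa0 M h)
  have gg1 := ne_of_fa hgh (fa0 M g) (fa1 M h)
  have gg2 := ne_of_fa hgh (fa0 M g) (fa2 M h)
  have gh0 := ne_of_fa hgh (fa1 M g) (fa0 M h)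
  have gh1 := ne_of_fa hgh (fa1 M g) (fa1 M h)
  have gh2 := ne_of_fa hgh (fa1 M g) (fa2 M h)
  have gi0 := ne_of_fa hgh (fa2 M g) (fa0 M h)
  have gi1 := ne_of_fa hgh (fa2 M g) (fa1 M h)
  have gi2 := ne_of_fa hgh (fa2 M g) (fa2 M h)
  have A1g : arc M x B p0 g = 0 := by rw [s1 _ (memg M g h), if_neg]; tauto
  have A1g1 : arc M x B p0 (M.rho g) = 0 := by rw [s1 _ (memg1 M g h), if_neg]; tauto
  have A1g2 : arc M x B p0 (M.rho (M.rho g)) = 1 := by rw [s1 _ (memg2 M g h), if_pos]; tauto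
  have A1h : arc M x B p0 h = 0 := by rw [s1 _ (memh M g h), if_neg]; tauto
  have A1h1 : arc M x B p0 (M.rho h) = 1 := by rw [s1 _ (memh1 M g h), if_pos]; tauto
  have A1h2 : arc M x B p0 (M.rho (M.rho h)) = 0 := by rw [s1 _ (memh2 M g h), if_neg]; tauto
  -- the cells
  have e1 := M.cell_iota _ hl1
  have e3 := M.cell_iota _ hl2
  rw [M.rho3] at e1 e3
  have Wg : Wc M x B p0 (M.cell g) = 1 := by rw [← e1]; exact wc_mem tr_start
  have Wg1 : Wc M x B p0 (M.cell (M.rho g)) = 0 := H.s2 _ ha2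
  have Wg2 : Wc M x B p0 (M.cell (M.rho (M.rho g))) = 0 := H.s3 _ ha2
  have Wh1 : Wc M x B p0 (M.cell (M.rho h)) = 1 := wc_mem ha1
  have Wh2 : Wc M x B p0 (M.cell (M.rho (M.rho h))) = 0 := H.s1 _ ha1
  have Wh : Wc M x B p0 (M.cell h) = 0 := by rw [← e3]; exact H.s2 _ tr_start
  refine ⟨?_, ?_, ?_, ?_, ?_, ?_, ?_⟩
  · unfold sw dW; rw [A1g, Wg, Wg1, add_zero, add_zero]
  · unfold sw dW; rw [A1g1, Wg1, Wg2, add_zero, add_zero, add_zero]
  · unfold sw dW; rw [A1g2, M.rho3, Wg2, Wg, zero_add, add_assoc, z_self, add_zero]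
  · unfold sw dW; rw [A1h, Wh, Wh1, add_zero, zero_add]
  · unfold sw dW; rw [A1h1, Wh1, Wh2, add_zero, add_assoc, z_self, add_zero]
  · unfold sw dW; rw [A1h2, M.rho3, Wh2, Wh, add_zero, add_zero, add_zero]
  · rintro d (hd | hd)
    · rcases hd with rfl | rfl | rfl
      · rw [A1g, A1g1, A1g2]; decide
      · rw [sum_rot, A1g, A1g1, A1g2]; decide
      · rw [sum_rot, sum_rot, A1g, A1g1, A1g2]; decide
    · rcases hd with rfl | rfl | rfl
      · rw [A1h, A1h1, A1h2]; decide
      · rw [sum_rot, A1h, A1h1, A1h2]; decide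
      · rw [sum_rot, sum_rot, A1h, A1h1, A1h2]; decide

/-- **theta from two gaps** -/
theorem IsS.toT [Finite D] (hgh : h ∉ Fa M g) (H : IsS M g h x) :
    IsT M g h (Frame2x395.sw M x (BB M g h) (M.iota (M.rho (M.rho g)))) := by
  have K := H.sw
  have F := Sw.face hgh K (H.c.lv H.g2) (H.c.lv H.h2) H.a1 H.a2
  set B := BB M g h with hBdef
  set p0 := M.iota (M.rho (M.rho g)) with hp0
  set q0 := M.iota (M.rho (M.rho h)) with hq0
  set z := Frame2x395.sw M x B p0 with hz
  obtain ⟨f1, f2, f3, f4, f5, f6, f7⟩ := F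
  have hC : IsC M B z := by
    refine ⟨K.dead, K.iot, fun d => ?_⟩
    rw [hz, K.sum d, if_neg (Set.notMem_empty d), zero_add]
    by_cases hd : d ∈ B
    · rw [if_pos hd]; exact f7 d hd
    · rw [if_neg hd]; exact arc_off K.c K.ob K.inv K.xp K.ip hd
  have zg : z g = 1 := by rw [f1, H.g0]; decide
  have zg1 : z (M.rho g) = 1 := by rw [f2, H.g1]
  have zg2 : z (M.rho (M.rho g)) = 1 := by rw [f3, H.g2]
  have zh : z h = 1 := by rw [f4, H.h0]; decide
  have zh1 : z (M.rho h) = 1 := by rw [f5, H.h1]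
  have zh2 : z (M.rho (M.rho h)) = 1 := by rw [f6, H.h2]
  have t1 : M.rho h ∈ Tr M z B p0 := by rw [K.tr1]; exact H.a1
  have t2 : M.rho g ∈ Tr M z B q0 := by rw [K.tr2]; exact H.a2
  have zp0 : z p0 = 1 := by rw [hp0, hC.iot]; exact zg2
  have zq0 : z q0 = 1 := by rw [hq0, hC.iot]; exact zh2
  have zr0 : z (M.iota g) = 1 := by rw [hC.iot]; exact zg
  have hinv : Inv M B := bb_inv M g h
  have hob : B ⊆ B := subset_rfl
  have l1 : M.rho (M.rho h) ∈ Tr M z B (M.iota (M.rho g)) := by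
    have := tr_rev hC hob hinv zq0 _ t2
    rwa [hq0, M.iota2] at this
  have l1' : M.rho (M.rho g) ∈ Tr M z B (M.iota (M.rho h)) := by
    have := tr_rev hC hob hinv zp0 _ t1
    rwa [hp0, M.iota2] at this
  refine ⟨hC, zg, zg1, zg2, zh, zh1, zh2, ?_, l1, t1⟩
  -- the third leg
  obtain ⟨e, he, heB⟩ := tr_fin hC hob hinv zr0 (by rw [M.iota2]; exact memg M g h)
  have hr : g ∈ Tr M z B (M.iota e) := by
    have := tr_rev hC hob hinv zr0 _ he
    rwa [M.iota2] at this
  have hgB := memg M g h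
  have hno := tr_noret hC hob zr0
  rw [M.iota2] at hno
  rcases heB with (rfl | rfl | rfl) | (rfl | rfl | rfl)
  · exact absurd he hno
  · exact absurd (tr_end hr l1 hgB (memh2 M g h)) (ne_of_fa hgh (fa0 M g) (fa2 M h))
  · exact absurd (tr_end hr t1 hgB (memh1 M g h)) (ne_of_fa hgh (fa0 M g) (fa1 M h))
  · exact he
  · exact absurd (tr_end hr l1' hgB (memg2 M g h)) (rho2_ne M g).symm
  · exact absurd (tr_end hr t2 hgB (memg1 M g h)) (M.rho_ne g).symm

/-- **two gaps from a theta** -/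
theorem IsT.toS (hgh : h ∉ Fa M g) (H : IsT M g h y) :
    IsS M g h (Frame2x395.sw M y (BB M g h) (M.iota (M.rho (M.rho g)))) := by
  obtain ⟨K, ha2⟩ := H.sw hgh
  have F := Sw.face hgh K (H.c.lv H.g2) (H.c.lv H.h2) H.l2 ha2
  set B := BB M g h with hBdef
  set p0 := M.iota (M.rho (M.rho g)) with hp0
  set q0 := M.iota (M.rho (M.rho h)) with hq0
  set z := Frame2x395.sw M y B p0 with hz
  obtain ⟨f1, f2, f3, f4, f5, f6, f7⟩ := F
  have hC : IsC M ∅ z := by
    refine ⟨K.dead, K.iot, fun d => ?_⟩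
    rw [hz, K.sum d, if_neg (Set.notMem_empty d)]
    by_cases hd : d ∈ B
    · rw [if_pos hd, f7 d hd]; decide
    · rw [if_neg hd, arc_off K.c K.ob K.inv K.xp K.ip hd]; decide
  refine ⟨hC, ?_, ?_, ?_, ?_, ?_, ?_, ?_, ?_, ?_⟩
  · rw [f1, H.g0]; decide
  · rw [f2, H.g1]
  · rw [f3, H.g2]
  · rw [f4, H.h0]; decide
  · rw [f5, H.h1]
  · rw [f6, H.h2]
  · rw [K.tr1]; exact H.l2
  · rw [K.tr2]; exact ha2
  · rw [K.tr1, K.tr2]
    intro p hp q hq e
    have := K.s2 q hq
    rw [← e, wc_mem hp] at this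
    exact absurd this (by decide)

variable [Fintype D]

/-- numbers -/
def nS (M : CMap D C) (g h : D) : ℕ := (Finset.univ.filter (IsS M g h)).card

def nT (M : CMap D C) (g h : D) : ℕ := (Finset.univ.filter (IsT M g h)).card

/-- **bijection** -/
theorem card_eq (hgh : h ∉ Fa M g) : nS M g h = nT M g h := by
  unfold nS nT
  refine Finset.card_bij' (fun x _ => Frame2x395.sw M x (BB M g h) (M.iota (M.rho (M.rho g))))
    (fun x _ => Frame2x395.sw M x (BB M g h) (M.iota (M.rho (M.rho g)))) ?_ ?_ ?_ ?_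
  · intro x hx
    exact Finset.mem_filter.2 ⟨Finset.mem_univ _, IsS.toT hgh (Finset.mem_filter.1 hx).2⟩
  · intro x hx
    exact Finset.mem_filter.2 ⟨Finset.mem_univ _, IsT.toS hgh (Finset.mem_filter.1 hx).2⟩
  · intro x hx
    exact (Finset.mem_filter.1 hx).2.sw.invol
  · intro x hx
    exact ((Finset.mem_filter.1 hx).2.sw hgh).1.invol

theorem nT_rot : nT M (M.rho g) (M.rho (M.rho h)) = nT M g h := by
  unfold nT
  congr 1
  ext y
  simp only [Finset.mem_filter, Finset.mem_univ, true_and]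
  exact isT_rot

end two

end Crest.Agent.R143.Frame2x395
end
end

-- ▼ part R143/Frame3_395

/-!
# Row 143 (S0194), part B without E3: the tight frame, part 3 (helper395, after helper493)

* `Gp`, `Rel` : gaps and the equivalence relation "same loop, same side, separated arcs", defined
  cell by cell (`Sc`), so that transitivity is easy; `rel_iff` : `Rel` = `IsS`
* `lab` : labels of the classes
-/

set_option autoImplicit false

noncomputable section

open scoped Classical

namespace Crest.Agent.R143.Frame3x395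

open Crest.Agent.R143.Frame1x395 Crest.Agent.R143.Frame2x395

variable {D C : Type} {M : CMap D C} {x y : D → ZMod 2}

/-- `g` is the unoccupied side of a face of degree two -/
def Gp (M : CMap D C) (x : D → ZMod 2) (g : D) : Prop := x g = 0 ∧ x (M.rho g) = 1

/-- state after the gap `g` (the gap is on the left) -/
def out (M : CMap D C) (g : D) : D := M.iota (M.rho (M.rho g))

theorem Gp.two (h : IsC M ∅ x) {g : D} (hg : Gp M x g) : x (M.rho (M.rho g)) = 1 := by
  have h1 := h.par g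
  rw [if_neg (Set.notMem_empty g), hg.1, hg.2] at h1
  revert h1
  generalize x (M.rho (M.rho g)) = a
  revert a; decide

theorem Gp.stp (h : IsC M ∅ x) {g : D} (hg : Gp M x g) : stp M x (M.rho g) = out M g := by
  unfold Frame1x395.stp out
  rw [if_pos (hg.two h)]

theorem Gp.out (h : IsC M ∅ x) {g : D} (hg : Gp M x g) : x (out M g) = 1 := by
  unfold Frame3x395.out
  rw [h.iot]; exact hg.two h

theorem out_inj {g h : D} (e : out M g = out M h) : g = h :=
  rho_inj M (rho_inj M (iota_inj M e))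

theorem occ_it (h : IsC M ∅ x) {p : D} (hp : x p = 1) (n : ℕ) : x ((stp M x)^[n] p) = 1 := by
  induction n with
  | zero => exact hp
  | succ n ih =>
    rw [Function.iterate_succ_apply']
    exact stp_occ h ih (Set.notMem_empty _)

/-- iterates are injective -/
theorem it_inj (h : IsC M ∅ x) {p q : D} (hp : x p = 1) (hq : x q = 1) (n : ℕ)
    (e : (stp M x)^[n] p = (stp M x)^[n] q) : p = q := by
  induction n with
  | zero => exact e
  | succ n ih =>
    rw [Function.iterate_succ_apply', Function.iterate_succ_apply'] at e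
    exact ih (stp_inj h (occ_it h hp n) (Set.notMem_empty _) (occ_it h hq n)
      (Set.notMem_empty _) e)

/-- the walk from `p` arrives at `q` and avoids the cell `c` on its left -/
def Av (M : CMap D C) (x : D → ZMod 2) (c : C) (p q : D) : Prop :=
  ∃ n, (stp M x)^[n] p = q ∧ ∀ k ≤ n, M.cell ((stp M x)^[k] p) ≠ c

theorem av_comp (h : IsC M ∅ x) {c : C} {p q g : D} (hg : Gp M x g) (h1 : Av M x c p (M.rho g))
    (h2 : Av M x c (out M g) q) : Av M x c p q := by
  obtain ⟨n, a1, a2⟩ := h1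
  obtain ⟨m, b1, b2⟩ := h2
  have e : (stp M x)^[n + 1] p = out M g := by
    rw [Function.iterate_succ_apply', a1, hg.stp h]
  have e2 : ∀ j, (stp M x)^[j + (n + 1)] p = (stp M x)^[j] (out M g) := by
    intro j
    rw [Function.iterate_add_apply, e]
  refine ⟨m + (n + 1), by rw [e2, b1], fun k hk => ?_⟩
  rcases le_or_gt k n with hl | hl
  · exact a2 k hl
  · have := e2 (k - (n + 1))
    rw [show k - (n + 1) + (n + 1) = k by omega] at this
    rw [this]
    exact b2 _ (by omega)

theorem av_fork (h : IsC M ∅ x) {c : C} {p g k : D} (hg : Gp M x g) (hk : Gp M x k)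
    (h1 : Av M x c p (M.rho g)) (h2 : Av M x c p (M.rho k)) :
    g = k ∨ Av M x c (out M g) (M.rho k) ∨ Av M x c (out M k) (M.rho g) := by
  obtain ⟨n, a1, a2⟩ := h1
  obtain ⟨m, b1, b2⟩ := h2
  have key : ∀ {g k : D} {n m : ℕ}, Gp M x g → (stp M x)^[n] p = M.rho g →
      (stp M x)^[m] p = M.rho k → (∀ k ≤ m, M.cell ((stp M x)^[k] p) ≠ c) → n < m →
      Av M x c (out M g) (M.rho k) := by
    intro g k n m hg a1 b1 b2 hl
    have e : (stp M x)^[n + 1] p = out M g := by
      rw [Function.iterate_succ_apply', a1, hg.stp h]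
    have e2 : ∀ j, (stp M x)^[j + (n + 1)] p = (stp M x)^[j] (out M g) := by
      intro j
      rw [Function.iterate_add_apply, e]
    refine ⟨m - (n + 1), ?_, fun k hk => ?_⟩
    · rw [← e2, show m - (n + 1) + (n + 1) = m by omega, b1]
    · rw [← e2]; exact b2 _ (by omega)
  rcases lt_trichotomy n m with hl | rfl | hl
  · exact Or.inr (Or.inl (key hg a1 b1 b2 hl))
  · left; exact rho_inj M (a1.symm.trans b1)
  · exact Or.inr (Or.inr (key hk b1 a1 a2 hl))

theorem av_join (h : IsC M ∅ x) {c : C} {q g k : D} (hg : Gp M x g) (hk : Gp M x k)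
    (h1 : Av M x c (out M g) q) (h2 : Av M x c (out M k) q) :
    g = k ∨ Av M x c (out M g) (M.rho k) ∨ Av M x c (out M k) (M.rho g) := by
  obtain ⟨n, a1, a2⟩ := h1
  obtain ⟨m, b1, b2⟩ := h2
  have key : ∀ {g k : D} {n m : ℕ}, Gp M x g → Gp M x k → (stp M x)^[n] (out M g) = q →
      (stp M x)^[m] (out M k) = q → (∀ j ≤ m, M.cell ((stp M x)^[j] (out M k)) ≠ c) → n < m →
      Av M x c (out M k) (M.rho g) := by
    intro g k n m hg hk a1 b1 b2 hl
    have e : out M g = (stp M x)^[m - n] (out M k) := by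
      apply it_inj h (hg.out h) (occ_it h (hk.out h) _) n
      rw [← Function.iterate_add_apply, show n + (m - n) = m by omega, a1, b1]
    have e2 : (stp M x)^[m - n - 1] (out M k) = M.rho g := by
      rw [← hg.stp h, show m - n = (m - n - 1) + 1 by omega, Function.iterate_succ_apply'] at e
      exact (stp_inj h hg.2 (Set.notMem_empty _) (occ_it h (hk.out h) _) (Set.notMem_empty _)
        e).symm
    exact ⟨_, e2, fun j hj => b2 j (by omega)⟩
  rcases lt_trichotomy n m with hl | rfl | hl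
  · exact Or.inr (Or.inr (key hg hk a1 b1 b2 hl))
  · left
    exact out_inj (it_inj h (hg.out h) (hk.out h) n (a1.trans b1.symm))
  · exact Or.inr (Or.inl (key hk hg b1 a1 a2 hl))

/-- the relation for one cell -/
def Sc (M : CMap D C) (x : D → ZMod 2) (c : C) (g h : D) : Prop :=
  g = h ∨ Av M x c (out M g) (M.rho h) ∨ Av M x c (out M h) (M.rho g)

theorem Sc.symm {c : C} {g h : D} (H : Sc M x c g h) : Sc M x c h g := by
  rcases H with rfl | H | H
  · exact Or.inl rfl
  · exact Or.inr (Or.inr H)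
  · exact Or.inr (Or.inl H)

theorem Sc.trans (h : IsC M ∅ x) {c : C} {g k l : D} (hg : Gp M x g) (hk : Gp M x k)
    (hl : Gp M x l) (h1 : Sc M x c g k) (h2 : Sc M x c k l) : Sc M x c g l := by
  rcases h1 with rfl | h1 | h1
  · exact h2
  · rcases h2 with rfl | h2 | h2
    · exact Or.inr (Or.inl h1)
    · exact Or.inr (Or.inl (av_comp h hk h1 h2))
    · exact av_join h hg hl h1 h2
  · rcases h2 with rfl | h2 | h2
    · exact Or.inr (Or.inr h1)
    · exact av_fork h hg hl h1 h2
    · exact Or.inr (Or.inr (av_comp h hk h2 h1))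

/-- **the relation** -/
def Rel (M : CMap D C) (x : D → ZMod 2) (g h : D) : Prop := ∀ c, Sc M x c g h

/-- periodicity -/
theorem periodic [Finite D] (h : IsC M ∅ x) {p : D} (hp : x p = 1) :
    ∃ N, 0 < N ∧ (stp M x)^[N] p = p := by
  obtain ⟨a, b, hab, e⟩ := Finite.exists_ne_map_eq_of_infinite (fun n : ℕ => (stp M x)^[n] p)
  have key : ∀ a b : ℕ, a < b → (stp M x)^[a] p = (stp M x)^[b] p →
      ∃ N, 0 < N ∧ (stp M x)^[N] p = p := by
    intro a b hl e
    refine ⟨b - a, by omega, ?_⟩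
    apply it_inj h (occ_it h hp _) hp a
    rw [← Function.iterate_add_apply, show a + (b - a) = b by omega, ← e]
  rcases lt_or_gt_of_ne hab with hl | hl
  · exact key a b hl e
  · exact key b a hl e.symm

theorem per_mul {p : D} {N : ℕ} (e : (stp M x)^[N] p = p) (j : ℕ) :
    (stp M x)^[j * N] p = p := by
  induction j with
  | zero => rw [zero_mul]; rfl
  | succ j ih => rw [Nat.succ_mul, Function.iterate_add_apply, e, ih]

/-- on the same loop -/
theorem come_back [Finite D] (h : IsC M ∅ x) {g k : D} (hg : Gp M x g) (hk : Gp M x k) {n : ℕ}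
    (e : (stp M x)^[n] (out M g) = M.rho k) : ∃ m, (stp M x)^[m] (out M k) = M.rho g := by
  obtain ⟨N, hN, eN⟩ := periodic h hg.2
  have e2 := per_mul eN (n + 2)
  have h3 : n + 2 ≤ (n + 2) * N := Nat.le_mul_of_pos_right _ hN
  refine ⟨(n + 2) * N - (n + 2), ?_⟩
  have e4 : (stp M x)^[n + 2] (M.rho g) = out M k := by
    rw [show n + 2 = (n + 1) + 1 by omega, Function.iterate_succ_apply, hg.stp h,
      Function.iterate_succ_apply', e, hk.stp h]
  rw [← e4, ← Function.iterate_add_apply, Nat.sub_add_cancel h3, e2]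

/-- colours on the left of a loop -/
theorem it_col (h : IsC M ∅ x) {p0 : D} (h0 : x p0 = 1) {χ : C → ZMod 2}
    (hχ : ∀ d, x d = 0 → χ (M.cell d) = χ (M.cell (M.rho d))) (n : ℕ) :
    χ (M.cell ((stp M x)^[n] p0)) = χ (M.cell p0) :=
  (tr_col h subset_rfl h0 hχ ((stp M x)^[n] p0)
    ⟨n, rfl, fun _ _ => Set.notMem_empty _⟩).1

theorem gp_fa (h : IsC M ∅ x) {g k : D} (hg : Gp M x g) (hk : Gp M x k) (hne : g ≠ k) :
    k ∉ Fa M g := by
  rintro (rfl | rfl | rfl)
  · exact hne rfl
  · have h1 := hk.1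
    rw [hg.2] at h1
    exact absurd h1 (by decide)
  · have h1 := hk.1
    rw [hg.two h] at h1
    exact absurd h1 (by decide)

/-- **`Rel` for different gaps = separated arcs** -/
theorem rel_iff [Finite D] (h : IsC M ∅ x) {g k : D} (hg : Gp M x g) (hk : Gp M x k)
    (hne : g ≠ k) : Rel M x g k ↔ IsS M g k x := by
  constructor
  · intro H
    have ex1 : (∃ n, (stp M x)^[n] (out M g) = M.rho k) ∧
        ∃ m, (stp M x)^[m] (out M k) = M.rho g := by
      rcases H (M.cell g) with h1 | ⟨n, h1, -⟩ | ⟨m, h1, -⟩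
      · exact absurd h1 hne
      · exact ⟨⟨n, h1⟩, come_back h hg hk h1⟩
      · exact ⟨come_back h hk hg h1, ⟨m, h1⟩⟩
    obtain ⟨E1, E2⟩ := ex1
    set n := Nat.find E1 with hn
    set m := Nat.find E2 with hm
    have en : (stp M x)^[n] (out M g) = M.rho k := Nat.find_spec E1
    have em : (stp M x)^[m] (out M k) = M.rho g := Nat.find_spec E2
    have mn : ∀ j, (stp M x)^[j] (out M g) = M.rho k → n ≤ j := fun j hj => Nat.find_min' E1 hj
    have mm : ∀ j, (stp M x)^[j] (out M k) = M.rho g → m ≤ j := fun j hj => Nat.find_min' E2 hj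
    have dj : ∀ a ≤ n, ∀ b ≤ m,
        M.cell ((stp M x)^[a] (out M g)) ≠ M.cell ((stp M x)^[b] (out M k)) := by
      intro a ha b hb e
      rcases H (M.cell ((stp M x)^[a] (out M g))) with h1 | ⟨n', h1, h2⟩ | ⟨m', h1, h2⟩
      · exact hne h1
      · exact h2 a (ha.trans (mn n' h1)) rfl
      · exact h2 b (hb.trans (mm m' h1)) e.symm
    obtain ⟨χ, hχ⟩ := M.ex x h.dead h.iot
      (fun d => by rw [h.par d, if_neg (Set.notMem_empty d)])
    have hχ0 : ∀ d, x d = 0 → χ (M.cell d) = χ (M.cell (M.rho d)) := by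
      intro d hd
      rw [hχ d] at hd
      revert hd
      generalize χ (M.cell d) = a
      generalize χ (M.cell (M.rho d)) = b
      revert a b; decide
    have hχ1 : ∀ d, x d = 1 → χ (M.cell d) ≠ χ (M.cell (M.rho d)) := by
      intro d hd
      rw [hχ d] at hd
      revert hd
      generalize χ (M.cell d) = a
      generalize χ (M.cell (M.rho d)) = b
      revert a b; decide
    -- no early visit of the two faces
    have key : ∀ {g k : D} {n m : ℕ}, Gp M x g → Gp M x k →
        (stp M x)^[n] (out M g) = M.rho k → (stp M x)^[m] (out M k) = M.rho g →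
        (∀ j, (stp M x)^[j] (out M g) = M.rho k → n ≤ j) →
        (∀ a ≤ n, ∀ b ≤ m,
          M.cell ((stp M x)^[a] (out M g)) ≠ M.cell ((stp M x)^[b] (out M k))) →
        ∀ j < n, (stp M x)^[j] (out M g) ∉ BB M g k := by
      intro g k n m hg hk en em mn dj j hj hB
      have c0 := it_col h (hg.out h) hχ0 j
      have cn := it_col h (hg.out h) hχ0 n
      have e1 : M.cell (out M g) = M.cell g := by
        unfold out
        rw [M.cell_iota _ (h.lv (hg.two h)), M.rho3]
      rw [en] at cn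
      have xo := occ_it h (hg.out h) j
      rcases hB with (hB | hB | hB) | (hB | hB | hB)
      · rw [hB, hg.1] at xo; exact absurd xo (by decide)
      · exact dj j hj.le m le_rfl (by rw [hB, em])
      · rw [hB, e1] at c0
        have := hχ1 _ (hg.two h)
        rw [M.rho3] at this
        exact this c0
      · rw [hB, hk.1] at xo; exact absurd xo (by decide)
      · have := mn j hB
        omega
      · rw [hB, ← cn] at c0
        exact hχ1 _ hk.2 c0.symm
    have nb1 := key hg hk en em mn dj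
    have nb2 : ∀ j < m, (stp M x)^[j] (out M k) ∉ BB M g k := by
      rw [bb_symm]
      exact key hk hg em en mm fun a ha b hb e => dj b hb a ha e.symm
    refine ⟨h, hg.1, hg.2, hg.two h, hk.1, hk.2, hk.two h, ⟨n, en, nb1⟩, ⟨m, em, nb2⟩, ?_⟩
    rintro p ⟨a, rfl, ha⟩ q ⟨b, rfl, hb⟩
    have ha' : a ≤ n := by
      by_contra hc
      push Not at hc
      apply ha n hc
      show (stp M x)^[n] (out M g) ∈ BB M g k
      rw [en]; exact memh1 M g k
    have hb' : b ≤ m := by
      by_contra hc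
      push Not at hc
      apply hb m hc
      show (stp M x)^[m] (out M k) ∈ BB M g k
      rw [em]; exact memg1 M g k
    exact dj a ha' b hb'
  · intro H c
    right
    obtain ⟨n, en, hn⟩ := H.a1
    obtain ⟨m, em, hm⟩ := H.a2
    by_cases hc : ∀ j ≤ n, M.cell ((stp M x)^[j] (out M g)) ≠ c
    · left
      exact ⟨n, en, hc⟩
    · right
      push Not at hc
      obtain ⟨a, ha, hac⟩ := hc
      refine ⟨m, em, fun b hb e => ?_⟩
      refine H.dj _ ⟨a, rfl, fun j hj => hn j (by omega)⟩ _ ⟨b, rfl, fun j hj => hm j (by omega)⟩ ?_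
      exact hac.trans e.symm

/-- labels of the classes -/
def lab (M : CMap D C) (x : D → ZMod 2) (g : D) : D :=
  @Classical.epsilon D ⟨g⟩ fun h => Gp M x h ∧ Rel M x g h

theorem lab_iff (h : IsC M ∅ x) {g k : D} (hg : Gp M x g) (hk : Gp M x k) :
    lab M x g = lab M x k ↔ Rel M x g k := by
  have s1 : ∀ {g : D}, Gp M x g → Gp M x (lab M x g) ∧ Rel M x g (lab M x g) := by
    intro g hg
    exact @Classical.epsilon_spec_aux D ⟨g⟩ (fun h => Gp M x h ∧ Rel M x g h)
      ⟨g, hg, fun _ => Or.inl rfl⟩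
  constructor
  · intro e c
    have h1 := s1 hg
    have h2 := s1 hk
    rw [← e] at h2
    exact (h1.2 c).trans h hg h1.1 hk (h2.2 c).symm
  · intro H
    unfold lab
    congr 1
    funext l
    apply propext
    constructor
    · rintro ⟨h1, h2⟩
      exact ⟨h1, fun c => (H c).symm.trans h hk hg h1 (h2 c)⟩
    · rintro ⟨h1, h2⟩
      exact ⟨h1, fun c => (H c).trans h hg hk h1 (h2 c)⟩

end Crest.Agent.R143.Frame3x395
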