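import Crest.Agent.R143.RBm_838
import Crest.Agent.R143.BK_315
import Crest.Agent.R143.XW1_315
import Crest.Agent.R143.JCol_54
import Crest.Agent.R143.Indep_583
import Crest.Agent.R143.XG_343
import Crest.Agent.R143.CircP_838

-- ▼ part R143/NstA_700
section

/-!
# Row 143, leaf NST (helper700), part A: chains with few black sites

`Pt R P A B l` : `l` is a nonempty chain (`R` along consecutive pairs, all members in `P`, head in `A`,
last in `B`).
`wt β l` : number of members of `l` (with multiplicity) in `β`.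
`kk R P A B β` : minimum of `wt β l` over all chains.

* `levels` : if `k ≤ kk β` then `k` disjoint subsets of `β` meet every chain
* `kk_pr` : `pr V (k ≤ kk β) ≤ (pr V (β meets every chain)) ^ k` (van den Berg - Kesten)
* `KE S z0 r k β` : minimal number of black sites of a crossing of the rectangle `k` of the square
  annulus `r < |.|_∞ < 2 r`; `ke_pr` : geometric tail, from `RBm`
-/

set_option autoImplicit false

noncomputable section

open scoped Classical

namespace Crest.Agent.R143.NstAx700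

open Crest.Agent.R143.B0x346 Crest.Agent.R143.DelGx806 Crest.Agent.R143.DelRx806
open Crest.Agent.R143.ToolWx838 hiding dir
open Crest.Agent.R143.Blkx838 Crest.Agent.R143.ToolW2x838
open Crest.Agent.R143.ToolW3x838 Crest.Agent.R143.Circ4x838 Crest.Agent.R143.Harx315
open Crest.Agent.R143.RB0x838 Crest.Agent.R143.CircPx838 Crest.Agent.R143.Gatex838
open Crest.Agent.R143.CBx838 Crest.Agent.R143.BKx315 Crest.Agent.R143.RBmx838

/-! ### abstract level sets -/

section levels

variable {R : ℂ × ℂ → Prop} {P A B : ℂ → Prop}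

/-- chains from `A` to `B` inside `P` -/
structure Pt (R : ℂ × ℂ → Prop) (P A B : ℂ → Prop) (l : List ℂ) : Prop where
  ne : l ≠ []
  adj : ∀ p ∈ prs l, R p
  mem : ∀ s ∈ l, P s
  hd : A (l.head ne)
  lt : B (l.getLast ne)

/-- number of members in `β` -/
def wt (β : Finset ℂ) (l : List ℂ) : ℕ := l.countP fun s => decide (s ∈ β)


theorem wt_append (β : Finset ℂ) (l m : List ℂ) : wt β (l ++ m) = wt β l + wt β m :=
  List.countP_append

theorem wt_single (β : Finset ℂ) (s : ℂ) : wt β [s] = if s ∈ β then 1 else 0 := by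
  unfold wt
  by_cases h : s ∈ β <;> simp [h]

/-- weighted distance from `A` -/
def dst (R : ℂ × ℂ → Prop) (P A : ℂ → Prop) (β : Finset ℂ) (u : ℂ) : ℕ :=
  sInf {n | ∃ l, Pt R P A (fun s => s = u) l ∧ wt β l = n}

/-- minimum of the weights -/
def kk (R : ℂ × ℂ → Prop) (P A B : ℂ → Prop) (β : Finset ℂ) : ℕ :=
  sInf {n | ∃ l, Pt R P A B l ∧ wt β l = n}

theorem dst_le {β : Finset ℂ} {u : ℂ} {l : List ℂ} (h : Pt R P A (fun s => s = u) l) :
    dst R P A β u ≤ wt β l := Nat.sInf_le ⟨l, h, rfl⟩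

theorem kk_le {β : Finset ℂ} {l : List ℂ} (h : Pt R P A B l) : kk R P A B β ≤ wt β l :=
  Nat.sInf_le ⟨l, h, rfl⟩

theorem dst_spec {β : Finset ℂ} {u : ℂ} (h : ∃ l, Pt R P A (fun s => s = u) l) :
    ∃ l, Pt R P A (fun s => s = u) l ∧ wt β l = dst R P A β u := by
  obtain ⟨l, hl⟩ := h
  exact Nat.sInf_mem (s := {n | ∃ l, Pt R P A (fun s => s = u) l ∧ wt β l = n}) ⟨_, l, hl, rfl⟩

theorem kk_spec {β : Finset ℂ} (h : ∃ l, Pt R P A B l) :
    ∃ l, Pt R P A B l ∧ wt β l = kk R P A B β := by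
  obtain ⟨l, hl⟩ := h
  exact Nat.sInf_mem (s := {n | ∃ l, Pt R P A B l ∧ wt β l = n}) ⟨_, l, hl, rfl⟩

/-- one more member -/
theorem Pt.snoc {l : List ℂ} {a b : ℂ} (h : Pt R P A (fun s => s = a) l) (hab : R (a, b))
    (hb : P b) : Pt R P A (fun s => s = b) (l ++ [b]) := by
  have hne := h.ne
  obtain ⟨m, rfl⟩ : ∃ m, l = m ++ [a] := by
    refine ⟨l.dropLast, ?_⟩
    have e := List.dropLast_append_getLast h.ne
    rw [h.lt] at e
    exact e.symm
  refine ⟨by simp, ?_, ?_, ?_, by simp⟩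
  · intro p hp
    rw [List.append_assoc, List.singleton_append, prs_append, List.mem_append] at hp
    rcases hp with hp | hp
    · exact h.adj p hp
    · simp only [prs] at hp
      simp only [List.mem_cons, List.not_mem_nil, or_false] at hp
      rw [hp]; exact hab
  · intro s hs
    rcases List.mem_append.1 hs with hs | hs
    · exact h.mem s hs
    · rw [List.mem_singleton] at hs
      rw [hs]; exact hb
  · have := h.hd
    rw [List.head_append_of_ne_nil hne]
    exact this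

theorem dst_step {β : Finset ℂ} {a b : ℂ} (h : ∃ l, Pt R P A (fun s => s = a) l) (hab : R (a, b))
    (hb : P b) : dst R P A β b ≤ dst R P A β a + if b ∈ β then 1 else 0 := by
  obtain ⟨l, hl, e⟩ := dst_spec (β := β) h
  have h1 := dst_le (β := β) (hl.snoc hab hb)
  rw [wt_append, wt_single, e] at h1
  exact h1

/-- on every chain the level `j` is attained at a black site -/
theorem level_hit {β : Finset ℂ} {j : ℕ} : ∀ (m l : List ℂ) (u : ℂ),
    Pt R P A (fun s => s = u) (m ++ [u]) → dst R P A β u < j → (∀ p ∈ prs (u :: l), R p) →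
    (∀ s ∈ l, P s) → j ≤ dst R P A β ((u :: l).getLast (List.cons_ne_nil _ _)) →
    ∃ s ∈ l, s ∈ β ∧ dst R P A β s = j := by
  intro m l
  induction l generalizing m with
  | nil =>
    intro u _ h1 _ _ h2
    simp only [List.getLast_singleton] at h2
    omega
  | cons b l ih =>
    intro u hu h1 hR hP h2
    have hab : R (u, b) := hR _ (by simp [prs])
    have hb : P b := hP b List.mem_cons_self
    have h3 := dst_step (β := β) ⟨_, hu⟩ hab hb
    have hb' := hu.snoc hab hb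
    by_cases h4 : dst R P A β b < j
    · have h5 : (u :: b :: l).getLast (List.cons_ne_nil _ _) =
          (b :: l).getLast (List.cons_ne_nil _ _) := List.getLast_cons_cons
      rw [h5] at h2
      obtain ⟨s, hs, h6⟩ := ih (m ++ [u]) b hb' h4
        (fun p hp => hR p (by simp only [prs]; exact List.mem_cons_of_mem _ hp))
        (fun s hs => hP s (List.mem_cons_of_mem _ hs)) h2
      exact ⟨s, List.mem_cons_of_mem _ hs, h6⟩
    · refine ⟨b, List.mem_cons_self, ?_⟩
      by_cases hbb : b ∈ β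
      · rw [if_pos hbb] at h3
        exact ⟨hbb, by omega⟩
      · rw [if_neg hbb] at h3
        omega

/-- **level sets**: `k` disjoint subsets of `β`, each of them meets every chain -/
theorem levels {β : Finset ℂ} {k : ℕ} (hk : ∀ l, Pt R P A B l → k ≤ wt β l) :
    DisK k (fun γ => ∀ l, Pt R P A B l → ∃ s ∈ l, s ∈ γ) β := by
  refine ⟨fun i => β.filter fun s => dst R P A β s = (i : ℕ) + 1, fun i => Finset.filter_subset _ _,
    ?_, ?_⟩
  · intro i j hij
    rw [Finset.disjoint_left]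
    intro s h1 h2
    have e1 := (Finset.mem_filter.1 h1).2
    have e2 := (Finset.mem_filter.1 h2).2
    apply hij
    apply Fin.ext
    omega
  · intro i l hl
    have hne := hl.ne
    rcases l with _ | ⟨u, l⟩
    · exact absurd rfl hne
    have hA : A u := hl.hd
    have hPu : P u := hl.mem u List.mem_cons_self
    have h0 : Pt R P A (fun s => s = u) ([] ++ [u]) :=
      ⟨by simp, by simp, by simpa using hPu, by simpa using hA, by simp⟩
    have hlast : k ≤ dst R P A β ((u :: l).getLast (List.cons_ne_nil _ _)) := by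
      obtain ⟨m, hm, e⟩ := dst_spec (β := β)
        ⟨u :: l, (⟨hne, hl.adj, hl.mem, hl.hd, rfl⟩ :
          Pt R P A (fun s => s = (u :: l).getLast (List.cons_ne_nil _ _)) (u :: l))⟩
      rw [← e]
      have h1 := hm.lt
      exact hk m ⟨hm.ne, hm.adj, hm.mem, hm.hd, by rw [h1]; exact hl.lt⟩
    have hi := i.2
    have h1 : dst R P A β u ≤ if u ∈ β then 1 else 0 := by
      have := dst_le (β := β) h0
      rwa [List.nil_append, wt_single] at this
    by_cases h2 : dst R P A β u < (i : ℕ) + 1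
    · obtain ⟨s, hs, h3, h4⟩ := level_hit (j := (i : ℕ) + 1) [] l u h0 h2 hl.adj
        (fun s hs => hl.mem s (List.mem_cons_of_mem _ hs)) (by omega)
      exact ⟨s, List.mem_cons_of_mem _ hs, Finset.mem_filter.2 ⟨h3, h4⟩⟩
    · refine ⟨u, List.mem_cons_self, Finset.mem_filter.2 ?_⟩
      by_cases hu : u ∈ β
      · rw [if_pos hu] at h1
        exact ⟨hu, by omega⟩
      · rw [if_neg hu] at h1
        omega

/-- **geometric tail** -/
theorem kk_pr {V : Finset ℂ} {q : ℝ} (hq : pr V (fun γ => ∀ l, Pt R P A B l → ∃ s ∈ l, s ∈ γ) ≤ q)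
    (k : ℕ) : pr V (fun β => k ≤ kk R P A B β) ≤ q ^ k := by
  refine (pr_mono (B := DisK k (fun γ => ∀ l, Pt R P A B l → ∃ s ∈ l, s ∈ γ)) ?_).trans
    (bk_pow_le k ?_ hq)
  · intro β _ h
    exact levels fun l hl => h.trans (kk_le hl)
  · intro β β' h _ h1 l hl
    obtain ⟨s, hs, hs'⟩ := h1 l hl
    exact ⟨s, hs, h hs'⟩

/-- the minimum only depends on the colours of `P` -/
theorem kk_congr {β β' : Finset ℂ} (h : ∀ s, P s → (s ∈ β ↔ s ∈ β')) :
    kk R P A B β = kk R P A B β' := by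
  have key : ∀ l, Pt R P A B l → wt β l = wt β' l := by
    intro l hl
    unfold wt
    apply List.countP_congr
    intro s hs
    simp [h s (hl.mem s hs)]
  unfold kk
  congr 1
  ext n
  constructor
  · rintro ⟨l, hl, e⟩
    exact ⟨l, hl, by rw [← key l hl]; exact e⟩
  · rintro ⟨l, hl, e⟩
    exact ⟨l, hl, by rw [key l hl]; exact e⟩

/-! ### colour changes along a chain -/

/-- bichromatic pairs -/
def bic (β : Finset ℂ) (p : ℂ × ℂ) : Prop := ¬ (p.1 ∈ β ↔ p.2 ∈ β)

/-- number of colour changes `≤ 2 ·` number of black members -/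
theorem bic_le (β : Finset ℂ) : ∀ l : List ℂ,
    (prs l).countP (fun p => decide (bic β p)) ≤ 2 * wt β l ∧
      ((∃ a ∈ l.head?, a ∉ β) → (prs l).countP (fun p => decide (bic β p)) ≤ 2 * wt β l) ∧
      ((∃ a ∈ l.head?, a ∈ β) → (prs l).countP (fun p => decide (bic β p)) + 1 ≤ 2 * wt β l) := by
  intro l
  induction l with
  | nil => simp [prs, wt]
  | cons a l ih =>
    cases l with
    | nil =>
      by_cases ha : a ∈ β <;> simp [prs, wt, ha]
    | cons b l =>
      obtain ⟨i1, i2, i3⟩ := ih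
      have e1 : prs (a :: b :: l) = (a, b) :: prs (b :: l) := rfl
      have e2 : wt β (a :: b :: l) = wt β (b :: l) + if a ∈ β then 1 else 0 := by
        unfold wt
        rw [List.countP_cons]
        by_cases ha : a ∈ β <;> simp [ha]
      have e3 : (prs (a :: b :: l)).countP (fun p => decide (bic β p)) =
          (prs (b :: l)).countP (fun p => decide (bic β p)) + if bic β (a, b) then 1 else 0 := by
        rw [e1, List.countP_cons]
        by_cases h : bic β (a, b) <;> simp [h]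
      rw [e2, e3]
      by_cases ha : a ∈ β
      · have hb1 : (if bic β (a, b) then 1 else 0) ≤ 1 := by split_ifs <;> omega
        simp only [ha, if_true, List.head?_cons, Option.mem_def, Option.some.injEq]
        by_cases hb : b ∈ β
        · have hn : ¬ bic β (a, b) := by unfold bic; simp [ha, hb]
          rw [if_neg hn]
          have := i3 ⟨b, by simp, hb⟩
          refine ⟨by omega, fun _ => by omega, fun _ => by omega⟩
        · have := i2 ⟨b, by simp, hb⟩
          refine ⟨by omega, fun _ => by omega, fun _ => by omega⟩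
      · simp only [ha, if_false, List.head?_cons, Option.mem_def, Option.some.injEq, add_zero]
        by_cases hb : b ∈ β
        · have hb1 : (if bic β (a, b) then 1 else 0) ≤ 1 := by split_ifs <;> omega
          have := i3 ⟨b, by simp, hb⟩
          refine ⟨by omega, fun _ => by omega, ?_⟩
          rintro ⟨x, hx, hx'⟩
          rw [← hx] at hx'
          exact absurd hx' ha
        · have hn : ¬ bic β (a, b) := by unfold bic; simp [ha, hb]
          rw [if_neg hn]
          refine ⟨by omega, fun _ => by omega, ?_⟩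
          rintro ⟨x, hx, hx'⟩
          rw [← hx] at hx'
          exact absurd hx' ha

end levels

/-! ### crossings of the four rectangles of a square annulus -/

section rect

variable {S V : Finset ℂ} {z0 : ℂ} {r : ℝ} {k : Fin 4}

/-- the region of the rectangle `k` -/
def RP (S : Finset ℂ) (z0 : ℂ) (r : ℝ) (k : Fin 4) (s : ℂ) : Prop :=
  s ∈ S ∧ |((s - zc z0 r k) / dir k).im| < 1 / 4 * r ∧
    |((s - zc z0 r k) / dir k).re| ≤ 3 / 2 * r + 1 / 4 * r

/-- chains which cross the rectangle `k` the long way -/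
def PE (S : Finset ℂ) (z0 : ℂ) (r : ℝ) (k : Fin 4) (l : List ℂ) : Prop :=
  Pt (fun p => DE S p.1 p.2) (RP S z0 r k) (fun s => ((s - zc z0 r k) / dir k).re ≤ -(3 / 2 * r))
    (fun s => 3 / 2 * r ≤ ((s - zc z0 r k) / dir k).re) l

/-- minimal number of black sites of a long crossing of the rectangle `k` -/
def KE (S : Finset ℂ) (z0 : ℂ) (r : ℝ) (k : Fin 4) (β : Finset ℂ) : ℕ :=
  kk (fun p => DE S p.1 p.2) (RP S z0 r k) (fun s => ((s - zc z0 r k) / dir k).re ≤ -(3 / 2 * r))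
    (fun s => 3 / 2 * r ≤ ((s - zc z0 r k) / dir k).re) β

theorem pe_iff {l : List ℂ} : PE S z0 r k l ↔
    Cross S (zc z0 r k) (dir k) (3 / 2 * r) (1 / 4 * r) S l := by
  constructor
  · intro h
    exact ⟨h.ne, h.adj, fun s hs => (h.mem s hs).1, fun s hs => (h.mem s hs).2.1,
      fun s hs => (h.mem s hs).2.2, h.hd, h.lt⟩
  · intro h
    exact ⟨h.ne, h.adj, fun s hs => ⟨h.col s hs, h.strip s hs, h.loc s hs⟩, h.left, h.right⟩

theorem rp_ann (hr : 0 < r) {s : ℂ} (h : RP S z0 r k s) :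
    s ∈ S ∧ r < sup (s - z0) ∧ sup (s - z0) < 2 * r := by
  obtain ⟨h0, h1, h2⟩ := h
  refine ⟨h0, ?_⟩
  rw [abs_lt] at h1
  rw [abs_le] at h2
  unfold sup
  rw [lt_max_iff, lt_abs, lt_abs, max_lt_iff, abs_lt, abs_lt]
  fin_cases k <;>
    simp only [zc, dir, div_one, div_I_re, div_I_im, Complex.sub_re, Complex.sub_im, Complex.add_re,
      Complex.add_im, Complex.mul_re, Complex.mul_im, Complex.ofReal_re, Complex.ofReal_im,
      Complex.I_re, Complex.I_im, mul_zero, mul_one, zero_mul, sub_zero, add_zero, zero_add] at h1 h2 ⊢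
  · refine ⟨Or.inr (Or.inl ?_), ⟨?_, ?_⟩, ⟨?_, ?_⟩⟩ <;> linarith
  · refine ⟨Or.inl (Or.inr ?_), ⟨?_, ?_⟩, ⟨?_, ?_⟩⟩ <;> linarith
  · refine ⟨Or.inr (Or.inr ?_), ⟨?_, ?_⟩, ⟨?_, ?_⟩⟩ <;> linarith
  · refine ⟨Or.inl (Or.inl ?_), ⟨?_, ?_⟩, ⟨?_, ?_⟩⟩ <;> linarith

/-- `KE` only depends on the colours of the annulus -/
theorem ke_congr (hr : 0 < r) {β β' : Finset ℂ}
    (h : ∀ s ∈ S, r < sup (s - z0) → sup (s - z0) < 2 * r → (s ∈ β ↔ s ∈ β')) :
    KE S z0 r k β = KE S z0 r k β' :=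
  kk_congr fun s hs => by
    obtain ⟨h0, h1, h2⟩ := rp_ann hr hs
    exact h s h0 h1 h2

theorem ke_dep (hr : 0 < r) {W : Finset ℂ} (β : Finset ℂ)
    (hW : ∀ s ∈ S, r < sup (s - z0) → sup (s - z0) < 2 * r → s ∈ W) :
    KE S z0 r k β = KE S z0 r k (β ∩ W) :=
  ke_congr hr fun s hs h1 h2 => by
    rw [Finset.mem_inter]
    exact ⟨fun h => ⟨h, hW s hs h1 h2⟩, fun h => h.1⟩

/-- **geometric tail**, given the probability of a crossing -/
theorem ke_tail_of {p : ℝ} (hVS : V ⊆ S) (h : p ≤ pr V (fun β => CE S z0 r k β)) (j : ℕ) :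
    pr V (fun β => j ≤ KE S z0 r k β) ≤ (1 - p) ^ j := by
  refine kk_pr ?_ j
  · rw [← pr_flip V (fun β => CE S z0 r k β)] at h
    have h1 : pr V (fun γ => ∀ l, Pt (fun p => DE S p.1 p.2) (RP S z0 r k)
        (fun s => ((s - zc z0 r k) / dir k).re ≤ -(3 / 2 * r))
        (fun s => 3 / 2 * r ≤ ((s - zc z0 r k) / dir k).re) l → ∃ s ∈ l, s ∈ γ) ≤
        pr V (fun β => ¬ CE S z0 r k (V \ β)) := by
      refine pr_mono fun β _ hA ⟨l, hl⟩ => ?_
      have hl' : PE S z0 r k l := pe_iff.2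
        (cross_mono hl (Finset.sdiff_subset.trans hVS))
      obtain ⟨s, hs, hs'⟩ := hA l hl'
      exact (Finset.mem_sdiff.1 (hl.col s hs)).2 hs'
    rw [pr_not] at h1
    linarith

/-- crossing probability of the four rectangles from `RBm` -/
theorem ce_prm (hRB : RBm) : ∀ C4 : ℝ, 0 ≤ C4 → ∃ p c1 c2 K : ℝ, 0 < p ∧ 0 < c1 ∧ 0 < c2 ∧ c2 ≤ 1 ∧
    0 < K ∧ ∀ (S : Finset ℂ) (z0 : ℂ) (r d : ℝ), 0 < r → LDns S z0 (K * r) d →
    MeshA S z0 (K * r) c2 r C4 → d ≤ c1 * r →
    ∀ V : Finset ℂ, V ⊆ S → (∀ s ∈ S, r < sup (s - z0) → sup (s - z0) < 2 * r → s ∈ V) →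
    ∀ k : Fin 4, p ≤ pr V (fun β => CE S z0 r k β) := by
  intro C4 hC4
  obtain ⟨p, c1, c2, K, hp, hc1, hc2, hc2', hK, h⟩ := hRB 6 (by norm_num) C4 hC4
  refine ⟨p, c1 / 4, c2 / 4, 7 / 4 * K + 5 / 4, hp, by positivity, by positivity,
    by linarith, by positivity, ?_⟩
  intro S z0 r d hr hD hM hd V hV hann k
  have hsh : ‖zc z0 r k - z0‖ + K * (3 / 2 * r + 1 / 4 * r) ≤ (7 / 4 * K + 5 / 4) * r := by
    rw [norm_zc hr]; nlinarith
  have hM' : MeshA S (zc z0 r k) (K * (3 / 2 * r + 1 / 4 * r)) c2 (1 / 4 * r) C4 :=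
    (hM.shift hsh).sub (by linarith) (by linarith)
  obtain ⟨V0, hV0, h0⟩ := h S (zc z0 r k) (dir k) (3 / 2 * r) (1 / 4 * r) d (norm_dir k)
    (by positivity) (by positivity) (by linarith) (by linarith)
    (LDns.shift hD hsh) hM' (by linarith)
  refine pr_transfer (S := S) hV0 (fun β β' h1 ⟨l, hl⟩ => ⟨l, cross_mono hl h1⟩) ?_ hV h0
  rintro β hβ ⟨l, hl⟩
  have ha := CE.ann hr hl
  exact ⟨l, hl.ne, hl.adj, fun s hs => Finset.mem_inter.2 ⟨hl.col s hs,
    hann s (hβ (hl.col s hs)) (ha s hs).1 (ha s hs).2⟩, hl.strip, hl.loc, hl.left, hl.right⟩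

/-- **the tail of the minimal number of black sites** -/
theorem ke_tail (hRB : RBm) : ∀ C4 : ℝ, 0 ≤ C4 → ∃ p c1 c2 K : ℝ, 0 < p ∧ p ≤ 1 ∧ 0 < c1 ∧ 0 < c2 ∧
    c2 ≤ 1 ∧ 0 < K ∧ ∀ (S : Finset ℂ) (z0 : ℂ) (r d : ℝ), 0 < r → LDns S z0 (K * r) d →
    MeshA S z0 (K * r) c2 r C4 → d ≤ c1 * r →
    (∀ k : Fin 4, ∃ l, Cross S (zc z0 r k) (dir k) (3 / 2 * r) (1 / 4 * r) S l) ∧
    ∀ V : Finset ℂ, V ⊆ S → (∀ s ∈ S, r < sup (s - z0) → sup (s - z0) < 2 * r → s ∈ V) →
    ∀ (k : Fin 4) (j : ℕ), pr V (fun β => j ≤ KE S z0 r k β) ≤ (1 - p) ^ j := by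
  intro C4 hC4
  obtain ⟨p, c1, c2, K, hp, hc1, hc2, hc2', hK, h⟩ := ce_prm hRB C4 hC4
  refine ⟨min p 1, c1, c2, K, lt_min hp one_pos, min_le_right _ _, hc1, hc2, hc2', hK, ?_⟩
  intro S z0 r d hr hD hM hd
  refine ⟨fun k => ?_, ?_⟩
  · by_contra hcon
    push Not at hcon
    have h0 := h S z0 r d hr hD hM hd S subset_rfl (fun s hs _ _ => hs) k
    have h1 : pr S (fun β => CE S z0 r k β) ≤ pr S (fun _ => False) := by
      refine pr_mono fun β hβ ⟨l, hl⟩ => ?_
      exact hcon l (cross_mono hl hβ)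
    rw [pr_false] at h1
    linarith
  · intro V hV hann k j
    exact ke_tail_of hV
      ((min_le_left _ _).trans (h S z0 r d hr hD hM hd V hV hann k)) j

end rect

end Crest.Agent.R143.NstAx700
end
end

-- ▼ part R143/GapI_877

/-!
# Row 143 (S0194), block X: leaf GAPI (helper877)

* `Nx`, `leadsO_total`, `tip_uniq` : the walk outside `W` up to its tip
* `Ex` : explored sites; `lead_iff`, `ex_stop` : it is an exploration (any join, any start)
* `LE` : edges of the leg; `leg_disj` : two legs have no common edge; `le_even` : `J` without the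
  edges of a leg is even at the triangles of the disc
* `block` : a closed chain whose sites in the disc have the colour of the explored leg is not
  crossed by the other leg
* `pr_xor`, `pr_fresh` : probability of the circuits around the tip
* `gapi : RB → GAPI`
-/

set_option autoImplicit false

noncomputable section

open scoped Classical

namespace Crest.Agent.R143.GapIx877

open Crest.Agent.R143.B0x346 Crest.Agent.R143.DelGx806 Crest.Agent.R143.DelRx806
open Crest.Agent.R143.ToolWx838 Crest.Agent.R143.Blkx838 Crest.Agent.R143.Harx315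
open Crest.Agent.R143.RB0x838 Crest.Agent.R143.Planarx54 Crest.Agent.R143.CircPx838
open Crest.Agent.R143.X0Bx683 Crest.Agent.R143.X0Cx683 Crest.Agent.R143.Indepx583
open Crest.Agent.R143.JCardx872 Crest.Agent.R143.JWalkx872 Crest.Agent.R143.XGx343

/-! ### walks outside `W` -/

section walk

variable {G : Trg ℂ} {kl : Set (ℂ × ℂ)} {O : Set (ℂ × ℂ × ℂ)} {D : Set (ℂ × ℂ)}
  {J : Finset (ℂ × ℂ)} {W : Set ℂ}









end walk

/-! ### explored sites -/

section explore

variable {G : Trg ℂ} {kl : Set (ℂ × ℂ)} {O : Set (ℂ × ℂ × ℂ)} {D : Set (ℂ × ℂ)}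
  {J : Finset (ℂ × ℂ)} {W : Set ℂ} {V : Finset ℂ} {p0 : ℂ × ℂ}

/-- explored sites -/
def Ex (G : Trg ℂ) (O : Set (ℂ × ℂ × ℂ)) (D : Set (ℂ × ℂ)) (W : Set ℂ) (V : Finset ℂ)
    (p0 : ℂ × ℂ) (J : Finset (ℂ × ℂ)) : Finset ℂ :=
  V.filter fun s => ∃ p, LeadsO G O D J W p0 p ∧ (s = p.1 ∨ s = p.2)







end explore

/-! ### the legs of a face in a disc -/

section legs

variable {S : Finset ℂ} {G : Trg ℂ} {kl : Set (ℂ × ℂ)} {D : Set (ℂ × ℂ)}
  {J : Finset (ℂ × ℂ)} {W : Set ℂ} {t : ℂ × ℂ × ℂ} {i j : ZMod 3}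

/-- edges of the leg `i` -/
def LE (G : Trg ℂ) (D : Set (ℂ × ℂ)) (J : Finset (ℂ × ℂ)) (W : Set ℂ) (t : ℂ × ℂ × ℂ)
    (i : ZMod 3) : Set (ℂ × ℂ) :=
  {e | ∃ p, LeadsO G (rots t) D J W (st t i) p ∧ (e = p ∨ e = (p.2, p.1))}


/-- standing assumptions: the face `t` is outside `W`, its sides are occupied, no marks outside `W` -/
structure Fce (S : Finset ℂ) (G : Trg ℂ) (kl : Set (ℂ × ℂ)) (D : Set (ℂ × ℂ))
    (J : Finset (ℂ × ℂ)) (W : Set ℂ) (t : ℂ × ℂ × ℂ) : Prop where
  gp : GP (S : Set ℂ)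
  tri : G.T = delT S
  join : IsJoin G kl (rots t) D J
  mem : t ∈ delT S
  out : ∀ i, vt t i ∉ W
  occ : ∀ i, (vt t i, vt t (i + 1)) ∈ J
  nomark : ∀ x ∈ D, x.1 ∈ W ∧ x.2 ∈ W

variable (F : Fce S G kl D J W t)

include F

theorem Fce.sym {a b : ℂ} (ha : a ∉ W) : (a, b) ∈ J ↔ (b, a) ∈ J :=
  F.join.sym a b (fun h => ha (F.nomark _ h).1) (fun h => ha (F.nomark _ h).2)


theorem Fce.stMem (i : ZMod 3) : st t i ∈ J := (F.sym (F.out i)).1 (F.occ i)

theorem Fce.posMem {p : ℂ × ℂ} (h : LeadsO G (rots t) D J W (st t i) p) : p ∈ J := by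
  have h1 := leadsO_out h
  rcases leads_mem F.join (F.stMem i) (leadsO_leads h) with h' | h'
  · exact h'
  · exact absurd (F.nomark _ h').1 h1.2

theorem Fce.triO (i : ZMod 3) : (vt t i, vt t (i + 1), vt t (i + 2)) ∈ G.T ∧
    (vt t i, vt t (i + 1), vt t (i + 2)) ∈ rots t := by
  refine ⟨?_, rots_vt t i⟩
  rw [F.tri]
  exact vt_tri F.gp F.mem i

/-- the walker which faces `t` is at its end -/
theorem Fce.term (i : ZMod 3) : Term G (rots t) D J (vt t i, vt t (i + 1)) :=
  Or.inr ⟨F.occ i, _, F.triO i⟩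









/-- all sites of the leg have the same colour -/
theorem Fce.const {φ : ℂ → ZMod 2} (hφ : ∀ a b, a ∉ W → b ∉ W → JColx54.Adj S a b →
      (((a, b) ∈ J ∧ (a, b) ∉ LE G D J W t i) ↔ φ a ≠ φ b)) {p : ℂ × ℂ}
    (hp : LeadsO G (rots t) D J W (st t i) p) : φ p.1 = φ (vt t i) ∧ φ p.2 = φ (vt t i) := by
  have eq : ∀ {p : ℂ × ℂ}, LeadsO G (rots t) D J W (st t i) p → φ p.1 = φ p.2 := by
    intro p hp
    have h1 := leadsO_out hp
    obtain ⟨c, hc⟩ := occ_tri F.join (F.posMem hp)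
    rw [F.tri] at hc
    by_contra hcon
    have h2 := (hφ p.1 p.2 h1.1 h1.2 (Or.inl ⟨c, hc⟩)).2 hcon
    exact h2.2 ⟨p, hp, Or.inl rfl⟩
  obtain ⟨h0, h⟩ := hp
  induction h with
  | refl =>
    have h1 := eq (p := st t i) ⟨h0, Relation.ReflTransGen.refl⟩
    exact ⟨h1, rfl⟩
  | @tail a b h1 h2 ih =>
    have h3 := eq (p := b) ⟨h0, h1.tail h2⟩
    obtain ⟨⟨c, -, -, -, h4⟩, -⟩ := h2
    rcases h4 with ⟨-, rfl⟩ | ⟨-, -, rfl⟩
    · exact ⟨h3.trans ih.2, ih.2⟩
    · exact ⟨ih.1, h3.symm.trans ih.1⟩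


end legs

/-! ### probability -/

section prob




/-- small triangles -/
theorem tri_small {S : Finset ℂ} {z0 : ℂ} {R1 d : ℝ} (h : LDns S z0 R1 d) {a b c : ℂ}
    (ht : (a, b, c) ∈ delT S) (ha : ‖a - z0‖ + d ≤ R1) :
    ‖b - a‖ < 2 * d ∧ ‖c - a‖ < 2 * d ∧ ‖c - b‖ < 2 * d := by
  obtain ⟨-, -, -, -, o, h1, h2, h3⟩ := mem_delT.1 ht
  have key : ‖a - o‖ < d := by
    by_contra hcon
    push Not at hcon
    have hd := h.dpos
    have h0 : 0 < ‖a - o‖ := lt_of_lt_of_le hd hcon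
    set l : ℝ := d / ‖a - o‖ with hl
    have hl0 : 0 < l := div_pos hd h0
    have hl1 : l ≤ 1 := by rw [hl, div_le_one h0]; exact hcon
    set z : ℂ := a + (l : ℂ) * (o - a) with hz
    have e1 : ‖z - a‖ = d := by
      have : z - a = (l : ℂ) * (o - a) := by rw [hz]; ring
      rw [this, norm_mul, Complex.norm_real, Real.norm_of_nonneg hl0.le, norm_sub_rev, hl,
        div_mul_cancel₀ _ h0.ne']
    have e2 : ‖z - o‖ = ‖a - o‖ - d := by
      have : z - o = ((1 - l : ℝ) : ℂ) * (a - o) := by rw [hz]; push_cast; ring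
      rw [this, norm_mul, Complex.norm_real, Real.norm_of_nonneg (by linarith), hl]
      field_simp
    obtain ⟨s, hs, hs2⟩ := h.hole z (by
      calc ‖z - z0‖ = ‖(z - a) + (a - z0)‖ := by congr 1; ring
        _ ≤ ‖z - a‖ + ‖a - z0‖ := norm_add_le _ _
        _ ≤ R1 := by linarith)
    have h4 := h3 s hs
    have h5 : ‖s - o‖ ≤ ‖s - z‖ + ‖z - o‖ := by
      calc ‖s - o‖ = ‖(s - z) + (z - o)‖ := by congr 1; ring
        _ ≤ _ := norm_add_le _ _
    linarith
  have tri : ∀ x y : ℂ, ‖x - o‖ < d → ‖y - o‖ < d → ‖x - y‖ < 2 * d := by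
    intro x y hx hy
    calc ‖x - y‖ = ‖(x - o) - (y - o)‖ := by congr 1; ring
      _ ≤ ‖x - o‖ + ‖y - o‖ := norm_sub_le _ _
      _ < 2 * d := by linarith
  exact ⟨tri _ _ (by rw [h1]; exact key) key, tri _ _ (by rw [h2]; exact key) key,
    tri _ _ (by rw [h2]; exact key) (by rw [h1]; exact key)⟩



end prob

/-! ### GAPI -/

section final

variable {S : Finset ℂ} {N : Net ℂ} {z0 : ℂ} {R R1 d b0 C4 : ℝ}









theorem z2 : ∀ x y : ZMod 2, x ≠ y → x + 1 = y := by decide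






end final

end Crest.Agent.R143.GapIx877
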