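import Crest.Agent.R143.Law_872
import Crest.Agent.R143.CB_838

/-!
# Row 143, leaf D3F (helper749): gauge + law + scales

* `XCh S V p r1 r2 J l` : `l` is a chain of sites of `V` without edges of `J`, from the disc of radius
  `r1` around `p` to the complement of the disc of radius `r2`
* `Gauge S V J` : on the edges inside `V` the join `J` is the boundary of a set of sites
* `gauge_of_ref` : one gauge (for one join) gives a gauge for all joins with the same marks
* `gauge_law` : number of joins with such a chain `≤ 2 · pr V (Arm) · #joins`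
* `arm_multi` : `pr V (Arm) ≤ (1 - exp (- C (1 + C4))) ^ m`, `m` dyadic scales
* `x_law` : both together
-/

set_option autoImplicit false

noncomputable section

open scoped Classical

namespace Crest.Agent.R143.GauAx749

open Crest.Agent.R143.B0x346 Crest.Agent.R143.DelGx806 Crest.Agent.R143.DelRx806
open Crest.Agent.R143.JColx54 Crest.Agent.R143.JCol2x54
open Crest.Agent.R143.ToolWx838 Crest.Agent.R143.Blkx838 Crest.Agent.R143.ToolW2x838
open Crest.Agent.R143.ToolW3x838 Crest.Agent.R143.Circ4x838 Crest.Agent.R143.Harx315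
open Crest.Agent.R143.RB0x838 Crest.Agent.R143.CircPx838 Crest.Agent.R143.Gatex838
open Crest.Agent.R143.CBx838 Crest.Agent.R143.J8x872

local notation "flp" => Crest.Agent.R143.X0Bx683.flip
local notation "bdy" => Crest.Agent.R143.X0Bx683.bd

variable {S : Finset ℂ} {G : Trg ℂ} {kl : Set (ℂ × ℂ)} {O : Set (ℂ × ℂ × ℂ)}
  {D : Set (ℂ × ℂ)} {J J' : Finset (ℂ × ℂ)} {V β β' : Finset ℂ} {p : ℂ} {r1 r2 : ℝ}

/-- a chain of sites of `V` without edges of `J` across an annulus -/
structure XCh (S V : Finset ℂ) (p : ℂ) (r1 r2 : ℝ) (J : Finset (ℂ × ℂ)) (l : List ℂ) : Prop where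
  ne : l ≠ []
  adj : ∀ q ∈ prs l, DE S q.1 q.2
  mem : ∀ s ∈ l, s ∈ V
  free : JFree J l
  left : ‖l.head ne - p‖ ≤ r1
  right : r2 ≤ ‖l.getLast ne - p‖









/-! ### scales -/



end Crest.Agent.R143.GauAx749
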