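import Crest.Agent.R143.Cfg_416
import Crest.Agent.R143.Spine2_422

-- ▼ part R143/GeoSeq_416
section

/-!
# Row 143 (S0194), BLOCK D: from the macroscopic configurations to the leaf `LDom'` (helper416)

* `Arcs` : the four boundary arcs
* `macLO`, `macUP` : conditions of D4 from `Mac`
-/

set_option autoImplicit false

noncomputable section

namespace Crest.Agent.R143.GeoSeqx416

open Set Filter Topology MeasureTheory Metric
open Crest.ProbabilityR.Voronoi
open Crest.Agent.R143.B0x346 Crest.Agent.R143.B0Dx346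
open Crest.Agent.R143.Spinex422 Crest.Agent.R143.Cfgx416

/-- the four boundary arcs of a domain -/
structure Arcs (D : Set ℂ) (A : ZMod 4 → Set ℂ) (m : ZMod 4 → ℂ) : Prop where
  cpt : ∀ i, IsCompact (A i)
  mem : ∀ i, m i ∈ A i
  mem' : ∀ i, m i ∈ A (i - 1)
  sub : ∀ i, A i ⊆ frontier D
  cov : frontier D ⊆ ⋃ i, A i
  opp : ∀ i, Disjoint (A i) (A (i + 2))

theorem cases4 (i j : ZMod 4) : j = i ∨ j = i + 1 ∨ j = i + 2 ∨ j = i + 3 := by
  revert i j; decide

theorem Arcs.ne {D : Set ℂ} {A : ZMod 4 → Set ℂ} {m : ZMod 4 → ℂ} (h : Arcs D A m) (i : ZMod 4) :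
    (A i).Nonempty := ⟨_, h.mem i⟩

theorem Arcs.rv {D : Set ℂ} {A : ZMod 4 → Set ℂ} {m : ZMod 4 → ℂ} (h : Arcs D A m) (r : Bool) :
    Arcs D (rvA r A) (rvm r m) := by
  cases r
  · exact h
  · refine ⟨fun i => h.cpt _, fun i => ?_, fun i => ?_, fun i => h.sub _, ?_, fun i => ?_⟩
    · show m (2 - i) ∈ A (1 - i)
      have := h.mem' (2 - i)
      rwa [show (2 : ZMod 4) - i - 1 = 1 - i by ring] at this
    · show m (2 - i) ∈ A (1 - (i - 1))
      have := h.mem (2 - i)
      rwa [show (1 : ZMod 4) - (i - 1) = 2 - i by ring]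
    · refine h.cov.trans fun z hz => ?_
      obtain ⟨i, hi⟩ := mem_iUnion.1 hz
      refine mem_iUnion.2 ⟨1 - i, ?_⟩
      show z ∈ A (1 - (1 - i))
      rwa [sub_sub_cancel]
    · show Disjoint (A (1 - i)) (A (1 - (i + 2)))
      have := h.opp (1 - (i + 2))
      rw [show (1 : ZMod 4) - (i + 2) + 2 = 1 - i by ring] at this
      exact this.symm

variable {D : Set ℂ} {A : ZMod 4 → Set ℂ} {m : ZMod 4 → ℂ} {T : Set (ZMod 4)} {md : ℝ → ℝ} {e : ℝ}
  {K : Set ℂ} {C : Cfg 4} {δ κ : ℝ} {G : Set ℂ} {B : ZMod 4 → Set ℂ}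


/-- two points near opposite arcs are far -/
theorem far_of_near (hA : Arcs D A m) {i : ZMod 4} {r : ℝ}
    (h4 : ∀ x ∈ A i, ∀ y ∈ A (i + 2), r ≤ dist x y) {x y : ℂ} {a b : ℝ}
    (hx : infDist x (A i) ≤ a) (hy : infDist y (A (i + 2)) ≤ b) : r - a - b ≤ dist x y := by
  obtain ⟨x', hx', hxe⟩ := (hA.cpt i).exists_infDist_eq_dist (hA.ne i) x
  obtain ⟨y', hy', hye⟩ := (hA.cpt (i + 2)).exists_infDist_eq_dist (hA.ne (i + 2)) y
  have h1 := h4 x' hx' y' hy'
  have h2 : dist x' y' ≤ dist x' x + dist x y + dist y y' := dist_triangle4 _ _ _ _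
  rw [dist_comm x' x] at h2
  linarith

/-- **conditions of D4LO** -/
theorem macLO (hA : Arcs D A m) (hD : IsOpen D) (h : Mac D A m T md e K C δ κ G B) {i : ZMod 4}
    (hi : i ∉ T) (hi2 : i + 2 ∉ T) (h1T : i + 1 ∈ T) (h3T : i + 3 ∈ T)
    (h4 : ∀ x ∈ A i, ∀ y ∈ A (i + 2), 4 * e ≤ dist x y) :
    MacLO C δ D (A i) (A (i + 2)) i κ
      ((G ∩ Dᶜ ∩ {z | infDist z (A i) ≤ e}) ∪ (B i ∪ B (i + 1)))
      ((G ∩ Dᶜ ∩ {z | infDist z (A (i + 2)) ≤ e}) ∪ (B (i + 2) ∪ B (i + 3))) := by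
  have hk := h.kpos
  have he : 0 < e := hk.trans h.ke
  have hcl : ∀ j, IsClosed (G ∩ Dᶜ ∩ {z | infDist z (A j) ≤ e}) := fun j =>
    (h.Gc.isClosed.inter hD.isClosed_compl).inter
      (isClosed_le (continuous_infDist_pt _) continuous_const)
  -- marks
  have hm2 : ∀ z, infDist z (A i) ≤ e → ∀ k, (k = i + 2 ∨ k = i + 3) → e ≤ dist z (m k) := by
    intro z hz k hk'
    have h5 : m k ∈ A (i + 2) := by
      rcases hk' with rfl | rfl
      · exact hA.mem _
      · have := hA.mem' (i + 3)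
        rwa [show i + 3 - 1 = i + 2 by ring] at this
    have h6 := far_of_near hA h4 hz (y := m k) (b := 0) (by
      rw [infDist_zero_of_mem h5])
    linarith
  have hm0 : ∀ z, infDist z (A (i + 2)) ≤ e → ∀ k, (k = i ∨ k = i + 1) → e ≤ dist z (m k) := by
    intro z hz k hk'
    have h5 : m k ∈ A i := by
      rcases hk' with rfl | rfl
      · exact hA.mem _
      · have := hA.mem' (i + 1)
        rwa [show i + 1 - 1 = i by ring] at this
    have h6 := far_of_near hA h4 (x := m k) (a := 0) (by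
      rw [infDist_zero_of_mem h5]) hz
    rw [dist_comm] at h6
    linarith
  have hBB : ∀ j k, j ≠ k → ∀ y ∈ B j, ∀ w ∈ B k, κ ≤ dist y w := h.tbt
  have hne : ∀ a b : ZMod 4, a ≠ b → i + a ≠ i + b := fun a b hab h' => hab (add_left_cancel h')
  refine ⟨hk, h.bd, (hcl i).union ((h.Bc _).union (h.Bc _)),
    (hcl (i + 2)).union ((h.Bc _).union (h.Bc _)), ?_, ?_, ?_, ?_, ?_, ?_, ?_, ?_⟩
  · -- sep
    have n02 : i ≠ i + 2 := by simpa using hne 0 2 (by decide)
    have n03 : i ≠ i + 3 := by simpa using hne 0 3 (by decide)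
    have n12 : i + 1 ≠ i + 2 := hne 1 2 (by decide)
    have n13 : i + 1 ≠ i + 3 := hne 1 3 (by decide)
    rintro x (⟨⟨hxG, hxD⟩, hx⟩ | hx) y (⟨⟨hyG, hyD⟩, hy⟩ | hy)
    · have := far_of_near hA h4 hx hy
      linarith [h.ke]
    · by_contra hcon
      push Not at hcon
      rcases hy with hy | hy
      · have h5 := h.tg (i + 2) y hy x hxG (by rwa [dist_comm])
        linarith [hm2 x hx _ (Or.inl rfl)]
      · have h5 := h.tg (i + 3) y hy x hxG (by rwa [dist_comm])
        linarith [hm2 x hx _ (Or.inr rfl)]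
    · by_contra hcon
      push Not at hcon
      rcases hx with hx | hx
      · have h5 := h.tg i x hx y hyG hcon
        linarith [hm0 y hy _ (Or.inl rfl)]
      · have h5 := h.tg (i + 1) x hx y hyG hcon
        linarith [hm0 y hy _ (Or.inr rfl)]
    · rcases hx with hx | hx <;> rcases hy with hy | hy
      · exact hBB _ _ n02 _ hx _ hy
      · exact hBB _ _ n03 _ hx _ hy
      · exact hBB _ _ n12 _ hx _ hy
      · exact hBB _ _ n13 _ hx _ hy
  · -- cov
    rintro z ⟨hz, hzD⟩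
    have h5 : z ∈ (G \ C.out) ∪ ⋃ k, B k := by rw [← h.body]; exact hz
    rcases h5 with ⟨hzG, -⟩ | h5
    · obtain ⟨j, hj, hjd⟩ := h.ns z hzG hz hzD
      rcases cases4 i j with rfl | rfl | rfl | rfl
      · exact Or.inl (Or.inl ⟨⟨hzG, hzD⟩, hjd.le⟩)
      · exact absurd h1T hj
      · exact Or.inr (Or.inl ⟨⟨hzG, hzD⟩, hjd.le⟩)
      · exact absurd h3T hj
    · obtain ⟨j, hj⟩ := mem_iUnion.1 h5
      rcases cases4 i j with rfl | rfl | rfl | rfl
      · exact Or.inl (Or.inr (Or.inl hj))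
      · exact Or.inl (Or.inr (Or.inr hj))
      · exact Or.inr (Or.inr (Or.inl hj))
      · exact Or.inr (Or.inr (Or.inr hj))
  · -- fr1
    rintro z ⟨⟨hz, hzf⟩, hzE⟩
    have hzc : z ∈ closure D := frontier_subset_closure hzf
    obtain ⟨j, hj⟩ := mem_iUnion.1 (hA.cov hzf)
    rcases cases4 i j with rfl | rfl | rfl | rfl
    · exact hj
    · exact absurd (mem_iUnion.2 ⟨_, h.sw _ h1T hj⟩) hz
    · exfalso
      rcases hzE with ⟨-, hz1⟩ | hz1 | hz1
      · have h5 := far_of_near hA h4 (x := z) (y := z) (b := 0) hz1 (by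
          rw [infDist_zero_of_mem hj])
        rw [dist_self] at h5
        linarith
      · have := h.tbD _ z hz1 z hzc
        rw [dist_self] at this; linarith
      · have := h.tbD _ z hz1 z hzc
        rw [dist_self] at this; linarith
    · exact absurd (mem_iUnion.2 ⟨_, h.sw _ h3T hj⟩) hz
  · -- fr2
    rintro z ⟨⟨hz, hzf⟩, hzE⟩
    have hzc : z ∈ closure D := frontier_subset_closure hzf
    obtain ⟨j, hj⟩ := mem_iUnion.1 (hA.cov hzf)
    rcases cases4 i j with rfl | rfl | rfl | rfl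
    · exfalso
      rcases hzE with ⟨-, hz1⟩ | hz1 | hz1
      · have h5 := far_of_near hA h4 (x := z) (y := z) (a := 0) (by
          rw [infDist_zero_of_mem hj]) hz1
        rw [dist_self] at h5
        linarith
      · have := h.tbD _ z hz1 z hzc
        rw [dist_self] at this; linarith
      · have := h.tbD _ z hz1 z hzc
        rw [dist_self] at this; linarith
    · exact absurd (mem_iUnion.2 ⟨_, h.sw _ h1T hj⟩) hz
    · exact hj
    · exact absurd (mem_iUnion.2 ⟨_, h.sw _ h3T hj⟩) hz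
  · -- nr1
    rintro z hz ⟨w, hw, hzw⟩
    have hzD : z ∉ D := fun hzD => by
      have := h.otD i hi z (subset_closure hzD) w hw
      linarith
    refine ⟨?_, hzD⟩
    have h5 : z ∈ (G \ C.out) ∪ ⋃ k, B k := by rw [← h.body]; exact hz
    rcases h5 with ⟨hzG, -⟩ | h5
    · exact Or.inl ⟨⟨hzG, hzD⟩, (h.nr i z hzG w hw (by rwa [dist_comm])).le⟩
    · obtain ⟨j, hj⟩ := mem_iUnion.1 h5
      rcases cases4 i j with rfl | rfl | rfl | rfl
      · exact Or.inr (Or.inl hj)
      · exact Or.inr (Or.inr hj)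
      · refine absurd hw (h.tbn _ z hj w (by rwa [dist_comm]) i ?_ ?_)
        · rw [show i + 2 - 1 = i + 1 by ring]
          simpa using hne 0 1 (by decide)
        · simpa using hne 0 2 (by decide)
      · refine absurd hw (h.tbn _ z hj w (by rwa [dist_comm]) i ?_ ?_)
        · rw [show i + 3 - 1 = i + 2 by ring]
          simpa using hne 0 2 (by decide)
        · simpa using hne 0 3 (by decide)
  · -- nr2
    rintro z hz ⟨w, hw, hzw⟩
    have hzD : z ∉ D := fun hzD => by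
      have := h.otD _ hi2 z (subset_closure hzD) w hw
      linarith
    refine ⟨?_, hzD⟩
    have h5 : z ∈ (G \ C.out) ∪ ⋃ k, B k := by rw [← h.body]; exact hz
    rcases h5 with ⟨hzG, -⟩ | h5
    · exact Or.inl ⟨⟨hzG, hzD⟩, (h.nr _ z hzG w hw (by rwa [dist_comm])).le⟩
    · obtain ⟨j, hj⟩ := mem_iUnion.1 h5
      rcases cases4 i j with rfl | rfl | rfl | rfl
      · refine absurd hw (h.tbn _ z hj w (by rwa [dist_comm]) (j + 2) ?_ ?_)
        · rw [show j - 1 = j + 3 by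
            have : (3 : ZMod 4) = -1 := by decide
            rw [this]; ring]
          exact hne 2 3 (by decide)
        · simpa using hne 2 0 (by decide)
      · refine absurd hw (h.tbn _ z hj w (by rwa [dist_comm]) (i + 2) ?_ ?_)
        · rw [show i + 1 - 1 = i by ring]
          simpa using hne 2 0 (by decide)
        · exact hne 2 1 (by decide)
      · exact Or.inr (Or.inl hj)
      · exact Or.inr (Or.inr hj)
  · rintro z (hz | hz)
    · exact Or.inr (Or.inl (h.tbc _ hz))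
    · exact Or.inr (Or.inr (h.tbc _ hz))
  · rintro z (hz | hz)
    · exact Or.inr (Or.inl (h.tbc _ hz))
    · exact Or.inr (Or.inr (h.tbc _ hz))

/-- **conditions of D4UP** -/
theorem macUP (h : Mac D A m T md e K C δ κ G B) {i : ZMod 4} (hi : i ∈ T) (hi2 : i + 2 ∈ T)
    (h1T : i + 1 ∉ T) (h3T : i + 3 ∉ T) : MacUP C D (A i) (A (i + 2)) i κ := by
  refine ⟨h.kpos, h.bd, h.sw _ hi, h.sw _ hi2, ?_⟩
  rintro z hz w (hw | hw)
  · exact h.otD _ h1T z hz w hw
  · exact h.otD _ h3T z hz w hw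

end Crest.Agent.R143.GeoSeqx416
end
end

-- ▼ part R143/GeoSeq2_416
section

/-!
# Row 143 (S0194), BLOCK D: the sequence of configurations (helper416)

* `Kn` : compact exhaustion
* `lab`, `ar`, `dr` : labels
* `Seq4` : the sequence of configurations for `S : Dat` and the side `up`
* `exists_seq` : existence from `GEO` and `CARA`
* `roomOK`, `arcGeo`
-/

set_option autoImplicit false

noncomputable section

namespace Crest.Agent.R143.GeoSeqx416

open Set Filter Topology MeasureTheory Metric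
open Crest.ProbabilityR.Voronoi
open Crest.Agent.R143.B0x346 Crest.Agent.R143.B0Dx346
open Crest.Agent.R143.Spinex422 Crest.Agent.R143.Cfgx416
open Crest.Agent.R158.Jt785 Crest.Agent.R158.Sp896
open Crest.ProbabilityR.Percolation

/-! ### exhaustion -/

/-- compact exhaustion of `D` -/
def Kn (D : Set ℂ) (r : ℝ) : Set ℂ := closure D ∩ {z | r ≤ infDist z (frontier D)}

theorem isCompact_Kn {D : Set ℂ} (hDb : Bornology.IsBounded D) (r : ℝ) : IsCompact (Kn D r) :=
  hDb.isCompact_closure.inter_right (isClosed_le continuous_const (continuous_infDist_pt _))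

theorem Kn_sub {D : Set ℂ} (hD : IsOpen D) {r : ℝ} (hr : 0 < r) : Kn D r ⊆ D := by
  rintro z ⟨hz, h1⟩
  by_contra hcon
  have hf : z ∈ frontier D := ⟨hz, by rwa [hD.interior_eq]⟩
  have h2 : r ≤ infDist z (frontier D) := h1
  rw [infDist_zero_of_mem hf] at h2
  linarith

theorem exists_margin {D K : Set ℂ} (hD : IsOpen D) (hf : (frontier D).Nonempty)
    (hK : IsCompact K) (hKD : K ⊆ D) : ∃ r > 0, ∀ z ∈ K, r ≤ infDist z (frontier D) := by
  rcases K.eq_empty_or_nonempty with rfl | hne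
  · exact ⟨1, one_pos, fun z hz => absurd hz (notMem_empty z)⟩
  · obtain ⟨z0, hz0, hmin⟩ := hK.exists_isMinOn hne (continuous_infDist_pt (frontier D)).continuousOn
    refine ⟨infDist z0 (frontier D), ?_, fun z hz => hmin hz⟩
    refine (isClosed_frontier.notMem_iff_infDist_pos hf).1 ?_
    intro h
    rw [hD.frontier_eq] at h
    exact h.2 (hKD hz0)

theorem closedBall_sub {D : Set ℂ} {z : ℂ} {r : ℝ} (hz : z ∈ D) (hr : 0 ≤ r)
    (h : r < infDist z (frontier D)) : closedBall z r ⊆ D := by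
  intro w hw
  by_contra hcon
  have h1 : (closedBall z r ∩ frontier D).Nonempty := by
    by_contra hne
    rw [not_nonempty_iff_eq_empty] at hne
    have hpc : IsPreconnected (closedBall z r) := (convex_closedBall z r).isPreconnected
    have hcov : closedBall z r ⊆ interior D ∪ (closure D)ᶜ := by
      intro u hu
      by_cases h1 : u ∈ closure D
      · left
        by_contra h2
        have h3 : u ∈ closedBall z r ∩ frontier D := ⟨hu, h1, h2⟩
        rw [hne] at h3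
        exact h3
      · exact Or.inr h1
    obtain ⟨u, -, hu1, hu2⟩ := hpc (interior D) (closure D)ᶜ isOpen_interior
      isClosed_closure.isOpen_compl hcov ⟨z, mem_closedBall_self hr, by
        by_contra h2
        have h3 : z ∈ closedBall z r ∩ frontier D :=
          ⟨mem_closedBall_self hr, subset_closure hz, h2⟩
        rw [hne] at h3
        exact h3⟩ ⟨w, hw, fun h2 => by
        have h3 : w ∈ closedBall z r ∩ frontier D := ⟨hw, h2, fun h4 => hcon (interior_subset h4)⟩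
        rw [hne] at h3
        exact h3⟩
    exact hu2 (subset_closure (interior_subset hu1))
  obtain ⟨u, hu, huf⟩ := h1
  have h2 := infDist_le_dist_of_mem (x := z) huf
  rw [mem_closedBall, dist_comm] at hu
  linarith

/-! ### labels -/

/-- label of the arc at the index `j` of the configuration -/
def lab (r : Bool) (j : ZMod 4) : ZMod 4 := if r then 1 - j else j

theorem rvA_eq (r : Bool) (A : ZMod 4 → Set ℂ) (j : ZMod 4) : rvA r A j = A (lab r j) := by
  cases r <;> rfl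

/-- arc of `Dat` with the label `l` -/
def ar (l : ZMod 4) : ZMod 3 := if l = 2 then 1 else if l = 3 then 2 else 0

/-- region of the `Dom` which contains `R j` -/
def dr (j : ZMod 4) : ZMod 3 := if j = -2 then 1 else if j = -1 then 2 else 0

theorem R_sub (C : Cfg 4) (j : ZMod 4) : C.R j ⊆ C.dom.R (dr j) := by
  intro z hz
  by_cases h1 : j = -2
  · subst h1
    exact hz
  by_cases h2 : j = -1
  · subst h2
    exact hz
  · have e : dr j = 0 := by unfold dr; rw [if_neg h1, if_neg h2]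
    rw [e]
    show z ∈ if (0 : ZMod 3) = 1 then C.R (-2) else if (0 : ZMod 3) = 2 then C.R (-1) else
      ⋃ j ∈ {j : ZMod 4 | j ≠ -2 ∧ j ≠ -1}, C.R j
    rw [if_neg (by decide), if_neg (by decide)]
    simp only [mem_iUnion]
    exact ⟨j, ⟨h1, h2⟩, hz⟩

theorem dr_eq (r : Bool) (j : ZMod 4) : dr j = sg r (ar (lab r j)) := by
  revert r j; decide

theorem lab_lab (r : Bool) (j : ZMod 4) : lab r (lab r j) = j := by revert r j; decide


theorem dr_one (k : ZMod 4) (h : dr k = dr (k - 1)) : k = 1 := by revert k; decide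

theorem dr_zero (k : ZMod 4) (h : dr k = 0) : k = 0 ∨ k = 1 := by revert k; decide

theorem rvm_one (r : Bool) (m : ZMod 4 → ℂ) : rvm r m 1 = m 1 := by
  cases r
  · rfl
  · show m (2 - 1) = m 1
    congr 1

/-! ### the sequence -/

/-- the sequence of configurations -/
structure Seq4 (S : Dat) (b : ℂ) (up : Bool) (A : ZMod 4 → Set ℂ) (m : ZMod 4 → ℂ) (md : ℝ → ℝ)
    (rv : ℕ → Bool) (C : ℕ → Cfg 4) (δ κ : ℕ → ℝ) (G : ℕ → Set ℂ) (B : ℕ → ZMod 4 → Set ℂ) :
    Prop where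
  arcs : Arcs S.D A m
  A0 : A 0 = S.A1
  A2 : A 2 = S.A2
  m1 : m 1 = b
  /-- a point of the open arc `i` only belongs to arcs with `ar l = i` -/
  ex : ∀ i : ZMod 3, ∀ p ∈ S.arc i, ∀ l : ZMod 4, ar l ≠ i → p ∉ A l
  md0 : ∀ s > 0, 0 < md s
  mac : ∀ n, Mac S.D (rvA (rv n) A) (rvm (rv n) m)
    (rvT (rv n) (if up then ({0, 2} : Set (ZMod 4)) else {1, 3})) md (1 / ((n : ℝ) + 1))
    (Kn S.D (1 / ((n : ℝ) + 1))) (C n) (δ n) (κ n) (G n) (B n)

theorem exists_seq (hG : GEO) (hC : CARA) (S : Dat) {b : ℂ} (hb : b ∈ frontier S.D)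
    (hbd : b ≠ S.d) (hφb : S.φ b = S.x) (up : Bool) : ∃ A m md rv C δ κ G B,
    Seq4 S b up A m md rv C δ κ G B := by
  obtain ⟨g, f, hU, hj, hgb, hgd, a0, a1, a2, a3⟩ := hC S b hb hbd hφb
  set A : ZMod 4 → Set ℂ := fun i => arc g ((i.val : ℝ) / 4) (((i.val : ℝ) + 1) / 4) with hA
  set m : ZMod 4 → ℂ := fun i => g ((i.val : ℝ) / 4) with hm
  obtain ⟨md, hmd, h1⟩ := hG g f hU S.D A m hj.symm (fun i => rfl) (fun i => rfl)
  have hT : (if up then ({0, 2} : Set (ZMod 4)) else {1, 3}) = {0, 2} ∨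
      (if up then ({0, 2} : Set (ZMod 4)) else {1, 3}) = {1, 3} := by
    cases up
    · right; rfl
    · left; rfl
  have hen : ∀ n : ℕ, (0 : ℝ) < 1 / ((n : ℝ) + 1) := fun n => by positivity
  choose rv C δ κ G B hmac using fun n : ℕ => h1 _ hT (1 / ((n : ℝ) + 1)) (hen n)
    (Kn S.D (1 / ((n : ℝ) + 1))) (isCompact_Kn S.hDb _) (Kn_sub S.hD (hen n))
  have v0 : ((0 : ZMod 4).val : ℝ) = 0 := by norm_num
  have v1 : ((1 : ZMod 4).val : ℝ) = 1 := by
    have : (1 : ZMod 4).val = 1 := rfl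
    rw [this]; norm_num
  have v2 : ((2 : ZMod 4).val : ℝ) = 2 := by
    have : (2 : ZMod 4).val = 2 := rfl
    rw [this]; norm_num
  have v3 : ((3 : ZMod 4).val : ℝ) = 3 := by
    have : (3 : ZMod 4).val = 3 := rfl
    rw [this]; norm_num
  have A0 : A 0 = arc g 0 (1 / 4) := by
    simp only [hA]; rw [v0]; norm_num
  have A1 : A 1 = arc g (1 / 4) (1 / 2) := by
    simp only [hA]; rw [v1]; norm_num
  have A2 : A 2 = arc g (1 / 2) (3 / 4) := by
    simp only [hA]; rw [v2]; norm_num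
  have A3 : A 3 = arc g (3 / 4) 1 := by
    simp only [hA]; rw [v3]; norm_num
  have m0 : m 0 = g 0 := by
    simp only [hm]; rw [v0]; norm_num
  have m1 : m 1 = g (1 / 4) := by
    simp only [hm]; rw [v1]
  have m2 : m 2 = g (1 / 2) := by
    simp only [hm]; rw [v2]; norm_num
  have m3 : m 3 = g (3 / 4) := by
    simp only [hm]; rw [v3]
  have c4 : ∀ i : ZMod 4, i = 0 ∨ i = 1 ∨ i = 2 ∨ i = 3 := by decide
  have hfr : frontier S.D = curveTrace g := by
    rw [← hj]
    exact frontier_ji hU.jc (by rw [hj]; exact S.hDc.nonempty)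
  have hg01 : g 0 = g 1 := hU.jc.2.2
  have d3 : (3 : ZMod 4) = 0 - 1 := by decide
  refine ⟨A, m, md, rv, C, δ, κ, G, B, ?_⟩
  refine ⟨⟨?_, ?_, ?_, ?_, ?_, ?_⟩, by rw [A0, a0], by rw [A2, a2], by rw [m1, hgb], ?_, hmd, hmac⟩
  · intro i
    rcases c4 i with rfl | rfl | rfl | rfl
    · rw [A0]; exact arc_compact hU (by norm_num) (by norm_num)
    · rw [A1]; exact arc_compact hU (by norm_num) (by norm_num)
    · rw [A2]; exact arc_compact hU (by norm_num) (by norm_num)
    · rw [A3]; exact arc_compact hU (by norm_num) (by norm_num)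
  · intro i
    rcases c4 i with rfl | rfl | rfl | rfl
    · rw [A0, m0]; exact mem_image_of_mem g ⟨by norm_num, by norm_num⟩
    · rw [A1, m1]; exact mem_image_of_mem g ⟨by norm_num, by norm_num⟩
    · rw [A2, m2]; exact mem_image_of_mem g ⟨by norm_num, by norm_num⟩
    · rw [A3, m3]; exact mem_image_of_mem g ⟨by norm_num, by norm_num⟩
  · intro i
    rcases c4 i with rfl | rfl | rfl | rfl
    · rw [← d3, A3, m0, hg01]; exact mem_image_of_mem g ⟨by norm_num, by norm_num⟩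
    · rw [show (1 : ZMod 4) - 1 = 0 by decide, A0, m1]
      exact mem_image_of_mem g ⟨by norm_num, by norm_num⟩
    · rw [show (2 : ZMod 4) - 1 = 1 by decide, A1, m2]
      exact mem_image_of_mem g ⟨by norm_num, by norm_num⟩
    · rw [show (3 : ZMod 4) - 1 = 2 by decide, A2, m3]
      exact mem_image_of_mem g ⟨by norm_num, by norm_num⟩
  · intro i
    rw [hfr]
    rcases c4 i with rfl | rfl | rfl | rfl
    · rw [A0]; exact image_mono (Icc_subset_Icc (by norm_num) (by norm_num))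
    · rw [A1]; exact image_mono (Icc_subset_Icc (by norm_num) (by norm_num))
    · rw [A2]; exact image_mono (Icc_subset_Icc (by norm_num) (by norm_num))
    · rw [A3]; exact image_mono (Icc_subset_Icc (by norm_num) (by norm_num))
  · rw [hfr]
    rintro z ⟨t, ht, rfl⟩
    rw [mem_iUnion]
    rcases le_total t (1 / 4) with h | h
    · exact ⟨0, by rw [A0]; exact mem_image_of_mem g ⟨ht.1, h⟩⟩
    rcases le_total t (1 / 2) with h' | h'
    · exact ⟨1, by rw [A1]; exact mem_image_of_mem g ⟨h, h'⟩⟩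
    rcases le_total t (3 / 4) with h'' | h''
    · exact ⟨2, by rw [A2]; exact mem_image_of_mem g ⟨h', h''⟩⟩
    · exact ⟨3, by rw [A3]; exact mem_image_of_mem g ⟨h'', ht.2⟩⟩
  · have h02 : Disjoint (A 0) (A 2) := by rw [A0, A2]; exact arc_disj hU
    have h13 : Disjoint (A 1) (A 3) := by
      rw [A1, A3, a1, a3, disjoint_left]
      rintro z ⟨hz1, hz2, hz3, hz4, hz5⟩ (⟨-, -, -, hz⟩ | hz)
      · linarith [S.hx0]
      · exact hz2 hz
    intro i
    rcases c4 i with rfl | rfl | rfl | rfl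
    · rw [show (0 : ZMod 4) + 2 = 2 by decide]; exact h02
    · rw [show (1 : ZMod 4) + 2 = 3 by decide]; exact h13
    · rw [show (2 : ZMod 4) + 2 = 0 by decide]; exact h02.symm
    · rw [show (3 : ZMod 4) + 2 = 1 by decide]; exact h13.symm
  · rintro i p ⟨hp1, hp2, hp3, hp4⟩ l hl hpl
    have c3 : ∀ i : ZMod 3, i = 0 ∨ i = 1 ∨ i = 2 := by decide
    have hx0 := S.hx0
    have hx1 := S.hx1
    rcases c4 l with rfl | rfl | rfl | rfl
    · rw [A0, a0] at hpl
      obtain ⟨-, -, -, h4, h5⟩ := hpl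
      rcases c3 i with rfl | rfl | rfl
      · exact hl (by decide)
      · rw [if_neg (by decide), if_pos rfl] at hp4; linarith
      · rw [if_neg (by decide), if_neg (by decide)] at hp4; linarith
    · rw [A1, a1] at hpl
      obtain ⟨-, -, -, h4, h5⟩ := hpl
      rcases c3 i with rfl | rfl | rfl
      · exact hl (by decide)
      · rw [if_neg (by decide), if_pos rfl] at hp4; linarith
      · rw [if_neg (by decide), if_neg (by decide)] at hp4; linarith
    · rw [A2, a2] at hpl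
      rcases hpl with ⟨-, -, -, h4⟩ | hpl
      · rcases c3 i with rfl | rfl | rfl
        · rw [if_pos rfl] at hp4; linarith [hp4.2]
        · exact hl (by decide)
        · rw [if_neg (by decide), if_neg (by decide)] at hp4; linarith
      · exact hp2 hpl
    · rw [A3, a3] at hpl
      rcases hpl with ⟨-, -, -, h4⟩ | hpl
      · rcases c3 i with rfl | rfl | rfl
        · rw [if_pos rfl] at hp4; linarith [hp4.1]
        · rw [if_neg (by decide), if_pos rfl] at hp4; linarith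
        · exact hl (by decide)
      · exact hp2 hpl

namespace Seq4

variable {S : Dat} {b : ℂ} {up : Bool} {A : ZMod 4 → Set ℂ} {m : ZMod 4 → ℂ} {md : ℝ → ℝ}
  {rv : ℕ → Bool} {C : ℕ → Cfg 4} {δ κ : ℕ → ℝ} {G : ℕ → Set ℂ} {B : ℕ → ZMod 4 → Set ℂ}

theorem adm (_h : Seq4 S b up A m md rv C δ κ G B) (n : ℕ) : AdmC (C n).dom (δ n) :=
  ⟨4, C n, by norm_num, (_h.mac n).ok, rfl⟩

theorem fne (h : Seq4 S b up A m md rv C δ κ G B) : (frontier S.D).Nonempty :=
  ⟨_, h.arcs.sub 0 (h.arcs.mem 0)⟩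

theorem Lpos (h : Seq4 S b up A m md rv C δ κ G B) (n : ℕ) : 0 < (C n).L := (h.mac n).ok.Lpos

/-- linked points -/
theorem linked (h : Seq4 S b up A m md rv C δ κ G B) {n : ℕ} {z : ℂ}
    (hz : z ∈ Kn S.D (1 / ((n : ℝ) + 1))) : Linked (C n).dom (κ n) z := by
  obtain ⟨P, h1, h2, h3, h4, h5⟩ := (h.mac n).lk z hz
  refine ⟨P, h1, h2, h3, fun k => ?_, fun y hy => ?_⟩
  · have h6 : ∃ j, (C n).dom.q k = (C n).q j := by
      show ∃ j, (if k = 1 then (C n).q (-2) else if k = 2 then (C n).q (-1) else (C n).q 0) =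
        (C n).q j
      split_ifs
      · exact ⟨_, rfl⟩
      · exact ⟨_, rfl⟩
      · exact ⟨_, rfl⟩
    obtain ⟨j, hj⟩ := h6
    rw [hj]
    exact h4 j
  · rw [Cfg.dom_out]
    exact h5 y hy

theorem ev_small {r : ℝ} (hr : 0 < r) : ∀ᶠ n : ℕ in atTop, 1 / ((n : ℝ) + 1) < r :=
  tendsto_one_div_add_atTop_nhds_zero_nat.eventually (gt_mem_nhds hr)

theorem roomOK (h : Seq4 S b up A m md rv C δ κ G B) :
    RoomOK S.D (fun n => (C n).dom) κ := by
  refine ⟨fun n => (h.mac n).kpos, fun K hK hKD => ?_⟩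
  obtain ⟨r, hr, h1⟩ := exists_margin S.hD h.fne hK hKD
  refine ⟨r / 2, by linarith, ?_⟩
  filter_upwards [ev_small (show 0 < r / 2 by linarith)] with n hn z hz
  have h2 := h1 z hz
  have hzD := hKD hz
  have hsub : closedBall z (r / 2) ⊆ S.D := closedBall_sub hzD (by linarith) (by linarith)
  have hL := h.Lpos n
  refine ⟨⟨?_, ?_⟩, h.linked ⟨subset_closure hzD, ?_⟩⟩
  · rw [Cfg.dom_out, disjoint_left]
    intro w hw hwo
    have h3 := (h.mac n).inD w (hsub hw) hwo
    have h4 : infDist z (frontier S.D) ≤ infDist w (frontier S.D) + dist z w :=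
      infDist_le_infDist_add_dist
    rw [mem_closedBall, dist_comm] at hw
    linarith
  · refine hsub.trans (subset_closure.trans ((h.mac n).bd.trans (closedBall_subset_closedBall ?_)))
    show (C n).L / 4 ≤ (C n).L / 2
    linarith
  · show 1 / ((n : ℝ) + 1) ≤ infDist z (frontier S.D)
    linarith

/-- lower bound of the radii -/
theorem exists_r (h : Seq4 S b up A m md rv C δ κ G B) : ∃ r > 0, ∀ n, ∀ p ∈ frontier S.D,
    closedBall p r ⊆ closedBall (C n).c ((C n).L / 2) := by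
  obtain ⟨z0, hz0⟩ := S.hDc.nonempty
  obtain ⟨r, hr, hb⟩ := Metric.isOpen_iff.1 S.hD z0 hz0
  refine ⟨r / 2, by linarith, fun n p hp w hw => ?_⟩
  have hbd := (h.mac n).bd
  have h1 : dist p (C n).c ≤ (C n).L / 4 := hbd (frontier_subset_closure hp)
  have e1 : z0 + ((r / 2 : ℝ) : ℂ) ∈ S.D := hb (by
    rw [mem_ball, dist_eq_norm, add_sub_cancel_left, Complex.norm_real, Real.norm_eq_abs,
      abs_of_pos (by linarith)]
    linarith)
  have e2 : z0 - ((r / 2 : ℝ) : ℂ) ∈ S.D := hb (by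
    rw [mem_ball, dist_eq_norm, sub_sub_cancel_left, norm_neg, Complex.norm_real,
      Real.norm_eq_abs, abs_of_pos (by linarith)]
    linarith)
  have h2 : dist (z0 + ((r / 2 : ℝ) : ℂ)) (C n).c ≤ (C n).L / 4 := hbd (subset_closure e1)
  have h3 : dist (z0 - ((r / 2 : ℝ) : ℂ)) (C n).c ≤ (C n).L / 4 := hbd (subset_closure e2)
  have h4 : dist (z0 + ((r / 2 : ℝ) : ℂ)) (z0 - ((r / 2 : ℝ) : ℂ)) = r := by
    rw [dist_eq_norm, show z0 + ((r / 2 : ℝ) : ℂ) - (z0 - ((r / 2 : ℝ) : ℂ)) = ((r : ℝ) : ℂ) by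
      push_cast; ring, Complex.norm_real, Real.norm_eq_abs, abs_of_pos hr]
  have h5 := dist_triangle_right (z0 + ((r / 2 : ℝ) : ℂ)) (z0 - ((r / 2 : ℝ) : ℂ)) (C n).c
  rw [mem_closedBall] at hw ⊢
  have h6 := dist_triangle w p (C n).c
  linarith

/-- distance of a point of the open arc `i` from the other arcs -/
theorem exists_r0 (h : Seq4 S b up A m md rv C δ κ G B) {i : ZMod 3} {p : ℂ} (hp : p ∈ S.arc i) :
    ∃ r > 0, ∀ l : ZMod 4, ar l ≠ i → r ≤ infDist p (A l) := by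
  have h1 : ∀ l : ZMod 4, ∃ r > 0, ar l ≠ i → r ≤ infDist p (A l) := by
    intro l
    by_cases hl : ar l = i
    · exact ⟨1, one_pos, fun h' => absurd hl h'⟩
    · refine ⟨infDist p (A l), ?_, fun _ => le_rfl⟩
      exact ((h.arcs.cpt l).isClosed.notMem_iff_infDist_pos (h.arcs.ne l)).1 (h.ex i p hp l hl)
  choose r hr h2 using h1
  refine ⟨min (min (r 0) (r 1)) (min (r 2) (r 3)), ?_, fun l hl => ?_⟩
  · exact lt_min (lt_min (hr 0) (hr 1)) (lt_min (hr 2) (hr 3))
  · have h3 := h2 l hl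
    have c4 : ∀ i : ZMod 4, i = 0 ∨ i = 1 ∨ i = 2 ∨ i = 3 := by decide
    rcases c4 l with rfl | rfl | rfl | rfl
    · exact ((min_le_left _ _).trans (min_le_left _ _)).trans h3
    · exact ((min_le_left _ _).trans (min_le_right _ _)).trans h3
    · exact ((min_le_right _ _).trans (min_le_left _ _)).trans h3
    · exact ((min_le_right _ _).trans (min_le_right _ _)).trans h3

/-- local structure of the polygon near a point of the open arc `i` -/
theorem local_G (h : Seq4 S b up A m md rv C δ κ G B) {i : ZMod 3} {p : ℂ} {r : ℝ}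
    (hr : ∀ l : ZMod 4, ar l ≠ i → r ≤ infDist p (A l)) {n : ℕ} (hn : 1 / ((n : ℝ) + 1) < r / 4)
    {y w : ℂ} (hy : y ∈ G n) (hyw : dist w y < κ n) (hwp : dist w p < r / 4) :
    (w ∈ G n ∧ w ∉ (C n).out) ∨ (∃ j, w ∈ (C n).R j ∧ dr j = sg (rv n) i) ∨
      (w ∈ B n 1 ∧ sg (rv n) i = 0) := by
  have hk : κ n < 1 / ((n : ℝ) + 1) := (h.mac n).ke
  have hpos : (0 : ℝ) < 1 / ((n : ℝ) + 1) := by positivity
  have hR : ∀ j, w ∈ (C n).R j → dr j = sg (rv n) i := by
    intro j hj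
    have h1 := (h.mac n).nr j y hy w hj hyw
    rw [rvA_eq] at h1
    rw [dr_eq (rv n) j]
    by_contra hcon
    have h2 : ar (lab (rv n) j) ≠ i := fun h' => hcon (by rw [h'])
    have h3 := hr _ h2
    have h4 : infDist p (A (lab (rv n) j)) ≤ infDist y (A (lab (rv n) j)) + dist p y :=
      infDist_le_infDist_add_dist
    have h5 := dist_triangle p w y
    rw [dist_comm p w] at h5
    linarith
  by_cases hwo : w ∈ (C n).out
  · obtain ⟨j, hj⟩ := mem_iUnion.1 hwo
    exact Or.inr (Or.inl ⟨j, hj, hR j hj⟩)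
  · rcases (h.mac n).ex y hy w hyw with h1 | h1 | ⟨k, hk1, hk2⟩
    · exact Or.inl ⟨h1, hwo⟩
    · exact absurd h1 hwo
    · right; right
      have hA' := h.arcs.rv (rv n)
      have h6 : ∀ l : ZMod 4, rvm (rv n) m k ∈ A l → ar l = i := by
        intro l hl
        by_contra hcon
        have h3 := hr l hcon
        have h4 := infDist_le_dist_of_mem (x := p) hl
        have h5 := dist_triangle p w (rvm (rv n) m k)
        rw [dist_comm p w] at h5
        linarith
      have h7 := hA'.mem k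
      have h8 := hA'.mem' k
      rw [rvA_eq] at h7 h8
      have h9 : dr k = sg (rv n) i := by rw [dr_eq (rv n) k, h6 _ h7]
      have h10 : dr (k - 1) = sg (rv n) i := by rw [dr_eq (rv n) (k - 1), h6 _ h8]
      have h11 := dr_one k (h9.trans h10.symm)
      subst h11
      exact ⟨hk1, by rw [← h9]; decide⟩

/-- local structure of the tentacle `1` -/
theorem local_B (h : Seq4 S b up A m md rv C δ κ G B) {n : ℕ} {y w : ℂ} (hy : y ∈ B n 1)
    (hyw : dist w y < κ n) : w ∈ B n 1 ∨ w ∈ (C n).R 0 ∨ w ∈ (C n).R 1 ∨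
      (w ∈ G n ∧ w ∉ (C n).out ∧ dist w b < 1 / ((n : ℝ) + 1)) := by
  have hm : rvm (rv n) m 1 = b := by rw [rvm_one, h.m1]
  have e0 : (1 : ZMod 4) - 1 = 0 := by decide
  rcases (h.mac n).tb 1 y hy w hyw with h1 | h1 | h1 | ⟨h1, h2⟩
  · exact Or.inl h1
  · rw [e0] at h1
    exact Or.inr (Or.inl h1)
  · exact Or.inr (Or.inr (Or.inl h1))
  · by_cases hwo : w ∈ (C n).out
    · obtain ⟨j, hj⟩ := mem_iUnion.1 hwo
      by_cases hj0 : j = 0
      · exact Or.inr (Or.inl (by rw [← hj0]; exact hj))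
      by_cases hj1 : j = 1
      · exact Or.inr (Or.inr (Or.inl (by rw [← hj1]; exact hj)))
      · exact absurd hj ((h.mac n).tbn 1 y hy w hyw j (by rw [e0]; exact hj0) hj1)
    · rw [hm] at h2
      exact Or.inr (Or.inr (Or.inr ⟨h1, hwo, h2⟩))

theorem B_out (h : Seq4 S b up A m md rv C δ κ G B) (n : ℕ) (k : ZMod 4) :
    Disjoint (B n k) (C n).out := by
  rw [disjoint_left]
  intro w hw hwo
  have h1 : w ∈ (C n).outᶜ := by
    rw [(h.mac n).body]
    exact Or.inr (mem_iUnion.2 ⟨k, hw⟩)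
  exact h1 hwo

theorem D_sub_G (h : Seq4 S b up A m md rv C δ κ G B) (n : ℕ) : S.D ⊆ G n :=
  subset_closure.trans ((h.mac n).DG.trans interior_subset)

/-- points of `D` are in the body for large `n` -/
theorem ev_body (h : Seq4 S b up A m md rv C δ κ G B) {z : ℂ} (hz : z ∈ S.D) :
    ∀ᶠ n : ℕ in atTop, z ∉ (C n).out ∧ z ∈ Kn S.D (1 / ((n : ℝ) + 1)) := by
  obtain ⟨r, hr, h1⟩ := exists_margin S.hD h.fne isCompact_singleton (singleton_subset_iff.2 hz)
  filter_upwards [ev_small hr] with n hn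
  have h2 := h1 z rfl
  refine ⟨fun ho => ?_, subset_closure hz, ?_⟩
  · have h3 := (h.mac n).inD z hz ho
    linarith
  · show 1 / ((n : ℝ) + 1) ≤ infDist z (frontier S.D)
    linarith

theorem arcGeo (h : Seq4 S b up A m md rv C δ κ G B) : ArcGeo S rv (fun n => (C n).dom) := by
  intro i p hp
  obtain ⟨r0, hr0, h0⟩ := h.exists_r0 hp
  obtain ⟨r, hr, h1⟩ := h.exists_r
  set R0 := min (r0 / 4) r with hR0
  refine ⟨R0, lt_min (by linarith) hr, fun z hz hzp => ?_, fun s hs => ?_⟩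
  · filter_upwards [ev_small (show 0 < r0 / 4 by linarith), h.ev_body hz] with n hn hzn
    refine ⟨(closedBall_subset_closedBall (min_le_right _ _)).trans (h1 n p hp.1), κ n,
      (h.mac n).kpos, (G n \ (C n).out) ∪ (if sg (rv n) i = 0 then B n 1 else ∅), ?_, ?_, ?_⟩
    · exact Or.inl ⟨h.D_sub_G n hz, hzn.1⟩
    · rw [Cfg.dom_out, disjoint_left]
      rintro w (hw | hw) hwo
      · exact hw.2 hwo
      · split_ifs at hw
        · exact disjoint_left.1 (h.B_out n 1) hw hwo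
        · exact hw
    · rintro y hy y' hyy hyp
      have hyp' : dist y' p < r0 / 4 := hyp.trans_le (min_le_left _ _)
      rw [dist_comm] at hyy
      rcases hy with hy | hy
      · rcases h.local_G h0 hn hy.1 hyy hyp' with h2 | ⟨j, h2, h3⟩ | ⟨h2, h3⟩
        · exact Or.inl (Or.inl h2)
        · exact Or.inr ⟨_, rfl, by rw [← h3]; exact R_sub _ _ h2⟩
        · exact Or.inl (Or.inr (by rw [if_pos h3]; exact h2))
      · split_ifs at hy with hi
        · rcases h.local_B hy hyy with h2 | h2 | h2 | h2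
          · exact Or.inl (Or.inr (by rw [if_pos hi]; exact h2))
          · refine Or.inr ⟨_, rfl, ?_⟩
            rw [hi]
            exact R_sub _ 0 h2
          · refine Or.inr ⟨_, rfl, ?_⟩
            rw [hi]
            exact R_sub _ 1 h2
          · exact Or.inl (Or.inl ⟨h2.1, h2.2.1⟩)
        · exact absurd hy (notMem_empty y)
  · filter_upwards [ev_small hs] with n hn
    obtain ⟨l, hl⟩ := mem_iUnion.1 (h.arcs.cov hp.1)
    have h2 : ar l = i := by
      by_contra hcon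
      exact h.ex i p hp l hcon hl
    have h3 : p ∈ rvA (rv n) A (lab (rv n) l) := by rwa [rvA_eq, lab_lab]
    obtain ⟨w, hw1, hw2⟩ := (h.mac n).nr' _ p h3
    refine ⟨w, ?_, mem_ball.2 (hw2.trans hn)⟩
    have h4 := R_sub _ _ hw1
    rwa [dr_eq (rv n), lab_lab, h2] at h4

end Seq4

end Crest.Agent.R143.GeoSeqx416
end
end

-- ▼ part R143/GeoSeq3_416

/-!
# Row 143 (S0194), BLOCK D: the leaf `LDom'` (helper416)

* `int_close` : comparison of the annealed observable with the crossing probability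
* `ldom` : `GEO`, `CARA`, `VAL`, `D4LO`, `D4UP`, `D4COL`, `P2b`, `D2` give `LDom' AdmC`
-/

set_option autoImplicit false

noncomputable section

namespace Crest.Agent.R143.GeoSeqx416

open Set Filter Topology MeasureTheory Metric
open Crest.ProbabilityR.Voronoi
open Crest.Agent.R143.B0x346 Crest.Agent.R143.B0Dx346
open Crest.Agent.R143.Spinex422 Crest.Agent.R143.Cfgx416
open Crest.Agent.R143.BC0x336

/-! ### integrals -/

theorem norm_om_sub : ‖om - 1‖ ≤ 2 := by
  have h1 := norm_sub_le om 1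
  rw [norm_om, norm_one] at h1
  linarith

theorem int_close {Ω : Type} [MeasurableSpace Ω] {μ : Measure Ω} [IsProbabilityMeasure μ]
    {G P E : Set Ω} {f : Ω → ℂ} {p : Ω → ℝ} {η : ℝ} (hη : 0 ≤ η) (hG : MeasurableSet G)
    (hP : MeasurableSet P) (hGp : μ Gᶜ ≤ ENNReal.ofReal η) (hPp : μ Pᶜ ≤ ENNReal.ofReal η)
    (hE : μ E ≤ ENNReal.ofReal η) (hf : AEStronglyMeasurable f (μ.restrict G))
    (hp : AEStronglyMeasurable p (μ.restrict P)) (f3 : ∀ ω, ‖f ω‖ ≤ 3) (p1 : ∀ ω, |p ω| ≤ 1)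
    (h : ∀ ω, ω ∈ P → ω ∉ E → dist (f ω) (1 + (p ω : ℂ) * (om - 1)) ≤ η) :
    dist (∫ ω in G, f ω ∂μ) (1 + ((∫ ω in P, p ω ∂μ : ℝ) : ℂ) * (om - 1)) ≤ 20 * η := by
  set E' := toMeasurable μ E with hE'
  have hE'm : MeasurableSet E' := measurableSet_toMeasurable μ E
  have hE'p : μ E' ≤ ENNReal.ofReal η := by rw [hE', measure_toMeasurable]; exact hE
  set B := Gᶜ ∪ Pᶜ ∪ E' with hB
  have hBm : MeasurableSet B := (hG.compl.union hP.compl).union hE'm
  have hBp : μ.real B ≤ 3 * η := by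
    have h1 : μ B ≤ ENNReal.ofReal (3 * η) := by
      calc μ B ≤ μ (Gᶜ ∪ Pᶜ) + μ E' := measure_union_le _ _
        _ ≤ μ Gᶜ + μ Pᶜ + μ E' := by gcongr; exact measure_union_le _ _
        _ ≤ ENNReal.ofReal η + ENNReal.ofReal η + ENNReal.ofReal η := by gcongr
        _ = ENNReal.ofReal (3 * η) := by
            rw [← ENNReal.ofReal_add hη hη, ← ENNReal.ofReal_add (by linarith) hη]
            congr 1; ring
    exact ENNReal.toReal_le_of_le_ofReal (by linarith) h1
  have hfi : Integrable (G.indicator f) μ := by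
    rw [integrable_indicator_iff hG]
    exact Integrable.of_bound hf 3 (ae_of_all _ f3)
  have hpi : Integrable (P.indicator p) μ := by
    rw [integrable_indicator_iff hP]
    exact Integrable.of_bound hp 1 (ae_of_all _ p1)
  have e1 : ∫ ω in G, f ω ∂μ = ∫ ω, G.indicator f ω ∂μ := (integral_indicator hG).symm
  have e2 : ∫ ω in P, p ω ∂μ = ∫ ω, P.indicator p ω ∂μ := (integral_indicator hP).symm
  have hpc : Integrable (fun ω => ((P.indicator p ω : ℝ) : ℂ) * (om - 1)) μ :=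
    hpi.ofReal.mul_const _
  have e4 : ∫ ω, ((P.indicator p ω : ℝ) : ℂ) ∂μ = ((∫ ω, P.indicator p ω ∂μ : ℝ) : ℂ) :=
    integral_ofReal
  have h1i : Integrable (fun ω => 1 + ((P.indicator p ω : ℝ) : ℂ) * (om - 1)) μ :=
    (integrable_const _).add hpc
  have e3 : 1 + ((∫ ω in P, p ω ∂μ : ℝ) : ℂ) * (om - 1) =
      ∫ ω, (1 + ((P.indicator p ω : ℝ) : ℂ) * (om - 1)) ∂μ := by
    rw [integral_add (integrable_const _) hpc, integral_const, integral_mul_const, e2, e4]
    simp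
  rw [e1, e3, dist_eq_norm, ← integral_sub hfi h1i]
  have hgi : Integrable (fun ω => η + B.indicator (fun _ => (6 : ℝ)) ω) μ :=
    (integrable_const _).add ((integrable_const _).indicator hBm)
  refine (norm_integral_le_of_norm_le hgi (ae_of_all _ fun ω => ?_)).trans ?_
  · by_cases hω : ω ∈ B
    · rw [indicator_of_mem hω]
      have h1 : ‖G.indicator f ω‖ ≤ 3 := by
        by_cases hg : ω ∈ G
        · rw [indicator_of_mem hg]; exact f3 ω
        · rw [indicator_of_notMem hg, norm_zero]; norm_num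
      have h2 : |P.indicator p ω| ≤ 1 := by
        by_cases hg : ω ∈ P
        · rw [indicator_of_mem hg]; exact p1 ω
        · rw [indicator_of_notMem hg, abs_zero]; norm_num
      have h3 : ‖((P.indicator p ω : ℝ) : ℂ) * (om - 1)‖ ≤ 2 := by
        rw [norm_mul, Complex.norm_real, Real.norm_eq_abs]
        have := norm_om_sub
        nlinarith [abs_nonneg (P.indicator p ω), norm_nonneg (om - 1)]
      have h4 := norm_sub_le (G.indicator f ω) (1 + ((P.indicator p ω : ℝ) : ℂ) * (om - 1))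
      have h5 := norm_add_le (1 : ℂ) (((P.indicator p ω : ℝ) : ℂ) * (om - 1))
      rw [norm_one] at h5
      linarith
    · rw [indicator_of_notMem hω, add_zero]
      have h1 : ω ∈ G := by
        by_contra hcon
        exact hω (Or.inl (Or.inl hcon))
      have h2 : ω ∈ P := by
        by_contra hcon
        exact hω (Or.inl (Or.inr hcon))
      have h3 : ω ∉ E := fun hcon => hω (Or.inr (subset_toMeasurable μ E hcon))
      rw [indicator_of_mem h1, indicator_of_mem h2, ← dist_eq_norm]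
      exact h ω h2 h3
  · rw [integral_add (integrable_const _) ((integrable_const _).indicator hBm),
      integral_indicator hBm, integral_const, setIntegral_const]
    simp only [smul_eq_mul]
    have h1 : μ.real univ = 1 := by simp
    rw [h1]
    linarith

theorem tr_tr (r : Bool) (w : ℂ) : tr r (tr r w) = w := by
  cases r
  · rfl
  · unfold tr
    simp only [if_true]
    rw [map_mul, Complex.conj_conj, ← mul_assoc, Complex.mul_conj, Complex.normSq_eq_norm_sq,
      norm_om]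
    simp

theorem tr_val (c : ℝ) : tr true (1 + (c : ℂ) * (om - 1)) = 1 + ((1 - c : ℝ) : ℂ) * (om - 1) := by
  have h2 : om ^ 3 = 1 := Oscx63.om_pow_three
  unfold tr
  simp only [if_true]
  rw [map_add, map_mul, map_sub, map_one, Complex.conj_ofReal, conj_om]
  push_cast
  linear_combination (c : ℂ) * h2

/-- the index of the crossing -/
def ix (r : Bool) : ZMod 4 := if r then 1 else 0

theorem pr_nonneg (C : Cfg 4) (S : Finset ℂ) (i : ZMod 4) : 0 ≤ C.pr S i := by
  unfold Cfg.pr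
  positivity

theorem pr_le_one (C : Cfg 4) (S : Finset ℂ) (i : ZMod 4) : C.pr S i ≤ 1 := by
  classical
  unfold Cfg.pr
  rw [div_le_one (by positivity)]
  have h1 := Finset.card_filter_le (C.inn S).powerset
    (fun T : Finset ℂ => C.Crs S (T : Set ℂ) i)
  rw [Finset.card_powerset] at h1
  calc _ ≤ ((2 ^ (C.inn S).card : ℕ) : ℝ) := by
        norm_cast
    _ = 2 ^ (C.inn S).card := by push_cast; rfl

namespace Seq4

variable {S : Dat} {b : ℂ} {up : Bool} {A : ZMod 4 → Set ℂ} {m : ZMod 4 → ℂ} {md : ℝ → ℝ}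
  {rv : ℕ → Bool} {C : ℕ → Cfg 4} {δ κ : ℕ → ℝ} {G : ℕ → Set ℂ} {B : ℕ → ZMod 4 → Set ℂ}

theorem Aix (h : Seq4 S b up A m md rv C δ κ G B) (n : ℕ) :
    rvA (rv n) A (ix (rv n)) = S.A1 ∧ rvA (rv n) A (ix (rv n) + 2) = S.A2 := by
  rw [rvA_eq, rvA_eq, ← h.A0, ← h.A2]
  have h1 : ∀ r, lab r (ix r) = 0 := by decide
  have h2 : ∀ r, lab r (ix r + 2) = 2 := by decide
  rw [h1, h2]
  exact ⟨rfl, rfl⟩

theorem ev_dist (h : Seq4 S b up A m md rv C δ κ G B) : ∃ r > 0, ∀ x ∈ S.A1, ∀ y ∈ S.A2,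
    r ≤ dist x y := by
  rw [← h.A0, ← h.A2]
  have h1 := h.arcs.opp 0
  rw [zero_add] at h1
  obtain ⟨r, hr, h2⟩ := Metric.exists_pos_forall_lt_edist (h.arcs.cpt 0)
    (h.arcs.cpt 2).isClosed h1
  refine ⟨r, hr, fun x hx y hy => ?_⟩
  have h3 := h2 x hx y hy
  rw [edist_dist, ENNReal.lt_ofReal_iff_toReal_lt (by simp)] at h3
  exact h3.le

/-- the properties of the good sets of D4COL which do not involve the crossing -/
structure PmOK (C : Cfg 4) (Pm : ℝ → Set Sample) : Prop where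
  meas : ∀ ε, MeasurableSet (Pm ε)
  prob : ∀ᶠ ε : ℝ in 𝓝[>] 0, sampleLaw (Pm ε)ᶜ ≤ ENNReal.ofReal (ε ^ (10 : ℝ))
  env : ∀ d > 0, ∀ᶠ ε : ℝ in 𝓝[>] 0, ∀ ω ∈ Pm ε, ∃ M : ℝ, Env ε d M C.c C.L ω

theorem ev_pow {η : ℝ} (hη : 0 < η) : ∀ᶠ ε : ℝ in 𝓝[>] 0, 0 < ε ∧ ε ^ (10 : ℝ) ≤ η := by
  have h1 : Tendsto (fun ε : ℝ => ε ^ (10 : ℝ)) (𝓝[>] 0) (𝓝 0) := by
    have h2 : Tendsto (fun ε : ℝ => ε ^ (10 : ℝ)) (𝓝 0) (𝓝 ((0 : ℝ) ^ (10 : ℝ))) :=
      (Real.continuousAt_rpow_const 0 10 (Or.inr (by norm_num))).tendsto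
    rw [Real.zero_rpow (by norm_num)] at h2
    exact h2.mono_left nhdsWithin_le_nhds
  filter_upwards [h1.eventually (gt_mem_nhds hη), eventually_mem_nhdsWithin] with ε e1 e2
  exact ⟨e2, e1.le⟩

/-- the sandwich -/
theorem sand (h : Seq4 S b up A m md rv C δ κ G B) (hL : D4LO) (hU : D4UP)
    {Pm : ℕ → ℝ → Set Sample} (hPm : ∀ n, PmOK (C n) (Pm n)) :
    Sand S up (fun i => sampleLaw.real ((C i.1).NX (ix (rv i.1)) i.2 ∩ Pm i.1 i.2)) := by
  intro η hη
  have c2 : ∀ r : Bool, ix r ∉ rvT r ({1, 3} : Set (ZMod 4)) ∧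
      ix r + 2 ∉ rvT r ({1, 3} : Set (ZMod 4)) ∧ ix r + 1 ∈ rvT r ({1, 3} : Set (ZMod 4)) ∧
      ix r + 3 ∈ rvT r ({1, 3} : Set (ZMod 4)) := by
    intro r
    simp only [rvT, mem_setOf_eq, mem_insert_iff, mem_singleton_iff]
    revert r; decide
  have c3 : ∀ r : Bool, ix r ∈ rvT r ({0, 2} : Set (ZMod 4)) ∧
      ix r + 2 ∈ rvT r ({0, 2} : Set (ZMod 4)) ∧ ix r + 1 ∉ rvT r ({0, 2} : Set (ZMod 4)) ∧
      ix r + 3 ∉ rvT r ({0, 2} : Set (ZMod 4)) := by
    intro r
    simp only [rvT, mem_setOf_eq, mem_insert_iff, mem_singleton_iff]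
    revert r; decide
  rw [ev_lc]
  cases up
  · -- lower
    obtain ⟨r, hr, h1⟩ := h.ev_dist
    filter_upwards [ev_small (show 0 < r / 4 by linarith)] with n hn
    obtain ⟨k1, k2, k3, k4⟩ := c2 (rv n)
    have hmac := h.mac n
    rw [if_neg (by decide)] at hmac
    have h2 := macLO (h.arcs.rv (rv n)) S.hD hmac k1 k2 k3 k4 (by
      rw [(h.Aix n).1, (h.Aix n).2]
      intro x hx y hy
      have := h1 x hx y hy
      linarith)
    rw [(h.Aix n).1, (h.Aix n).2] at h2
    obtain ⟨d0, hd0, h3⟩ := hL _ _ _ _ _ _ _ _ _ hmac.ok S.hD S.hDb h2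
    filter_upwards [(hPm n).env d0 hd0, eventually_mem_nhdsWithin] with ε h4 (hε : 0 < ε)
    rw [if_neg (by decide)]
    have h5 : (C n).NX (ix (rv n)) ε ∩ Pm n ε ⊆ crossingEvent ε S.D S.A1 S.A2 := by
      rintro ω ⟨h6, h7⟩
      obtain ⟨M, h8⟩ := h4 ω h7
      exact h3 ε d0 M ω hε h8 le_rfl h6
    have h6 : sampleLaw.real ((C n).NX (ix (rv n)) ε ∩ Pm n ε) ≤ S.P ε :=
      measureReal_mono h5 (measure_ne_top _ _)
    show sampleLaw.real ((C n).NX (ix (rv n)) ε ∩ Pm n ε) - η ≤ S.P ε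
    linarith
  · -- upper
    refine Eventually.of_forall fun n => ?_
    obtain ⟨k1, k2, k3, k4⟩ := c3 (rv n)
    have hmac := h.mac n
    rw [if_pos rfl] at hmac
    have h2 := macUP hmac k1 k2 k3 k4
    rw [(h.Aix n).1, (h.Aix n).2] at h2
    obtain ⟨d0, hd0, h3⟩ := hU _ _ _ _ _ _ _ hmac.ok S.hD S.hDb h2
    filter_upwards [(hPm n).env d0 hd0, (hPm n).prob, ev_pow hη] with ε h4 h5 h6
    rw [if_pos rfl]
    have h7 : crossingEvent ε S.D S.A1 S.A2 ⊆
        ((C n).NX (ix (rv n)) ε ∩ Pm n ε) ∪ (Pm n ε)ᶜ := by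
      intro ω hω
      by_cases h8 : ω ∈ Pm n ε
      · obtain ⟨M, h9⟩ := h4 ω h8
        exact Or.inl ⟨h3 ε d0 M ω h6.1 h9 le_rfl hω, h8⟩
      · exact Or.inr h8
    have h8 : S.P ε ≤ sampleLaw.real ((C n).NX (ix (rv n)) ε ∩ Pm n ε) +
        sampleLaw.real (Pm n ε)ᶜ :=
      (measureReal_mono h7 (measure_ne_top _ _)).trans (measureReal_union_le _ _)
    have h9 : sampleLaw.real (Pm n ε)ᶜ ≤ ε ^ (10 : ℝ) :=
      ENNReal.toReal_le_of_le_ofReal (Real.rpow_nonneg h6.1.le _) h5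
    show S.P ε ≤ sampleLaw.real ((C n).NX (ix (rv n)) ε ∩ Pm n ε) + η
    linarith [h6.2]

/-- the value near `b` for one configuration, quenched -/
theorem val_q (h : Seq4 S b up A m md rv C δ κ G B) (hV : VAL) (hb : b ∈ S.arc 0) {η : ℝ}
    (hη : 0 < η) : ∃ t > 0, ∀ z ∈ S.D, dist z b < t → ∀ᶠ n : ℕ in atTop,
      ∀ᶠ ε : ℝ in 𝓝[>] 0, ∃ E : Set Sample, sampleLaw E ≤ ENNReal.ofReal η ∧ ∀ ω ∉ E,
        dist ((C n).dom.h ε ω z)
          (1 + ((C n).pr ((C n).dom.sites ε ω) 0 : ℂ) * (om - 1)) ≤ η := by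
  obtain ⟨Λ, hΛ, hv⟩ := hV η hη
  obtain ⟨r0, hr0, h0⟩ := h.exists_r0 hb
  obtain ⟨r, hr, h1⟩ := h.exists_r
  set R0 := min (min (r0 / 4) r) 1 with hR0
  have hR0p : 0 < R0 := lt_min (lt_min (by linarith) hr) one_pos
  have hR01 : R0 ≤ 1 := min_le_right _ _
  have hR0r : R0 ≤ r := (min_le_left _ _).trans (min_le_right _ _)
  have hR04 : R0 ≤ r0 / 4 := (min_le_left _ _).trans (min_le_left _ _)
  have hΛ0 : 0 < Λ := by linarith
  set s := R0 / Λ with hs
  have hs0 : 0 < s := div_pos hR0p hΛ0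
  have hsR : Λ * s = R0 := mul_div_cancel₀ _ hΛ0.ne'
  have hs2 : 0 < s / 2 := by linarith
  refine ⟨min s (md (s / 2)), lt_min hs0 (h.md0 _ hs2), fun z hz hzb => ?_⟩
  filter_upwards [ev_small (show 0 < r0 / 4 by linarith), ev_small hs2, h.ev_body hz] with n n1 n2 n3
  have hm : rvm (rv n) m 1 = b := by rw [rvm_one, h.m1]
  have hA' := h.arcs.rv (rv n)
  have e0 : (1 : ZMod 4) - 1 = 0 := by decide
  obtain ⟨P, p1, p2, p3, p4, p5, p6⟩ := (h.mac n).lkm 1 (s / 2) hs2 z n3.2 (by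
    rw [hm]; exact hzb.trans_le (min_le_right _ _))
  rw [hm] at p3
  have hk := (h.mac n).kpos
  refine hv (C n) (δ n) (h.mac n).ok b R0 s (κ n) (G n \ (C n).out) (B n 1) hs0 hR01 hsR.le hk
    ((closedBall_subset_closedBall hR0r).trans (h1 n b hb.1)) ?_ ?_ ?_ ((h.mac n).tbc 1) ?_ z P
    (hzb.trans_le (min_le_left _ _)) p1 p2 ?_ p4 p5 p6 (h.linked n3.2)
  · rw [disjoint_left]
    rintro w (hw | hw) hwo
    · exact hw.2 hwo
    · exact disjoint_left.1 (h.B_out n 1) hw hwo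
  · intro y hy y' hyy hyb
    rw [dist_comm] at hyy
    rcases h.local_G h0 n1 hy.1 hyy (hyb.trans_le hR04) with h2 | ⟨j, h2, h3⟩ | ⟨h2, -⟩
    · exact Or.inl h2
    · have h4 : dr j = 0 := by rw [h3]; cases rv n <;> rfl
      rcases dr_zero j h4 with rfl | rfl
      · exact Or.inr (Or.inr (Or.inl h2))
      · exact Or.inr (Or.inr (Or.inr h2))
    · exact Or.inr (Or.inl h2)
  · intro y hy y' hyy
    rw [dist_comm] at hyy
    rcases h.local_B hy hyy with h2 | h2 | h2 | ⟨h2, h3, h4⟩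
    · exact Or.inl h2
    · exact Or.inr (Or.inl h2)
    · exact Or.inr (Or.inr (Or.inl h2))
    · exact Or.inr (Or.inr (Or.inr ⟨⟨h2, h3⟩, by linarith⟩))
  · have h7 := hA'.mem 1
    have h8 := hA'.mem' 1
    rw [e0] at h8
    rw [hm] at h7 h8
    obtain ⟨w, hw1, hw2⟩ := (h.mac n).nr' _ b h7
    obtain ⟨w', hw1', hw2'⟩ := (h.mac n).nr' _ b h8
    exact ⟨⟨w', hw1', mem_ball.2 (by linarith)⟩, ⟨w, hw1, mem_ball.2 (by linarith)⟩⟩
  · intro y hy
    have h9 : y ∉ (C n).out := fun ho => disjoint_left.1 (p6 y hy) (mem_ball_self hk) ho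
    rcases p3 hy with ⟨h7, h8⟩ | h7
    · refine Or.inl ⟨⟨h7, h9⟩, ball_subset_ball ?_ h8⟩
      linarith
    · exact Or.inr h7

/-- the value near `b` -/
theorem val (h : Seq4 S b up A m md rv C δ κ G B) (hV : VAL) (hp : P2b) (hd : D2)
    (hb : b ∈ S.arc 0) {Pm : ℕ → ℝ → Set Sample} (hPm : ∀ n, PmOK (C n) (Pm n))
    (hcol : ∀ n, ∀ᶠ ε : ℝ in 𝓝[>] 0,
      AEStronglyMeasurable (fun ω => (C n).pr ((C n).dom.sites ε ω) (ix (rv n)))
        (sampleLaw.restrict (Pm n ε)) ∧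
      ∫ ω in Pm n ε, (C n).pr ((C n).dom.sites ε ω) (ix (rv n)) ∂sampleLaw =
        sampleLaw.real ((C n).NX (ix (rv n)) ε ∩ Pm n ε))
    {Gf : ℕ → ℝ → Set Sample} (hGf : ∀ n, GoodFam (C n).dom (Gf n)) :
    Val S b (Hs rv (fun n => (C n).dom) Gf)
      (fun i => sampleLaw.real ((C i.1).NX (ix (rv i.1)) i.2 ∩ Pm i.1 i.2)) := by
  intro η hη
  have hη' : 0 < η / 30 := by linarith
  obtain ⟨t, ht, h1⟩ := h.val_q hV hb hη'
  refine ⟨t, ht, fun z hz hzb => ?_⟩
  rw [ev_lc]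
  filter_upwards [h1 z hz hzb] with n hn
  obtain ⟨d0, hd0, h2⟩ := hd 4 (C n) (δ n) (by norm_num) (h.mac n).ok
  filter_upwards [hn, (hPm n).env d0 hd0, (hPm n).prob, hcol n, (hGf n).prob, (hGf n).hm1,
    ev_pow hη'] with ε ⟨E, e1, e2⟩ e3 e4 ⟨e5, e6⟩ e7 e8 e9
  -- `pr 0 + pr 1 = 1` on `Pm`
  have h3 : ∀ ω ∈ Pm n ε, (C n).pr ((C n).dom.sites ε ω) 0 +
      (C n).pr ((C n).dom.sites ε ω) 1 = 1 := by
    intro ω hω
    obtain ⟨M, h4⟩ := e3 ω hω
    exact (hp (C n) _ (h2 ε d0 M ω h4 le_rfl)).1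
  have hε : ENNReal.ofReal (ε ^ (10 : ℝ)) ≤ ENNReal.ofReal (η / 30) :=
    ENNReal.ofReal_le_ofReal e9.2
  -- the integral of `pr 0`
  have h5 : AEStronglyMeasurable (fun ω => (C n).pr ((C n).dom.sites ε ω) 0)
      (sampleLaw.restrict (Pm n ε)) ∧
      |(∫ ω in Pm n ε, (C n).pr ((C n).dom.sites ε ω) 0 ∂sampleLaw) -
        (if rv n then 1 - sampleLaw.real ((C n).NX (ix (rv n)) ε ∩ Pm n ε) else
          sampleLaw.real ((C n).NX (ix (rv n)) ε ∩ Pm n ε))| ≤ η / 30 := by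
    cases hr : rv n
    · rw [hr] at e5 e6
      refine ⟨e5, ?_⟩
      have e6' : ∫ ω in Pm n ε, (C n).pr ((C n).dom.sites ε ω) 0 ∂sampleLaw =
        sampleLaw.real ((C n).NX (ix false) ε ∩ Pm n ε) := e6
      rw [e6', if_neg (by decide), sub_self, abs_zero]
      exact hη'.le
    · rw [hr] at e5 e6
      have e5' : AEStronglyMeasurable (fun ω => (C n).pr ((C n).dom.sites ε ω) 1)
        (sampleLaw.restrict (Pm n ε)) := e5
      have e6' : ∫ ω in Pm n ε, (C n).pr ((C n).dom.sites ε ω) 1 ∂sampleLaw =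
        sampleLaw.real ((C n).NX (ix true) ε ∩ Pm n ε) := e6
      have h6 : (fun ω => (C n).pr ((C n).dom.sites ε ω) 0) =ᵐ[sampleLaw.restrict (Pm n ε)]
          fun ω => 1 - (C n).pr ((C n).dom.sites ε ω) 1 := by
        filter_upwards [ae_restrict_mem ((hPm n).meas ε)] with ω hω
        linarith [h3 ω hω]
      refine ⟨(aestronglyMeasurable_const.sub e5').congr h6.symm, ?_⟩
      have h7 : Integrable (fun ω => (C n).pr ((C n).dom.sites ε ω) 1)
          (sampleLaw.restrict (Pm n ε)) := by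
        refine Integrable.of_bound e5' 1 (ae_of_all _ fun ω => ?_)
        rw [Real.norm_eq_abs, abs_of_nonneg (pr_nonneg _ _ _)]
        exact pr_le_one _ _ _
      rw [integral_congr_ae h6, integral_sub (integrable_const _) h7, e6', if_pos rfl]
      have h8 : ∫ _ in Pm n ε, (1 : ℝ) ∂sampleLaw = 1 - sampleLaw.real (Pm n ε)ᶜ := by
        rw [setIntegral_const, smul_eq_mul, mul_one, probReal_compl_eq_one_sub ((hPm n).meas ε)]
        ring
      have h9 : sampleLaw.real (Pm n ε)ᶜ ≤ ε ^ (10 : ℝ) :=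
        ENNReal.toReal_le_of_le_ofReal (Real.rpow_nonneg e9.1.le _) e4
      have h10 : 0 ≤ sampleLaw.real (Pm n ε)ᶜ := measureReal_nonneg
      rw [h8, abs_le]
      constructor <;> linarith [e9.2]
  obtain ⟨h5, h6⟩ := h5
  have h7 := int_close (μ := sampleLaw) (G := Gf n ε) (P := Pm n ε) (E := E)
    (f := fun ω => (C n).dom.h ε ω z) (p := fun ω => (C n).pr ((C n).dom.sites ε ω) 0)
    hη'.le ((hGf n).meas ε) ((hPm n).meas ε) (e7.trans hε) (e4.trans hε) e1 (e8 z) h5
    (fun ω => norm_h_le _ _ _ _) (fun ω => by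
      rw [abs_of_nonneg (pr_nonneg _ _ _)]; exact pr_le_one _ _ _) (fun ω _ hω => e2 ω hω)
  set c := sampleLaw.real ((C n).NX (ix (rv n)) ε ∩ Pm n ε) with hc
  set I := ∫ ω in Pm n ε, (C n).pr ((C n).dom.sites ε ω) 0 ∂sampleLaw with hI
  have h8 : dist (HG (C n).dom (Gf n) ε z) (1 + (I : ℂ) * (om - 1)) ≤ 20 * (η / 30) := h7
  have h9 : ∀ c' : ℝ, |I - c'| ≤ η / 30 → dist (HG (C n).dom (Gf n) ε z)
      (1 + (c' : ℂ) * (om - 1)) ≤ η := by
    intro c' hc'
    have e : dist (1 + (I : ℂ) * (om - 1)) (1 + (c' : ℂ) * (om - 1)) ≤ 2 * (η / 30) := by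
      rw [dist_eq_norm, show 1 + (I : ℂ) * (om - 1) - (1 + (c' : ℂ) * (om - 1)) =
        ((I - c' : ℝ) : ℂ) * (om - 1) by push_cast; ring, norm_mul, Complex.norm_real,
        Real.norm_eq_abs]
      have := norm_om_sub
      nlinarith [abs_nonneg (I - c'), norm_nonneg (om - 1)]
    have := dist_triangle (HG (C n).dom (Gf n) ε z) (1 + (I : ℂ) * (om - 1))
      (1 + (c' : ℂ) * (om - 1))
    linarith
  have ht3 : (tau3 : ℂ) = om := rfl
  show dist (tr (rv n) (HG (C n).dom (Gf n) ε z)) (1 + (c : ℂ) * (tau3 - 1)) ≤ η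
  rw [ht3]
  cases hr : rv n
  · rw [hr] at h6
    rw [if_neg (by decide)] at h6
    exact h9 c h6
  · rw [hr] at h6
    rw [if_pos rfl] at h6
    rw [← tr_tr true (1 + (c : ℂ) * (om - 1)), tr_dist, tr_val]
    exact h9 (1 - c) h6

end Seq4


end Crest.Agent.R143.GeoSeqx416
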