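import Crest.Agent.R143.B0D_346
import Crest.Agent.R143.Ten_416
import Crest.Agent.R143.Cfg_416

-- ▼ part R143/Swl_922
section

/-!
# Row 143 (S0194), block D, leaf SWL: swallowing boundary arcs (helper922)

`R i` the regions (complement of body and tentacles), `G` the closed polygon (contains the closure of
the domain), `A i` the boundary arcs of the domain, `I` the set of the indices of the swallowed arcs:
`swl R A I G e i = R i ∪ (G ∩ thickening e (A i))` for `i ∈ I`, `= R i` otherwise.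
-/

set_option autoImplicit false
set_option linter.all false

noncomputable section

open scoped Classical Topology
open Set Metric

namespace Crest.Agent.R143.Swlx922

variable {ι : Type}

/-- the swallowed regions -/
def swl (R A : ι → Set ℂ) (I : Set ι) (G : Set ℂ) (e : ℝ) (i : ι) : Set ℂ :=
  {z | z ∈ R i ∨ (i ∈ I ∧ z ∈ G ∧ z ∈ thickening e (A i))}

/-- hypotheses: `e` = depth of the swallowed neighbourhood, `e'` = radius of control -/
structure Hyp (R A : ι → Set ℂ) (I : Set ι) (G : Set ℂ) (δ e e' : ℝ) : Prop where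
  dpos : 0 < δ
  epos : 0 < e
  ee : e + δ ≤ e'
  cl : IsClosed G
  disj : ∀ i, Disjoint (R i) G
  opn : ∀ i, IsOpen (R i)
  con : ∀ i, IsConnected (R i)
  far : ∀ i j, i ≠ j → ∀ z ∈ R i, ∀ w ∈ R j, δ ≤ ‖z - w‖
  /-- near the swallowed arc `i` there are only `G` and `R i` -/
  near : ∀ i ∈ I, ∀ y ∈ G, y ∈ thickening e' (A i) → G ∪ R i ∈ 𝓝 y
  Asub : ∀ i ∈ I, A i ⊆ G
  Acon : ∀ i ∈ I, IsPreconnected (A i)
  /-- there is a point outside of `G` near the arc -/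
  out : ∀ i ∈ I, ∃ w, w ∉ G ∧ w ∈ thickening e (A i)
  sep : ∀ i ∈ I, ∀ j ∈ I, i ≠ j → ∀ z ∈ A i, ∀ w ∈ A j, 2 * e + δ ≤ ‖z - w‖

variable {R A : ι → Set ℂ} {I : Set ι} {G : Set ℂ} {δ e e' : ℝ}

/-- the segment -/
def sg (z v : ℂ) (s : ℝ) : ℂ := z + (s : ℂ) * (v - z)

theorem sg_zero (z v : ℂ) : sg z v 0 = z := by simp [sg]

theorem sg_one (z v : ℂ) : sg z v 1 = v := by simp [sg]

theorem continuous_sg (z v : ℂ) : Continuous (sg z v) := by
  unfold sg; fun_prop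


/-- every point of the segment is in a ball which contains both ends -/
theorem sg_ball {z v a : ℂ} {r : ℝ} (hz : ‖z - a‖ < r) (hv : ‖v - a‖ < r) {s : ℝ} (h0 : 0 ≤ s)
    (h1 : s ≤ 1) : ‖sg z v s - a‖ < r := by
  have e1 : sg z v s - a = ((1 - s : ℝ) : ℂ) * (z - a) + (s : ℂ) * (v - a) := by
    unfold sg; push_cast; ring
  rw [e1]
  calc ‖((1 - s : ℝ) : ℂ) * (z - a) + (s : ℂ) * (v - a)‖ ≤
      ‖((1 - s : ℝ) : ℂ) * (z - a)‖ + ‖(s : ℂ) * (v - a)‖ := norm_add_le _ _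
    _ = (1 - s) * ‖z - a‖ + s * ‖v - a‖ := by
        rw [norm_mul, norm_mul, Complex.norm_real, Complex.norm_real, Real.norm_of_nonneg h0,
          Real.norm_of_nonneg (sub_nonneg.2 h1)]
    _ < r := by
        rcases h0.eq_or_lt with h | h
        · rw [← h]; simpa using hz
        · have := mul_lt_mul_of_pos_left hv h
          have := mul_le_mul_of_nonneg_left hz.le (sub_nonneg.2 h1)
          nlinarith

/-- **first exit from `G`** -/
theorem exit {z v : ℂ} {U : Set ℂ} (hG : IsClosed G) (hz : z ∈ G) (hv : v ∉ G)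
    (hn : ∀ s : ℝ, 0 ≤ s → s ≤ 1 → sg z v s ∈ G → G ∪ U ∈ 𝓝 (sg z v s)) :
    ∃ s : ℝ, 0 ≤ s ∧ s ≤ 1 ∧ sg z v s ∈ U ∧ ∀ r, 0 ≤ r → r ≤ s → sg z v r ∈ G ∪ U := by
  set B : Set ℝ := {s | 0 ≤ s ∧ s ≤ 1 ∧ sg z v s ∉ G} with hB
  have h1B : (1 : ℝ) ∈ B := ⟨zero_le_one, le_rfl, by rw [sg_one]; exact hv⟩
  have hbd : BddBelow B := ⟨0, fun s hs => hs.1⟩
  set s0 := sInf B with hs0
  have h0 : 0 ≤ s0 := le_csInf ⟨1, h1B⟩ fun s hs => hs.1
  have h1 : s0 ≤ 1 := csInf_le hbd h1B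
  have hlt : ∀ r, 0 ≤ r → r < s0 → sg z v r ∈ G := by
    intro r hr hrs
    by_contra hcon
    exact absurd (csInf_le hbd ⟨hr, by linarith, hcon⟩) (not_le.2 hrs)
  have hs0G : sg z v s0 ∈ G := by
    rcases h0.eq_or_lt with h | h
    · rw [← h, sg_zero]; exact hz
    · have hmem : s0 ∈ closure (Ico 0 s0) := by
        rw [closure_Ico h.ne]; exact ⟨h.le, le_rfl⟩
      have hc : IsClosed ((sg z v) ⁻¹' G) := hG.preimage (continuous_sg z v)
      exact (closure_minimal (fun r hr => hlt r hr.1 hr.2) hc) hmem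
  have hnh := hn s0 h0 h1 hs0G
  have hpre : (sg z v) ⁻¹' (G ∪ U) ∈ 𝓝 s0 := (continuous_sg z v).continuousAt hnh
  obtain ⟨ρ, hρ, hball⟩ := Metric.mem_nhds_iff.1 hpre
  obtain ⟨s, hs, hslt⟩ := exists_lt_of_csInf_lt ⟨1, h1B⟩ (show sInf B < s0 + ρ by rw [← hs0]; linarith)
  have hs0s : s0 ≤ s := csInf_le hbd hs
  have hmemball : ∀ r, s0 ≤ r → r ≤ s → sg z v r ∈ G ∪ U := by
    intro r h2 h3
    exact hball (by rw [Metric.mem_ball, Real.dist_eq, abs_of_nonneg (by linarith)]; linarith)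
  refine ⟨s, hs.1, hs.2.1, (hmemball s hs0s le_rfl).resolve_left hs.2.2, fun r hr0 hrs => ?_⟩
  rcases lt_or_ge r s0 with h | h
  · exact Or.inl (hlt r hr0 h)
  · exact hmemball r h hrs

theorem isOpen_swl (h : Hyp R A I G δ e e') (i : ι) : IsOpen (swl R A I G e i) := by
  rw [isOpen_iff_mem_nhds]
  rintro z (hz | ⟨hi, hzG, hzA⟩)
  · exact Filter.mem_of_superset ((h.opn i).mem_nhds hz) fun x hx => Or.inl hx
  · have h1 := h.near i hi z hzG (thickening_mono (by linarith [h.ee, h.dpos]) _ hzA)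
    have h2 := isOpen_thickening.mem_nhds hzA
    filter_upwards [h1, h2] with x hx hx'
    rcases hx with hx | hx
    · exact Or.inr ⟨hi, hx, hx'⟩
    · exact Or.inl hx

/-- every point of the swallowed region is joined to `R i` -/
theorem join (h : Hyp R A I G δ e e') {i : ι} {z : ℂ} (hz : z ∈ swl R A I G e i) :
    ∃ t, t ⊆ swl R A I G e i ∧ IsPreconnected t ∧ z ∈ t ∧ (t ∩ R i).Nonempty := by
  rcases hz with hz | ⟨hi, hzG, hzA⟩
  · exact ⟨{z}, by rintro _ rfl; exact Or.inl hz, isPreconnected_singleton, rfl, z, rfl, hz⟩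
  -- a segment which leaves `G` near the arc
  have key : ∀ x v a : ℂ, x ∈ G → v ∉ G → a ∈ A i → ‖x - a‖ < e → ‖v - a‖ < e →
      ∃ t, t ⊆ swl R A I G e i ∧ IsPreconnected t ∧ x ∈ t ∧ (t ∩ R i).Nonempty := by
    intro x v a hx hv ha hxa hva
    have hth : ∀ s : ℝ, 0 ≤ s → s ≤ 1 → sg x v s ∈ thickening e (A i) := fun s h0 h1 =>
      mem_thickening_iff.2 ⟨a, ha, by rw [dist_eq_norm]; exact sg_ball hxa hva h0 h1⟩
    obtain ⟨s, h0, h1, h2, h3⟩ := exit (U := R i) h.cl hx hv fun s h0 h1 hs =>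
      h.near i hi _ hs (thickening_mono (by linarith [h.ee, h.dpos]) _ (hth s h0 h1))
    refine ⟨sg x v '' Icc 0 s, ?_, isPreconnected_Icc.image _ (continuous_sg x v).continuousOn,
      ⟨0, ⟨le_rfl, h0⟩, sg_zero x v⟩, sg x v s, ⟨s, ⟨h0, le_rfl⟩, rfl⟩, h2⟩
    rintro _ ⟨r, ⟨hr0, hr1⟩, rfl⟩
    rcases h3 r hr0 hr1 with h4 | h4
    · exact Or.inr ⟨hi, h4, hth r hr0 (hr1.trans h1)⟩
    · exact Or.inl h4
  obtain ⟨a, ha, hza⟩ := mem_thickening_iff.1 hzA
  rw [dist_eq_norm] at hza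
  -- the arc is joined to `R i`
  obtain ⟨w, hwG, hwA⟩ := h.out i hi
  obtain ⟨b, hb, hwb⟩ := mem_thickening_iff.1 hwA
  rw [dist_eq_norm] at hwb
  obtain ⟨t1, h1, h2, h3, h4⟩ := key b w b (h.Asub i hi hb) hwG hb (by simpa using h.epos) hwb
  by_cases hseg : ∃ s : ℝ, 0 ≤ s ∧ s ≤ 1 ∧ sg z a s ∉ G
  · obtain ⟨s, hs0, hs1, hs⟩ := hseg
    exact key z (sg z a s) a hzG hs ha hza (sg_ball hza (by simpa using h.epos) hs0 hs1)
  · push Not at hseg
    have hAsw : A i ⊆ swl R A I G e i := fun x hx =>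
      Or.inr ⟨hi, h.Asub i hi hx, self_subset_thickening h.epos _ hx⟩
    have hT : IsPreconnected (sg z a '' Icc 0 1) :=
      isPreconnected_Icc.image _ (continuous_sg z a).continuousOn
    refine ⟨(sg z a '' Icc 0 1 ∪ A i) ∪ t1, ?_, ?_, ?_, ?_⟩
    · rintro x ((⟨s, ⟨hs0, hs1⟩, rfl⟩ | hx) | hx)
      · refine Or.inr ⟨hi, hseg s hs0 hs1, mem_thickening_iff.2 ⟨a, ha, ?_⟩⟩
        rw [dist_eq_norm]
        exact sg_ball hza (by simpa using h.epos) hs0 hs1
      · exact hAsw hx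
      · exact h1 hx
    · refine IsPreconnected.union b (Or.inr hb) h3 ?_ h2
      exact IsPreconnected.union a ⟨1, ⟨zero_le_one, le_rfl⟩, sg_one z a⟩ ha hT (h.Acon i hi)
    · exact Or.inl (Or.inl ⟨0, ⟨le_rfl, zero_le_one⟩, sg_zero z a⟩)
    · obtain ⟨x, hx1, hx2⟩ := h4
      exact ⟨x, Or.inr hx1, hx2⟩

theorem isConnected_swl (h : Hyp R A I G δ e e') (i : ι) : IsConnected (swl R A I G e i) := by
  obtain ⟨x, hx⟩ := (h.con i).nonempty
  refine ⟨⟨x, Or.inl hx⟩, isPreconnected_of_forall x fun y hy => ?_⟩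
  obtain ⟨t, h1, h2, h3, u, hu1, hu2⟩ := join h hy
  refine ⟨R i ∪ t, ?_, Or.inl hx, Or.inr h3,
    IsPreconnected.union u hu2 hu1 (h.con i).isPreconnected h2⟩
  rintro w (hw | hw)
  · exact Or.inl hw
  · exact h1 hw

/-- a swallowed point is far from the other regions -/
theorem far_aux (h : Hyp R A I G δ e e') {i j : ι} (hij : i ≠ j) {z w : ℂ} (hi : i ∈ I)
    (hz : z ∈ G) (hzA : z ∈ thickening e (A i)) (hw : w ∈ R j) : δ ≤ ‖z - w‖ := by
  by_contra hcon
  push Not at hcon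
  obtain ⟨a, ha, hza⟩ := mem_thickening_iff.1 hzA
  rw [dist_eq_norm] at hza
  have hwG : w ∉ G := fun hw' => disjoint_left.1 (h.disj j) hw hw'
  have hee := h.ee
  have hdp := h.dpos
  have hwa : ‖w - a‖ < e' := by
    calc ‖w - a‖ ≤ ‖w - z‖ + ‖z - a‖ := norm_sub_le_norm_sub_add_norm_sub w z a
      _ < e' := by rw [norm_sub_rev w z]; linarith
  obtain ⟨s, h0, h1, h2, -⟩ := exit (U := R i) h.cl hz hwG fun s h0 h1 hs =>
    h.near i hi _ hs (mem_thickening_iff.2 ⟨a, ha, by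
      rw [dist_eq_norm]; exact sg_ball (by linarith) hwa h0 h1⟩)
  have h3 := h.far i j hij _ h2 w hw
  have h4 : ‖sg z w s - w‖ ≤ ‖z - w‖ := by
    have e1 : sg z w s - w = ((1 - s : ℝ) : ℂ) * (z - w) := by unfold sg; push_cast; ring
    rw [e1, norm_mul, Complex.norm_real, Real.norm_of_nonneg (sub_nonneg.2 h1)]
    have := norm_nonneg (z - w)
    nlinarith
  linarith

theorem far_swl (h : Hyp R A I G δ e e') {i j : ι} (hij : i ≠ j) {z w : ℂ}
    (hz : z ∈ swl R A I G e i) (hw : w ∈ swl R A I G e j) : δ ≤ ‖z - w‖ := by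
  rcases hz with hz | ⟨hi, hzG, hzA⟩
  · rcases hw with hw | ⟨hj, hwG, hwA⟩
    · exact h.far i j hij z hz w hw
    · rw [norm_sub_rev]
      exact far_aux h hij.symm hj hwG hwA hz
  · rcases hw with hw | ⟨hj, hwG, hwA⟩
    · exact far_aux h hij hi hzG hzA hw
    · obtain ⟨a, ha, hza⟩ := mem_thickening_iff.1 hzA
      obtain ⟨b, hb, hwb⟩ := mem_thickening_iff.1 hwA
      rw [dist_eq_norm] at hza hwb
      have h1 := h.sep i hi j hj hij a ha b hb
      have h2 := norm_sub_le_norm_sub_add_norm_sub a z b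
      have h3 := norm_sub_le_norm_sub_add_norm_sub z w b
      rw [norm_sub_rev a z] at h2
      linarith

/-- outside of `G` nothing changes -/
theorem mem_swl_of_not {i : ι} {z : ℂ} (hz : z ∉ G) : z ∈ swl R A I G e i ↔ z ∈ R i :=
  ⟨fun h => h.resolve_right fun h => hz h.2.1, Or.inl⟩

/-- the swallowed arc -/
theorem arc_sub (h : Hyp R A I G δ e e') {i : ι} (hi : i ∈ I) : A i ⊆ swl R A I G e i :=
  fun _ hx => Or.inr ⟨hi, h.Asub i hi hx, self_subset_thickening h.epos _ hx⟩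

/-- the regions which are not swallowed do not change -/
theorem swl_of_not {i : ι} (hi : i ∉ I) : swl R A I G e i = R i := by
  ext z
  exact ⟨fun h => h.resolve_right fun h => hi h.1, Or.inl⟩

end Crest.Agent.R143.Swlx922
end
end

-- ▼ part R143/Swl2_922
section

/-!
# Row 143 (S0194), block D, leaf SWL, second part (helper922)

`MacC` = the structure `Mac` of Cfg_416 without the fields `lk`, `lkm`.
`core` : outer polygon with shifted marks (`Pol4`) + tentacles (`Ten`) + metric facts about the arcs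
(`Ars`) ⟹ `MacC` for all small `κ`.
-/

set_option autoImplicit false
set_option linter.all false

noncomputable section

open scoped Classical Topology
open Set Filter Metric

namespace Crest.Agent.R143.Swl2x922

open Crest.Agent.R158.Sp896 Crest.Agent.R158.Jt785
open Crest.ProbabilityR.Percolation
open Crest.Agent.R143.Cfgx416 Crest.Agent.R143.Tenx416 Crest.Agent.R143.Swlx922

/-- `Mac` without the linking fields -/
structure MacC (D : Set ℂ) (A : ZMod 4 → Set ℂ) (m : ZMod 4 → ℂ) (T : Set (ZMod 4))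
    (e : ℝ) (C : Cfg 4) (δ κ : ℝ) (G : Set ℂ) (B : ZMod 4 → Set ℂ) : Prop where
  ok : C.OK δ
  kpos : 0 < κ
  ke : κ < e
  bd : closure D ⊆ Metric.closedBall C.c (C.L / 4)
  Gc : IsCompact G
  DG : closure D ⊆ interior G
  Gbd : G ⊆ Metric.closedBall C.c (C.L / 3)
  Ge : ∀ z ∈ G, Metric.infDist z (closure D) < e
  Bc : ∀ k, IsClosed (B k)
  body : C.outᶜ = (G \ C.out) ∪ ⋃ k, B k
  sw : ∀ i ∈ T, A i ⊆ C.R i
  sw' : ∀ i ∈ T, ∀ z ∈ G, Metric.infDist z (A i) ≤ κ → z ∈ C.R i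
  ns : ∀ z ∈ G, z ∉ C.out → z ∉ D → ∃ i ∉ T, Metric.infDist z (A i) < e
  ot : ∀ i ∉ T, Disjoint (C.R i) G
  otD : ∀ i ∉ T, ∀ z ∈ closure D, ∀ w ∈ C.R i, κ ≤ dist z w
  nr : ∀ i, ∀ y ∈ G, ∀ w ∈ C.R i, dist w y < κ → Metric.infDist y (A i) < e
  nr' : ∀ i, ∀ p ∈ A i, ∃ w ∈ C.R i, dist w p < e
  ex : ∀ y ∈ G, ∀ w, dist w y < κ → w ∈ G ∨ w ∈ C.out ∨ ∃ k, w ∈ B k ∧ dist w (m k) < e
  tb : ∀ k, ∀ y ∈ B k, ∀ w, dist w y < κ →
    w ∈ B k ∨ w ∈ C.R (k - 1) ∨ w ∈ C.R k ∨ (w ∈ G ∧ dist w (m k) < e)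
  tbn : ∀ k, ∀ y ∈ B k, ∀ w, dist w y < κ → ∀ j, j ≠ k - 1 → j ≠ k → w ∉ C.R j
  tbt : ∀ j k, j ≠ k → ∀ y ∈ B j, ∀ w ∈ B k, κ ≤ dist y w
  tbc : ∀ k, C.cone δ k ⊆ B k
  tbD : ∀ k, ∀ y ∈ B k, ∀ z ∈ closure D, κ ≤ dist y z
  tg : ∀ k, ∀ y ∈ B k, ∀ z ∈ G, dist y z < κ → dist z (m k) < e
  inD : ∀ z ∈ D, z ∈ C.out → Metric.infDist z (frontier D) < e

/-- metric facts about the arcs `A` and the shifted arcs `AA` : `e1` = depth of the swallowed
neighbourhood, `ρ` = scale of the polygon -/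
structure Ars (D : Set ℂ) (A AA : ZMod 4 → Set ℂ) (m : ZMod 4 → ℂ) (T : Set (ZMod 4))
    (e e1 ρ : ℝ) : Prop where
  e1pos : 0 < e1
  rpos : 0 < ρ
  e1e : 4 * e1 ≤ e
  re : 8 * ρ ≤ e1
  Dop : IsOpen D
  Dbd : Bornology.IsBounded D
  fr : frontier D = ⋃ i, A i
  Acon : ∀ i, IsPreconnected (A i)
  Anon : ∀ i, (A i).Nonempty
  sep : ∀ i ∈ T, ∀ j, j ≠ i → ∀ x ∈ A i, ∀ y ∈ AA j, 4 * e1 ≤ ‖x - y‖
  TT : ∀ i ∈ T, A i ⊆ AA i
  nr : ∀ i, ∀ y ∈ AA i, ∃ x ∈ A i, ‖y - x‖ < e / 4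
  mrk : ∀ k z, Nr ρ (AA k) z → Nr ρ (AA (k - 1)) z → ‖z - m k‖ < e / 4
  ext : ∀ i ∈ T, ∃ p ∈ A i, ∃ w, ‖w - p‖ < e1 ∧ ∀ y ∈ closure D, ρ ≤ ‖w - y‖
  net : ∀ i, i ∉ T → ∀ p ∈ A i, ∃ p' ∈ closure D, ∃ w, ‖p - p'‖ < e / 4 ∧ ‖w - p'‖ < e / 4 ∧
    (∀ y ∈ closure D, ρ ≤ ‖w - y‖) ∧
    ∀ y, ‖y - p'‖ ≤ ‖w - p'‖ → ∀ j, j ≠ i → ∀ x ∈ AA j, ρ ≤ ‖y - x‖

/-- the configuration with the swallowed arcs -/
def Csw (C : Cfg 4) (A : ZMod 4 → Set ℂ) (T : Set (ZMod 4)) (G : Set ℂ) (e1 : ℝ) : Cfg 4 :=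
  { C with R := swl C.R A T G e1 }

variable {D : Set ℂ} {A AA : ZMod 4 → Set ℂ} {m : ZMod 4 → ℂ} {T : Set (ZMod 4)} {e e1 ρ e0 s : ℝ}
  {F : Set V} {N : ℕ} {v : ℕ → V} {mm : ℕ → ℕ} {C : Cfg 4} {δ κ0 : ℝ} {B : ZMod 4 → Set ℂ}

/-! ### the polygon -/

theorem isCompact_Pg (hF : F.Finite) : IsCompact (Pg s F) := by
  refine hF.isCompact_biUnion fun q _ => ?_
  refine Metric.isCompact_of_isClosed_isBounded (isClosed_sq s q) ?_
  rw [Metric.isBounded_iff]
  refine ⟨2 * s, fun z hz w hw => ?_⟩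
  rw [dist_eq_norm]
  exact sq_dist hz hw


theorem closure_sub_interior (hP : Pol4 D AA e0 s F N v mm) : closure D ⊆ interior (Pg s F) :=
  fun z hz => mem_interior_cells hP.s_pos fun q hq => hP.cover q ⟨z, hq, hz⟩

theorem z4 (k : ZMod 4) : k = 0 ∨ k = 1 ∨ k = 2 ∨ k = 3 := by revert k; decide

/-- the marked edges are near both arcs -/
theorem marked (hP : Pol4 D AA e0 s F N v mm) (k : ZMod 4) {z : ℂ}
    (hz : z ∈ ed s (v (mm k.val)) (v (mm k.val + 1))) : Nr e0 (AA k) z ∧ Nr e0 (AA (k - 1)) z := by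
  have h01 := hP.m01
  have h12 := hP.m12
  have h23 := hP.m23
  have h3N := hP.m3N
  have hper := hP.cyc.per
  have hk := z4 k
  rcases hk with rfl | rfl | rfl | rfl
  · refine ⟨hP.side 0 _ ⟨le_rfl, ?_⟩ z hz, ?_⟩
    · show mm 0 ≤ nx N mm 0
      unfold nx; rw [if_neg (by decide)]
      exact h01.le
    · have e1 : (0 : ZMod 4) - 1 = 3 := by decide
      rw [e1]
      refine hP.side 3 (mm 0 + N) ⟨?_, ?_⟩ z ?_
      · show mm 3 ≤ mm 0 + N
        omega
      · unfold nx; rw [if_pos rfl]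
      · have h1 : v (mm 0 + N) = v (mm 0) := hper _
        have h2 : v (mm 0 + N + 1) = v (mm 0 + 1) := by
          have : mm 0 + N + 1 = (mm 0 + 1) + N := by ring
          rw [this]; exact hper _
        rw [h1, h2]
        exact hz
  · refine ⟨hP.side 1 _ ⟨le_rfl, ?_⟩ z hz, ?_⟩
    · show mm 1 ≤ nx N mm 1
      unfold nx; rw [if_neg (by decide)]
      exact h12.le
    · have e1 : (1 : ZMod 4) - 1 = 0 := by decide
      rw [e1]
      refine hP.side 0 (mm 1) ⟨h01.le, ?_⟩ z hz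
      unfold nx; rw [if_neg (by decide)]
      exact le_rfl
  · refine ⟨hP.side 2 _ ⟨le_rfl, ?_⟩ z hz, ?_⟩
    · show mm 2 ≤ nx N mm 2
      unfold nx; rw [if_neg (by decide)]
      exact h23.le
    · have e1 : (2 : ZMod 4) - 1 = 1 := by decide
      rw [e1]
      refine hP.side 1 (mm 2) ⟨h12.le, ?_⟩ z hz
      unfold nx; rw [if_neg (by decide)]
      exact le_rfl
  · refine ⟨hP.side 3 _ ⟨le_rfl, ?_⟩ z hz, ?_⟩
    · show mm 3 ≤ nx N mm 3
      unfold nx; rw [if_pos rfl]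
      omega
    · have e1 : (3 : ZMod 4) - 1 = 2 := by decide
      rw [e1]
      refine hP.side 2 (mm 3) ⟨h23.le, ?_⟩ z hz
      unfold nx; rw [if_neg (by decide)]
      exact le_rfl


/-! ### the regions near the polygon -/

theorem Pg_not_out (hT : Ten s F N v mm C δ κ0 B) {z : ℂ} (hz : z ∈ Pg s F) : z ∉ C.out := by
  have : z ∈ C.outᶜ := by rw [hT.body]; exact Or.inl hz
  exact this

theorem B_not_out (hT : Ten s F N v mm C δ κ0 B) {z : ℂ} {k : ZMod 4} (hz : z ∈ B k) :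
    z ∉ C.out := by
  have : z ∈ C.outᶜ := by rw [hT.body]; exact Or.inr (mem_iUnion.2 ⟨k, hz⟩)
  exact this

theorem mem_out_iff {C : Cfg 4} {z : ℂ} : z ∈ C.out ↔ ∃ i, z ∈ C.R i := by
  unfold Cfg.out
  rw [mem_iUnion]

theorem trio (hT : Ten s F N v mm C δ κ0 B) (z : ℂ) :
    z ∈ Pg s F ∨ (∃ k, z ∈ B k) ∨ ∃ i, z ∈ C.R i := by
  by_cases h : z ∈ C.out
  · exact Or.inr (Or.inr (mem_out_iff.1 h))
  · have h1 : z ∈ C.outᶜ := h
    rw [hT.body] at h1
    rcases h1 with h1 | h1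
    · exact Or.inl h1
    · exact Or.inr (Or.inl (mem_iUnion.1 h1))

/-- **near the arc `i` and far from the other arcs there are only the polygon and the region `i`** -/
theorem nearL (hP : Pol4 D AA e0 s F N v mm) (hT : Ten s F N v mm C δ κ0 B) {y : ℂ}
    (hy : y ∈ Pg s F) {i : ZMod 4} (hfar : ∀ j, j ≠ i → ∀ x ∈ AA j, 2 * e0 ≤ ‖y - x‖) :
    ball y κ0 ⊆ Pg s F ∪ C.R i := by
  have hk := hT.ks
  have hs := hP.s_lt
  intro w hw
  rw [mem_ball] at hw
  have aux : ∀ j, j ≠ i → ∀ z, dist z y < κ0 → Nr e0 (AA j) z → False := by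
    rintro j hj z hz ⟨x, hx, hzx⟩
    have h1 := hfar j hj x hx
    rw [dist_eq_norm] at hz
    have h2 := norm_sub_le_norm_sub_add_norm_sub y z x
    rw [norm_sub_rev y z] at h2
    linarith
  rcases trio hT w with h | ⟨k, h⟩ | ⟨j, h⟩
  · exact Or.inl h
  · exfalso
    obtain ⟨z, hz, h1, h2⟩ := hT.mth k w h y hy hw
    obtain ⟨h3, h4⟩ := marked hP k hz
    by_cases hki : k = i
    · refine aux (k - 1) ?_ z h2 h4
      rw [← hki]
      intro h5
      have : (1 : ZMod 4) = 0 := by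
        have := congrArg (fun t => k - t) h5
        simpa using this
      exact absurd this (by decide)
    · exact aux k hki z h2 h3
  · by_cases hji : j = i
    · rw [← hji]; exact Or.inr h
    · exfalso
      obtain ⟨k, hk1, z, hz, h1⟩ := hT.nb y hy j w h hw
      exact aux j hji z h1 (hP.side j k hk1 z hz)

/-- points far from `closure D` are not in the polygon -/
theorem not_Pg (hP : Pol4 D AA e0 s F N v mm) (h0 : 8 * e0 ≤ ρ) {w : ℂ}
    (hw : ∀ y ∈ closure D, ρ ≤ ‖w - y‖) : w ∉ Pg s F := by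
  intro h
  obtain ⟨q, hq, hwq⟩ := mem_iUnion₂.1 h
  obtain ⟨y, hy, h1⟩ := hP.out q hq w hwq
  have h2 := hw y hy
  have h3 := hP.s_pos
  have h4 := hP.s_lt
  linarith

/-- `δ` is small -/
theorem delta_lt (hP : Pol4 D AA e0 s F N v mm) (hT : Ten s F N v mm C δ κ0 B) : δ < 6 * e0 := by
  have hs := hP.s_pos
  have h01 := hP.m01
  have h12 := hP.m12
  have hz : pt s (v (mm 1)) ∈ ed s (v (mm 1)) (v (mm 1 + 1)) := left_mem_segment ℝ _ _
  obtain ⟨w0, h1, h2⟩ := hT.near 0 (mm 1) ⟨h01.le, by unfold nx; rw [if_neg (by decide)]; exact le_rfl⟩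
    _ hz
  obtain ⟨w1, h3, h4⟩ := hT.near 1 (mm 1) ⟨le_rfl, by
    unfold nx; rw [if_neg (by decide)]; exact h12.le⟩ _ hz
  have h5 := hT.ok.far 0 1 (by decide) w0 h1 w1 h3
  rw [dist_eq_norm] at h2 h4
  have h6 := norm_sub_le_norm_sub_add_norm_sub w0 (pt s (v (mm 1))) w1
  rw [norm_sub_rev (pt s (v (mm 1))) w1] at h6
  have := hP.s_lt
  linarith

theorem e0_pos (hP : Pol4 D AA e0 s F N v mm) : 0 < e0 := hP.s_pos.trans hP.s_lt

/-- the hypotheses of the swallowing lemma -/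
theorem hyp (hA : Ars D A AA m T e e1 ρ) (hP : Pol4 D AA e0 s F N v mm) (h0 : 8 * e0 ≤ ρ)
    (hT : Ten s F N v mm C δ κ0 B) : Hyp C.R A T (Pg s F) δ e1 (2 * e1) := by
  have he1 := hA.e1pos
  have hρ := hA.rpos
  have hre := hA.re
  have he0 := e0_pos hP
  have hδ := delta_lt hP hT
  refine ⟨hT.ok.dpos, he1, by linarith, (isCompact_Pg hP.fin).isClosed, fun i => ?_, hT.ok.opn,
    hT.ok.con, hT.ok.far, fun i hi y hy hyA => ?_, fun i hi x hx => ?_, fun i _ => hA.Acon i,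
    fun i hi => ?_, fun i hi j hj hij z hz w hw => ?_⟩
  · refine disjoint_left.2 fun z h1 h2 => ?_
    exact Pg_not_out hT h2 (mem_out_iff.2 ⟨i, h1⟩)
  · obtain ⟨a, ha, hya⟩ := mem_thickening_iff.1 hyA
    rw [dist_eq_norm] at hya
    refine Filter.mem_of_superset (ball_mem_nhds y hT.kpos) (nearL hP hT hy fun j hj x hx => ?_)
    have h1 := hA.sep i hi j hj a ha x hx
    have h2 := norm_sub_le_norm_sub_add_norm_sub a y x
    rw [norm_sub_rev a y] at h2
    linarith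
  · have h1 : x ∈ frontier D := by rw [hA.fr]; exact mem_iUnion.2 ⟨i, hx⟩
    exact interior_subset (closure_sub_interior hP (frontier_subset_closure h1))
  · obtain ⟨p, hp, w, hw, hw'⟩ := hA.ext i hi
    exact ⟨w, not_Pg hP h0 hw', mem_thickening_iff.2 ⟨p, hp, by rw [dist_eq_norm]; exact hw⟩⟩
  · have := hA.sep i hi j hij.symm z hz w (hA.TT j hj hw)
    linarith

theorem ok_sw (hA : Ars D A AA m T e e1 ρ) (hP : Pol4 D AA e0 s F N v mm) (h0 : 8 * e0 ≤ ρ)
    (hT : Ten s F N v mm C δ κ0 B) : (Csw C A T (Pg s F) e1).OK δ := by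
  have hH := hyp hA hP h0 hT
  have hok := hT.ok
  have hL := hok.Lpos
  have hnG : ∀ z : ℂ, C.L / 2 < ‖z - C.c‖ → z ∉ Pg s F := fun z hz h => by
    have := hT.bd h
    rw [mem_closedBall, dist_eq_norm] at this
    linarith
  refine ⟨hL, hok.dpos, isOpen_swl hH, isConnected_swl hH, hok.qn, hok.ang,
    fun i j hij z hz w hw => far_swl hH hij hz hw, fun z hz => ?_, fun k r hr => ?_⟩
  · refine Iff.trans ?_ (hok.tent z hz)
    exact forall_congr' fun i => not_congr (mem_swl_of_not (hnG z hz))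
  · obtain ⟨ε, hε, h⟩ := hok.sect k r hr
    refine ⟨ε, hε, fun ψ h1 h2 => ?_⟩
    obtain ⟨h3, h4⟩ := h ψ h1 h2
    exact ⟨Or.inl h3, Or.inl h4⟩

theorem mem_out_sw {G : Set ℂ} {z : ℂ} : z ∈ (Csw C A T G e1).out ↔
    z ∈ C.out ∨ ∃ i ∈ T, z ∈ G ∧ z ∈ thickening e1 (A i) := by
  rw [mem_out_iff, mem_out_iff]
  constructor
  · rintro ⟨i, h | ⟨h1, h2, h3⟩⟩
    · exact Or.inl ⟨i, h⟩
    · exact Or.inr ⟨i, h1, h2, h3⟩
  · rintro (⟨i, h⟩ | ⟨i, h1, h2, h3⟩)
    · exact ⟨i, Or.inl h⟩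
    · exact ⟨i, Or.inr ⟨h1, h2, h3⟩⟩

theorem infDist_lt_of {K : Set ℂ} {z y : ℂ} {r : ℝ} (hy : y ∈ K) (h : ‖z - y‖ < r) :
    infDist z K < r := (infDist_le_dist_of_mem hy).trans_lt (by rw [dist_eq_norm]; exact h)

theorem km_ne (k : ZMod 4) : k - 1 ≠ k := by revert k; decide

/-- near a marked edge there is no swallowed arc -/
theorem mark_far (hA : Ars D A AA m T e e1 ρ) (hP : Pol4 D AA e0 s F N v mm) (h0 : 8 * e0 ≤ ρ)
    {k i : ZMod 4} (hi : i ∈ T) {z w : ℂ} (hz : z ∈ ed s (v (mm k.val)) (v (mm k.val + 1)))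
    (hw : w ∈ thickening e1 (A i)) : e1 ≤ ‖z - w‖ := by
  obtain ⟨a, ha, hwa⟩ := mem_thickening_iff.1 hw
  rw [dist_eq_norm] at hwa
  have he1 := hA.e1pos
  have hre := hA.re
  have he0 := e0_pos hP
  have hρ := hA.rpos
  obtain ⟨⟨x, hx, hzx⟩, ⟨x', hx', hzx'⟩⟩ := marked hP k hz
  by_contra hcon
  push Not at hcon
  have key : ∀ j, j ≠ i → ∀ x ∈ AA j, ‖z - x‖ < e0 → False := by
    intro j hj x hx hzx
    have h1 := hA.sep i hi j hj a ha x hx
    have h2 := norm_sub_le_norm_sub_add_norm_sub a w x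
    have h3 := norm_sub_le_norm_sub_add_norm_sub w z x
    rw [norm_sub_rev a w] at h2
    rw [norm_sub_rev w z] at h3
    linarith
  by_cases hki : k = i
  · exact key (k - 1) (by rw [← hki]; exact km_ne k) x' hx' hzx'
  · exact key k hki x hx hzx

/-- the tentacles without the interior of the polygon -/
def Bp (B : ZMod 4 → Set ℂ) (s : ℝ) (F : Set V) (k : ZMod 4) : Set ℂ := B k \ interior (Pg s F)

/-- **the macroscopic configuration without the linking fields** -/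
theorem core (hA : Ars D A AA m T e e1 ρ) (hP : Pol4 D AA e0 s F N v mm) (h0 : 8 * e0 ≤ ρ)
    (hT : Ten s F N v mm C δ κ0 B) : ∃ κ1 : ℝ, 0 < κ1 ∧ κ1 ≤ κ0 ∧ κ1 ≤ e1 / 2 ∧
      (∀ z ∈ closure D, ball z κ1 ⊆ Pg s F) ∧
      ∀ κ : ℝ, 0 < κ → κ ≤ κ1 → MacC D A m T e (Csw C A T (Pg s F) e1) δ κ (Pg s F)
        (Bp B s F) := by
  have he1 := hA.e1pos
  have hρ := hA.rpos
  have hre := hA.re
  have he1e := hA.e1e
  have he0 := e0_pos hP
  have hs := hP.s_pos
  have hse := hP.s_lt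
  have hks := hT.ks
  have hk0 := hT.kpos
  have hH := hyp hA hP h0 hT
  have hDc : IsCompact (closure D) := hA.Dbd.isCompact_closure
  have hDG := closure_sub_interior hP
  have hGc : IsCompact (Pg s F) := isCompact_Pg hP.fin
  -- margin around `closure D`
  obtain ⟨κ2, hκ2, hth⟩ := hDc.exists_thickening_subset_open isOpen_interior hDG
  have hball : ∀ z ∈ closure D, ball z κ2 ⊆ interior (Pg s F) := fun z hz w hw =>
    hth (mem_thickening_iff.2 ⟨z, hz, hw⟩)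
  set κ1 := min (min κ0 κ2) (e1 / 2) with hκ1
  have g1 : κ1 ≤ κ0 := (min_le_left _ _).trans (min_le_left _ _)
  have g2 : κ1 ≤ κ2 := (min_le_left _ _).trans (min_le_right _ _)
  have g3 : κ1 ≤ e1 / 2 := min_le_right _ _
  have g0 : 0 < κ1 := by positivity
  refine ⟨κ1, g0, g1, g3, fun z hz => (ball_subset_ball g2).trans
    ((hball z hz).trans interior_subset), fun κ hκ hκ' => ?_⟩
  have hDsub : closure D ⊆ Pg s F := hDG.trans interior_subset
  have hfrD : ∀ i, A i ⊆ frontier D := fun i x hx => by rw [hA.fr]; exact mem_iUnion.2 ⟨i, hx⟩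
  have hmk : ∀ (k : ZMod 4) (z : ℂ), z ∈ ed s (v (mm k.val)) (v (mm k.val + 1)) →
      ‖z - m k‖ < e / 4 := fun k z hz => by
    obtain ⟨h1, h2⟩ := marked hP k hz
    exact hA.mrk k z (h1.mono (by linarith)) (h2.mono (by linarith))
  -- no tentacle meets a swallowed neighbourhood
  have hBsw : ∀ k, ∀ y ∈ B k, ∀ w, dist w y < κ0 → ∀ i ∈ T, w ∈ Pg s F → w ∈ thickening e1 (A i) →
      False := by
    intro k y hy w hwy i hi hwG hwA
    obtain ⟨z, hz, h1, h2⟩ := hT.mth k y hy w hwG (by rw [dist_comm]; exact hwy)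
    have h3 := mark_far hA hP h0 hi hz hwA
    rw [dist_eq_norm] at h2
    linarith
  have hout : ∀ z, z ∉ (Csw C A T (Pg s F) e1).out → z ∉ C.out := fun z hz h =>
    hz (mem_out_sw.2 (Or.inl h))
  constructor
  · exact ok_sw hA hP h0 hT
  · exact hκ
  · linarith
  · exact hDsub.trans hT.bd
  · exact hGc
  · exact hDG
  · refine hT.bd.trans (closedBall_subset_closedBall ?_)
    have := hT.ok.Lpos
    show C.L / 4 ≤ C.L / 3
    linarith
  · -- Ge
    intro z hz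
    obtain ⟨q, hq, hzq⟩ := mem_iUnion₂.1 hz
    obtain ⟨y, hy, h1⟩ := hP.out q hq z hzq
    exact infDist_lt_of hy (by linarith)
  · exact fun k => (hT.Bc k).sdiff isOpen_interior
  · -- body
    ext z
    constructor
    · intro hz
      have hz' : z ∉ (Csw C A T (Pg s F) e1).out := hz
      rcases trio hT z with h | ⟨k, h⟩ | ⟨i, h⟩
      · exact Or.inl ⟨h, hz'⟩
      · by_cases hzi : z ∈ interior (Pg s F)
        · exact Or.inl ⟨interior_subset hzi, hz'⟩
        · exact Or.inr (mem_iUnion.2 ⟨k, h, hzi⟩)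
      · exact absurd (mem_out_iff.2 ⟨i, h⟩) (hout z hz')
    · rintro (⟨h1, h2⟩ | h)
      · exact h2
      · obtain ⟨k, hk, -⟩ := mem_iUnion.1 h
        intro hz
        rcases mem_out_sw.1 hz with h1 | ⟨i, hi, h2, h3⟩
        · exact B_not_out hT hk h1
        · exact hBsw k z hk z (by rw [dist_self]; exact hk0) i hi h2 h3
  · exact fun i hi => arc_sub hH hi
  · -- sw'
    intro i hi z hz hd
    refine Or.inr ⟨hi, hz, ?_⟩
    rw [mem_thickening_iff_infDist_lt (hA.Anon i)]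
    linarith
  · -- ns
    intro z hz hzo hzD
    obtain ⟨q, hq, hzq⟩ := mem_iUnion₂.1 hz
    obtain ⟨y, hy, h1⟩ := hP.out q hq z hzq
    -- a point of the frontier near `z`
    obtain ⟨x, hx, hzx⟩ : ∃ x ∈ frontier D, ‖z - x‖ < e0 := by
      by_cases hyf : y ∈ frontier D
      · exact ⟨y, hyf, h1⟩
      have hyD : y ∈ D := by
        by_contra hyD
        exact hyf (by rw [hA.Dop.frontier_eq]; exact ⟨hy, hyD⟩)
      have hpre : IsPreconnected (segment ℝ y z) := (convex_segment y z).isPreconnected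
      obtain ⟨x, hx1, hx2⟩ : ∃ x ∈ segment ℝ y z, x ∈ frontier D := by
        by_contra hcon
        push Not at hcon
        refine hzD (hpre.subset_of_closure_inter_subset hA.Dop
          ⟨y, left_mem_segment ℝ y z, hyD⟩ ?_ (right_mem_segment ℝ y z))
        rintro x ⟨hx1, hx2⟩
        by_contra hxD
        exact hcon x hx2 (by rw [hA.Dop.frontier_eq]; exact ⟨hx1, hxD⟩)
      refine ⟨x, hx2, ?_⟩
      have h2 : ‖z - x‖ ≤ ‖z - y‖ := by
        rw [segment_eq_image'] at hx1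
        obtain ⟨t, ⟨ht0, ht1⟩, rfl⟩ := hx1
        have e1 : z - (y + t • (z - y)) = ((1 - t : ℝ) : ℂ) * (z - y) := by
          rw [Complex.real_smul]; push_cast; ring
        show ‖z - (y + t • (z - y))‖ ≤ _
        rw [e1, norm_mul, Complex.norm_real, Real.norm_of_nonneg (by linarith)]
        have := norm_nonneg (z - y)
        nlinarith
      linarith
    rw [hA.fr] at hx
    obtain ⟨i, hi⟩ := mem_iUnion.1 hx
    refine ⟨i, fun hiT => ?_, infDist_lt_of hi (by linarith)⟩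
    exact hzo (mem_out_sw.2 (Or.inr ⟨i, hiT, hz, mem_thickening_iff.2 ⟨x, hi, by
      rw [dist_eq_norm]; linarith⟩⟩))
  · -- ot
    intro i hi
    show Disjoint (swl C.R A T (Pg s F) e1 i) (Pg s F)
    rw [swl_of_not hi]
    exact hH.disj i
  · -- otD
    intro i hi z hz w hw
    have hw' : w ∈ C.R i := by
      have : w ∈ swl C.R A T (Pg s F) e1 i := hw
      rwa [swl_of_not hi] at this
    by_contra hcon
    push Not at hcon
    have h1 : w ∈ Pg s F := interior_subset (hball z hz (by rw [mem_ball, dist_comm]; linarith))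
    exact disjoint_left.1 (hH.disj i) hw' h1
  · -- nr
    intro i y hy w hw hd
    rcases hw with hw | ⟨hi, hwG, hwA⟩
    · obtain ⟨k, hk, z, hz, h1⟩ := hT.nb y hy i w hw (by linarith)
      obtain ⟨x, hx, hzx⟩ := hP.side i k hk z hz
      obtain ⟨x', hx', hxx'⟩ := hA.nr i x hx
      refine infDist_lt_of hx' ?_
      rw [dist_eq_norm] at h1
      have h2 := norm_sub_le_norm_sub_add_norm_sub y z x'
      have h3 := norm_sub_le_norm_sub_add_norm_sub z x x'
      rw [norm_sub_rev y z] at h2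
      linarith
    · obtain ⟨a, ha, hwa⟩ := mem_thickening_iff.1 hwA
      refine infDist_lt_of ha ?_
      rw [dist_eq_norm] at hwa hd
      have h2 := norm_sub_le_norm_sub_add_norm_sub y w a
      rw [norm_sub_rev y w] at h2
      linarith
  · -- nr'
    intro i p hp
    by_cases hi : i ∈ T
    · exact ⟨p, arc_sub hH hi hp, by rw [dist_self]; linarith⟩
    · obtain ⟨p', hp', w, h1, h2, h3, h4⟩ := hA.net i hi p hp
      have hwG := not_Pg hP h0 h3
      have hseg : ∀ t : ℝ, 0 ≤ t → t ≤ 1 → ‖sg p' w t - p'‖ ≤ ‖w - p'‖ := fun t ht0 ht1 => by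
        have e1 : sg p' w t - p' = (t : ℂ) * (w - p') := by unfold sg; ring
        rw [e1, norm_mul, Complex.norm_real, Real.norm_of_nonneg ht0]
        have := norm_nonneg (w - p')
        nlinarith
      obtain ⟨t, ht0, ht1, ht, -⟩ := exit (U := C.R i) hGc.isClosed (hDsub hp') hwG
        fun t ht0 ht1 hG => Filter.mem_of_superset (ball_mem_nhds _ hT.kpos)
          (nearL hP hT hG fun j hj x hx => by
            have := h4 _ (hseg t ht0 ht1) j hj x hx
            linarith)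
      refine ⟨sg p' w t, Or.inl ht, ?_⟩
      rw [dist_eq_norm]
      have h5 := hseg t ht0 ht1
      have h6 := norm_sub_le_norm_sub_add_norm_sub (sg p' w t) p' p
      rw [norm_sub_rev p' p] at h6
      linarith
  · -- ex
    intro y hy w hd
    rcases trio hT w with h | ⟨k, h⟩ | ⟨i, h⟩
    · exact Or.inl h
    · by_cases hwi : w ∈ interior (Pg s F)
      · exact Or.inl (interior_subset hwi)
      refine Or.inr (Or.inr ⟨k, ⟨h, hwi⟩, ?_⟩)
      obtain ⟨z, hz, h1, h2⟩ := hT.mth k w h y hy (by linarith)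
      have h3 := hmk k z hz
      rw [dist_eq_norm] at h1 ⊢
      have h4 := norm_sub_le_norm_sub_add_norm_sub w z (m k)
      rw [norm_sub_rev w z] at h4
      linarith
    · exact Or.inr (Or.inl (mem_out_sw.2 (Or.inl (mem_out_iff.2 ⟨i, h⟩))))
  · -- tb
    rintro k y ⟨hy, -⟩ w hd
    have hG : w ∈ Pg s F → w ∈ Pg s F ∧ dist w (m k) < e := by
      intro h
      refine ⟨h, ?_⟩
      obtain ⟨z, hz, h1, h2⟩ := hT.mth k y hy w h (by rw [dist_comm]; linarith)
      have h3 := hmk k z hz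
      rw [dist_eq_norm] at h2 ⊢
      have h4 := norm_sub_le_norm_sub_add_norm_sub w z (m k)
      rw [norm_sub_rev w z] at h4
      linarith
    rcases hT.tr k y hy w (by linarith) with h | h | h | h
    · by_cases hwi : w ∈ interior (Pg s F)
      · exact Or.inr (Or.inr (Or.inr (hG (interior_subset hwi))))
      · exact Or.inl ⟨h, hwi⟩
    · exact Or.inr (Or.inr (Or.inr (hG h)))
    · exact Or.inr (Or.inl (Or.inl h))
    · exact Or.inr (Or.inr (Or.inl (Or.inl h)))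
  · -- tbn
    rintro k y ⟨hy, -⟩ w hd j hj1 hj2 hw
    rcases hw with hw | ⟨hj, hwG, hwA⟩
    · have hfar : ∀ i j : ZMod 4, i ≠ j → w ∈ C.R i → w ∈ C.R j → False := fun i j hij h1 h2 => by
        have h3 := hT.ok.far i j hij w h1 w h2
        rw [sub_self, norm_zero] at h3
        linarith [hT.ok.dpos]
      rcases hT.tr k y hy w (by linarith) with h | h | h | h
      · exact B_not_out hT h (mem_out_iff.2 ⟨j, hw⟩)
      · exact Pg_not_out hT h (mem_out_iff.2 ⟨j, hw⟩)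
      · exact hfar _ _ hj1 hw h
      · exact hfar _ _ hj2 hw h
    · exact hBsw k y hy w (by linarith) j hj hwG hwA
  · rintro j k hjk y ⟨hy, -⟩ w ⟨hw, -⟩
    linarith [hT.tt j k hjk y hy w hw]
  · rintro k z hz
    refine ⟨hT.tc k hz, fun hi => ?_⟩
    have h1 := hT.bd (interior_subset hi)
    have h2 : C.L / 2 < ‖z - C.c‖ := hz.1
    rw [mem_closedBall, dist_eq_norm] at h1
    linarith [hT.ok.Lpos]
  · -- tbD
    rintro k y ⟨-, hy⟩ z hz
    by_contra hcon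
    push Not at hcon
    exact hy (hball z hz (by rw [mem_ball]; linarith))
  · -- tg
    rintro k y ⟨hy, -⟩ z hz hd
    obtain ⟨x, hx, h1, h2⟩ := hT.mth k y hy z hz (by linarith)
    have h3 := hmk k x hx
    rw [dist_eq_norm] at h2 ⊢
    have h4 := norm_sub_le_norm_sub_add_norm_sub z x (m k)
    rw [norm_sub_rev z x] at h4
    linarith
  · -- inD
    intro z hz hzo
    rcases mem_out_sw.1 hzo with h | ⟨i, hi, h1, h2⟩
    · exact absurd h (Pg_not_out hT (hDsub (subset_closure hz)))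
    · obtain ⟨a, ha, hza⟩ := mem_thickening_iff.1 h2
      rw [dist_eq_norm] at hza
      exact infDist_lt_of (hfrD i ha) (by linarith)

/-! ### the mouth -/

/-- **connection from a point of `closure D` in the inner cell of the marked edge to the ray** -/
theorem tube (hA : Ars D A AA m T e e1 ρ) (hP : Pol4 D AA e0 s F N v mm) (h0 : 8 * e0 ≤ ρ)
    (hT : Ten s F N v mm C δ κ0 B) (k : ZMod 4) : ∃ q ∈ closure D,
      q ∈ sq s (lc (v (mm k.val)) (v (mm k.val + 1))) ∧ ∃ (Tn : Set ℂ) (κ3 : ℝ), 0 < κ3 ∧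
      IsPreconnected Tn ∧ q ∈ Tn ∧ C.c + ((3 / 4 * C.L : ℝ) : ℂ) * C.q k ∈ Tn ∧
      Tn ⊆ (Pg s F ∩ ball q e) ∪ Bp B s F k ∧ Tn ⊆ closedBall C.c (3 / 4 * C.L) ∧
      ∀ κ : ℝ, κ ≤ κ3 → ∀ y ∈ Tn, Disjoint (ball y κ) (Csw C A T (Pg s F) e1).out := by
  have he1 := hA.e1pos
  have hρ := hA.rpos
  have hre := hA.re
  have he1e := hA.e1e
  have he0 := e0_pos hP
  have hs := hP.s_pos
  have hse := hP.s_lt
  have hks := hT.ks
  have hk0 := hT.kpos
  have hDc : IsCompact (closure D) := hA.Dbd.isCompact_closure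
  have hDG := closure_sub_interior hP
  obtain ⟨κ2, hκ2, hth⟩ := hDc.exists_thickening_subset_open isOpen_interior hDG
  have hball : ∀ z ∈ closure D, ball z κ2 ⊆ Pg s F := fun z hz w hw =>
    interior_subset (hth (mem_thickening_iff.2 ⟨z, hz, hw⟩))
  set qc := lc (v (mm k.val)) (v (mm k.val + 1)) with hqc
  have hqF : qc ∈ F := hP.cyc.left _
  have hcell : sq s qc ⊆ Pg s F := fun z hz => mem_biUnion hqF hz
  obtain ⟨q, hq1, hq2⟩ := hP.lcD (mm k.val)
  obtain ⟨P, p1, p2, p3, p4, p5, ⟨y0, p6, p7⟩, p8⟩ := hT.mouth k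
  obtain ⟨r, hr, hrb⟩ := Metric.isOpen_iff.1 isOpen_interior y0 p7
  -- a point of the marked edge
  have hze : pt s (v (mm k.val)) ∈ ed s (v (mm k.val)) (v (mm k.val + 1)) := left_mem_segment ℝ _ _
  have hzc : pt s (v (mm k.val)) ∈ sq s qc := ed_sub_lc hs (hP.cyc.step _) hze
  -- points near the cell are far from the swallowed arcs
  have hcf : ∀ y ∈ sq s qc, ∀ i ∈ T, ∀ w ∈ thickening e1 (A i), e1 / 2 ≤ ‖w - y‖ := by
    intro y hy i hi w hw
    have h1 := mark_far hA hP h0 hi hze hw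
    have h2 := sq_dist hzc hy
    have h3 := norm_sub_le_norm_sub_add_norm_sub (pt s (v (mm k.val))) y w
    rw [norm_sub_rev y w] at h3
    linarith
  refine ⟨q, hq2, hq1, segment ℝ q y0 ∪ P, ?_⟩
  -- the margin of the segment
  have hseg : ∀ y ∈ segment ℝ q y0, y ∈ sq s qc := fun y hy =>
    (convex_sq s qc).segment_subset hq1 (interior_subset p7) hy
  obtain ⟨κ4, hκ4, hκ4b⟩ : ∃ κ4 > 0, ∀ y ∈ segment ℝ q y0, ball y κ4 ⊆ Pg s F := by
    set M := ‖y0 - q‖ + 1 with hM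
    have hM0 : 0 < M := by positivity
    set t0 := min 1 (κ2 / (2 * M)) with ht0
    have ht0p : 0 < t0 := by positivity
    have ht0M : t0 * ‖y0 - q‖ ≤ κ2 / 2 := by
      have h1 : t0 ≤ κ2 / (2 * M) := min_le_right _ _
      calc t0 * ‖y0 - q‖ ≤ κ2 / (2 * M) * M := by
            apply mul_le_mul h1 (by rw [hM]; linarith) (norm_nonneg _) (by positivity)
        _ = κ2 / 2 := by field_simp
    refine ⟨min (κ2 / 2) (t0 * r), by positivity, fun y hy w hw => ?_⟩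
    rw [mem_ball, dist_eq_norm] at hw
    have hw1 := hw.trans_le (min_le_left _ _)
    have hw2 := hw.trans_le (min_le_right _ _)
    rw [segment_eq_image'] at hy
    obtain ⟨t, ⟨h1, h2⟩, rfl⟩ := hy
    rcases le_or_gt t t0 with h | h
    · refine hball q hq2 ?_
      rw [mem_ball, dist_eq_norm]
      have h3 := norm_sub_le_norm_sub_add_norm_sub w (q + t • (y0 - q)) q
      have h4 : ‖q + t • (y0 - q) - q‖ ≤ κ2 / 2 := by
        rw [add_sub_cancel_left, norm_smul, Real.norm_of_nonneg h1]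
        exact (mul_le_mul_of_nonneg_right h (norm_nonneg _)).trans ht0M
      have hw3 : ‖w - (q + t • (y0 - q))‖ < κ2 / 2 := hw1
      linarith
    · have htp : 0 < t := ht0p.trans h
      -- `w = (1 - t) q + t y1`, `y1` near `y0`
      set y1 : ℂ := y0 + ((1 / t : ℝ) : ℂ) * (w - (q + t • (y0 - q))) with hy1
      have hy1c : y1 ∈ sq s qc := by
        refine interior_subset (hrb ?_)
        rw [mem_ball, dist_eq_norm, hy1, add_sub_cancel_left, norm_mul, Complex.norm_real,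
          Real.norm_of_nonneg (by positivity)]
        have h5 : ‖w - (q + t • (y0 - q))‖ < t * r :=
          lt_of_lt_of_le hw2 (mul_le_mul_of_nonneg_right h.le hr.le)
        rw [one_div, inv_mul_lt_iff₀ htp]
        exact h5
      have htc : (t : ℂ) ≠ 0 := by exact_mod_cast htp.ne'
      have e1 : w = (1 - t) • q + t • y1 := by
        rw [hy1, Complex.real_smul, Complex.real_smul, Complex.real_smul]
        push_cast
        field_simp
        ring
      rw [e1]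
      exact hcell ((convex_sq s qc) hq1 hy1c (by linarith) h1 (by ring))
  refine ⟨min (min κ4 κ0) (e1 / 2), by positivity, ?_, Or.inl (left_mem_segment ℝ q y0), Or.inr p4,
    ?_, ?_, ?_⟩
  · exact IsPreconnected.union y0 (right_mem_segment ℝ q y0) p6 (convex_segment q y0).isPreconnected
      p1
  · rintro y (hy | hy)
    · refine Or.inl ⟨hcell (hseg y hy), ?_⟩
      rw [mem_ball, dist_eq_norm]
      have := sq_dist (hseg y hy) hq1
      linarith
    · by_cases hyG : y ∈ Pg s F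
      · refine Or.inl ⟨hyG, ?_⟩
        rw [mem_ball, dist_eq_norm]
        have := sq_dist (p5 ⟨hy, hyG⟩) hq1
        linarith
      · rcases p2 hy with h | h
        · exact Or.inr ⟨h, fun hi => hyG (interior_subset hi)⟩
        · exact absurd h hyG
  · rintro y (hy | hy)
    · refine closedBall_subset_closedBall ?_ (hT.bd (hcell (hseg y hy)))
      have := hT.ok.Lpos
      linarith
    · exact p3 hy
  · intro κ hκ y hy
    have k1 : κ ≤ κ4 := hκ.trans ((min_le_left _ _).trans (min_le_left _ _))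
    have k2 : κ ≤ κ0 := hκ.trans ((min_le_left _ _).trans (min_le_right _ _))
    have k3 : κ ≤ e1 / 2 := hκ.trans (min_le_right _ _)
    refine disjoint_left.2 fun w hw hwo => ?_
    rw [mem_ball] at hw
    rcases hy with hy | hy
    · rcases mem_out_sw.1 hwo with h | ⟨i, hi, h1, h2⟩
      · exact Pg_not_out hT (hκ4b y hy (by rw [mem_ball]; linarith)) h
      · have := hcf y (hseg y hy) i hi w h2
        rw [dist_eq_norm] at hw
        linarith
    · rcases mem_out_sw.1 hwo with h | ⟨i, hi, h1, h2⟩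
      · exact disjoint_left.1 (p8 y hy) (by rw [mem_ball]; linarith) h
      · rcases p2 hy with h3 | h3
        · obtain ⟨z, hz, h4, h5⟩ := hT.mth k y h3 w h1 (by rw [dist_comm]; linarith)
          have h6 := mark_far hA hP h0 hi hz h2
          rw [dist_eq_norm] at h5
          linarith
        · have := hcf y (p5 ⟨hy, h3⟩) i hi w h2
          rw [dist_eq_norm] at hw
          linarith

/-! ### orientation -/

theorem Ars.rv (hA : Ars D A AA m T e e1 ρ) (b : Bool) :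
    Ars D (rvA b A) (rvA b AA) (rvm b m) (rvT b T) e e1 ρ := by
  cases b with
  | false => exact hA
  | true =>
    have hinj : ∀ i j : ZMod 4, j ≠ i → 1 - j ≠ 1 - i := fun i j h h' => h (by
      have := congrArg (fun t => 1 - t) h'
      simpa using this)
    refine ⟨hA.e1pos, hA.rpos, hA.e1e, hA.re, hA.Dop, hA.Dbd, ?_, fun i => hA.Acon _,
      fun i => hA.Anon _, fun i hi j hj => hA.sep _ hi _ (hinj i j hj), fun i hi => hA.TT _ hi,
      fun i => hA.nr _, fun k z h1 h2 => ?_, fun i hi => hA.ext _ hi, fun i hi p hp => ?_⟩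
    · rw [hA.fr]
      ext z
      simp only [mem_iUnion, rvA, if_true]
      constructor
      · rintro ⟨i, hi⟩
        exact ⟨1 - i, by simpa using hi⟩
      · rintro ⟨i, hi⟩
        exact ⟨1 - i, hi⟩
    · have e1 : (2 : ZMod 4) - k - 1 = 1 - k := by ring
      have e2 : (1 : ZMod 4) - (k - 1) = 2 - k := by ring
      have h1' : Nr ρ (AA (1 - k)) z := h1
      have h2' : Nr ρ (AA (1 - (k - 1))) z := h2
      rw [e2] at h2'
      exact hA.mrk (2 - k) z h2' (by rw [e1]; exact h1')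
    · obtain ⟨p', hp', w, h1, h2, h3, h4⟩ := hA.net (1 - i) hi p hp
      exact ⟨p', hp', w, h1, h2, h3, fun y hy j hj x hx => h4 y hy (1 - j) (hinj i j hj) x hx⟩

end Crest.Agent.R143.Swl2x922
end
end

-- ▼ part R143/Link_606
section

/-!
# Row 143 (S0194), BLOCK D, leaf LINK (helper606)

* `join_disc` : modulus of local connectedness of a uniformised closed Jordan domain, and joining sets
  which stay away from a closed part of the boundary
* `link` : the fields `lk`, `lkm` of `Mac` (416) from one connected set per tentacle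
-/

set_option autoImplicit false

noncomputable section

namespace Crest.Agent.R143.Linkx606

open Set Topology Filter Metric
open Crest Crest.ProbabilityR Crest.ProbabilityR.Percolation
open Crest.Agent.R158.Jt785
open Crest.Agent.R143.B0x346 Crest.Agent.R143.B0Dx346
open Crest.Agent.R143.Spinex422 Crest.Agent.R143.Cfgx416

variable {g : ℝ → ℂ} {f : ℂ → ℂ}

/-- modulus of local connectedness, and joining sets away from a closed part `A` of the boundary -/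
theorem join_disc (h : Unif g f) : ∃ md : ℝ → ℝ, (∀ s > 0, 0 < md s ∧ md s ≤ s) ∧
    ∀ K : Set ℂ, IsCompact K → K ⊆ jordanInterior g →
    ∀ A : Set ℂ, IsClosed A → A ⊆ curveTrace g →
    ∀ p : ℂ, p ∉ A →
    ∃ κ0 > 0, ∃ δ2 > 0, ∀ z ∈ K, ∀ q ∈ closure (jordanInterior g), dist q p < δ2 →
      ∃ P : Set ℂ, IsPreconnected P ∧ z ∈ P ∧ q ∈ P ∧ P ⊆ closure (jordanInterior g) ∧
        (∀ y ∈ P, ∀ w ∈ A, κ0 ≤ dist y w) ∧
        ∀ s > 0, ∀ m ∈ closure (jordanInterior g), dist q m < md s → dist z m < md s →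
          P ⊆ ball m s := by
  obtain ⟨ψ, hc, h1, h2, h3⟩ := h.exists_inv
  have hX : IsCompact (closure (jordanInterior g)) := h.isCompact
  have hf1 : ∀ z ∈ closure (jordanInterior g), f z ∈ closedBall (0 : ℂ) 1 := by
    intro z hz
    rw [← h.img_closure]
    exact mem_image_of_mem _ hz
  have hseg : ∀ z ∈ closure (jordanInterior g), ∀ q ∈ closure (jordanInterior g),
      segment ℝ (f z) (f q) ⊆ closedBall (0 : ℂ) 1 := fun z hz q hq =>
    (convex_closedBall 0 1).segment_subset (hf1 z hz) (hf1 q hq)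
  -- the modulus
  have hmd : ∀ s : ℝ, ∃ d : ℝ, 0 < s → (0 < d ∧ d ≤ s ∧ ∀ m ∈ closure (jordanInterior g),
      ∀ z ∈ closure (jordanInterior g), ∀ q ∈ closure (jordanInterior g), dist z m < d →
      dist q m < d → ψ '' segment ℝ (f z) (f q) ⊆ ball m s) := by
    intro s
    by_cases hs : 0 < s
    · have hu := (isCompact_closedBall (0 : ℂ) 1).uniformContinuousOn_of_continuous hc
      rw [Metric.uniformContinuousOn_iff] at hu
      obtain ⟨d1, hd1, hu1⟩ := hu s hs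
      have hv := hX.uniformContinuousOn_of_continuous h.cont
      rw [Metric.uniformContinuousOn_iff] at hv
      obtain ⟨d2, hd2, hv1⟩ := hv d1 hd1
      refine ⟨min d2 s, fun _ => ⟨lt_min hd2 hs, min_le_right _ _, ?_⟩⟩
      rintro m hm z hz q hq hzm hqm _ ⟨y, hy, rfl⟩
      have e1 : f z ∈ ball (f m) d1 := hv1 z hz m hm (hzm.trans_le (min_le_left _ _))
      have e2 : f q ∈ ball (f m) d1 := hv1 q hq m hm (hqm.trans_le (min_le_left _ _))
      have e3 : y ∈ ball (f m) d1 := (convex_ball (f m) d1).segment_subset e1 e2 hy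
      have e4 := hu1 y (hseg z hz q hq hy) (f m) (hf1 m hm) e3
      rw [h1 m hm] at e4
      exact e4
    · exact ⟨0, fun h => absurd h hs⟩
  choose md hmd using hmd
  refine ⟨md, fun s hs => ⟨(hmd s hs).1, (hmd s hs).2.1⟩, ?_⟩
  intro K hK hKD A hA hAs p hpA
  have hKX : K ⊆ closure (jordanInterior g) := hKD.trans subset_closure
  -- a ball around `p` free of `A`
  obtain ⟨δ2, hδ2, hδA⟩ : ∃ δ2 > 0, closedBall p δ2 ⊆ Aᶜ :=
    Metric.nhds_basis_closedBall.mem_iff.1 (hA.isOpen_compl.mem_nhds hpA)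
  let F : ℂ × ℂ × ℝ → ℂ := fun x => ψ ((1 - x.2.2) • f x.1 + x.2.2 • f x.2.1)
  let Z : Set (ℂ × ℂ × ℝ) :=
    K ×ˢ ((closedBall p δ2 ∩ closure (jordanInterior g)) ×ˢ Icc (0 : ℝ) 1)
  have hZ : IsCompact Z :=
    hK.prod ((hX.inter_left isClosed_closedBall).prod isCompact_Icc)
  have hin : ∀ x ∈ Z, (1 - x.2.2) • f x.1 + x.2.2 • f x.2.1 ∈ closedBall (0 : ℂ) 1 := by
    rintro ⟨z, q, t⟩ ⟨hz, ⟨-, hq⟩, ht⟩
    refine convex_closedBall (0 : ℂ) 1 (hf1 z (hKX hz)) (hf1 q hq) (by linarith [ht.2]) ht.1 ?_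
    ring
  have hF : ContinuousOn F Z := by
    refine hc.comp ?_ hin
    have c1 : ContinuousOn (fun x : ℂ × ℂ × ℝ => f x.1) Z :=
      h.cont.comp continuous_fst.continuousOn fun x hx => hKX hx.1
    have c2 : ContinuousOn (fun x : ℂ × ℂ × ℝ => f x.2.1) Z :=
      h.cont.comp (continuous_fst.comp continuous_snd).continuousOn fun x hx => hx.2.1.2
    have c3 : ContinuousOn (fun x : ℂ × ℂ × ℝ => x.2.2) Z :=
      (continuous_snd.comp continuous_snd).continuousOn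
    exact ((continuousOn_const.sub c3).smul c1).add (c3.smul c2)
  have hFc : IsCompact (F '' Z) := hZ.image_of_continuousOn hF
  have hFA : F '' Z ⊆ Aᶜ := by
    rintro _ ⟨⟨z, q, t⟩, ⟨hz, ⟨hqp, hq⟩, ht⟩, rfl⟩ hA'
    have hw := hin ⟨z, q, t⟩ ⟨hz, ⟨hqp, hq⟩, ht⟩
    have e1 : ‖f (F (z, q, t))‖ = 1 := h.norm_eq (hAs hA')
    have e2 : f (F (z, q, t)) = (1 - t) • f z + t • f q := (h2 _ hw).1
    rw [e2] at e1
    have e3 : ‖f z‖ < 1 := h.norm_lt (hKD hz)
    have e4 : ‖f q‖ ≤ 1 := by simpa using hf1 q hq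
    have ht0 : 0 ≤ t := ht.1
    have ht1 : t ≤ 1 := ht.2
    rcases eq_or_lt_of_le ht1 with h5 | h5
    · have e5 : F (z, q, t) = q := by
        show ψ ((1 - t) • f z + t • f q) = q
        rw [h5, sub_self, zero_smul, one_smul, zero_add]
        exact h1 q hq
      rw [e5] at hA'
      exact hδA hqp hA'
    · have e5 : ‖(1 - t) • f z + t • f q‖ ≤ (1 - t) * ‖f z‖ + t * ‖f q‖ := by
        refine (norm_add_le _ _).trans ?_
        rw [norm_smul, norm_smul, Real.norm_eq_abs, Real.norm_eq_abs,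
          abs_of_nonneg (by linarith : (0 : ℝ) ≤ 1 - t), abs_of_nonneg ht0]
      nlinarith
  obtain ⟨κ0, hκ0, hth⟩ := hFc.exists_thickening_subset_open hA.isOpen_compl hFA
  refine ⟨κ0, hκ0, δ2, hδ2, ?_⟩
  intro z hz q hq hqp
  refine ⟨ψ '' segment ℝ (f z) (f q), ?_, ?_, ?_, ?_, ?_, ?_⟩
  · exact (convex_segment (f z) (f q)).isPreconnected.image ψ (hc.mono (hseg z (hKX hz) q hq))
  · exact ⟨f z, left_mem_segment ℝ _ _, h1 z (hKX hz)⟩
  · exact ⟨f q, right_mem_segment ℝ _ _, h1 q hq⟩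
  · rintro _ ⟨y, hy, rfl⟩
    exact (h2 y (hseg z (hKX hz) q hq hy)).2
  · rintro _ ⟨y, hy, rfl⟩ w hw
    by_contra hlt
    push Not at hlt
    have e1 : w ∈ thickening κ0 (F '' Z) := by
      rw [mem_thickening_iff]
      obtain ⟨a, b, ha, hb, hab, rfl⟩ := hy
      refine ⟨ψ (a • f z + b • f q), ⟨(z, q, b), ⟨hz, ⟨mem_closedBall.2 hqp.le, hq⟩, hb,
        by linarith⟩, ?_⟩, by rw [dist_comm]; exact hlt⟩
      show ψ ((1 - b) • f z + b • f q) = _
      rw [show 1 - b = a by linarith]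
    exact hth e1 hw
  · intro s hs m hm hqm hzm
    exact (hmd s hs).2.2 m hm z (hKX hz) q hq hzm hqm

/-- **leaf LINK**: the fields `lk`, `lkm` of `Mac`. `A` = union of the swallowed arcs, `p k` = shifted
marks, `q k` = a point of the closed domain in the cell of the mouth of the tentacle `k`, `Tn k` = a
connected set which joins `q k` to the end of the tentacle `k` -/
theorem link (h : Unif g f) : ∃ md : ℝ → ℝ, (∀ s > 0, 0 < md s) ∧
    ∀ K : Set ℂ, IsCompact K → K ⊆ jordanInterior g → ∃ r1 > 0,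
    ∀ (A : Set ℂ) (p : ZMod 4 → ℂ), IsClosed A → A ⊆ curveTrace g → (∀ k, p k ∉ A) →
    ∃ κ0 > 0, ∃ δ2 > 0, ∀ (C : Cfg 4) (κ e : ℝ) (G : Set ℂ) (B : ZMod 4 → Set ℂ)
      (m q : ZMod 4 → ℂ) (Tn : ZMod 4 → Set ℂ), 0 < e →
      (∀ k, m k ∈ curveTrace g) → (∀ k, dist (p k) (m k) < r1) →
      (∀ k, q k ∈ closure (jordanInterior g)) → (∀ k, dist (q k) (p k) < δ2) →
      closure (jordanInterior g) ⊆ G →
      closure (jordanInterior g) ⊆ closedBall C.c (3 / 4 * C.L) →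
      (∀ y ∈ closure (jordanInterior g), (∀ w ∈ A, κ0 ≤ dist y w) → Disjoint (ball y κ) C.out) →
      (∀ k, IsPreconnected (Tn k)) → (∀ k, q k ∈ Tn k) →
      (∀ k, C.c + ((3 / 4 * C.L : ℝ) : ℂ) * C.q k ∈ Tn k) →
      (∀ k, Tn k ⊆ (G ∩ ball (q k) e) ∪ B k) → (∀ k, Tn k ⊆ closedBall C.c (3 / 4 * C.L)) →
      (∀ k, ∀ y ∈ Tn k, Disjoint (ball y κ) C.out) →
      (∀ z ∈ K, ∃ P : Set ℂ, IsPreconnected P ∧ z ∈ P ∧ P ⊆ closedBall C.c (3 / 4 * C.L) ∧
        (∀ k, C.c + ((3 / 4 * C.L : ℝ) : ℂ) * C.q k ∈ P) ∧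
        ∀ y ∈ P, Disjoint (ball y κ) C.out) ∧
      (∀ k, ∀ s > 0, ∀ z ∈ K, dist z (m k) < md s → ∃ P : Set ℂ, IsPreconnected P ∧ z ∈ P ∧
        P ⊆ (G ∩ ball (m k) (s + e)) ∪ B k ∧ P ⊆ closedBall C.c (3 / 4 * C.L) ∧
        C.c + ((3 / 4 * C.L : ℝ) : ℂ) * C.q k ∈ P ∧ ∀ y ∈ P, Disjoint (ball y κ) C.out) := by
  obtain ⟨md, hmd, hjoin⟩ := join_disc h
  refine ⟨md, fun s hs => (hmd s hs).1, fun K hK hKD => ?_⟩
  obtain ⟨r, hr, hrK⟩ := hK.exists_thickening_subset_open (isOpen_ji h.jc) hKD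
  have hfar : ∀ z ∈ K, ∀ w ∈ curveTrace g, r ≤ dist z w := by
    intro z hz w hw
    by_contra hlt
    push Not at hlt
    have e1 : w ∈ thickening r K := by
      rw [mem_thickening_iff]
      exact ⟨z, hz, by rw [dist_comm]; exact hlt⟩
    exact (hrK e1).1 hw
  refine ⟨r / 2, by linarith, fun A p hA hAs hpA => ?_⟩
  choose κ1 hκ1 δ1 hδ1 hj using fun k => hjoin K hK hKD A hA hAs (p k) (hpA k)
  obtain ⟨κ0, hκ0, hκle⟩ : ∃ κ0 > 0, ∀ k, κ0 ≤ κ1 k := by
    refine ⟨Finset.univ.inf' ⟨0, Finset.mem_univ _⟩ κ1, ?_, fun k =>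
      Finset.inf'_le _ (Finset.mem_univ k)⟩
    rw [gt_iff_lt, Finset.lt_inf'_iff]
    exact fun k _ => hκ1 k
  obtain ⟨δ0, hδ0, hδle⟩ : ∃ δ0 > 0, ∀ k, δ0 ≤ δ1 k := by
    refine ⟨Finset.univ.inf' ⟨0, Finset.mem_univ _⟩ δ1, ?_, fun k =>
      Finset.inf'_le _ (Finset.mem_univ k)⟩
    rw [gt_iff_lt, Finset.lt_inf'_iff]
    exact fun k _ => hδ1 k
  refine ⟨κ0, hκ0, min δ0 (r / 2), lt_min hδ0 (by linarith), ?_⟩
  intro C κ e G B m q Tn he hm hpm hq hqp hDG hDC hcl hT1 hT2 hT3 hT4 hT5 hT6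
  have hqδ : ∀ k, dist (q k) (p k) < δ1 k := fun k =>
    ((hqp k).trans_le (min_le_left _ _)).trans_le (hδle k)
  have hqm : ∀ k, dist (q k) (m k) < r := fun k => by
    have e1 := (hqp k).trans_le (min_le_right _ _)
    linarith [dist_triangle (q k) (p k) (m k), hpm k]
  have key : ∀ z ∈ K, ∀ k, ∃ P : Set ℂ, IsPreconnected P ∧ z ∈ P ∧
      P ⊆ closedBall C.c (3 / 4 * C.L) ∧ C.c + ((3 / 4 * C.L : ℝ) : ℂ) * C.q k ∈ P ∧
      (∀ y ∈ P, Disjoint (ball y κ) C.out) ∧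
      ∀ s > 0, dist z (m k) < md s → P ⊆ (G ∩ ball (m k) (s + e)) ∪ B k := by
    intro z hz k
    obtain ⟨P, p1, p2, p3, p4, p5, p6⟩ := hj k z hz (q k) (hq k) (hqδ k)
    refine ⟨P ∪ Tn k, p1.union (q k) p3 (hT2 k) (hT1 k), Or.inl p2,
      union_subset (p4.trans hDC) (hT5 k), Or.inr (hT3 k), ?_, ?_⟩
    · rintro y (hy | hy)
      · exact hcl y (p4 hy) fun w hw => (hκle k).trans (p5 y hy w hw)
      · exact hT6 k y hy
    · intro s hs hzs
      have e1 : dist (q k) (m k) < md s :=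
        (hqm k).trans ((hfar z hz (m k) (hm k)).trans_lt hzs)
      have e2 : P ⊆ ball (m k) s := p6 s hs (m k) (h.tr_subset (hm k)) e1 hzs
      refine union_subset (fun y hy => Or.inl ⟨hDG (p4 hy), ?_⟩) ((hT4 k).trans
        (union_subset_union_left _ (inter_subset_inter_right _ ?_)))
      · exact ball_subset_ball (by linarith) (e2 hy)
      · refine ball_subset_ball' ?_
        have := (hmd s hs).2
        linarith
  refine ⟨fun z hz => ?_, fun k s hs z hz hzs => ?_⟩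
  · choose P p1 p2 p3 p4 p5 _ using key z hz
    refine ⟨⋃ k, P k, isPreconnected_iUnion ⟨z, mem_iInter.2 p2⟩ p1,
      mem_iUnion.2 ⟨0, p2 0⟩, iUnion_subset p3, fun k => mem_iUnion.2 ⟨k, p4 k⟩, ?_⟩
    intro y hy
    obtain ⟨k, hk⟩ := mem_iUnion.1 hy
    exact p5 k y hk
  · obtain ⟨P, p1, p2, p3, p4, p5, p6⟩ := key z hz k
    exact ⟨P, p1, p2, p6 s hs hzs, p3, p4, p5⟩

end Crest.Agent.R143.Linkx606
end
end

-- ▼ part R143/Swl3_922
section

/-!
# Row 143 (S0194), block D, leaf SWL, third part (helper922): constants, `swl : POLY → TENT → GEO`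
-/

set_option autoImplicit false
set_option linter.all false

noncomputable section

open scoped Classical Topology
open Set Filter Metric

namespace Crest.Agent.R143.Swl3x922

open Crest.Agent.R158.Sp896 Crest.Agent.R158.Jt785
open Crest.ProbabilityR.Percolation
open Crest.Agent.R143.Cfgx416 Crest.Agent.R143.Tenx416 Crest.Agent.R143.Swlx922
  Crest.Agent.R143.Swl2x922

variable {g : ℝ → ℂ} {f : ℂ → ℂ}

/-! ### the periodic extension -/

theorem gp_cont (h : IsJordanCurve g) : Continuous (gp g) :=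
  ContinuousOn.comp_fract'' h.1 h.2.2

theorem gp_add (t : ℝ) (n : ℤ) : gp g (t + n) = gp g t := by
  unfold gp; rw [Int.fract_add_intCast]

theorem gp_inj (h : IsJordanCurve g) {t t' : ℝ} (e : gp g t = gp g t') : ∃ n : ℤ, t = t' + n := by
  unfold gp at e
  have h1 : Int.fract t = Int.fract t' :=
    h.2.1 ⟨Int.fract_nonneg _, Int.fract_lt_one _⟩ ⟨Int.fract_nonneg _, Int.fract_lt_one _⟩ e
  refine ⟨⌊t⌋ - ⌊t'⌋, ?_⟩
  have h2 := Int.self_sub_floor t
  have h3 := Int.self_sub_floor t'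
  push_cast
  linarith

theorem gp_eq (h : IsJordanCurve g) {t : ℝ} (ht : t ∈ Icc (0:ℝ) 1) : gp g t = g t := by
  unfold gp
  rcases ht.2.lt_or_eq with h1 | h1
  · rw [Int.fract_eq_self.2 ⟨ht.1, h1⟩]
  · rw [h1, Int.fract_one]
    exact h.2.2

theorem arc_eq (h : IsJordanCurve g) {a b : ℝ} (ha : 0 ≤ a) (hb : b ≤ 1) :
    arc g a b = gp g '' Icc a b := by
  unfold arc
  exact image_congr fun t ht => (gp_eq h ⟨ha.trans ht.1, ht.2.trans hb⟩).symm

/-- uniform continuity -/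
theorem gp_unif (h : IsJordanCurve g) {r : ℝ} (hr : 0 < r) : ∃ η : ℝ, 0 < η ∧ η < 1 / 16 ∧
    ∀ t t' : ℝ, |t - t'| ≤ 2 * η → ‖gp g t - gp g t'‖ < r := by
  have hu := isCompact_Icc.uniformContinuousOn_of_continuous
    ((gp_cont h).continuousOn (s := Icc (-1 : ℝ) 2))
  rw [Metric.uniformContinuousOn_iff] at hu
  obtain ⟨δ, hδ, hu⟩ := hu r hr
  refine ⟨min (1 / 32) (δ / 4), by positivity,
    lt_of_le_of_lt (min_le_left _ _) (by norm_num), fun t t' ht => ?_⟩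
  have e1 : min (1 / 32) (δ / 4) ≤ 1 / 32 := min_le_left _ _
  have e2 : min (1 / 32) (δ / 4) ≤ δ / 4 := min_le_right _ _
  have h1 := gp_add (g := g) t (-⌊t⌋)
  have h2 := gp_add (g := g) t' (-⌊t⌋)
  rw [← h1, ← h2, ← dist_eq_norm]
  have h3 := abs_le.1 ht
  have h4 := Int.floor_le t
  have h5 := Int.lt_floor_add_one t
  push_cast
  refine hu _ ⟨by linarith, by linarith⟩ _ ⟨by linarith, by linarith⟩ ?_
  rw [Real.dist_eq]
  have e3 : t + -(⌊t⌋ : ℝ) - (t' + -(⌊t⌋ : ℝ)) = t - t' := by ring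
  rw [e3]
  linarith

/-! ### the parameters -/

/-- shifted parameters: the sides in `T` are longer -/
def aa (T : Set (ZMod 4)) (η : ℝ) (n : ℤ) : ℝ := n / 4 + if (n : ZMod 4) ∈ T then -η else η

/-- alternating -/
def Alt (T : Set (ZMod 4)) : Prop := ∀ x : ZMod 4, x + 1 ∈ T ↔ x ∉ T

theorem alt_of {T : Set (ZMod 4)} (hT : T = {0, 2} ∨ T = {1, 3}) : Alt T := by
  intro x
  rcases hT with rfl | rfl <;> rcases z4 x with rfl | rfl | rfl | rfl <;>
    simp only [Set.mem_insert_iff, Set.mem_singleton_iff] <;> decide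

variable {T : Set (ZMod 4)} {η : ℝ}

theorem aa_succ (hT : Alt T) (n : ℤ) : aa T η (n + 1) = (n + 1) / 4 +
    if (n : ZMod 4) ∈ T then η else -η := by
  have h := hT (n : ZMod 4)
  unfold aa
  push_cast
  by_cases h1 : (n : ZMod 4) ∈ T
  · rw [if_pos h1, if_neg (fun h2 => (h.1 h2) h1)]
  · rw [if_neg h1, if_pos (h.2 h1)]

theorem aa_mono (hT : Alt T) (h0 : 0 < η) (h1 : η < 1 / 16) : StrictMono (aa T η) := by
  refine strictMono_int_of_lt_succ fun n => ?_
  rw [aa_succ hT]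
  unfold aa
  split_ifs <;> linarith

theorem aa_per (n l : ℤ) : aa T η (n + 4 * l) = aa T η n + l := by
  unfold aa
  have : (((n + 4 * l : ℤ)) : ZMod 4) = (n : ZMod 4) := by
    push_cast
    have : (4 : ZMod 4) = 0 := by decide
    rw [this]; ring
  rw [this]
  push_cast
  ring

/-- sides -/
def AAz (g : ℝ → ℂ) (T : Set (ZMod 4)) (η : ℝ) (i : ZMod 4) : Set ℂ :=
  gp g '' Icc (aa T η (i.val : ℤ)) (aa T η ((i.val : ℤ) + 1))

def Az (g : ℝ → ℂ) (i : ZMod 4) : Set ℂ :=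
  arc g ((i.val : ℝ) / 4) (((i.val : ℝ) + 1) / 4)

theorem val_le (i : ZMod 4) : (i.val : ℝ) + 1 ≤ 4 := by
  have : i.val + 1 ≤ 4 := ZMod.val_lt i
  exact_mod_cast this

theorem Az_eq (h : IsJordanCurve g) (i : ZMod 4) :
    Az g i = gp g '' Icc ((i.val : ℝ) / 4) (((i.val : ℝ) + 1) / 4) := by
  have := val_le i
  exact arc_eq h (by positivity) (by linarith)

theorem isCompact_Az (h : IsJordanCurve g) (i : ZMod 4) : IsCompact (Az g i) := by
  rw [Az_eq h]; exact isCompact_Icc.image (gp_cont h)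

theorem isCompact_AAz (h : IsJordanCurve g) (i : ZMod 4) : IsCompact (AAz g T η i) :=
  isCompact_Icc.image (gp_cont h)

theorem val_cast (i : ZMod 4) : (((i.val : ℕ) : ℤ) : ZMod 4) = i := by
  rw [Int.cast_natCast]; exact ZMod.natCast_zmod_val i

/-- **a point strictly inside of the side `n` is in no other side** -/
theorem inside (h : IsJordanCurve g) (hT : Alt T) (h0 : 0 < η) (h1 : η < 1 / 16) {n n' : ℤ}
    {t t' : ℝ} (ht : t ∈ Ioo (aa T η n) (aa T η (n + 1)))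
    (ht' : t' ∈ Icc (aa T η n') (aa T η (n' + 1))) (e : gp g t = gp g t') :
    (n' : ZMod 4) = (n : ZMod 4) := by
  obtain ⟨l, hl⟩ := gp_inj h e
  have hm := aa_mono (T := T) hT h0 h1
  have e1 := aa_per (T := T) (η := η) n' l
  have e2 := aa_per (T := T) (η := η) (n' + 1) l
  have k1 : n < n' + 1 + 4 * l := by
    rw [← hm.lt_iff_lt, e2]
    linarith [ht.1, ht'.2]
  have k2 : n' + 4 * l < n + 1 := by
    rw [← hm.lt_iff_lt, e1]
    linarith [ht.2, ht'.1]
  have k3 : n = n' + 4 * l := by omega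
  rw [k3]
  push_cast
  have : (4 : ZMod 4) = 0 := by decide
  rw [this]; ring

/-- **consecutive sides have one common point** -/
theorem corner (h : IsJordanCurve g) (hT : Alt T) (h0 : 0 < η) (h1 : η < 1 / 16) {n n' : ℤ}
    (hn : (n' : ZMod 4) = (n : ZMod 4) - 1)
    {t t' : ℝ} (ht : t ∈ Icc (aa T η n) (aa T η (n + 1)))
    (ht' : t' ∈ Icc (aa T η n') (aa T η (n' + 1))) (e : gp g t = gp g t') :
    t = aa T η n := by
  obtain ⟨l, hl⟩ := gp_inj h e
  have hm := aa_mono (T := T) hT h0 h1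
  have e1 := aa_per (T := T) (η := η) n' l
  have e2 := aa_per (T := T) (η := η) (n' + 1) l
  have k1 : n ≤ n' + 1 + 4 * l := by
    rw [← hm.le_iff_le, e2]
    linarith [ht.1, ht'.2]
  have k2 : n' + 4 * l ≤ n + 1 := by
    rw [← hm.le_iff_le, e1]
    linarith [ht.2, ht'.1]
  have hz : ((n' - n + 1 : ℤ) : ZMod 4) = 0 := by
    push_cast; rw [hn]; ring
  rw [ZMod.intCast_zmod_eq_zero_iff_dvd] at hz
  obtain ⟨c, hc⟩ := hz
  push_cast at hc
  have k3 : n' + 1 + 4 * l = n := by omega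
  have k4 : t ≤ aa T η n := by
    rw [← k3, e2]
    linarith [ht'.2]
  exact le_antisymm k4 ht.1

/-! ### compactness -/

theorem fin_pos {ι : Type} [Finite ι] {Q : ι → ℝ → Prop}
    (hmono : ∀ i a b, 0 < a → a ≤ b → Q i b → Q i a) (h : ∀ i, ∃ c > 0, Q i c) :
    ∃ c > 0, ∀ i, Q i c := by
  choose c hc hQ using h
  rcases isEmpty_or_nonempty ι with hι | hι
  · exact ⟨1, one_pos, fun i => (hι.false i).elim⟩
  · obtain ⟨i0, hi0⟩ := Finite.exists_min c
    exact ⟨c i0, hc i0, fun i => hmono i _ _ (hc i0) (hi0 i) (hQ i)⟩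

/-- points near two compact sets with one common point are near this point -/
theorem near_corner {K1 K2 : Set ℂ} (h1 : IsCompact K1) (h2 : IsCompact K2) {p : ℂ}
    (hp : ∀ x ∈ K1, x ∈ K2 → x = p) {r : ℝ} (hr : 0 < r) : ∃ ρ > 0, ∀ z, Nr ρ K1 z → Nr ρ K2 z →
      ‖z - p‖ < r := by
  have hK : IsCompact (K1 \ ball p (r / 2)) := h1.diff isOpen_ball
  obtain ⟨c, hc, hd⟩ := pos_dist hK h2.isClosed (disjoint_left.2 fun x hx hx2 => hx.2 (by
    rw [hp x hx.1 hx2]; exact mem_ball_self (by linarith)))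
  refine ⟨min (c / 2) (r / 2), by positivity, ?_⟩
  rintro z ⟨x, hx, hzx⟩ ⟨y, hy, hzy⟩
  have a1 := hzx.trans_le (min_le_left _ _)
  have a2 := hzx.trans_le (min_le_right _ _)
  have a3 := hzy.trans_le (min_le_left _ _)
  have hxb : x ∈ ball p (r / 2) := by
    by_contra hcon
    have h3 := hd x ⟨hx, hcon⟩ y hy
    have h4 := norm_sub_le_norm_sub_add_norm_sub x z y
    rw [norm_sub_rev x z] at h4
    linarith
  rw [mem_ball, dist_eq_norm] at hxb
  have := norm_sub_le_norm_sub_add_norm_sub z x p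
  linarith

/-- two disjoint compact sets -/
theorem sep_pos {K1 K2 : Set ℂ} (h1 : IsCompact K1) (h2 : IsCompact K2) (hd : Disjoint K1 K2) :
    ∃ c > 0, ∀ x ∈ K1, ∀ y ∈ K2, c ≤ ‖x - y‖ := by
  obtain ⟨c, hc, h⟩ := pos_dist h1 h2.isClosed hd
  exact ⟨c, hc, h⟩

/-! ### the arcs -/

/-- metric facts: existence of the constants. `d` = wished precision at the marks, `w0` = bound for
the swallowed depth -/
theorem exists_ars (h : Unif g f) {T : Set (ZMod 4)} (hT : Alt T) {e : ℝ} (he : 0 < e)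
    (h0 : 0 < η) (h1 : η < 1 / 16)
    (hη : ∀ t t' : ℝ, |t - t'| ≤ 2 * η → ‖gp g t - gp g t'‖ < e / 8) {d w0 : ℝ} (hd : 0 < d)
    (hw0 : 0 < w0) : ∃ e1 ρ : ℝ, 0 < e1 ∧ e1 ≤ w0 ∧ 0 < ρ ∧
      Ars (jordanInterior g) (Az g) (AAz g T η) (fun k => g ((k.val : ℝ) / 4)) T e e1 ρ ∧
      ∀ k z, Nr ρ (AAz g T η k) z → Nr ρ (AAz g T η (k - 1)) z →
        ‖z - gp g (aa T η (k.val : ℤ))‖ < d := by
  have hj := h.jc
  have hm := aa_mono (T := T) hT h0 h1
  -- the parameters of a side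
  have hin : ∀ i : ZMod 4, i ∈ T → aa T η (i.val : ℤ) = (i.val : ℝ) / 4 - η ∧
      aa T η ((i.val : ℤ) + 1) = ((i.val : ℝ) + 1) / 4 + η := by
    intro i hi
    rw [aa_succ hT]
    unfold aa
    rw [val_cast, if_pos hi, if_pos hi]
    push_cast
    constructor <;> ring
  have hout : ∀ i : ZMod 4, i ∉ T → aa T η (i.val : ℤ) = (i.val : ℝ) / 4 + η ∧
      aa T η ((i.val : ℤ) + 1) = ((i.val : ℝ) + 1) / 4 - η := by
    intro i hi
    rw [aa_succ hT]
    unfold aa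
    rw [val_cast, if_neg hi, if_neg hi]
    push_cast
    constructor <;> ring
  have hdisj : ∀ (i j : ZMod 4) (a b : ℝ), j ≠ i → aa T η (i.val : ℤ) < a →
      b < aa T η ((i.val : ℤ) + 1) → Disjoint (gp g '' Icc a b) (AAz g T η j) := by
    intro i j a b hij ha hb
    refine disjoint_left.2 ?_
    rintro _ ⟨t, ht, rfl⟩ ⟨t', ht', e'⟩
    have := inside hj hT h0 h1 (n := (i.val : ℤ)) (n' := (j.val : ℤ)) (t := t) (t' := t')
      ⟨by linarith [ht.1], by linarith [ht.2]⟩ ht' e'.symm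
    rw [val_cast, val_cast] at this
    exact hij this
  -- swallowed arcs are far from the other sides
  obtain ⟨d1, hd1, hsep⟩ : ∃ c > 0, ∀ q : ZMod 4 × ZMod 4, q.1 ∈ T → q.2 ≠ q.1 →
      ∀ x ∈ Az g q.1, ∀ y ∈ AAz g T η q.2, c ≤ ‖x - y‖ := by
    refine fin_pos (Q := fun (q : ZMod 4 × ZMod 4) c => q.1 ∈ T → q.2 ≠ q.1 →
      ∀ x ∈ Az g q.1, ∀ y ∈ AAz g T η q.2, c ≤ ‖x - y‖)
      (fun q a b _ hab hb h2 h3 x hx y hy => hab.trans (hb h2 h3 x hx y hy)) fun q => ?_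
    by_cases h2 : q.1 ∈ T
    · by_cases h3 : q.2 = q.1
      · exact ⟨1, one_pos, fun _ h4 => absurd h3 h4⟩
      · obtain ⟨c, hc, h4⟩ := sep_pos (isCompact_Az hj q.1) (isCompact_AAz (T := T) (η := η) hj q.2)
          (by
            rw [Az_eq hj]
            obtain ⟨e2, e3⟩ := hin q.1 h2
            exact hdisj _ _ _ _ h3 (by rw [e2]; linarith) (by rw [e3]; linarith))
        exact ⟨c, hc, fun _ _ => h4⟩
    · exact ⟨1, one_pos, fun h4 => absurd h4 h2⟩
  set e1 := min (min (e / 4) (d1 / 4)) w0 with he1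
  have he1p : 0 < e1 := by positivity
  have a1 : e1 ≤ e / 4 := (min_le_left _ _).trans (min_le_left _ _)
  have a2 : e1 ≤ d1 / 4 := (min_le_left _ _).trans (min_le_right _ _)
  have a3 : e1 ≤ w0 := min_le_right _ _
  have hclD : IsCompact (closure (jordanInterior g)) := h.isCompact
  have hsub : ∀ t, gp g t ∈ closure (jordanInterior g) := fun t =>
    h.tr_subset ⟨Int.fract t, ⟨Int.fract_nonneg _, (Int.fract_lt_one _).le⟩, rfl⟩
  -- exterior points near a boundary point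
  have hext : ∀ (t r : ℝ), 0 < r → ∃ w, ‖w - gp g t‖ < r ∧ ∃ c > 0,
      ∀ y ∈ closure (jordanInterior g), c ≤ ‖w - y‖ := by
    intro t r hr
    obtain ⟨w, hw, hwr⟩ := near_ext h (t := Int.fract t)
      ⟨Int.fract_nonneg _, (Int.fract_lt_one _).le⟩ hr
    obtain ⟨c, hc, h2⟩ := sep_pos (isCompact_singleton (x := w)) hclD (disjoint_left.2 (by
      rintro x rfl hx2
      exact disjoint_left.1 (ext_disj h) hw hx2))
    exact ⟨w, hwr, c, hc, h2 w rfl⟩
  -- ext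
  obtain ⟨ρ1, hρ1, hext1⟩ : ∃ c > 0, ∀ i : ZMod 4, ∃ p ∈ Az g i, ∃ w, ‖w - p‖ < e1 ∧
      ∀ y ∈ closure (jordanInterior g), c ≤ ‖w - y‖ := by
    refine fin_pos (Q := fun (i : ZMod 4) c => ∃ p ∈ Az g i, ∃ w, ‖w - p‖ < e1 ∧
      ∀ y ∈ closure (jordanInterior g), c ≤ ‖w - y‖) ?_ fun i => ?_
    · rintro i a b - hab ⟨p, hp, w, h2, h3⟩
      exact ⟨p, hp, w, h2, fun y hy => hab.trans (h3 y hy)⟩
    · obtain ⟨w, hw, c, hc, h2⟩ := hext ((i.val : ℝ) / 4) e1 he1p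
      refine ⟨c, hc, gp g ((i.val : ℝ) / 4), ?_, w, hw, h2⟩
      rw [Az_eq hj]
      exact ⟨_, ⟨le_rfl, by linarith⟩, rfl⟩
  -- corners
  obtain ⟨ρ2, hρ2, hcor⟩ : ∃ c > 0, ∀ k : ZMod 4, ∀ z, Nr c (AAz g T η k) z →
      Nr c (AAz g T η (k - 1)) z → ‖z - gp g (aa T η (k.val : ℤ))‖ < min d (e / 8) := by
    refine fin_pos (Q := fun (k : ZMod 4) c => ∀ z, Nr c (AAz g T η k) z →
      Nr c (AAz g T η (k - 1)) z → ‖z - gp g (aa T η (k.val : ℤ))‖ < min d (e / 8))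
      (fun k a b _ hab hb z h2 h3 => hb z (h2.mono hab) (h3.mono hab)) fun k => ?_
    refine near_corner (isCompact_AAz hj k) (isCompact_AAz hj (k - 1)) ?_ (by positivity)
    rintro _ ⟨t, ht, rfl⟩ ⟨t', ht', e'⟩
    rw [corner hj hT h0 h1 (n := (k.val : ℤ)) (n' := ((k - 1).val : ℤ))
      (by rw [val_cast, val_cast]) ht ht' e'.symm]
  -- net
  obtain ⟨ρ3, hρ3, hnet⟩ : ∃ c > 0, ∀ i : ZMod 4, i ∉ T → ∀ p ∈ Az g i,
      ∃ p' ∈ closure (jordanInterior g), ∃ w, ‖p - p'‖ < e / 4 ∧ ‖w - p'‖ < e / 4 ∧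
      (∀ y ∈ closure (jordanInterior g), c ≤ ‖w - y‖) ∧
      ∀ y, ‖y - p'‖ ≤ ‖w - p'‖ → ∀ j, j ≠ i → ∀ x ∈ AAz g T η j, c ≤ ‖y - x‖ := by
    refine fin_pos (Q := fun (i : ZMod 4) c => i ∉ T → ∀ p ∈ Az g i,
      ∃ p' ∈ closure (jordanInterior g), ∃ w, ‖p - p'‖ < e / 4 ∧ ‖w - p'‖ < e / 4 ∧
      (∀ y ∈ closure (jordanInterior g), c ≤ ‖w - y‖) ∧
      ∀ y, ‖y - p'‖ ≤ ‖w - p'‖ → ∀ j, j ≠ i → ∀ x ∈ AAz g T η j, c ≤ ‖y - x‖) ?_ fun i => ?_
    · intro i a b _ hab hb hi p hp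
      obtain ⟨p', hp', w, h2, h3, h4, h5⟩ := hb hi p hp
      exact ⟨p', hp', w, h2, h3, fun y hy => hab.trans (h4 y hy),
        fun y hy j hj x hx => hab.trans (h5 y hy j hj x hx)⟩
    by_cases hi : i ∈ T
    · exact ⟨1, one_pos, fun h2 => absurd hi h2⟩
    obtain ⟨e2, e3⟩ := hout i hi
    set lo := (i.val : ℝ) / 4 + 2 * η with hlo
    set hi' := ((i.val : ℝ) + 1) / 4 - 2 * η with hhi
    have hlh : lo ≤ hi' := by linarith
    -- distance of the core to the other sides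
    obtain ⟨ρ4, hρ4, hfar⟩ : ∃ c > 0, ∀ j : ZMod 4, j ≠ i → ∀ x ∈ gp g '' Icc lo hi',
        ∀ y ∈ AAz g T η j, c ≤ ‖x - y‖ := by
      refine fin_pos (Q := fun (j : ZMod 4) c => j ≠ i → ∀ x ∈ gp g '' Icc lo hi',
        ∀ y ∈ AAz g T η j, c ≤ ‖x - y‖) (fun j a b _ hab hb h2 x hx y hy =>
          hab.trans (hb h2 x hx y hy)) fun j => ?_
      by_cases hji : j = i
      · exact ⟨1, one_pos, fun h2 => absurd hji h2⟩
      · obtain ⟨c, hc, h4⟩ := sep_pos (isCompact_Icc.image (gp_cont hj))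
          (isCompact_AAz (T := T) (η := η) hj j)
          (hdisj i j lo hi' hji (by rw [e2]; linarith) (by rw [e3]; linarith))
        exact ⟨c, hc, fun _ => h4⟩
    set r2 := min (e / 8) (ρ4 / 2) with hr2
    have hr2p : 0 < r2 := by positivity
    choose w hw c hc hwc using fun t => hext t r2 hr2p
    -- finite net
    obtain ⟨t, ht1, ht2⟩ := (isCompact_Icc (a := lo) (b := hi')).elim_nhds_subcover
      (fun u : ℝ => gp g ⁻¹' ball (gp g u) (e / 8)) (fun u _ =>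
        (gp_cont hj).continuousAt (ball_mem_nhds _ (by linarith)))
    obtain ⟨c0, hc0, hc0'⟩ := fin_pos (ι := {u // u ∈ t}) (Q := fun u r => r ≤ c u.1)
      (fun u a b _ hab hb => hab.trans hb) (fun u => ⟨c u.1, hc u.1, le_rfl⟩)
    refine ⟨min c0 (ρ4 / 2), by positivity, fun _ p hp => ?_⟩
    rw [Az_eq hj] at hp
    obtain ⟨u0, hu0, rfl⟩ := hp
    set u1 := max lo (min u0 hi') with hu1
    have hu1m : u1 ∈ Icc lo hi' := ⟨le_max_left _ _, max_le hlh (min_le_right _ _)⟩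
    have hu01 : |u0 - u1| ≤ 2 * η := by
      rw [abs_le, hu1]
      constructor
      · rcases le_total u0 hi' with h2 | h2
        · rw [min_eq_left h2]
          rcases le_total lo u0 with h3 | h3
          · rw [max_eq_right h3]; linarith
          · rw [max_eq_left h3]; linarith [hu0.1]
        · rw [min_eq_right h2, max_eq_right hlh]; linarith
      · rcases le_total u0 hi' with h2 | h2
        · rw [min_eq_left h2]
          have := le_max_right lo u0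
          linarith
        · rw [min_eq_right h2, max_eq_right hlh]; linarith [hu0.2]
    have h2 := ht2 hu1m
    simp only [mem_iUnion] at h2
    obtain ⟨u, hut, hu⟩ := h2
    have hu' : ‖gp g u1 - gp g u‖ < e / 8 := by
      have : gp g u1 ∈ ball (gp g u) (e / 8) := hu
      rwa [mem_ball, dist_eq_norm] at this
    have h3 := hη u0 u1 hu01
    have h4 := norm_sub_le_norm_sub_add_norm_sub (gp g u0) (gp g u1) (gp g u)
    have h5 := hw u
    have h6 : r2 ≤ e / 8 := min_le_left _ _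
    have h7 : r2 ≤ ρ4 / 2 := min_le_right _ _
    refine ⟨gp g u, hsub u, w u, by linarith, by linarith, fun y hy => ?_, fun y hy j hji x hx => ?_⟩
    · exact (min_le_left _ _).trans ((hc0' ⟨u, hut⟩).trans (hwc u y hy))
    · have h8 := hfar j hji (gp g u) ⟨u, ht1 u hut, rfl⟩ x hx
      have h9 := norm_sub_le_norm_sub_add_norm_sub (gp g u) y x
      rw [norm_sub_rev (gp g u) y] at h9
      refine (min_le_right _ _).trans ?_
      linarith
  set ρ := min (min ρ1 ρ2) (min ρ3 (e1 / 8)) with hρ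
  have b1 : ρ ≤ ρ1 := (min_le_left _ _).trans (min_le_left _ _)
  have b2 : ρ ≤ ρ2 := (min_le_left _ _).trans (min_le_right _ _)
  have b3 : ρ ≤ ρ3 := (min_le_right _ _).trans (min_le_left _ _)
  have b4 : ρ ≤ e1 / 8 := (min_le_right _ _).trans (min_le_right _ _)
  refine ⟨e1, ρ, he1p, a3, by positivity, ?_, fun k z h2 h3 =>
    (hcor k z (h2.mono b2) (h3.mono b2)).trans_le (min_le_left _ _)⟩
  refine ⟨he1p, by positivity, by linarith, by linarith, isOpen_ji hj, isBounded_ji hj, ?_,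
    fun i => ?_, fun i => ?_, fun i hi j hji x hx y hy => ?_, fun i hi => ?_, fun i y hy => ?_,
    fun k z h2 h3 => ?_, fun i hi => ?_, fun i hi p hp => ?_⟩
  · -- frontier
    rw [frontier_ji hj h.ne]
    apply subset_antisymm
    · rintro _ ⟨t, ⟨ht0, ht1⟩, rfl⟩
      rw [mem_iUnion]
      rcases le_or_gt t (1 / 4) with h2 | h2
      · refine ⟨0, t, ?_, rfl⟩
        rw [ZMod.val_zero]
        constructor <;> push_cast <;> linarith
      rcases le_or_gt t (1 / 2) with h3 | h3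
      · refine ⟨1, t, ?_, rfl⟩
        rw [show (1 : ZMod 4).val = 1 from rfl]
        constructor <;> push_cast <;> linarith
      rcases le_or_gt t (3 / 4) with h4 | h4
      · refine ⟨2, t, ?_, rfl⟩
        rw [show (2 : ZMod 4).val = 2 from rfl]
        constructor <;> push_cast <;> linarith
      · refine ⟨3, t, ?_, rfl⟩
        rw [show (3 : ZMod 4).val = 3 from rfl]
        constructor <;> push_cast <;> linarith
    · refine iUnion_subset fun i => ?_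
      rintro _ ⟨t, ht, rfl⟩
      have := val_le i
      exact ⟨t, ⟨le_trans (by positivity) ht.1, ht.2.trans (by linarith)⟩, rfl⟩
  · rw [Az_eq hj]
    exact isPreconnected_Icc.image _ (gp_cont hj).continuousOn
  · rw [Az_eq hj]
    exact ⟨_, _, ⟨le_rfl, by linarith⟩, rfl⟩
  · have := hsep (i, j) hi hji x hx y hy
    linarith
  · rw [Az_eq hj]
    obtain ⟨e2, e3⟩ := hin i hi
    refine image_mono (Icc_subset_Icc ?_ ?_)
    · rw [e2]; linarith
    · rw [e3]; linarith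
  · -- nr
    obtain ⟨u, hu, rfl⟩ := hy
    set lo := (i.val : ℝ) / 4 with hlo
    set hi' := ((i.val : ℝ) + 1) / 4 with hhi
    have hlh : lo ≤ hi' := by linarith
    have c1 : lo - η ≤ aa T η (i.val : ℤ) := by
      by_cases hi : i ∈ T
      · rw [(hin i hi).1]
      · rw [(hout i hi).1]; linarith
    have c2 : aa T η ((i.val : ℤ) + 1) ≤ hi' + η := by
      by_cases hi : i ∈ T
      · rw [(hin i hi).2]
      · rw [(hout i hi).2]; linarith
    set u1 := max lo (min u hi') with hu1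
    have hu1m : u1 ∈ Icc lo hi' := ⟨le_max_left _ _, max_le hlh (min_le_right _ _)⟩
    have hu01 : |u - u1| ≤ 2 * η := by
      have d1 := hu.1
      have d2 := hu.2
      rw [abs_le, hu1]
      constructor
      · rcases le_total u hi' with h2 | h2
        · rw [min_eq_left h2]
          rcases le_total lo u with h3 | h3
          · rw [max_eq_right h3]; linarith
          · rw [max_eq_left h3]; linarith
        · rw [min_eq_right h2, max_eq_right hlh]; linarith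
      · rcases le_total u hi' with h2 | h2
        · rw [min_eq_left h2]
          have := le_max_right lo u
          linarith
        · rw [min_eq_right h2, max_eq_right hlh]; linarith
    refine ⟨gp g u1, ?_, ?_⟩
    · rw [Az_eq hj]
      exact ⟨u1, hu1m, rfl⟩
    · have := hη u u1 hu01
      linarith
  · -- marks
    have h4 := (hcor k z (h2.mono b2) (h3.mono b2)).trans_le (min_le_right _ _)
    have h5 : g ((k.val : ℝ) / 4) = gp g ((k.val : ℝ) / 4) := by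
      have := val_le k
      exact (gp_eq hj ⟨by positivity, by linarith⟩).symm
    have h6 := hη (aa T η (k.val : ℤ)) ((k.val : ℝ) / 4) (by
      by_cases hk : k ∈ T
      · rw [(hin k hk).1, abs_le]; constructor <;> linarith
      · rw [(hout k hk).1, abs_le]; constructor <;> linarith)
    have h7 := norm_sub_le_norm_sub_add_norm_sub z (gp g (aa T η (k.val : ℤ)))
      (gp g ((k.val : ℝ) / 4))
    show ‖z - g ((k.val : ℝ) / 4)‖ < e / 4
    rw [h5]
    linarith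
  · obtain ⟨p, hp, w, h2, h3⟩ := hext1 i
    exact ⟨p, hp, w, h2, fun y hy => b1.trans (h3 y hy)⟩
  · obtain ⟨p', hp', w, h2, h3, h4, h5⟩ := hnet i hi p hp
    exact ⟨p', hp', w, h2, h3, fun y hy => b3.trans (h4 y hy),
      fun y hy j hji x hx => b3.trans (h5 y hy j hji x hx)⟩

/-! ### the leaf -/

theorem shift_le (hT : Alt T) (h0 : 0 < η) (k : ZMod 4) :
    |aa T η (k.val : ℤ) - (k.val : ℝ) / 4| ≤ 2 * η := by
  unfold aa
  rw [abs_le]
  split_ifs <;> push_cast <;> constructor <;> linarith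

/-- the shifted marks are not on the swallowed arcs -/
theorem mark_notin (hj : IsJordanCurve g) (hT : Alt T) (h0 : 0 < η) (h1 : η < 1 / 16) (k i : ZMod 4)
    (hi : i ∈ T) : gp g (aa T η (k.val : ℤ)) ∉ Az g i := by
  rw [Az_eq hj]
  rintro ⟨t, ht, e⟩
  obtain ⟨l, hl⟩ := gp_inj hj e
  have hm := aa_mono (T := T) hT h0 h1
  have e1 := aa_per (T := T) (η := η) (k.val : ℤ) l
  have e2 : aa T η (i.val : ℤ) = (i.val : ℝ) / 4 - η := by
    unfold aa; rw [val_cast, if_pos hi]; push_cast; ring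
  have e3 : aa T η ((i.val : ℤ) + 1) = ((i.val : ℝ) + 1) / 4 + η := by
    rw [aa_succ hT, val_cast, if_pos hi]; push_cast; ring
  have k1 : (i.val : ℤ) < k.val + 4 * l := by
    rw [← hm.lt_iff_lt, e1, e2]
    linarith [ht.1]
  have k2 : (k.val : ℤ) + 4 * l < i.val + 1 := by
    rw [← hm.lt_iff_lt, e1, e3]
    linarith [ht.2]
  omega

theorem rvm_rvA {ρ d : ℝ} {AA : ZMod 4 → Set ℂ} {p : ZMod 4 → ℂ}
    (h : ∀ k z, Nr ρ (AA k) z → Nr ρ (AA (k - 1)) z → ‖z - p k‖ < d) (b : Bool) (k : ZMod 4)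
    (z : ℂ) (h1 : Nr ρ (rvA b AA k) z) (h2 : Nr ρ (rvA b AA (k - 1)) z) : ‖z - rvm b p k‖ < d := by
  cases b with
  | false => exact h k z h1 h2
  | true =>
    have e1 : (2 : ZMod 4) - k - 1 = 1 - k := by ring
    have e2 : (1 : ZMod 4) - (k - 1) = 2 - k := by ring
    have h1' : Nr ρ (AA (1 - k)) z := h1
    have h2' : Nr ρ (AA (1 - (k - 1))) z := h2
    rw [e2] at h2'
    exact h (2 - k) z h2' (by rw [e1]; exact h1')


end Crest.Agent.R143.Swl3x922
end
end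

-- ▼ part R143/Poly_416
section

/-!
# Row 143 (S0194), BLOCK D: the outer polygon of a Jordan domain, four marked edges (helper416)

Adaptation of helper896's sandwich polygons (R158, `Sp1` .. `Sp7`): the star-shaped set `Sig` is
replaced by the closed domain, the four arcs are arbitrary.

* `St` : the boundary edges at one scale; `St.sprop` : separation property of their parameters
* `target` : boundary edges near a given parameter
* `order4`, `runs4` : cyclic order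
* `poly` : `Tenx416.POLY`
-/

set_option autoImplicit false

noncomputable section

namespace Crest.Agent.R143.Polyx416

open Set Topology Filter Metric
open Crest Crest.ProbabilityR Crest.ProbabilityR.Percolation
open Crest.Agent.R158.Jt785 Crest.Agent.R158.Sp896 Crest.Agent.R158
open Crest.Agent.R143.Cfgx416 Crest.Agent.R143.Tenx416

/-! ### combinatorics of the parameters -/

theorem use {η : ℝ} {L : ℕ} {t : ℕ → ℝ} (hS : SProp η L t) {i j k k' : ℕ} (hij : i < j) (hj : j < L)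
    (hk : k < L) (hk' : k' < L) {n n' m1 m2 : ℤ} {lo hi : ℝ} (h1 : lo ≤ t k + n) (h2 : t k + n ≤ hi)
    (h3 : lo ≤ t k' + n') (h4 : t k' + n' ≤ hi) (a1 : t i + m1 + η ≤ lo) (a2 : hi ≤ t i + m1 + 1 - η)
    (b1 : t j + m2 + η ≤ lo) (b2 : hi ≤ t j + m2 + 1 - η) :
    (i < k ∧ k < j) ↔ (i < k' ∧ k' < j) := by
  refine s_use hS hij hj hk hk' (n' - n) (m1 - n) (m2 - n) (lo - n) (hi - n) ?_ ?_ ?_ ?_ ?_ ?_ ?_ ?_
    <;> push_cast <;> linarith

/-- the edge `p` is near the parameter `x` -/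
def At (η : ℝ) (t : ℕ → ℝ) (p : ℕ) (x : ℝ) : Prop := ∃ n : ℤ, |t p + n - x| < η

theorem At.shift {η : ℝ} {t : ℕ → ℝ} {p : ℕ} {x : ℝ} (h : At η t p x) : At η t p (x + 1) := by
  obtain ⟨n, hn⟩ := h
  refine ⟨n + 1, ?_⟩
  push_cast
  rwa [show t p + ((n : ℝ) + 1) - (x + 1) = t p + n - x by ring]

theorem At.ne {η : ℝ} {t : ℕ → ℝ} {p q : ℕ} {x y : ℝ} (hη : 0 < η) (hp : At η t p x)
    (hq : At η t q y) (h1 : x + 8 * η ≤ y) (h2 : y ≤ x + 1 - 8 * η) : p ≠ q := by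
  rintro rfl
  obtain ⟨n, hn⟩ := hp
  obtain ⟨n', hn'⟩ := hq
  rw [abs_lt] at hn hn'
  have h3 : (0 : ℝ) < ((n' - n : ℤ) : ℝ) := by push_cast; linarith
  have h4 : ((n' - n : ℤ) : ℝ) < 1 := by push_cast; linarith
  have h5 : 0 < n' - n := by exact_mod_cast h3
  have h6 : n' - n < 1 := by exact_mod_cast h4
  omega

/-- two edges in the same gap are on the same side -/
theorem side {η α β : ℝ} {L : ℕ} {t : ℕ → ℝ} (hS : SProp η L t) {p q k k' : ℕ}
    (hαβ : α < β) (hp : At η t p α) (hq : At η t q β) (hpL : p < L) (hqL : q < L)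
    (hk : k < L) (hk' : k' < L) {n n' : ℤ} (h1 : β + 2 * η ≤ t k + n)
    (h2 : t k + n ≤ α + 1 - 2 * η) (h3 : β + 2 * η ≤ t k' + n') (h4 : t k' + n' ≤ α + 1 - 2 * η) :
    (p < q → ((p < k ∧ k < q) ↔ (p < k' ∧ k' < q))) ∧
    (q < p → ((q < k ∧ k < p) ↔ (q < k' ∧ k' < p))) := by
  obtain ⟨m1, hm1⟩ := hp
  obtain ⟨m2, hm2⟩ := hq
  rw [abs_lt] at hm1 hm2
  exact ⟨fun h => use hS h hqL hk hk' h1 h2 h3 h4 (m1 := m1) (m2 := m2) (by linarith) (by linarith)
      (by linarith) (by linarith),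
    fun h => use hS h hpL hk hk' h1 h2 h3 h4 (m1 := m2) (m2 := m1) (by linarith) (by linarith)
      (by linarith) (by linarith)⟩

/-- parameters of the edges of a side -/
def In (η : ℝ) (t : ℕ → ℝ) (k : ℕ) (α β : ℝ) : Prop :=
  ∃ n : ℤ, α - 2 * η ≤ t k + n ∧ t k + n ≤ β + 2 * η

theorem in_of {η α β x : ℝ} {L : ℕ} {t : ℕ → ℝ} (hS : SProp η L t) {p q k w : ℕ}
    (hαβ : α < β) (hp : At η t p α) (hq : At η t q β) (hpL : p < L) (hqL : q < L)
    (hk : k < L) (hw : w < L) (hwx : At η t w x) (hx1 : β + 8 * η ≤ x) (hx2 : x ≤ α + 1 - 8 * η)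
    (hη : 0 < η)
    (hn : (p < q ∧ ¬ ((p < k ∧ k < q) ↔ (p < w ∧ w < q))) ∨
      (q < p ∧ ¬ ((q < k ∧ k < p) ↔ (q < w ∧ w < p)))) : In η t k α β := by
  set n : ℤ := -⌊t k - (α - 2 * η)⌋ with hndef
  have h1 : α - 2 * η ≤ t k + n := by
    have := Int.floor_le (t k - (α - 2 * η))
    rw [hndef]; push_cast; linarith
  have h2 : t k + n < α - 2 * η + 1 := by
    have := Int.lt_floor_add_one (t k - (α - 2 * η))
    rw [hndef]; push_cast; linarith
  refine ⟨n, h1, ?_⟩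
  by_contra hcon
  push Not at hcon
  obtain ⟨n', hn'⟩ := hwx
  rw [abs_lt] at hn'
  obtain ⟨h3, h4⟩ := side hS hαβ hp hq hpL hqL hk hw (n := n) (n' := n') hcon.le (by linarith)
    (by linarith) (by linarith)
  rcases hn with ⟨h5, h6⟩ | ⟨h5, h6⟩
  · exact h6 (h3 h5)
  · exact h6 (h4 h5)

theorem At.in1 {η : ℝ} {t : ℕ → ℝ} {p : ℕ} {α β : ℝ} (hη : 0 < η) (h : At η t p α)
    (hαβ : α < β) : In η t p α β := by
  obtain ⟨n, hn⟩ := h
  rw [abs_lt] at hn
  exact ⟨n, by linarith, by linarith⟩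

theorem At.in2 {η : ℝ} {t : ℕ → ℝ} {p : ℕ} {α β : ℝ} (hη : 0 < η) (h : At η t p β)
    (hαβ : α < β) : In η t p α β := by
  obtain ⟨n, hn⟩ := h
  rw [abs_lt] at hn
  exact ⟨n, by linarith, by linarith⟩

theorem side_at {η α β x y : ℝ} {L : ℕ} {t : ℕ → ℝ} (hη : 0 < η) (hS : SProp η L t)
    {p q k k' : ℕ} (hαβ : α < β) (hp : At η t p α) (hq : At η t q β) (hpL : p < L) (hqL : q < L)
    (hk : k < L) (hk' : k' < L) (hx : At η t k x) (hy : At η t k' y) (h1 : β + 8 * η ≤ x)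
    (h2 : x ≤ α + 1 - 8 * η) (h3 : β + 8 * η ≤ y) (h4 : y ≤ α + 1 - 8 * η) :
    (p < q → ((p < k ∧ k < q) ↔ (p < k' ∧ k' < q))) ∧
    (q < p → ((q < k ∧ k < p) ↔ (q < k' ∧ k' < p))) := by
  obtain ⟨n, hn⟩ := hx
  obtain ⟨n', hn'⟩ := hy
  rw [abs_lt] at hn hn'
  exact side hS hαβ hp hq hpL hqL hk hk' (n := n) (n' := n') (by linarith) (by linarith)
    (by linarith) (by linarith)

/-- the two cyclic orders -/
theorem order4 {η : ℝ} {L b c d : ℕ} {t : ℕ → ℝ} {a0 a1 a2 a3 : ℝ} (hη : 0 < η)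
    (hS : SProp η L t) (g0 : a0 + 8 * η ≤ a1) (g1 : a1 + 8 * η ≤ a2) (g2 : a2 + 8 * η ≤ a3)
    (g3 : a3 + 8 * η ≤ a0 + 1)
    (h0 : At η t 0 a0) (hb : At η t b a1) (hc : At η t c a2) (hd : At η t d a3)
    (hbL : b < L) (hcL : c < L) (hdL : d < L) :
    (0 < b ∧ b < c ∧ c < d) ∨ (0 < d ∧ d < c ∧ c < b) := by
  have h0L : 0 < L := by omega
  have e0b : 0 ≠ b := h0.ne hη hb g0 (by linarith)
  have e0c : 0 ≠ c := h0.ne hη hc (by linarith) (by linarith)
  have e0d : 0 ≠ d := h0.ne hη hd (by linarith) (by linarith)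
  have ebc : b ≠ c := hb.ne hη hc g1 (by linarith)
  have ebd : b ≠ d := hb.ne hη hd (by linarith) (by linarith)
  have ecd : c ≠ d := hc.ne hη hd g2 (by linarith)
  obtain ⟨k1, -⟩ := side_at hη hS (by linarith) h0 hb h0L hbL hcL hdL hc hd g1 (by linarith)
    (by linarith) (by linarith)
  obtain ⟨k2, k2'⟩ := side_at hη hS (by linarith) hb hc hbL hcL hdL h0L hd h0.shift g2 (by linarith)
    (by linarith) (by linarith)
  obtain ⟨k3, k3'⟩ := side_at hη hS (by linarith) hc hd hcL hdL hbL h0L hb.shift h0.shift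
    (by linarith) (by linarith) (by linarith) (by linarith)
  have j1 := k1 (by omega)
  clear k1 hS h0 hb hc hd g0 g1 g2 g3
  rcases lt_or_gt_of_ne ebc with h | h
  · have j2 := k2 h
    rcases lt_or_gt_of_ne ecd with h' | h'
    · exact Or.inl ⟨by omega, h, h'⟩
    · exfalso
      have j3 := k3' h'
      omega
  · have j2 := k2' h
    rcases lt_or_gt_of_ne ecd with h' | h'
    · exfalso
      have j3 := k3 h'
      omega
    · exact Or.inr ⟨by omega, h', h⟩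

/-- the edges between the marks -/
theorem runs4 {η : ℝ} {L b c d : ℕ} {t : ℕ → ℝ} {a0 a1 a2 a3 : ℝ} (hη : 0 < η)
    (hS : SProp η L t) (g0 : a0 + 8 * η ≤ a1) (g1 : a1 + 8 * η ≤ a2) (g2 : a2 + 8 * η ≤ a3)
    (g3 : a3 + 8 * η ≤ a0 + 1)
    (h0 : At η t 0 a0) (hb : At η t b a1) (hc : At η t c a2) (hd : At η t d a3)
    (h0b : 0 < b) (hbc : b < c) (hcd : c < d) (hdL : d < L) :
    (∀ k, k ≤ b → In η t k a0 a1) ∧ (∀ k, b ≤ k → k ≤ c → In η t k a1 a2) ∧
    (∀ k, c ≤ k → k ≤ d → In η t k a2 a3) ∧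
    (∀ k, d ≤ k → k < L → In η t k a3 (a0 + 1)) ∧ In η t 0 a3 (a0 + 1) := by
  have h0L : 0 < L := by omega
  refine ⟨fun k hk => ?_, fun k hk hk' => ?_, fun k hk hk' => ?_, fun k hk hk' => ?_,
    h0.shift.in2 hη (by linarith)⟩
  · rcases Nat.eq_zero_or_pos k with rfl | hk0
    · exact h0.in1 hη (by linarith)
    rcases eq_or_lt_of_le hk with rfl | hk1
    · exact hb.in2 hη (by linarith)
    exact in_of hS (by linarith) h0 hb h0L (by omega) (by omega) (by omega : c < L) hc g1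
      (by linarith) hη (Or.inl ⟨h0b, by omega⟩)
  · rcases eq_or_lt_of_le hk with rfl | hk0
    · exact hb.in1 hη (by linarith)
    rcases eq_or_lt_of_le hk' with rfl | hk1
    · exact hc.in2 hη (by linarith)
    exact in_of hS (by linarith) hb hc (by omega) (by omega) (by omega) hdL hd g2
      (by linarith) hη (Or.inl ⟨hbc, by omega⟩)
  · rcases eq_or_lt_of_le hk with rfl | hk0
    · exact hc.in1 hη (by linarith)
    rcases eq_or_lt_of_le hk' with rfl | hk1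
    · exact hd.in2 hη (by linarith)
    exact in_of hS (by linarith) hc hd (by omega) (by omega) (by omega) h0L h0.shift g3
      (by linarith) hη (Or.inl ⟨hcd, by omega⟩)
  · rcases eq_or_lt_of_le hk with rfl | hk0
    · exact hd.in1 hη (by linarith)
    exact in_of hS (by linarith) hd h0.shift (by omega) (by omega) (by omega) (by omega : b < L)
      hb.shift (by linarith) (by linarith) hη (Or.inr ⟨by omega, by omega⟩)

end Crest.Agent.R143.Polyx416
end
end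

-- ▼ part R143/Poly2_416
section

/-!
# Row 143 (S0194), BLOCK D: the outer polygon of a Jordan domain, geometry (helper416)

* `St` : the boundary edges at one scale; `St.sprop` : separation property of their parameters
* `target` : boundary edges near a given parameter
* `poly` : `Tenx416.POLY`
-/

set_option autoImplicit false

noncomputable section

namespace Crest.Agent.R143.Polyx416

open Set Topology Filter Metric
open Crest Crest.ProbabilityR Crest.ProbabilityR.Percolation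
open Crest.Agent.R158.Jt785 Crest.Agent.R158.Sp896 Crest.Agent.R158
open Crest.Agent.R143.Cfgx416 Crest.Agent.R143.Tenx416

/-- the boundary edges at one scale -/
structure St (γ : ℝ → ℂ) (Ψ : ℝ → ℝ → ℂ) (D : Set ℂ) (κ δ s : ℝ) (L : ℕ) (v : ℕ → V) : Prop where
  P : Pol γ Ψ D
  Dc : IsCompact (closure D)
  κ0 : 0 < κ
  κ1 : κ ≤ 1 / 200
  s0 : 0 < s
  s1 : s ≤ 1
  sδ : 4 * s < δ
  inv : ∀ r ∈ Icc (0:ℝ) 1, ∀ r' ∈ Icc (0:ℝ) 1, ∀ t ∈ Icc (0:ℝ) 1, ∀ t' ∈ Icc (0:ℝ) 1,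
    ‖Ψ r t - Ψ r' t'‖ < δ → |r - r'| < κ ∧ (r < κ ∨ Pol.near κ t t')
  deep : ∀ r ∈ Icc (0:ℝ) (1 - κ), ∀ t ∈ Icc (0:ℝ) 1, ∀ z : ℂ, ‖z - Ψ r t‖ < δ → z ∈ closure D
  cyc : Cyc (Out (cells s (closure D)))ᶜ L v

theorem rad_sub {γ : ℝ → ℂ} {Ψ : ℝ → ℝ → ℂ} {D : Set ℂ} (P : Pol γ Ψ D) {r1 r2 : ℝ} (h1 : 0 ≤ r1)
    (h2 : r2 ≤ 1) (t : ℝ) : rad Ψ r1 r2 t ⊆ closure D := by
  rintro z ⟨r, hr, rfl⟩
  exact P.mem r ⟨h1.trans hr.1, hr.2.trans h2⟩ t

theorem preconn_closure {γ : ℝ → ℂ} {Ψ : ℝ → ℝ → ℂ} {D : Set ℂ} (P : Pol γ Ψ D) :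
    IsPreconnected (closure D) := by
  refine isPreconnected_of_forall (Ψ 0 0) fun z hz => ?_
  obtain ⟨r, hr, t, ht, rfl⟩ := P.surj z hz
  exact ⟨rad Ψ 0 r t, rad_sub P le_rfl hr.2 t, ⟨0, ⟨le_rfl, hr.1⟩, P.zero t⟩,
    ⟨r, ⟨hr.1, le_rfl⟩, rfl⟩, rad_preconn P le_rfl hr.2 t⟩

namespace St

variable {γ : ℝ → ℂ} {Ψ : ℝ → ℝ → ℂ} {D : Set ℂ} {κ δ s : ℝ} {L : ℕ} {v : ℕ → V}

theorem fin0 (S : St γ Ψ D κ δ s L v) : (cells s (closure D)).Finite :=
  cells_finite S.s0 S.Dc.isBounded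


theorem rt_out (S : St γ Ψ D κ δ s L v) (m : ℕ) : Stg.rt v m ∈ Out (cells s (closure D)) := by
  have := S.cyc.right m
  rwa [notMem_compl_iff] at this

theorem lf_mem (S : St γ Ψ D κ δ s L v) (m : ℕ) : Stg.lf v m ∈ cells s (closure D) :=
  mem_of_adj (adj_lc_rc (S.cyc.step m)) (S.cyc.left m) (S.rt_out m)

theorem rt_notMem (S : St γ Ψ D κ δ s L v) (m : ℕ) : Stg.rt v m ∉ cells s (closure D) :=
  (S.rt_out m).1

/-- polar coordinates of a point of `closure D` in the left cell -/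
theorem exists_rt (S : St γ Ψ D κ δ s L v) (m : ℕ) : ∃ r t : ℝ, r ∈ Icc (0:ℝ) 1 ∧ t ∈ Icc (0:ℝ) 1 ∧
    Ψ r t ∈ sq s (Stg.lf v m) ∧ 1 - κ < r := by
  obtain ⟨z, hz, hzD⟩ := S.lf_mem m
  obtain ⟨r, hr, t, ht, rfl⟩ := S.P.surj z hzD
  refine ⟨r, t, hr, ht, hz, ?_⟩
  by_contra hcon
  push Not at hcon
  obtain ⟨y, hy⟩ := sq_nonempty S.s0 (Stg.rt v m)
  have h1 := adj_dist S.s0 (adj_lc_rc (S.cyc.step m)) hz hy
  apply S.rt_notMem m
  refine ⟨y, hy, S.deep r ⟨hr.1, hcon⟩ t ht y ?_⟩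
  rw [norm_sub_rev]
  exact h1.trans_lt S.sδ

/-- choice of the polar coordinates -/
noncomputable def rr (S : St γ Ψ D κ δ s L v) (m : ℕ) : ℝ := (S.exists_rt m).choose

/-- choice of the parameter of an edge -/
noncomputable def tp (S : St γ Ψ D κ δ s L v) (m : ℕ) : ℝ := (S.exists_rt m).choose_spec.choose

theorem rr_tp (S : St γ Ψ D κ δ s L v) (m : ℕ) : S.rr m ∈ Icc (0:ℝ) 1 ∧ S.tp m ∈ Icc (0:ℝ) 1 ∧
    Ψ (S.rr m) (S.tp m) ∈ sq s (Stg.lf v m) ∧ 1 - κ < S.rr m :=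
  (S.exists_rt m).choose_spec.choose_spec

/-- a point at a parameter avoiding `p` is not close to the radius at `p` -/
theorem not_close (S : St γ Ψ D κ δ s L v) {r r' θ p : ℝ} (hr : r ∈ Icc (1/2:ℝ) 1)
    (hr' : r' ∈ Icc (0:ℝ) 1) (hp : p ∈ Icc (0:ℝ) 1) (ha : Avd κ p θ) : 2 * s < ‖Ψ r θ - Ψ r' p‖ := by
  by_contra hcon
  push Not at hcon
  have hκ1 := S.κ1
  have hs0 := S.s0
  have hsδ := S.sδ
  have hf : Int.fract θ ∈ Icc (0:ℝ) 1 := ⟨Int.fract_nonneg θ, (Int.fract_lt_one θ).le⟩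
  rw [← per_fract S.P r θ] at hcon
  obtain ⟨-, h3⟩ := S.inv r ⟨by linarith [hr.1], hr.2⟩ r' hr' (Int.fract θ) hf p hp
    (by linarith)
  rcases h3 with h3 | h3 | h3 | h3
  · linarith [hr.1]
  · have h4 := ha ⌊θ⌋
    have h5 : θ - p - ⌊θ⌋ = Int.fract θ - p := by rw [Int.fract]; ring
    rw [h5] at h4
    linarith
  · have h4 := ha (⌊θ⌋ + 1)
    have h5 : θ - p - ((⌊θ⌋ + 1 : ℤ) : ℝ) = Int.fract θ - p - 1 := by rw [Int.fract]; push_cast; ring
    rw [h5] at h4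
    linarith
  · have h4 := ha (⌊θ⌋ - 1)
    have h5 : θ - p - ((⌊θ⌋ - 1 : ℤ) : ℝ) = Int.fract θ - p + 1 := by rw [Int.fract]; push_cast; ring
    rw [h5] at h4
    linarith

/-- the separation property of the parameters of the boundary edges -/
theorem sprop (S : St γ Ψ D κ δ s L v) : SProp κ L S.tp := by
  intro i j k k' hij hj hk hk' n hx
  have hκ1 := S.κ1
  have hκ0 := S.κ0
  obtain ⟨ri, ti, zi, -⟩ := S.rr_tp i
  obtain ⟨rj, tj, zj, -⟩ := S.rr_tp j
  obtain ⟨rk, tk, zk, lk⟩ := S.rr_tp k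
  obtain ⟨rk', tk', zk', lk'⟩ := S.rr_tp k'
  set Ki : Set ℂ := rad Ψ 0 (S.rr i) (S.tp i) with hKi
  set Kj : Set ℂ := rad Ψ 0 (S.rr j) (S.tp j) with hKj
  have hKi0 : Ψ 0 0 ∈ Ki := ⟨0, ⟨le_rfl, ri.1⟩, S.P.zero _⟩
  have hKj0 : Ψ 0 0 ∈ Kj := ⟨0, ⟨le_rfl, rj.1⟩, S.P.zero _⟩
  have hlam1 : IsPreconnected (Ki ∪ Kj) :=
    (rad_preconn S.P le_rfl ri.2 _).union _ hKi0 hKj0 (rad_preconn S.P le_rfl rj.2 _)
  have hlam2 : Bornology.IsBounded (Ki ∪ Kj) :=
    ((rad_compact S.P le_rfl ri.2 _).union (rad_compact S.P le_rfl rj.2 _)).isBounded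
  have hlam3 : Ki ∪ Kj ⊆ closure D :=
    union_subset (rad_sub S.P le_rfl ri.2 _) (rad_sub S.P le_rfl rj.2 _)
  have hF0 : cells s (closure D) ⊆ (Out (cells s (closure D)))ᶜ := subset_out_compl
  -- the connecting set
  set K : Set ℂ := rad Ψ (1/2) (S.rr k) (S.tp k) ∪ circ Ψ (1/2) (S.tp k) (S.tp k' + n) ∪
    rad Ψ (1/2) (S.rr k') (S.tp k') with hK
  have hhalf : (1/2:ℝ) ∈ Icc (0:ℝ) 1 := by constructor <;> norm_num
  have m1 : Ψ (1/2) (S.tp k) ∈ rad Ψ (1/2) (S.rr k) (S.tp k) := ⟨1/2, ⟨le_rfl, by linarith⟩, rfl⟩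
  have m2 : Ψ (1/2) (S.tp k) ∈ circ Ψ (1/2) (S.tp k) (S.tp k' + n) := ⟨S.tp k, left_mem_uIcc, rfl⟩
  have m3 : Ψ (1/2) (S.tp k') ∈ circ Ψ (1/2) (S.tp k) (S.tp k' + n) :=
    ⟨S.tp k' + n, right_mem_uIcc, S.P.per_int _ _ _⟩
  have m4 : Ψ (1/2) (S.tp k') ∈ rad Ψ (1/2) (S.rr k') (S.tp k') := ⟨1/2, ⟨le_rfl, by linarith⟩, rfl⟩
  have hK1 : IsPreconnected K :=
    (((rad_preconn S.P hhalf.1 rk.2 _).union _ m1 m2 (circ_preconn S.P hhalf _ _)).union _
      (Or.inr m3) m4 (rad_preconn S.P hhalf.1 rk'.2 _))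
  have hK2 : Bornology.IsBounded K :=
    (((rad_compact S.P hhalf.1 rk.2 _).union (circ_compact S.P hhalf _ _)).union
      (rad_compact S.P hhalf.1 rk'.2 _)).isBounded
  have hK3 : ∀ z ∈ K, ∃ r ∈ Icc (1/2:ℝ) 1, ∃ θ ∈ uIcc (S.tp k) (S.tp k' + n), Ψ r θ = z := by
    rintro z ((⟨r, hr, rfl⟩ | ⟨θ, hθ, rfl⟩) | ⟨r, hr, rfl⟩)
    · exact ⟨r, ⟨hr.1, hr.2.trans rk.2⟩, S.tp k, left_mem_uIcc, rfl⟩
    · exact ⟨1/2, ⟨le_rfl, by norm_num⟩, θ, hθ, rfl⟩
    · exact ⟨r, ⟨hr.1, hr.2.trans rk'.2⟩, S.tp k' + n, right_mem_uIcc, S.P.per_int _ _ _⟩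
  have hK4 : K ⊆ closure D := by
    refine union_subset (union_subset (rad_sub S.P hhalf.1 rk.2 _) ?_)
      (rad_sub S.P hhalf.1 rk'.2 _)
    rintro z ⟨θ, -, rfl⟩
    exact S.P.mem _ hhalf θ
  have hK5 : cells s K ⊆ (cells s (Ki ∪ Kj))ᶜ := by
    rintro q ⟨x, hx1, hx2⟩ ⟨y, hy1, hy2⟩
    obtain ⟨r, hr, θ, hθ, rfl⟩ := hK3 x hx2
    have hd := sq_dist hx1 hy1
    obtain ⟨a1, a2⟩ := hx θ hθ
    rcases hy2 with ⟨r', hr', rfl⟩ | ⟨r', hr', rfl⟩
    · exact absurd hd (not_le.2 (S.not_close hr ⟨hr'.1, hr'.2.trans ri.2⟩ ti a1))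
    · exact absurd hd (not_le.2 (S.not_close hr ⟨hr'.1, hr'.2.trans rj.2⟩ tj a2))
  have hK6 : cells s K ⊆ (Out (cells s (closure D)))ᶜ \ cells s (Ki ∪ Kj) := fun q hq =>
    ⟨hF0 (cells_mono hK4 hq), hK5 hq⟩
  have e1 : Stg.lf v k ∈ cells s K := ⟨_, zk, Or.inl (Or.inl ⟨S.rr k, ⟨by linarith, le_rfl⟩, rfl⟩)⟩
  have e2 : Stg.lf v k' ∈ cells s K := ⟨_, zk', Or.inr ⟨S.rr k', ⟨by linarith, le_rfl⟩, rfl⟩⟩
  refine SpD331.sep896 (lam := cells s (Ki ∪ Kj)) S.cyc ?_ hij hj ?_ ?_ ?_ ?_ hk hk'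
    (hK5 e1) (hK5 e2) ?_
  · intro q hq q' hq'
    rw [notMem_compl_iff] at hq hq'
    rw [compl_compl]
    exact out_con S.fin0 q hq q' hq'
  · exact (cells_mono hlam3).trans hF0
  · exact cells_con S.s0 hlam1 hlam2
  · exact ⟨_, zi, Or.inl ⟨S.rr i, ⟨ri.1, le_rfl⟩, rfl⟩⟩
  · exact ⟨_, zj, Or.inr ⟨S.rr j, ⟨rj.1, le_rfl⟩, rfl⟩⟩
  · exact (cells_con S.s0 hK1 hK2 _ e1 _ e2).mono hK6

end St

/-- the cell `q` only contains points of `closure D` (near the boundary) whose parameter is near `x`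
modulo 1 -/
def CAt (Ψ : ℝ → ℝ → ℂ) (κ s : ℝ) (q : V) (x : ℝ) : Prop :=
  ∀ r ∈ Icc (0:ℝ) 1, ∀ t ∈ Icc (0:ℝ) 1, Ψ r t ∈ sq s q → 1 - κ < r → ∃ n : ℤ, |t + n - x| < κ

/-- existence of boundary edges near a given parameter -/
theorem target {γ : ℝ → ℂ} {Ψ : ℝ → ℝ → ℂ} {κ δ s : ℝ} {L : ℕ} {v : ℕ → V}
    (S : St γ Ψ (jordanInterior γ) κ δ s L v)
    {x : ℝ} {p : ℂ} (hp : ‖p - γ (Int.fract x)‖ < δ / 2)
    (hpo : ∀ q : V, p ∈ sq s q → q ∈ Out (cells s (closure (jordanInterior γ)))) :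
    ∃ m < L, CAt Ψ κ s (Stg.lf v m) x := by
  set t : ℝ := Int.fract x with ht
  have htI : t ∈ Icc (0:ℝ) 1 := ⟨Int.fract_nonneg x, (Int.fract_lt_one x).le⟩
  have hκ0 := S.κ0
  have hκ1 := S.κ1
  have hsδ := S.sδ
  have hs0 := S.s0
  have hseg : IsPreconnected (segment ℝ (γ t) p) := (convex_segment _ _).isPreconnected
  have hsc : IsCompact (segment ℝ (γ t) p) := by
    rw [segment_eq_image_lineMap]
    exact isCompact_Icc.image AffineMap.lineMap_continuous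
  have h0 : (0:ℝ) ≤ 1 - κ := by linarith
  set K : Set ℂ := rad Ψ (1 - κ) 1 t ∪ segment ℝ (γ t) p with hK
  have m1 : γ t ∈ rad Ψ (1 - κ) 1 t := ⟨1, ⟨by linarith, le_rfl⟩, S.P.one t htI⟩
  have hK1 : IsPreconnected K := (rad_preconn S.P h0 le_rfl t).union _ m1 (left_mem_segment ℝ _ _) hseg
  have hK2 : Bornology.IsBounded K := ((rad_compact S.P h0 le_rfl t).union hsc).isBounded
  have m2 : Ψ (1 - κ) t ∈ K := Or.inl ⟨1 - κ, ⟨le_rfl, by linarith⟩, rfl⟩
  have m3 : p ∈ K := Or.inr (right_mem_segment ℝ _ _)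
  have m4 : Ψ (1 - κ) t ∈ closure (jordanInterior γ) := S.P.mem _ ⟨h0, by linarith⟩ t
  have hcon := cells_con hs0 hK1 hK2 _ (cellOf_mem hs0 m2) _ (cellOf_mem hs0 m3)
  obtain ⟨a, b, hab, haK, hbK, ha, hb⟩ := Con.cross
    (S := (Out (cells s (closure (jordanInterior γ))))ᶜ) hcon
    (cellOf_mem hs0 m2) (subset_out_compl (cellOf_mem hs0 m4))
    (by rw [notMem_compl_iff]; exact hpo _ (mem_cellOf hs0 p))
  obtain ⟨a', b', hxy, rfl, rfl⟩ := exists_dart hab
  obtain ⟨m, hm, rfl, rfl⟩ := S.cyc.all a' b' hxy ha hb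
  refine ⟨m, hm, fun r hr t' ht' hz hr2 => ?_⟩
  obtain ⟨z, hz1, hz2⟩ := haK
  have hd := sq_dist hz hz1
  have hn : Pol.near κ t' t := by
    have key : ∀ r0 ∈ Icc (0:ℝ) 1, ‖Ψ r t' - Ψ r0 t‖ < δ → Pol.near κ t' t := by
      intro r0 hr0 hlt
      obtain ⟨-, h2⟩ := S.inv r hr r0 hr0 t' ht' t htI hlt
      rcases h2 with h2 | h2
      · exfalso; linarith
      · exact h2
    rcases hz2 with ⟨r0, hr0, rfl⟩ | hz2
    · exact key r0 ⟨by linarith [hr0.1], hr0.2⟩ (by linarith)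
    · have h7 : ‖z - γ t‖ ≤ ‖p - γ t‖ := by
        obtain ⟨τ, hτ, rfl⟩ : ∃ τ ∈ Icc (0:ℝ) 1, AffineMap.lineMap (γ t) p τ = z := by
          rw [segment_eq_image_lineMap] at hz2
          exact hz2
        have e : AffineMap.lineMap (γ t) p τ - γ t = τ • (p - γ t) := by
          rw [AffineMap.lineMap_apply]
          simp
        rw [e, norm_smul, Real.norm_eq_abs, abs_of_nonneg hτ.1]
        exact mul_le_of_le_one_left (norm_nonneg _) hτ.2
      apply key 1 ⟨zero_le_one, le_rfl⟩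
      rw [S.P.one t htI]
      have e : Ψ r t' - γ t = (Ψ r t' - z) + (z - γ t) := by ring
      rw [e]
      exact (norm_add_le _ _).trans_lt (by linarith)
  have hx : x = t + ⌊x⌋ := by rw [ht, Int.fract]; ring
  rcases hn with hn | hn | hn
  · refine ⟨⌊x⌋, ?_⟩
    have e : t' + (⌊x⌋ : ℝ) - x = t' - t := by linarith
    rw [e]
    exact hn
  · refine ⟨⌊x⌋ - 1, ?_⟩
    have e : t' + ((⌊x⌋ - 1 : ℤ) : ℝ) - x = t' - t - 1 := by
      push_cast; linarith
    rw [e]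
    exact hn
  · refine ⟨⌊x⌋ + 1, ?_⟩
    have e : t' + ((⌊x⌋ + 1 : ℤ) : ℝ) - x = t' - t + 1 := by
      push_cast; linarith
    rw [e]
    exact hn

/-! ### the theorem -/

/-- the arc between the parameters `a j` and `a (j + 1)` -/
def arcZ (g : ℝ → ℂ) (a : ℤ → ℝ) (j : ℤ) : Set ℂ := gp g '' Icc (a j) (a (j + 1))

theorem gp_int (g : ℝ → ℂ) (t : ℝ) (n : ℤ) : gp g (t + n) = gp g t := by
  unfold gp; rw [Int.fract_add_intCast]

theorem arcZ_sub {g : ℝ → ℂ} {a : ℤ → ℝ} (hper : ∀ k, a (k + 4) = a k + 1) (j : ℤ) :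
    arcZ g a (j - 4) = arcZ g a j := by
  have h1 := hper (j - 4)
  have h2 := hper (j + 1 - 4)
  rw [show j - 4 + 4 = j by ring] at h1
  rw [show j + 1 - 4 + 4 = j + 1 by ring] at h2
  unfold arcZ
  rw [show j - 4 + 1 = j + 1 - 4 by ring]
  ext z
  constructor
  · rintro ⟨t, ht, rfl⟩
    refine ⟨t + (1 : ℤ), ⟨?_, ?_⟩, gp_int g t 1⟩ <;> push_cast <;> linarith [ht.1, ht.2]
  · rintro ⟨t, ht, rfl⟩
    refine ⟨t + (-1 : ℤ), ⟨?_, ?_⟩, gp_int g t (-1)⟩ <;> push_cast <;> linarith [ht.1, ht.2]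

/-- the side from the parameter intervals -/
theorem near_side {γ : ℝ → ℂ} {Ψ : ℝ → ℝ → ℂ} {D : Set ℂ} {κ δ s e : ℝ} {L : ℕ} {v : ℕ → V}
    (S : St γ Ψ D κ δ s L v) {η1 : ℝ} (hκη : 5 * κ ≤ η1) (hse : 16 * s < e)
    (hunif : ∀ r ∈ Icc (0:ℝ) 1, ∀ r' ∈ Icc (0:ℝ) 1, ∀ t ∈ Icc (-1:ℝ) 2, ∀ t' ∈ Icc (-1:ℝ) 2,
      |r - r'| < η1 → |t - t'| < η1 → ‖Ψ r t - Ψ r' t'‖ < e / 8) {α β : ℝ} (hαβ : α ≤ β) {m : ℕ}
    (h : ∃ n : ℤ, α - 2 * κ ≤ S.tp m + n ∧ S.tp m + n ≤ β + 2 * κ) :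
    ∀ z ∈ ed s (v m) (v (m + 1)), Nr e (gp γ '' Icc α β) z := by
  intro z hz
  obtain ⟨n, h1, h2⟩ := h
  obtain ⟨a1, a2, a3, a4⟩ := S.rr_tp m
  have hκ0 := S.κ0
  have hκ1 := S.κ1
  have hs := S.s0
  obtain ⟨τ, hτ, hτ2⟩ : ∃ τ ∈ Icc α β, |S.tp m + n - τ| ≤ 2 * κ := by
    rcases le_total (S.tp m + n) α with h3 | h3
    · exact ⟨α, ⟨le_rfl, hαβ⟩, by rw [abs_le]; constructor <;> linarith⟩
    rcases le_total (S.tp m + n) β with h4 | h4
    · exact ⟨S.tp m + n, ⟨h3, h4⟩, by rw [sub_self, abs_zero]; linarith⟩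
    · exact ⟨β, ⟨hαβ, le_rfl⟩, by rw [abs_le]; constructor <;> linarith⟩
  have hp : Ψ 1 (τ + ((-n : ℤ) : ℝ)) = gp γ τ := by
    rw [S.P.per_int, ← per_fract S.P 1 τ]
    exact S.P.one _ ⟨Int.fract_nonneg τ, (Int.fract_lt_one τ).le⟩
  rw [abs_le] at hτ2
  have e2 := hunif (S.rr m) a1 1 ⟨zero_le_one, le_rfl⟩ (S.tp m)
    ⟨by linarith [a2.1], by linarith [a2.2]⟩ (τ + ((-n : ℤ) : ℝ))
    ⟨by push_cast; linarith [a2.1, hτ2.2], by push_cast; linarith [a2.2, hτ2.1]⟩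
    (by rw [abs_lt]; constructor <;> linarith [a1.2])
    (by rw [abs_lt]; push_cast; constructor <;> linarith [hτ2.1, hτ2.2])
  rw [hp] at e2
  have e1 := sq_dist (ed_sub_lc hs (S.cyc.step m) hz) a3
  refine ⟨gp γ τ, mem_image_of_mem _ hτ, ?_⟩
  have e3 : z - gp γ τ = (z - Ψ (S.rr m) (S.tp m)) + (Ψ (S.rr m) (S.tp m) - gp γ τ) := by ring
  rw [e3]
  refine (norm_add_le _ _).trans_lt ?_
  linarith

theorem sprop_neg {η : ℝ} {L : ℕ} {t : ℕ → ℝ} (hS : SProp η L t) : SProp η L fun k => -t k := by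
  have key : ∀ p x : ℝ, Avd η (-p) x → Avd η p (-x) := by
    intro p x h n
    have := h (-n)
    rw [show x - -p - ((-n : ℤ) : ℝ) = -(-x - p - n) by push_cast; ring, abs_neg] at this
    exact this
  intro i j k k' hij hj hk hk' n hx
  refine hS i j k k' hij hj hk hk' (-n) fun x hx' => ?_
  have h1 : -x ∈ uIcc (-t k) (-t k' + n) := by
    rw [show -t k' + (n : ℝ) = -(t k' + ((-n : ℤ) : ℝ)) by push_cast; ring]
    rw [mem_uIcc] at hx' ⊢
    rcases hx' with h | h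
    · right; constructor <;> linarith [h.1, h.2]
    · left; constructor <;> linarith [h.1, h.2]
  obtain ⟨h2, h3⟩ := hx (-x) h1
  have h4 := key _ _ h2
  have h5 := key _ _ h3
  rw [neg_neg] at h4 h5
  exact ⟨h4, h5⟩

end Crest.Agent.R143.Polyx416
end
end

-- ▼ part R143/Poly3_416

/-!
# Row 143 (S0194), BLOCK D: the leaf `POLY` (helper416)

* `poly` : `Tenx416.POLY`
-/

set_option autoImplicit false

noncomputable section

namespace Crest.Agent.R143.Polyx416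

open Set Topology Filter Metric
open Crest Crest.ProbabilityR Crest.ProbabilityR.Percolation
open Crest.Agent.R158.Jt785 Crest.Agent.R158.Sp896 Crest.Agent.R158
open Crest.Agent.R143.Cfgx416 Crest.Agent.R143.Tenx416

/-- marks -/
def mk (b c d : ℕ) : ℕ → ℕ := fun i => if i = 0 then 0 else if i = 1 then b else if i = 2 then c else d

theorem sides_of {s e : ℝ} {L b c d : ℕ} {v : ℕ → V} (hper : ∀ i, v (i + L) = v i)
    {AA : ZMod 4 → Set ℂ}
    (h0 : ∀ k, k ≤ b → ∀ z ∈ ed s (v k) (v (k + 1)), Nr e (AA 0) z)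
    (h1 : ∀ k, b ≤ k → k ≤ c → ∀ z ∈ ed s (v k) (v (k + 1)), Nr e (AA 1) z)
    (h2 : ∀ k, c ≤ k → k ≤ d → ∀ z ∈ ed s (v k) (v (k + 1)), Nr e (AA 2) z)
    (h3 : ∀ k, d ≤ k → k < L → ∀ z ∈ ed s (v k) (v (k + 1)), Nr e (AA 3) z)
    (h3' : ∀ z ∈ ed s (v 0) (v (0 + 1)), Nr e (AA 3) z) :
    ∀ i k, OnS L (mk b c d) i k → ∀ z ∈ ed s (v k) (v (k + 1)), Nr e (AA i) z := by
  intro i k ⟨hk1, hk2⟩
  have c4 : ∀ i : ZMod 4, i = 0 ∨ i = 1 ∨ i = 2 ∨ i = 3 := by decide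
  have v0 : (0 : ZMod 4).val = 0 := rfl
  have v1 : (1 : ZMod 4).val = 1 := rfl
  have v2 : (2 : ZMod 4).val = 2 := rfl
  have v3 : (3 : ZMod 4).val = 3 := rfl
  rcases c4 i with rfl | rfl | rfl | rfl
  · rw [nx, if_neg (by decide), v0] at hk2
    exact h0 k hk2
  · rw [v1] at hk1
    rw [nx, if_neg (by decide), v1] at hk2
    exact h1 k hk1 hk2
  · rw [v2] at hk1
    rw [nx, if_neg (by decide), v2] at hk2
    exact h2 k hk1 hk2
  · rw [v3] at hk1
    rw [nx, if_pos rfl] at hk2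
    have hk3 : k ≤ L := by simpa [mk] using hk2
    rcases eq_or_lt_of_le hk3 with rfl | hk4
    · have e1 : v k = v 0 := by have := hper 0; rwa [zero_add] at this
      have e2 : v (k + 1) = v (0 + 1) := by
        have := hper 1
        rw [show 1 + k = k + 1 by omega] at this
        exact this
      rw [e1, e2]
      exact h3'
    · exact h3 k hk1 hk4

theorem At.neg {η : ℝ} {t : ℕ → ℝ} {p : ℕ} {x : ℝ} (h : At η t p x) :
    At η (fun k => -t k) p (-x) := by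
  obtain ⟨n, hn⟩ := h
  refine ⟨-n, ?_⟩
  rw [show -t p + ((-n : ℤ) : ℝ) - -x = -(t p + n - x) by push_cast; ring, abs_neg]
  exact hn

theorem In.neg {η : ℝ} {t : ℕ → ℝ} {k : ℕ} {α β : ℝ} (h : In η (fun k => -t k) k (-β) (-α)) :
    In η t k α β := by
  obtain ⟨n, h1, h2⟩ := h
  simp only at h1 h2
  exact ⟨-n, by push_cast; linarith, by push_cast; linarith⟩

/-- **POLY** -/
theorem poly : POLY := by
  intro g f h a ha hper e he
  obtain ⟨Ψ, P⟩ := exists_pol h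
  obtain ⟨R, hR0, hR, hRe⟩ := exists_R h
  set D := jordanInterior g with hD
  have hDc : IsCompact (closure D) := h.isCompact
  have a01 : a 0 < a 1 := ha (by norm_num)
  have a12 : a 1 < a 2 := ha (by norm_num)
  have a23 : a 2 < a 3 := ha (by norm_num)
  have a34 : a 3 < a 4 := ha (by norm_num)
  have a40 : a 4 = a 0 + 1 := by have := hper 0; rwa [zero_add] at this
  have am1 : a (-1) = a 3 - 1 := by
    have := hper (-1)
    rw [show (-1 : ℤ) + 4 = 3 by norm_num] at this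
    linarith
  have am2 : a (-2) = a 2 - 1 := by
    have := hper (-2)
    rw [show (-2 : ℤ) + 4 = 2 by norm_num] at this
    linarith
  obtain ⟨η1, hη1, hunif⟩ := P.unif (by linarith : (0:ℝ) < e / 8)
  obtain ⟨κ, hκ0, hκ1, hκη, g0, g1, g2, g3⟩ : ∃ κ : ℝ, 0 < κ ∧ κ ≤ 1 / 200 ∧ 5 * κ ≤ η1 ∧
      a 0 + 8 * κ ≤ a 1 ∧ a 1 + 8 * κ ≤ a 2 ∧ a 2 + 8 * κ ≤ a 3 ∧ a 3 + 8 * κ ≤ a 0 + 1 := by
    obtain ⟨κ, hκ, hk1⟩ : ∃ κ > 0, κ ≤ 1 / 200 ∧ 5 * κ ≤ η1 := ⟨min (1 / 200) (η1 / 5),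
      lt_min (by norm_num) (by linarith), min_le_left _ _, by
        have := min_le_right (1 / 200) (η1 / 5); linarith⟩
    obtain ⟨w, hw, w1, w2, w3, w4⟩ : ∃ w > 0, w ≤ a 1 - a 0 ∧ w ≤ a 2 - a 1 ∧ w ≤ a 3 - a 2 ∧
        w ≤ a 4 - a 3 :=
      ⟨min (min (a 1 - a 0) (a 2 - a 1)) (min (a 3 - a 2) (a 4 - a 3)),
        lt_min (lt_min (by linarith) (by linarith)) (lt_min (by linarith) (by linarith)),
        (min_le_left _ _).trans (min_le_left _ _), (min_le_left _ _).trans (min_le_right _ _),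
        (min_le_right _ _).trans (min_le_left _ _), (min_le_right _ _).trans (min_le_right _ _)⟩
    refine ⟨min κ (w / 8), lt_min hκ (by linarith), (min_le_left _ _).trans hk1.1, ?_, ?_, ?_, ?_,
      ?_⟩
    · have := min_le_left κ (w / 8); linarith
    all_goals
      have := min_le_right κ (w / 8)
      linarith
  obtain ⟨δ1, hδ1, hinv⟩ := P.inv_unif hκ0
  obtain ⟨δ2, hδ2, hdeep⟩ := P.deep (by linarith : 1 - κ < 1) one_pos le_rfl
  obtain ⟨δ, hδ, hδ1', hδ2'⟩ : ∃ δ : ℝ, 0 < δ ∧ δ ≤ δ1 ∧ δ ≤ δ2 :=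
    ⟨min δ1 δ2, lt_min hδ1 hδ2, min_le_left _ _, min_le_right _ _⟩
  have hpt : ∀ x : ℝ, ∃ p ∈ ext g, ‖p - g (Int.fract x)‖ < δ / 2 := fun x =>
    near_ext h ⟨Int.fract_nonneg x, (Int.fract_lt_one x).le⟩ (half_pos hδ)
  choose pp hpp1 hpp2 using hpt
  have kX : ∀ z ∈ ext g, Kp (closure D) R z := by
    intro z hz
    have hf : ((R + 3 : ℝ) : ℂ) ∈ ext g := by
      apply hRe
      rw [Complex.norm_real, Real.norm_eq_abs, abs_of_nonneg (by linarith)]
      linarith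
    obtain ⟨K, h1, h2, h3, h4, h5⟩ := ext_path h hz hf
    exact ⟨K, h1, h2, h3, h4, (ext_disj h).mono_left h5⟩
  -- compact set of points whose cells must be outer
  set X1 : Set ℂ := closedBall 0 (2 * R + 6) ∩ {z | ∀ y ∈ closure D, e ≤ ‖z - y‖} with hX1
  have cX1 : IsCompact X1 := by
    refine (isCompact_closedBall (0:ℂ) (2 * R + 6)).inter_right ?_
    have : {z : ℂ | ∀ y ∈ closure D, e ≤ ‖z - y‖} = ⋂ y ∈ closure D, {z : ℂ | e ≤ ‖z - y‖} := by
      ext z; simp only [mem_setOf_eq, mem_iInter]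
    rw [this]
    exact isClosed_biInter fun y _ => isClosed_le continuous_const (by fun_prop)
  have kX1 : ∀ z ∈ X1, Kp (closure D) R z := by
    rintro z ⟨-, hz2⟩
    rcases ext_or h z with h1 | h1
    · exact kX z h1
    · have := hz2 z h1
      rw [sub_self, norm_zero] at this
      linarith
  set X : Set ℂ := X1 ∪ {pp (a 0), pp (a 1), pp (a 2), pp (a 3)} with hX
  have cX : IsCompact X :=
    cX1.union (by simp : ({pp (a 0), pp (a 1), pp (a 2), pp (a 3)} : Set ℂ).Finite).isCompact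
  have kXX : ∀ z ∈ X, Kp (closure D) R z := by
    rintro z (hz | hz)
    · exact kX1 z hz
    · simp only [mem_insert_iff, mem_singleton_iff] at hz
      rcases hz with rfl | rfl | rfl | rfl
      · exact kX _ (hpp1 _)
      · exact kX _ (hpp1 _)
      · exact kX _ (hpp1 _)
      · exact kX _ (hpp1 _)
  obtain ⟨s1, hs1, hout⟩ := unif_out hDc hR cX kXX
  obtain ⟨s, hs, hss1, hse, hsδ, hsone⟩ : ∃ s : ℝ, 0 < s ∧ s < s1 ∧ 16 * s < e ∧
      4 * s < δ ∧ s ≤ 1 := by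
    refine ⟨min (min s1 (e / 16)) (min (δ / 4) 1) / 2, ?_, ?_, ?_, ?_, ?_⟩
    · have : 0 < min (min s1 (e / 16)) (min (δ / 4) 1) :=
        lt_min (lt_min hs1 (by linarith)) (lt_min (by linarith) one_pos)
      linarith
    all_goals
      have h2 : min (min s1 (e / 16)) (min (δ / 4) 1) ≤ s1 :=
        (min_le_left _ _).trans (min_le_left _ _)
      have h3 : min (min s1 (e / 16)) (min (δ / 4) 1) ≤ e / 16 :=
        (min_le_left _ _).trans (min_le_right _ _)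
      have h4 : min (min s1 (e / 16)) (min (δ / 4) 1) ≤ δ / 4 :=
        (min_le_right _ _).trans (min_le_left _ _)
      have h5 : min (min s1 (e / 16)) (min (δ / 4) 1) ≤ 1 :=
        (min_le_right _ _).trans (min_le_right _ _)
      linarith
  have houtX : ∀ w ∈ X, ∀ q : V, w ∈ sq s q → q ∈ Out (cells s (closure D)) :=
    hout s hs hss1 hsone
  set F0 : Set V := cells s (closure D) with hF0
  have fF0 : F0.Finite := cells_finite hs hDc.isBounded
  have cF0 : ∀ q ∈ F0, ∀ q' ∈ F0, Con F0 q q' := cells_con hs (preconn_closure P) hDc.isBounded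
  set F : Set V := (Out F0)ᶜ with hF
  have fF : F.Finite := out_compl_finite fF0
  have hsubF : F0 ⊆ F := subset_out_compl
  have nF : F.Nonempty :=
    ⟨_, hsubF (cellOf_mem hs (P.mem 0 ⟨le_rfl, zero_le_one⟩ 0))⟩
  have conF : ∀ q ∈ F, ∀ q' ∈ F, Con F q q' := compl_con fF0 cF0
  have conF' : ∀ q ∉ F, ∀ q' ∉ F, Con Fᶜ q q' := by
    intro q hq q' hq'
    rw [hF, notMem_compl_iff] at hq hq'
    rw [hF, compl_compl]
    exact out_con fF0 q hq q' hq'
  obtain ⟨L, v0, cyc0⟩ := SpD331.exists_cyc896 fF nF conF conF'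
  have mkS : ∀ v, Cyc F L v → St g Ψ D κ δ s L v := fun v hv =>
    { P := P, Dc := hDc, κ0 := hκ0, κ1 := hκ1, s0 := hs, s1 := hsone, sδ := hsδ,
      inv := fun r hr r' hr' t ht t' ht' hlt => hinv r hr r' hr' t ht t' ht' (hlt.trans_le hδ1')
      deep := fun r hr t ht z hz => by
        obtain ⟨r', hr', t', ht', rfl⟩ := hdeep r hr t ht z (hz.trans_le hδ2')
        exact P.mem r' ⟨hr'.1, hr'.2.le⟩ t'
      cyc := hv }
  have px : ∀ i : ℤ, i = 0 ∨ i = 1 ∨ i = 2 ∨ i = 3 → pp (a i) ∈ X := by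
    rintro i (rfl | rfl | rfl | rfl) <;> exact Or.inr (by simp)
  have htar : ∀ v, Cyc F L v → ∀ i : ℤ, (i = 0 ∨ i = 1 ∨ i = 2 ∨ i = 3) →
      ∃ m < L, CAt Ψ κ s (Stg.lf v m) (a i) := fun v hv i hi =>
    target (mkS v hv) (hpp2 (a i)) (houtX _ (px i hi))
  have at_of : ∀ v (hv : Cyc F L v) m x, CAt Ψ κ s (Stg.lf v m) x → At κ (mkS v hv).tp m x := by
    intro v hv m x hc
    obtain ⟨h1, h2, h3, h4⟩ := (mkS v hv).rr_tp m
    exact hc _ h1 _ h2 h3 h4
  -- common fields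
  have hcover : ∀ q, (sq s q ∩ closure D).Nonempty → q ∈ F := fun q hq => hsubF hq
  have houter : ∀ q ∈ F, ∀ z ∈ sq s q, Nr e (closure D) z := by
    intro q hq z hz
    by_contra hcon
    apply hq
    by_cases hn : 2 * R + 6 < ‖z‖
    · exact norm_out hs hsone hR hz hn
    · refine houtX z (Or.inl ⟨mem_closedBall_zero_iff.2 (not_lt.1 hn), ?_⟩) q hz
      intro y hy
      by_contra hlt
      push Not at hlt
      exact hcon ⟨y, hy, hlt⟩
  have hlcD : ∀ v, Cyc F L v → ∀ k, (sq s (lc (v k) (v (k + 1))) ∩ closure D).Nonempty :=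
    fun v hv k => (mkS v hv).lf_mem k
  -- rotation
  obtain ⟨m0, hm0, hm0'⟩ := htar v0 cyc0 0 (Or.inl rfl)
  set v1 : ℕ → V := fun m => v0 (m + m0) with hv1
  have cyc1 : Cyc F L v1 := cyc0.rot m0
  obtain ⟨b, hbL, hb⟩ := htar v1 cyc1 1 (by norm_num)
  obtain ⟨c, hcL, hc⟩ := htar v1 cyc1 2 (by norm_num)
  obtain ⟨d, hdL, hd⟩ := htar v1 cyc1 3 (by norm_num)
  have h0 : CAt Ψ κ s (Stg.lf v1 0) (a 0) := by
    have : Stg.lf v1 0 = Stg.lf v0 m0 := by
      show lc (v0 (0 + m0)) (v0 (0 + 1 + m0)) = lc (v0 m0) (v0 (m0 + 1))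
      rw [show 0 + m0 = m0 by omega, show 0 + 1 + m0 = m0 + 1 by omega]
    rw [this]; exact hm0'
  have S1 := mkS v1 cyc1
  have t0 := at_of v1 cyc1 0 _ h0
  have tb := at_of v1 cyc1 b _ hb
  have tc := at_of v1 cyc1 c _ hc
  have td := at_of v1 cyc1 d _ hd
  -- arcs
  set AA : ZMod 4 → Set ℂ := fun i => gp g '' Icc (a (i.val : ℤ)) (a ((i.val : ℤ) + 1)) with hAA
  have w0 : (((0 : ZMod 4).val : ℕ) : ℤ) = 0 := rfl
  have w1 : (((1 : ZMod 4).val : ℕ) : ℤ) = 1 := rfl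
  have w2 : (((2 : ZMod 4).val : ℕ) : ℤ) = 2 := rfl
  have w3 : (((3 : ZMod 4).val : ℕ) : ℤ) = 3 := rfl
  have A0 : AA 0 = gp g '' Icc (a 0) (a 1) := by simp only [hAA, w0]; norm_num
  have A1 : AA 1 = gp g '' Icc (a 1) (a 2) := by simp only [hAA, w1]; norm_num
  have A2 : AA 2 = gp g '' Icc (a 2) (a 3) := by simp only [hAA, w2]; norm_num
  have A3 : AA 3 = gp g '' Icc (a 3) (a 4) := by simp only [hAA, w3]; norm_num
  rcases order4 hκ0 S1.sprop g0 g1 g2 g3 t0 tb tc td hbL hcL hdL with ⟨o1, o2, o3⟩ | ⟨o1, o2, o3⟩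
  · obtain ⟨r0, r1, r2, r3, r4⟩ := runs4 hκ0 S1.sprop g0 g1 g2 g3 t0 tb tc td o1 o2 o3 hdL
    refine ⟨false, s, F, L, v1, mk b c d, hs, by linarith, fF, conF, conF', cyc1, ?_, ?_, ?_, ?_, ?_,
      hcover, houter, hlcD v1 cyc1⟩
    · show 0 < b; exact o1
    · show b < c; exact o2
    · show c < d; exact o3
    · show d < L; exact hdL
    · show ∀ i k, OnS L (mk b c d) i k → ∀ z ∈ ed s (v1 k) (v1 (k + 1)), Nr e (AA i) z
      refine sides_of cyc1.per ?_ ?_ ?_ ?_ ?_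
      · intro k hk; rw [A0]
        exact near_side S1 hκη hse hunif a01.le (r0 k hk)
      · intro k hk hk'; rw [A1]
        exact near_side S1 hκη hse hunif a12.le (r1 k hk hk')
      · intro k hk hk'; rw [A2]
        exact near_side S1 hκη hse hunif a23.le (r2 k hk hk')
      · intro k hk hk'; rw [A3, a40]
        exact near_side S1 hκη hse hunif (by linarith) (r3 k hk hk')
      · rw [A3, a40]
        exact near_side S1 hκη hse hunif (by linarith) r4
  · set v2 : ℕ → V := fun m => v1 (m + c) with hv2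
    have cyc2 : Cyc F L v2 := cyc1.rot c
    have S2 := mkS v2 cyc2
    have hlf : ∀ k, Stg.lf v2 k = Stg.lf v1 (k + c) := by
      intro k
      show lc (v1 (k + c)) (v1 (k + 1 + c)) = lc (v1 (k + c)) (v1 (k + c + 1))
      rw [show k + 1 + c = k + c + 1 by omega]
    have hlp : ∀ k, Stg.lf v1 (k + L) = Stg.lf v1 k := by
      intro k
      show lc (v1 (k + L)) (v1 (k + L + 1)) = lc (v1 k) (v1 (k + 1))
      rw [cyc1.per, show k + L + 1 = k + 1 + L by omega, cyc1.per]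
    have u0 : At κ S2.tp 0 (a 2) := at_of v2 cyc2 0 _ (by rw [hlf, zero_add]; exact hc)
    have u1 : At κ S2.tp (b - c) (a 1) := at_of v2 cyc2 _ _ (by
      rw [hlf, show b - c + c = b by omega]; exact hb)
    have u2 : At κ S2.tp (L - c) (a 0) := at_of v2 cyc2 _ _ (by
      rw [hlf, show L - c + c = 0 + L by omega, hlp]; exact h0)
    have u3 : At κ S2.tp (L + d - c) (a 3) := at_of v2 cyc2 _ _ (by
      rw [hlf, show L + d - c + c = d + L by omega, hlp]; exact hd)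
    have u3' : At κ (fun k => -S2.tp k) (L + d - c) (1 - a 3) := by
      have := u3.neg.shift
      rwa [show -a 3 + 1 = 1 - a 3 by ring] at this
    obtain ⟨r0, r1, r2, r3, r4⟩ := runs4 hκ0 (sprop_neg S2.sprop) (a0 := -a 2) (a1 := -a 1)
      (a2 := -a 0) (a3 := 1 - a 3) (by linarith) (by linarith) (by linarith) (by linarith)
      u0.neg u1.neg u2.neg u3' (by omega) (by omega) (by omega) (by omega)
    refine ⟨true, s, F, L, v2, mk (b - c) (L - c) (L + d - c), hs, by linarith, fF, conF, conF',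
      cyc2, ?_, ?_, ?_, ?_, ?_, hcover, houter, hlcD v2 cyc2⟩
    · show 0 < b - c; omega
    · show b - c < L - c; omega
    · show L - c < L + d - c; omega
    · show L + d - c < L; omega
    · have e0 : rvA true AA 0 = gp g '' Icc (a 1) (a 2) := by
        rw [← A1]; rfl
      have e1 : rvA true AA 1 = gp g '' Icc (a 0) (a 1) := by
        rw [← A0]; rfl
      have z3 : gp g '' Icc (a 3 - 1) (a 0) = gp g '' Icc (a 3) (a 4) := by
        have := arcZ_sub (g := g) hper 3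
        unfold arcZ at this
        norm_num at this
        rw [am1] at this
        exact this
      have z2 : gp g '' Icc (a 2 - 1) (a 3 - 1) = gp g '' Icc (a 2) (a 3) := by
        have := arcZ_sub (g := g) hper 2
        unfold arcZ at this
        norm_num at this
        rw [am1, am2] at this
        exact this
      have e2 : rvA true AA 2 = gp g '' Icc (a 3 - 1) (a 0) := by
        rw [z3, ← A3]; rfl
      have e3 : rvA true AA 3 = gp g '' Icc (a 2 - 1) (a 3 - 1) := by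
        rw [z2, ← A2]; rfl
      show ∀ i k, OnS L (mk (b - c) (L - c) (L + d - c)) i k →
        ∀ z ∈ ed s (v2 k) (v2 (k + 1)), Nr e (rvA true AA i) z
      refine sides_of cyc2.per ?_ ?_ ?_ ?_ ?_
      · intro k hk; rw [e0]
        exact near_side S2 hκη hse hunif a12.le (In.neg (r0 k hk))
      · intro k hk hk'; rw [e1]
        exact near_side S2 hκη hse hunif a01.le (In.neg (r1 k hk hk'))
      · intro k hk hk'; rw [e2]
        refine near_side S2 hκη hse hunif (by linarith) (In.neg ?_)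
        rw [show -(a 3 - 1) = 1 - a 3 by ring]
        exact r2 k hk hk'
      · intro k hk hk'; rw [e3]
        refine near_side S2 hκη hse hunif (by linarith) (In.neg ?_)
        rw [show -(a 3 - 1) = 1 - a 3 by ring, show -(a 2 - 1) = -a 2 + 1 by ring]
        exact r3 k hk hk'
      · rw [e3]
        refine near_side S2 hκη hse hunif (by linarith) (In.neg ?_)
        rw [show -(a 3 - 1) = 1 - a 3 by ring, show -(a 2 - 1) = -a 2 + 1 by ring]
        exact r4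

end Crest.Agent.R143.Polyx416
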