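import Crest.Agent.R143.TentE_359
import Crest.Agent.R143.Poly3_416_Mg
import Crest.Agent.R143.GeoSeq3_416
import Crest.Agent.R143.Ad2_422

-- ▼ part R143/NullF_422
section

/-!
# Row 143 (S0194), block D: configurations with null frontier (helper422)

* `fr_cells`, `fr_cone`, `fr_thick` : frontiers of unions of cells, cones, thickenings are null
* `tentP` : TENT with null frontiers
-/

set_option autoImplicit false

noncomputable section

namespace Crest.Agent.R143.NullFx422

open Set Metric MeasureTheory Filter Topology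
open Crest.Agent.R158 Crest.Agent.R158.Sp896 Crest.Agent.R158.Tj656 Crest.Agent.R158.Tg331
open Crest.Agent.R143.Tentx359 Crest.Agent.R143.TentAx951 Crest.Agent.R143.TentBx951
open Crest.Agent.R143.Tenx416 Crest.Agent.R143.TentDx359

/-! ### lines -/

/-- real linear form -/
def lf (u w : ℝ) : ℂ →ₗ[ℝ] ℝ := u • Complex.reLm + w • Complex.imLm

theorem lf_apply (u w : ℝ) (z : ℂ) : lf u w z = u * z.re + w * z.im := by
  simp [lf]

theorem line_null {u w : ℝ} (h : u ≠ 0 ∨ w ≠ 0) (t : ℝ) :
    volume {z : ℂ | u * z.re + w * z.im = t} = 0 := by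
  by_cases hne : ({z : ℂ | u * z.re + w * z.im = t} : Set ℂ).Nonempty
  · obtain ⟨z0, hz0⟩ := hne
    set A : AffineSubspace ℝ ℂ := AffineSubspace.mk' z0 (LinearMap.ker (lf u w)) with hA
    have e : {z : ℂ | u * z.re + w * z.im = t} = (A : Set ℂ) := by
      ext z
      rw [hA, SetLike.mem_coe, AffineSubspace.mem_mk', vsub_eq_sub, LinearMap.mem_ker, map_sub,
        lf_apply, lf_apply]
      have h0 : u * z0.re + w * z0.im = t := hz0
      show u * z.re + w * z.im = t ↔ _
      rw [h0, sub_eq_zero]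
    rw [e]
    refine Measure.addHaar_affineSubspace volume A fun htop => ?_
    have h1 : ∀ z : ℂ, z ∈ A := fun z => by rw [htop]; exact AffineSubspace.mem_top ℝ ℂ z
    have h2 : ∀ z : ℂ, u * z.re + w * z.im = t := fun z => by
      have := h1 z
      rw [← SetLike.mem_coe, ← e] at this
      exact this
    have h3 := h2 0
    have h4 := h2 1
    have h5 := h2 Complex.I
    simp at h3 h4 h5
    rcases h with h | h
    · exact h (by rw [h4, ← h3])
    · exact h (by rw [h5, ← h3])
  · rw [Set.not_nonempty_iff_eq_empty.1 hne]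
    exact measure_empty

/-! ### cells -/

theorem fr_cells {s : ℝ} {F : Set V} (hcl : IsClosed {z | ∃ q ∈ F, z ∈ sq s q}) :
    volume (frontier {z | ∃ q ∈ F, z ∈ sq s q}) = 0 := by
  have hsub : frontier {z | ∃ q ∈ F, z ∈ sq s q} ⊆
      (⋃ n : ℤ, {z : ℂ | 1 * z.re + 0 * z.im = s * n}) ∪
      ⋃ n : ℤ, {z : ℂ | 0 * z.re + 1 * z.im = s * n} := by
    intro z hz
    rw [hcl.frontier_eq] at hz
    obtain ⟨⟨q, hq, h1, h2, h3, h4⟩, hni⟩ := hz
    by_contra hcon
    simp only [mem_union, mem_iUnion, mem_ofPred_eq, one_mul, zero_mul, add_zero, zero_add,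
      not_or, not_exists] at hcon
    obtain ⟨c1, c2⟩ := hcon
    apply hni
    rw [mem_interior]
    refine ⟨{w : ℂ | s * q.1 < w.re ∧ w.re < s * (q.1 + 1) ∧ s * q.2 < w.im ∧
      w.im < s * (q.2 + 1)}, ?_, ?_, ?_⟩
    · rintro w ⟨k1, k2, k3, k4⟩
      exact ⟨q, hq, k1.le, k2.le, k3.le, k4.le⟩
    · exact (isOpen_lt continuous_const Complex.continuous_re).inter
        ((isOpen_lt Complex.continuous_re continuous_const).inter
          ((isOpen_lt continuous_const Complex.continuous_im).inter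
            (isOpen_lt Complex.continuous_im continuous_const)))
    · have e1 := c1 q.1
      have e2 := c1 (q.1 + 1)
      have e3 := c2 q.2
      have e4 := c2 (q.2 + 1)
      push_cast at e2 e4
      exact ⟨lt_of_le_of_ne h1 fun h => e1 h.symm, lt_of_le_of_ne h2 e2,
        lt_of_le_of_ne h3 fun h => e3 h.symm, lt_of_le_of_ne h4 e4⟩
  refine measure_mono_null hsub (measure_union_null ?_ ?_)
  · exact measure_iUnion_null fun n => line_null (Or.inl one_ne_zero) _
  · exact measure_iUnion_null fun n => line_null (Or.inr one_ne_zero) _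

theorem Pg_eq (s : ℝ) (F : Set V) : Pg s F = {z | ∃ q ∈ F, z ∈ sq s q} := by
  ext z
  simp [Pg]

/-! ### cones -/

theorem fr_le_null {f g : ℂ → ℝ} (hf : Continuous f) (hg : Continuous g)
    (h : volume {z | f z = g z} = 0) : volume (frontier {z | f z ≤ g z}) = 0 :=
  measure_mono_null (frontier_le_subset_eq hf hg) h

theorem fr_cone {σ : ℝ} (hσ : 0 < σ) (c : V) {M : ℤ} (hM : 0 ≤ M) (k : ZMod 4) :
    volume (frontier (cone σ c M k)) = 0 := by
  have e : cone σ c M k = {z | LL σ M / 2 ≤ ‖z - cen σ c‖} ∩ ({z | 0 ≤ aa σ c k z} ∩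
      {z | |bb σ c k z| ≤ σ / LL σ M * ‖z - cen σ c‖}) := by
    ext z
    rw [mem_cone' hσ hM]
    rfl
  have hL := LL_pos hσ hM
  have n1 : volume (frontier {z : ℂ | LL σ M / 2 ≤ ‖z - cen σ c‖}) = 0 := by
    apply fr_le_null continuous_const (by fun_prop)
    have : {z : ℂ | LL σ M / 2 = ‖z - cen σ c‖} = sphere (cen σ c) (LL σ M / 2) := by
      ext z
      rw [mem_sphere_iff_norm]
      exact eq_comm
    rw [this]
    exact Measure.addHaar_sphere_of_ne_zero _ _ (by positivity)
  -- the directions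
  have hd : ((dir k.val).1 : ℝ) ^ 2 + ((dir k.val).2 : ℝ) ^ 2 = 1 := by
    unfold dir
    rcases k_cases k with ⟨-, h⟩ | ⟨-, h⟩ | ⟨-, h⟩ | ⟨-, h⟩ <;> rw [h] <;> norm_num
  have hlin : ∀ α β t : ℝ, (α ≠ 0 ∨ β ≠ 0) →
      volume {z | α * aa σ c k z + β * bb σ c k z = t} = 0 := by
    intro α β t hab
    set p : ℝ := (((dir k.val).1 : ℤ) : ℝ) with hp
    set r : ℝ := (((dir k.val).2 : ℤ) : ℝ) with hr
    have hrot1 : (((rot (dir k.val)).1 : ℤ) : ℝ) = -r := by
      rw [hr]; unfold rot; push_cast; ring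
    have hrot2 : (((rot (dir k.val)).2 : ℤ) : ℝ) = p := by
      rw [hp]; unfold rot; push_cast; ring
    have e1 : {z | α * aa σ c k z + β * bb σ c k z = t} =
        {z : ℂ | (α * p - β * r) * z.re + (α * r + β * p) * z.im =
          t + (α * p - β * r) * (cen σ c).re + (α * r + β * p) * (cen σ c).im} := by
      ext z
      simp only [mem_ofPred_eq]
      unfold aa bb
      rw [hrot1, hrot2]
      constructor <;> intro h <;> linarith
    rw [e1]
    apply line_null
    by_contra hcon
    rw [not_or, not_not, not_not] at hcon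
    obtain ⟨h1, h2⟩ := hcon
    have h3 : α ^ 2 + β ^ 2 = 0 := by
      have : (α ^ 2 + β ^ 2) * (p ^ 2 + r ^ 2) = (α * p - β * r) ^ 2 + (α * r + β * p) ^ 2 := by
        ring
      rw [hd, mul_one] at this
      rw [this, h1, h2]; ring
    rcases hab with h | h
    · exact h (by nlinarith [sq_nonneg α, sq_nonneg β])
    · exact h (by nlinarith [sq_nonneg α, sq_nonneg β])
  have n2 : volume (frontier {z | 0 ≤ aa σ c k z}) = 0 := by
    apply fr_le_null continuous_const (continuous_aa σ c k)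
    have := hlin 1 0 0 (Or.inl one_ne_zero)
    refine measure_mono_null (fun z hz => ?_) this
    have hz' : (0 : ℝ) = aa σ c k z := hz
    show 1 * aa σ c k z + 0 * bb σ c k z = 0
    linarith
  have n3 : volume (frontier {z | |bb σ c k z| ≤ σ / LL σ M * ‖z - cen σ c‖}) = 0 := by
    apply fr_le_null (continuous_bb σ c k).abs (by fun_prop)
    set κ := σ / LL σ M with hκ
    have hκ1 : κ ≤ 1 / 16 := ratio hσ hM
    have hκ0 : 0 < κ := div_pos hσ hL
    set ρ := κ / Real.sqrt (1 - κ ^ 2) with hρ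
    have h1 : 0 < 1 - κ ^ 2 := by nlinarith
    have hs : 0 < Real.sqrt (1 - κ ^ 2) := Real.sqrt_pos.2 h1
    have hρ2 : ρ ^ 2 * (1 - κ ^ 2) = κ ^ 2 := by
      rw [hρ, div_pow, Real.sq_sqrt h1.le]
      field_simp
    refine measure_mono_null (fun z hz => ?_) (measure_union_null
      (hlin (-ρ) 1 0 (Or.inr one_ne_zero)) (hlin ρ 1 0 (Or.inr one_ne_zero)))
    have hz' : |bb σ c k z| = κ * ‖z - cen σ c‖ := hz
    have h2 : bb σ c k z ^ 2 = κ ^ 2 * (aa σ c k z ^ 2 + bb σ c k z ^ 2) := by
      rw [← norm_sq, ← sq_abs (bb σ c k z), hz']; ring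
    have h3 : (bb σ c k z - ρ * aa σ c k z) * (bb σ c k z + ρ * aa σ c k z) = 0 := by
      have : (1 - κ ^ 2) * ((bb σ c k z - ρ * aa σ c k z) * (bb σ c k z + ρ * aa σ c k z)) = 0 := by
        have e1 : (1 - κ ^ 2) * ((bb σ c k z - ρ * aa σ c k z) * (bb σ c k z + ρ * aa σ c k z)) =
          (1 - κ ^ 2) * bb σ c k z ^ 2 - ρ ^ 2 * (1 - κ ^ 2) * aa σ c k z ^ 2 := by ring
        rw [e1, hρ2]
        linarith
      exact (mul_eq_zero.1 this).resolve_left h1.ne'
    rcases mul_eq_zero.1 h3 with h4 | h4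
    · left
      show -ρ * aa σ c k z + 1 * bb σ c k z = 0
      linarith
    · right
      show ρ * aa σ c k z + 1 * bb σ c k z = 0
      linarith
  rw [e]
  refine measure_mono_null (frontier_inter_subset _ _) (measure_union_null
    (measure_mono_null inter_subset_left n1) (measure_mono_null inter_subset_right ?_))
  exact measure_mono_null (frontier_inter_subset _ _) (measure_union_null
    (measure_mono_null inter_subset_left n2) (measure_mono_null inter_subset_right n3))

theorem fr_TT {σ : ℝ} (hσ : 0 < σ) (U : ℕ → ℕ → V) (k : ZMod 4) :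
    volume (frontier (TT σ U k)) = 0 := by
  have e : TT σ U k = {z | ∃ q ∈ {q : V | ∃ j, q = U k.val (j + 1)}, z ∈ sq σ q} := by
    ext z
    constructor
    · rintro ⟨j, h⟩
      exact ⟨_, ⟨j, rfl⟩, h⟩
    · rintro ⟨q, ⟨j, rfl⟩, h⟩
      exact ⟨j, h⟩
  have hc := isClosed_TT hσ U k
  rw [e] at hc ⊢
  exact fr_cells hc

theorem fr_BB {σ : ℝ} (hσ : 0 < σ) (U : ℕ → ℕ → V) (c : V) {M : ℤ} (hM : 0 ≤ M) (k : ZMod 4) :
    volume (frontier (BB σ U c M k)) = 0 := by
  unfold BB
  refine measure_mono_null (frontier_union_subset _ _) (measure_union_null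
    (measure_mono_null inter_subset_left (fr_TT hσ U k))
    (measure_mono_null inter_subset_right (fr_cone hσ c hM k)))

/-! ### thickenings -/

theorem fr_thick {A : Set ℂ} (hA : IsCompact A) {e : ℝ} (he : 0 < e) :
    volume (frontier (thickening e A)) = 0 := by
  set S := frontier (thickening e A) with hS
  have hopen : IsOpen (thickening e A) := isOpen_thickening
  have hSd : Disjoint S (thickening e A) := by
    rw [hS, hopen.frontier_eq]
    exact disjoint_sdiff_left
  have hae := IsUnifLocDoublingMeasure.ae_tendsto_measure_inter_div (volume : Measure ℂ) S 1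
  have hkey : ∀ᵐ x ∂(volume.restrict S), x ∉ S := by
    filter_upwards [hae] with x hx hxS
    -- a nearest point
    have hx1 : infDist x A = e := by
      have h1 := frontier_thickening_subset A hxS
      have hne : A.Nonempty := by
        by_contra hcon
        rw [Set.not_nonempty_iff_eq_empty] at hcon
        rw [hS, hcon, thickening_empty, frontier_empty] at hxS
        exact hxS
      have h2 : Metric.infEDist x A = ENNReal.ofReal e := h1
      unfold infDist
      rw [h2, ENNReal.toReal_ofReal he.le]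
    have hne : A.Nonempty := by
      by_contra hcon
      rw [Set.not_nonempty_iff_eq_empty] at hcon
      rw [hcon, infDist_empty] at hx1
      exact he.ne hx1
    obtain ⟨a, ha, hxa⟩ := hA.exists_infDist_eq_dist hne x
    rw [hx1] at hxa
    -- balls touching `x` from inside
    set δ : ℕ → ℝ := fun n => e / (n + 1) with hδ
    set w : ℕ → ℂ := fun n => x + ((1 / ((n : ℝ) + 1) : ℝ) : ℂ) * (a - x) with hw
    have hδp : ∀ n, 0 < δ n := fun n => by
      rw [hδ]; positivity
    have hδlim : Tendsto δ atTop (𝓝[>] 0) := by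
      rw [tendsto_nhdsWithin_iff]
      refine ⟨?_, Eventually.of_forall hδp⟩
      have := tendsto_one_div_add_atTop_nhds_zero_nat.const_mul e
      simpa [hδ, div_eq_mul_inv] using this
    have hna : ‖a - x‖ = e := by
      rw [← dist_eq_norm, dist_comm, ← hxa]
    have hwx : ∀ n, dist x (w n) = δ n := fun n => by
      rw [dist_comm, dist_eq_norm, hw]
      simp only [add_sub_cancel_left]
      rw [norm_mul, Complex.norm_real, Real.norm_eq_abs, abs_of_pos (by positivity), hna, hδ]
      ring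
    have hwa : ∀ n, dist (w n) a = e - δ n := fun n => by
      rw [dist_eq_norm, hw]
      have e1 : x + ((1 / ((n : ℝ) + 1) : ℝ) : ℂ) * (a - x) - a =
          ((1 / ((n : ℝ) + 1) - 1 : ℝ) : ℂ) * (a - x) := by push_cast; ring
      simp only [e1]
      have h1 : 1 / ((n : ℝ) + 1) ≤ 1 := by
        rw [div_le_one (by positivity)]
        linarith [Nat.cast_nonneg (α := ℝ) n]
      rw [norm_mul, Complex.norm_real, Real.norm_eq_abs, abs_of_nonpos (by linarith), hna, hδ]
      ring
    have hlim := hx w δ hδlim (Eventually.of_forall fun n => by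
      rw [mem_closedBall, one_mul]
      exact (hwx n).le)
    have hz : ∀ n, volume (S ∩ closedBall (w n) (δ n)) = 0 := by
      intro n
      refine measure_mono_null (t := sphere (w n) (δ n)) ?_
        (Measure.addHaar_sphere_of_ne_zero _ _ (hδp n).ne')
      rintro y ⟨hyS, hyb⟩
      rw [mem_closedBall] at hyb
      rw [mem_sphere]
      by_contra hne'
      have hlt : dist y (w n) < δ n := lt_of_le_of_ne hyb hne'
      have h1 : y ∈ thickening e A := by
        refine mem_thickening_iff.2 ⟨a, ha, ?_⟩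
        have := dist_triangle y (w n) a
        rw [hwa n] at this
        linarith
      exact disjoint_left.1 hSd hyS h1
    have h0 : Tendsto (fun n => volume (S ∩ closedBall (w n) (δ n)) /
        volume (closedBall (w n) (δ n))) atTop (𝓝 0) := by
      simp_rw [hz, ENNReal.zero_div]
      exact tendsto_const_nhds
    exact zero_ne_one (tendsto_nhds_unique h0 hlim)
  have h1 : (volume.restrict S) S = 0 := by
    rw [ae_iff] at hkey
    simpa using hkey
  rwa [Measure.restrict_apply_self] at h1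

/-! ### TENT -/

/-- TENT with null frontiers -/
def TENTP : Prop := ∀ (s : ℝ) (F : Set V) (N : ℕ) (v : ℕ → V) (m : ℕ → ℕ), 0 < s → F.Finite →
  (∀ q ∈ F, ∀ q' ∈ F, Con F q q') → (∀ q ∉ F, ∀ q' ∉ F, Con Fᶜ q q') → Cyc F N v →
  m 0 < m 1 → m 1 < m 2 → m 2 < m 3 → m 3 < N →
  ∃ (C : Cfgx416.Cfg 4) (δ κ : ℝ) (B : ZMod 4 → Set ℂ), Ten s F N v m C δ κ B ∧
    ∀ k, volume (frontier (B k)) = 0

theorem tentP : TENTP := by
  intro s F N v m hs hF h1 h2 hv m01 m12 m23 m3N
  obtain ⟨c, M, U, H⟩ := exFine F N v m hF h1 h2 hv m01 m12 m23 m3N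
  have hσ : 0 < s / 81 := by positivity
  have e81 : s / (2 * ((40 : ℕ) : ℝ) + 1) = s / 81 := by norm_num
  have hPg : Pg (s / 81) (ref 40 F) = Pg s F := by
    rw [← e81]
    exact Pg_ref 40 F hs
  exact ⟨CC (s / 81) (ref 40 F) (vref 40 v) (mref 40 m) c M U, s / 81, s / 81 / 4,
    BB (s / 81) U c M,
    { ok := CC_ok H hσ
      kpos := by positivity
      ks := by linarith
      bd := by
        intro z hz
        rw [mem_closedBall, dist_eq_norm]
        rw [← hPg] at hz
        exact Pg_norm H hσ hz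
      Bc := fun k => isClosed_BB hσ U c (M_nonneg H) k
      body := by rw [body_eq H hσ, hPg]
      mth := fun k w hw x hx hd => mth hs hv H hw hx hd
      nb := TentPx951.f_nb H hs
      side := TentPx951.f_side H hs hv m01 m12 m23 m3N
      near := TentPx951.f_near H hs hv m01 m12 m23 m3N
      tt := fun j k hjk y hy w hw => tt H hσ hjk hy hw
      tr := fun k y hy w hd => by
        rw [← hPg]
        exact tr H hσ hy hd
      tc := fun k => tc k
      mouth := TentPx951.f_mouth H hs hv }, fun k => fr_BB hσ U c (M_nonneg H) k⟩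

/-- the polygon has null frontier -/
theorem fr_Pg {s : ℝ} {F : Set V} (hF : F.Finite) : volume (frontier (Pg s F)) = 0 := by
  rw [Pg_eq]
  apply fr_cells
  rw [← Pg_eq]
  exact hF.isClosed_biUnion fun q _ => isClosed_sq s q

end Crest.Agent.R143.NullFx422
end
end

-- ▼ part R143/SwlP_422
section

/-!
# Row 143 (S0194), block D: SWL with null frontiers (helper422)

* `GEOP` : GEO with `volume (frontier C.out) = 0`
* `swlP` : copy of 922's `swl_proof` with this output
* `geoP` : GEOP
-/

set_option autoImplicit false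
set_option linter.all false

noncomputable section

open scoped Classical Topology
open Set Filter Metric MeasureTheory

namespace Crest.Agent.R143.SwlPx422

open Crest.Agent.R158.Sp896 Crest.Agent.R158.Jt785
open Crest.ProbabilityR.Percolation
open Crest.Agent.R143.Cfgx416 Crest.Agent.R143.Tenx416 Crest.Agent.R143.Swlx922
  Crest.Agent.R143.Swl2x922 Crest.Agent.R143.Swl3x922 Crest.Agent.R143.NullFx422

variable {g : ℝ → ℂ} {f : ℂ → ℂ}

/-- GEO with null frontier of the outside -/
def GEOP : Prop := ∀ (g : ℝ → ℂ) (f : ℂ → ℂ), Crest.Agent.R158.Jt785.Unif g f →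
  ∀ (D : Set ℂ) (A : ZMod 4 → Set ℂ) (m : ZMod 4 → ℂ),
  D = Crest.ProbabilityR.Percolation.jordanInterior g →
  (∀ i : ZMod 4, A i = Crest.Agent.R158.Sp896.arc g ((i.val : ℝ) / 4) (((i.val : ℝ) + 1) / 4)) →
  (∀ i : ZMod 4, m i = g ((i.val : ℝ) / 4)) →
  ∃ md : ℝ → ℝ, (∀ s > 0, 0 < md s) ∧ ∀ (T : Set (ZMod 4)), T = {0, 2} ∨ T = {1, 3} →
    ∀ (e : ℝ), 0 < e → ∀ K : Set ℂ, IsCompact K → K ⊆ D →
    ∃ (rv : Bool) (C : Cfg 4) (δ κ : ℝ) (G : Set ℂ) (B : ZMod 4 → Set ℂ),
      Mac D (rvA rv A) (rvm rv m) (rvT rv T) md e K C δ κ G B ∧ volume (frontier C.out) = 0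

/-- the frontier after swallowing -/
theorem fr_sw {s : ℝ} {F : Set V} {N : ℕ} {v : ℕ → V} {m : ℕ → ℕ} {C : Cfg 4} {δ κ e1 : ℝ}
    {B A : ZMod 4 → Set ℂ} {T : Set (ZMod 4)} (h : Ten s F N v m C δ κ B) (hF : F.Finite)
    (hB : ∀ k, volume (frontier (B k)) = 0) (hA : ∀ i, IsCompact (A i)) (he : 0 < e1) :
    volume (frontier (Csw C A T (Pg s F) e1).out) = 0 := by
  have h1 : volume (frontier C.out) = 0 := by
    rw [← frontier_compl, h.body]
    refine measure_mono_null (frontier_union_subset _ _) (measure_union_null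
      (measure_mono_null inter_subset_left (fr_Pg hF)) (measure_mono_null inter_subset_right ?_))
    have h2 : frontier (⋃ k, B k) ⊆ ⋃ k, frontier (B k) := by
      intro z hz
      rw [(isClosed_iUnion_of_finite h.Bc).frontier_eq] at hz
      obtain ⟨hz1, hz2⟩ := hz
      obtain ⟨k, hk⟩ := mem_iUnion.1 hz1
      refine mem_iUnion.2 ⟨k, ?_⟩
      rw [(h.Bc k).frontier_eq]
      exact ⟨hk, fun h3 => hz2 (interior_mono (subset_iUnion B k) h3)⟩
    exact measure_mono_null h2 (measure_iUnion_null hB)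
  have e : (Csw C A T (Pg s F) e1).out = C.out ∪ ⋃ i ∈ T, (Pg s F ∩ thickening e1 (A i)) := by
    ext z
    rw [mem_out_sw]
    simp only [mem_union, mem_iUnion, mem_inter_iff, exists_prop]
  rw [e]
  refine measure_mono_null (frontier_union_subset _ _) (measure_union_null
    (measure_mono_null inter_subset_left h1) (measure_mono_null inter_subset_right ?_))
  have hfin : ∀ (T' : Finset (ZMod 4)), volume (frontier (⋃ i ∈ T', (Pg s F ∩
      thickening e1 (A i)))) = 0 := by
    intro T'
    induction T' using Finset.induction_on with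
    | empty => simp
    | insert i T' _ ih =>
      rw [Finset.set_biUnion_insert]
      refine measure_mono_null (frontier_union_subset _ _) (measure_union_null
        (measure_mono_null inter_subset_left ?_) (measure_mono_null inter_subset_right ih))
      exact measure_mono_null (frontier_inter_subset _ _) (measure_union_null
        (measure_mono_null inter_subset_left (fr_Pg hF))
        (measure_mono_null inter_subset_right (fr_thick (hA i) he)))
  have e2 : (⋃ i ∈ T, (Pg s F ∩ thickening e1 (A i))) =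
      ⋃ i ∈ (Finset.univ.filter fun i => i ∈ T), (Pg s F ∩ thickening e1 (A i)) := by
    simp
  rw [e2]
  exact hfin _

/-- **leaf SWL + LINK**, with null frontier -/
theorem swlP : POLY → TENTP → GEOP := by
  intro hPoly hTent g f h D A m hD hA hm
  subst hD
  have hAz : A = Az g := funext fun i => hA i
  have hmz : m = fun k : ZMod 4 => g ((k.val : ℝ) / 4) := funext fun i => hm i
  subst hAz
  subst hmz
  have hj := h.jc
  obtain ⟨md, hmd, hlink⟩ := Linkx606.link h
  refine ⟨md, hmd, fun T hT e he K hK hKD => ?_⟩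
  obtain ⟨r1, hr1, hl⟩ := hlink K hK hKD
  have hAlt := alt_of hT
  obtain ⟨η, h0, h1, hη⟩ := gp_unif hj (r := min (e / 8) r1) (by positivity)
  set p : ZMod 4 → ℂ := fun k => gp g (aa T η (k.val : ℤ)) with hp
  set AU : Set ℂ := ⋃ i ∈ T, Az g i with hAU
  have hAUc : IsClosed AU := Set.Finite.isClosed_biUnion (Set.toFinite T) fun i _ =>
    (isCompact_Az hj i).isClosed
  have hAtr : ∀ i, Az g i ⊆ curveTrace g := by
    rintro i _ ⟨t, ht, rfl⟩
    have := val_le i
    exact ⟨t, ⟨le_trans (by positivity) ht.1, ht.2.trans (by linarith)⟩, rfl⟩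
  have hAUs : AU ⊆ curveTrace g := iUnion₂_subset fun i _ => hAtr i
  have hpAU : ∀ k, p k ∉ AU := by
    intro k hk
    obtain ⟨i, hi, hk⟩ := mem_iUnion₂.1 hk
    exact mark_notin hj hAlt h0 h1 k i hi hk
  have hrp : ∀ (b : Bool) k, rvm b p k ∉ AU := by
    intro b k
    cases b with
    | false => exact hpAU k
    | true => exact hpAU (2 - k)
  choose κ0 hκ0 δ2 hδ2 hL using fun b : Bool => hl AU (rvm b p) hAUc hAUs (hrp b)
  obtain ⟨κm, hκm, hκm'⟩ := fin_pos (ι := Bool) (Q := fun b r => r ≤ κ0 b)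
    (fun b a c _ hac hc => hac.trans hc) (fun b => ⟨κ0 b, hκ0 b, le_rfl⟩)
  obtain ⟨δm, hδm, hδm'⟩ := fin_pos (ι := Bool) (Q := fun b r => r ≤ δ2 b)
    (fun b a c _ hac hc => hac.trans hc) (fun b => ⟨δ2 b, hδ2 b, le_rfl⟩)
  obtain ⟨e1, ρ, he1, hew, hρ, hArs, hmark⟩ := exists_ars h hAlt he h0 h1
    (fun t t' ht => (hη t t' ht).trans_le (min_le_left _ _)) (d := δm / 4) (w0 := κm / 2)
    (by positivity) (by positivity)
  set e0 := min (ρ / 8) (δm / 8) with he0
  have he0p : 0 < e0 := by positivity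
  have g1 : e0 ≤ ρ / 8 := min_le_left _ _
  have g2 : e0 ≤ δm / 8 := min_le_right _ _
  obtain ⟨rv, s, F, N, v, mm, hP⟩ := hPoly g f h (aa T η) (aa_mono hAlt h0 h1)
    (fun k => by have := aa_per (T := T) (η := η) k 1; simpa using this) e0 he0p
  obtain ⟨C, δ, κt, B, hTen, hBn⟩ := hTent s F N v mm hP.s_pos hP.fin hP.con hP.con' hP.cyc hP.m01
    hP.m12 hP.m23 hP.m3N
  have hArs' := hArs.rv rv
  have hP' : Pol4 (jordanInterior g) (rvA rv (AAz g T η)) e0 s F N v mm := hP
  have h8 : 8 * e0 ≤ ρ := by linarith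
  obtain ⟨κ1, hκ1, hκ1t, hκ1e, hκ1b, hcore⟩ := core hArs' hP' h8 hTen
  choose q hq1 hq2 Tn κ3 hκ3 t1 t2 t3 t4 t5 t6 using fun k => tube hArs' hP' h8 hTen k
  obtain ⟨κn, hκn, hκn'⟩ := fin_pos (ι := ZMod 4) (Q := fun k r => r ≤ κ3 k)
    (fun b a c _ hac hc => hac.trans hc) (fun k => ⟨κ3 k, hκ3 k, le_rfl⟩)
  set κ := min κ1 κn with hκ
  have hκp : 0 < κ := by positivity
  have k1 : κ ≤ κ1 := min_le_left _ _
  have k2 : κ ≤ κn := min_le_right _ _
  have hM := hcore κ hκp k1
  have hs := hP'.s_pos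
  have hse := hP'.s_lt
  obtain ⟨lk, lkm⟩ := hL rv (Csw C (rvA rv (Az g)) (rvT rv T) (Pg s F) e1) κ e (Pg s F)
    (Bp B s F) (rvm rv fun k : ZMod 4 => g ((k.val : ℝ) / 4)) q Tn he (by
      intro k
      have key : ∀ j : ZMod 4, g ((j.val : ℝ) / 4) ∈ curveTrace g := fun j => by
        have := val_le j
        exact ⟨_, ⟨by positivity, by linarith⟩, rfl⟩
      cases rv with
      | false => exact key k
      | true => exact key (2 - k))
    (by
      have key : ∀ j : ZMod 4, dist (p j) (g ((j.val : ℝ) / 4)) < r1 := fun j => by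
        have h5 : g ((j.val : ℝ) / 4) = gp g ((j.val : ℝ) / 4) := by
          have := val_le j
          exact (gp_eq hj ⟨by positivity, by linarith⟩).symm
        rw [h5, dist_eq_norm]
        exact (hη _ _ (shift_le hAlt h0 j)).trans_le (min_le_right _ _)
      intro k
      cases rv with
      | false => exact key k
      | true => exact key (2 - k))
    hq1 (by
      intro k
      have hze : pt s (v (mm k.val)) ∈ ed s (v (mm k.val)) (v (mm k.val + 1)) :=
        left_mem_segment ℝ _ _
      have hzc : pt s (v (mm k.val)) ∈ sq s (lc (v (mm k.val)) (v (mm k.val + 1))) :=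
        ed_sub_lc hs (hP'.cyc.step _) hze
      obtain ⟨n1, n2⟩ := marked hP' k hze
      have h5 := rvm_rvA hmark rv k _ (n1.mono (by linarith)) (n2.mono (by linarith))
      have h6 := sq_dist (hq2 k) hzc
      have h7 := norm_sub_le_norm_sub_add_norm_sub (q k) (pt s (v (mm k.val))) (rvm rv p k)
      rw [dist_eq_norm]
      have h9 := hδm' rv
      refine lt_of_lt_of_le ?_ h9
      calc ‖q k - rvm rv p k‖ ≤ ‖q k - pt s (v (mm k.val))‖ +
            ‖pt s (v (mm k.val)) - rvm rv p k‖ := h7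
        _ < 2 * s + δm / 4 := by linarith
        _ ≤ δm := by linarith)
    (hM.DG.trans interior_subset)
    (hM.bd.trans (closedBall_subset_closedBall (by
      have := hTen.ok.Lpos
      show C.L / 4 ≤ 3 / 4 * C.L
      linarith)))
    (by
      intro y hy hyA
      refine disjoint_left.2 fun w hw hwo => ?_
      rw [mem_ball] at hw
      rcases mem_out_sw.1 hwo with h5 | ⟨i, hi, h6, h7⟩
      · exact Pg_not_out hTen (hκ1b y hy (by rw [mem_ball]; linarith)) h5
      · obtain ⟨a, ha, hwa⟩ := mem_thickening_iff.1 h7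
        have haU : a ∈ AU := by
          have : ∃ j ∈ T, a ∈ Az g j := by
            cases rv with
            | false => exact ⟨i, hi, ha⟩
            | true => exact ⟨1 - i, hi, ha⟩
          obtain ⟨j, hj1, hj2⟩ := this
          exact mem_biUnion hj1 hj2
        have h8 := (hκm' rv).trans (hyA a haU)
        have h9 := dist_triangle y w a
        rw [dist_comm y w] at h9
        linarith)
    t1 t2 t3 t4 t5 (fun k => t6 k κ (k2.trans (hκn' k)))
  have hnull : volume (frontier (Csw C (rvA rv (Az g)) (rvT rv T) (Pg s F) e1).out) = 0 := by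
    refine fr_sw hTen hP.fin hBn (fun i => ?_) he1
    cases rv with
    | false => exact isCompact_Az hj i
    | true => exact isCompact_Az hj (1 - i)
  refine ⟨rv, Csw C (rvA rv (Az g)) (rvT rv T) (Pg s F) e1, δ, κ, Pg s F, Bp B s F, ?_, hnull⟩
  exact {
    ok := hM.ok
    kpos := hM.kpos
    ke := hM.ke
    bd := hM.bd
    Gc := hM.Gc
    DG := hM.DG
    Gbd := hM.Gbd
    Ge := hM.Ge
    Bc := hM.Bc
    body := hM.body
    sw := hM.sw
    sw' := hM.sw'
    ns := hM.ns
    ot := hM.ot
    otD := hM.otD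
    nr := hM.nr
    nr' := hM.nr'
    ex := hM.ex
    tb := hM.tb
    tbn := hM.tbn
    tbt := hM.tbt
    tbc := hM.tbc
    tbD := hM.tbD
    tg := hM.tg
    inD := hM.inD
    lk := lk
    lkm := lkm }

/-- **GEO with null frontier** -/
theorem geoP : GEOP := swlP Polyx416.poly tentP

end Crest.Agent.R143.SwlPx422
end
end

-- ▼ part R143/GeoSeqP_422

/-!
# Row 143 (S0194), block D: the leaf `LDom'` with an additional property of the domains (helper422)

* `GEOg P` : GEO with the extra output `P C`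
* `exists_seq` : copy of 416's `exists_seq` with this output
* `ldomg` : `LDom'` for `AdmC D δ ∧ Pd D`
* `AdP` : `AdmC` with null frontier of the outside, `ldomP : ... → LDom' AdP`
-/

set_option autoImplicit false
set_option linter.all false

noncomputable section

namespace Crest.Agent.R143.GeoSeqPx422

open Set Filter Topology MeasureTheory Metric
open Crest.ProbabilityR.Voronoi
open Crest.Agent.R143.B0x346 Crest.Agent.R143.B0Dx346
open Crest.Agent.R143.Spinex422 Crest.Agent.R143.Cfgx416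
open Crest.Agent.R143.BC0x336
open Crest.Agent.R158.Jt785 Crest.Agent.R158.Sp896
open Crest.ProbabilityR.Percolation
open Crest.Agent.R143.GeoSeqx416 Crest.Agent.R143.SwlPx422

/-- GEO with the extra output `P C` -/
def GEOg (P : Cfg 4 → Prop) : Prop := ∀ (g : ℝ → ℂ) (f : ℂ → ℂ),
  Crest.Agent.R158.Jt785.Unif g f →
  ∀ (D : Set ℂ) (A : ZMod 4 → Set ℂ) (m : ZMod 4 → ℂ),
  D = Crest.ProbabilityR.Percolation.jordanInterior g →
  (∀ i : ZMod 4, A i = Crest.Agent.R158.Sp896.arc g ((i.val : ℝ) / 4) (((i.val : ℝ) + 1) / 4)) →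
  (∀ i : ZMod 4, m i = g ((i.val : ℝ) / 4)) →
  ∃ md : ℝ → ℝ, (∀ s > 0, 0 < md s) ∧ ∀ (T : Set (ZMod 4)), T = {0, 2} ∨ T = {1, 3} →
    ∀ (e : ℝ), 0 < e → ∀ K : Set ℂ, IsCompact K → K ⊆ D →
    ∃ (rv : Bool) (C : Cfg 4) (δ κ : ℝ) (G : Set ℂ) (B : ZMod 4 → Set ℂ),
      Mac D (rvA rv A) (rvm rv m) (rvT rv T) md e K C δ κ G B ∧ P C

theorem exists_seq {P : Cfg 4 → Prop} (hG : GEOg P) (hC : CARA) (S : Dat) {b : ℂ} (hb : b ∈ frontier S.D)
    (hbd : b ≠ S.d) (hφb : S.φ b = S.x) (up : Bool) : ∃ A m md rv C δ κ G B,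
    Seq4 S b up A m md rv C δ κ G B ∧ ∀ n, P (C n) := by
  obtain ⟨g, f, hU, hj, hgb, hgd, a0, a1, a2, a3⟩ := hC S b hb hbd hφb
  set A : ZMod 4 → Set ℂ := fun i => arc g ((i.val : ℝ) / 4) (((i.val : ℝ) + 1) / 4) with hA
  set m : ZMod 4 → ℂ := fun i => g ((i.val : ℝ) / 4) with hm
  obtain ⟨md, hmd, h1⟩ := hG g f hU S.D A m hj.symm (fun i => rfl) (fun i => rfl)
  have hT : (if up then ({0, 2} : Set (ZMod 4)) else {1, 3}) = {0, 2} ∨
      (if up then ({0, 2} : Set (ZMod 4)) else {1, 3}) = {1, 3} := by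
    cases up
    · right; rfl
    · left; rfl
  have hen : ∀ n : ℕ, (0 : ℝ) < 1 / ((n : ℝ) + 1) := fun n => by positivity
  choose rv C δ κ G B hmac using fun n : ℕ => h1 _ hT (1 / ((n : ℝ) + 1)) (hen n)
    (Kn S.D (1 / ((n : ℝ) + 1))) (isCompact_Kn S.hDb _) (Kn_sub S.hD (hen n))
  have v0 : ((0 : ZMod 4).val : ℝ) = 0 := by norm_num
  have v1 : ((1 : ZMod 4).val : ℝ) = 1 := by
    have : (1 : ZMod 4).val = 1 := rfl
    rw [this]; norm_num
  have v2 : ((2 : ZMod 4).val : ℝ) = 2 := by
    have : (2 : ZMod 4).val = 2 := rfl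
    rw [this]; norm_num
  have v3 : ((3 : ZMod 4).val : ℝ) = 3 := by
    have : (3 : ZMod 4).val = 3 := rfl
    rw [this]; norm_num
  have A0 : A 0 = arc g 0 (1 / 4) := by
    simp only [hA]; rw [v0]; norm_num
  have A1 : A 1 = arc g (1 / 4) (1 / 2) := by
    simp only [hA]; rw [v1]; norm_num
  have A2 : A 2 = arc g (1 / 2) (3 / 4) := by
    simp only [hA]; rw [v2]; norm_num
  have A3 : A 3 = arc g (3 / 4) 1 := by
    simp only [hA]; rw [v3]; norm_num
  have m0 : m 0 = g 0 := by
    simp only [hm]; rw [v0]; norm_num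
  have m1 : m 1 = g (1 / 4) := by
    simp only [hm]; rw [v1]
  have m2 : m 2 = g (1 / 2) := by
    simp only [hm]; rw [v2]; norm_num
  have m3 : m 3 = g (3 / 4) := by
    simp only [hm]; rw [v3]
  have c4 : ∀ i : ZMod 4, i = 0 ∨ i = 1 ∨ i = 2 ∨ i = 3 := by decide
  have hfr : frontier S.D = curveTrace g := by
    rw [← hj]
    exact frontier_ji hU.jc (by rw [hj]; exact S.hDc.nonempty)
  have hg01 : g 0 = g 1 := hU.jc.2.2
  have d3 : (3 : ZMod 4) = 0 - 1 := by decide
  refine ⟨A, m, md, rv, C, δ, κ, G, B, ?_, fun n => (hmac n).2⟩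
  refine ⟨⟨?_, ?_, ?_, ?_, ?_, ?_⟩, by rw [A0, a0], by rw [A2, a2], by rw [m1, hgb], ?_, hmd,
    fun n => (hmac n).1⟩
  · intro i
    rcases c4 i with rfl | rfl | rfl | rfl
    · rw [A0]; exact arc_compact hU (by norm_num) (by norm_num)
    · rw [A1]; exact arc_compact hU (by norm_num) (by norm_num)
    · rw [A2]; exact arc_compact hU (by norm_num) (by norm_num)
    · rw [A3]; exact arc_compact hU (by norm_num) (by norm_num)
  · intro i
    rcases c4 i with rfl | rfl | rfl | rfl
    · rw [A0, m0]; exact mem_image_of_mem g ⟨by norm_num, by norm_num⟩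
    · rw [A1, m1]; exact mem_image_of_mem g ⟨by norm_num, by norm_num⟩
    · rw [A2, m2]; exact mem_image_of_mem g ⟨by norm_num, by norm_num⟩
    · rw [A3, m3]; exact mem_image_of_mem g ⟨by norm_num, by norm_num⟩
  · intro i
    rcases c4 i with rfl | rfl | rfl | rfl
    · rw [← d3, A3, m0, hg01]; exact mem_image_of_mem g ⟨by norm_num, by norm_num⟩
    · rw [show (1 : ZMod 4) - 1 = 0 by decide, A0, m1]
      exact mem_image_of_mem g ⟨by norm_num, by norm_num⟩
    · rw [show (2 : ZMod 4) - 1 = 1 by decide, A1, m2]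
      exact mem_image_of_mem g ⟨by norm_num, by norm_num⟩
    · rw [show (3 : ZMod 4) - 1 = 2 by decide, A2, m3]
      exact mem_image_of_mem g ⟨by norm_num, by norm_num⟩
  · intro i
    rw [hfr]
    rcases c4 i with rfl | rfl | rfl | rfl
    · rw [A0]; exact image_mono (Icc_subset_Icc (by norm_num) (by norm_num))
    · rw [A1]; exact image_mono (Icc_subset_Icc (by norm_num) (by norm_num))
    · rw [A2]; exact image_mono (Icc_subset_Icc (by norm_num) (by norm_num))
    · rw [A3]; exact image_mono (Icc_subset_Icc (by norm_num) (by norm_num))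
  · rw [hfr]
    rintro z ⟨t, ht, rfl⟩
    rw [mem_iUnion]
    rcases le_total t (1 / 4) with h | h
    · exact ⟨0, by rw [A0]; exact mem_image_of_mem g ⟨ht.1, h⟩⟩
    rcases le_total t (1 / 2) with h' | h'
    · exact ⟨1, by rw [A1]; exact mem_image_of_mem g ⟨h, h'⟩⟩
    rcases le_total t (3 / 4) with h'' | h''
    · exact ⟨2, by rw [A2]; exact mem_image_of_mem g ⟨h', h''⟩⟩
    · exact ⟨3, by rw [A3]; exact mem_image_of_mem g ⟨h'', ht.2⟩⟩
  · have h02 : Disjoint (A 0) (A 2) := by rw [A0, A2]; exact arc_disj hU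
    have h13 : Disjoint (A 1) (A 3) := by
      rw [A1, A3, a1, a3, disjoint_left]
      rintro z ⟨hz1, hz2, hz3, hz4, hz5⟩ (⟨-, -, -, hz⟩ | hz)
      · linarith [S.hx0]
      · exact hz2 hz
    intro i
    rcases c4 i with rfl | rfl | rfl | rfl
    · rw [show (0 : ZMod 4) + 2 = 2 by decide]; exact h02
    · rw [show (1 : ZMod 4) + 2 = 3 by decide]; exact h13
    · rw [show (2 : ZMod 4) + 2 = 0 by decide]; exact h02.symm
    · rw [show (3 : ZMod 4) + 2 = 1 by decide]; exact h13.symm
  · rintro i p ⟨hp1, hp2, hp3, hp4⟩ l hl hpl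
    have c3 : ∀ i : ZMod 3, i = 0 ∨ i = 1 ∨ i = 2 := by decide
    have hx0 := S.hx0
    have hx1 := S.hx1
    rcases c4 l with rfl | rfl | rfl | rfl
    · rw [A0, a0] at hpl
      obtain ⟨-, -, -, h4, h5⟩ := hpl
      rcases c3 i with rfl | rfl | rfl
      · exact hl (by decide)
      · rw [if_neg (by decide), if_pos rfl] at hp4; linarith
      · rw [if_neg (by decide), if_neg (by decide)] at hp4; linarith
    · rw [A1, a1] at hpl
      obtain ⟨-, -, -, h4, h5⟩ := hpl
      rcases c3 i with rfl | rfl | rfl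
      · exact hl (by decide)
      · rw [if_neg (by decide), if_pos rfl] at hp4; linarith
      · rw [if_neg (by decide), if_neg (by decide)] at hp4; linarith
    · rw [A2, a2] at hpl
      rcases hpl with ⟨-, -, -, h4⟩ | hpl
      · rcases c3 i with rfl | rfl | rfl
        · rw [if_pos rfl] at hp4; linarith [hp4.2]
        · exact hl (by decide)
        · rw [if_neg (by decide), if_neg (by decide)] at hp4; linarith
      · exact hp2 hpl
    · rw [A3, a3] at hpl
      rcases hpl with ⟨-, -, -, h4⟩ | hpl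
      · rcases c3 i with rfl | rfl | rfl
        · rw [if_pos rfl] at hp4; linarith [hp4.1]
        · rw [if_neg (by decide), if_pos rfl] at hp4; linarith
        · exact hl (by decide)
      · exact hp2 hpl


/-- **the leaf `LDom'`** with a property of the domains -/
theorem ldomg {P : Cfg 4 → Prop} {Pd : Dom → Prop} (hPd : ∀ C : Cfg 4, P C → Pd C.dom)
    (hG : GEOg P) (hC : CARA) (hV : VAL) (hL : D4LO) (hU : D4UP) (hcol : D4COL) (hp : P2b)
    (hd : D2) : LDom' (fun D δ => AdmC D δ ∧ Pd D) := by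
  intro S b hb hbd hφb up
  obtain ⟨A, m, md, rv, C, δ, κ, G, B, h, hPC⟩ := exists_seq hG hC S hb hbd hφb up
  choose Pm hPm using fun n => hcol (C n) (δ n) (h.mac n).ok (ix (rv n))
  have hP : ∀ n, Seq4.PmOK (C n) (Pm n) := fun n => ⟨(hPm n).1, (hPm n).2.1, (hPm n).2.2.1⟩
  have hb0 : b ∈ S.arc 0 := by
    refine ⟨hb, hbd, ?_, ?_⟩
    · rw [hφb]; exact Complex.ofReal_im _
    · rw [if_pos rfl, hφb]
      exact ⟨S.hx0, S.hx1⟩
  refine ⟨rv, fun n => (C n).dom, δ, κ, fun n => ⟨h.adm n, hPd _ (hPC n)⟩, h.roomOK, h.arcGeo,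
    fun Gf hGf => ?_⟩
  refine ⟨_, h.val hV hp hd hb0 hP (fun n => ?_) hGf, h.sand hL hU hP⟩
  filter_upwards [(hPm n).2.2.2] with ε hε
  exact ⟨hε.1, hε.2.2⟩

/-- admissible domains with null frontier of the outside -/
def AdP (D : Dom) (δ : ℝ) : Prop := Dom.Ad D δ ∧ volume (frontier D.out) = 0

theorem ldomP (hC : CARA) (hV : VAL) (hL : D4LO) (hU : D4UP) (hcol : D4COL) (hp : P2b)
    (hd : D2) : LDom' AdP :=
  ldomg (P := fun C => volume (frontier C.out) = 0) (Pd := fun D => volume (frontier D.out) = 0)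
    (fun C h => by rw [Cfg.dom_out]; exact h) geoP hC hV hL hU hcol hp hd

end Crest.Agent.R143.GeoSeqPx422
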