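import Crest.Agent.R143.Cfg_416
import Crest.Agent.R143.RB0_838
import Crest.Agent.R143.DomE_722
import Crest.Agent.R143.Ex2_922
import Crest.Agent.R143.Loc_922
import Crest.Agent.R143.G6W_723
import Crest.Agent.R143.RE0_723
import Crest.Agent.R143.Half_930

-- ▼ part R143/Rect1_723
section

/-!
# Row 143 (S0194), leaf RB (box crossings), geometry of the rectangle, file 1 (helper723)

* `rc z0 u a b : Cfg 4` : the rectangle with centre `z0`, direction `u` (along `a`) and half sides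
  `a`, `b`, with tentacles along the diagonals; `R 0` = west, `R 1` = south, `R 2` = east,
  `R 3` = north
* `rc_ok` : it is an admissible configuration with `δ = min a b ^ 2 / (4 (a + b))`
-/

set_option autoImplicit false

noncomputable section

open scoped Classical

namespace Crest.Agent.R143.Rect1x723

open Set Filter Topology
open Crest.Agent.R143.B0x346 Crest.Agent.R143.Cfgx416

/-! ### the frame -/

/-- `‖a + b I‖` -/
def rd (a b : ℝ) : ℝ := ‖(⟨a, b⟩ : ℂ)‖

/-- signed distance to the diagonal NE - SW (positive above / left) -/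
def X (a b : ℝ) (w : ℂ) : ℝ := (a * w.im - b * w.re) / rd a b

/-- signed distance to the diagonal NW - SE (positive above / right) -/
def Y (a b : ℝ) (w : ℂ) : ℝ := (a * w.im + b * w.re) / rd a b

/-- radius of the big disc -/
def LL (a b : ℝ) : ℝ := 4 * (a + b)

/-- width of the tentacles -/
def dl (a b : ℝ) : ℝ := min a b ^ 2 / (4 * (a + b))

/-- half width of the tentacle at `w` -/
def M (a b : ℝ) (w : ℂ) : ℝ := dl a b / LL a b * max (LL a b / 2) ‖w‖

/-- the four regions in the frame -/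
def RW (a b : ℝ) : Set ℂ := {w | w.re < -a ∧ M a b w < X a b w ∧ Y a b w < -M a b w}
/-- south -/
def RS (a b : ℝ) : Set ℂ := {w | w.im < -b ∧ X a b w < -M a b w ∧ Y a b w < -M a b w}
/-- east -/
def RE (a b : ℝ) : Set ℂ := {w | a < w.re ∧ X a b w < -M a b w ∧ M a b w < Y a b w}
/-- north -/
def RN (a b : ℝ) : Set ℂ := {w | b < w.im ∧ M a b w < X a b w ∧ M a b w < Y a b w}

/-- the regions, indexed -/
def Rg (a b : ℝ) (k : ZMod 4) : Set ℂ :=
  if k = 0 then RW a b else if k = 1 then RS a b else if k = 2 then RE a b else RN a b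

/-- the direction of the diagonal NE -/
def p0 (a b : ℝ) : ℂ := ⟨a / rd a b, b / rd a b⟩

/-- the direction of the diagonal NW -/
def p1 (a b : ℝ) : ℂ := ⟨-(a / rd a b), b / rd a b⟩

/-- the directions, indexed -/
def Qg (a b : ℝ) (k : ZMod 4) : ℂ :=
  if k = 0 then p1 a b else if k = 1 then -p0 a b else if k = 2 then -p1 a b else p0 a b

/-- **the rectangle** -/
def rc (z0 u : ℂ) (a b : ℝ) : Cfg 4 where
  c := z0
  L := LL a b
  R := fun k => {z | (z - z0) / u ∈ Rg a b k}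
  q := fun k => u * Qg a b k

theorem z4 (k : ZMod 4) : k = 0 ∨ k = 1 ∨ k = 2 ∨ k = 3 := by revert k; decide

theorem Rg0 (a b : ℝ) : Rg a b 0 = RW a b := by unfold Rg; rw [if_pos rfl]
theorem Rg1 (a b : ℝ) : Rg a b 1 = RS a b := by
  unfold Rg; rw [if_neg (by decide), if_pos rfl]
theorem Rg2 (a b : ℝ) : Rg a b 2 = RE a b := by
  unfold Rg; rw [if_neg (by decide), if_neg (by decide), if_pos rfl]
theorem Rg3 (a b : ℝ) : Rg a b 3 = RN a b := by
  unfold Rg; rw [if_neg (by decide), if_neg (by decide), if_neg (by decide)]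

theorem Qg0 (a b : ℝ) : Qg a b 0 = p1 a b := by unfold Qg; rw [if_pos rfl]
theorem Qg1 (a b : ℝ) : Qg a b 1 = -p0 a b := by
  unfold Qg; rw [if_neg (by decide), if_pos rfl]
theorem Qg2 (a b : ℝ) : Qg a b 2 = -p1 a b := by
  unfold Qg; rw [if_neg (by decide), if_neg (by decide), if_pos rfl]
theorem Qg3 (a b : ℝ) : Qg a b 3 = p0 a b := by
  unfold Qg; rw [if_neg (by decide), if_neg (by decide), if_neg (by decide)]

section

variable {a b : ℝ}

theorem rd_sq (a b : ℝ) : rd a b ^ 2 = a ^ 2 + b ^ 2 := by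
  unfold rd
  rw [← Complex.normSq_eq_norm_sq, Complex.normSq_mk]
  ring

theorem rd_pos (ha : 0 < a) : 0 < rd a b := by
  unfold rd
  apply norm_pos_iff.2
  intro h
  have := congrArg Complex.re h
  simp at this
  exact ha.ne' this

theorem rd_le (ha : 0 < a) (hb : 0 < b) : rd a b ≤ a + b := by
  have h := rd_sq a b
  have h1 := rd_pos (b := b) ha
  nlinarith [mul_pos ha hb]

theorem LL_pos (ha : 0 < a) (hb : 0 < b) : 0 < LL a b := by unfold LL; positivity

theorem min_pos' (ha : 0 < a) (hb : 0 < b) : 0 < min a b := lt_min ha hb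

theorem dl_pos (ha : 0 < a) (hb : 0 < b) : 0 < dl a b := by
  unfold dl
  have := min_pos' ha hb
  positivity

/-- `16 δ ≤ min a b` (in fact `δ ≤ min / 8`) -/
theorem dl_le (ha : 0 < a) (hb : 0 < b) : 8 * dl a b ≤ min a b := by
  unfold dl
  have h := min_pos' ha hb
  have h1 : 2 * min a b ≤ a + b := by
    have := min_le_left a b
    have := min_le_right a b
    linarith
  rw [← mul_div_assoc, div_le_iff₀ (by positivity)]
  nlinarith

/-- `η ≤ 1 / 64` -/
theorem eta_le (ha : 0 < a) (hb : 0 < b) : dl a b / LL a b ≤ 1 / 64 := by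
  have h := dl_le ha hb
  have h1 : 2 * min a b ≤ a + b := by
    have := min_le_left a b
    have := min_le_right a b
    linarith
  have hL := LL_pos ha hb
  rw [div_le_iff₀ hL]
  unfold LL
  linarith

theorem eta_pos (ha : 0 < a) (hb : 0 < b) : 0 < dl a b / LL a b := div_pos (dl_pos ha hb) (LL_pos ha hb)

theorem M_ge (ha : 0 < a) (hb : 0 < b) (w : ℂ) : dl a b / 2 ≤ M a b w := by
  unfold M
  have h1 : LL a b / 2 ≤ max (LL a b / 2) ‖w‖ := le_max_left _ _
  have hL := LL_pos ha hb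
  calc dl a b / 2 = dl a b / LL a b * (LL a b / 2) := by field_simp
    _ ≤ _ := mul_le_mul_of_nonneg_left h1 (eta_pos ha hb).le

theorem M_pos (ha : 0 < a) (hb : 0 < b) (w : ℂ) : 0 < M a b w :=
  lt_of_lt_of_le (by have := dl_pos ha hb; positivity) (M_ge ha hb w)

theorem M_far {w : ℂ} (h : LL a b / 2 < ‖w‖) : M a b w = dl a b / LL a b * ‖w‖ := by
  unfold M
  rw [max_eq_right h.le]


/-- the decomposition along the NE diagonal -/
theorem norm_X (ha : 0 < a) (w : ℂ) :
    ‖w‖ ^ 2 = X a b w ^ 2 + ((a * w.re + b * w.im) / rd a b) ^ 2 := by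
  have hr := rd_pos (b := b) ha
  have h := rd_sq a b
  unfold X
  rw [← Complex.normSq_eq_norm_sq, Complex.normSq_apply, div_pow, div_pow, h]
  have h2 : a ^ 2 + b ^ 2 ≠ 0 := by rw [← h]; positivity
  field_simp
  ring

/-- the decomposition along the NW diagonal -/
theorem norm_Y (ha : 0 < a) (w : ℂ) :
    ‖w‖ ^ 2 = Y a b w ^ 2 + ((-a * w.re + b * w.im) / rd a b) ^ 2 := by
  have hr := rd_pos (b := b) ha
  have h := rd_sq a b
  unfold Y
  rw [← Complex.normSq_eq_norm_sq, Complex.normSq_apply, div_pow, div_pow, h]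
  have h2 : a ^ 2 + b ^ 2 ≠ 0 := by rw [← h]; positivity
  field_simp
  ring

theorem abs_X_le (ha : 0 < a) (w : ℂ) : |X a b w| ≤ ‖w‖ := by
  have h := norm_X (b := b) ha w
  apply abs_le_of_sq_le_sq _ (norm_nonneg w)
  nlinarith [sq_nonneg ((a * w.re + b * w.im) / rd a b)]

theorem abs_Y_le (ha : 0 < a) (w : ℂ) : |Y a b w| ≤ ‖w‖ := by
  have h := norm_Y (b := b) ha w
  apply abs_le_of_sq_le_sq _ (norm_nonneg w)
  nlinarith [sq_nonneg ((-a * w.re + b * w.im) / rd a b)]

theorem X_sub (w w' : ℂ) : X a b (w - w') = X a b w - X a b w' := by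
  unfold X
  rw [Complex.sub_re, Complex.sub_im]
  ring

theorem Y_sub (w w' : ℂ) : Y a b (w - w') = Y a b w - Y a b w' := by
  unfold Y
  rw [Complex.sub_re, Complex.sub_im]
  ring

theorem X_add (w w' : ℂ) : X a b (w + w') = X a b w + X a b w' := by
  unfold X
  rw [Complex.add_re, Complex.add_im]
  ring

theorem Y_add (w w' : ℂ) : Y a b (w + w') = Y a b w + Y a b w' := by
  unfold Y
  rw [Complex.add_re, Complex.add_im]
  ring

theorem X_smul (t : ℝ) (w : ℂ) : X a b ((t : ℂ) * w) = t * X a b w := by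
  unfold X
  rw [Complex.re_ofReal_mul, Complex.im_ofReal_mul]
  ring

theorem Y_smul (t : ℝ) (w : ℂ) : Y a b ((t : ℂ) * w) = t * Y a b w := by
  unfold Y
  rw [Complex.re_ofReal_mul, Complex.im_ofReal_mul]
  ring

theorem X_neg (w : ℂ) : X a b (-w) = -X a b w := by
  unfold X
  rw [Complex.neg_re, Complex.neg_im]
  ring

theorem Y_neg (w : ℂ) : Y a b (-w) = -Y a b w := by
  unfold Y
  rw [Complex.neg_re, Complex.neg_im]
  ring

theorem X_p0 : X a b (p0 a b) = 0 := by
  unfold X p0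
  simp only
  ring

theorem Y_p1 : Y a b (p1 a b) = 0 := by
  unfold Y p1
  simp only
  ring

/-- `2ab / r²` -/
def cc (a b : ℝ) : ℝ := 2 * a * b / rd a b ^ 2
/-- `(a² - b²) / r²` -/
def dd (a b : ℝ) : ℝ := (a ^ 2 - b ^ 2) / rd a b ^ 2

theorem Y_p0 : Y a b (p0 a b) = cc a b := by
  unfold Y p0 cc
  simp only
  ring

theorem X_p1 : X a b (p1 a b) = cc a b := by
  unfold X p1 cc
  simp only
  ring

theorem X_Ip0 (ha : 0 < a) : X a b (Complex.I * p0 a b) = 1 := by
  have hr := rd_pos (b := b) ha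
  have h := rd_sq a b
  unfold X p0
  simp only [Complex.mul_re, Complex.mul_im, Complex.I_re, Complex.I_im]
  field_simp
  rw [h]; ring

theorem Y_Ip0 : Y a b (Complex.I * p0 a b) = dd a b := by
  unfold Y p0 dd
  simp only [Complex.mul_re, Complex.mul_im, Complex.I_re, Complex.I_im]
  ring

theorem Y_Ip1 (ha : 0 < a) : Y a b (Complex.I * p1 a b) = -1 := by
  have hr := rd_pos (b := b) ha
  have h := rd_sq a b
  unfold Y p1
  simp only [Complex.mul_re, Complex.mul_im, Complex.I_re, Complex.I_im]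
  field_simp
  rw [h]; ring

theorem X_Ip1 : X a b (Complex.I * p1 a b) = -dd a b := by
  unfold X p1 dd
  simp only [Complex.mul_re, Complex.mul_im, Complex.I_re, Complex.I_im]
  ring

theorem norm_p0 (ha : 0 < a) : ‖p0 a b‖ = 1 := by
  have hr := rd_pos (b := b) ha
  have h := rd_sq a b
  have : ‖p0 a b‖ ^ 2 = 1 := by
    rw [← Complex.normSq_eq_norm_sq]
    unfold p0
    rw [Complex.normSq_mk]
    field_simp
    rw [h]
  have h0 := norm_nonneg (p0 a b)
  nlinarith

theorem norm_p1 (ha : 0 < a) : ‖p1 a b‖ = 1 := by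
  have hr := rd_pos (b := b) ha
  have h := rd_sq a b
  have : ‖p1 a b‖ ^ 2 = 1 := by
    rw [← Complex.normSq_eq_norm_sq]
    unfold p1
    rw [Complex.normSq_mk]
    field_simp
    rw [h]
  have h0 := norm_nonneg (p1 a b)
  nlinarith

theorem dec_p0 (ha : 0 < a) (w : ℂ) : w =
    (((a * w.re + b * w.im) / rd a b : ℝ) : ℂ) * p0 a b + ((X a b w : ℝ) : ℂ) * (Complex.I * p0 a b) := by
  have hr := rd_pos (b := b) ha
  have h := rd_sq a b
  apply Complex.ext
  · rw [Complex.add_re, Complex.re_ofReal_mul, Complex.re_ofReal_mul]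
    unfold X p0
    simp only [Complex.mul_re, Complex.I_re, Complex.I_im]
    field_simp
    rw [h]; ring
  · rw [Complex.add_im, Complex.im_ofReal_mul, Complex.im_ofReal_mul]
    unfold X p0
    simp only [Complex.mul_im, Complex.I_re, Complex.I_im]
    field_simp
    rw [h]; ring

theorem dec_p1 (ha : 0 < a) (w : ℂ) : w =
    (((-a * w.re + b * w.im) / rd a b : ℝ) : ℂ) * p1 a b - ((Y a b w : ℝ) : ℂ) * (Complex.I * p1 a b) := by
  have hr := rd_pos (b := b) ha
  have h := rd_sq a b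
  apply Complex.ext
  · rw [Complex.sub_re, Complex.re_ofReal_mul, Complex.re_ofReal_mul]
    unfold Y p1
    simp only [Complex.mul_re, Complex.I_re, Complex.I_im]
    field_simp
    rw [h]; ring
  · rw [Complex.sub_im, Complex.im_ofReal_mul, Complex.im_ofReal_mul]
    unfold Y p1
    simp only [Complex.mul_im, Complex.I_re, Complex.I_im]
    field_simp
    rw [h]; ring

/-- far away, the sign conditions give the edge conditions -/
theorem sec_re (ha : 0 < a) (hb : 0 < b) {w : ℂ} (h : LL a b / 2 < ‖w‖)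
    (h1 : |a * w.im| < b * |w.re|) : a < |w.re| := by
  have h2 : a ^ 2 * w.im ^ 2 < b ^ 2 * w.re ^ 2 := by
    have := mul_self_lt_mul_self (abs_nonneg _) h1
    have e1 : |a * w.im| * |a * w.im| = a ^ 2 * w.im ^ 2 := by rw [abs_mul_abs_self]; ring
    have e2 : b * |w.re| * (b * |w.re|) = b ^ 2 * w.re ^ 2 := by
      have := sq_abs w.re; nlinarith
    rw [e1, e2] at this
    exact this
  have h3 : ‖w‖ ^ 2 = w.re ^ 2 + w.im ^ 2 := by
    rw [← Complex.normSq_eq_norm_sq, Complex.normSq_apply]; ring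
  have h4 : (2 * (a + b)) ^ 2 < ‖w‖ ^ 2 := by
    have : 2 * (a + b) < ‖w‖ := by unfold LL at h; linarith
    exact pow_lt_pow_left₀ this (by positivity) (by norm_num)
  by_contra h5
  push Not at h5
  have h6 : w.re ^ 2 ≤ a ^ 2 := by
    have := sq_abs w.re
    have := abs_nonneg w.re
    nlinarith
  have h7 : a ^ 2 * ‖w‖ ^ 2 ≤ (a ^ 2 + b ^ 2) * a ^ 2 := by
    rw [h3]; nlinarith [sq_nonneg a, sq_nonneg b]
  have h8 : a ^ 2 * (2 * (a + b)) ^ 2 < (a ^ 2 + b ^ 2) * a ^ 2 :=
    lt_of_lt_of_le (mul_lt_mul_of_pos_left h4 (by positivity)) h7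
  have h9 : (2 * (a + b)) ^ 2 < a ^ 2 + b ^ 2 := by
    by_contra h9
    push Not at h9
    nlinarith [mul_le_mul_of_nonneg_left h9 (sq_nonneg a)]
  nlinarith [mul_pos ha hb]

theorem sec_im (ha : 0 < a) (hb : 0 < b) {w : ℂ} (h : LL a b / 2 < ‖w‖)
    (h1 : b * |w.re| < |a * w.im|) : b < |w.im| := by
  have h2 : b ^ 2 * w.re ^ 2 < a ^ 2 * w.im ^ 2 := by
    have := mul_self_lt_mul_self (by positivity) h1
    have e1 : |a * w.im| * |a * w.im| = a ^ 2 * w.im ^ 2 := by rw [abs_mul_abs_self]; ring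
    have e2 : b * |w.re| * (b * |w.re|) = b ^ 2 * w.re ^ 2 := by
      have := sq_abs w.re; nlinarith
    rw [e1, e2] at this
    exact this
  have h3 : ‖w‖ ^ 2 = w.re ^ 2 + w.im ^ 2 := by
    rw [← Complex.normSq_eq_norm_sq, Complex.normSq_apply]; ring
  have h4 : (2 * (a + b)) ^ 2 < ‖w‖ ^ 2 := by
    have : 2 * (a + b) < ‖w‖ := by unfold LL at h; linarith
    exact pow_lt_pow_left₀ this (by positivity) (by norm_num)
  by_contra h5
  push Not at h5
  have h6 : w.im ^ 2 ≤ b ^ 2 := by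
    have := sq_abs w.im
    have := abs_nonneg w.im
    nlinarith
  have h7 : b ^ 2 * ‖w‖ ^ 2 ≤ (a ^ 2 + b ^ 2) * b ^ 2 := by
    rw [h3]; nlinarith [sq_nonneg a, sq_nonneg b]
  have h8 : b ^ 2 * (2 * (a + b)) ^ 2 < (a ^ 2 + b ^ 2) * b ^ 2 :=
    lt_of_lt_of_le (mul_lt_mul_of_pos_left h4 (by positivity)) h7
  have h9 : (2 * (a + b)) ^ 2 < a ^ 2 + b ^ 2 := by
    by_contra h9
    push Not at h9
    nlinarith [mul_le_mul_of_nonneg_left h9 (sq_nonneg b)]
  nlinarith [mul_pos ha hb]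

theorem X_pos_iff (ha : 0 < a) {w : ℂ} : 0 < X a b w ↔ b * w.re < a * w.im := by
  have hr := rd_pos (b := b) ha
  unfold X
  rw [lt_div_iff₀ hr, zero_mul, sub_pos]

theorem X_neg_iff (ha : 0 < a) {w : ℂ} : X a b w < 0 ↔ a * w.im < b * w.re := by
  have hr := rd_pos (b := b) ha
  unfold X
  rw [div_lt_iff₀ hr, zero_mul, sub_neg]

theorem Y_pos_iff (ha : 0 < a) {w : ℂ} : 0 < Y a b w ↔ -(b * w.re) < a * w.im := by
  have hr := rd_pos (b := b) ha
  unfold Y
  rw [lt_div_iff₀ hr, zero_mul]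
  constructor <;> intro h <;> linarith

theorem Y_neg_iff (ha : 0 < a) {w : ℂ} : Y a b w < 0 ↔ a * w.im < -(b * w.re) := by
  have hr := rd_pos (b := b) ha
  unfold Y
  rw [div_lt_iff₀ hr, zero_mul]
  constructor <;> intro h <;> linarith

/-- far away, the regions are given by the sign conditions -/
theorem RW_far (ha : 0 < a) (hb : 0 < b) {w : ℂ} (h : LL a b / 2 < ‖w‖) (h1 : M a b w < X a b w)
    (h2 : Y a b w < -M a b w) : w ∈ RW a b := by
  have hM := M_pos ha hb w
  have e1 := (X_pos_iff ha).1 (hM.trans h1)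
  have e2 := (Y_neg_iff ha).1 (h2.trans (neg_neg_of_pos hM))
  have e3 : w.re < 0 := by
    by_contra h3
    push Not at h3
    nlinarith
  have := sec_re ha hb h (by rw [abs_of_neg e3, abs_lt]; constructor <;> linarith)
  rw [abs_of_neg e3] at this
  exact ⟨by linarith, h1, h2⟩

theorem RE_far (ha : 0 < a) (hb : 0 < b) {w : ℂ} (h : LL a b / 2 < ‖w‖) (h1 : X a b w < -M a b w)
    (h2 : M a b w < Y a b w) : w ∈ RE a b := by
  have hM := M_pos ha hb w
  have e1 := (X_neg_iff ha).1 (h1.trans (neg_neg_of_pos hM))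
  have e2 := (Y_pos_iff ha).1 (hM.trans h2)
  have e3 : 0 < w.re := by
    by_contra h3
    push Not at h3
    nlinarith
  have := sec_re ha hb h (by rw [abs_of_pos e3, abs_lt]; constructor <;> linarith)
  rw [abs_of_pos e3] at this
  exact ⟨by linarith, h1, h2⟩

theorem RS_far (ha : 0 < a) (hb : 0 < b) {w : ℂ} (h : LL a b / 2 < ‖w‖) (h1 : X a b w < -M a b w)
    (h2 : Y a b w < -M a b w) : w ∈ RS a b := by
  have hM := M_pos ha hb w
  have e1 := (X_neg_iff ha).1 (h1.trans (neg_neg_of_pos hM))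
  have e2 := (Y_neg_iff ha).1 (h2.trans (neg_neg_of_pos hM))
  have e3 : w.im < 0 := by
    by_contra h3
    push Not at h3
    nlinarith
  have e4 : a * w.im < 0 := mul_neg_of_pos_of_neg ha e3
  have := sec_im ha hb h (by
    rw [abs_of_neg e4, ← abs_of_pos hb, ← abs_mul, abs_lt]
    constructor <;> linarith)
  rw [abs_of_neg e3] at this
  exact ⟨by linarith, h1, h2⟩

theorem RN_far (ha : 0 < a) (hb : 0 < b) {w : ℂ} (h : LL a b / 2 < ‖w‖) (h1 : M a b w < X a b w)
    (h2 : M a b w < Y a b w) : w ∈ RN a b := by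
  have hM := M_pos ha hb w
  have e1 := (X_pos_iff ha).1 (hM.trans h1)
  have e2 := (Y_pos_iff ha).1 (hM.trans h2)
  have e3 : 0 < w.im := by
    by_contra h3
    push Not at h3
    nlinarith
  have e4 : 0 < a * w.im := mul_pos ha e3
  have := sec_im ha hb h (by
    rw [abs_of_pos e4, ← abs_of_pos hb, ← abs_mul, abs_lt]
    constructor <;> linarith)
  rw [abs_of_pos e3] at this
  exact ⟨by linarith, h1, h2⟩

/-! ### topology of the regions -/

theorem cont_M (a b : ℝ) : Continuous (M a b) := by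
  unfold M; fun_prop

theorem cont_X (a b : ℝ) : Continuous (X a b) := by
  unfold X
  exact ((continuous_const.mul Complex.continuous_im).sub
    (continuous_const.mul Complex.continuous_re)).div_const _

theorem cont_Y (a b : ℝ) : Continuous (Y a b) := by
  unfold Y
  exact ((continuous_const.mul Complex.continuous_im).add
    (continuous_const.mul Complex.continuous_re)).div_const _

theorem open_Rg (a b : ℝ) (k : ZMod 4) : IsOpen (Rg a b k) := by
  have hM := cont_M a b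
  have hX := cont_X a b
  have hY := cont_Y a b
  rcases z4 k with rfl | rfl | rfl | rfl
  · rw [Rg0]
    exact (isOpen_lt Complex.continuous_re continuous_const).inter
      ((isOpen_lt hM hX).inter (isOpen_lt hY hM.neg))
  · rw [Rg1]
    exact (isOpen_lt Complex.continuous_im continuous_const).inter
      ((isOpen_lt hX hM.neg).inter (isOpen_lt hY hM.neg))
  · rw [Rg2]
    exact (isOpen_lt continuous_const Complex.continuous_re).inter
      ((isOpen_lt hX hM.neg).inter (isOpen_lt hM hY))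
  · rw [Rg3]
    exact (isOpen_lt continuous_const Complex.continuous_im).inter
      ((isOpen_lt hM hX).inter (isOpen_lt hM hY))

theorem M_conv (ha : 0 < a) (hb : 0 < b) {s t : ℝ} (hs : 0 ≤ s) (ht : 0 ≤ t) (hst : s + t = 1)
    (v w : ℂ) : M a b ((s : ℂ) * v + (t : ℂ) * w) ≤ s * M a b v + t * M a b w := by
  have he := eta_pos ha hb
  have h1 : ‖(s : ℂ) * v + (t : ℂ) * w‖ ≤ s * ‖v‖ + t * ‖w‖ := by
    refine (norm_add_le _ _).trans (le_of_eq ?_)
    rw [norm_mul, norm_mul, Complex.norm_real, Complex.norm_real, Real.norm_of_nonneg hs,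
      Real.norm_of_nonneg ht]
  have h2 : max (LL a b / 2) ‖(s : ℂ) * v + (t : ℂ) * w‖ ≤
      s * max (LL a b / 2) ‖v‖ + t * max (LL a b / 2) ‖w‖ := by
    apply max_le
    · calc LL a b / 2 = s * (LL a b / 2) + t * (LL a b / 2) := by rw [← add_mul, hst, one_mul]
        _ ≤ _ := add_le_add (mul_le_mul_of_nonneg_left (le_max_left _ _) hs)
          (mul_le_mul_of_nonneg_left (le_max_left _ _) ht)
    · exact h1.trans (add_le_add (mul_le_mul_of_nonneg_left (le_max_right _ _) hs)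
          (mul_le_mul_of_nonneg_left (le_max_right _ _) ht))
  unfold M
  calc _ ≤ dl a b / LL a b * (s * max (LL a b / 2) ‖v‖ + t * max (LL a b / 2) ‖w‖) :=
        mul_le_mul_of_nonneg_left h2 he.le
    _ = _ := by ring

theorem X_conv {s t : ℝ} (v w : ℂ) : X a b ((s : ℂ) * v + (t : ℂ) * w) = s * X a b v + t * X a b w := by
  rw [X_add, X_smul, X_smul]

theorem Y_conv {s t : ℝ} (v w : ℂ) : Y a b ((s : ℂ) * v + (t : ℂ) * w) = s * Y a b v + t * Y a b w := by
  rw [Y_add, Y_smul, Y_smul]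

theorem lt_conv {s t x y x' y' : ℝ} (hs : 0 ≤ s) (ht : 0 ≤ t) (hst : s + t = 1) (h : x < y)
    (h' : x' < y') : s * x + t * x' < s * y + t * y' := by
  rcases hs.lt_or_eq with hs' | hs'
  · have := mul_lt_mul_of_pos_left h hs'
    have := mul_le_mul_of_nonneg_left h'.le ht
    linarith
  · subst hs'
    have : t = 1 := by linarith
    subst this
    linarith

theorem conv_Rg (ha : 0 < a) (hb : 0 < b) (k : ZMod 4) : Convex ℝ (Rg a b k) := by
  intro v hv w hw s t hs ht hst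
  have hM := M_conv ha hb hs ht hst v w
  have e : s • v + t • w = (s : ℂ) * v + (t : ℂ) * w := by
    rw [Complex.real_smul, Complex.real_smul]
  rw [e]
  have eX := X_conv (a := a) (b := b) (s := s) (t := t) v w
  have eY := Y_conv (a := a) (b := b) (s := s) (t := t) v w
  have er : ((s : ℂ) * v + (t : ℂ) * w).re = s * v.re + t * w.re := by
    rw [Complex.add_re, Complex.re_ofReal_mul, Complex.re_ofReal_mul]
  have ei : ((s : ℂ) * v + (t : ℂ) * w).im = s * v.im + t * w.im := by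
    rw [Complex.add_im, Complex.im_ofReal_mul, Complex.im_ofReal_mul]
  have ec : ∀ c : ℝ, s * c + t * c = c := fun c => by rw [← add_mul, hst, one_mul]
  rcases z4 k with rfl | rfl | rfl | rfl
  · rw [Rg0] at *
    obtain ⟨v1, v2, v3⟩ := hv
    obtain ⟨w1, w2, w3⟩ := hw
    have l1 := lt_conv hs ht hst v1 w1
    have l2 := lt_conv hs ht hst v2 w2
    have l3 := lt_conv hs ht hst v3 w3
    have := ec (-a)
    refine ⟨by rw [er]; linarith, by rw [eX]; linarith, by rw [eY]; linarith⟩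
  · rw [Rg1] at *
    obtain ⟨v1, v2, v3⟩ := hv
    obtain ⟨w1, w2, w3⟩ := hw
    have l1 := lt_conv hs ht hst v1 w1
    have l2 := lt_conv hs ht hst v2 w2
    have l3 := lt_conv hs ht hst v3 w3
    have := ec (-b)
    refine ⟨by rw [ei]; linarith, by rw [eX]; linarith, by rw [eY]; linarith⟩
  · rw [Rg2] at *
    obtain ⟨v1, v2, v3⟩ := hv
    obtain ⟨w1, w2, w3⟩ := hw
    have l1 := lt_conv hs ht hst v1 w1
    have l2 := lt_conv hs ht hst v2 w2
    have l3 := lt_conv hs ht hst v3 w3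
    have := ec a
    refine ⟨by rw [er]; linarith, by rw [eX]; linarith, by rw [eY]; linarith⟩
  · rw [Rg3] at *
    obtain ⟨v1, v2, v3⟩ := hv
    obtain ⟨w1, w2, w3⟩ := hw
    have l1 := lt_conv hs ht hst v1 w1
    have l2 := lt_conv hs ht hst v2 w2
    have l3 := lt_conv hs ht hst v3 w3
    have := ec b
    refine ⟨by rw [ei]; linarith, by rw [eX]; linarith, by rw [eY]; linarith⟩

/-! ### nonempty -/

theorem ne_Rg (ha : 0 < a) (hb : 0 < b) (k : ZMod 4) : (Rg a b k).Nonempty := by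
  have hL := LL_pos ha hb
  have hr := rd_pos (b := b) ha
  have hrl := rd_le ha hb
  have he := eta_le ha hb
  have hmin := min_pos' ha hb
  -- the point at distance `L` on an axis
  have key : ∀ x : ℝ, 0 < x → min a b ≤ x → dl a b / LL a b * LL a b < x * LL a b / rd a b := by
    intro x hx hmx
    have h1 := dl_le ha hb
    rw [div_mul_cancel₀ _ hL.ne', lt_div_iff₀ hr]
    have h2 : dl a b * rd a b ≤ dl a b * (a + b) := mul_le_mul_of_nonneg_left hrl (dl_pos ha hb).le
    have h3 : dl a b * (a + b) ≤ x * (a + b) := mul_le_mul_of_nonneg_right (by linarith) (by linarith)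
    unfold LL
    nlinarith [mul_pos hx (add_pos ha hb)]
  have key' : ∀ w : ℂ, ‖w‖ = LL a b → M a b w = dl a b / LL a b * LL a b := fun w hw => by
    rw [M_far (by rw [hw]; linarith), hw]
  rcases z4 k with rfl | rfl | rfl | rfl
  · rw [Rg0]
    have hn : ‖(⟨-LL a b, 0⟩ : ℂ)‖ = LL a b := by
      have : (⟨-LL a b, 0⟩ : ℂ) = ((-LL a b : ℝ) : ℂ) := rfl
      rw [this, Complex.norm_real, norm_neg, Real.norm_of_nonneg hL.le]
    have k1 := key b hb (min_le_right _ _)
    refine ⟨⟨-LL a b, 0⟩, RW_far ha hb (by rw [hn]; linarith) ?_ ?_⟩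
    · rw [key' _ hn]
      unfold X
      simp only
      rw [show a * 0 - b * -LL a b = b * LL a b by ring]
      exact k1
    · rw [key' _ hn]
      unfold Y
      simp only
      rw [show a * 0 + b * -LL a b = -(b * LL a b) by ring, neg_div]
      exact neg_lt_neg k1
  · rw [Rg1]
    have hn : ‖(⟨0, -LL a b⟩ : ℂ)‖ = LL a b := by
      have : (⟨0, -LL a b⟩ : ℂ) = ((-LL a b : ℝ) : ℂ) * Complex.I := by
        apply Complex.ext <;> simp
      rw [this, norm_mul, Complex.norm_real, norm_neg, Real.norm_of_nonneg hL.le, Complex.norm_I,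
        mul_one]
    have k1 := key a ha (min_le_left _ _)
    refine ⟨⟨0, -LL a b⟩, RS_far ha hb (by rw [hn]; linarith) ?_ ?_⟩
    · rw [key' _ hn]
      unfold X
      simp only
      rw [show a * -LL a b - b * 0 = -(a * LL a b) by ring, neg_div]
      exact neg_lt_neg k1
    · rw [key' _ hn]
      unfold Y
      simp only
      rw [show a * -LL a b + b * 0 = -(a * LL a b) by ring, neg_div]
      exact neg_lt_neg k1
  · rw [Rg2]
    have hn : ‖(⟨LL a b, 0⟩ : ℂ)‖ = LL a b := by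
      have : (⟨LL a b, 0⟩ : ℂ) = ((LL a b : ℝ) : ℂ) := rfl
      rw [this, Complex.norm_real, Real.norm_of_nonneg hL.le]
    have k1 := key b hb (min_le_right _ _)
    refine ⟨⟨LL a b, 0⟩, RE_far ha hb (by rw [hn]; linarith) ?_ ?_⟩
    · rw [key' _ hn]
      unfold X
      simp only
      rw [show a * 0 - b * LL a b = -(b * LL a b) by ring, neg_div]
      exact neg_lt_neg k1
    · rw [key' _ hn]
      unfold Y
      simp only
      rw [show a * 0 + b * LL a b = b * LL a b by ring]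
      exact k1
  · rw [Rg3]
    have hn : ‖(⟨0, LL a b⟩ : ℂ)‖ = LL a b := by
      have : (⟨0, LL a b⟩ : ℂ) = ((LL a b : ℝ) : ℂ) * Complex.I := by
        apply Complex.ext <;> simp
      rw [this, norm_mul, Complex.norm_real, Real.norm_of_nonneg hL.le, Complex.norm_I, mul_one]
    have k1 := key a ha (min_le_left _ _)
    refine ⟨⟨0, LL a b⟩, RN_far ha hb (by rw [hn]; linarith) ?_ ?_⟩
    · rw [key' _ hn]
      unfold X
      simp only
      rw [show a * LL a b - b * 0 = a * LL a b by ring]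
      exact k1
    · rw [key' _ hn]
      unfold Y
      simp only
      rw [show a * LL a b + b * 0 = a * LL a b by ring]
      exact k1

/-! ### separation -/

theorem Rg_abs (ha : 0 < a) (hb : 0 < b) {k : ZMod 4} {w : ℂ} (h : w ∈ Rg a b k) :
    M a b w < |X a b w| ∧ M a b w < |Y a b w| := by
  have hM := M_pos ha hb w
  rcases z4 k with rfl | rfl | rfl | rfl
  · rw [Rg0] at h
    obtain ⟨-, h1, h2⟩ := h
    exact ⟨lt_abs.2 (Or.inl h1), lt_abs.2 (Or.inr (by linarith))⟩
  · rw [Rg1] at h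
    obtain ⟨-, h1, h2⟩ := h
    exact ⟨lt_abs.2 (Or.inr (by linarith)), lt_abs.2 (Or.inr (by linarith))⟩
  · rw [Rg2] at h
    obtain ⟨-, h1, h2⟩ := h
    exact ⟨lt_abs.2 (Or.inr (by linarith)), lt_abs.2 (Or.inl (by linarith))⟩
  · rw [Rg3] at h
    obtain ⟨-, h1, h2⟩ := h
    exact ⟨lt_abs.2 (Or.inl h1), lt_abs.2 (Or.inl (by linarith))⟩

theorem far_X (ha : 0 < a) (hb : 0 < b) {v w : ℂ} (h1 : X a b v < -M a b v) (h2 : M a b w < X a b w) :
    dl a b ≤ ‖v - w‖ := by
  have e1 := M_ge ha hb v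
  have e2 := M_ge ha hb w
  have e3 := abs_X_le (b := b) ha (v - w)
  rw [X_sub] at e3
  have e4 := neg_abs_le (X a b v - X a b w)
  linarith

theorem far_Y (ha : 0 < a) (hb : 0 < b) {v w : ℂ} (h1 : Y a b v < -M a b v) (h2 : M a b w < Y a b w) :
    dl a b ≤ ‖v - w‖ := by
  have e1 := M_ge ha hb v
  have e2 := M_ge ha hb w
  have e3 := abs_Y_le (b := b) ha (v - w)
  rw [Y_sub] at e3
  have e4 := neg_abs_le (Y a b v - Y a b w)
  linarith

theorem far_Rg (ha : 0 < a) (hb : 0 < b) {i j : ZMod 4} (hij : i ≠ j) {v w : ℂ}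
    (hv : v ∈ Rg a b i) (hw : w ∈ Rg a b j) : dl a b ≤ ‖v - w‖ := by
  rcases z4 i with rfl | rfl | rfl | rfl <;> rcases z4 j with rfl | rfl | rfl | rfl <;>
    first
    | exact absurd rfl hij
    | skip
  · rw [Rg0] at hv; rw [Rg1] at hw
    rw [norm_sub_rev]; exact far_X ha hb hw.2.1 hv.2.1
  · rw [Rg0] at hv; rw [Rg2] at hw
    rw [norm_sub_rev]; exact far_X ha hb hw.2.1 hv.2.1
  · rw [Rg0] at hv; rw [Rg3] at hw
    exact far_Y ha hb hv.2.2 hw.2.2
  · rw [Rg1] at hv; rw [Rg0] at hw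
    exact far_X ha hb hv.2.1 hw.2.1
  · rw [Rg1] at hv; rw [Rg2] at hw
    exact far_Y ha hb hv.2.2 hw.2.2
  · rw [Rg1] at hv; rw [Rg3] at hw
    exact far_Y ha hb hv.2.2 hw.2.2
  · rw [Rg2] at hv; rw [Rg0] at hw
    exact far_X ha hb hv.2.1 hw.2.1
  · rw [Rg2] at hv; rw [Rg1] at hw
    rw [norm_sub_rev]; exact far_Y ha hb hw.2.2 hv.2.2
  · rw [Rg2] at hv; rw [Rg3] at hw
    exact far_X ha hb hv.2.1 hw.2.1
  · rw [Rg3] at hv; rw [Rg0] at hw
    rw [norm_sub_rev]; exact far_Y ha hb hw.2.2 hv.2.2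
  · rw [Rg3] at hv; rw [Rg1] at hw
    rw [norm_sub_rev]; exact far_X ha hb hw.2.1 hv.2.1
  · rw [Rg3] at hv; rw [Rg2] at hw
    rw [norm_sub_rev]; exact far_X ha hb hw.2.1 hv.2.1

/-! ### tentacles far away -/

theorem tent_Rg (ha : 0 < a) (hb : 0 < b) {w : ℂ} (h : LL a b / 2 < ‖w‖) :
    (∀ k, w ∉ Rg a b k) ↔ ∃ k : ZMod 4, ∃ t : ℝ, 0 ≤ t ∧
      ‖w - (t : ℂ) * Qg a b k‖ ≤ dl a b / LL a b * ‖w‖ := by
  have hM := M_far h
  constructor
  · intro h0
    by_contra hcon
    push Not at hcon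
    have hX : M a b w < |X a b w| := by
      have hd := dec_p0 (b := b) ha w
      set P := (a * w.re + b * w.im) / rd a b with hP
      have e1 : ‖w - (P : ℂ) * p0 a b‖ = |X a b w| := by
        have : w - (P : ℂ) * p0 a b = ((X a b w : ℝ) : ℂ) * (Complex.I * p0 a b) := by
          nth_rw 1 [hd]; ring
        rw [this, norm_mul, norm_mul, Complex.norm_I, norm_p0 ha, Complex.norm_real, one_mul, mul_one]
        rfl
      rw [hM, ← e1]
      rcases le_total 0 P with hp | hp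
      · have := hcon 3 P hp
        rwa [Qg3] at this
      · have := hcon 1 (-P) (by linarith)
        rw [Qg1] at this
        rwa [show w - ((-P : ℝ) : ℂ) * -p0 a b = w - (P : ℂ) * p0 a b by push_cast; ring] at this
    have hY : M a b w < |Y a b w| := by
      have hd := dec_p1 (b := b) ha w
      set P := (-a * w.re + b * w.im) / rd a b with hP
      have e1 : ‖w - (P : ℂ) * p1 a b‖ = |Y a b w| := by
        have : w - (P : ℂ) * p1 a b = -(((Y a b w : ℝ) : ℂ) * (Complex.I * p1 a b)) := by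
          nth_rw 1 [hd]; ring
        rw [this, norm_neg, norm_mul, norm_mul, Complex.norm_I, norm_p1 ha, Complex.norm_real,
          one_mul, mul_one]
        rfl
      rw [hM, ← e1]
      rcases le_total 0 P with hp | hp
      · have := hcon 0 P hp
        rwa [Qg0] at this
      · have := hcon 2 (-P) (by linarith)
        rw [Qg2] at this
        rwa [show w - ((-P : ℝ) : ℂ) * -p1 a b = w - (P : ℂ) * p1 a b by push_cast; ring] at this
    rcases lt_abs.1 hX with x1 | x1 <;> rcases lt_abs.1 hY with y1 | y1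
    · exact h0 3 (by rw [Rg3]; exact RN_far ha hb h x1 y1)
    · exact h0 0 (by rw [Rg0]; exact RW_far ha hb h x1 (by linarith))
    · exact h0 2 (by rw [Rg2]; exact RE_far ha hb h (by linarith) y1)
    · exact h0 1 (by rw [Rg1]; exact RS_far ha hb h (by linarith) (by linarith))
  · rintro ⟨k, t, ht, hk⟩ j hj
    rw [← hM] at hk
    obtain ⟨hX, hY⟩ := Rg_abs ha hb hj
    have eX : ∀ q : ℂ, X a b q = 0 → |X a b w| ≤ ‖w - (t : ℂ) * q‖ := by
      intro q hq
      have := abs_X_le (b := b) ha (w - (t : ℂ) * q)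
      rwa [X_sub, X_smul, hq, mul_zero, sub_zero] at this
    have eY : ∀ q : ℂ, Y a b q = 0 → |Y a b w| ≤ ‖w - (t : ℂ) * q‖ := by
      intro q hq
      have := abs_Y_le (b := b) ha (w - (t : ℂ) * q)
      rwa [Y_sub, Y_smul, hq, mul_zero, sub_zero] at this
    rcases z4 k with rfl | rfl | rfl | rfl
    · rw [Qg0] at hk
      have := eY _ Y_p1
      linarith
    · rw [Qg1] at hk
      have := eX _ (by rw [X_neg, X_p0, neg_zero])
      linarith
    · rw [Qg2] at hk
      have := eY _ (by rw [Y_neg, Y_p1, neg_zero])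
      linarith
    · rw [Qg3] at hk
      have := eX _ X_p0
      linarith

/-! ### sectors -/

theorem exp_I (ψ : ℝ) : Complex.exp (ψ * Complex.I) =
    ((Real.cos ψ : ℝ) : ℂ) + ((Real.sin ψ : ℝ) : ℂ) * Complex.I := by
  rw [Complex.exp_mul_I, Complex.ofReal_cos, Complex.ofReal_sin]

theorem X_rot (q : ℂ) (ψ : ℝ) : X a b (q * Complex.exp (ψ * Complex.I)) =
    Real.cos ψ * X a b q + Real.sin ψ * X a b (Complex.I * q) := by
  rw [exp_I, show q * (((Real.cos ψ : ℝ) : ℂ) + ((Real.sin ψ : ℝ) : ℂ) * Complex.I) =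
    ((Real.cos ψ : ℝ) : ℂ) * q + ((Real.sin ψ : ℝ) : ℂ) * (Complex.I * q) by ring, X_add, X_smul,
    X_smul]

theorem Y_rot (q : ℂ) (ψ : ℝ) : Y a b (q * Complex.exp (ψ * Complex.I)) =
    Real.cos ψ * Y a b q + Real.sin ψ * Y a b (Complex.I * q) := by
  rw [exp_I, show q * (((Real.cos ψ : ℝ) : ℂ) + ((Real.sin ψ : ℝ) : ℂ) * Complex.I) =
    ((Real.cos ψ : ℝ) : ℂ) * q + ((Real.sin ψ : ℝ) : ℂ) * (Complex.I * q) by ring, Y_add, Y_smul,
    Y_smul]

theorem norm_rot (ha : 0 < a) (k : ZMod 4) (ψ : ℝ) : ‖Qg a b k * Complex.exp (ψ * Complex.I)‖ = 1 := by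
  rw [norm_mul, Complex.norm_exp_ofReal_mul_I, mul_one]
  rcases z4 k with rfl | rfl | rfl | rfl
  · rw [Qg0]; exact norm_p1 ha
  · rw [Qg1, norm_neg]; exact norm_p0 ha
  · rw [Qg2, norm_neg]; exact norm_p1 ha
  · rw [Qg3]; exact norm_p0 ha

/-- the inequalities at the angle `arcsin η` -/
theorem UV_ang (ha : 0 < a) (hb : 0 < b) :
    dl a b / LL a b < Real.cos (Real.arcsin (dl a b / LL a b)) * cc a b +
      Real.sin (Real.arcsin (dl a b / LL a b)) * dd a b ∧
    dl a b / LL a b < Real.cos (Real.arcsin (dl a b / LL a b)) * cc a b -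
      Real.sin (Real.arcsin (dl a b / LL a b)) * dd a b := by
  have hL := LL_pos ha hb
  have hr := rd_pos (b := b) ha
  have hrq := rd_sq a b
  have he := eta_le ha hb
  have he0 := eta_pos ha hb
  set η := dl a b / LL a b with hη
  have hs : Real.sin (Real.arcsin η) = η := Real.sin_arcsin (by linarith) (by linarith)
  have hc : 1 / 2 ≤ Real.cos (Real.arcsin η) := by
    rw [Real.cos_arcsin]
    apply Real.le_sqrt_of_sq_le
    nlinarith
  set co := Real.cos (Real.arcsin η) with hco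
  rw [hs]
  -- `η (a + b)² ≤ min² / 16`
  have h1 : η * (a + b) ^ 2 = min a b ^ 2 / 16 := by
    rw [hη]; unfold dl LL
    have : a + b ≠ 0 := by positivity
    field_simp
    ring
  have hm0 := min_pos' ha hb
  have hma := min_le_left a b
  have hmb := min_le_right a b
  have h2 : min a b ^ 2 ≤ a * b := by nlinarith
  have hab := mul_pos ha hb
  have h3 : η * a ^ 2 < a * b / 2 := by nlinarith [mul_pos he0 (sq_pos_of_pos hb)]
  have h4 : η * b ^ 2 < a * b / 2 := by nlinarith [mul_pos he0 (sq_pos_of_pos ha)]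
  unfold cc dd
  rw [hrq]
  have hab2 : 0 < a ^ 2 + b ^ 2 := by positivity
  constructor
  · rw [← mul_div_assoc, ← mul_div_assoc, ← add_div, lt_div_iff₀ hab2]
    nlinarith [mul_le_mul_of_nonneg_right hc hab.le]
  · rw [← mul_div_assoc, ← mul_div_assoc, ← sub_div, lt_div_iff₀ hab2]
    nlinarith [mul_le_mul_of_nonneg_right hc hab.le]

theorem UV (ha : 0 < a) (hb : 0 < b) : ∃ e > 0, ∀ ψ : ℝ, Real.arcsin (dl a b / LL a b) < ψ →
    ψ < Real.arcsin (dl a b / LL a b) + e → dl a b / LL a b < Real.sin ψ ∧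
      dl a b / LL a b < Real.cos ψ * cc a b + Real.sin ψ * dd a b ∧
      dl a b / LL a b < Real.cos ψ * cc a b - Real.sin ψ * dd a b := by
  obtain ⟨h1, h2⟩ := UV_ang ha hb
  have he := eta_le ha hb
  have he0 := eta_pos ha hb
  set η := dl a b / LL a b with hη
  have c1 : Continuous fun ψ : ℝ => Real.cos ψ * cc a b + Real.sin ψ * dd a b := by fun_prop
  have c2 : Continuous fun ψ : ℝ => Real.cos ψ * cc a b - Real.sin ψ * dd a b := by fun_prop
  have e1 := c1.continuousAt.eventually (lt_mem_nhds h1)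
  have e2 := c2.continuousAt.eventually (lt_mem_nhds h2)
  have e3 : ∀ᶠ ψ : ℝ in 𝓝 (Real.arcsin η), ψ < Real.pi / 2 :=
    gt_mem_nhds (Real.arcsin_lt_pi_div_two.2 (by linarith))
  obtain ⟨e, he', hball⟩ := Metric.eventually_nhds_iff.1 (e1.and (e2.and e3))
  refine ⟨e, he', fun ψ hψ1 hψ2 => ?_⟩
  obtain ⟨g1, g2, g3⟩ := hball (y := ψ) (by
    rw [Real.dist_eq, abs_of_pos (by linarith)]; linarith)
  refine ⟨?_, g1, g2⟩
  have hs : Real.sin (Real.arcsin η) = η := Real.sin_arcsin (by linarith) (by linarith)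
  rw [← hs]
  exact Real.sin_lt_sin_of_lt_of_le_pi_div_two (Real.neg_pi_div_two_le_arcsin η) g3.le hψ1

theorem sect_Rg (ha : 0 < a) (hb : 0 < b) (k : ZMod 4) {r : ℝ} (hr : LL a b / 2 < r) :
    ∃ e > 0, ∀ ψ : ℝ, Real.arcsin (dl a b / LL a b) < ψ → ψ < Real.arcsin (dl a b / LL a b) + e →
      (r : ℂ) * (Qg a b k * Complex.exp (ψ * Complex.I)) ∈ Rg a b k ∧
      (r : ℂ) * (Qg a b k * Complex.exp (-(ψ * Complex.I))) ∈ Rg a b (k - 1) := by
  obtain ⟨e, he, h⟩ := UV ha hb
  refine ⟨e, he, fun ψ h1 h2 => ?_⟩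
  obtain ⟨g1, g2, g3⟩ := h ψ h1 h2
  have hL := LL_pos ha hb
  have hr0 : 0 < r := by linarith
  have hneg : -((ψ : ℂ) * Complex.I) = ((-ψ : ℝ) : ℂ) * Complex.I := by push_cast; ring
  rw [hneg]
  have hn : ∀ (k : ZMod 4) (ψ : ℝ), ‖(r : ℂ) * (Qg a b k * Complex.exp (ψ * Complex.I))‖ = r := by
    intro k ψ
    rw [norm_mul, norm_rot ha, Complex.norm_real, Real.norm_of_nonneg hr0.le, mul_one]
  have hf : ∀ (k : ZMod 4) (ψ : ℝ), LL a b / 2 < ‖(r : ℂ) * (Qg a b k * Complex.exp (ψ * Complex.I))‖ := by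
    intro k ψ; rw [hn]; exact hr
  have hM : ∀ (k : ZMod 4) (ψ : ℝ), M a b ((r : ℂ) * (Qg a b k * Complex.exp (ψ * Complex.I))) =
      r * (dl a b / LL a b) := by
    intro k ψ
    rw [M_far (hf k ψ), hn, mul_comm]
  set η := dl a b / LL a b with hη
  have pos : ∀ {x : ℝ}, η < x → r * η < r * x := fun hx => mul_lt_mul_of_pos_left hx hr0
  have neg : ∀ {x : ℝ}, x < -η → r * x < -(r * η) := fun hx => by
    have := mul_lt_mul_of_pos_left hx hr0
    linarith
  rcases z4 k with rfl | rfl | rfl | rfl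
  · rw [Rg0, show (0 : ZMod 4) - 1 = 3 by decide, Rg3]
    refine ⟨RW_far ha hb (hf _ _) ?_ ?_, RN_far ha hb (hf _ _) ?_ ?_⟩
    · rw [hM, X_smul, X_rot, Qg0, X_p1, X_Ip1]
      exact pos (by linarith)
    · rw [hM, Y_smul, Y_rot, Qg0, Y_p1, Y_Ip1 ha]
      exact neg (by linarith)
    · rw [hM, X_smul, X_rot, Qg0, X_p1, X_Ip1, Real.cos_neg, Real.sin_neg]
      exact pos (by linarith)
    · rw [hM, Y_smul, Y_rot, Qg0, Y_p1, Y_Ip1 ha, Real.cos_neg, Real.sin_neg]
      exact pos (by linarith)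
  · rw [Rg1, show (1 : ZMod 4) - 1 = 0 by decide, Rg0]
    refine ⟨RS_far ha hb (hf _ _) ?_ ?_, RW_far ha hb (hf _ _) ?_ ?_⟩
    · rw [hM, X_smul, X_rot, Qg1, mul_neg, X_neg, X_neg, X_p0, X_Ip0 ha]
      exact neg (by linarith)
    · rw [hM, Y_smul, Y_rot, Qg1, mul_neg, Y_neg, Y_neg, Y_p0, Y_Ip0]
      exact neg (by linarith)
    · rw [hM, X_smul, X_rot, Qg1, mul_neg, X_neg, X_neg, X_p0, X_Ip0 ha, Real.cos_neg, Real.sin_neg]
      exact pos (by linarith)
    · rw [hM, Y_smul, Y_rot, Qg1, mul_neg, Y_neg, Y_neg, Y_p0, Y_Ip0, Real.cos_neg, Real.sin_neg]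
      exact neg (by linarith)
  · rw [Rg2, show (2 : ZMod 4) - 1 = 1 by decide, Rg1]
    refine ⟨RE_far ha hb (hf _ _) ?_ ?_, RS_far ha hb (hf _ _) ?_ ?_⟩
    · rw [hM, X_smul, X_rot, Qg2, mul_neg, X_neg, X_neg, X_p1, X_Ip1]
      exact neg (by linarith)
    · rw [hM, Y_smul, Y_rot, Qg2, mul_neg, Y_neg, Y_neg, Y_p1, Y_Ip1 ha]
      exact pos (by linarith)
    · rw [hM, X_smul, X_rot, Qg2, mul_neg, X_neg, X_neg, X_p1, X_Ip1, Real.cos_neg, Real.sin_neg]
      exact neg (by linarith)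
    · rw [hM, Y_smul, Y_rot, Qg2, mul_neg, Y_neg, Y_neg, Y_p1, Y_Ip1 ha, Real.cos_neg, Real.sin_neg]
      exact neg (by linarith)
  · rw [Rg3, show (3 : ZMod 4) - 1 = 2 by decide, Rg2]
    refine ⟨RN_far ha hb (hf _ _) ?_ ?_, RE_far ha hb (hf _ _) ?_ ?_⟩
    · rw [hM, X_smul, X_rot, Qg3, X_p0, X_Ip0 ha]
      exact pos (by linarith)
    · rw [hM, Y_smul, Y_rot, Qg3, Y_p0, Y_Ip0]
      exact pos (by linarith)
    · rw [hM, X_smul, X_rot, Qg3, X_p0, X_Ip0 ha, Real.cos_neg, Real.sin_neg]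
      exact neg (by linarith)
    · rw [hM, Y_smul, Y_rot, Qg3, Y_p0, Y_Ip0, Real.cos_neg, Real.sin_neg]
      exact pos (by linarith)

/-! ### angles -/

/-- half angle between the diagonals -/
def al (a b : ℝ) : ℝ := Complex.arg ⟨a, b⟩

theorem al_pos (ha : 0 < a) (hb : 0 < b) : 0 < al a b := by
  unfold al
  rcases (Complex.arg_nonneg_iff (z := ⟨a, b⟩)).2 hb.le |>.lt_or_eq with h | h
  · exact h
  · have := (Complex.arg_eq_zero_iff (z := ⟨a, b⟩)).1 h.symm
    exact absurd this.2 hb.ne'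

theorem al_lt (ha : 0 < a) (hb : 0 < b) : al a b < Real.pi / 2 := by
  unfold al
  have := (Complex.abs_arg_lt_pi_div_two_iff (z := ⟨a, b⟩)).2 (Or.inl ha)
  exact (abs_lt.1 this).2

theorem exp_al (ha : 0 < a) : Complex.exp (al a b * Complex.I) = p0 a b := by
  have hr := rd_pos (b := b) ha
  have h := Complex.norm_mul_exp_arg_mul_I (⟨a, b⟩ : ℂ)
  have hr' : ((rd a b : ℝ) : ℂ) ≠ 0 := by exact_mod_cast hr.ne'
  have h2 : ((rd a b : ℝ) : ℂ) * Complex.exp (al a b * Complex.I) = ⟨a, b⟩ := h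
  rw [← mul_right_inj' hr', h2]
  apply Complex.ext
  · rw [Complex.re_ofReal_mul]; unfold p0; simp only; field_simp
  · rw [Complex.im_ofReal_mul]; unfold p0; simp only; field_simp

theorem exp_neg_al (ha : 0 < a) : Complex.exp (-(al a b * Complex.I)) = -p1 a b := by
  have h := exp_al (b := b) ha
  have : Complex.exp (-(al a b * Complex.I)) = (starRingEnd ℂ) (Complex.exp (al a b * Complex.I)) := by
    rw [← Complex.exp_conj, map_mul, Complex.conj_I, Complex.conj_ofReal, mul_neg]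
  rw [this, h]
  unfold p0 p1
  apply Complex.ext <;> simp

/-- the lifted angle of the direction `k` -/
def th (a b : ℝ) (k : ℤ) : ℝ :=
  ((k / 2 : ℤ) + 1 : ℝ) * Real.pi + if k % 2 = 0 then -al a b else al a b

theorem th_succ (ha : 0 < a) (hb : 0 < b) (k : ℤ) : th a b k < th a b (k + 1) := by
  have h1 := al_pos ha hb
  have h2 := al_lt ha hb
  have hpi := Real.pi_pos
  unfold th
  rcases Int.emod_two_eq_zero_or_one k with h | h
  · rw [if_pos h, if_neg (by omega), show (k + 1) / 2 = k / 2 by omega]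
    linarith
  · rw [if_neg (by omega), if_pos (by omega), show (k + 1) / 2 = k / 2 + 1 by omega]
    push_cast
    nlinarith

theorem th_four (k : ℤ) : th a b (k + 4) = th a b k + 2 * Real.pi := by
  unfold th
  rw [show (k + 4) / 2 = k / 2 + 2 by omega, show (k + 4) % 2 = k % 2 by omega]
  push_cast
  ring


theorem th_exp (ha : 0 < a) (k : ℤ) : Qg a b (k : ZMod 4) = Complex.exp (th a b k * Complex.I) := by
  have h4 : (4 : ZMod 4) = 0 := by decide
  have e1 := exp_al (b := b) ha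
  have e2 := exp_neg_al (b := b) ha
  have key : ∀ m : ℤ, Complex.exp ((2 * m : ℂ) * Real.pi * Complex.I) = 1 := fun m => by
    rw [show (2 * m : ℂ) * Real.pi * Complex.I = m * (2 * Real.pi * Complex.I) by ring]
    exact Complex.exp_int_mul_two_pi_mul_I m
  have hpi : Complex.exp (Real.pi * Complex.I) = -1 := Complex.exp_pi_mul_I
  obtain ⟨m, hm⟩ : ∃ m : ℤ, k = 4 * m ∨ k = 4 * m + 1 ∨ k = 4 * m + 2 ∨ k = 4 * m + 3 :=
    ⟨k / 4, by omega⟩
  rcases hm with rfl | rfl | rfl | rfl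
  · have h0 : ((4 * m : ℤ) : ZMod 4) = 0 := by push_cast; rw [h4, zero_mul]
    rw [h0, Qg0]
    unfold th
    rw [if_pos (by omega), show 4 * m / 2 = 2 * m by omega]
    have : ((((2 * m : ℤ) : ℝ) + 1) * Real.pi + -al a b : ℝ) * Complex.I =
        (2 * m : ℂ) * Real.pi * Complex.I + (Real.pi * Complex.I + -(al a b * Complex.I)) := by
      push_cast; ring
    rw [this, Complex.exp_add, Complex.exp_add, key, hpi, e2]
    ring
  · have h0 : ((4 * m + 1 : ℤ) : ZMod 4) = 1 := by push_cast; rw [h4, zero_mul, zero_add]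
    rw [h0, Qg1]
    unfold th
    rw [if_neg (by omega), show (4 * m + 1) / 2 = 2 * m by omega]
    have : ((((2 * m : ℤ) : ℝ) + 1) * Real.pi + al a b : ℝ) * Complex.I =
        (2 * m : ℂ) * Real.pi * Complex.I + (Real.pi * Complex.I + (al a b * Complex.I)) := by
      push_cast; ring
    rw [this, Complex.exp_add, Complex.exp_add, key, hpi, e1]
    ring
  · have h0 : ((4 * m + 2 : ℤ) : ZMod 4) = 2 := by push_cast; rw [h4, zero_mul, zero_add]
    rw [h0, Qg2]
    unfold th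
    rw [if_pos (by omega), show (4 * m + 2) / 2 = 2 * m + 1 by omega]
    have : ((((2 * m + 1 : ℤ) : ℝ) + 1) * Real.pi + -al a b : ℝ) * Complex.I =
        (2 * (m + 1 : ℤ) : ℂ) * Real.pi * Complex.I + (-(al a b * Complex.I)) := by
      push_cast; ring
    rw [this, Complex.exp_add, key, e2]
    ring
  · have h0 : ((4 * m + 3 : ℤ) : ZMod 4) = 3 := by push_cast; rw [h4, zero_mul, zero_add]
    rw [h0, Qg3]
    unfold th
    rw [if_neg (by omega), show (4 * m + 3) / 2 = 2 * m + 1 by omega]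
    have : ((((2 * m + 1 : ℤ) : ℝ) + 1) * Real.pi + al a b : ℝ) * Complex.I =
        (2 * (m + 1 : ℤ) : ℂ) * Real.pi * Complex.I + ((al a b * Complex.I)) := by
      push_cast; ring
    rw [this, Complex.exp_add, key, e1]
    ring

theorem norm_Qg (ha : 0 < a) (k : ZMod 4) : ‖Qg a b k‖ = 1 := by
  have := norm_rot (b := b) ha k 0
  rwa [Complex.ofReal_zero, zero_mul, Complex.exp_zero, mul_one] at this

/-! ### the configuration is admissible -/

theorem rc_ok (ha : 0 < a) (hb : 0 < b) {z0 u : ℂ} (hu : ‖u‖ = 1) : (rc z0 u a b).OK (dl a b) := by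
  have hL := LL_pos ha hb
  have hu0 : u ≠ 0 := by rintro rfl; simp at hu
  have hdiv : ∀ z : ℂ, ‖z / u‖ = ‖z‖ := fun z => by rw [norm_div, hu, div_one]
  have hcont : Continuous fun z : ℂ => (z - z0) / u := (continuous_id.sub continuous_const).div_const _
  refine ⟨hL, dl_pos ha hb, fun k => (open_Rg a b k).preimage hcont, fun k => ?_, fun k => ?_, ?_,
    ?_, ?_, ?_⟩
  · -- connected
    have e : (rc z0 u a b).R k = (fun w : ℂ => z0 + u * w) '' Rg a b k := by
      ext z
      constructor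
      · intro h
        exact ⟨_, h, by simp only; field_simp; ring⟩
      · rintro ⟨w, hw, rfl⟩
        show (z0 + u * w - z0) / u ∈ Rg a b k
        rw [add_sub_cancel_left, mul_div_cancel_left₀ _ hu0]
        exact hw
    rw [e]
    exact IsConnected.image ⟨ne_Rg ha hb k, (conv_Rg ha hb k).isPreconnected⟩ _
      (by fun_prop)
  · show ‖u * Qg a b k‖ = 1
    rw [norm_mul, hu, norm_Qg ha, one_mul]
  · -- angles
    refine ⟨fun k => th a b k + Complex.arg u, ?_, ?_, ?_⟩
    · apply strictMono_int_of_lt_succ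
      intro k
      have := th_succ ha hb k
      linarith
    · intro k
      show th a b (k + 4) + _ = _
      rw [th_four]; ring
    · intro k
      show u * Qg a b k = _
      have h1 := Complex.norm_mul_exp_arg_mul_I u
      rw [hu, Complex.ofReal_one, one_mul] at h1
      push_cast
      rw [add_mul, Complex.exp_add, h1, th_exp ha, mul_comm]
  · -- far
    intro i j hij z hz w hw
    have := far_Rg ha hb hij hz hw
    rwa [← sub_div, hdiv, sub_sub_sub_cancel_right] at this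
  · -- tentacles
    intro z hz
    have hz' : LL a b / 2 < ‖(z - z0) / u‖ := by rw [hdiv]; exact hz
    have h := tent_Rg ha hb hz'
    refine Iff.trans h ?_
    apply exists_congr; intro k
    apply exists_congr; intro t
    apply and_congr_right; intro _
    have e1 : ‖(z - z0) / u - (t : ℂ) * Qg a b k‖ = ‖z - ((rc z0 u a b).c + (t : ℂ) * (rc z0 u a b).q k)‖ := by
      show _ = ‖z - (z0 + (t : ℂ) * (u * Qg a b k))‖
      rw [← hdiv (z - (z0 + (t : ℂ) * (u * Qg a b k)))]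
      congr 1
      field_simp
      ring
    rw [e1, hdiv]
    rfl
  · -- sectors
    intro k r hr
    obtain ⟨e, he, h⟩ := sect_Rg ha hb k hr
    refine ⟨e, he, fun ψ h1 h2 => ?_⟩
    obtain ⟨g1, g2⟩ := h ψ h1 h2
    constructor
    · show (z0 + (r : ℂ) * (u * Qg a b k) * Complex.exp (ψ * Complex.I) - z0) / u ∈ Rg a b k
      convert g1 using 1
      field_simp
      ring
    · show (z0 + (r : ℂ) * (u * Qg a b k) * Complex.exp (-(ψ * Complex.I)) - z0) / u ∈ Rg a b (k - 1)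
      convert g2 using 1
      field_simp
      ring

end

end Crest.Agent.R143.Rect1x723
end
end

-- ▼ part R143/Rect2_723
section

/-!
# Row 143 (S0194), leaf RB (box crossings), geometry of the rectangle, file 2 (helper723)

* `Sr` : the sites of the big net in the disc of the configuration
* `RH` : hypotheses; `RH.dns`, `RH.out`
* `mid_site` : sites in the middle are inner (and `|im| ≤ b₁`) or in the classes `1`, `3`
* `cls0_left`, `cls2_right`
* `crs_cross` : a network crossing contains a crossing of the rectangle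
-/

set_option autoImplicit false
set_option linter.unusedSectionVars false

noncomputable section

open scoped Classical

namespace Crest.Agent.R143.Rect2x723

open Set Filter Topology
open Crest.ProbabilityR.Voronoi
open Crest.Agent.R143.B0x346 Crest.Agent.R143.DelGx806 Crest.Agent.R143.DelRx806
  Crest.Agent.R143.Cfgx416 Crest.Agent.R143.Rect1x723
  Crest.Agent.R143.RB0x838 Crest.Agent.R143.ToolWx838 Crest.Agent.R143.Blkx838

/-- half length of the network -/
def a1 (a b : ℝ) : ℝ := a + b / 4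
/-- half width of the network -/
def b1 (b : ℝ) : ℝ := b / 2
/-- radius of the network -/
def Lr (a b : ℝ) : ℝ := LL (a1 a b) (b1 b)
/-- width of the tentacles -/
def dr (a b : ℝ) : ℝ := dl (a1 a b) (b1 b)
/-- the configuration -/
def Cr (z0 u : ℂ) (a b : ℝ) : Cfg 4 := rc z0 u (a1 a b) (b1 b)
/-- the sites of the network -/
def Sr (S : Finset ℂ) (z0 : ℂ) (a b : ℝ) : Finset ℂ := S.filter fun s => ‖s - z0‖ ≤ Lr a b
/-- bound for the edges -/
def Dr (a b d : ℝ) : ℝ := 5 * Real.sqrt (Lr a b * d)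

/-- hypotheses -/
structure RH (S : Finset ℂ) (z0 u : ℂ) (a b d : ℝ) : Prop where
  u1 : ‖u‖ = 1
  ha : 0 < a
  hb : 0 < b
  ld : LDns S z0 (Lr a b) d
  sm : 40000 * Lr a b ^ 5 * d ≤ dr a b ^ 6
  sa : 25 * (Lr a b * d) ≤ a ^ 2

variable {S : Finset ℂ} {z0 u : ℂ} {a b d : ℝ}




theorem mem_Sr {s : ℂ} : s ∈ Sr S z0 a b ↔ s ∈ S ∧ ‖s - z0‖ ≤ Lr a b := by
  unfold Sr; rw [Finset.mem_filter]

namespace RH

variable (H : RH S z0 u a b d)
include H

theorem a1p : 0 < a1 a b := by have := H.ha; have := H.hb; unfold a1; positivity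
theorem b1p : 0 < b1 b := by have := H.hb; unfold b1; positivity
theorem Lp : 0 < Lr a b := LL_pos H.a1p H.b1p
theorem dp : 0 < d := H.ld.dpos
theorem drp : 0 < dr a b := dl_pos H.a1p H.b1p

theorem ok : (Cr z0 u a b).OK (dr a b) := rc_ok H.a1p H.b1p H.u1



theorem dr_L : 64 * dr a b ≤ Lr a b := by
  have := eta_le H.a1p H.b1p
  rw [div_le_iff₀ (LL_pos H.a1p H.b1p)] at this
  unfold dr Lr
  linarith





theorem dL : 8 * d ≤ Lr a b := by
  have hL := H.Lp
  have hd := H.dp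
  have hδ := H.drp
  have h64 := H.dr_L
  have hsm := H.sm
  set L := Lr a b
  set δ := dr a b
  by_contra hcon
  push Not at hcon
  have h1 : 40000 * L ^ 5 * (L / 8) < δ ^ 6 :=
    lt_of_lt_of_le (mul_lt_mul_of_pos_left (by linarith) (by positivity)) hsm
  have h2 : δ ^ 6 ≤ L ^ 6 := pow_le_pow_left₀ hδ.le (by linarith) 6
  have h3 : 0 < L ^ 6 := by positivity
  nlinarith




/-! ### the network -/

theorem dns : DomAx722.Dns (Sr S z0 a b) z0 (Lr a b) d where
  gp := DomAx722.gp_mono (fun s hs => (mem_Sr.1 hs).1) H.ld.gp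
  dpos := H.dp
  dL := H.dL
  sub s hs := (mem_Sr.1 hs).2
  hole z hz := by
    have hd := H.dp
    obtain ⟨s, hs, h1⟩ := H.ld.hole z (by linarith)
    refine ⟨s, mem_Sr.2 ⟨hs, ?_⟩, h1⟩
    have := Locx922.norm_tri s z z0
    linarith

theorem out : (Cr z0 u a b).Out (Sr S z0 a b) :=
  DomEx722.out_S (by norm_num) H.ok H.dns H.sm

/-- the interior of the disc -/
theorem hol : Locx922.Hol (Sr S z0 a b : Set ℂ) {w | ‖w - z0‖ ≤ Lr a b - 2 * d} d := by
  intro w hw z hz
  have hd := H.dp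
  obtain ⟨s, hs, h1⟩ := H.dns.hole z (by
    have := Locx922.norm_tri z w z0
    have hw' : ‖w - z0‖ ≤ Lr a b - 2 * d := hw
    linarith)
  exact ⟨s, hs, h1⟩

theorem agr : Locx922.Agr (Sr S z0 a b : Set ℂ) (S : Set ℂ) {w | ‖w - z0‖ ≤ Lr a b - 2 * d} (2 * d) := by
  intro w hw s hs
  have hw' : ‖w - z0‖ ≤ Lr a b - 2 * d := hw
  have := Locx922.norm_tri s w z0
  rw [Finset.mem_coe, Finset.mem_coe, mem_Sr]
  exact ⟨fun h => h.1, fun h => ⟨h, by linarith⟩⟩


/-- the edges are short -/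
theorem adj_len {x y : ℂ} (h : Adj (Sr S z0 a b) x y) : ‖x - y‖ ≤ Dr a b d := by
  obtain ⟨c, h1 | h1⟩ := h
  · obtain ⟨o, hT⟩ := mem_delT_iff.1 h1
    exact Ex2x922.tri_near H.dns h1 (Circx63.seg_sub_cT hT.pos (right_mem_segment ℝ x y))
  · obtain ⟨o, hT⟩ := mem_delT_iff.1 h1
    rw [norm_sub_rev]
    exact Ex2x922.tri_near H.dns h1 (Circx63.seg_sub_cT hT.pos (right_mem_segment ℝ y x))


/-! ### the frame -/

theorem u0 : u ≠ 0 := by
  rintro rfl
  simpa using H.u1

theorem ndiv (z : ℂ) : ‖z / u‖ = ‖z‖ := by rw [norm_div, H.u1, div_one]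



/-- deep points -/
theorem deep {x : ℂ} (h1 : |((x - z0) / u).re| ≤ a1 a b) (h2 : |((x - z0) / u).im| ≤ 3 * b1 b) :
    ‖x - z0‖ ≤ 3 / 4 * Lr a b := by
  rw [← H.ndiv]
  refine (Complex.norm_le_abs_re_add_abs_im _).trans ?_
  have := H.a1p
  have := H.b1p
  unfold Lr LL
  linarith

theorem deep_hol : 3 / 4 * Lr a b ≤ Lr a b - 2 * d := by
  have := H.dL
  linarith

/-- a deep site is not on the hull -/
theorem not_hull {x : ℂ} (h : ‖x - z0‖ ≤ 3 / 4 * Lr a b) (y : ℂ) :
    ¬ hullE (Sr S z0 a b) x y ∧ ¬ hullE (Sr S z0 a b) y x :=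
  Locx922.not_hull H.dp H.hol (show ‖x - z0‖ ≤ _ from h.trans H.deep_hol) y















/-! ### network crossings contain crossings of the rectangle -/





end RH

end Crest.Agent.R143.Rect2x723
end
end

-- ▼ part R143/SSb_930

/-!
# Row 143, RSW without E3: the sites of the big disc (helper930)

`SH` : hypotheses of a strip; `SH.dns`, `SH.hol`, `SH.agr`, `SH.cover`, `SH.tri_small`,
`SH.vert_small`, `SH.deep` (the disc near the strip), `SH.mesh` (sums of squares).
-/

set_option autoImplicit false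
set_option linter.unusedSectionVars false

noncomputable section

open scoped Classical

namespace Crest.Agent.R143.SSbx930

open Set
open Crest.Agent.R143.B0x346 Crest.Agent.R143.DelGx806 Crest.Agent.R143.DelRx806
open Crest.Agent.R143.Famx930 Crest.Agent.R143.Halfx930 Crest.Agent.R143.RE0x723
open Crest.Agent.R143.Circx63 Crest.Agent.R143.Scalx63
open Crest.Agent.R143.RB0x838 (LDns Mesh Cross)
open Crest.Agent.R143.Locx922 (norm_tri)

variable {S : Finset ℂ} {z0 u : ℂ} {a b k d : ℝ}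

theorem mem_SS {s : ℂ} : s ∈ SS S z0 u k a b ↔ s ∈ S ∧ ‖s - cc z0 u k a b‖ ≤ RR k a b := by
  unfold SS
  rw [Finset.mem_filter]

/-- the hypotheses -/
structure SH (S : Finset ℂ) (z0 u : ℂ) (a b k d : ℝ) : Prop where
  k1 : 1 ≤ k
  u1 : ‖u‖ = 1
  ha : 0 < a
  hb : 0 < b
  ab : a ≤ k * b
  ba : b ≤ k * a
  ld : LDns S z0 (20 * (1 + k) * (a + b)) d
  sm : 100 * (1 + k) * d ≤ b

namespace SH

variable (H : SH S z0 u a b k d)
include H

theorem dp : 0 < d := H.ld.dpos

theorem d_b : 200 * d ≤ b := by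
  have := H.sm
  have := H.k1
  have := H.dp
  nlinarith

theorem Rp : 0 < RR k a b := by
  have := H.k1
  have := H.ha
  have := H.hb
  unfold RR
  positivity

theorem Rb : 16 * b ≤ RR k a b := by
  have := H.k1
  have := H.ha
  have := H.hb
  unfold RR
  nlinarith

theorem u0 : u ≠ 0 := by
  intro h
  have := H.u1
  rw [h] at this
  simp at this

theorem ndiv (z : ℂ) : ‖z / u‖ = ‖z‖ := by rw [norm_div, H.u1, div_one]

theorem X_diff (x y : ℂ) : |X z0 u x - X z0 u y| ≤ ‖x - y‖ := by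
  unfold X
  rw [← Complex.sub_re, ← sub_div, sub_sub_sub_cancel_right, ← H.ndiv (x - y)]
  exact Complex.abs_re_le_norm _

theorem Y_diff (x y : ℂ) : |Y z0 u x - Y z0 u y| ≤ ‖x - y‖ := by
  unfold Y
  rw [← Complex.sub_im, ← sub_div, sub_sub_sub_cancel_right, ← H.ndiv (x - y)]
  exact Complex.abs_im_le_norm _

theorem cc_div : (cc z0 u k a b - z0) / u = ((RR k a b - 3 * b / 4 : ℝ) : ℂ) * Complex.I := by
  unfold cc
  rw [add_sub_cancel_left, mul_div_cancel_left₀ _ H.u0]

theorem norm_cc : ‖cc z0 u k a b - z0‖ ≤ RR k a b := by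
  rw [← H.ndiv, H.cc_div, norm_mul, Complex.norm_I, mul_one, Complex.norm_real, Real.norm_eq_abs]
  have := H.Rb
  have := H.hb
  rw [abs_le]
  constructor <;> linarith

theorem norm_sq (s : ℂ) : ‖s - cc z0 u k a b‖ ^ 2 =
    X z0 u s ^ 2 + (RR k a b - 3 * b / 4 - Y z0 u s) ^ 2 := by
  rw [← H.ndiv, ← Complex.normSq_eq_norm_sq, Complex.normSq_apply]
  have h1 : (s - cc z0 u k a b) / u = (s - z0) / u - (cc z0 u k a b - z0) / u := by
    rw [← sub_div, sub_sub_sub_cancel_right]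
  rw [h1, H.cc_div, Complex.sub_re, Complex.sub_im, Complex.re_ofReal_mul, Complex.im_ofReal_mul,
    Complex.I_re, Complex.I_im]
  unfold X Y
  ring

/-- the disc near the strip -/
theorem deep {s : ℂ} (hx : |X z0 u s| ≤ a + b) (hy : -(9 * b / 16) ≤ Y z0 u s) (hy' : Y z0 u s ≤ b) :
    ‖s - cc z0 u k a b‖ ≤ RR k a b - 4 * d := by
  have hk := H.k1
  have ha := H.ha
  have hb := H.hb
  have hR := H.Rb
  have hd := H.dp
  have hsm := H.sm
  have hdb := H.d_b
  rw [← abs_of_nonneg (norm_nonneg (s - cc z0 u k a b)),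
    ← abs_of_nonneg (show 0 ≤ RR k a b - 4 * d by linarith), ← sq_le_sq, H.norm_sq]
  have h1 : X z0 u s ^ 2 ≤ (a + b) ^ 2 := by
    rw [sq_le_sq, abs_of_nonneg (show 0 ≤ a + b by linarith)]
    exact hx
  have h2 : (RR k a b - 3 * b / 4 - Y z0 u s) ^ 2 ≤ (RR k a b - 3 * b / 16) ^ 2 := by
    apply pow_le_pow_left₀ <;> linarith
  have hRe : RR k a b = 8 * ((1 + k) * (a + b)) := by unfold RR; ring
  have h3 : a + b ≤ (1 + k) * b := by linarith [H.ab]
  have h4 : (a + b) * (a + b) ≤ (1 + k) * (a + b) * b := by nlinarith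
  have h5 : d * RR k a b * 100 ≤ 8 * (b * (a + b)) := by
    rw [hRe]; nlinarith
  have h6 : b * b ≤ b * (a + b) := by nlinarith
  have h7 : b * (a + b) ≤ (a + b) * (a + b) := by nlinarith
  have h8 : RR k a b * b = 8 * ((1 + k) * (a + b) * b) := by rw [hRe]; ring
  nlinarith

theorem dns : DomAx722.Dns (SS S z0 u k a b) (cc z0 u k a b) (RR k a b) d where
  gp := DomAx722.gp_mono (fun s hs => (mem_SS.1 hs).1) H.ld.gp
  dpos := H.dp
  dL := by
    have := H.Rb
    have := H.d_b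
    have := H.dp
    linarith
  sub s hs := (mem_SS.1 hs).2
  hole z hz := by
    have hd := H.dp
    have h1 := norm_tri z (cc z0 u k a b) z0
    have h2 := H.norm_cc
    have hk := H.k1
    have ha := H.ha
    have hb := H.hb
    obtain ⟨s, hs, h3⟩ := H.ld.hole z (by
      unfold RR at *
      nlinarith)
    refine ⟨s, mem_SS.2 ⟨hs, ?_⟩, h3⟩
    have := norm_tri s z (cc z0 u k a b)
    linarith

theorem gp : GP (SS S z0 u k a b : Set ℂ) := H.dns.gp

/-- the interior of the disc -/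
theorem hol : Locx922.Hol (SS S z0 u k a b : Set ℂ) {w | ‖w - cc z0 u k a b‖ ≤ RR k a b - 2 * d} d := by
  intro w hw z hz
  have hd := H.dp
  obtain ⟨s, hs, h1⟩ := H.dns.hole z (by
    have := norm_tri z w (cc z0 u k a b)
    have hw' : ‖w - cc z0 u k a b‖ ≤ RR k a b - 2 * d := hw
    linarith)
  exact ⟨s, hs, h1⟩

theorem agr : Locx922.Agr (SS S z0 u k a b : Set ℂ) (S : Set ℂ)
    {w | ‖w - cc z0 u k a b‖ ≤ RR k a b - 2 * d} (2 * d) := by
  intro w hw s hs
  have hw' : ‖w - cc z0 u k a b‖ ≤ RR k a b - 2 * d := hw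
  have := norm_tri s w (cc z0 u k a b)
  rw [Finset.mem_coe, Finset.mem_coe, mem_SS]
  exact ⟨fun h => h.1, fun h => ⟨h, by linarith⟩⟩

theorem cover {p : ℂ} (hp : ‖p - cc z0 u k a b‖ ≤ RR k a b - 2 * d) :
    ∃ t ∈ delT (SS S z0 u k a b), p ∈ cT t := by
  obtain ⟨x, y, w, h1, h2⟩ := Locx922.exists_tri_W H.gp H.dp H.hol
    (show p ∈ {w | ‖w - cc z0 u k a b‖ ≤ RR k a b - 2 * d} from hp)
  exact ⟨(x, y, w), h1, h2⟩

theorem tri_small {t : ℂ × ℂ × ℂ} (ht : t ∈ delT (SS S z0 u k a b)) {p : ℂ} (hp : p ∈ cT t)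
    (hd : ‖p - cc z0 u k a b‖ ≤ RR k a b - 2 * d) :
    (‖t.1 - p‖ < 2 * d ∧ ‖t.2.1 - p‖ < 2 * d ∧ ‖t.2.2 - p‖ < 2 * d) ∧ dm t ≤ 2 * d := by
  have hW : p ∈ {w | ‖w - cc z0 u k a b‖ ≤ RR k a b - 2 * d} := hd
  have hDel : Del (SS S z0 u k a b : Set ℂ) t.1 t.2.1 t.2.2 := mem_delT.1 ht
  have hD := Locx922.InT.inD hDel.2.2.2.1 hp
  obtain ⟨o, h1, h2, h3, h4, h5, ga, gb, gc⟩ := Locx922.del_small H.dp H.hol hW hD hDel
  obtain ⟨k1, k2, k3⟩ := Locx922.del_side H.dp H.hol hW hD hDel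
  exact ⟨⟨ga, gb, gc⟩, max_le (max_le k1.le k2.le) k3.le⟩

theorem vert_small {x y w p : ℂ} (ht : (x, y, w) ∈ delT (SS S z0 u k a b)) (hp : p ∈ cT (x, y, w))
    (hd : ‖p - cc z0 u k a b‖ ≤ RR k a b - 2 * d) :
    (‖x - p‖ < 2 * d ∧ ‖y - p‖ < 2 * d ∧ ‖w - p‖ < 2 * d) ∧
      x ∈ SS S z0 u k a b ∧ y ∈ SS S z0 u k a b ∧ w ∈ SS S z0 u k a b := by
  obtain ⟨m1, m2, m3, -⟩ := mem_delT.1 ht
  exact ⟨(H.tri_small ht hp hd).1, m1, m2, m3⟩

/-- corner of a triangle at a deep point -/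
theorem vt {t : ℂ × ℂ × ℂ} (ht : t ∈ delT (SS S z0 u k a b)) {p : ℂ} (hp : p ∈ cT t)
    (hd : ‖p - cc z0 u k a b‖ ≤ RR k a b - 2 * d) {v : ℂ} (hv : RB2x54.Vt t v) :
    ‖v - p‖ < 2 * d ∧ v ∈ SS S z0 u k a b := by
  obtain ⟨x, y, w⟩ := t
  obtain ⟨⟨h1, h2, h3⟩, m1, m2, m3⟩ := H.vert_small ht hp hd
  rcases hv with rfl | rfl | rfl
  · exact ⟨h1, m1⟩
  · exact ⟨h2, m2⟩
  · exact ⟨h3, m3⟩

/-- locality of the triangles -/
theorem del_iff {t : ℂ × ℂ × ℂ} {p : ℂ} (hp : p ∈ cT t)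
    (hd : ‖p - cc z0 u k a b‖ ≤ RR k a b - 2 * d) :
    t ∈ delT (SS S z0 u k a b) ↔ t ∈ delT S :=
  Locx922.delT_local (a := t.1) (b := t.2.1) (c := t.2.2) H.dp H.hol H.agr hd hp

/-- the sums of squares -/
theorem mesh {r C4 : ℝ} (hM : Mesh S z0 (20 * (1 + k) * (a + b)) r C4) {x : ℂ}
    (hx : ‖x - cc z0 u k a b‖ + r ≤ RR k a b - 2 * d) (hr : 0 ≤ r) :
    ∑ t ∈ (delT (SS S z0 u k a b)).filter
      (fun t => (cT t ∩ Metric.closedBall x r).Nonempty), dm t ^ 2 ≤ C4 * r ^ 2 := by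
  have hk := H.k1
  have ha := H.ha
  have hb := H.hb
  have hd := H.dp
  refine le_trans ?_ (hM x ?_)
  · apply Finset.sum_le_sum_of_subset_of_nonneg _ fun t _ _ => sq_nonneg _
    intro t ht
    obtain ⟨h1, y, hy1, hy2⟩ := Finset.mem_filter.1 ht
    refine Finset.mem_filter.2 ⟨?_, y, hy1, hy2⟩
    refine (H.del_iff hy1 ?_).1 h1
    rw [Metric.mem_closedBall, dist_eq_norm] at hy2
    have := norm_tri y x (cc z0 u k a b)
    linarith
  · have h1 := norm_tri x (cc z0 u k a b) z0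
    have h2 := H.norm_cc
    unfold RR at *
    nlinarith

end SH

end Crest.Agent.R143.SSbx930
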