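import Crest.Agent.R143.RE0_723
import Crest.Agent.R143.G6W_723
import Crest.Agent.R143.SSb_930
import Crest.Agent.R143.HUL_838
import Crest.Agent.R143.Ex2_922

-- ▼ part R143/RE3_723
section

/-!
# Row 143, RBE, T3a: labels give a polygon (helper723)

* `assign` : label classes along the hull, every outer site joined to the hull by outer sites: the
  pockets of the label classes are given to adjacent classes, this is a polygon `Pg`
-/

set_option autoImplicit false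

noncomputable section

open scoped Classical

namespace Crest.Agent.R143.RE3x723

open Set
open Crest.Agent.R143.B0x346 Crest.Agent.R143.DelGx806 Crest.Agent.R143.DelRx806
  Crest.Agent.R143.JColx54 Crest.Agent.R143.RE0x723

variable {S : Finset ℂ} {V W : Set ℂ} {x y z : ℂ}

/-! ### the polygon -/

section assign

variable {n m : ℕ} {w : ℤ → ℂ} {p : ℕ → ℤ} {Lb : ℕ → ℂ → Prop}

/-- outer sites -/
def Ou (S : Finset ℂ) (m : ℕ) (Lb : ℕ → ℂ → Prop) : Set ℂ := {s | s ∈ S ∧ ∃ j, j ≤ m ∧ Lb j s}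

/-- main part of the label class `j` : joined to the hull -/
def Mn (S : Finset ℂ) (w : ℤ → ℂ) (Lb : ℕ → ℂ → Prop) (j : ℕ) : Set ℂ :=
  {s | ∃ i : ℤ, Pth S {v | v ∈ S ∧ Lb j v} s (w i)}

/-- pockets -/
def Po (S : Finset ℂ) (w : ℤ → ℂ) (m : ℕ) (Lb : ℕ → ℂ → Prop) : Set ℂ :=
  {s | s ∈ Ou S m Lb ∧ ∀ j, j ≤ m → s ∉ Mn S w Lb j}

/-- the pocket of `s` is adjacent to the main part `j` -/
def Rk (S : Finset ℂ) (w : ℤ → ℂ) (m : ℕ) (Lb : ℕ → ℂ → Prop) (s : ℂ) (j : ℕ) : Prop :=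
  ∃ u y, Pth S (Po S w m Lb) s u ∧ Adj S u y ∧ y ∈ Mn S w Lb j

/-- the class -/
def Ak (S : Finset ℂ) (w : ℤ → ℂ) (m : ℕ) (Lb : ℕ → ℂ → Prop) (j : ℕ) : Finset ℂ :=
  S.filter fun s => s ∈ Mn S w Lb j ∨
    (s ∈ Po S w m Lb ∧ Rk S w m Lb s j ∧ ∀ i, i < j → ¬ Rk S w m Lb s i)

theorem mn_mem {j : ℕ} {s : ℂ} (h : s ∈ Mn S w Lb j) : s ∈ S ∧ Lb j s := by
  obtain ⟨i, h⟩ := h
  exact h.1

theorem mn_pth {j : ℕ} {s : ℂ} (h : s ∈ Mn S w Lb j) : ∃ i : ℤ, Pth S (Mn S w Lb j) s (w i) := by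
  obtain ⟨i, h⟩ := h
  refine ⟨i, h.self.mono ?_⟩
  rintro v ⟨-, h1⟩
  exact ⟨i, h1⟩

theorem mem_Ak {j : ℕ} {s : ℂ} : s ∈ Ak S w m Lb j ↔ s ∈ Mn S w Lb j ∨
    (s ∈ Po S w m Lb ∧ Rk S w m Lb s j ∧ ∀ i, i < j → ¬ Rk S w m Lb s i) := by
  unfold Ak
  rw [Finset.mem_filter]
  constructor
  · exact fun h => h.2
  · intro h
    refine ⟨?_, h⟩
    rcases h with h | h
    · exact (mn_mem h).1
    · exact h.1.1.1

theorem rk_iff {s u : ℂ} (h : Pth S (Po S w m Lb) s u) (j : ℕ) :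
    Rk S w m Lb s j ↔ Rk S w m Lb u j := by
  constructor
  · rintro ⟨v, y, h1, h2, h3⟩
    exact ⟨v, y, h.symm.trans h1, h2, h3⟩
  · rintro ⟨v, y, h1, h2, h3⟩
    exact ⟨v, y, h.trans h1, h2, h3⟩

/-- **labels give a polygon** -/
theorem assign (hS : GP (S : Set ℂ)) (H : HullCyc S n w) (mono : ∀ j, j < m → p j < p (j + 1))
    (last : p m < p 0 + n)
    (uniq : ∀ i j, i ≤ m → j ≤ m → ∀ s, Lb i s → Lb j s → i = j)
    (lab : ∀ j, j < m → ∀ i, p j < i → i ≤ p (j + 1) → Lb j (w i))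
    (labl : ∀ i, p m < i → i ≤ p 0 + n → Lb m (w i))
    (hcon : ∀ s ∈ Ou S m Lb, ∃ i : ℤ, Pth S (Ou S m Lb) s (w i)) :
    Pg S n w m p (Ak S w m Lb) ∧
    (∀ s ∈ S, (∃ j, j ≤ m ∧ s ∈ Ak S w m Lb j) ↔ ∃ j, j ≤ m ∧ Lb j s) := by
  have hn : (0 : ℤ) < n := by exact_mod_cast H.pos
  have wS : ∀ i, w i ∈ S := fun i => (hullE.mem (H.edge i)).1
  -- positions are monotone
  have pm : ∀ i j, i ≤ j → j ≤ m → p i ≤ p j := by
    intro i j hij
    induction hij with
    | refl => intro _; exact le_rfl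
    | step h1 ih =>
      intro h2
      rename_i j
      have := mono j (by omega)
      exact (ih (by omega)).trans this.le
  -- hull arcs
  have arcM : ∀ j, j < m → ∀ i, p j < i → i ≤ p (j + 1) → w i ∈ Mn S w Lb j := fun j hj i h1 h2 =>
    ⟨i, Pth.refl ⟨wS i, lab j hj i h1 h2⟩⟩
  have arcL : ∀ i, p m < i → i ≤ p 0 + n → w i ∈ Mn S w Lb m := fun i h1 h2 =>
    ⟨i, Pth.refl ⟨wS i, labl i h1 h2⟩⟩
  -- every hull index is in an arc
  have win : ∀ i : ℤ, ∃ i', p 0 < i' ∧ i' ≤ p 0 + n ∧ w i' = w i := by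
    intro i
    obtain ⟨i', h1, h2, h3, -⟩ := Sidesx697.hull_window H (p 0 + 1) (H.edge i)
    exact ⟨i', by omega, by omega, h3⟩
  have inarc : ∀ i', p 0 < i' → i' ≤ p 0 + n →
      (∃ j, j < m ∧ p j < i' ∧ i' ≤ p (j + 1)) ∨ p m < i' := by
    intro i' h1 h2
    by_contra hcon'
    push Not at hcon'
    have key : ∀ j, j ≤ m → p j < i' := by
      intro j
      induction j with
      | zero => intro _; exact h1
      | succ j ih =>
        intro hj
        exact hcon'.1 j (by omega) (ih (by omega))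
    exact absurd (key m le_rfl) (not_lt.2 hcon'.2)
  -- the arc `j`
  have arcj : ∀ j, j ≤ m → ∃ lo hi : ℤ, (∀ i, lo < i → i ≤ hi → w i ∈ Mn S w Lb j) ∧
      ∀ i : ℤ, Lb j (w i) → ∃ i', lo < i' ∧ i' ≤ hi ∧ w i' = w i := by
    intro j hj
    have hj' : ∀ i : ℤ, Lb j (w i) → (j < m → ∃ i', p j < i' ∧ i' ≤ p (j + 1) ∧ w i' = w i) ∧
        (j = m → ∃ i', p m < i' ∧ i' ≤ p 0 + n ∧ w i' = w i) := by
      intro i hi
      obtain ⟨i', h1, h2, h3⟩ := win i
      rw [← h3] at hi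
      rcases inarc i' h1 h2 with ⟨l, h4, h5, h6⟩ | h4
      · have e := uniq j l hj h4.le _ hi (lab l h4 i' h5 h6)
        subst e
        exact ⟨fun _ => ⟨i', h5, h6, h3⟩, fun h => absurd h (by omega)⟩
      · have e := uniq j m hj le_rfl _ hi (labl i' h4 h2)
        subst e
        exact ⟨fun h => absurd h (by omega), fun _ => ⟨i', h4, h2, h3⟩⟩
    rcases lt_or_eq_of_le hj with h | h
    · exact ⟨p j, p (j + 1), fun i h1 h2 => arcM j h i h1 h2, fun i hi => (hj' i hi).1 h⟩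
    · subst h
      exact ⟨p j, p 0 + n, fun i h1 h2 => arcL i h1 h2, fun i hi => (hj' i hi).2 rfl⟩
  -- consecutive hull sites
  have run : ∀ (j : ℕ) (lo hi : ℤ), (∀ i, lo < i → i ≤ hi → w i ∈ Mn S w Lb j) →
      ∀ (q : ℕ) (i : ℤ), lo < i → i + q ≤ hi → Pth S (Mn S w Lb j) (w i) (w (i + q)) := by
    intro j lo hi hM q
    induction q with
    | zero =>
      intro i h1 h2
      rw [Nat.cast_zero, add_zero]
      rw [Nat.cast_zero, add_zero] at h2
      exact Pth.refl (hM i h1 h2)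
    | succ q ih =>
      intro i h1 h2
      push_cast at h2
      have h3 := ih i h1 (by linarith)
      have e : i + ((q + 1 : ℕ) : ℤ) = i + q + 1 := by push_cast; ring
      rw [e]
      exact h3.tail (Or.inl (H.edge (i + q)).1) (hM _ (by linarith) (by linarith))
  -- main parts are connected
  have mncon : ∀ j, j ≤ m → ∀ s ∈ Mn S w Lb j, ∀ t ∈ Mn S w Lb j, Pth S (Mn S w Lb j) s t := by
    intro j hj s hs t ht
    obtain ⟨i, hi⟩ := mn_pth hs
    obtain ⟨l, hl⟩ := mn_pth ht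
    obtain ⟨lo, hi', hM, hA⟩ := arcj j hj
    obtain ⟨i1, a1, a2, a3⟩ := hA i (mn_mem hi.snd).2
    obtain ⟨l1, b1, b2, b3⟩ := hA l (mn_mem hl.snd).2
    have hmid : Pth S (Mn S w Lb j) (w i) (w l) := by
      rw [← a3, ← b3]
      rcases le_total i1 l1 with h | h
      · have := run j lo hi' hM (l1 - i1).toNat i1 a1 (by rw [Int.toNat_of_nonneg (by omega)]; omega)
        rwa [Int.toNat_of_nonneg (by omega), add_sub_cancel] at this
      · have := run j lo hi' hM (i1 - l1).toNat l1 b1 (by rw [Int.toNat_of_nonneg (by omega)]; omega)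
        rw [Int.toNat_of_nonneg (by omega), add_sub_cancel] at this
        exact this.symm
    exact (hi.trans hmid).trans hl.symm
  have mnA : ∀ j, Mn S w Lb j ⊆ (Ak S w m Lb j : Set ℂ) := fun j s hs =>
    Finset.mem_coe.2 (mem_Ak.2 (Or.inl hs))
  -- pockets are adjacent to a main part
  have pock : ∀ s ∈ Po S w m Lb, ∃ j, j ≤ m ∧ Rk S w m Lb s j := by
    intro s hs
    obtain ⟨i, hi⟩ := hcon s hs.1
    have hwi : ∃ j, j ≤ m ∧ w i ∈ Mn S w Lb j := by
      obtain ⟨i', h1, h2, h3⟩ := win i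
      rw [← h3]
      rcases inarc i' h1 h2 with ⟨l, h4, h5, h6⟩ | h4
      · exact ⟨l, h4.le, arcM l h4 i' h5 h6⟩
      · exact ⟨m, le_rfl, arcL i' h4 h2⟩
    obtain ⟨u, v, h1, h2, h3, h4⟩ := hi.exit (Q := fun s => ∀ j, j ≤ m → s ∉ Mn S w Lb j) hs.2
      (by push Not; exact hwi)
    push Not at h4
    obtain ⟨j, h5, h6⟩ := h4
    exact ⟨j, h5, u, v, h1.mono (fun a ha => ⟨ha.1, ha.2⟩), h2, h6⟩
  refine ⟨⟨hS, H, mono, last, fun j _ => Finset.filter_subset _ _, ?_, ?_, ?_, ?_⟩, ?_⟩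
  · -- disjoint
    intro i j hi hj hij
    rw [Finset.disjoint_left]
    intro s h1 h2
    rcases mem_Ak.1 h1 with h1 | h1 <;> rcases mem_Ak.1 h2 with h2 | h2
    · exact hij (uniq i j hi hj s (mn_mem h1).2 (mn_mem h2).2)
    · exact h2.1.2 i hi h1
    · exact h1.1.2 j hj h2
    · rcases lt_or_gt_of_ne hij with h | h
      · exact h2.2.2 i h h1.2.1
      · exact h1.2.2 j h h2.2.1
  · -- connected
    intro j hj
    have hto : ∀ s ∈ Ak S w m Lb j, ∃ t ∈ Mn S w Lb j, Pth S (Ak S w m Lb j : Set ℂ) s t := by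
      intro s hs
      rcases mem_Ak.1 hs with h | ⟨h1, ⟨u, y, h2, h3, h4⟩, h5⟩
      · exact ⟨s, h, Pth.refl (Finset.mem_coe.2 hs)⟩
      · refine ⟨y, h4, Pth.tail ?_ h3 (mnA j h4)⟩
        have key : Pth S {v | v ∈ Po S w m Lb ∧ Pth S (Po S w m Lb) v u} s u := h2.self
        refine key.mono ?_
        rintro v ⟨hv1, hv2⟩
        have hsv : Pth S (Po S w m Lb) s v := h2.trans hv2.symm
        exact Finset.mem_coe.2 (mem_Ak.2 (Or.inr ⟨hv1, (rk_iff hsv j).1 ⟨u, y, h2, h3, h4⟩,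
          fun i hi h' => h5 i hi ((rk_iff hsv i).2 h')⟩))
    intro s hs t ht
    obtain ⟨s', a1, a2⟩ := hto s hs
    obtain ⟨t', b1, b2⟩ := hto t ht
    exact (a2.trans ((mncon j hj s' a1 t' b1).mono (mnA j))).trans b2.symm
  · exact fun j hj k h1 h2 => mem_Ak.2 (Or.inl (arcM j hj k h1 h2))
  · exact fun k h1 h2 => mem_Ak.2 (Or.inl (arcL k h1 h2))
  · intro s hs
    constructor
    · rintro ⟨j, hj, h⟩
      rcases mem_Ak.1 h with h | h
      · exact ⟨j, hj, (mn_mem h).2⟩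
      · exact h.1.1.2
    · rintro ⟨j, hj, h⟩
      by_cases hM : ∃ j, j ≤ m ∧ s ∈ Mn S w Lb j
      · obtain ⟨l, h1, h2⟩ := hM
        exact ⟨l, h1, mem_Ak.2 (Or.inl h2)⟩
      · push Not at hM
        have hP : s ∈ Po S w m Lb := ⟨⟨hs, j, hj, h⟩, hM⟩
        obtain ⟨l0, hl0, hr0⟩ := pock s hP
        have hex : ∃ l, Rk S w m Lb s l := ⟨l0, hr0⟩
        refine ⟨Nat.find hex, (Nat.find_min' hex hr0).trans hl0, mem_Ak.2 (Or.inr ⟨hP,
          Nat.find_spec hex, fun i hi => Nat.find_min hex hi⟩)⟩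

end assign

end Crest.Agent.R143.RE3x723
end
end

-- ▼ part R143/RE4_723

/-!
# Row 143, RBE, T3a: walks to the hull (helper723)

* `ext_hull` : a site which is extreme in some direction is on the hull
* `walkH` : every site is joined to the hull in every half plane at it
* `edge5` : the edges are shorter than `5 √(R d)`
-/

set_option autoImplicit false

noncomputable section

open scoped Classical

namespace Crest.Agent.R143.RE4x723

open Set Filter Topology
open Crest.Agent.R143.B0x346 Crest.Agent.R143.DelGx806 Crest.Agent.R143.DelRx806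
  Crest.Agent.R143.JColx54 Crest.Agent.R143.RE0x723

variable {S : Finset ℂ} {V W : Set ℂ} {x y z : ℂ}

/-- barycentric form of a linear function on a triangle -/
theorem bary_dt (a b c x v e : ℂ) : cr (b - a) (c - a) * dt (x - v) e =
    cr (c - b) (x - b) * dt (a - v) e + cr (a - c) (x - c) * dt (b - v) e +
    cr (b - a) (x - a) * dt (c - v) e := by
  rw [cr_sub, cr_sub, cr_sub, cr_sub]
  unfold dt
  simp only [Complex.sub_re, Complex.sub_im]
  ring

/-- **a site which is extreme in the direction `e` is on the hull** -/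
theorem ext_hull (hS : GP (S : Set ℂ)) (h3 : 3 ≤ S.card) {v e : ℂ} (hv : v ∈ S) (he : e ≠ 0)
    (hmax : ∀ s ∈ S, dt (s - v) e ≤ 0) : ∃ x y, hullE S x y ∧ (x = v ∨ y = v) := by
  by_contra hcon
  push Not at hcon
  have hev : ∀ᶠ t : ℝ in 𝓝[>] 0, ∀ p ∈ (S ×ˢ S).filter (fun p => 0 < cr (p.2 - p.1) (v - p.1)),
      0 < cr (p.2 - p.1) (v + (t : ℂ) * e - p.1) := by
    rw [Filter.eventually_all_finset]
    intro p hp
    have h1 := (Finset.mem_filter.1 hp).2
    have hc : Continuous fun t : ℝ => cr (p.2 - p.1) (v + (t : ℂ) * e - p.1) := by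
      unfold cr
      fun_prop
    have := hc.continuousAt (x := 0)
    have h2 : ∀ᶠ t : ℝ in 𝓝 0, 0 < cr (p.2 - p.1) (v + (t : ℂ) * e - p.1) := by
      refine this.eventually (IsOpen.mem_nhds isOpen_Ioi ?_)
      simpa using h1
    exact h2.filter_mono nhdsWithin_le_nhds
  obtain ⟨t, ht, ht0⟩ := (hev.and self_mem_nhdsWithin).exists
  have hin : InHull S (v + (t : ℂ) * e) := by
    intro a b hab
    obtain ⟨h1, h2⟩ := hcon a b hab
    have h4 := hull_side_lt hS hab hv h1 h2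
    obtain ⟨ha, hb⟩ := hullE.mem hab
    exact (ht (a, b) (Finset.mem_filter.2 ⟨Finset.mem_product.2 ⟨ha, hb⟩, h4⟩)).le
  obtain ⟨a, b, c, o, hT, ⟨i1, i2, i3⟩, -⟩ := cover hS h3 hin
  have hb := bary_dt a b c (v + (t : ℂ) * e) v e
  have hpos : 0 < dt ((v + (t : ℂ) * e) - v) e := by
    have e1 : (v + (t : ℂ) * e) - v = (t : ℂ) * e := by ring
    have h5 := dt_pos he
    rw [e1]
    have : dt ((t : ℂ) * e) e = t * dt e e := by
      unfold dt
      simp only [Complex.mul_re, Complex.mul_im, Complex.ofReal_re, Complex.ofReal_im]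
      ring
    rw [this]
    exact mul_pos ht0 h5
  have hc : 0 < cr (b - a) (c - a) := hT.pos
  have h1 := mul_nonneg i2 (neg_nonneg.2 (hmax a hT.ma))
  have h2 := mul_nonneg i3 (neg_nonneg.2 (hmax b hT.mb))
  have h4 := mul_nonneg i1 (neg_nonneg.2 (hmax c hT.mc))
  have h5 := mul_pos hc hpos
  linarith

/-- **half plane walk** -/
theorem walkH (hS : GP (S : Set ℂ)) (h3 : 3 ≤ S.card) {e : ℂ} (he : e ≠ 0) :
    ∀ (q : ℕ) (v : ℂ), v ∈ S → (S.filter fun s => 0 < dt (s - v) e).card ≤ q →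
    ∃ x y, hullE S x y ∧ Pth S {s | s ∈ S ∧ 0 ≤ dt (s - v) e} v x := by
  intro q
  induction q with
  | zero =>
    intro v hv hc
    obtain ⟨x, y, hxy, h⟩ := ext_hull hS h3 hv he (fun s hs => by
      by_contra hcon
      push Not at hcon
      have : s ∈ S.filter fun s => 0 < dt (s - v) e := Finset.mem_filter.2 ⟨hs, hcon⟩
      have := Finset.card_pos.2 ⟨s, this⟩
      omega)
    have hm : v ∈ {s | s ∈ S ∧ 0 ≤ dt (s - v) e} := ⟨hv, by rw [sub_self]; unfold dt; simp⟩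
    rcases h with rfl | rfl
    · exact ⟨x, y, hxy, Pth.refl hm⟩
    · obtain ⟨c, hc, -⟩ := hull_succ hS hxy
      exact ⟨y, c, hc, Pth.refl hm⟩
  | succ q ih =>
    intro v hv hc
    have hm : v ∈ {s | s ∈ S ∧ 0 ≤ dt (s - v) e} := ⟨hv, by rw [sub_self]; unfold dt; simp⟩
    by_cases hex : ∃ s ∈ S, 0 < dt (s - v) e
    · obtain ⟨u, hu, hue⟩ := lower_nb hS h3 hv hex
      have huS := hu.mem.2
      obtain ⟨x, y, hxy, hp⟩ := ih u huS (by
        have : (S.filter fun s => 0 < dt (s - u) e) ⊂ S.filter fun s => 0 < dt (s - v) e := by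
          rw [Finset.ssubset_iff_of_subset]
          · refine ⟨u, Finset.mem_filter.2 ⟨huS, hue⟩, fun h => ?_⟩
            have := (Finset.mem_filter.1 h).2
            rw [sub_self] at this
            unfold dt at this
            simp at this
          · intro s hs
            obtain ⟨h1, h2⟩ := Finset.mem_filter.1 hs
            refine Finset.mem_filter.2 ⟨h1, ?_⟩
            rw [dt_sub_left] at h2 hue ⊢
            linarith
        have := Finset.card_lt_card this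
        omega)
      refine ⟨x, y, hxy, (Pth.single hm hu ⟨huS, hue.le⟩).trans (hp.mono ?_)⟩
      rintro s ⟨h1, h2⟩
      refine ⟨h1, ?_⟩
      rw [dt_sub_left] at h2 hue ⊢
      linarith
    · push Not at hex
      obtain ⟨x, y, hxy, h⟩ := ext_hull hS h3 hv he hex
      rcases h with rfl | rfl
      · exact ⟨x, y, hxy, Pth.refl hm⟩
      · obtain ⟨c, hc, -⟩ := hull_succ hS hxy
        exact ⟨y, c, hc, Pth.refl hm⟩

/-- edges -/
theorem edge5 {c : ℂ} {L d : ℝ} (hD : DomAx722.Dns S c L d) (h : Adj S x y) :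
    ‖x - y‖ ≤ 5 * Real.sqrt (L * d) := by
  rcases h with ⟨w, h⟩ | ⟨w, h⟩
  · obtain ⟨o, hT⟩ := mem_delT_iff.1 h
    refine Ex2x922.tri_near hD h (x := y) ⟨?_, ?_, ?_⟩
    · unfold cr; nlinarith
    · rw [sub_self]; unfold cr; simp
    · have := hT.pos
      have e : cr (x - w) (y - w) = cr (y - x) (w - x) := by rw [cr_sub, cr_sub]; ring
      rw [e]
      exact this.le
  · obtain ⟨o, hT⟩ := mem_delT_iff.1 h
    rw [norm_sub_rev]
    refine Ex2x922.tri_near hD h (x := x) ⟨?_, ?_, ?_⟩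
    · unfold cr; nlinarith
    · rw [sub_self]; unfold cr; simp
    · have := hT.pos
      have e : cr (y - w) (x - w) = cr (x - y) (w - y) := by rw [cr_sub, cr_sub]; ring
      rw [e]
      exact this.le

end Crest.Agent.R143.RE4x723
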