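import Crest.Agent.R143.Qd3_54
import Crest.Agent.R143.HUL_838
import Crest.Agent.R143.RE4_723
import Crest.Agent.R143.Near_440
import Crest.Agent.R143.D3F_802
import Crest.Agent.R143.ArmP_930
import Crest.Agent.R143.ArmsE_377
import Crest.Agent.R143.HarmS_496

-- ▼ part R143/HarmA_802
section

/-!
# Row 143 (S0194), CONT: one arm up to the hull, file 1 (helper802)

* `epc` : energy principle (54's `epl`) for curves `Γ ρ` on the circles around `x`
-/

set_option autoImplicit false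

noncomputable section

open scoped Classical

namespace Crest.Agent.R143.HarmAx802

open Set
open Crest.Agent.R143.B0x346 Crest.Agent.R143.B0Dx346 Crest.Agent.R143.DelGx806
  Crest.Agent.R143.DelRx806 Crest.Agent.R143.Oscx63 Crest.Agent.R143.Rswx63
  Crest.Agent.R143.Circx63 Crest.Agent.R143.Famx930
  Crest.Agent.R143.Crsx117 Crest.Agent.R143.JCardx872 Crest.Agent.R143.Qd3x54
open Crest.Agent.R143.RB2x54 (rot3 Vt vt_of_side net0)
open Crest.Agent.R143.Scalx63 (dm)
open Crest.Agent.R143.Harx315 (pr)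
open Crest.Agent.R143.RE0x723 (Pth fre Crq)
open Crest.Agent.R143.JColx54 (Adj)

variable {S : Finset ℂ} {n : ℕ} {w : ℤ → ℂ} {i0 i1 i2 i3 : ℤ} {B : ZMod 4 → Finset ℂ}

/-- **energy principle for curves on concentric circles** -/
theorem epc (h : RE0x723.Qd S n w i0 i1 i2 i3 B) (x : ℂ) (Γ : ℝ → Set ℂ) {r R b C4 : ℝ} (hr : 0 < r)
    (hrR : 2 * r ≤ R) (hRb : R ≤ b) (hlog : 96 * C4 ≤ Real.log (R / r))
    (hrad' : ∀ ρ ∈ Icc r R, ∀ y ∈ Γ ρ, ‖y - x‖ = ρ) (hpre : ∀ ρ ∈ Icc r R, IsPreconnected (Γ ρ))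
    (hcov : ∀ ρ ∈ Icc r R, ∀ y ∈ Γ ρ, ∃ t ∈ delT S, y ∈ cT t)
    (hvert : ∀ ρ ∈ Icc r R, ∀ t ∈ delT S, (cT t ∩ Γ ρ).Nonempty →
      ∀ v, Vt t v → v ∈ B 0 ∨ v ∈ B 2 ∨ v ∈ fre S B)
    (hfst : ∀ ρ ∈ Icc r R, ∃ t ∈ delT S, (cT t ∩ Γ ρ).Nonempty ∧ ∃ v, Vt t v ∧ v ∈ B 0)
    (hlst : ∀ ρ ∈ Icc r R, ∃ t ∈ delT S, (cT t ∩ Γ ρ).Nonempty ∧ ∃ v, Vt t v ∧ v ∈ B 2)
    (hM : ∀ b' ∈ Icc r b, ∑ t ∈ (delT S).filter
      (fun t => (cT t ∩ Metric.closedBall x b').Nonempty), dm t ^ 2 ≤ C4 * b' ^ 2) :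
    1 / 3 ≤ pr (fre S B) (Crq S B 0) := by
  have O := toQd h
  have hS := O.gp
  rw [← pr_eq h]
  by_cases hadj : ∃ a ∈ B 0, ∃ b ∈ B 2, Adj S a b
  · obtain ⟨a, ha, b, hb, hab⟩ := hadj
    rw [Qd2x54.pr_one O ha hb hab]
    norm_num
  push Not at hadj
  -- representatives
  obtain ⟨U, hUT, hrep, hcovU⟩ := T6Dx697.reps (delT S)
  have hR0 : 0 < R := by linarith
  have hlogpos : 0 < Real.log (R / r) := Real.log_pos (by rw [lt_div_iff₀ hr]; linarith)
  have hin : ∀ q ∈ Icc (Real.log r) (Real.log R), Real.exp q ∈ Icc r R := by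
    intro q hq
    exact ⟨by rw [← Real.exp_log hr]; exact Real.exp_le_exp.2 hq.1,
      by rw [← Real.exp_log hR0]; exact Real.exp_le_exp.2 hq.2⟩
  obtain ⟨J, lam, p, hG, -, hsq⟩ := Halfx930.circles U hUT x (fun q => Γ (Real.exp q)) hr hrR hRb
    (fun q hq y hy => hrad' _ (hin q hq) y hy) hM
  have hrad : ∀ s ∈ J, Real.exp (p s) ∈ Icc r R := by
    intro s hs
    have h1 := hG.mem s hs
    exact ⟨by rw [← Real.exp_log hr]; exact Real.exp_le_exp.2 h1.1,
      by rw [← Real.exp_log hR0]; exact Real.exp_le_exp.2 h1.2⟩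
  have hmeet : ∀ s ∈ J, ∀ t ∈ s, t ∈ delT S ∧ ∃ ρ ∈ Icc r R, (cT t ∩ Γ ρ).Nonempty := by
    intro s hs t ht
    obtain ⟨q, hq, hm⟩ := hG.meet s hs t ht
    refine ⟨hUT (hG.sub s hs ht), Real.exp q, ⟨?_, ?_⟩, hm⟩
    · rw [← Real.exp_log hr]; exact Real.exp_le_exp.2 hq.1
    · rw [← Real.exp_log hR0]; exact Real.exp_le_exp.2 hq.2
  have hno : ∀ s ∈ J, ∀ t ∈ s, ∀ v v', Vt t v → Vt t v' → v ∈ cs B 0 → v' ∉ cs B 2 := by
    intro s hs t ht v v' hv hv' h1 h2
    have hne : v ≠ v' := by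
      rintro rfl
      exact absurd (O.uniq h1 h2) (by decide)
    exact hadj v h1 v' h2 (Qd2x54.adj_of_vt hS (hmeet s hs t ht).1 hv hv' hne)
  have side_at : ∀ t : ℂ × ℂ × ℂ, ∀ v, Vt t v → ∃ e, LSide (net0 O.N) t e ∧ e.1 = v := by
    rintro ⟨a, b, c⟩ v hv
    rcases hv with h | h | h
    · exact ⟨(a, b), ⟨fun h => h, Or.inl rfl⟩, h.symm⟩
    · exact ⟨(b, c), ⟨fun h => h, Or.inr (Or.inl rfl)⟩, h.symm⟩
    · exact ⟨(c, a), ⟨fun h => h, Or.inr (Or.inr (Or.inl rfl))⟩, h.symm⟩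
  have hmain := Qd2x54.ep_gen O (U := U) hUT hrep
    hG.nn hG.sum hG.sub ?_ hno ?_
  · have h1 : Real.sqrt (∑ t ∈ U, cw J lam (fun s => s) t ^ 2) ≤ 1 / 2 := by
      rw [show (1 / 2 : ℝ) = Real.sqrt (1 / 4) by
        rw [show (1 / 4 : ℝ) = (1 / 2) ^ 2 by norm_num, Real.sqrt_sq (by norm_num)]]
      apply Real.sqrt_le_sqrt
      refine hsq.trans ?_
      rw [div_le_iff₀ hlogpos]
      linarith
    have h3 : Real.sqrt 3 * Real.sqrt 3 = 3 := Real.mul_self_sqrt (by norm_num)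
    have h3p : 0 < Real.sqrt 3 := Real.sqrt_pos.2 (by norm_num)
    have h3l : Real.sqrt 3 ≤ 9 / 5 := by
      rw [Real.sqrt_le_left (by norm_num)]; norm_num
    set P := Qdx54.Qd.pr S (fre S B) (cs B) 0 with hP
    have h2 : 3 / 2 ≤ Real.sqrt 3 * P + Real.sqrt 3 * (1 / 2) := by
      have := mul_le_mul_of_nonneg_left h1 h3p.le
      linarith
    by_contra hcon
    push Not at hcon
    have h4 : Real.sqrt 3 * P < Real.sqrt 3 * (1 / 3) := mul_lt_mul_of_pos_left hcon h3p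
    nlinarith
  · intro s hs t ht v hv
    obtain ⟨h1, ρ, h2, h3⟩ := hmeet s hs t ht
    rcases hvert ρ h2 t h1 h3 v hv with h4 | h4 | h4
    · exact Or.inl h4
    · exact Or.inr (Or.inl h4)
    · exact Or.inr (Or.inr h4)
  · intro s hs
    obtain ⟨t1, ht1, hm1, v1, hv1, hv1c⟩ := hfst _ (hrad s hs)
    obtain ⟨t2, ht2, hm2, v2, hv2, hv2c⟩ := hlst _ (hrad s hs)
    have hAc : ∀ t ∈ delT S, (cT t ∩ Γ (Real.exp (p s))).Nonempty →
        ∃ t' ∈ s, t' ∈ rots t := by
      intro t ht hm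
      obtain ⟨t', ht', hr'⟩ := hcovU t ht
      refine ⟨t', hG.hit s hs t' ht' ?_, hr'⟩
      show (cT t' ∩ Γ (Real.exp (p s))).Nonempty
      rwa [cT_rots hr']
    -- the first triangle in `s`
    obtain ⟨t1', ht1', hr1⟩ := hAc t1 ht1 hm1
    have hv1' : Vt t1' v1 := cT_vt hr1 hv1
    have ht1S : t1' ∈ delT S := (hmeet s hs t1' ht1').1
    have hm1' : (cT t1' ∩ Γ (Real.exp (p s))).Nonempty := by rwa [cT_rots hr1]
    obtain ⟨g, hg1, hg2⟩ := side_at t1' v1 hv1'
    obtain ⟨g', hg1', hg2'⟩ := side_at t2 v2 hv2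
    refine ⟨g, g', ?_, Or.inl (by rw [hg2]; exact hv1c), Or.inl (by rw [hg2']; exact hv2c),
      t1', ht1', hg1⟩
    exact conn_all (N := net0 O.N) hS (hpre _ (hrad s hs)) (hcov _ (hrad s hs)) (hG.off s hs)
      (fun _ _ _ _ _ _ _ h => h) hAc ht1S hm1' ht2 hm2 hg1 hg1'


end Crest.Agent.R143.HarmAx802
end
end

-- ▼ part R143/HarmB_802
section

/-!
# Row 143 (S0194), CONT: one arm up to the hull, file 2 (helper802)

* `NH` : frame at a point `x` of the circle
* `bot`, `top` : the hull sites near the axis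
* `labels` : the four arcs of the hull around `x`
* `quad` : the quad of the half annulus
-/

set_option autoImplicit false

noncomputable section

open scoped Classical

namespace Crest.Agent.R143.HarmBx802

open Set
open Crest.Agent.R143.B0x346 Crest.Agent.R143.B0Dx346 Crest.Agent.R143.DelGx806
  Crest.Agent.R143.DelRx806 Crest.Agent.R143.DomAx722 Crest.Agent.R143.DomBx722
  Crest.Agent.R143.RE0x723 Crest.Agent.R143.HULx838 Crest.Agent.R143.RE4x723
open Crest.Agent.R143.Crsx117 (M4 w_inj)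
open Crest.Agent.R143.JColx54 (Adj)

variable {S : Finset ℂ} {x0 x u s y : ℂ} {L e a R ρ θ : ℝ} {n : ℕ} {w : ℤ → ℂ}
  {i0 i1 i2 i3 : ℤ}

/-- frame at the point `x` of the circle, `u * I` = inner normal -/
structure NH (S : Finset ℂ) (x0 : ℂ) (L e : ℝ) (u x : ℂ) : Prop where
  u1 : ‖u‖ = 1
  D : Dns S x0 L e
  hx : x0 = x + u * ((L : ℂ) * Complex.I)

namespace NH

variable (H : NH S x0 L e u x)

include H

theorem e0 : 0 < e := H.D.dpos

theorem L0 : 0 < L := by linarith [H.D.dpos, H.D.dL]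

theorem une : u ≠ 0 := u_ne H.u1

theorem div_x0 : (x0 - x) / u = (L : ℂ) * Complex.I := by
  rw [H.hx, add_sub_cancel_left, mul_div_cancel_left₀ _ H.une]

theorem X0 : X x u x0 = 0 := by
  unfold X
  rw [H.div_x0]
  simp

theorem Y0 : Y x u x0 = L := by
  unfold Y
  rw [H.div_x0]
  simp


theorem sq0 (s : ℂ) : ‖s - x0‖ ^ 2 = X x u s ^ 2 + (L - Y x u s) ^ 2 := by
  have h := sq_XY (z0 := x) H.u1 s x0
  rw [H.X0, H.Y0] at h
  rw [h]
  ring

theorem sqx (s : ℂ) : ‖s - x‖ ^ 2 = X x u s ^ 2 + Y x u s ^ 2 := by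
  have h := sq_XY (z0 := x) H.u1 s x
  have h1 : X x u x = 0 := by unfold X; simp
  have h2 : Y x u x = 0 := by unfold Y; simp
  rw [h1, h2] at h
  rw [h]
  ring

theorem aX (s : ℂ) : |X x u s| ≤ ‖s - x‖ := by
  apply abs_le_of_sq_le_sq _ (norm_nonneg _)
  rw [H.sqx]
  nlinarith [sq_nonneg (Y x u s)]

theorem aY (s : ℂ) : |Y x u s| ≤ ‖s - x‖ := by
  apply abs_le_of_sq_le_sq _ (norm_nonneg _)
  rw [H.sqx]
  nlinarith [sq_nonneg (X x u s)]

/-- distance to the centre of the frame -/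
theorem dist_le (s : ℂ) : ‖s - x‖ ≤ |X x u s| + |Y x u s| := by
  apply le_of_sq_le_sq _ (by positivity)
  rw [H.sqx, add_sq, sq_abs, sq_abs]
  have : 0 ≤ 2 * |X x u s| * |Y x u s| := by positivity
  linarith

/-- a hull site near the axis, on an edge to the right, is at the bottom -/
theorem bot (h : hullE S s y) (hx : |X x u s| ≤ L / 4) (hxy : X x u s ≤ X x u y) :
    ‖s - x‖ ≤ |X x u s| + (2 * e + 2 * X x u s ^ 2 / L) := by
  have he := H.e0
  have hL := H.L0
  have h8 := H.D.dL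
  have e1 := edge_dist H.D h
  have e2 := (hull_far H.D h).1
  have e3 := H.D.sub s (hullE.mem h).1
  have e5 := H.sq0 s
  rw [cr_XY (z0 := x) H.u1, H.X0, H.Y0] at e1
  have e4 := Y_diff (z0 := x) H.u1 y s
  have hn : 0 < ‖y - s‖ := norm_pos_iff.2 (sub_ne_zero.2 (hullE.ne h).symm)
  set xx := X x u s with hxx
  set yy := Y x u s with hyy
  have hs : yy < L := by
    by_contra hcon
    push Not at hcon
    have g1 : (X x u y - xx) * (L - yy) ≤ 0 :=
      mul_nonpos_of_nonneg_of_nonpos (by linarith) (by linarith)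
    have g2 : (Y x u y - yy) * xx ≤ ‖y - s‖ * (L / 4) := by
      calc (Y x u y - yy) * xx ≤ |(Y x u y - yy) * xx| := le_abs_self _
        _ = |Y x u y - yy| * |xx| := abs_mul _ _
        _ ≤ ‖y - s‖ * (L / 4) := mul_le_mul e4 hx (abs_nonneg _) hn.le
    have g3 : (L - 2 * e) * ‖y - s‖ ≤ (L / 4) * ‖y - s‖ := by linarith
    have g4 := le_of_mul_le_mul_right g3 hn
    linarith
  have hx2 : xx ^ 2 ≤ L ^ 2 / 16 := by
    rw [← sq_abs]
    have := pow_le_pow_left₀ (abs_nonneg _) hx 2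
    linarith [show (L / 4) ^ 2 = L ^ 2 / 16 by ring]
  -- `0 ≤ Y`
  have hy0 : 0 ≤ yy := by
    by_contra hcon
    push Not at hcon
    have g1 : ‖s - x0‖ ^ 2 ≤ L ^ 2 := pow_le_pow_left₀ (norm_nonneg _) e3 2
    nlinarith
  have hyu : yy ≤ 2 * e + 2 * xx ^ 2 / L := by
    by_contra hcon
    push Not at hcon
    have g1 : (L - 2 * e) ^ 2 ≤ ‖s - x0‖ ^ 2 := pow_le_pow_left₀ (by linarith) e2 2
    set q := xx ^ 2 / L with hq
    have hq0 : 0 ≤ q := by positivity
    have hqL : q * L = xx ^ 2 := by rw [hq]; field_simp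
    have hq1 : 2 * xx ^ 2 / L = 2 * q := by rw [hq]; ring
    rw [hq1] at hcon
    have hq2 : q ≤ L / 16 := by
      rw [hq, div_le_iff₀ hL]
      linarith [show L / 16 * L = L ^ 2 / 16 by ring]
    have g2 : (L - yy) ^ 2 < (L - 2 * e - 2 * q) ^ 2 := by
      apply pow_lt_pow_left₀ _ (by linarith) (by norm_num)
      linarith
    nlinarith
  have := H.dist_le s
  rw [abs_of_nonneg hy0] at this
  linarith

/-- a hull site near the axis, on an edge to the left, is at the top -/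
theorem top (h : hullE S s y) (hx : |X x u s| ≤ L / 4) (hxy : X x u y ≤ X x u s) :
    L ≤ ‖s - x‖ := by
  have he := H.e0
  have hL := H.L0
  have h8 := H.D.dL
  have e1 := edge_dist H.D h
  rw [cr_XY (z0 := x) H.u1, H.X0, H.Y0] at e1
  have e4 := Y_diff (z0 := x) H.u1 y s
  have hn : 0 < ‖y - s‖ := norm_pos_iff.2 (sub_ne_zero.2 (hullE.ne h).symm)
  by_contra hcon
  push Not at hcon
  have hY := (le_abs_self _).trans (H.aY s)
  have g1 : (X x u y - X x u s) * (L - Y x u s) ≤ 0 :=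
    mul_nonpos_of_nonpos_of_nonneg (by linarith) (by linarith)
  have g2 : (Y x u y - Y x u s) * X x u s ≤ ‖y - s‖ * (L / 4) := by
    calc (Y x u y - Y x u s) * X x u s ≤ |(Y x u y - Y x u s) * X x u s| := le_abs_self _
      _ = |Y x u y - Y x u s| * |X x u s| := abs_mul _ _
      _ ≤ ‖y - s‖ * (L / 4) := mul_le_mul e4 hx (abs_nonneg _) hn.le
  have g3 : (L - 2 * e) * ‖y - s‖ ≤ (L / 4) * ‖y - s‖ := by linarith
  have g4 := le_of_mul_le_mul_right g3 hn
  linarith

/-- a hull site near every direction -/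
theorem near (hc : HullCyc S n w) {q : ℂ} (hq : ‖q‖ = 1) :
    ∃ i, ‖w i - (x0 + L * q)‖ ≤ 6 * Real.sqrt (L * e) := by
  obtain ⟨p, hp⟩ := crossRay_exists H.D hq
  have h1 := (crossRay_ends H.D hq hp).1
  obtain ⟨i, -, -, hi, -⟩ := hc.all _ _ hp.1
  exact ⟨i, by rw [hi]; exact h1⟩

end NH

/-- the four arcs of the hull around `x` -/
structure Lab4 (S : Finset ℂ) (x u : ℂ) (a R : ℝ) (n : ℕ) (w : ℤ → ℂ) (i0 i1 i2 i3 : ℤ) :
    Prop where
  m4 : M4 S n w i0 i1 i2 i3
  l0 : ∀ k, i0 < k → k ≤ i1 → X x u (w k) ≤ -(2 * a) ∧ ‖w k - x‖ < R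
  l1 : ∀ k, i1 < k → k ≤ i2 → ‖w k - x‖ ≤ 3 * a
  l2 : ∀ k, i2 < k → k ≤ i3 → 2 * a < X x u (w k) ∧ ‖w k - x‖ < R
  l3 : ∀ k, i3 < k → k ≤ i0 + n → R / 2 ≤ ‖w k - x‖
  mid : ∃ k, i1 < k ∧ k ≤ i2 ∧ ‖w k - x‖ ≤ a

/-- scales -/
structure Sc (L e a R : ℝ) : Prop where
  a0 : 0 < a
  h1 : 100 * Real.sqrt (L * e) ≤ a
  h2 : 16 * a ≤ R
  h3 : 100 * R ≤ L

/-- shift into the period -/
theorem shift (hc : HullCyc S n w) (i0 k : ℤ) : ∃ k', i0 < k' ∧ k' ≤ i0 + n ∧ w k' = w k := by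
  obtain ⟨l, h1, h2, h3⟩ := exists_mod (x := fun i => (w i).re) hc.pos (fun i => by
    rw [hc.per]) (i0 + 1) k
  -- use `mod_per` on `w` itself
  have hn : (0 : ℤ) < n := by exact_mod_cast hc.pos
  refine ⟨i0 + 1 + (k - (i0 + 1)) % n, ?_, ?_, ?_⟩
  · have := Int.emod_nonneg (k - (i0 + 1)) hn.ne'
    omega
  · have := Int.emod_lt_of_pos (k - (i0 + 1)) hn
    omega
  · have h := mod_per (X := ℂ) (w := fun j => w (i0 + 1 + j)) hc.pos (fun j => by
      rw [← add_assoc]; exact hc.per _) (k - (i0 + 1))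
    rw [h]
    congr 1
    ring

theorem labels (H : NH S x0 L e u x) (G : Sc L e a R) :
    ∃ n w i0 i1 i2 i3, Lab4 S x u a R n w i0 i1 i2 i3 := by
  have ha := G.a0
  have hL := H.L0
  have he := H.e0
  have h1 := G.h1
  have h2 := G.h2
  have h3 := G.h3
  have h8 := H.D.dL
  have hsq := d_le_sqrt he.le (by linarith : e ≤ L)
  obtain ⟨n, w, hc⟩ := hull_cycle H.D.gp H.D.card
  set μ := Real.sqrt (L * e) with hμ
  have hμ0 : 0 ≤ μ := Real.sqrt_nonneg _
  set g : ℕ → ℝ := fun j => if j = 1 then -(R / 2) else if j = 2 then -(2 * a) else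
    if j = 3 then 2 * a else R / 2 with hg
  have g1 : g 1 = -(R / 2) := rfl
  have g2 : g 2 = -(2 * a) := rfl
  have g3 : g 3 = 2 * a := rfl
  have g4 : g 4 = R / 2 := rfl
  obtain ⟨j0, hj0⟩ := H.near hc (q := -u) (by rw [norm_neg, H.u1])
  obtain ⟨j1, hj1⟩ := H.near hc (q := u) H.u1
  obtain ⟨p, P1, P2, P3, P4, P5, P6⟩ := pos (x := fun i => X x u (w i))
    (y := fun i => Y x u (w i)) (n := n) hc.pos
    (fun i => by rw [hc.per]) (fun i => by rw [hc.per])
    (fun i j k hij hjk hki => by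
      have := hc.conv i j k hij hjk hki
      rwa [cr_XY (z0 := x) H.u1] at this) (e := 4 * μ) (fun i => by
      have h1 := X_diff (z0 := x) H.u1 (w (i + 1)) (w i)
      exact h1.trans (edge_len H.D (hc.edge i))) (N := 3) (by norm_num) (g := g)
    (fun j hj1 hj2 => by
      have : j = 1 ∨ j = 2 ∨ j = 3 := by omega
      rcases this with rfl | rfl | rfl
      · rw [g1, show 1 + 1 = 2 from rfl, g2]; linarith
      · rw [g2, show 2 + 1 = 3 from rfl, g3]; linarith
      · rw [g3, show 3 + 1 = 4 from rfl, g4]; linarith) (i0 := j0) (i1 := j1) (by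
      have h1 := X_diff (z0 := x) H.u1 (w j0) (x0 + L * -u)
      have h2 : X x u (x0 + L * -u) = -L := by
        have := X_sub (z0 := x) (u := u) (x0 + L * -u) x0
        have e : ((L : ℂ) * -u) / u = ((-L : ℝ) : ℂ) := by
          rw [mul_neg, neg_div, mul_div_cancel_right₀ _ H.une]
          push_cast
          rfl
        rw [H.X0, add_sub_cancel_left, e, Complex.ofReal_re, sub_zero] at this
        exact this
      rw [h2] at h1
      have h3 := le_abs_self (X x u (w j0) - -L)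
      rw [g1]
      linarith) (by
      have h1 := X_diff (z0 := x) H.u1 (w j1) (x0 + L * u)
      have h2 : X x u (x0 + L * u) = L := by
        have := X_sub (z0 := x) (u := u) (x0 + L * u) x0
        rw [H.X0, add_sub_cancel_left, mul_div_cancel_right₀ _ H.une] at this
        simp only [Complex.ofReal_re] at this
        linarith
      rw [h2] at h1
      have h3 := neg_abs_le (X x u (w j1) - L)
      show g 4 < _
      rw [g4]
      linarith)
  -- the bottom sites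
  have hb : ∀ k, p 1 < k → k ≤ p 4 → X x u (w k) ≤ X x u (w (k + 1)) ∧
      -(R / 2) < X x u (w k) ∧ X x u (w k) ≤ R / 2 := by
    intro k k1 k2
    rcases le_or_gt k (p 2) with k3 | k3
    · obtain ⟨q1, q2, q3⟩ := P4 1 le_rfl (by norm_num) k k1 k3
      rw [g1] at q1
      rw [show 1 + 1 = 2 from rfl, g2] at q2
      exact ⟨q3, q1, by linarith⟩
    rcases le_or_gt k (p 3) with k4 | k4
    · obtain ⟨q1, q2, q3⟩ := P4 2 (by norm_num) (by norm_num) k k3 k4
      rw [g2] at q1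
      rw [show 2 + 1 = 3 from rfl, g3] at q2
      exact ⟨q3, by linarith, by linarith⟩
    · obtain ⟨q1, q2, q3⟩ := P4 3 (by norm_num) (by norm_num) k k4 k2
      rw [g3] at q1
      rw [show 3 + 1 = 4 from rfl, g4] at q2
      exact ⟨q3, by linarith, by linarith⟩
  have hbd : ∀ k, p 1 < k → k ≤ p 4 → ‖w k - x‖ ≤ |X x u (w k)| + (2 * e + R / 100) := by
    intro k k1 k2
    obtain ⟨q1, q2, q3⟩ := hb k k1 k2
    have q4 : |X x u (w k)| ≤ R / 2 := abs_le.2 ⟨by linarith, q3⟩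
    have q5 := H.bot (hc.edge k) (by linarith) q1
    have q6 : 2 * X x u (w k) ^ 2 / L ≤ R / 100 := by
      rw [div_le_iff₀ hL]
      have q7 : X x u (w k) ^ 2 ≤ (R / 2) ^ 2 := by
        rw [← sq_abs]
        exact pow_le_pow_left₀ (abs_nonneg _) q4 2
      nlinarith
    linarith
  have m1 := P1 0 (by norm_num)
  have m2 := P1 1 (by norm_num)
  have m3 := P1 2 (by norm_num)
  have m4 := P1 3 (by norm_num)
  have m5 := P1 4 (by norm_num)
  simp only [show 0 + 1 = 1 from rfl, show 1 + 1 = 2 from rfl, show 2 + 1 = 3 from rfl,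
    show 3 + 1 = 4 from rfl, show 4 + 1 = 5 from rfl] at m1 m2 m3 m4 m5 P2 P5 P6
  -- far sites
  have hfar : ∀ k, p 4 < k → k ≤ p 1 + n → R / 2 ≤ ‖w k - x‖ := by
    intro k k1 k2
    rcases le_or_gt k (p 5) with k3 | k3
    · have := P5 k k1 k3
      rw [g4] at this
      exact this.le.trans ((le_abs_self _).trans (H.aX _))
    rcases le_or_gt k (p 0 + n) with k4 | k4
    · obtain ⟨q1, q2, q3⟩ := P6 k k3 k4
      rw [g1] at q1
      rw [g4] at q2
      have := H.top (hc.edge k) (abs_le.2 ⟨by linarith, by linarith⟩) q3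
      linarith
    · have q1 := P3 (k - n) (by omega) (by omega)
      have q2 := hc.per (k - n)
      rw [sub_add_cancel] at q2
      rw [g1, ← q2] at q1
      have := H.aX (w k)
      have := neg_abs_le (X x u (w k))
      linarith
  refine ⟨n, w, p 1, p 2, p 3, p 4, ⟨hc, m2, m3, m4, by omega⟩, ?_, ?_, ?_, ?_, ?_⟩
  · intro k k1 k2
    obtain ⟨q1, q2, q3⟩ := P4 1 le_rfl (by norm_num) k k1 k2
    rw [g1] at q1
    rw [show 1 + 1 = 2 from rfl, g2] at q2
    refine ⟨q2, ?_⟩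
    have q4 := hbd k k1 (by omega)
    have q5 : |X x u (w k)| ≤ R / 2 := abs_le.2 ⟨by linarith, by linarith⟩
    linarith
  · intro k k1 k2
    obtain ⟨q1, q2, q3⟩ := P4 2 (by norm_num) (by norm_num) k k1 k2
    rw [g2] at q1
    rw [show 2 + 1 = 3 from rfl, g3] at q2
    have q5 : |X x u (w k)| ≤ 2 * a := abs_le.2 ⟨by linarith, by linarith⟩
    have q6 := H.bot (hc.edge k) (by linarith) q3
    have q7 : 2 * X x u (w k) ^ 2 / L ≤ a / 10 := by
      rw [div_le_iff₀ hL]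
      have q7 : X x u (w k) ^ 2 ≤ (2 * a) ^ 2 := by
        rw [← sq_abs]
        exact pow_le_pow_left₀ (abs_nonneg _) q5 2
      nlinarith
    linarith
  · intro k k1 k2
    obtain ⟨q1, q2, q3⟩ := P4 3 (by norm_num) (by norm_num) k k1 k2
    rw [g3] at q1
    rw [show 3 + 1 = 4 from rfl, g4] at q2
    refine ⟨q1, ?_⟩
    have q4 := hbd k (by omega) k2
    have q5 : |X x u (w k)| ≤ R / 2 := abs_le.2 ⟨by linarith, by linarith⟩
    linarith
  · exact hfar
  · -- the site near `x`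
    obtain ⟨k, hk⟩ := H.near hc (q := -(u * Complex.I)) (by
      rw [norm_neg, norm_mul, H.u1, Complex.norm_I, one_mul])
    have e1 : x0 + L * -(u * Complex.I) = x := by
      rw [H.hx]; ring
    rw [e1] at hk
    have hka : ‖w k - x‖ ≤ a := by linarith
    obtain ⟨k', k1, k2, k3⟩ := shift hc (p 1) k
    rw [← k3] at hka
    refine ⟨k', ?_, ?_, hka⟩
    · by_contra hcon
      push Not at hcon
      obtain ⟨q1, q2, q3⟩ := P4 1 le_rfl (by norm_num) k' k1 hcon
      rw [show 1 + 1 = 2 from rfl, g2] at q2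
      have := H.aX (w k')
      have := neg_abs_le (X x u (w k'))
      linarith
    · by_contra hcon
      push Not at hcon
      rcases le_or_gt k' (p 4) with k4 | k4
      · obtain ⟨q1, q2, q3⟩ := P4 3 (by norm_num) (by norm_num) k' hcon k4
        rw [g3] at q1
        have := H.aX (w k')
        have := le_abs_self (X x u (w k'))
        linarith
      · have := hfar k' k4 k2
        linarith

/-! ### the quad -/

/-- the classes -/
def Bc (S : Finset ℂ) (x : ℂ) (a R : ℝ) (n : ℕ) (w : ℤ → ℂ) (i0 i1 i2 i3 : ℤ) (c : ZMod 4) :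
    Finset ℂ :=
  if c = 0 then S.filter fun s => ∃ k, i0 < k ∧ k ≤ i1 ∧ s = w k
  else if c = 1 then S.filter fun s => ‖s - x‖ ≤ a ∨ ∃ k, i1 < k ∧ k ≤ i2 ∧ s = w k
  else if c = 2 then S.filter fun s => ∃ k, i2 < k ∧ k ≤ i3 ∧ s = w k
  else S.filter fun s => R ≤ ‖s - x‖ ∨ ∃ k, i3 < k ∧ k ≤ i0 + n ∧ s = w k

theorem mem0 : s ∈ Bc S x a R n w i0 i1 i2 i3 0 ↔ s ∈ S ∧ ∃ k, i0 < k ∧ k ≤ i1 ∧ s = w k := by
  unfold Bc
  rw [if_pos rfl, Finset.mem_filter]

theorem mem1 : s ∈ Bc S x a R n w i0 i1 i2 i3 1 ↔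
    s ∈ S ∧ (‖s - x‖ ≤ a ∨ ∃ k, i1 < k ∧ k ≤ i2 ∧ s = w k) := by
  unfold Bc
  rw [if_neg (by decide), if_pos rfl, Finset.mem_filter]

theorem mem2 : s ∈ Bc S x a R n w i0 i1 i2 i3 2 ↔ s ∈ S ∧ ∃ k, i2 < k ∧ k ≤ i3 ∧ s = w k := by
  unfold Bc
  rw [if_neg (by decide), if_neg (by decide), if_pos rfl, Finset.mem_filter]

theorem mem3 : s ∈ Bc S x a R n w i0 i1 i2 i3 3 ↔
    s ∈ S ∧ (R ≤ ‖s - x‖ ∨ ∃ k, i3 < k ∧ k ≤ i0 + n ∧ s = w k) := by
  unfold Bc
  rw [if_neg (by decide), if_neg (by decide), if_neg (by decide), Finset.mem_filter]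

theorem z4 (k : ZMod 4) : k = 0 ∨ k = 1 ∨ k = 2 ∨ k = 3 := by revert k; decide

theorem w_mem (hc : HullCyc S n w) (k : ℤ) : w k ∈ S := (hullE.mem (hc.edge k)).1

theorem run (hc : HullCyc S n w) {V : Set ℂ} (i : ℤ) : ∀ l : ℕ,
    (∀ k, i ≤ k → k ≤ i + l → w k ∈ V) → Pth S V (w i) (w (i + l)) := by
  intro l
  induction l with
  | zero =>
    intro h
    have := Pth.refl (S := S) (h i le_rfl (by simp))
    simpa using this
  | succ l ih =>
    intro h
    have h1 := ih (fun k h1 h2 => h k h1 (by push_cast; omega))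
    have h2 : Adj S (w (i + l)) (w (i + l + 1)) := Or.inl (hc.edge (i + l)).1
    have e : i + ((l + 1 : ℕ) : ℤ) = i + l + 1 := by push_cast; ring
    rw [e]
    exact h1.tail h2 (h _ (by omega) (by push_cast; omega))

theorem run' (hc : HullCyc S n w) {V : Set ℂ} {i j : ℤ} (hV : ∀ k, i < k → k ≤ j → w k ∈ V)
    {k k' : ℤ} (h1 : i < k) (h2 : k ≤ j) (h3 : i < k') (h4 : k' ≤ j) : Pth S V (w k) (w k') := by
  have key : ∀ k k' : ℤ, i < k → k ≤ k' → k' ≤ j → Pth S V (w k) (w k') := by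
    intro k k' h1 h2 h3
    obtain ⟨l, rfl⟩ := Int.le.dest h2
    exact run hc k l fun q q1 q2 => hV q (by omega) (by omega)
  rcases le_total k k' with h | h
  · exact key k k' h1 h h4
  · exact (key k' k h3 h h2).symm

theorem idx (hc : HullCyc S n w) {i k k' : ℤ} (h1 : i < k) (h2 : k ≤ i + n) (h3 : i < k')
    (h4 : k' ≤ i + n) (e : w k = w k') : k = k' := by
  rcases le_total k k' with h | h
  · exact w_inj hc h (by omega) e
  · exact (w_inj hc h (by omega) e.symm).symm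

/-- the path keeps to the sites -/
theorem pth_in {V : Set ℂ} {x y : ℂ} (h : Pth S V x y) (hx : x ∈ S) :
    Pth S {z | z ∈ V ∧ z ∈ S} x y := by
  refine ⟨⟨h.1, hx⟩, ?_⟩
  refine Relation.ReflTransGen.mono ?_ _ _ h.2
  rintro a b ⟨h1, h2⟩
  refine ⟨h1, h2, ?_⟩
  rcases h1 with ⟨c, hc⟩ | ⟨c, hc⟩
  · exact (mem_delT.1 hc).2.1
  · exact (mem_delT.1 hc).1

/-- the sites in a ball are connected -/
theorem ball_con (hS : GP (S : Set ℂ)) (h3 : 3 ≤ S.card) (x : ℂ) : ∃ x1 ∈ S, ∀ s ∈ S,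
    Pth S {z | z ∈ S ∧ ‖z - x‖ ≤ ‖s - x‖} x1 s := by
  obtain ⟨x1, hx1, hmin⟩ := S.exists_min_image (fun s => ‖x - s‖) (Finset.card_pos.1 (by omega))
  refine ⟨x1, hx1, fun s hs => ?_⟩
  have h1 : Nearx440.Nst {s} x s := ⟨Finset.mem_singleton_self s, fun e he => by
    rw [Finset.mem_singleton.1 he]⟩
  have h2 := h1.path hS h3 (by
    intro z hz
    rw [Finset.mem_singleton.1 hz]
    exact hs) (fun e he hne => absurd (Finset.mem_singleton.1 he) hne) hx1
    (fun t ht => hmin t ht)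
  refine (pth_in h2 hx1).mono ?_
  rintro z ⟨⟨-, h3, -⟩, h4⟩
  refine ⟨h4, ?_⟩
  rw [norm_sub_rev s x]
  exact h3

theorem dt_far {z s x : ℂ} (h : 0 ≤ dt (z - s) (s - x)) : ‖s - x‖ ≤ ‖z - x‖ := by
  apply le_of_sq_le_sq _ (norm_nonneg _)
  unfold dt at h
  rw [Complex.sq_norm, Complex.sq_norm, Complex.normSq_apply, Complex.normSq_apply]
  simp only [Complex.sub_re, Complex.sub_im] at h ⊢
  nlinarith [sq_nonneg (z.re - s.re), sq_nonneg (z.im - s.im)]

variable (H : NH S x0 L e u x) (G : Sc L e a R) (Q : Lab4 S x u a R n w i0 i1 i2 i3)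

include H G Q in
/-- **the quad of the half annulus** -/
theorem quad : Qd S n w i0 i1 i2 i3 (Bc S x a R n w i0 i1 i2 i3) := by
  have ha := G.a0
  have h2 := G.h2
  have hc := Q.m4.cyc
  have hS := H.D.gp
  have m1 := Q.m4.h01
  have m2 := Q.m4.h12
  have m3 := Q.m4.h23
  have m4 := Q.m4.h30
  have hwS := w_mem hc
  have nX : ∀ s : ℂ, X x u s ≤ ‖s - x‖ ∧ -X x u s ≤ ‖s - x‖ := fun s =>
    ⟨(le_abs_self _).trans (H.aX s), (neg_le_abs _).trans (H.aX s)⟩
  refine ⟨hS, Q.m4, ?_, ?_, ?_, ?_, ?_, ?_, ?_⟩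
  · intro c
    rcases z4 c with rfl | rfl | rfl | rfl
    · exact fun s hs => (mem0.1 hs).1
    · exact fun s hs => (mem1.1 hs).1
    · exact fun s hs => (mem2.1 hs).1
    · exact fun s hs => (mem3.1 hs).1
  · -- disjoint
    have d01 : Disjoint (Bc S x a R n w i0 i1 i2 i3 0) (Bc S x a R n w i0 i1 i2 i3 1) := by
      rw [Finset.disjoint_left]
      intro s hs hs'
      obtain ⟨-, k, k1, k2, rfl⟩ := mem0.1 hs
      obtain ⟨-, h | ⟨k', k3, k4, k5⟩⟩ := mem1.1 hs'
      · have := (Q.l0 k k1 k2).1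
        have := (nX (w k)).2
        linarith
      · have := idx hc (i := i0) k1 (by omega) (by omega) (by omega) k5
        omega
    have d02 : Disjoint (Bc S x a R n w i0 i1 i2 i3 0) (Bc S x a R n w i0 i1 i2 i3 2) := by
      rw [Finset.disjoint_left]
      intro s hs hs'
      obtain ⟨-, k, k1, k2, rfl⟩ := mem0.1 hs
      obtain ⟨-, k', k3, k4, k5⟩ := mem2.1 hs'
      have := idx hc (i := i0) k1 (by omega) (by omega) (by omega) k5
      omega
    have d03 : Disjoint (Bc S x a R n w i0 i1 i2 i3 0) (Bc S x a R n w i0 i1 i2 i3 3) := by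
      rw [Finset.disjoint_left]
      intro s hs hs'
      obtain ⟨-, k, k1, k2, rfl⟩ := mem0.1 hs
      obtain ⟨-, h | ⟨k', k3, k4, k5⟩⟩ := mem3.1 hs'
      · have := (Q.l0 k k1 k2).2
        linarith
      · have := idx hc (i := i0) k1 (by omega) (by omega) (by omega) k5
        omega
    have d12 : Disjoint (Bc S x a R n w i0 i1 i2 i3 1) (Bc S x a R n w i0 i1 i2 i3 2) := by
      rw [Finset.disjoint_left]
      intro s hs hs'
      obtain ⟨-, k, k1, k2, rfl⟩ := mem2.1 hs'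
      obtain ⟨-, h | ⟨k', k3, k4, k5⟩⟩ := mem1.1 hs
      · have := (Q.l2 k k1 k2).1
        have := (nX (w k)).1
        linarith
      · have := idx hc (i := i0) (by omega) (by omega) (by omega) (by omega) k5
        omega
    have d13 : Disjoint (Bc S x a R n w i0 i1 i2 i3 1) (Bc S x a R n w i0 i1 i2 i3 3) := by
      rw [Finset.disjoint_left]
      intro s hs hs'
      obtain ⟨-, h | ⟨k, k1, k2, k5⟩⟩ := mem1.1 hs
      · obtain ⟨-, h' | ⟨k', k3, k4, k5⟩⟩ := mem3.1 hs'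
        · linarith
        · have := Q.l3 k' k3 k4
          rw [← k5] at this
          linarith
      · have h := Q.l1 k k1 k2
        rw [← k5] at h
        obtain ⟨-, h' | ⟨k', k3, k4, k5⟩⟩ := mem3.1 hs'
        · linarith
        · have := Q.l3 k' k3 k4
          rw [← k5] at this
          linarith
    have d23 : Disjoint (Bc S x a R n w i0 i1 i2 i3 2) (Bc S x a R n w i0 i1 i2 i3 3) := by
      rw [Finset.disjoint_left]
      intro s hs hs'
      obtain ⟨-, k, k1, k2, rfl⟩ := mem2.1 hs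
      obtain ⟨-, h | ⟨k', k3, k4, k5⟩⟩ := mem3.1 hs'
      · have := (Q.l2 k k1 k2).2
        linarith
      · have := idx hc (i := i0) (by omega) (by omega) (by omega) (by omega) k5
        omega
    intro i j hij
    rcases z4 i with rfl | rfl | rfl | rfl <;> rcases z4 j with rfl | rfl | rfl | rfl
    · exact absurd rfl hij
    · exact d01
    · exact d02
    · exact d03
    · exact d01.symm
    · exact absurd rfl hij
    · exact d12
    · exact d13
    · exact d02.symm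
    · exact d12.symm
    · exact absurd rfl hij
    · exact d23
    · exact d03.symm
    · exact d13.symm
    · exact d23.symm
    · exact absurd rfl hij
  · -- connected
    intro c
    rcases z4 c with rfl | rfl | rfl | rfl
    · intro s hs t ht
      obtain ⟨-, k, k1, k2, rfl⟩ := mem0.1 hs
      obtain ⟨-, k', k3, k4, rfl⟩ := mem0.1 ht
      exact run' hc (fun q q1 q2 => Finset.mem_coe.2 (mem0.2 ⟨hwS q, q, q1, q2, rfl⟩)) k1 k2 k3 k4
    · obtain ⟨x1, hx1, hb⟩ := ball_con hS H.D.card x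
      obtain ⟨km, km1, km2, km3⟩ := Q.mid
      have hball : ∀ s ∈ S, ‖s - x‖ ≤ a →
          Pth S (Bc S x a R n w i0 i1 i2 i3 1 : Set ℂ) x1 s := by
        intro s hs hsa
        refine (hb s hs).mono ?_
        rintro z ⟨h1, h2⟩
        exact Finset.mem_coe.2 (mem1.2 ⟨h1, Or.inl (h2.trans hsa)⟩)
      have key : ∀ s ∈ Bc S x a R n w i0 i1 i2 i3 1,
          Pth S (Bc S x a R n w i0 i1 i2 i3 1 : Set ℂ) x1 s := by
        intro s hs
        obtain ⟨hsS, h | ⟨k, k1, k2, rfl⟩⟩ := mem1.1 hs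
        · exact hball s hsS h
        · exact (hball _ (hwS km) km3).trans (run' hc (fun q q1 q2 =>
            Finset.mem_coe.2 (mem1.2 ⟨hwS q, Or.inr ⟨q, q1, q2, rfl⟩⟩)) km1 km2 k1 k2)
      intro s hs t ht
      exact (key s hs).symm.trans (key t ht)
    · intro s hs t ht
      obtain ⟨-, k, k1, k2, rfl⟩ := mem2.1 hs
      obtain ⟨-, k', k3, k4, rfl⟩ := mem2.1 ht
      exact run' hc (fun q q1 q2 => Finset.mem_coe.2 (mem2.2 ⟨hwS q, q, q1, q2, rfl⟩)) k1 k2 k3 k4
    · have hh : ∀ k, i3 < k → k ≤ i0 + n →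
          Pth S (Bc S x a R n w i0 i1 i2 i3 3 : Set ℂ) (w k) (w (i0 + n)) := by
        intro k k1 k2
        exact run' hc (fun q q1 q2 => Finset.mem_coe.2 (mem3.2 ⟨hwS q, Or.inr ⟨q, q1, q2, rfl⟩⟩))
          k1 k2 m4 le_rfl
      have key : ∀ s ∈ Bc S x a R n w i0 i1 i2 i3 3,
          Pth S (Bc S x a R n w i0 i1 i2 i3 3 : Set ℂ) s (w (i0 + n)) := by
        intro s hs
        obtain ⟨hsS, h | ⟨k, k1, k2, rfl⟩⟩ := mem3.1 hs
        · have hne : s - x ≠ 0 := by
            intro h0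
            rw [h0, norm_zero] at h
            linarith
          obtain ⟨x', y', hxy, hp⟩ := walkH hS H.D.card hne _ s hsS le_rfl
          have hx' : R ≤ ‖x' - x‖ := h.trans (dt_far hp.snd.2)
          obtain ⟨k0, -, -, hk0, -⟩ := hc.all _ _ hxy
          obtain ⟨k, k1, k2, k3⟩ := shift hc i0 k0
          rw [hk0] at k3
          have h1 : Pth S (Bc S x a R n w i0 i1 i2 i3 3 : Set ℂ) s x' := by
            refine hp.mono ?_
            rintro z ⟨z1, z2⟩
            exact Finset.mem_coe.2 (mem3.2 ⟨z1, Or.inl (h.trans (dt_far z2))⟩)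
          have h3 : i3 < k := by
            by_contra hcon
            push Not at hcon
            rw [← k3] at hx'
            rcases le_or_gt k i1 with h4 | h4
            · have := (Q.l0 k k1 h4).2
              linarith
            rcases le_or_gt k i2 with h5 | h5
            · have := Q.l1 k h4 h5
              linarith
            · have := (Q.l2 k h5 hcon).2
              linarith
          rw [← k3] at h1
          exact h1.trans (hh k h3 k2)
        · exact hh k k1 k2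
      intro s hs t ht
      exact (key s hs).trans (key t ht).symm
  · exact fun k k1 k2 => mem0.2 ⟨hwS k, k, k1, k2, rfl⟩
  · exact fun k k1 k2 => mem1.2 ⟨hwS k, Or.inr ⟨k, k1, k2, rfl⟩⟩
  · exact fun k k1 k2 => mem2.2 ⟨hwS k, k, k1, k2, rfl⟩
  · exact fun k k1 k2 => mem3.2 ⟨hwS k, Or.inr ⟨k, k1, k2, rfl⟩⟩

end Crest.Agent.R143.HarmBx802
end
end

-- ▼ part R143/HarmC_802
section

/-!
# Row 143 (S0194), CONT: one arm up to the hull, file 3 (helper802)

* `hit` : the circle around `x` meets the hull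
* `cross` : white crossing of the half annulus, probability `≥ 1/3`
* `arm1` : one scale; `arm_pow` : many scales
-/

set_option autoImplicit false

noncomputable section

open scoped Classical

namespace Crest.Agent.R143.HarmCx802

open Set
open Crest.Agent.R143.B0x346 Crest.Agent.R143.B0Dx346 Crest.Agent.R143.DelGx806
  Crest.Agent.R143.DelRx806 Crest.Agent.R143.DomAx722 Crest.Agent.R143.DomBx722
  Crest.Agent.R143.RE0x723 Crest.Agent.R143.HULx838 Crest.Agent.R143.RE4x723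
  Crest.Agent.R143.HarmBx802 Crest.Agent.R143.Circx63
open Crest.Agent.R143.Crsx117 (M4 w_inj)
open Crest.Agent.R143.JColx54 (Adj)
open Crest.Agent.R143.RB2x54 (Vt)
open Crest.Agent.R143.Scalx63 (dm vertex_mem)
open Crest.Agent.R143.Harx315 (pr)
open Crest.Agent.R143.D3Fx802 (CArm)
open Crest.Agent.R143.Lawx872 (ConnIn)

variable {S : Finset ℂ} {x0 x u s y : ℂ} {L e a R ρ θ : ℝ} {n : ℕ} {w : ℤ → ℂ}
  {i0 i1 i2 i3 : ℤ}

/-- the points of the circle with centre `x` -/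
def pt (x u : ℂ) (ρ θ : ℝ) : ℂ :=
  x + u * (((ρ * Real.sin θ : ℝ) : ℂ) + ((ρ * Real.cos θ : ℝ) : ℂ) * Complex.I)

theorem pt_div (hu : u ≠ 0) : (pt x u ρ θ - x) / u =
    ((ρ * Real.sin θ : ℝ) : ℂ) + ((ρ * Real.cos θ : ℝ) : ℂ) * Complex.I := by
  unfold pt
  rw [add_sub_cancel_left, mul_div_cancel_left₀ _ hu]

theorem X_pt (hu : u ≠ 0) : X x u (pt x u ρ θ) = ρ * Real.sin θ := by
  unfold X
  rw [pt_div hu]
  simp only [Complex.add_re, Complex.ofReal_re, Complex.mul_re, Complex.I_re, Complex.I_im,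
    Complex.ofReal_im, mul_zero, mul_one, sub_self, add_zero]

theorem Y_pt (hu : u ≠ 0) : Y x u (pt x u ρ θ) = ρ * Real.cos θ := by
  unfold Y
  rw [pt_div hu]
  simp only [Complex.add_im, Complex.ofReal_re, Complex.mul_im, Complex.I_re, Complex.I_im,
    Complex.ofReal_im, mul_zero, mul_one, zero_add, add_zero]

theorem cont_pt : Continuous fun θ : ℝ => pt x u ρ θ := by
  unfold pt
  fun_prop

variable (H : NH S x0 L e u x)

include H in
theorem norm_pt (hρ : 0 ≤ ρ) : ‖pt x u ρ θ - x‖ = ρ := by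
  have h := H.sqx (pt x u ρ θ)
  rw [X_pt H.une, Y_pt H.une] at h
  have h1 : ‖pt x u ρ θ - x‖ ^ 2 = ρ ^ 2 := by
    rw [h, mul_pow, mul_pow, ← mul_add, Real.sin_sq_add_cos_sq, mul_one]
  exact (pow_left_inj₀ (norm_nonneg _) hρ (by norm_num)).1 h1

include H in
theorem inHull_of (h : ‖y - x0‖ ≤ L - 2 * e) : InHull S y := by
  intro b c hbc
  have h1 := edge_dist H.D hbc
  have h2 : cr (c - b) (y - b) = cr (c - b) (x0 - b) + cr (c - b) (y - x0) := by
    rw [← cr_add_right]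
    congr 1
    ring
  have h3 := abs_cr_le (c - b) (y - x0)
  have h4 := neg_abs_le (cr (c - b) (y - x0))
  have h5 : ‖c - b‖ * ‖y - x0‖ ≤ ‖c - b‖ * (L - 2 * e) :=
    mul_le_mul_of_nonneg_left h (norm_nonneg _)
  rw [h2]
  linarith

include H in
theorem norm_of_inHull (h : InHull S y) : ‖y - x0‖ ≤ L := by
  obtain ⟨b, c, d, o, hT, hy, -⟩ := cover H.D.gp H.D.card h
  have hm := mem_delT.1 (mem_delT_iff.2 ⟨o, hT⟩)
  exact inT_ball hT.pos hy (H.D.sub _ hm.1) (H.D.sub _ hm.2.1) (H.D.sub _ hm.2.2.1)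

include H in
/-- **the circle around `x` meets the hull** -/
theorem hit (hρ1 : 2 * e ≤ ρ) (hρ2 : ρ ≤ L) {σ : ℝ} (hσ : σ = 1 ∨ σ = -1) :
    ∃ τ ∈ Icc (0 : ℝ) (Real.pi / 2), (∀ θ ∈ Icc 0 τ, InHull S (pt x u ρ (σ * θ))) ∧
      ∃ b c, hullE S b c ∧ pt x u ρ (σ * τ) ∈ segment ℝ b c := by
  have he := H.e0
  have hL := H.L0
  have hρ0 : 0 < ρ := by linarith
  have hpi := Real.pi_pos
  set E : Finset (ℂ × ℂ) := (S ×ˢ S).filter fun q => hullE S q.1 q.2 with hE
  have memE : ∀ b c, hullE S b c → (b, c) ∈ E := fun b c h =>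
    Finset.mem_filter.2 ⟨Finset.mem_product.2 ⟨(hullE.mem h).1, (hullE.mem h).2⟩, h⟩
  set f : ℂ × ℂ → ℝ → ℝ := fun q θ => cr (q.2 - q.1) (pt x u ρ (σ * θ) - q.1) with hf
  have hfc : ∀ q, Continuous (f q) := by
    intro q
    have h1 : Continuous fun θ : ℝ => pt x u ρ (σ * θ) :=
      cont_pt.comp (continuous_const.mul continuous_id)
    exact (continuous_cr q.1 q.2).comp h1
  set Z : Set ℝ := Icc (0 : ℝ) (Real.pi / 2) ∩ ⋃ q ∈ E, {θ | f q θ ≤ 0} with hZ
  have hZc : IsCompact Z := by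
    apply isCompact_Icc.inter_right
    exact isClosed_biUnion_finset fun q _ => isClosed_le (hfc q) continuous_const
  have hZn : Z.Nonempty := by
    refine ⟨Real.pi / 2, ⟨by positivity, le_rfl⟩, ?_⟩
    by_contra hcon
    have h1 : InHull S (pt x u ρ (σ * (Real.pi / 2))) := by
      intro b c hbc
      by_contra h2
      push Not at h2
      apply hcon
      rw [Set.mem_iUnion₂]
      exact ⟨(b, c), memE b c hbc, h2.le⟩
    have h2 := norm_of_inHull H h1
    have h3 := H.sq0 (pt x u ρ (σ * (Real.pi / 2)))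
    rw [X_pt H.une, Y_pt H.une] at h3
    have h4 : Real.cos (σ * (Real.pi / 2)) = 0 := by
      rcases hσ with rfl | rfl
      · rw [one_mul, Real.cos_pi_div_two]
      · rw [neg_one_mul, Real.cos_neg, Real.cos_pi_div_two]
    have h5 : Real.sin (σ * (Real.pi / 2)) ^ 2 = 1 := by
      have := Real.sin_sq_add_cos_sq (σ * (Real.pi / 2))
      rw [h4] at this
      linarith [show (0 : ℝ) ^ 2 = 0 by norm_num]
    rw [h4, mul_pow, h5, mul_one, mul_zero, sub_zero] at h3
    have h6 : ‖pt x u ρ (σ * (Real.pi / 2)) - x0‖ ^ 2 ≤ L ^ 2 :=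
      pow_le_pow_left₀ (norm_nonneg _) h2 2
    have h7 : 0 < ρ ^ 2 := by positivity
    linarith
  set τ := sInf Z with hτ
  have hτZ : τ ∈ Z := hZc.sInf_mem hZn
  have hlt : ∀ θ, 0 ≤ θ → θ < τ → ∀ q ∈ E, 0 < f q θ := by
    intro θ h1 h2 q hq
    by_contra hcon
    push Not at hcon
    have h3 : θ ∈ Z := ⟨⟨h1, h2.le.trans hτZ.1.2⟩, Set.mem_iUnion₂.2 ⟨q, hq, hcon⟩⟩
    exact absurd (csInf_le hZc.bddBelow h3) (not_le.2 h2)
  have hτ0 : ∀ q ∈ E, 0 ≤ f q τ := by
    intro q hq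
    rcases eq_or_lt_of_le hτZ.1.1 with h | h
    · -- at the deepest point
      have h1 : InHull S (pt x u ρ (σ * τ)) := by
        apply inHull_of H
        rw [← h, mul_zero]
        have h3 := H.sq0 (pt x u ρ 0)
        rw [X_pt H.une, Y_pt H.une, Real.sin_zero, Real.cos_zero, mul_zero, mul_one] at h3
        have h4 : ‖pt x u ρ 0 - x0‖ ^ 2 = (L - ρ) ^ 2 := by rw [h3]; ring
        have h5 := (pow_left_inj₀ (norm_nonneg _) (by linarith : 0 ≤ L - ρ) (by norm_num)).1 h4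
        rw [h5]
        linarith
      exact h1 q.1 q.2 (Finset.mem_filter.1 hq).2
    · have h1 : Icc 0 τ ⊆ {θ | 0 ≤ f q θ} := by
        rw [← closure_Ico h.ne]
        apply closure_minimal _ (isClosed_le continuous_const (hfc q))
        intro θ hθ
        exact (hlt θ hθ.1 hθ.2 q hq).le
      exact h1 ⟨h.le, le_rfl⟩
  refine ⟨τ, hτZ.1, ?_, ?_⟩
  · intro θ hθ b c hbc
    rcases eq_or_lt_of_le hθ.2 with h | h
    · rw [h]
      exact hτ0 (b, c) (memE b c hbc)
    · exact (hlt θ hθ.1 h (b, c) (memE b c hbc)).le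
  · obtain ⟨q, hq, hq0⟩ := Set.mem_iUnion₂.1 hτZ.2
    have hq1 : hullE S q.1 q.2 := (Finset.mem_filter.1 hq).2
    have h1 : InHull S (pt x u ρ (σ * τ)) := fun b c hbc => hτ0 (b, c) (memE b c hbc)
    exact ⟨q.1, q.2, hq1, mem_edge H.D.gp H.D.card hq1 h1 (le_antisymm hq0 (hτ0 q hq))⟩

include H in
theorem near_vt {t : ℂ × ℂ × ℂ} (ht : t ∈ delT S) (hy : y ∈ cT t) {v : ℂ} (hv : Vt t v) :
    ‖y - v‖ ≤ 5 * Real.sqrt (L * e) := by
  obtain ⟨b, c, d⟩ := t
  obtain ⟨o, hT⟩ := mem_delT_iff.1 ht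
  have h1 : ∀ p q : ℂ, Adj S p q → ‖p - q‖ ≤ 5 * Real.sqrt (L * e) := fun p q h => edge5 H.D h
  have h0 : (0 : ℝ) ≤ 5 * Real.sqrt (L * e) := by positivity
  have hr := H.D.gp
  have t2 := JColx54.delT_rot hr ht
  have t3 := JColx54.delT_rot hr t2
  have hv' : v = b ∨ v = c ∨ v = d := hv
  have e1 : ‖(b : ℂ) - v‖ ≤ 5 * Real.sqrt (L * e) := by
    rcases hv' with rfl | rfl | rfl
    · rw [sub_self, norm_zero]; exact h0
    · exact h1 _ _ (Or.inl ⟨_, ht⟩)
    · exact h1 _ _ (Or.inr ⟨_, t3⟩)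
  have e2 : ‖(c : ℂ) - v‖ ≤ 5 * Real.sqrt (L * e) := by
    rcases hv' with rfl | rfl | rfl
    · exact h1 _ _ (Or.inr ⟨_, ht⟩)
    · rw [sub_self, norm_zero]; exact h0
    · exact h1 _ _ (Or.inl ⟨_, t2⟩)
  have e3 : ‖(d : ℂ) - v‖ ≤ 5 * Real.sqrt (L * e) := by
    rcases hv' with rfl | rfl | rfl
    · exact h1 _ _ (Or.inl ⟨_, t3⟩)
    · exact h1 _ _ (Or.inr ⟨_, t2⟩)
    · rw [sub_self, norm_zero]; exact h0
  exact inT_ball hT.pos hy e1 e2 e3

theorem seg_cT {b c d : ℂ} (h : 0 < cr (c - b) (d - b)) (hy : y ∈ segment ℝ b c) :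
    y ∈ cT (b, c, d) := by
  obtain ⟨α, β, h1, h2, h3, rfl⟩ := hy
  have hβ : β = 1 - α := by linarith
  subst hβ
  unfold cr at h
  simp only [Complex.sub_re, Complex.sub_im] at h
  refine ⟨?_, ?_, ?_⟩
  · unfold cr
    simp only [Complex.sub_re, Complex.sub_im, Complex.add_re, Complex.add_im, Complex.real_smul,
      Complex.mul_re, Complex.mul_im, Complex.ofReal_re, Complex.ofReal_im]
    nlinarith
  · unfold cr
    simp only [Complex.sub_re, Complex.sub_im, Complex.add_re, Complex.add_im, Complex.real_smul,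
      Complex.mul_re, Complex.mul_im, Complex.ofReal_re, Complex.ofReal_im]
    nlinarith [mul_nonneg h1 h.le]
  · unfold cr
    simp only [Complex.sub_re, Complex.sub_im, Complex.add_re, Complex.add_im, Complex.real_smul,
      Complex.mul_re, Complex.mul_im, Complex.ofReal_re, Complex.ofReal_im]
    nlinarith [mul_nonneg h2 h.le]

variable (G : Sc L e a R) (Q : Lab4 S x u a R n w i0 i1 i2 i3)

/-- the classes -/
local notation "BB" => Bc S x a R n w i0 i1 i2 i3

include Q in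
/-- a hull site in the middle annulus is in the class `0` or in the class `2` -/
theorem hull_cls (hs : hullE S s y) (h1 : 3 * a < ‖s - x‖) (h2 : ‖s - x‖ < R / 2) :
    (s ∈ BB 0 ∧ X x u s ≤ -(2 * a)) ∨ (s ∈ BB 2 ∧ 2 * a < X x u s) := by
  have hc := Q.m4.cyc
  obtain ⟨k0, -, -, hk0, -⟩ := hc.all _ _ hs
  obtain ⟨k, k1, k2, k3⟩ := shift hc i0 k0
  rw [hk0] at k3
  subst k3
  have hwS := w_mem hc k
  rcases le_or_gt k i1 with h4 | h4
  · exact Or.inl ⟨mem0.2 ⟨hwS, k, k1, h4, rfl⟩, (Q.l0 k k1 h4).1⟩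
  rcases le_or_gt k i2 with h5 | h5
  · have := Q.l1 k h4 h5
    linarith
  rcases le_or_gt k i3 with h6 | h6
  · exact Or.inr ⟨mem2.2 ⟨hwS, k, h5, h6, rfl⟩, (Q.l2 k h5 h6).1⟩
  · have := Q.l3 k h6 k2
    linarith

include G Q in
/-- a site in the middle annulus is in the class `0`, in the class `2` or free -/
theorem mid_cls (hs : s ∈ S) (h1 : 3 * a < ‖s - x‖) (h2 : ‖s - x‖ < R / 2) :
    s ∈ BB 0 ∨ s ∈ BB 2 ∨ s ∈ fre S BB := by
  have ha := G.a0
  have hR := G.h2
  have n1 : s ∉ BB 1 := by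
    intro h
    obtain ⟨-, h | ⟨k, k1, k2, rfl⟩⟩ := mem1.1 h
    · linarith
    · have := Q.l1 k k1 k2
      linarith
  have n3 : s ∉ BB 3 := by
    intro h
    obtain ⟨-, h | ⟨k, k1, k2, rfl⟩⟩ := mem3.1 h
    · linarith
    · have := Q.l3 k k1 k2
      linarith
  by_cases n0 : s ∈ BB 0
  · exact Or.inl n0
  by_cases n2 : s ∈ BB 2
  · exact Or.inr (Or.inl n2)
  refine Or.inr (Or.inr (Finset.mem_filter.2 ⟨hs, fun i => ?_⟩))
  rcases z4 i with rfl | rfl | rfl | rfl
  · exact n0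
  · exact n1
  · exact n2
  · exact n3

include H G Q in
/-- **white crossing of the half annulus** -/
theorem cross {C4 : ℝ} (hlog : 96 * C4 ≤ Real.log (R / (16 * a)))
    (hM : ∀ b ∈ Icc (4 * a) (R / 4), ∑ t ∈ (delT S).filter
      (fun t => (cT t ∩ Metric.closedBall x b).Nonempty), dm t ^ 2 ≤ C4 * b ^ 2)
    (h32 : 32 * a ≤ R) : 1 / 3 ≤ pr (fre S BB) (Crq S BB 0) := by
  have ha := G.a0
  have hR := G.h2
  have hh1 := G.h1
  have hh3 := G.h3
  have he := H.e0
  have hL := H.L0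
  have hsq := d_le_sqrt he.le (by linarith [H.D.dL] : e ≤ L)
  have hq := quad H G Q
  have hex : ∀ ρ : ℝ, ∃ τ ∈ Icc (0 : ℝ) (Real.pi / 2), ∃ τ' ∈ Icc (0 : ℝ) (Real.pi / 2),
      ρ ∈ Icc (4 * a) (R / 4) → (∀ θ ∈ Icc (-τ') τ, InHull S (pt x u ρ θ)) ∧
      (∃ b c, hullE S b c ∧ pt x u ρ τ ∈ segment ℝ b c) ∧
      ∃ b c, hullE S b c ∧ pt x u ρ (-τ') ∈ segment ℝ b c := by
    intro ρ
    by_cases hρ : ρ ∈ Icc (4 * a) (R / 4)
    · obtain ⟨τ, h1, h2, h3⟩ := hit H (ρ := ρ) (by linarith [hρ.1]) (by linarith [hρ.2])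
        (Or.inl rfl)
      obtain ⟨τ', h1', h2', h3'⟩ := hit H (ρ := ρ) (by linarith [hρ.1]) (by linarith [hρ.2])
        (Or.inr rfl)
      rw [one_mul] at h3
      rw [neg_one_mul] at h3'
      refine ⟨τ, h1, τ', h1', fun _ => ⟨fun θ hθ => ?_, h3, h3'⟩⟩
      rcases le_total 0 θ with h | h
      · have := h2 θ ⟨h, hθ.2⟩
        rwa [one_mul] at this
      · have := h2' (-θ) ⟨by linarith, by linarith [hθ.1]⟩
        rwa [neg_one_mul, neg_neg] at this
    · exact ⟨0, ⟨le_rfl, by positivity⟩, 0, ⟨le_rfl, by positivity⟩, fun h => absurd h hρ⟩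
  choose τ hτ τ' hτ' hall using hex
  set Γ : ℝ → Set ℂ := fun ρ => (fun θ => pt x u ρ θ) '' Icc (-τ' ρ) (τ ρ) with hΓ
  have hend : ∀ ρ, pt x u ρ (τ ρ) ∈ Γ ρ ∧ pt x u ρ (-τ' ρ) ∈ Γ ρ := fun ρ =>
    ⟨⟨τ ρ, ⟨by linarith [(hτ ρ).1, (hτ' ρ).1], le_rfl⟩, rfl⟩,
      ⟨-τ' ρ, ⟨le_rfl, by linarith [(hτ ρ).1, (hτ' ρ).1]⟩, rfl⟩⟩
  have hnrm : ∀ ρ ∈ Icc (4 * a) (R / 4), ∀ y ∈ Γ ρ, ‖y - x‖ = ρ := by
    rintro ρ hρ y ⟨θ, -, rfl⟩
    exact norm_pt H (by linarith [hρ.1])
  -- the vertices of the triangles which meet the curves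
  have hvt : ∀ ρ ∈ Icc (4 * a) (R / 4), ∀ t ∈ delT S, ∀ y ∈ cT t, y ∈ Γ ρ → ∀ v, Vt t v →
      v ∈ S ∧ 3 * a < ‖v - x‖ ∧ ‖v - x‖ < R / 2 ∧ ‖y - v‖ ≤ a / 20 := by
    intro ρ hρ t ht y hy hyΓ v hv
    have h1 := near_vt H ht hy hv
    have h2 := hnrm ρ hρ y hyΓ
    have h3 : ‖y - v‖ ≤ a / 20 := by linarith
    have h4 := norm_sub_norm_le (y - x) (v - x)
    rw [sub_sub_sub_cancel_right, h2] at h4
    have h5 := norm_sub_norm_le (v - x) (y - x)
    rw [sub_sub_sub_cancel_right, h2, norm_sub_rev v y] at h5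
    have hm := mem_delT.1 (show (t.1, t.2.1, t.2.2) ∈ delT S from ht)
    refine ⟨?_, by linarith [hρ.1], by linarith [hρ.2], h3⟩
    rcases hv with rfl | rfl | rfl
    · exact hm.1
    · exact hm.2.1
    · exact hm.2.2.1
  -- the triangle at a hull edge
  have htri : ∀ b c, hullE S b c → ∀ y ∈ segment ℝ b c, ∃ t ∈ delT S, y ∈ cT t ∧ Vt t b := by
    intro b c hbc y hy
    obtain ⟨⟨d, hd⟩, -⟩ := hbc
    obtain ⟨o, hT⟩ := mem_delT_iff.1 hd
    exact ⟨(b, c, d), hd, seg_cT hT.pos hy, Or.inl rfl⟩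
  have hside : ∀ ρ ∈ Icc (4 * a) (R / 4), ∀ y ∈ Γ ρ, (∃ b c, hullE S b c ∧ y ∈ segment ℝ b c) →
      ∃ t ∈ delT S, (cT t ∩ Γ ρ).Nonempty ∧ ∃ v, Vt t v ∧
        ((v ∈ BB 0 ∧ X x u v ≤ -(2 * a)) ∨ (v ∈ BB 2 ∧ 2 * a < X x u v)) ∧
        ‖y - v‖ ≤ a / 20 := by
    rintro ρ hρ y hyΓ ⟨b, c, hbc, hy⟩
    obtain ⟨t, ht, h1, h2⟩ := htri b c hbc y hy
    obtain ⟨h3, h4, h5, h6⟩ := hvt ρ hρ t ht y h1 hyΓ b h2
    exact ⟨t, ht, ⟨y, h1, hyΓ⟩, b, h2, hull_cls Q hbc h4 h5, h6⟩
  refine HarmAx802.epc hq x Γ (r := 4 * a) (R := R / 4) (b := R / 4) (C4 := C4) (by linarith)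
    (by linarith) le_rfl ?_ hnrm ?_ ?_ ?_ ?_ ?_ ?_
  · refine hlog.trans (le_of_eq ?_)
    congr 1
    field_simp
    norm_num
  · intro ρ _
    exact isPreconnected_Icc.image _ cont_pt.continuousOn
  · rintro ρ hρ y ⟨θ, hθ, rfl⟩
    obtain ⟨b, c, d, o, hT, hy, -⟩ := cover H.D.gp H.D.card ((hall ρ hρ).1 θ hθ)
    exact ⟨(b, c, d), mem_delT_iff.2 ⟨o, hT⟩, hy⟩
  · rintro ρ hρ t ht ⟨y, hy, hyΓ⟩ v hv
    obtain ⟨h1, h2, h3, -⟩ := hvt ρ hρ t ht y hy hyΓ v hv
    exact mid_cls G Q h1 h2 h3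
  · intro ρ hρ
    obtain ⟨t, ht, h1, v, h2, h3, h4⟩ := hside ρ hρ _ (hend ρ).2 (hall ρ hρ).2.2
    refine ⟨t, ht, h1, v, h2, ?_⟩
    rcases h3 with h3 | h3
    · exact h3.1
    · exfalso
      have h5 := X_diff (z0 := x) H.u1 (pt x u ρ (-τ' ρ)) v
      rw [X_pt H.une, Real.sin_neg] at h5
      have h6 : 0 ≤ Real.sin (τ' ρ) := Real.sin_nonneg_of_nonneg_of_le_pi (hτ' ρ).1
        (by linarith [(hτ' ρ).2, Real.pi_pos])
      have h7 : 0 ≤ ρ * Real.sin (τ' ρ) := mul_nonneg (by linarith [hρ.1]) h6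
      have h8 := neg_abs_le (ρ * -Real.sin (τ' ρ) - X x u v)
      have h9 := h3.2
      have h10 := le_abs_self (ρ * -Real.sin (τ' ρ) - X x u v)
      nlinarith
  · intro ρ hρ
    obtain ⟨t, ht, h1, v, h2, h3, h4⟩ := hside ρ hρ _ (hend ρ).1 (hall ρ hρ).2.1
    refine ⟨t, ht, h1, v, h2, ?_⟩
    rcases h3 with h3 | h3
    · exfalso
      have h5 := X_diff (z0 := x) H.u1 (pt x u ρ (τ ρ)) v
      rw [X_pt H.une] at h5
      have h6 : 0 ≤ Real.sin (τ ρ) := Real.sin_nonneg_of_nonneg_of_le_pi (hτ ρ).1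
        (by linarith [(hτ ρ).2, Real.pi_pos])
      have h7 : 0 ≤ ρ * Real.sin (τ ρ) := mul_nonneg (by linarith [hρ.1]) h6
      have h8 := le_abs_self (ρ * Real.sin (τ ρ) - X x u v)
      have h9 := h3.2
      linarith
    · exact h3.1
  · exact hM

open Crest.Agent.R143.Harx315 in
include H G Q in
/-- **one scale** -/
theorem arm1 {C4 : ℝ} (hlog : 96 * C4 ≤ Real.log (R / (16 * a)))
    (hM : ∀ b ∈ Icc (4 * a) (R / 4), ∑ t ∈ (delT S).filter
      (fun t => (cT t ∩ Metric.closedBall x b).Nonempty), dm t ^ 2 ≤ C4 * b ^ 2)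
    (h32 : 32 * a ≤ R) {V : Finset ℂ} (hV : V ⊆ S) (hVh : ∀ v ∈ V, ∀ y, ¬ hullE S v y) :
    pr V (fun β => CArm S β x a R) ≤ 2 / 3 := by
  have hcr := cross H G Q hlog hM h32
  have hq := quad H G Q
  have hc := Q.m4.cyc
  have hFS : fre S BB ⊆ S := Finset.filter_subset _ _
  -- an arm is a crossing of the quad
  have h1 : pr V (fun β => CArm S β x a R) ≤ pr V (fun β => Crq S BB 1 (β ∩ fre S BB)) := by
    apply pr_mono
    rintro β hβ ⟨p, q, hp, hq', h1, h2, h3⟩
    have hcls : ∀ z ∈ β, z ∈ {v | v ∈ β ∩ fre S BB ∨ v ∈ BB 1 ∨ v ∈ BB (1 + 2)} := by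
      intro z hz
      have hzV := hβ hz
      have hzS := hV hzV
      by_cases g1 : ‖z - x‖ ≤ a
      · exact Or.inr (Or.inl (mem1.2 ⟨hzS, Or.inl g1⟩))
      by_cases g2 : R ≤ ‖z - x‖
      · exact Or.inr (Or.inr (mem3.2 ⟨hzS, Or.inl g2⟩))
      refine Or.inl (Finset.mem_inter.2 ⟨hz, Finset.mem_filter.2 ⟨hzS, fun i hi => ?_⟩⟩)
      have hw : ∀ k, z ≠ w k := by
        rintro k rfl
        exact hVh _ hzV _ (hc.edge k)
      rcases z4 i with rfl | rfl | rfl | rfl
      · obtain ⟨-, k, -, -, h⟩ := mem0.1 hi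
        exact hw k h
      · obtain ⟨-, h | ⟨k, -, -, h⟩⟩ := mem1.1 hi
        · exact g1 h
        · exact hw k h
      · obtain ⟨-, k, -, -, h⟩ := mem2.1 hi
        exact hw k h
      · obtain ⟨-, h | ⟨k, -, -, h⟩⟩ := mem3.1 hi
        · exact g2 h
        · exact hw k h
    refine ⟨p, mem1.2 ⟨hV (hβ hp), Or.inl h1⟩, q, mem3.2 ⟨hV (hβ hq'), Or.inl h2⟩, hcls p hp, ?_⟩
    refine Relation.ReflTransGen.mono ?_ _ _ h3
    rintro b c ⟨g1, g2, g3⟩
    exact ⟨g1, hcls c g3⟩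
  have hmono : ∀ T T' : Finset ℂ, T ⊆ T' → Crq S BB 1 T → Crq S BB 1 T' := by
    rintro T T' hT ⟨p, hp, q, hq', h⟩
    refine ⟨p, hp, q, hq', h.mono ?_⟩
    rintro z (hz | hz)
    · exact Or.inl (hT hz)
    · exact Or.inr hz
  have h2 : pr V (fun β => Crq S BB 1 (β ∩ fre S BB)) ≤
      pr S (fun β => Crq S BB 1 (β ∩ fre S BB)) :=
    CBx838.pr_le_of_sub hV fun β β' hb h => hmono _ _ (Finset.inter_subset_inter_right hb) h
  have hd : Dep S (fre S BB) (fun β => Crq S BB 1 (β ∩ fre S BB)) := by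
    intro β _
    simp only [Finset.inter_assoc, Finset.inter_self]
  have h3 : pr (fre S BB) (fun β => Crq S BB 1 (β ∩ fre S BB)) = pr (fre S BB) (Crq S BB 1) := by
    apply pr_congr
    intro β hβ
    simp only [Finset.inter_eq_left.2 hβ]
  have h4 : pr (fre S BB) (fun β => Crq S BB 1 (fre S BB \ β)) = pr (fre S BB) (Crq S BB 1) :=
    pr_flip (fre S BB) (Crq S BB 1)
  have h5 : pr (fre S BB) (fun β => Crq S BB 1 (fre S BB \ β)) =
      pr (fre S BB) (fun β => ¬ Crq S BB 0 β) := by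
    apply pr_congr
    intro β hβ
    rw [Qd3x54.xorq hq hβ, not_not]
  rw [pr_dep hFS hd, h3, ← h4, h5, pr_not] at h2
  linarith

end Crest.Agent.R143.HarmCx802
end
end

-- ▼ part R143/Harm_802
section

/-!
# Row 143 (S0194), CONT: one arm up to the hull (helper802)

* `carm_pow` : many scales, general ratio
* `bdry` : one arm around a point of the circle
* `harm` : **one arm around every point of the disc**, free sites = any set of sites off the hull
-/

set_option autoImplicit false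

noncomputable section

open scoped Classical

namespace Crest.Agent.R143.Harmx802

open Set
open Crest.Agent.R143.B0x346 Crest.Agent.R143.B0Dx346 Crest.Agent.R143.DelGx806
  Crest.Agent.R143.DelRx806 Crest.Agent.R143.DomAx722 Crest.Agent.R143.DomBx722
  Crest.Agent.R143.HarmBx802 Crest.Agent.R143.HarmCx802 Crest.Agent.R143.Circx63
  Crest.Agent.R143.Harx315
open Crest.Agent.R143.JColx54 (Adj)
open Crest.Agent.R143.Scalx63 (dm)
open Crest.Agent.R143.RE4x723 (edge5)
open Crest.Agent.R143.D3Fx802 (CArm extract)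
open Crest.Agent.R143.Lawx872 (ConnIn)
open Crest.Agent.R143.RB0x838 (LDns Mesh)

variable {S V : Finset ℂ} {x0 x u p : ℂ} {L e r R r1 r2 : ℝ}

/-- a chain in a larger set -/
theorem conn_mono {β β' : Finset ℂ} (h : β ⊆ β') {y z : ℂ} (hc : ConnIn S β y z) :
    ConnIn S β' y z :=
  Relation.ReflTransGen.mono (fun _ _ g => ⟨g.1, h g.2.1, h g.2.2⟩) _ _ hc

/-- **many scales** -/
theorem carm_pow {M r q : ℝ} (hr : 0 < r) (hM : 8 ≤ M) (m : ℕ)
    (h1 : ∀ j < m, ∀ W ⊆ V, pr W (fun β => CArm S β p (M ^ j * r) (M / 4 * (M ^ j * r))) ≤ q)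
    (hst : ∀ u v, Adj S u v → ‖u - p‖ < M ^ m * r → ‖v - u‖ ≤ r / 4)
    (hr1 : r1 ≤ r) (hr2 : M ^ m * r ≤ r2) :
    pr V (fun β => CArm S β p r1 r2) ≤ q ^ m := by
  set W : ℕ → Finset ℂ := fun j => V.filter fun s => M ^ j * r / 2 < ‖s - p‖ ∧
    ‖s - p‖ < M / 2 * (M ^ j * r) with hW
  set A : ℕ → Finset ℂ → Prop := fun j β =>
    CArm S (β ∩ W j) p (M ^ j * r) (M / 4 * (M ^ j * r)) with hA
  have hpow : ∀ j : ℕ, (1 : ℝ) ≤ M ^ j := fun j => one_le_pow₀ (by linarith)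
  have hmono : ∀ i j : ℕ, i ≤ j → M ^ i ≤ M ^ j := fun i j h =>
    pow_le_pow_right₀ (by linarith) h
  have s1 : pr V (fun β => CArm S β p r1 r2) ≤ pr V (fun β => ∀ j ∈ Finset.range m, A j β) := by
    apply pr_mono
    rintro β hβ ⟨x, y, hx, hy, g1, g2, g3⟩ j hj
    rw [Finset.mem_range] at hj
    have hjr : 0 < M ^ j * r := by positivity
    have h8 : M ^ (j + 1) * r ≤ M ^ m * r := mul_le_mul_of_nonneg_right (hmono _ _ hj) hr.le
    have h8' : M ^ (j + 1) * r = M * (M ^ j * r) := by ring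
    have hjr1 : r ≤ M ^ j * r := by
      have := mul_le_mul_of_nonneg_right (hpow j) hr.le
      linarith
    have hM4 : 2 * (M ^ j * r) ≤ M / 4 * (M ^ j * r) :=
      mul_le_mul_of_nonneg_right (by linarith) hjr.le
    have hM8 : 8 * (M ^ j * r) ≤ M * (M ^ j * r) := mul_le_mul_of_nonneg_right hM hjr.le
    obtain ⟨x', y', k1, k2, k3, k4, k5⟩ := extract (S := S) (β := β) (p := p)
      (a := M ^ j * r) (b := M / 4 * (M ^ j * r)) (e := r / 4)
      (by linarith) (fun u v huv hu => hst u v huv (by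
        refine hu.trans_le ?_
        rw [h8'] at h8
        refine le_trans ?_ h8
        nlinarith)) hx (by linarith) (by
        refine le_trans ?_ g2
        refine le_trans ?_ hr2
        rw [h8'] at h8
        refine le_trans ?_ h8
        nlinarith) g3
    have hsub : β.filter (fun s => M ^ j * r - r / 4 ≤ ‖s - p‖ ∧
        ‖s - p‖ ≤ M / 4 * (M ^ j * r) + r / 4) ⊆ β ∩ W j := by
      intro s hs
      rw [Finset.mem_filter] at hs
      rw [hW, Finset.mem_inter, Finset.mem_filter]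
      refine ⟨hs.1, hβ hs.1, by linarith [hs.2.1], ?_⟩
      have : M / 2 * (M ^ j * r) = M / 4 * (M ^ j * r) + M / 4 * (M ^ j * r) := by ring
      linarith [hs.2.2]
    exact ⟨x', y', hsub k1, hsub k2, k3, k4, conn_mono hsub k5⟩
  have hWV : ∀ j, W j ⊆ V := fun j => Finset.filter_subset _ _
  have hdep : ∀ j, Dep V (W j) (A j) := by
    intro j β _
    rw [hA]
    simp only [Finset.inter_assoc, Finset.inter_self]
  have s2 : pr V (fun β => ∀ j ∈ Finset.range m, A j β) = ∏ j ∈ Finset.range m, pr V (A j) := by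
    apply pr_indep_prod _ (W := W) _ (fun j _ => hdep j)
    have hlt : ∀ i j : ℕ, i < j → Disjoint (W i) (W j) := by
      intro i j hij
      rw [Finset.disjoint_left]
      intro s hs hs'
      rw [hW, Finset.mem_filter] at hs hs'
      have h8 : M ^ (i + 1) * r ≤ M ^ j * r := mul_le_mul_of_nonneg_right (hmono _ _ hij) hr.le
      have h8' : M ^ (i + 1) * r = M * (M ^ i * r) := by ring
      have h9 : M / 2 * (M ^ i * r) = M * (M ^ i * r) / 2 := by ring
      linarith [hs.2.2, hs'.2.1]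
    intro i _ j _ hij
    rcases lt_or_gt_of_ne hij with h | h
    · exact hlt i j h
    · exact (hlt j i h).symm
  rw [s2] at s1
  refine s1.trans ?_
  have s3 : ∀ j ∈ Finset.range m, pr V (A j) ≤ q := by
    intro j hj
    rw [pr_dep (hWV j) (hdep j)]
    have : pr (W j) (A j) =
        pr (W j) (fun β => CArm S β p (M ^ j * r) (M / 4 * (M ^ j * r))) := by
      apply pr_congr
      intro β hβ
      rw [hA]
      simp only [Finset.inter_eq_left.2 hβ]
    rw [this]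
    exact h1 j (Finset.mem_range.1 hj) _ (hWV j)
  calc ∏ j ∈ Finset.range m, pr V (A j) ≤ ∏ _j ∈ Finset.range m, q :=
        Finset.prod_le_prod (fun j _ => pr_nonneg) s3
    _ = q ^ m := by rw [Finset.prod_const, Finset.card_range]

/-- powers -/
theorem pow_floor {M r R : ℝ} (hM : 1 < M) (hr : 0 < r) (hrR : r ≤ R) :
    ∃ m : ℕ, M ^ m * r ≤ R ∧
      (2 / 3 : ℝ) ^ m ≤ 3 / 2 * (r / R) ^ (Real.log (3 / 2) / Real.log M) := by
  have hR : 0 < R := hr.trans_le hrR
  have hl : 0 < Real.log M := Real.log_pos hM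
  have hx0 : 0 ≤ Real.log (R / r) / Real.log M :=
    div_nonneg (Real.log_nonneg ((one_le_div hr).2 hrR)) hl.le
  set m : ℕ := ⌊Real.log (R / r) / Real.log M⌋₊ with hm
  have m1 : (m : ℝ) ≤ Real.log (R / r) / Real.log M := Nat.floor_le hx0
  have m2 : Real.log (R / r) / Real.log M < m + 1 := Nat.lt_floor_add_one _
  refine ⟨m, ?_, ?_⟩
  · rw [le_div_iff₀ hl] at m1
    have h1 : Real.log (M ^ m) ≤ Real.log (R / r) := by rwa [Real.log_pow]
    have h2 := (Real.log_le_log_iff (by positivity) (div_pos hR hr)).1 h1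
    rwa [le_div_iff₀ hr] at h2
  · have h3 : (2 / 3 : ℝ) ^ m = Real.exp (m * -Real.log (3 / 2)) := by
      have : -Real.log (3 / 2 : ℝ) = Real.log (2 / 3) := by
        rw [← Real.log_inv]; norm_num
      rw [this, mul_comm, Real.exp_mul, Real.exp_log (by norm_num), Real.rpow_natCast]
    have h4 : (r / R) ^ (Real.log (3 / 2) / Real.log M) =
        Real.exp (Real.log (R / r) / Real.log M * -Real.log (3 / 2)) := by
      rw [Real.rpow_def_of_pos (div_pos hr hR)]
      congr 1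
      have : Real.log (r / R) = -Real.log (R / r) := by
        rw [← Real.log_inv, inv_div]
      rw [this]
      field_simp
    have hl3 : 0 < Real.log (3 / 2 : ℝ) := Real.log_pos (by norm_num)
    rw [h3, h4]
    calc Real.exp (m * -Real.log (3 / 2))
        ≤ Real.exp (Real.log (3 / 2) + Real.log (R / r) / Real.log M * -Real.log (3 / 2)) := by
          apply Real.exp_le_exp.2
          nlinarith
      _ = 3 / 2 * Real.exp (Real.log (R / r) / Real.log M * -Real.log (3 / 2)) := by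
          rw [Real.exp_add, Real.exp_log (by norm_num)]

/-- **one arm around a point of the circle** -/
theorem bdry : ∀ C4 : ℝ, ∃ c : ℝ, 0 < c ∧
    ∀ (S : Finset ℂ) (x0 x u : ℂ) (L e r R r1 r2 : ℝ), NH S x0 L e u x →
    100 * Real.sqrt (L * e) ≤ r → r ≤ R → 25 * R ≤ L → r1 ≤ r → R ≤ r2 →
    (∀ b, r ≤ b → b ≤ R → ∑ t ∈ (delT S).filter
      (fun t => (cT t ∩ Metric.closedBall x b).Nonempty), dm t ^ 2 ≤ C4 * b ^ 2) →
    ∀ V ⊆ S, (∀ v ∈ V, ∀ y, ¬ hullE S v y) →
    pr V (fun β => CArm S β x r1 r2) ≤ 3 / 2 * (r / R) ^ c := by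
  intro C4
  set M : ℝ := 128 * Real.exp (96 * |C4|) with hM
  have hex : 1 ≤ Real.exp (96 * |C4|) := Real.one_le_exp (by positivity)
  have hM128 : 128 ≤ M := by rw [hM]; linarith
  have hlM : 0 < Real.log M := Real.log_pos (by linarith)
  refine ⟨Real.log (3 / 2) / Real.log M, div_pos (Real.log_pos (by norm_num)) hlM, ?_⟩
  intro S x0 x u L e r R r1 r2 H hr hrR hRL hr1 hr2 hMs V hV hVh
  have hL := H.L0
  have he := H.e0
  have hsq : 0 < Real.sqrt (L * e) := Real.sqrt_pos.2 (mul_pos hL he)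
  have hr0 : 0 < r := by linarith
  obtain ⟨m, hm1, hm2⟩ := pow_floor (M := M) (by linarith) hr0 hrR
  refine le_trans ?_ hm2
  refine carm_pow hr0 (by linarith) m ?_ ?_ hr1 (hm1.trans hr2)
  · intro j hj W hW
    have hp1 : 1 ≤ M ^ j := one_le_pow₀ (by linarith)
    have ha : r ≤ M ^ j * r := by nlinarith
    set a := M ^ j * r with hadef
    have hMa : M * a ≤ R := by
      have h1 : M ^ (j + 1) ≤ M ^ m := pow_le_pow_right₀ (by linarith) hj
      have h2 : M ^ (j + 1) * r ≤ M ^ m * r := mul_le_mul_of_nonneg_right h1 hr0.le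
      have h3 : M ^ (j + 1) * r = M * a := by rw [hadef]; ring
      linarith
    have hMa2 : 128 * a ≤ M * a := mul_le_mul_of_nonneg_right hM128 (by linarith)
    have G : Sc L e a (M / 4 * a) := by
      refine ⟨by linarith, by linarith, ?_, ?_⟩
      · linarith [show M / 4 * a = M * a / 4 by ring]
      · linarith [show M / 4 * a = M * a / 4 by ring]
    obtain ⟨n, w, i0, i1, i2, i3, Q⟩ := labels H G
    refine arm1 H G Q (C4 := |C4|) ?_ ?_ ?_ (hW.trans hV) (fun v hv => hVh v (hW hv))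
    · have ha0 : 0 < a := by linarith
      have e1 : M / 4 * a / (16 * a) = 2 * Real.exp (96 * |C4|) := by
        rw [hM]; field_simp; ring
      rw [e1, Real.log_mul (by norm_num) (Real.exp_pos _).ne', Real.log_exp]
      have : 0 < Real.log 2 := Real.log_pos (by norm_num)
      linarith
    · intro b hb
      have hbM : b ≤ R := by
        have := hb.2
        linarith [show M / 4 * a / 4 = M * a / 16 by ring]
      refine (hMs b (by linarith [hb.1]) hbM).trans ?_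
      exact mul_le_mul_of_nonneg_right (le_abs_self _) (sq_nonneg _)
    · linarith [show M / 4 * a = M * a / 4 by ring]
  · intro y z hyz _
    have := edge5 H.D hyz
    rw [norm_sub_rev] at this
    linarith

/-! ### all points -/

theorem carm_move {β : Finset ℂ} {q : ℂ} {h : ℝ} (hq : ‖p - q‖ ≤ h) (hc : CArm S β p r1 r2) :
    CArm S β q (r1 + h) (r2 - h) := by
  obtain ⟨y, z, hy, hz, h1, h2, h3⟩ := hc
  refine ⟨y, z, hy, hz, ?_, ?_, h3⟩
  · have := norm_add_le (y - p) (p - q)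
    rw [sub_add_sub_cancel] at this
    linarith
  · have := norm_add_le (z - q) (q - p)
    rw [sub_add_sub_cancel, norm_sub_rev q p] at this
    linarith

theorem rp_le {k t c c' : ℝ} (hk : 0 ≤ k) (ht : 0 < t) (ht1 : t ≤ 1) (hcc : c ≤ c') :
    (k * t) ^ c' ≤ k ^ c' * t ^ c := by
  rw [Real.mul_rpow hk ht.le]
  exact mul_le_mul_of_nonneg_left (Real.rpow_le_rpow_of_exponent_ge ht ht1 hcc)
    (Real.rpow_nonneg hk _)

/-- **HARM**: one arm, up to the hull -/
theorem harm : ∀ C4 : ℝ, 0 ≤ C4 → ∃ C c c2 A : ℝ, 0 < C ∧ 0 < c ∧ 0 < c2 ∧ c2 ≤ 1 ∧ 1 ≤ A ∧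
    ∀ (S : Finset ℂ) (x0 : ℂ) (L e r R : ℝ), Dns S x0 L e → A * Real.sqrt (L * e) ≤ r → r ≤ R →
    A * R ≤ L →
    (∀ z, ‖z - x0‖ ≤ L → ∀ b, c2 * r ≤ b → b ≤ R → ∑ t ∈ (delT S).filter
      (fun t => (cT t ∩ Metric.closedBall z b).Nonempty), dm t ^ 2 ≤ C4 * b ^ 2) →
    ∀ p, ‖p - x0‖ ≤ L → ∀ V ⊆ S, (∀ v ∈ V, ∀ y, ¬ hullE S v y) →
    pr V (fun β => CArm S β p r R) ≤ C * (r / R) ^ c := by
  intro C4 hC4
  obtain ⟨C1, c1, k1, k2, K, hC1, hc1, hk1, hk2, hk2', hK, HI⟩ := ArmPx930.arm C4 hC4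
  obtain ⟨c3, hc3, HB⟩ := bdry C4
  set c : ℝ := min c1 c3 / 2 with hc
  have hcpos : 0 < c := by rw [hc]; exact half_pos (lt_min hc1 hc3)
  have hcc1 : 2 * c ≤ c1 := by rw [hc]; linarith [min_le_left c1 c3]
  have hcc3 : 2 * c ≤ c3 := by rw [hc]; linarith [min_le_right c1 c3]
  have hK0 : 0 < K := by linarith
  -- the constants
  set B1 : ℝ := C1 * (8 * K) ^ c1 with hB1
  set B2 : ℝ := 3 / 2 * (4 * (K + 2)) ^ c3 with hB2
  set B3 : ℝ := (8 * (K + 2)) ^ c with hB3
  have hB10 : 0 ≤ B1 := by positivity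
  have hB20 : 0 ≤ B2 := by positivity
  have hB30 : 0 < B3 := by positivity
  refine ⟨B1 + B2 + B3, c, k2, max 100 (2 / k1), by positivity, hcpos, hk2, hk2',
    le_trans (by norm_num) (le_max_left _ _), ?_⟩
  intro S x0 L e r R hD hr hrR hRL hM p hp V hV hVh
  have he := hD.dpos
  have hL : 0 < L := by linarith [hD.dL]
  have hsq0 : 0 < Real.sqrt (L * e) := Real.sqrt_pos.2 (mul_pos hL he)
  have hesq := d_le_sqrt he.le (by linarith [hD.dL] : e ≤ L)
  have hr100 : 100 * Real.sqrt (L * e) ≤ r :=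
    (mul_le_mul_of_nonneg_right (le_max_left _ _) hsq0.le).trans hr
  have hrk : 2 / k1 * Real.sqrt (L * e) ≤ r :=
    (mul_le_mul_of_nonneg_right (le_max_right _ _) hsq0.le).trans hr
  have hr0 : 0 < r := by linarith
  have hR0 : 0 < R := by linarith
  have hRL100 : 100 * R ≤ L := (mul_le_mul_of_nonneg_right (le_max_left _ _) hR0.le).trans hRL
  have hek : e ≤ k1 * r := by
    have h1 : Real.sqrt (L * e) ≤ k1 * r := by
      have h2 : 2 / k1 * Real.sqrt (L * e) * k1 ≤ r * k1 := mul_le_mul_of_nonneg_right hrk hk1.le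
      have h3 : 2 / k1 * Real.sqrt (L * e) * k1 = 2 * Real.sqrt (L * e) := by field_simp
      linarith
    linarith
  have ht0 : 0 < r / R := div_pos hr0 hR0
  have ht1 : r / R ≤ 1 := (div_le_one hR0).2 hrR
  set P := pr V (fun β => CArm S β p r R) with hP
  have hP0 : 0 ≤ P := pr_nonneg
  have hP1 : P ≤ 1 := pr_le_one
  have htc : 0 < (r / R) ^ c := Real.rpow_pos_of_pos ht0 _
  set h := L - ‖p - x0‖ with hh
  have hh0 : 0 ≤ h := by linarith
  -- the trivial case
  have triv : R ≤ 8 * (K + 2) * r → P ≤ (B1 + B2 + B3) * (r / R) ^ c := by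
    intro hcase
    have h1 : 1 ≤ (8 * (K + 2) * (r / R)) ^ c := by
      apply Real.one_le_rpow _ hcpos.le
      rw [← mul_div_assoc, one_le_div hR0]
      exact hcase
    rw [Real.mul_rpow (by positivity) ht0.le, ← hB3] at h1
    have : 0 ≤ (B1 + B2) * (r / R) ^ c := by positivity
    nlinarith
  by_cases hcase : R ≤ 8 * (K + 2) * r
  · exact triv hcase
  push Not at hcase
  -- interior
  have inter : ∀ R1, r ≤ R1 → R1 ≤ R → K * R1 + e ≤ h → P ≤ C1 * (r / R1) ^ c1 := by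
    intro R1 g1 g2 g3
    have hin : ∀ z, ‖z - p‖ ≤ K * R1 → ‖z - x0‖ ≤ L - e := by
      intro z hz
      have := norm_add_le (z - p) (p - x0)
      rw [sub_add_sub_cancel] at this
      linarith
    have h1 := HI S p e r R1 hr0 g1 ⟨hD.gp, he, fun z hz => hD.hole z (hin z hz)⟩
      (fun b hb1 hb2 z hz => hM z (by linarith [hin z hz]) b hb1 (hb2.trans g2)) hek V hV
    refine le_trans ?_ h1
    apply pr_mono
    rintro β - ⟨y, z, hy, hz, q1, q2, q3⟩
    exact ⟨y, z, hy, hz, q1, g2.trans q2, q3⟩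
  -- boundary
  have bd : 4 * h ≤ R → P ≤ 3 / 2 * ((r + h) / (R - h)) ^ c3 := by
    intro g1
    have hpx : p ≠ x0 := by
      rintro rfl
      rw [sub_self, norm_zero, sub_zero] at hh
      linarith
    have hn : 0 < ‖p - x0‖ := norm_pos_iff.2 (sub_ne_zero.2 hpx)
    obtain ⟨q, hq1, hq2⟩ := exists_pol (c := x0) hn
    set x := x0 + L * q with hx
    have H : NH S x0 L e (q * Complex.I) x := by
      refine ⟨by rw [norm_mul, hq1, Complex.norm_I, one_mul], hD, ?_⟩
      rw [hx, mul_assoc, mul_left_comm Complex.I, Complex.I_mul_I]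
      ring
    have hpx' : ‖p - x‖ ≤ h := by
      have e1 : p - x = ((‖p - x0‖ - L : ℝ) : ℂ) * q := by
        nth_rewrite 1 [hq2]
        rw [hx]
        push_cast
        ring
      rw [e1, norm_mul, hq1, mul_one, Complex.norm_real, Real.norm_eq_abs, abs_le]
      constructor <;> linarith
    have hxL : ‖x - x0‖ ≤ L := by
      rw [hx, add_sub_cancel_left, norm_mul, hq1, mul_one, Complex.norm_real, Real.norm_eq_abs,
        abs_of_pos hL]
    have h2 := HB S x0 x (q * Complex.I) L e (r + h) (R - h) (r + h) (R - h) H (by linarith)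
      (by nlinarith) (by linarith) le_rfl le_rfl
      (fun b hb1 hb2 => hM x hxL b (by nlinarith) (by linarith)) V hV hVh
    exact (pr_mono fun β _ hc => carm_move hpx' hc).trans h2
  have hsum : ∀ {y}, y ≤ B1 ∨ y ≤ B2 → y * (r / R) ^ c ≤ (B1 + B2 + B3) * (r / R) ^ c := by
    intro y hy
    apply mul_le_mul_of_nonneg_right _ htc.le
    rcases hy with hy | hy <;> linarith
  by_cases hA : R < 4 * h
  · -- far from the hull
    have hKR : r ≤ R / (8 * K) := by
      rw [le_div_iff₀ (by positivity)]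
      nlinarith
    have h1 := inter (R / (8 * K)) hKR (by
      rw [div_le_iff₀ (by positivity)]
      nlinarith) (by
      have : K * (R / (8 * K)) = R / 8 := by field_simp
      rw [this]
      have : e ≤ r := by linarith
      nlinarith)
    have h2 : r / (R / (8 * K)) = 8 * K * (r / R) := by field_simp
    rw [h2] at h1
    have h3 := rp_le (k := 8 * K) (by positivity) ht0 ht1 (show c ≤ c1 by linarith)
    refine le_trans ?_ (hsum (Or.inl le_rfl))
    rw [hB1, mul_assoc]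
    exact h1.trans (mul_le_mul_of_nonneg_left h3 hC1.le)
  push Not at hA
  have hbd := bd hA
  have hRh : 3 / 4 * R ≤ R - h := by linarith
  by_cases hBc : h ≤ (K + 1) * r
  · -- close to the hull
    have h1 : (r + h) / (R - h) ≤ 4 * (K + 2) * (r / R) := by
      rw [← mul_div_assoc, div_le_div_iff₀ (by linarith) hR0]
      have h2 : (r + h) * R ≤ (K + 2) * r * R := by
        apply mul_le_mul_of_nonneg_right _ hR0.le
        linarith
      have h3 : 4 * (K + 2) * r * (3 / 4 * R) ≤ 4 * (K + 2) * r * (R - h) :=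
        mul_le_mul_of_nonneg_left hRh (by positivity)
      have h4 : 0 ≤ (K + 2) * r * R := by positivity
      linarith
    have h2 : ((r + h) / (R - h)) ^ c3 ≤ (4 * (K + 2) * (r / R)) ^ c3 :=
      Real.rpow_le_rpow (div_nonneg (by linarith) (by linarith)) h1 hc3.le
    have h3 := rp_le (k := 4 * (K + 2)) (by positivity) ht0 ht1 (show c ≤ c3 by linarith)
    refine le_trans ?_ (hsum (Or.inr le_rfl))
    rw [hB2, mul_assoc]
    exact hbd.trans (mul_le_mul_of_nonneg_left (h2.trans h3) (by norm_num))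
  · -- intermediate
    push Not at hBc
    have her : e ≤ r := by linarith
    have hh' : 0 < h := by nlinarith
    have hKr : r < h := by nlinarith
    set R1 := (h - e) / K with hR1
    have hR1K : K * R1 = h - e := by rw [hR1]; field_simp
    have hrR1 : r ≤ R1 := by
      rw [hR1, le_div_iff₀ hK0]
      nlinarith
    have h1 := inter R1 hrR1 (by
      rw [hR1, div_le_iff₀ hK0]
      nlinarith) (by linarith)
    have hR1h : h ≤ 2 * K * R1 := by
      have : 100 * e ≤ h := by linarith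
      linarith
    have hR10 : 0 < R1 := hr0.trans_le hrR1
    have h2 : r / R1 ≤ 2 * K * (r / h) := by
      rw [← mul_div_assoc, div_le_div_iff₀ hR10 hh']
      nlinarith
    have h3 : (r / R1) ^ c1 ≤ (2 * K) ^ c1 * (r / h) ^ (2 * c) :=
      (Real.rpow_le_rpow (by positivity) h2 hc1.le).trans
        (rp_le (by positivity) (by positivity) ((div_le_one hh').2 hKr.le) hcc1)
    have h4 : (r + h) / (R - h) ≤ 4 * (h / R) := by
      rw [← mul_div_assoc, div_le_div_iff₀ (by linarith) hR0]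
      nlinarith
    have hhR : h / R ≤ 1 := (div_le_one hR0).2 (by linarith)
    have h5 : ((r + h) / (R - h)) ^ c3 ≤ 4 ^ c3 * (h / R) ^ (2 * c) :=
      (Real.rpow_le_rpow (div_nonneg (by linarith) (by linarith)) h4 hc3.le).trans
        (rp_le (by norm_num) (by positivity) hhR hcc3)
    have h6 : (r / h) ^ (2 * c) * (h / R) ^ (2 * c) = ((r / R) ^ c) ^ 2 := by
      rw [← Real.mul_rpow (by positivity) (by positivity)]
      have : r / h * (h / R) = r / R := by field_simp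
      rw [this, mul_comm 2 c, Real.rpow_mul ht0.le]
      norm_num
    have h7 : P ^ 2 ≤ (B1 * (r / R) ^ c) * (B2 * (r / R) ^ c) := by
      have a1 : P ≤ C1 * ((2 * K) ^ c1 * (r / h) ^ (2 * c)) :=
        h1.trans (mul_le_mul_of_nonneg_left h3 hC1.le)
      have a2 : P ≤ 3 / 2 * (4 ^ c3 * (h / R) ^ (2 * c)) :=
        hbd.trans (mul_le_mul_of_nonneg_left h5 (by norm_num))
      have a3 : P ^ 2 ≤ (C1 * ((2 * K) ^ c1 * (r / h) ^ (2 * c))) *
          (3 / 2 * (4 ^ c3 * (h / R) ^ (2 * c))) := by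
        rw [sq]
        exact mul_le_mul a1 a2 hP0 (hP0.trans a1)
      have a4 : C1 * (2 * K) ^ c1 ≤ B1 := by
        rw [hB1]
        apply mul_le_mul_of_nonneg_left _ hC1.le
        exact Real.rpow_le_rpow (by positivity) (by linarith) hc1.le
      have a5 : 3 / 2 * (4 : ℝ) ^ c3 ≤ B2 := by
        rw [hB2]
        apply mul_le_mul_of_nonneg_left _ (by norm_num)
        exact Real.rpow_le_rpow (by norm_num) (by linarith) hc3.le
      calc P ^ 2 ≤ (C1 * (2 * K) ^ c1) * (3 / 2 * (4 : ℝ) ^ c3) *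
            ((r / h) ^ (2 * c) * (h / R) ^ (2 * c)) := by
            refine a3.trans (le_of_eq ?_)
            ring
        _ ≤ B1 * B2 * ((r / h) ^ (2 * c) * (h / R) ^ (2 * c)) := by
            apply mul_le_mul_of_nonneg_right _ (by positivity)
            exact mul_le_mul a4 a5 (by positivity) hB10
        _ = _ := by rw [h6]; ring
    have h8 : P ≤ (B1 + B2) * (r / R) ^ c := by
      apply le_of_sq_le_sq _ (by positivity)
      refine h7.trans ?_
      have : 0 ≤ ((r / R) ^ c) ^ 2 := sq_nonneg _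
      nlinarith [mul_nonneg hB10 hB20, mul_nonneg (sq_nonneg B1) this, mul_nonneg (sq_nonneg B2) this,
        mul_nonneg (mul_nonneg hB10 hB20) this]
    refine h8.trans ?_
    apply mul_le_mul_of_nonneg_right _ htc.le
    linarith

end Crest.Agent.R143.Harmx802
end
end

-- ▼ part R143/HarmZ_802

/-!
# Row 143 (S0194), CONT: the leaf HARM in the literal forms of 377 and 496 (helper802)

* `harm377 : Mabx377.HARM`, `harm496 : HarmSx496.Harm`, `harmOne : HarmSx496.HarmOne`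
-/

set_option autoImplicit false

noncomputable section

open scoped Classical

namespace Crest.Agent.R143.HarmZx802

open Crest.Agent.R143.Harx315 Crest.Agent.R143.Harmx802



/-- **one scale at the hull** (496) -/
theorem harmOne : HarmSx496.HarmOne := by
  intro C4 hC4
  obtain ⟨C, c, c2, A, hC, hc, hc2, hc2', hA, h⟩ := harm C4 hC4
  -- a ratio with bound `1 / 2`
  set K : ℝ := max 1 ((2 * C) ^ (1 / c)) with hK
  have hK1 : 1 ≤ K := le_max_left _ _
  have hKc : C * (1 / K) ^ c ≤ 1 / 2 := by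
    have h1 : 2 * C ≤ K ^ c := by
      have h2 : ((2 * C) ^ (1 / c)) ^ c ≤ K ^ c :=
        Real.rpow_le_rpow (by positivity) (le_max_right _ _) hc.le
      rwa [← Real.rpow_mul (by positivity), one_div, inv_mul_cancel₀ hc.ne', Real.rpow_one] at h2
    have h3 : 0 < K ^ c := Real.rpow_pos_of_pos (by linarith) _
    rw [one_div, Real.inv_rpow (by linarith), ← div_eq_mul_inv, div_le_iff₀ h3]
    linarith
  have hA0 : 0 < A := by linarith
  have hAK : A * K ≤ max 2 (A * K) := le_max_right _ _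
  have hAA : A ≤ A * K := by nlinarith
  have hKK : K ≤ A * K := by nlinarith
  refine ⟨1 / 2, c2, max 2 (A * K), by norm_num, by norm_num, hc2, hc2', le_max_left _ _, ?_⟩
  intro S x0 L e r hD hr hrL hM p hp _ V hV hVh
  have hL : 0 < L := by linarith [hD.dL, hD.dpos]
  have hs : 0 < Real.sqrt (L * e) := Real.sqrt_pos.2 (mul_pos hL hD.dpos)
  have hr1 : A * Real.sqrt (L * e) ≤ r :=
    (mul_le_mul_of_nonneg_right (hAA.trans hAK) hs.le).trans hr
  have hr0 : 0 < r := by nlinarith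
  have hKr : K * r ≤ max 2 (A * K) * r := mul_le_mul_of_nonneg_right (hKK.trans hAK) hr0.le
  have h1 := h S x0 L e r (K * r) hD hr1 (by nlinarith) (by
    have := mul_le_mul_of_nonneg_right hAK hr0.le
    rw [← mul_assoc]
    linarith) (fun z hz b hb1 hb2 => hM z hz b hb1 (hb2.trans hKr)) p hp V hV
    fun v hv y => (hVh v hv y).1
  have h2 : r / (K * r) = 1 / K := by field_simp
  rw [h2] at h1
  refine (pr_mono ?_).trans (h1.trans hKc)
  rintro β - ⟨y, z, hy, hz, q1, q2, q3⟩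
  exact ⟨y, z, hy, hz, q1, hKr.trans q2, q3⟩

end Crest.Agent.R143.HarmZx802
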