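import Crest.Agent.R143.Lab_755

/-!
# Row 143 (S0194), CONT (K7): order of the labels along a grid polygon (helper755)

`F` : grid polygon with the boundary walk `v` (`Cyc F N v`), `Out s δ F x` : the site `x` is not deep
in `Pg s F` (991's `V` is the set of the deep sites, `δ = 2 d`).
* `Spo` : spoke = chain from an outer site `y` to a site next to the inner point `M k`
* `idx0` : index of a closed polyline (ring piece + two spokes + chain of outer sites) at the centre
* `sep` : two disjoint connected sets of outer sites do not touch the boundary in alternating order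
* `ord` : three classes touch the boundary in the order of the hull
-/

set_option autoImplicit false

noncomputable section

namespace Crest.Agent.R143.Sepx755

open Set Complex
open Crest.Agent.R158.Sp896
open Crest.Agent.R143.ToolWx838 Crest.Agent.R143.ToolW3x838 Crest.Agent.R143.Blkx838
open Crest.Agent.R143.Tenx416 (Pg)
open Crest.Agent.R143.LabDx755
open Crest.Agent.R143.Labx755 (On Pl cat asum_cat on_cat on_rev off_iff asum_rev pl_two on_two pl_one
  on_one asum_eq_of on_sub on_conv exists_chain disj_chain Shr rg_pl rg_add on_rg mem_on_left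
  mem_on_right ev_norm M_md M_per M_rs nb half_ball cen_path asum_far mod_ne mod_ne' nb_sep rs_sep)
open Crest.Agent.R143.B0x346 (GP cr hullE)
open Crest.Agent.R143.RE0x723 (Pth)
open Crest.Agent.R143.DelRx806 (HullCyc)

/-- not deep in the polygon -/
def Out (s δ : ℝ) (F : Set V) (x : ℂ) : Prop := ¬ Metric.closedBall x δ ⊆ Pg s F

/-- a chain of outer sites does not reach the depth `μ / 2` -/
theorem shallow {S : Finset ℂ} {s μ δ : ℝ} {F : Set V} (hsh : Shr S s (μ / 2) F) (hμ : 0 < μ)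
    (hδ : δ ≤ μ / 4) {q : List ℂ}
    (hq : ∀ p ∈ prs q, DE S p.1 p.2) (hout : ∀ x ∈ q, Out s δ F x) {z : ℂ}
    (hz : Metric.ball z (μ / 2) ⊆ Pg s F) : z ∉ On q := by
  rintro ⟨p, hp, h⟩
  have h0 : z ∈ Pg s F := hz (Metric.mem_ball_self (by linarith))
  have h1 := hsh _ _ (hq p hp) ⟨z, h, h0⟩
  have m1 := mem_of_prs hp
  obtain ⟨t, t', ht, ht', htt, rfl⟩ := h
  have e1 : dist p.1 (t • p.1 + t' • p.2) = t' * ‖p.1 - p.2‖ := by
    rw [dist_eq_norm]
    have : p.1 - (t • p.1 + t' • p.2) = t' • (p.1 - p.2) := by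
      have : t = 1 - t' := by linarith
      subst this
      simp only [Complex.real_smul]; push_cast; ring
    rw [this, norm_smul, Real.norm_eq_abs, abs_of_nonneg ht']
  have e2 : dist p.2 (t • p.1 + t' • p.2) = t * ‖p.1 - p.2‖ := by
    rw [dist_eq_norm]
    have : p.2 - (t • p.1 + t' • p.2) = -(t • (p.1 - p.2)) := by
      have : t' = 1 - t := by linarith
      subst this
      simp only [Complex.real_smul]; push_cast; ring
    rw [this, norm_neg, norm_smul, Real.norm_eq_abs, abs_of_nonneg ht]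
  have h5 : 0 ≤ ‖p.1 - p.2‖ := norm_nonneg _
  rcases le_total t' (1 / 2) with h2 | h2
  · refine hout _ m1.1 (subset_trans (fun x hx => ?_) hz)
    rw [Metric.mem_closedBall] at hx
    rw [Metric.mem_ball]
    have := dist_triangle x p.1 (t • p.1 + t' • p.2)
    rw [e1] at this
    nlinarith
  · refine hout _ m1.2 (subset_trans (fun x hx => ?_) hz)
    rw [Metric.mem_closedBall] at hx
    rw [Metric.mem_ball]
    have := dist_triangle x p.2 (t • p.1 + t' • p.2)
    rw [e2] at this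
    nlinarith

/-- spoke at the boundary edge `k`: chain of sites from the outer site `y` to a site near `M k`;
all the other sites are deep -/
structure Spo (S : Finset ℂ) (s μ r δ : ℝ) (F : Set V) (v : ℕ → V) (k : ℕ) (y c : ℂ)
    (l : List ℂ) : Prop where
  pl : Pl l y c
  mem : ∀ x ∈ l, x ∈ S
  out : Out s δ F y
  inn : ∀ x ∈ l, Out s δ F x → x = y
  del : ∀ p ∈ prs l, DE S p.1 p.2
  near : ∀ x ∈ l, ‖x - md s v k‖ ≤ r
  last : ‖c - M s μ v k‖ ≤ μ / 2

/-- the setting -/
structure St (S : Finset ℂ) (s μ r δ : ℝ) (F : Set V) (N : ℕ) (v : ℕ → V) : Prop where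
  gp : GP (S : Set ℂ)
  hμ : 0 < μ
  hr1 : μ ≤ r
  hr : 8 * r < s
  hδ : δ ≤ μ / 4
  C : Cyc F N v
  B : Bs s μ F N v
  con : ∀ q ∈ F, ∀ q' ∈ F, Con F q q'
  sh : Shr S s (μ / 2) F

section setting

variable {S : Finset ℂ} {s μ r δ : ℝ} {F : Set V} {N : ℕ} {v : ℕ → V} {k : ℕ} {y c : ℂ}
  {l : List ℂ}

theorem St.shallow (Z : St S s μ r δ F N v) {q : List ℂ}
    (hq : ∀ p ∈ prs q, DE S p.1 p.2) (hout : ∀ x ∈ q, Out s δ F x) {z : ℂ}
    (hz : Metric.ball z (μ / 2) ⊆ Pg s F) : z ∉ On q :=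
  Sepx755.shallow Z.sh Z.hμ Z.hδ hq hout hz

theorem Spo.nbl (h : Spo S s μ r δ F v k y c l) : On l ⊆ nb s r v k :=
  on_conv (convex_closedBall _ _) fun x hx => by
    rw [mem_closedBall_iff_norm]; exact h.near x hx

theorem Spo.nbc (Z : St S s μ r δ F N v) (h : Spo S s μ r δ F v k y c l) :
    segment ℝ c (M s μ v k) ⊆ nb s r v k := by
  refine (convex_closedBall _ _).segment_subset ?_ ?_
  · rw [mem_closedBall_iff_norm]
    exact h.near c (by obtain ⟨m, rfl⟩ := h.pl.right; simp)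
  · rw [mem_closedBall_iff_norm, M_md Z.C Z.hμ]
    exact Z.hr1

theorem Spo.deep (Z : St S s μ r δ F N v) (h : Spo S s μ r δ F v k y c l) {z : ℂ}
    (hz : z ∈ segment ℝ c (M s μ v k)) : Metric.ball z (μ / 2) ⊆ Pg s F := by
  have hμ := Z.hμ
  have h1 : segment ℝ c (M s μ v k) ⊆ Metric.closedBall (M s μ v k) (μ / 2) :=
    (convex_closedBall _ _).segment_subset (by rw [mem_closedBall_iff_norm]; exact h.last)
      (Metric.mem_closedBall_self (by linarith))
  have h2 := h1 hz
  refine subset_trans ?_ (Z.B.ring k _ (M_rs k))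
  refine Metric.ball_subset_ball' ?_
  rw [Metric.mem_closedBall] at h2
  linarith

theorem St.mdeep (Z : St S s μ r δ F N v) (k : ℕ) : M s μ v k ∈ Pg s F :=
  Z.B.ring k _ (M_rs k) (Metric.mem_ball_self Z.hμ)

/-- periodicity -/
theorem Spo.per (C : Cyc F N v) (h : Spo S s μ r δ F v k y c l) :
    Spo S s μ r δ F v (k + N) y c l := by
  have e1 : md s v (k + N) = md s v k := by
    unfold md
    rw [show k + N + 1 = k + 1 + N by ring, C.per, C.per]
  refine ⟨h.pl, h.mem, h.out, h.inn, h.del, ?_, ?_⟩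
  · rw [e1]; exact h.near
  · rw [M_per C]; exact h.last

/-- the centre of the inner cell is on the normal -/
theorem ctr_eq (C : Cyc F N v) (k : ℕ) : ctr s (ic v k) = md s v k + (s / 2) * (I * ev v k) := by
  have h := C.step k
  unfold md ev ctr ic
  generalize v (k + 1) = b at *
  generalize v k = a at *
  obtain ⟨a1, a2⟩ := a
  obtain ⟨b1, b2⟩ := b
  unfold Adj at h
  simp only at h
  have e : (b1 = a1 + 1 ∧ b2 = a2) ∨ (b1 = a1 - 1 ∧ b2 = a2) ∨ (b1 = a1 ∧ b2 = a2 + 1) ∨
      (b1 = a1 ∧ b2 = a2 - 1) := by omega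
  rcases e with ⟨rfl, rfl⟩ | ⟨rfl, rfl⟩ | ⟨rfl, rfl⟩ | ⟨rfl, rfl⟩
  · have e1 : lc (a1, b2) (a1 + 1, b2) = (a1, b2) := by
      unfold lc; ext <;> simp only <;> omega
    rw [e1]
    apply Complex.ext <;> simp [pt] <;> ring
  · have e1 : lc (a1, b2) (a1 - 1, b2) = (a1 - 1, b2 - 1) := by
      unfold lc; ext <;> simp only <;> omega
    rw [e1]
    apply Complex.ext <;> simp [pt] <;> ring
  · have e1 : lc (b1, a2) (b1, a2 + 1) = (b1 - 1, a2) := by
      unfold lc; ext <;> simp only <;> omega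
    rw [e1]
    apply Complex.ext <;> simp [pt] <;> ring
  · have e1 : lc (b1, a2) (b1, a2 - 1) = (b1, a2 - 1) := by
      unfold lc; ext <;> simp only <;> omega
    rw [e1]
    apply Complex.ext <;> simp [pt] <;> ring

/-- distance of the centre from the middle -/
theorem ctr_md (C : Cyc F N v) (hs : 0 < s) (k : ℕ) : ‖ctr s (ic v k) - md s v k‖ = s / 2 := by
  rw [ctr_eq C, add_sub_cancel_left, norm_mul, norm_mul, ev_norm C, Complex.norm_I]
  have : ((s : ℂ) / 2) = ((s / 2 : ℝ) : ℂ) := by push_cast; rfl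
  rw [this, Complex.norm_real, Real.norm_eq_abs, abs_of_pos (by linarith)]
  ring

theorem St.hs (Z : St S s μ r δ F N v) : 0 < s := by
  have h1 := Z.hμ
  have h2 := Z.hr1
  have h3 := Z.hr
  linarith

/-- the centre of a boundary cell is far from all the middles -/
theorem St.far_md (Z : St S s μ r δ F N v) (k j : ℕ) : s / 4 ≤ ‖ctr s (ic v k) - md s v j‖ := by
  have hs := Z.hs
  by_cases h : j % N = k % N
  · have e : md s v j = md s v k := by
      have key : ∀ j k : ℕ, k ≤ j → j % N = k % N → v j = v k := by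
        intro j k hkj h
        obtain ⟨m, rfl⟩ := Nat.exists_eq_add_of_le hkj
        have h1 : N ∣ m := by
          have := (Nat.modEq_iff_dvd' hkj).1 (show k ≡ k + m [MOD N] from h.symm)
          rwa [Nat.add_sub_cancel_left] at this
        obtain ⟨t, rfl⟩ := h1
        clear h hkj
        induction t with
        | zero => simp
        | succ t ih => rw [Nat.mul_succ, ← Nat.add_assoc, Z.C.per, ih]
      have h2 : (j + 1) % N = (k + 1) % N := by rw [Nat.add_mod, h, ← Nat.add_mod]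
      unfold md
      rcases le_total k j with hkj | hkj
      · rw [key j k hkj h, key (j + 1) (k + 1) (by omega) h2]
      · rw [key k j hkj h.symm, key (k + 1) (j + 1) (by omega) h2.symm]
    rw [e, ctr_md Z.C hs]
    linarith
  · refine Z.B.d2 k j h _ ?_
    exact right_mem_segment ℝ _ _

theorem St.ctr_nb (Z : St S s μ r δ F N v) (k j : ℕ) : ctr s (ic v k) ∉ nb s r v j := by
  intro h
  rw [mem_closedBall_iff_norm] at h
  have h1 := Z.far_md k j
  have h2 := Z.hr
  have h3 := Z.hs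
  linarith

theorem rg_mem {i n : ℕ} {a : ℂ} (h : a ∈ rg s μ v i n) : ∃ j, a ∈ rs s μ v j := by
  induction n with
  | zero =>
    rw [show rg s μ v i 0 = [M s μ v i] from rfl, List.mem_singleton] at h
    exact ⟨i, h ▸ M_rs i⟩
  | succ n ih =>
    rw [show rg s μ v i (n + 1) = rg s μ v i n ++ [W s μ v (i + n), M s μ v (i + n + 1)] from rfl,
      List.mem_append] at h
    rcases h with h | h
    · exact ih h
    · simp only [List.mem_cons, List.not_mem_nil, or_false] at h
      rcases h with rfl | rfl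
      · exact ⟨i + n, Or.inl (right_mem_segment ℝ _ _)⟩
      · exact ⟨i + n + 1, M_rs _⟩

theorem mem_cat {l m : List ℂ} {a : ℂ} (h : a ∈ cat l m) : a ∈ l ∨ a ∈ m := by
  unfold Labx755.cat at h
  rcases List.mem_append.1 h with h | h
  · exact Or.inl h
  · exact Or.inr (List.mem_of_mem_tail h)

/-! ### closed polylines: ring piece and tail -/

/-- data of a closed polyline: ring piece from `M i` to `M (i + m)`, spokes, chain `q` -/
structure Lp (S : Finset ℂ) (s μ r δ : ℝ) (F : Set V) (v : ℕ → V) (i m : ℕ) (yi yj ci cj : ℂ)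
    (li lj q : List ℂ) : Prop where
  si : Spo S s μ r δ F v i yi ci li
  sj : Spo S s μ r δ F v (i + m) yj cj lj
  pl : Pl q yj yi
  mem : ∀ x ∈ q, x ∈ S
  del : ∀ p ∈ prs q, DE S p.1 p.2
  out : ∀ x ∈ q, Out s δ F x

/-- the tail -/
def tl (s μ : ℝ) (v : ℕ → V) (i j : ℕ) (ci cj : ℂ) (li lj q : List ℂ) : List ℂ :=
  cat (cat (cat (cat [M s μ v j, cj] lj.reverse) q) li) [ci, M s μ v i]

/-- the closed polyline -/
def lp (s μ : ℝ) (v : ℕ → V) (i m : ℕ) (ci cj : ℂ) (li lj q : List ℂ) : List ℂ :=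
  cat (rg s μ v i m) (tl s μ v i (i + m) ci cj li lj q)

variable {i m : ℕ} {yi yj ci cj : ℂ} {li lj q : List ℂ}

theorem Lp.tpl (P : Lp S s μ r δ F v i m yi yj ci cj li lj q) :
    Pl (tl s μ v i (i + m) ci cj li lj q) (M s μ v (i + m)) (M s μ v i) :=
  ((((pl_two _ _).cat P.sj.pl.rev).cat P.pl).cat P.si.pl).cat (pl_two _ _)

theorem Lp.ton (P : Lp S s μ r δ F v i m yi yj ci cj li lj q) :
    On (tl s μ v i (i + m) ci cj li lj q) = (((segment ℝ cj (M s μ v (i + m)) ∪ On lj) ∪ On q) ∪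
      On li) ∪ segment ℝ ci (M s μ v i) := by
  unfold tl
  rw [on_cat ((((pl_two _ _).cat P.sj.pl.rev).cat P.pl).cat P.si.pl) (pl_two _ _),
    on_cat (((pl_two _ _).cat P.sj.pl.rev).cat P.pl) P.si.pl, on_cat ((pl_two _ _).cat P.sj.pl.rev) P.pl,
    on_cat (pl_two _ _) P.sj.pl.rev, on_two, on_two, on_rev, segment_symm]

theorem Lp.pll (P : Lp S s μ r δ F v i m yi yj ci cj li lj q) :
    Pl (lp s μ v i m ci cj li lj q) (M s μ v i) (M s μ v i) := (rg_pl s μ v i m).cat P.tpl

theorem Lp.on (P : Lp S s μ r δ F v i m yi yj ci cj li lj q) :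
    On (lp s μ v i m ci cj li lj q) =
      On (rg s μ v i m) ∪ On (tl s μ v i (i + m) ci cj li lj q) := on_cat (rg_pl s μ v i m) P.tpl

/-- weight of a spoke -/
def gw (s μ : ℝ) (v : ℕ → V) (z : ℂ) (k : ℕ) (c : ℂ) (l : List ℂ) : ℝ :=
  asum z [M s μ v k, c] + asum z l.reverse

theorem Lp.sum (P : Lp S s μ r δ F v i m yi yj ci cj li lj q) {z : ℂ} (h1 : z ∉ On li)
    (h2 : z ∉ segment ℝ ci (M s μ v i)) :
    asum z (lp s μ v i m ci cj li lj q) = asum z (rg s μ v i m) + gw s μ v z (i + m) cj lj +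
      asum z q - gw s μ v z i ci li := by
  unfold lp
  rw [asum_cat (rg_pl s μ v i m) P.tpl]
  unfold tl
  rw [asum_cat ((((pl_two _ _).cat P.sj.pl.rev).cat P.pl).cat P.si.pl) (pl_two _ _),
    asum_cat (((pl_two _ _).cat P.sj.pl.rev).cat P.pl) P.si.pl,
    asum_cat ((pl_two _ _).cat P.sj.pl.rev) P.pl, asum_cat (pl_two _ _) P.sj.pl.rev]
  unfold gw
  have e1 : asum z li.reverse = - asum z li := asum_rev h1
  have e2 : asum z [M s μ v i, ci] = - asum z [ci, M s μ v i] := by
    have := asum_rev (z := z) (l := [ci, M s μ v i]) (by rw [on_two]; exact h2)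
    simpa using this
  rw [e1, e2]
  ring

/-- a point outside the ring piece, the balls at the two spokes and the chain -/
theorem Lp.avoid (Z : St S s μ r δ F N v) (P : Lp S s μ r δ F v i m yi yj ci cj li lj q) {z : ℂ}
    (hR : z ∉ On (rg s μ v i m)) (h1 : z ∉ nb s r v i) (h3 : z ∉ nb s r v (i + m))
    (h : z ∉ On q) : z ∉ On (lp s μ v i m ci cj li lj q) := by
  rw [P.on, P.ton]
  rintro (h' | (((h' | h') | h') | h') | h')
  · exact hR h'
  · exact h3 (P.sj.nbc Z h')
  · exact h3 (P.sj.nbl h')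
  · exact h h'
  · exact h1 (P.si.nbl h')
  · exact h1 (P.si.nbc Z h')

theorem St.ringdeep (Z : St S s μ r δ F N v) {i m : ℕ} {z : ℂ} (hz : z ∈ On (rg s μ v i m)) :
    Metric.ball z (μ / 2) ⊆ Pg s F := by
  obtain ⟨j, -, hj⟩ := Set.mem_iUnion₂.1 (on_rg s μ v i m hz)
  exact half_ball Z.hμ (Z.B.ring j z hj)

/-- chains of outer sites off `q` -/
theorem Lp.chain (Z : St S s μ r δ F N v) (P : Lp S s μ r δ F v i m yi yj ci cj li lj q)
    {f : List ℂ} (fd : ∀ p ∈ prs f, DE S p.1 p.2) (fo : ∀ x ∈ f, Out s δ F x)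
    (dis : ∀ x ∈ f, x ∉ q) : Disjoint (On f) (On (lp s μ v i m ci cj li lj q)) := by
  have hyi : yi ∈ q := by obtain ⟨m, rfl⟩ := P.pl.right; simp
  have hyj : yj ∈ q := by obtain ⟨m, rfl⟩ := P.pl.left; simp
  rw [Set.disjoint_left, P.on, P.ton]
  rintro z hz (h' | (((h' | h') | h') | h') | h')
  · exact Z.shallow fd fo (Z.ringdeep h') hz
  · exact Z.shallow fd fo (P.sj.deep Z h') hz
  · exact Set.disjoint_left.1 (disj_chain Z.gp fd P.sj.del fun x hx hx' => by
      have := P.sj.inn x hx' (fo x hx)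
      exact dis x hx (this ▸ hyj)) hz h'
  · exact Set.disjoint_left.1 (disj_chain Z.gp fd P.del dis) hz h'
  · exact Set.disjoint_left.1 (disj_chain Z.gp fd P.si.del fun x hx hx' => by
      have := P.si.inn x hx' (fo x hx)
      exact dis x hx (this ▸ hyi)) hz h'
  · exact Z.shallow fd fo (P.si.deep Z h') hz

/-- radial walk from the site `y` of a spoke to the centre of the inner cell -/
theorem rad_path (Z : St S s μ r δ F N v) (h : Spo S s μ r δ F v k y c l) :
    ∃ P, Pl P y (ctr s (ic v k)) ∧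
      ∀ z ∈ On P, (z ∈ On l ∧ z ∈ nb s r v k) ∨
        (Metric.ball z (μ / 2) ⊆ Pg s F ∧ (z ∈ nb s r v k ∨ z ∈ rd s v k)) := by
  refine ⟨cat (cat l [c, M s μ v k]) [M s μ v k, ctr s (ic v k)],
    (h.pl.cat (pl_two _ _)).cat (pl_two _ _), ?_⟩
  rw [on_cat (h.pl.cat (pl_two _ _)) (pl_two _ _), on_cat h.pl (pl_two _ _), on_two, on_two]
  rintro z ((h1 | h1) | h1)
  · exact Or.inl ⟨h1, h.nbl h1⟩
  · exact Or.inr ⟨h.deep Z h1, Or.inl (h.nbc Z h1)⟩
  · refine Or.inr ⟨half_ball Z.hμ (Z.B.rad k z h1), Or.inr ?_⟩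
    exact (convex_segment _ _).segment_subset (Z.B.mrd k) (right_mem_segment ℝ _ _) h1

theorem Lp.rad (Z : St S s μ r δ F N v) (P : Lp S s μ r δ F v i m yi yj ci cj li lj q)
    (h : Spo S s μ r δ F v k y c l) (hy : y ∉ q) (ej : ∀ j, i ≤ j → j ≤ i + m → j % N ≠ k % N) :
    ∃ P, Pl P y (ctr s (ic v k)) ∧ Disjoint (On P) (On (lp s μ v i m ci cj li lj q)) := by
  have hr0 : 0 < r := lt_of_lt_of_le Z.hμ Z.hr1
  obtain ⟨P', hP, hz⟩ := rad_path Z h
  refine ⟨P', hP, Set.disjoint_left.2 fun z hzP => ?_⟩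
  have hnr : z ∈ nb s r v k ∨ z ∈ rd s v k := by
    rcases hz z hzP with h1 | h1
    · exact Or.inl h1.2
    · exact h1.2
  refine P.avoid Z ?_ (nb_sep Z.B Z.hr (ej i le_rfl (by omega)) hnr hr0)
    (nb_sep Z.B Z.hr (ej _ (by omega) le_rfl) hnr hr0) ?_
  · intro h'
    obtain ⟨j, hj, hj'⟩ := Set.mem_iUnion₂.1 (on_rg s μ v i m h')
    have h1 : i ≤ j := hj.1
    have h2 : j < i + m := hj.2
    exact rs_sep Z.B Z.hr (ej j h1 h2.le) (ej (j + 1) (by omega) (by omega)) hnr hr0 hj'
  · intro h'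
    rcases hz z hzP with h1 | h1
    · refine Set.disjoint_left.1 (disj_chain Z.gp h.del P.del fun x hx hx' => ?_) h1.1 h'
      have := h.inn x hx (P.out x hx')
      exact hy (this ▸ hx')
    · exact Z.shallow P.del P.out h1.1 h'

theorem Lp.cen (Z : St S s μ r δ F N v) (P : Lp S s μ r δ F v i m yi yj ci cj li lj q)
    {q0 q1 : V} (h0 : q0 ∈ F) (h1 : q1 ∈ F) :
    ∃ P, Pl P (ctr s q0) (ctr s q1) ∧ Disjoint (On P) (On (lp s μ v i m ci cj li lj q)) := by
  have hs := Z.hs
  have hr := Z.hr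
  obtain ⟨P', hP, hz⟩ := cen_path Z.B h0 (Z.con _ h0 _ h1)
  refine ⟨P', hP, Set.disjoint_left.2 fun z hzP => ?_⟩
  obtain ⟨h1, h2⟩ := hz z hzP
  refine P.avoid Z ?_ ?_ ?_ (Z.shallow P.del P.out (half_ball Z.hμ h1))
  · intro h'
    obtain ⟨j, hj, hj'⟩ := Set.mem_iUnion₂.1 (on_rg s μ v i m h')
    have := (h2 j).1 z hj'
    rw [sub_self, norm_zero] at this
    linarith
  · intro h'
    rw [mem_closedBall_iff_norm] at h'
    have := (h2 i).2
    linarith
  · intro h'
    rw [mem_closedBall_iff_norm] at h'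
    have := (h2 (i + m)).2
    linarith

/-- the vertices of the closed polyline -/
theorem Lp.vert (Z : St S s μ r δ F N v) (P : Lp S s μ r δ F v i m yi yj ci cj li lj q) {a : ℂ}
    (ha : a ∈ lp s μ v i m ci cj li lj q) : a ∈ Pg s F ∨ a ∈ li ∨ a ∈ lj ∨ a ∈ q := by
  have hci : ci ∈ li := by obtain ⟨m, rfl⟩ := P.si.pl.right; simp
  have hcj : cj ∈ lj := by obtain ⟨m, rfl⟩ := P.sj.pl.right; simp
  rcases mem_cat ha with h | h
  · obtain ⟨j, hj⟩ := rg_mem h
    exact Or.inl (Z.B.ring j a hj (Metric.mem_ball_self Z.hμ))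
  rcases mem_cat h with h | h
  · rcases mem_cat h with h | h
    · rcases mem_cat h with h | h
      · rcases mem_cat h with h | h
        · simp only [List.mem_cons, List.not_mem_nil, or_false] at h
          rcases h with rfl | rfl
          · exact Or.inl (Z.mdeep _)
          · exact Or.inr (Or.inr (Or.inl hcj))
        · exact Or.inr (Or.inr (Or.inl (List.mem_reverse.1 h)))
      · exact Or.inr (Or.inr (Or.inr h))
    · exact Or.inr (Or.inl h)
  · simp only [List.mem_cons, List.not_mem_nil, or_false] at h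
    rcases h with rfl | rfl
    · exact Or.inr (Or.inl hci)
    · exact Or.inl (Z.mdeep _)

/-- **third class**: the closed polyline has index `0` at the centre of the inner cell of a boundary
edge `k` off the ring piece, if the spoke at `k` is joined to an extreme site off `q` -/
theorem Lp.idx0 (Z : St S s μ r δ F N v) (P : Lp S s μ r δ F v i m yi yj ci cj li lj q)
    (h : Spo S s μ r δ F v k y c l) (ej : ∀ j, i ≤ j → j ≤ i + m → j % N ≠ k % N)
    {f : List ℂ} {e u : ℂ} (hf : Pl f y e) (fd : ∀ p ∈ prs f, DE S p.1 p.2)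
    (fo : ∀ x ∈ f, Out s δ F x) (dis : ∀ x ∈ f, x ∉ q)
    (hu1 : ∀ z ∈ S, z ≠ e → 0 < ((z - e) / u).re) (hu2 : ∀ z ∈ Pg s F, 0 < ((z - e) / u).re)
    {q0 : V} (h0 : q0 ∈ F) : asum (ctr s q0) (lp s μ v i m ci cj li lj q) = 0 := by
  have hyf : y ∈ f := by obtain ⟨m, rfl⟩ := hf.left; simp
  have hef : e ∈ f := by obtain ⟨m, rfl⟩ := hf.right; simp
  have hyi : yi ∈ q := by obtain ⟨m, rfl⟩ := P.pl.right; simp
  have hyj : yj ∈ q := by obtain ⟨m, rfl⟩ := P.pl.left; simp
  obtain ⟨P1, hP1, D1⟩ := P.rad Z h (dis y hyf) ej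
  obtain ⟨P2, hP2, D2⟩ := P.cen Z (q0 := q0) (q1 := ic v k) h0 (Z.C.left k)
  have e1 := asum_eq_of P.pll hf (P.chain Z fd fo dis)
  have e2 := asum_eq_of P.pll hP1 D1
  have e3 := asum_eq_of P.pll hP2 D2
  rw [e3, ← e2, e1]
  refine asum_half_closed (u := u) (by rw [P.pll.hd, P.pll.lt]) fun a ha => ?_
  rcases P.vert Z ha with h' | h' | h' | h'
  · exact hu2 a h'
  · refine hu1 a (P.si.mem a h') ?_
    rintro rfl
    have := P.si.inn a h' (fo a hef)
    exact dis a hef (this ▸ hyi)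
  · refine hu1 a (P.sj.mem a h') ?_
    rintro rfl
    have := P.sj.inn a h' (fo a hef)
    exact dis a hef (this ▸ hyj)
  · refine hu1 a (P.mem a h') ?_
    rintro rfl
    exact dis a hef h'

/-! ### SEP -/




theorem gw_per (C : Cyc F N v) (z : ℂ) (k : ℕ) (c : ℂ) (l : List ℂ) :
    gw s μ v z (k + N) c l = gw s μ v z k c l := by
  unfold gw
  rw [M_per C]


end setting

end Crest.Agent.R143.Sepx755
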