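import Mathlib
import Crest.Agent.R143.Sep_755
import Crest.Agent.R143.NetH_346
import Crest.Agent.R143.K33_877
import Crest.Agent.R143.GateK_421
import Crest.Agent.R143.Cont2_920
import Crest.Agent.R143.ContT_571
import Crest.Agent.R143.D1_377
import Crest.Agent.R143.Hex_877

-- ▼ part R143/Three_951
section

/-!
# Row 143 (S0194), CONT, (K7): three labels on a cycle without the cyclic pattern `0, 2, 1` form three
intervals (helper951)
-/

set_option autoImplicit false

namespace Crest.Agent.R143.Threex951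

/-- periodic labels: every label occurs after every index within one period -/
theorem occ {N : ℕ} (hN : 0 < N) {α : Type*} {lab : ℕ → α} (per : ∀ k, lab (k + N) = lab k) {x : α}
    (h : ∃ k, lab k = x) (a : ℕ) : ∃ b, a ≤ b ∧ b < a + N ∧ lab b = x := by
  obtain ⟨k, rfl⟩ := h
  have hp : ∀ k, lab (k % N) = lab k := fun k => Function.Periodic.map_mod_nat (f := lab) per k
  refine ⟨a + (k + (N - a % N)) % N, by omega, by have := Nat.mod_lt (k + (N - a % N)) hN; omega, ?_⟩
  rw [← hp (a + (k + (N - a % N)) % N), ← hp k]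
  congr 1
  rw [Nat.add_mod_mod]
  have h1 : a % N < N := Nat.mod_lt _ hN
  have h2 : a + (k + (N - a % N)) = k + N * (a / N + 1) := by
    have h3 := Nat.mod_add_div a N
    rw [Nat.mul_add, Nat.mul_one]
    omega
  rw [h2, Nat.add_mul_mod_self_left]

/-- **three intervals** -/
theorem three_comb {N : ℕ} (hN : 0 < N) {lab : ℕ → ZMod 3} (per : ∀ k, lab (k + N) = lab k)
    (hall : ∀ i, ∃ k, lab k = i)
    (ord : ∀ k0 k2 k1, k0 < k2 → k2 < k1 → k1 < k0 + N → lab k0 = 0 → lab k2 = 2 → lab k1 = 1 →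
      False) :
    ∃ a0 a1 a2, a0 < a1 ∧ a1 < a2 ∧ a2 < a0 + N ∧ (∀ k, a0 ≤ k → k < a1 → lab k = 0) ∧
      (∀ k, a1 ≤ k → k < a2 → lab k = 1) ∧ (∀ k, a2 ≤ k → k < a0 + N → lab k = 2) := by
  classical
  have h3 : ∀ x : ZMod 3, x = 0 ∨ x = 1 ∨ x = 2 := by decide
  have h01 : (0 : ZMod 3) ≠ 1 := by decide
  have h02 : (0 : ZMod 3) ≠ 2 := by decide
  have h12 : (1 : ZMod 3) ≠ 2 := by decide
  -- a nonzero label, then the next zero
  obtain ⟨c, -, -, hc⟩ := occ hN per (hall 1) 0
  have hex : ∃ n, lab (c + n) = 0 := by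
    obtain ⟨b, hb, -, hb'⟩ := occ hN per (hall 0) c
    exact ⟨b - c, by rw [Nat.add_sub_cancel' hb]; exact hb'⟩
  set n := Nat.find hex with hn
  have hn0 : lab (c + n) = 0 := Nat.find_spec hex
  have hn1 : n ≠ 0 := by
    intro h
    rw [h, add_zero, hc] at hn0
    exact h01 hn0.symm
  have hnm : lab (c + n - 1) ≠ 0 := by
    have := Nat.find_min hex (m := n - 1) (by omega)
    rwa [show c + (n - 1) = c + n - 1 by omega] at this
  set a0 := c + n with ha0
  have ha0p : 1 ≤ a0 := by omega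
  have hprev : lab (a0 + N - 1) ≠ 0 := by
    rw [show a0 + N - 1 = (a0 - 1) + N by omega, per]
    exact hnm
  -- first nonzero label after `a0`
  have hex1 : ∃ m, lab (a0 + m) ≠ 0 := ⟨N - 1, by rwa [show a0 + (N - 1) = a0 + N - 1 by omega]⟩
  set m := Nat.find hex1 with hm
  have hm0 : lab (a0 + m) ≠ 0 := Nat.find_spec hex1
  have hm1 : ∀ k, a0 ≤ k → k < a0 + m → lab k = 0 := by
    intro k h1 h2
    have := Nat.find_min hex1 (m := k - a0) (by omega)
    rw [Nat.add_sub_cancel' h1, not_not] at this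
    exact this
  have hmpos : 0 < m := by
    rcases Nat.eq_zero_or_pos m with h | h
    · rw [h, add_zero] at hm0; exact absurd hn0 hm0
    · exact h
  have hmN : m ≤ N - 1 := Nat.find_min' hex1 (by rwa [show a0 + (N - 1) = a0 + N - 1 by omega])
  set a1 := a0 + m with ha1
  -- the label of `a1` is `1`
  have hl1 : lab a1 = 1 := by
    rcases h3 (lab a1) with h | h | h
    · exact absurd h hm0
    · exact h
    · exfalso
      obtain ⟨b, b1, b2, b3⟩ := occ hN per (hall 1) a0
      have : a1 < b := by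
        by_contra hcon
        push Not at hcon
        rcases eq_or_lt_of_le hcon with e | e
        · rw [e, h] at b3; exact h12 b3.symm
        · rw [hm1 b b1 e] at b3; exact h01 b3
      exact ord a0 a1 b (by omega) this b2 hn0 h b3
  -- the last label is `2`
  have hlast : lab (a0 + N - 1) = 2 := by
    rcases h3 (lab (a0 + N - 1)) with h | h | h
    · exact absurd h hprev
    · exfalso
      obtain ⟨b, b1, b2, b3⟩ := occ hN per (hall 2) a0
      have h4 : a0 < b := by
        rcases eq_or_lt_of_le b1 with e | e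
        · rw [← e, hn0] at b3; exact absurd b3 h02
        · exact e
      have h5 : b < a0 + N - 1 := by
        rcases eq_or_lt_of_le (show b ≤ a0 + N - 1 by omega) with e | e
        · rw [e, h] at b3; exact absurd b3 h12
        · exact e
      exact ord a0 b (a0 + N - 1) h4 h5 (by omega) hn0 b3 h
    · exact h
  have ha1l : a1 < a0 + N - 1 := by
    rcases eq_or_lt_of_le (show a1 ≤ a0 + N - 1 by omega) with e | e
    · rw [← e, hl1] at hlast; exact absurd hlast h12
    · exact e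
  -- no zero after `a1`
  have hno0 : ∀ k, a1 ≤ k → k < a0 + N → lab k ≠ 0 := by
    intro k k1 k2 h0
    have k3 : a1 < k := by
      rcases eq_or_lt_of_le k1 with e | e
      · rw [← e, hl1] at h0; exact absurd h0.symm h01
      · exact e
    have k4 : k < a0 + N - 1 := by
      rcases eq_or_lt_of_le (show k ≤ a0 + N - 1 by omega) with e | e
      · rw [e, hlast] at h0; exact absurd h0.symm h02
      · exact e
    exact ord k (a0 + N - 1) (a1 + N) k4 (by omega) (by omega) h0 hlast (by rw [per]; exact hl1)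
  -- first `2` after `a1`
  have hex2 : ∃ r, lab (a1 + r) = 2 := ⟨a0 + N - 1 - a1, by
    rw [show a1 + (a0 + N - 1 - a1) = a0 + N - 1 by omega]; exact hlast⟩
  set r := Nat.find hex2 with hr
  have hr0 : lab (a1 + r) = 2 := Nat.find_spec hex2
  have hrmin : ∀ k, a1 ≤ k → k < a1 + r → lab k ≠ 2 := by
    intro k h1 h2 h
    exact Nat.find_min hex2 (m := k - a1) (by omega) (by rw [Nat.add_sub_cancel' h1]; exact h)
  have hrle : r ≤ a0 + N - 1 - a1 := Nat.find_min' hex2 (by
    rw [show a1 + (a0 + N - 1 - a1) = a0 + N - 1 by omega]; exact hlast)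
  have hrpos : 0 < r := by
    rcases Nat.eq_zero_or_pos r with h | h
    · rw [h, add_zero, hl1] at hr0; exact absurd hr0 h12
    · exact h
  refine ⟨a0, a1, a1 + r, by omega, by omega, by omega, hm1, fun k k1 k2 => ?_, fun k k1 k2 => ?_⟩
  · rcases h3 (lab k) with h | h | h
    · exact absurd h (hno0 k k1 (by omega))
    · exact h
    · exact absurd h (hrmin k k1 k2)
  · rcases h3 (lab k) with h | h | h
    · exact absurd h (hno0 k (by omega) k2)
    · exfalso
      have : a1 + r < k := by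
        rcases eq_or_lt_of_le k1 with e | e
        · rw [← e, hr0] at h; exact absurd h.symm h12
        · exact e
      exact ord a0 (a1 + r) k (by omega) this k2 hn0 hr0 h
    · exact h

end Crest.Agent.R143.Threex951
end

-- ▼ part R143/Ord_755
section

/-!
# Row 143 (S0194), CONT (K7): the labels along a grid polygon are in the order of the hull
(helper755)

* `hl` : path along the hull; `InH S z` : inside the hull polygon
* `ord` : three disjoint classes of outer sites with hull arcs; the spokes cannot be in the wrong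
  order
-/

set_option autoImplicit false

noncomputable section

namespace Crest.Agent.R143.Ordx755

open Set Complex
open Crest.Agent.R158.Sp896
open Crest.Agent.R143.ToolWx838 Crest.Agent.R143.ToolW3x838 Crest.Agent.R143.Blkx838
open Crest.Agent.R143.Tenx416 (Pg)
open Crest.Agent.R143.LabDx755
open Crest.Agent.R143.Labx755 (On Pl cat asum_cat on_cat on_rev off_iff asum_rev pl_two on_two pl_one
  on_one asum_eq_of on_sub on_conv exists_chain disj_chain Shr rg_pl rg_add on_rg mem_on_left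
  mem_on_right ev_norm M_md M_per M_rs nb half_ball cen_path asum_far mod_ne mod_ne' nb_sep rs_sep)
open Crest.Agent.R143.B0x346 (GP cr hullE)
open Crest.Agent.R143.RE0x723 (Pth)
open Crest.Agent.R143.DelRx806 (HullCyc)
open Crest.Agent.R143.DelGx806 (hull_side_lt)
open Crest.Agent.R143.Sepx755

variable {l m : List ℂ} {a b c x z : ℂ}

theorem prs_cat (h : Pl l a b) (h' : Pl m b c) : prs (cat l m) = prs l ++ prs m := by
  obtain ⟨l0, rfl⟩ := h.right
  obtain ⟨m0, rfl⟩ := h'.left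
  unfold Labx755.cat
  rw [List.tail_cons, List.append_assoc, List.singleton_append, prs_append]

/-- chains of Delaunay edges -/
theorem del_cat {S : Finset ℂ} (h : Pl l a b) (h' : Pl m b c) (hl : ∀ p ∈ prs l, DE S p.1 p.2)
    (hm : ∀ p ∈ prs m, DE S p.1 p.2) : ∀ p ∈ prs (cat l m), DE S p.1 p.2 := by
  intro p hp
  rw [prs_cat h h'] at hp
  rcases List.mem_append.1 hp with hp | hp
  · exact hl p hp
  · exact hm p hp

theorem del_rev {S : Finset ℂ} (hl : ∀ p ∈ prs l, DE S p.1 p.2) :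
    ∀ p ∈ prs l.reverse, DE S p.1 p.2 := by
  intro p hp
  rw [prs_reverse, List.mem_reverse, List.mem_map] at hp
  obtain ⟨p', hp', rfl⟩ := hp
  exact (hl p' hp').symm

/-! ### the hull -/

/-- hull path `w a, .., w (a + m)` -/
def hl (w : ℤ → ℂ) (a : ℤ) : ℕ → List ℂ
  | 0 => [w a]
  | m + 1 => cat (hl w a m) [w (a + m), w (a + m + 1)]

/-- inside the hull polygon -/
def InH (S : Finset ℂ) (z : ℂ) : Prop := ∀ a b, hullE S a b → 0 < cr (b - a) (z - a)

variable {S : Finset ℂ} {n : ℕ} {w : ℤ → ℂ}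

theorem hl_pl (w : ℤ → ℂ) (a : ℤ) (m : ℕ) : Pl (hl w a m) (w a) (w (a + m)) := by
  induction m with
  | zero => simpa [hl] using pl_one (w a)
  | succ m ih =>
    have := ih.cat (pl_two (w (a + m)) (w (a + m + 1)))
    have e : a + ((m + 1 : ℕ) : ℤ) = a + m + 1 := by push_cast; ring
    rw [e]
    exact this

theorem hl_mem {a : ℤ} {m : ℕ} {x : ℂ} (h : x ∈ hl w a m) : ∃ j, a ≤ j ∧ j ≤ a + m ∧ x = w j := by
  induction m with
  | zero =>
    rw [show hl w a 0 = [w a] from rfl, List.mem_singleton] at h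
    exact ⟨a, le_rfl, by simp, h⟩
  | succ m ih =>
    rcases mem_cat (show x ∈ cat (hl w a m) [w (a + m), w (a + m + 1)] from h) with h | h
    · obtain ⟨j, h1, h2, h3⟩ := ih h
      exact ⟨j, h1, by push_cast; omega, h3⟩
    · simp only [List.mem_cons, List.not_mem_nil, or_false] at h
      rcases h with rfl | rfl
      · exact ⟨_, by omega, by push_cast; omega, rfl⟩
      · exact ⟨_, by omega, by push_cast; omega, rfl⟩

theorem de_hull (h : hullE S a b) : DE S a b := Or.inl h.1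

theorem hl_del (H : HullCyc S n w) (a : ℤ) (m : ℕ) : ∀ p ∈ prs (hl w a m), DE S p.1 p.2 := by
  induction m with
  | zero => simp [hl]
  | succ m ih =>
    refine del_cat (hl_pl w a m) (pl_two _ _) ih fun p hp => ?_
    simp only [prs_cons, prs_one, List.mem_singleton] at hp
    rw [hp]
    exact de_hull (H.edge (a + m))

theorem cr_expand (a b x : ℂ) : cr (a - x) (b - x) = cr (b - a) (x - a) := by
  unfold cr
  simp only [Complex.sub_re, Complex.sub_im]
  ring

/-- an edge seen with the point on its left has a positive angle -/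
theorem ang_pos (h : 0 < cr (b - a) (x - a)) : 0 < ang x a b := by
  unfold ang
  have h1 : 0 < ((b - x) / (a - x)).im := by
    rw [Complex.div_im]
    have h0 : a - x ≠ 0 := by
      intro h0
      have : x - a = 0 := by rw [← neg_sub, h0, neg_zero]
      rw [this] at h
      simp [cr] at h
    have h2 : 0 < Complex.normSq (a - x) := Complex.normSq_pos.2 h0
    rw [← cr_expand] at h
    unfold cr at h
    rw [← sub_div]
    exact div_pos (by linarith) h2
  have := (Complex.arg_nonneg_iff (z := (b - x) / (a - x))).2 h1.le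
  refine lt_of_le_of_ne this fun h2 => ?_
  have := (Complex.arg_eq_zero_iff.1 h2.symm).2
  linarith

theorem hl_pos (H : HullCyc S n w) (hz : InH S z) (a : ℤ) (m : ℕ) : 0 ≤ asum z (hl w a m) := by
  induction m with
  | zero => simp [hl]
  | succ m ih =>
    have : asum z (hl w a (m + 1)) = asum z (hl w a m) + asum z [w (a + m), w (a + m + 1)] :=
      asum_cat (hl_pl w a m) (pl_two _ _)
    rw [this]
    have h1 : 0 < ang z (w (a + m)) (w (a + m + 1)) := ang_pos (hz _ _ (H.edge _))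
    simp only [asum_cons, asum_one]
    linarith

theorem cr_half (e z : ℂ) (he : e ≠ 0) : (z / (I * e)).re = cr e z / Complex.normSq e := by
  rw [Complex.div_re]
  simp only [Complex.mul_re, Complex.mul_im, Complex.I_re, Complex.I_im, Complex.normSq_mul,
    Complex.normSq_I]
  unfold cr
  have : Complex.normSq e ≠ 0 := fun h => he (Complex.normSq_eq_zero.1 h)
  field_simp
  ring

/-- a hull site is extreme -/
theorem ext_site (hS : GP (S : Set ℂ)) (H : HullCyc S n w) (t : ℤ) :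
    ∃ u, (∀ z ∈ S, z ≠ w t → 0 < ((z - w t) / u).re) ∧ ∀ z, InH S z → 0 < ((z - w t) / u).re := by
  have h2 := H.edge t
  have h1 : hullE S (w (t - 1)) (w t) := by
    have := H.edge (t - 1)
    rwa [sub_add_cancel] at this
  set e2 := w (t + 1) - w t with he2
  set e1 := w t - w (t - 1) with he1
  have add : ∀ z, cr (e1 + e2) (z - w t) = cr e1 (z - w (t - 1)) + cr e2 (z - w t) := by
    intro z
    rw [he1, he2]
    unfold cr
    simp only [Complex.sub_re, Complex.sub_im, Complex.add_re, Complex.add_im]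
    ring
  have key : ∀ z, (0 < cr (e1 + e2) (z - w t)) → 0 < ((z - w t) / (I * (e1 + e2))).re := by
    intro z hz
    have hne : e1 + e2 ≠ 0 := by
      intro h
      rw [h] at hz
      simp [cr] at hz
    rw [cr_half _ _ hne]
    exact div_pos hz (Complex.normSq_pos.2 hne)
  refine ⟨I * (e1 + e2), fun z hz hne => key z ?_, fun z hz => key z ?_⟩
  · rw [add]
    by_cases h3 : z = w (t + 1)
    · by_cases h4 : z = w (t - 1)
      · exfalso
        have h5 : hullE S (w t) (w (t + 1)) := h2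
        rw [← h3, h4] at h5
        obtain ⟨c, hc⟩ := h5.1
        exact h1.2 c hc
      · have h5 := hull_side_lt hS h1 hz (Ne.symm h4) (Ne.symm hne)
        have h6 := Crest.Agent.R143.DelGx806.hull_side h2 z hz
        linarith
    · have h5 := hull_side_lt hS h2 hz (Ne.symm hne) (Ne.symm h3)
      have h6 := Crest.Agent.R143.DelGx806.hull_side h1 z hz
      linarith
  · rw [add]
    exact add_pos (hz _ _ h1) (hz _ _ h2)

/-! ### ORD -/

/-- hull arcs of three classes, counterclockwise order `0, 1, 2` -/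
structure Hul (S : Finset ℂ) (A : ZMod 3 → Set ℂ) (n : ℕ) (w : ℤ → ℂ) (p : ℕ → ℤ) : Prop where
  cyc : HullCyc S n w
  lt0 : p 0 < p 1
  lt1 : p 1 < p 2
  lt2 : p 2 < p 0 + n
  a0 : ∀ k, p 0 < k → k ≤ p 1 → w k ∈ A 0
  a1 : ∀ k, p 1 < k → k ≤ p 2 → w k ∈ A 1
  a2 : ∀ k, p 2 < k → k ≤ p 0 + n → w k ∈ A 2

/-- chain of Delaunay edges in a set -/
structure Chn (S : Finset ℂ) (X : Set ℂ) (l : List ℂ) (a b : ℂ) : Prop where
  pl : Pl l a b
  mem : ∀ x ∈ l, x ∈ X
  del : ∀ p ∈ prs l, DE S p.1 p.2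

theorem exists_chn {X : Set ℂ} (h : Pth S X a b) : ∃ l, Chn S X l a b := by
  obtain ⟨l, h1, h2, h3⟩ := exists_chain h
  exact ⟨l, h1, h2, h3⟩

section main

variable {s μ r δ : ℝ} {F : Set V} {N : ℕ} {v : ℕ → V}

/-- one of the three loops -/
theorem loop0 (Z : St S s μ r δ F N v) (hP : ∀ z ∈ Pg s F, InH S z) {X Y T : Set ℂ}
    (hXS : ∀ x ∈ X, x ∈ S) (hYS : ∀ x ∈ Y, x ∈ S)
    (oX : ∀ x ∈ X, Out s δ F x) (oY : ∀ x ∈ Y, Out s δ F x) (oT : ∀ x ∈ T, Out s δ F x)
    (dX : Disjoint T X) (dY : Disjoint T Y) (H : HullCyc S n w) {t : ℤ}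
    {i m k : ℕ} (ej : ∀ j, i ≤ j → j ≤ i + m → j % N ≠ k % N)
    {yi yj yk ci cj ck ei ee : ℂ} {li lj lk gi gj gk hp : List ℂ}
    (si : Spo S s μ r δ F v i yi ci li) (sj : Spo S s μ r δ F v (i + m) yj cj lj)
    (sk : Spo S s μ r δ F v k yk ck lk)
    (hi : Chn S X gi yi ei) (hj : Chn S Y gj yj ee) (hk : Chn S T gk yk (w t))
    (hh : Chn S (X ∪ Y) hp ee ei) (k0 : ℕ) :
    asum (ctr s (ic v k0)) (rg s μ v i m) + gw s μ v (ctr s (ic v k0)) (i + m) cj lj +
      (asum (ctr s (ic v k0)) gj + asum (ctr s (ic v k0)) hp - asum (ctr s (ic v k0)) gi) -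
      gw s μ v (ctr s (ic v k0)) i ci li = 0 := by
  have hdeep : Metric.ball (ctr s (ic v k0)) (μ / 2) ⊆ Pg s F :=
    half_ball Z.hμ (Z.B.rad k0 _ (right_mem_segment ℝ _ _))
  have hq1 : Pl (cat gj hp) yj ei := hj.pl.cat hh.pl
  have hq : Pl (cat (cat gj hp) gi.reverse) yj yi := hq1.cat hi.pl.rev
  have mq : ∀ x ∈ cat (cat gj hp) gi.reverse, x ∈ X ∪ Y := by
    intro x hx
    rcases mem_cat hx with hx | hx
    · rcases mem_cat hx with hx | hx
      · exact Or.inr (hj.mem x hx)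
      · exact hh.mem x hx
    · exact Or.inl (hi.mem x (List.mem_reverse.1 hx))
  have P : Lp S s μ r δ F v i m yi yj ci cj li lj (cat (cat gj hp) gi.reverse) := by
    refine ⟨si, sj, hq, fun x hx => ?_, ?_, fun x hx => ?_⟩
    · rcases mq x hx with h | h
      · exact hXS x h
      · exact hYS x h
    · exact del_cat hq1 hi.pl.rev (del_cat hj.pl hh.pl hj.del hh.del) (del_rev hi.del)
    · rcases mq x hx with h | h
      · exact oX x h
      · exact oY x h
  obtain ⟨u, hu1, hu2⟩ := ext_site Z.gp H t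
  have h0 := P.idx0 Z sk ej hk.pl hk.del (fun x hx => oT x (hk.mem x hx)) (by
    intro x hx hx'
    rcases mq x hx' with h | h
    · exact Set.disjoint_left.1 dX (hk.mem x hx) h
    · exact Set.disjoint_left.1 dY (hk.mem x hx) h) hu1 (fun z hz => hu2 z (hP z hz))
    (q0 := ic v k0) (Z.C.left k0)
  rw [P.sum (fun h => Z.ctr_nb k0 i (si.nbl h)) (fun h => Z.ctr_nb k0 i (si.nbc Z h)),
    asum_cat hq1 hi.pl.rev, asum_cat hj.pl hh.pl,
    asum_rev (Z.shallow hi.del (fun x hx => oX x (hi.mem x hx)) hdeep)] at h0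
  linarith

/-- **ORD**: the classes `0, 1, 2` touch the boundary in the order of the hull -/
theorem ord (Z : St S s μ r δ F N v) (hP : ∀ z ∈ Pg s F, InH S z) {A : ZMod 3 → Set ℂ}
    (sub : ∀ i, ∀ x ∈ A i, x ∈ S) (out : ∀ i, ∀ x ∈ A i, Out s δ F x)
    (disj : ∀ i j, i ≠ j → Disjoint (A i) (A j))
    (con : ∀ i, ∀ x ∈ A i, ∀ y ∈ A i, Pth S (A i) x y) {p : ℕ → ℤ} (H : Hul S A n w p)
    {k0 k1 k2 : ℕ} (h02 : k0 < k2) (h21 : k2 < k1) (h10 : k1 < k0 + N)
    {y0 y1 y2 c0 c1 c2 : ℂ} {l0 l1 l2 : List ℂ}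
    (s0 : Spo S s μ r δ F v k0 y0 c0 l0) (s1 : Spo S s μ r δ F v k1 y1 c1 l1)
    (s2 : Spo S s μ r δ F v k2 y2 c2 l2) (m0 : y0 ∈ A 0) (m1 : y1 ∈ A 1) (m2 : y2 ∈ A 2) :
    False := by
  have d01 : (0 : ZMod 3) ≠ 1 := by decide
  have d02 : (0 : ZMod 3) ≠ 2 := by decide
  have d12 : (1 : ZMod 3) ≠ 2 := by decide
  have q1 := H.lt0
  have q2 := H.lt1
  have q3 := H.lt2
  have e0 : w (p 1) ∈ A 0 := H.a0 _ q1 le_rfl
  have e1 : w (p 2) ∈ A 1 := H.a1 _ q2 le_rfl
  have e2 : w (p 0 + n) ∈ A 2 := H.a2 _ q3 le_rfl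
  obtain ⟨g0, hg0⟩ := exists_chn (con 0 y0 m0 _ e0)
  obtain ⟨g1, hg1⟩ := exists_chn (con 1 y1 m1 _ e1)
  obtain ⟨g2, hg2⟩ := exists_chn (con 2 y2 m2 _ e2)
  obtain ⟨t1, ht1⟩ : ∃ t : ℕ, p 2 = p 1 + t := ⟨(p 2 - p 1).toNat, by omega⟩
  obtain ⟨t2, ht2⟩ : ∃ t : ℕ, p 0 + n = p 2 + t := ⟨(p 0 + n - p 2).toNat, by omega⟩
  obtain ⟨t3, ht3⟩ : ∃ t : ℕ, p 1 + n = p 0 + n + t := ⟨(p 1 - p 0).toNat, by omega⟩
  have H01 : Chn S (A 1 ∪ A 0) (hl w (p 1) t1) (w (p 1)) (w (p 2)) := by
    refine ⟨?_, fun x hx => ?_, hl_del H.cyc _ _⟩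
    · rw [ht1]; exact hl_pl w _ _
    · obtain ⟨j, j1, j2, rfl⟩ := hl_mem hx
      rcases eq_or_lt_of_le j1 with rfl | j1
      · exact Or.inr e0
      · exact Or.inl (H.a1 _ j1 (by omega))
  have H12 : Chn S (A 2 ∪ A 1) (hl w (p 2) t2) (w (p 2)) (w (p 0 + n)) := by
    refine ⟨?_, fun x hx => ?_, hl_del H.cyc _ _⟩
    · rw [ht2]; exact hl_pl w _ _
    · obtain ⟨j, j1, j2, rfl⟩ := hl_mem hx
      rcases eq_or_lt_of_le j1 with rfl | j1
      · exact Or.inr e1
      · exact Or.inl (H.a2 _ j1 (by omega))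
  have H20 : Chn S (A 0 ∪ A 2) (hl w (p 0 + n) t3) (w (p 0 + n)) (w (p 1)) := by
    refine ⟨?_, fun x hx => ?_, hl_del H.cyc _ _⟩
    · have := hl_pl w (p 0 + n) t3
      have e : w (p 1 + n) = w (p 1) := H.cyc.per _
      rwa [← ht3, e] at this
    · obtain ⟨j, j1, j2, rfl⟩ := hl_mem hx
      rcases eq_or_lt_of_le j1 with rfl | j1
      · exact Or.inr e2
      · have := H.a0 (j - n) (by omega) (by omega)
        have e : w j = w (j - n) := by
          have := H.cyc.per (j - n)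
          rwa [sub_add_cancel] at this
        rw [e]
        exact Or.inl this
  obtain ⟨n1, rfl⟩ : ∃ t, k2 = k0 + t := ⟨k2 - k0, by omega⟩
  obtain ⟨n2, rfl⟩ : ∃ t, k1 = k0 + n1 + t := ⟨k1 - (k0 + n1), by omega⟩
  obtain ⟨n3, hn3⟩ : ∃ t, k0 + N = k0 + n1 + n2 + t := ⟨k0 + N - (k0 + n1 + n2), by omega⟩
  have s0' : Spo S s μ r δ F v (k0 + n1 + n2 + n3) y0 c0 l0 := by
    rw [← hn3]; exact s0.per Z.C
  -- the loops
  have L1 := loop0 Z hP (sub 0) (sub 2) (out 0) (out 2) (out 1) (disj 1 0 d01.symm) (disj 1 2 d12)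
    H.cyc (t := p 2) (i := k0) (m := n1) (k := k0 + n1 + n2)
    (fun j j1 j2 => mod_ne (by omega) (by omega)) s0 s2 s1 hg0 hg2 hg1 H20 k0
  have L2 := loop0 Z hP (sub 2) (sub 1) (out 2) (out 1) (out 0) (disj 0 2 d02) (disj 0 1 d01)
    H.cyc (t := p 1) (i := k0 + n1) (m := n2) (k := k0)
    (fun j j1 j2 => mod_ne' (by omega) (by omega)) s2 s1 s0 hg2 hg1 hg0 H12 k0
  have L3 := loop0 Z hP (sub 1) (sub 0) (out 1) (out 0) (out 2) (disj 2 1 d12.symm)
    (disj 2 0 d02.symm)
    H.cyc (t := p 0 + n) (i := k0 + n1 + n2) (m := n3) (k := k0 + n1)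
    (fun j j1 j2 => mod_ne' (by omega) (by omega)) s1 s0' s2 hg1 hg0 hg2 H01 k0
  -- ring
  have i1 := Z.B.idx k0 _ (Z.C.left k0)
  have hN : N = n1 + n2 + n3 := by omega
  have i2 : asum (ctr s (ic v k0)) (rg s μ v k0 N) = asum (ctr s (ic v k0)) (rg s μ v k0 n1) +
      asum (ctr s (ic v k0)) (rg s μ v (k0 + n1) n2) +
      asum (ctr s (ic v k0)) (rg s μ v (k0 + n1 + n2) n3) := by
    rw [hN, rg_add, asum_cat (rg_pl s μ v k0 (n1 + n2)) (by
      have := rg_pl s μ v (k0 + (n1 + n2)) n3; exact this), rg_add,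
      asum_cat (rg_pl s μ v k0 n1) (rg_pl s μ v (k0 + n1) n2), ← Nat.add_assoc]
  have i3 : gw s μ v (ctr s (ic v k0)) (k0 + n1 + n2 + n3) c0 l0 =
      gw s μ v (ctr s (ic v k0)) k0 c0 l0 := by
    rw [← hn3, gw_per Z.C]
  rw [i3] at L3
  have hin : InH S (ctr s (ic v k0)) :=
    hP _ (Z.B.rad k0 _ (right_mem_segment ℝ _ _) (Metric.mem_ball_self Z.hμ))
  have a1 := hl_pos H.cyc hin (p 1) t1
  have a2 := hl_pos H.cyc hin (p 2) t2
  have a3 := hl_pos H.cyc hin (p 0 + n) t3
  have hpi := Real.pi_pos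
  have e : ic v k0 = lc (v k0) (v (k0 + 1)) := rfl
  rw [← e, i2] at i1
  linarith

/-- **THREE**: three intervals in the order of the hull -/
theorem three (Z : St S s μ r δ F N v) (hP : ∀ z ∈ Pg s F, InH S z) {A : ZMod 3 → Set ℂ}
    (sub : ∀ i, ∀ x ∈ A i, x ∈ S) (out : ∀ i, ∀ x ∈ A i, Out s δ F x)
    (disj : ∀ i j, i ≠ j → Disjoint (A i) (A j))
    (con : ∀ i, ∀ x ∈ A i, ∀ y ∈ A i, Pth S (A i) x y) {p : ℕ → ℤ} (H : Hul S A n w p)
    {lab : ℕ → ZMod 3} (per : ∀ k, lab (k + N) = lab k) (hall : ∀ i, ∃ k, lab k = i)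
    (spk : ∀ k, ∃ y c l, Spo S s μ r δ F v k y c l ∧ y ∈ A (lab k)) :
    ∃ a0 a1 a2, a0 < a1 ∧ a1 < a2 ∧ a2 < a0 + N ∧ (∀ k, a0 ≤ k → k < a1 → lab k = 0) ∧
      (∀ k, a1 ≤ k → k < a2 → lab k = 1) ∧ (∀ k, a2 ≤ k → k < a0 + N → lab k = 2) := by
  have hN : 0 < N := by have := Z.C.four_le; omega
  refine Threex951.three_comb hN per hall fun k0 k2 k1 h1 h2 h3 e0 e2 e1 => ?_
  obtain ⟨y0, c0, l0, s0, m0⟩ := spk k0
  obtain ⟨y1, c1, l1, s1, m1⟩ := spk k1
  obtain ⟨y2, c2, l2, s2, m2⟩ := spk k2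
  rw [e0] at m0
  rw [e1] at m1
  rw [e2] at m2
  exact ord Z hP sub out disj con H h1 h2 h3 s0 s1 s2 m0 m1 m2

end main

end Crest.Agent.R143.Ordx755
end
private theorem rz_bba8ac5bc0 : type_of% @_root_.Crest.Agent.R143.Ordx755.hl.eq_def := @_root_.Crest.Agent.R143.Ordx755.hl.eq_def -- L60
private theorem rz_5d7e8face1 : type_of% @_root_.Crest.Agent.R143.Ordx755.hl.eq_1 := @_root_.Crest.Agent.R143.Ordx755.hl.eq_1 -- L60
end

-- ▼ part R143/HitU_54
section

/-!
# Row 143 (S0194): uniqueness of the hit, end point formula in the frozen language (helper54)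

* `enl` : the classes enlarged by the black / white clusters, `tr_enl : Tr S A → Tr S (enl ..)`
* **`hitu : HITU`**, `hitO_unique` : uniqueness of the hit (from 877's `ktt`)
* `hex_net : Hex S (sA S N)`, **`TT_TS : TT N z = TS S (sA S N) z`** (346's bridge, discharged)
* `tg_hex : Tg S B r → Hex S B`, `tg_TS : TT O.N z = TS S B z` (848's three classes)
* `Y_TS` : **(D1) in the frozen form** `Y S N (rr z) x = TS S (sA S (knet N x.1)) z`, with `Hex`
* `yv_hit`, `yv_hv`, `mu_hits` without hypothesis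
-/
set_option autoImplicit false
set_option linter.unusedSimpArgs false

noncomputable section

open scoped Classical

namespace Crest.Agent.R143.HitUx54

open Crest.Agent.R143.B0x346 Crest.Agent.R143.DelGx806 Crest.Agent.R143.DelRx806
  Crest.Agent.R143.JColx54 Crest.Agent.R143.RE0x723 Crest.Agent.R143.K33x877
  Crest.Agent.R143.NetUx346 Crest.Agent.R143.HitLx54
open Crest.Agent.R143.Bsumx848 (TT rr mu)
open Crest.Agent.R143.Massx848 (Pairs)
open Crest.Agent.R143.Sidesx697 (Side)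
open Crest.Agent.R143.RB2x54 (Vt)

variable {S : Finset ℂ} {A : ZMod 3 → Set ℂ} {i j k : ZMod 3}

/-! ### enlarged classes -/













/-! ### uniqueness -/

theorem z3 : ∀ i j k : ZMod 3, i ≠ j → i ≠ k → j ≠ k → ∀ l, l = i ∨ l = j ∨ l = k := by decide



/-! ### networks -/

variable {N : Net ℂ} {In : Finset ℂ}






/-! ### three classes of 848 -/

section tg

variable {B : ZMod 3 → Set ℂ} {r : ZMod 3 → ℂ × ℂ}





end tg

/-! ### explored networks -/

section alive

open Crest.Agent.R143.Mabx377 (Y_static Y_diff alive_net alive_pairs kl_side hnet_ok Y_eq_TT)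


end alive

end Crest.Agent.R143.HitUx54
end
end

-- ▼ part R143/Hul_755

/-!
# Row 143 (S0194), CONT (K7): hull arcs of three classes (helper755)

* `hul_of_tr` : `Tr S A` with counterclockwise classes => hull arcs `Hul S A n w p`
* `ccw_of_hex` : `Tr S A` and `Hex S A` => `Ccw S A`
-/

set_option autoImplicit false

noncomputable section

open scoped Classical

namespace Crest.Agent.R143.Hulx755

open Set
open Crest.Agent.R143.B0x346 Crest.Agent.R143.DelGx806 Crest.Agent.R143.DelRx806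
open Crest.Agent.R143.Blkx838 (rot_mem)
open Crest.Agent.R143.K33x877 Crest.Agent.R143.NetUx346 Crest.Agent.R143.Hexx877
open Crest.Agent.R143.Ordx755 (Hul)

variable {S : Finset ℂ} {A : ZMod 3 → Set ℂ}

theorem hull_asymm {a b : ℂ} (h : hullE S a b) : ¬ hullE S b a := fun h' => by
  obtain ⟨c, hc⟩ := h'.1
  exact h.2 c hc

theorem card3 {a b : ℂ} (h : hullE S a b) : 3 ≤ S.card := by
  obtain ⟨⟨c, hc⟩, -⟩ := h
  obtain ⟨o, ht⟩ := mem_delT_iff.1 hc
  have h1 : ({a, b, c} : Finset ℂ) ⊆ S := by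
    intro x hx
    simp only [Finset.mem_insert, Finset.mem_singleton] at hx
    rcases hx with rfl | rfl | rfl
    · exact ht.ma
    · exact ht.mb
    · exact ht.mc
  have h2 : a ≠ b := by
    rintro rfl
    have := ht.pos
    simp [cr] at this
  have h3 : a ≠ c := by
    rintro rfl
    have := ht.pos
    simp [cr] at this
  have h4 : b ≠ c := by
    rintro rfl
    have := ht.pos
    unfold cr at this
    linarith
  calc 3 = ({a, b, c} : Finset ℂ).card := (Finset.card_eq_three.2 ⟨a, b, c, h2, h3, h4, rfl⟩).symm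
    _ ≤ S.card := Finset.card_le_card h1

section walk

variable {n : ℕ} {w : ℤ → ℂ}

theorem cls_of (hT : Tr S A) (H : HullCyc S n w) (j : ℤ) : ∃ i, w j ∈ A i :=
  hT.hull _ _ (H.edge j)

theorem uniq (hT : Tr S A) {i j : ZMod 3} {x : ℂ} (h1 : x ∈ A i) (h2 : x ∈ A j) : i = j := by
  by_contra h
  exact Set.disjoint_left.1 (hT.disj i j h) h1 h2

/-- representative of a position in `(q, q + n]` -/
theorem exists_rep (H : HullCyc S n w) {a b : ℂ} (h : hullE S a b) (q : ℤ) :
    ∃ j, q < j ∧ j ≤ q + n ∧ w j = a ∧ w (j + 1) = b := by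
  obtain ⟨i, h1, h2, h3, h4⟩ := H.all a b h
  have hn : (0 : ℤ) < n := by exact_mod_cast H.pos
  have e : ∀ t : ℤ, w (q + 1 + (i - (q + 1)) % n + t) = w (i + t) := by
    intro t
    rw [← mod_per H.pos H.per, ← mod_per H.pos H.per (i + t)]
    congr 1
    have : q + 1 + (i - (q + 1)) % n + t = (i + t) + n * (- ((i - (q + 1)) / n)) := by
      have := Int.emod_def (i - (q + 1)) n
      rw [this]; ring
    rw [this, Int.add_mul_emod_self_left]
  refine ⟨q + 1 + (i - (q + 1)) % n, ?_, ?_, ?_, ?_⟩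
  · have := Int.emod_nonneg (i - (q + 1)) hn.ne'
    omega
  · have := Int.emod_lt_of_pos (i - (q + 1)) hn
    omega
  · have := e 0
    rw [add_zero, add_zero] at this
    rw [this, h3]
  · rw [e 1, h4]

theorem ne_lt (H : HullCyc S n w) {i j : ℤ} (h1 : i < j) (h2 : j < i + n) : w i ≠ w j :=
  ne_of_lt H.pos H.per H.inj h1 h2

/-- the unique hull edge between two classes -/
theorem edge_eq (hT : Tr S A) {i j : ZMod 3} (hij : i ≠ j) {a b a' b' : ℂ}
    (h : hullE S a b ∨ hullE S b a) (ha : a ∈ A i) (hb : b ∈ A j)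
    (h' : hullE S a' b' ∨ hullE S b' a') (ha' : a' ∈ A i) (hb' : b' ∈ A j) :
    a' = a ∧ b' = b := by
  obtain ⟨x, y, -, -, -, hu⟩ := hT.one i j hij
  obtain ⟨h1, h2⟩ := hu a b h ha hb
  obtain ⟨h3, h4⟩ := hu a' b' h' ha' hb'
  exact ⟨h3.trans h1.symm, h4.trans h2.symm⟩

theorem z3 (i : ZMod 3) : i + 1 ≠ i ∧ i ≠ i + 1 ∧ i + 1 + 1 ≠ i ∧ i + 1 + 1 ≠ i + 1 := by
  revert i; decide

theorem z3' (i l : ZMod 3) : l = i ∨ l = i + 1 ∨ l = i + 1 + 1 := by
  revert i l; decide

/-- the part of the hull in the class `i + 1` after the mark `i` -/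
theorem arc (hT : Tr S A) (H : HullCyc S n w) {i : ZMod 3} {a b : ℂ} (h : hullE S a b)
    (ha : a ∈ A i) (hb : b ∈ A (i + 1)) {q : ℤ} (hq : w q = a) (hq' : w (q + 1) = b) :
    ∃ q', q < q' ∧ q' < q + n ∧ (∀ j, q < j → j ≤ q' → w j ∈ A (i + 1)) ∧
      w (q' + 1) ∈ A (i + 1 + 1) := by
  -- first position after `q` whose successor leaves the class
  have hn : (0 : ℤ) < n := by exact_mod_cast H.pos
  have hex : ∃ t : ℕ, w (q + 1 + t + 1) ∉ A (i + 1) := by
    have h2 : w (q + n) ∉ A (i + 1) := by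
      rw [H.per, hq]
      exact fun h' => (z3 i).2.1 (uniq hT ha h')
    have h3 : 2 ≤ n := by
      by_contra hlt
      have : (n : ℤ) = 1 := by omega
      have h4 := H.per q
      rw [this] at h4
      rw [h4, hq] at hq'
      exact h2 (by rw [H.per, hq, hq']; exact hb)
    refine ⟨n - 2, ?_⟩
    have : q + 1 + ((n - 2 : ℕ) : ℤ) + 1 = q + n := by push_cast [Nat.cast_sub h3]; ring
    rw [this]
    exact h2
  set t := Nat.find hex with ht
  have h1 : w (q + 1 + t + 1) ∉ A (i + 1) := Nat.find_spec hex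
  have h2 : ∀ j : ℤ, q < j → j ≤ q + 1 + t → w j ∈ A (i + 1) := by
    intro j j1 j2
    rcases eq_or_lt_of_le (show q + 1 ≤ j by omega) with e | j3
    · rw [← e, hq']; exact hb
    · have := Nat.find_min hex (m := (j - (q + 2)).toNat) (by omega)
      rw [not_not] at this
      have e : q + 1 + ((j - (q + 2)).toNat : ℤ) + 1 = j := by omega
      rwa [e] at this
  have h3 : q + 1 + (t : ℤ) < q + n := by
    by_contra hge
    have := h2 (q + n) (by omega) (by omega)
    rw [H.per, hq] at this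
    exact (z3 i).2.1 (uniq hT ha this)
  refine ⟨q + 1 + t, by omega, h3, h2, ?_⟩
  have h4 : w (q + 1 + t) ∈ A (i + 1) := h2 _ (by omega) le_rfl
  obtain ⟨l, hl⟩ := cls_of hT H (q + 1 + t + 1)
  rcases z3' i l with rfl | rfl | rfl
  · exfalso
    obtain ⟨e1, e2⟩ := edge_eq hT (z3 l).2.1 (Or.inl h) ha hb (Or.inr (H.edge (q + 1 + t))) hl h4
    have h5 := H.edge (q + 1 + t)
    rw [e1, e2] at h5
    exact hull_asymm h h5
  · exact absurd hl h1
  · exact hl

/-- **hull arcs** -/
theorem hul_of_tr (hT : Tr S A) (hc : Ccw S A) : ∃ n w p, Hul S A n w p := by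
  obtain ⟨a, b, hab, ha, hb⟩ := hc 2
  have z20 : (2 : ZMod 3) + 1 = 0 := by decide
  have z01 : (0 : ZMod 3) + 1 = 1 := by decide
  have z12 : (1 : ZMod 3) + 1 = 2 := by decide
  rw [z20] at hb
  obtain ⟨n, w, H⟩ := hull_cycle hT.gp (card3 hab)
  obtain ⟨q, -, -, hq, hq'⟩ := exists_rep H hab 0
  obtain ⟨q0, h1, h2, h3, h4⟩ := arc hT H (i := 2) hab ha (by rw [z20]; exact hb) hq hq'
  rw [z20] at h3 h4
  rw [z01] at h4
  have m0 : w q0 ∈ A 0 := h3 q0 h1 le_rfl
  obtain ⟨q1, k1, k2, k3, k4⟩ := arc hT H (i := 0) (H.edge q0) m0 (by rw [z01]; exact h4) rfl rfl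
  rw [z01] at k3 k4
  rw [z12] at k4
  have m1 : w q1 ∈ A 1 := k3 q1 k1 le_rfl
  obtain ⟨q2, l1, l2, l3, l4⟩ := arc hT H (i := 1) (H.edge q1) m1 (by rw [z12]; exact k4) rfl rfl
  rw [z12] at l3 l4
  rw [z20] at l4
  have d1 : q1 < q + n := by
    by_contra hge
    have := k3 (q + n) (by omega) (by omega)
    rw [H.per, hq] at this
    exact absurd (uniq hT ha this) (by decide)
  have d2 : q2 = q + n := by
    have m2 : w q2 ∈ A 2 := l3 q2 l1 le_rfl
    obtain ⟨e1, e2⟩ := edge_eq hT (i := 2) (j := 0) (by decide) (Or.inl hab) ha hb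
      (Or.inl (H.edge q2)) m2 l4
    have e3 : w q2 = w (q + n) := by rw [H.per, hq, e1]
    by_contra hne
    rcases lt_or_gt_of_ne hne with h | h
    · exact ne_lt H h (by omega) e3
    · exact ne_lt H h (by omega) e3.symm
  refine ⟨n, w, fun j => if j = 0 then q else if j = 1 then q0 else q1, H, ?_, ?_, ?_, ?_, ?_, ?_⟩
  · simpa using h1
  · simpa using k1
  · simpa using d1
  · intro k
    simpa using h3 k
  · intro k
    simpa using k3 k
  · intro k
    have := l3 k
    rw [d2] at this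
    simpa using this

end walk

/-! ### orientation from the oriented hits -/







/-! ### 723's polygon with the three classes -/

theorem tr_eq (hT : Tr S A) (i : ZMod 3) : ((S.filter fun x => x ∈ A i : Finset ℂ) : Set ℂ) = A i := by
  ext x
  simp only [Finset.coe_filter, Set.mem_ofPred_eq]
  exact ⟨fun h => h.2, fun h => ⟨hT.sub i h, h⟩⟩

theorem pg_of_hul {n : ℕ} {w : ℤ → ℂ} {p : ℕ → ℤ} (hT : Tr S A) (h : Hul S A n w p) :
    RE0x723.Pg S n w 2 p fun j => S.filter fun x => x ∈ A (j : ZMod 3) where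
  gp := hT.gp
  cyc := h.cyc
  mono j hj := by
    interval_cases j
    · exact h.lt0
    · exact h.lt1
  last := h.lt2
  sub j _ := Finset.filter_subset _ _
  disj i j hi hj hij := by
    rw [Finset.disjoint_left]
    intro x hx hy
    have h1 := uniq hT (Finset.mem_filter.1 hx).2 (Finset.mem_filter.1 hy).2
    interval_cases i <;> interval_cases j <;> first | exact hij rfl | exact absurd h1 (by decide)
  con j _ x hx y hy := by
    rw [tr_eq hT]
    exact hT.con _ x (Finset.mem_filter.1 hx).2 y (Finset.mem_filter.1 hy).2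
  arc j hj k h1 h2 := by
    interval_cases j
    · have := h.a0 k h1 h2
      simp only [Nat.cast_zero, Finset.mem_filter]
      exact ⟨hT.sub _ this, this⟩
    · have := h.a1 k h1 h2
      simp only [Nat.cast_one, Finset.mem_filter]
      exact ⟨hT.sub _ this, this⟩
  arcl k h1 h2 := by
    have := h.a2 k h1 h2
    simp only [Nat.cast_ofNat, Finset.mem_filter]
    exact ⟨hT.sub _ this, this⟩

/-- **723's polygon from counterclockwise classes** -/
theorem pg_of_ccw (hT : Tr S A) (hc : Ccw S A) : ∃ (n : ℕ) (w : ℤ → ℂ) (p : ℕ → ℤ),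
    RE0x723.Pg S n w 2 p fun j => S.filter fun x => x ∈ A (j : ZMod 3) := by
  obtain ⟨n, w, p, h⟩ := hul_of_tr hT hc
  exact ⟨n, w, p, pg_of_hul hT h⟩


/-- hull arcs of 723's polygon, for larger classes -/
theorem hul_of_pg {B : ZMod 3 → Set ℂ} {n : ℕ} {w : ℤ → ℂ} {p : ℕ → ℤ}
    (h : RE0x723.Pg S n w 2 p fun j => S.filter fun x => x ∈ A (j : ZMod 3))
    (hAB : ∀ i, A i ⊆ B i) : Hul S B n w p := by
  refine ⟨h.cyc, h.mono 0 (by norm_num), h.mono 1 (by norm_num), h.last, fun k h1 h2 => ?_,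
    fun k h1 h2 => ?_, fun k h1 h2 => ?_⟩
  · have := (Finset.mem_filter.1 (h.arc 0 (by norm_num) k h1 h2)).2
    exact hAB 0 (by simpa using this)
  · have := (Finset.mem_filter.1 (h.arc 1 (by norm_num) k h1 h2)).2
    exact hAB 1 (by simpa using this)
  · have := (Finset.mem_filter.1 (h.arcl k h1 h2)).2
    exact hAB 2 (by simpa using this)


end Crest.Agent.R143.Hulx755
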