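import Crest.Agent.R143.J9_872
import Crest.Agent.R143.X0C_683
import Crest.Agent.R143.Loc_922

/-!
# Row 143, block X: two worlds with the same inside (helper872)

* `loc_col2` : the colouring of a join through a cut (all edges)
* `pair_tri` : the same triangles in the disc; `pair_agr` : two joins of the two worlds differ in the
  disc by the boundary of a set of sites
* `HI_congr2`, `GI_congr2`, `h_indep2`, `g_indep2`
* `step_XK'`, `step_X1'`, `step_h'`, `step_g'` : the steps `Rj j → Rj (j + 1)` as sums
-/

set_option autoImplicit false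

noncomputable section

open scoped Classical

namespace Crest.Agent.R143.J10x872

open Crest.Agent.R143.B0x346 Crest.Agent.R143.DelGx806 Crest.Agent.R143.DelRx806
  Crest.Agent.R143.JColx54 Crest.Agent.R143.JCol2x54 Crest.Agent.R143.Planarx54
  Crest.Agent.R143.Planar2x54 Crest.Agent.R143.Harx315 Crest.Agent.R143.J8x872
  Crest.Agent.R143.J9x872
open Crest.Agent.R143.X0Bx683 (OutP LeadsO LegTip Tips TipsS HO GO HI GI Dsc Fs Ann Fc World Rj)
open Crest.Agent.R143.X0Cx683 (Pair)

local notation "flp" => Crest.Agent.R143.X0Bx683.flip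
local notation "bdy" => Crest.Agent.R143.X0Bx683.bd
local notation "eex" => Crest.Agent.R143.XW1x315.ex
local notation "AgrJ" => Crest.Agent.R143.J9x872.Agr

variable {S S' : Finset ℂ} {N N' : Net ℂ} {G G' : Trg ℂ} {kl : Set (ℂ × ℂ)} {O : Set (ℂ × ℂ × ℂ)}
  {D D' : Set (ℂ × ℂ)} {J J' : Finset (ℂ × ℂ)} {V β β' : Finset ℂ} {z0 : ℂ} {W : Set ℂ}

/-! ### the colouring of a join through a cut -/

/-- the edge crosses the cut of the branch `B` an even number of times -/
def Ev (x : ℂ) (B : ℂ → ℝ) (a b : ℂ) : Prop :=
  ∃ k : ℤ, ang x a b = B b - B a + (2 * k : ℤ) * (2 * Real.pi)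


/-! ### two worlds -/

section pair

variable {R R1 d b0 C4 r : ℝ} {f : Fc S N z0 r} {f' : Fc S' N' z0 r}









/-! ### legs in two worlds -/












end pair

/-! ### steps between the scales as sums -/

section steps

variable {r R : ℝ} {t : ℂ × ℂ × ℂ}









end steps

end Crest.Agent.R143.J10x872
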