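import Crest.Agent.R143.J8_872

/-!
# Row 143, block X, averaging and locality (helper872)

* `step_congr`, `leadsO_congr`, `legTip_congr`, `tips_congr`, `tipsS_congr` : legs followed outside `W`
  only look at the edges with both ends outside `W`; `HO_congr`, `GO_congr`, `HI_congr`, `GI_congr`,
  `HO_flip`, `GO_flip`, `HI_flip`, `GI_flip`, `HO_dep`, `GO_dep`, `HI_dep`, `GI_dep`
* `at_flip`, `at_mem`, `card_at`, `sum_at` : joins read at the face `t`
* `pr_step`, `step_XK`, `step_X1`, `step_h`, `step_g` : fix the colours of an annulus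
* `cntK_avg`, `X_avg`, `tri_avg` : counts and winding polynomial as averages of `XK`
* `XK_fin`, `X1_eq` ; `h_indep`, `g_indep`
-/

set_option autoImplicit false

noncomputable section

open scoped Classical

namespace Crest.Agent.R143.J9x872

open Crest.Agent.R143.B0x346 Crest.Agent.R143.DelGx806 Crest.Agent.R143.DelRx806
  Crest.Agent.R143.JColx54 Crest.Agent.R143.JCol2x54 Crest.Agent.R143.Planarx54
  Crest.Agent.R143.Planar2x54 Crest.Agent.R143.Harx315 Crest.Agent.R143.J8x872
open Crest.Agent.R143.X0Bx683 (OutP LeadsO LegTip Tips TipsS HO GO HI GI Dsc Fs Ann Fc World)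

local notation "flp" => Crest.Agent.R143.X0Bx683.flip
local notation "bdy" => Crest.Agent.R143.X0Bx683.bd
local notation "eex" => Crest.Agent.R143.XW1x315.ex

variable {S : Finset ℂ} {N : Net ℂ} {G : Trg ℂ} {kl : Set (ℂ × ℂ)} {O : Set (ℂ × ℂ × ℂ)}
  {D : Set (ℂ × ℂ)} {J J' : Finset (ℂ × ℂ)} {V β β' : Finset ℂ} {z0 : ℂ} {W : Set ℂ}

/-! ### locality -/

/-- the two joins agree on the edges with both ends outside `W` -/
def Agr (W : Set ℂ) (J J' : Finset (ℂ × ℂ)) : Prop :=
  ∀ a b : ℂ, a ∉ W → b ∉ W → ((a, b) ∈ J ↔ (a, b) ∈ J')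

theorem Agr.symm (h : Agr W J J') : Agr W J' J := fun a b ha hb => (h a b ha hb).symm









theorem tipsS_tips {st0 : ZMod 3 → ℂ × ℂ} {η : ℝ} (h : TipsS G O D J W st0 η) :
    Tips G O D J W st0 := by
  obtain ⟨q, hq, -⟩ := h
  exact fun i => ⟨q i, hq i⟩

theorem GO.ho {s0 : ℂ × ℂ × ℂ} {ρ δ : ℝ} (h : GO N s0 z0 ρ δ J) : HO N s0 z0 ρ J := tipsS_tips h

theorem GI.hi {t : ℂ × ℂ × ℂ} {ρ δ : ℝ} (h : GI N t z0 ρ δ J) : HI N t z0 ρ J :=
  ⟨h.1, tipsS_tips h.2⟩



















/-! ### joins read at a face -/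

variable {r : ℝ} {t : ℂ × ℂ × ℂ}








/-! ### monotonicity in the radius -/







/-! ### fixing the colours of an annulus -/












/-! ### the inner probabilities do not depend on the outside -/









/-! ### averages over the joins -/

section avg

variable {R R1 d b0 C4 : ℝ}








end avg

end Crest.Agent.R143.J9x872
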