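import Crest.Agent.R158.Tj1_656
import Crest.Agent.R158.SpD_331

-- ▼ part R158/Tg1_331
section

/-!
# Row 158 (S0237), BLOCK GEO (helper331), file 1: plane topology of a scaled polyomino

`Om s F` (656) = interior of the union of the closed cells `sq s q`, `q ∈ F`.
* `conn_Om` : connected
* `mem_frontier_Om`, `frontier_Om` : the frontier is the union of the boundary edges
* `Op u s F = {z | u z ∈ Om s F}` : the same after a rotation
-/

set_option autoImplicit false

open Set Topology Filter Metric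
open Crest.Agent.R158.Sp896 Crest.Agent.R158.Tj656
open Crest.Agent.R158.Wl290 (Cone)

namespace Crest.Agent.R158.Tg331

/-- open cell -/
def so (s : ℝ) (q : V) : Set ℂ :=
  {z | s * q.1 < z.re ∧ z.re < s * (q.1 + 1) ∧ s * q.2 < z.im ∧ z.im < s * (q.2 + 1)}

variable {s : ℝ} {F : Set V}

theorem so_sub (s : ℝ) (q : V) : so s q ⊆ sq s q :=
  fun _ h => ⟨h.1.le, h.2.1.le, h.2.2.1.le, h.2.2.2.le⟩

theorem ce_so (hs : 0 < s) (q : V) : cen s q ∈ so s q := by
  refine ⟨?_, ?_, ?_, ?_⟩ <;> · simp only [cen]; nlinarith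

/-- an open cell meets only its own closed cell -/
theorem so_unique (hs : 0 < s) {q q' : V} {z : ℂ} (h : z ∈ so s q) (h' : z ∈ sq s q') : q' = q := by
  obtain ⟨h1, h2, h3, h4⟩ := h
  obtain ⟨k1, k2, k3, k4⟩ := h'
  have e1 : (q'.1 : ℝ) < q.1 + 1 := lt_of_mul_lt_mul_left (lt_of_le_of_lt k1 h2) hs.le
  have e2 : (q.1 : ℝ) < q'.1 + 1 := lt_of_mul_lt_mul_left (lt_of_lt_of_le h1 k2) hs.le
  have e3 : (q'.2 : ℝ) < q.2 + 1 := lt_of_mul_lt_mul_left (lt_of_le_of_lt k3 h4) hs.le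
  have e4 : (q.2 : ℝ) < q'.2 + 1 := lt_of_mul_lt_mul_left (lt_of_lt_of_le h3 k4) hs.le
  have e1' : q'.1 < q.1 + 1 := by exact_mod_cast e1
  have e2' : q.1 < q'.1 + 1 := by exact_mod_cast e2
  have e3' : q'.2 < q.2 + 1 := by exact_mod_cast e3
  have e4' : q.2 < q'.2 + 1 := by exact_mod_cast e4
  ext <;> omega

theorem to_ce (hs : 0 < s) {q : V} {z : ℂ} (h : z ∈ sq s q) {t : ℝ} (ht : 0 < t) (ht1 : t ≤ 1) :
    z + (t : ℂ) * (cen s q - z) ∈ so s q := by
  obtain ⟨h1, h2, h3, h4⟩ := strict_in h ht1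
  have : 0 < t * s / 2 := by positivity
  exact ⟨by linarith, by linarith, by linarith, by linarith⟩


theorem so_sub_Om (hs : 0 < s) {q : V} (hq : q ∈ F) : so s q ⊆ Om s F := by
  intro z hz
  rw [mem_om hs]
  intro q' hq'
  rw [so_unique hs hz hq']
  exact hq


/-! ### connectedness -/

theorem seg_ce (hs : 0 < s) {q : V} {z : ℂ} (hz : z ∈ Om s F) (h : z ∈ sq s q) :
    segment ℝ z (cen s q) ⊆ Om s F := by
  intro w hw
  rw [segment_eq_image'] at hw
  obtain ⟨t, ht, rfl⟩ := hw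
  rcases ht.1.eq_or_lt with h0 | h0
  · rw [← h0]; simpa using hz
  · have := so_sub_Om hs ((mem_om hs).1 hz q h) (to_ce hs h h0 ht.2)
    simpa using this

theorem ce_mem (hs : 0 < s) {q : V} (hq : q ∈ F) : cen s q ∈ Om s F := so_sub_Om hs hq (ce_so hs q)

/-- middle of the common side of two adjacent cells -/
theorem mid_mem (hs : 0 < s) {q q' : V} (h : Adj q q') (hq : q ∈ F) (hq' : q' ∈ F) :
    ∃ z ∈ Om s F, z ∈ sq s q ∧ z ∈ sq s q' := by
  have key : ∀ p : V, (⟨s * (q.1 + q'.1 + 1) / 2, s * (q.2 + q'.2 + 1) / 2⟩ : ℂ) ∈ sq s p →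
      p = q ∨ p = q' := by
    rintro p ⟨h1, h2, h3, h4⟩
    simp only at h1 h2 h3 h4
    have e1 : (2 * p.1 : ℝ) ≤ q.1 + q'.1 + 1 := by
      have : s * (2 * p.1) ≤ s * ((q.1 : ℝ) + q'.1 + 1) := by linarith
      exact le_of_mul_le_mul_left this hs
    have e2 : (q.1 + q'.1 + 1 : ℝ) ≤ 2 * p.1 + 2 := by
      have : s * ((q.1 : ℝ) + q'.1 + 1) ≤ s * (2 * p.1 + 2) := by linarith
      exact le_of_mul_le_mul_left this hs
    have e3 : (2 * p.2 : ℝ) ≤ q.2 + q'.2 + 1 := by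
      have : s * (2 * p.2) ≤ s * ((q.2 : ℝ) + q'.2 + 1) := by linarith
      exact le_of_mul_le_mul_left this hs
    have e4 : (q.2 + q'.2 + 1 : ℝ) ≤ 2 * p.2 + 2 := by
      have : s * ((q.2 : ℝ) + q'.2 + 1) ≤ s * (2 * p.2 + 2) := by linarith
      exact le_of_mul_le_mul_left this hs
    have e1' : 2 * p.1 ≤ q.1 + q'.1 + 1 := by exact_mod_cast e1
    have e2' : q.1 + q'.1 + 1 ≤ 2 * p.1 + 2 := by exact_mod_cast e2
    have e3' : 2 * p.2 ≤ q.2 + q'.2 + 1 := by exact_mod_cast e3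
    have e4' : q.2 + q'.2 + 1 ≤ 2 * p.2 + 2 := by exact_mod_cast e4
    unfold Adj at h
    have : (p.1 = q.1 ∧ p.2 = q.2) ∨ (p.1 = q'.1 ∧ p.2 = q'.2) := by omega
    rcases this with h | h
    · left; ext <;> simp [h.1, h.2]
    · right; ext <;> simp [h.1, h.2]
  refine ⟨⟨s * (q.1 + q'.1 + 1) / 2, s * (q.2 + q'.2 + 1) / 2⟩, ?_, ?_, ?_⟩
  · rw [mem_om hs]
    intro p hp
    rcases key p hp with rfl | rfl
    · exact hq
    · exact hq'
  · rcases h with ⟨h1, h2⟩ | ⟨h1, h2⟩ | ⟨h1, h2⟩ | ⟨h1, h2⟩ <;>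
      · refine ⟨?_, ?_, ?_, ?_⟩ <;> · simp only [h1, h2]; push_cast; nlinarith
  · rcases h with ⟨h1, h2⟩ | ⟨h1, h2⟩ | ⟨h1, h2⟩ | ⟨h1, h2⟩ <;>
      · refine ⟨?_, ?_, ?_, ?_⟩ <;> · simp only [h1, h2]; push_cast; nlinarith

/-- the open polyomino is connected -/
theorem conn_Om (hs : 0 < s) (hc : ∀ q ∈ F, ∀ q' ∈ F, Con F q q') : IsPreconnected (Om s F) := by
  have hj : ∀ q ∈ F, ∀ q', Con F q q' → JoinedIn (Om s F) (cen s q) (cen s q') := by
    intro q hq q' h
    have : JoinedIn (Om s F) (cen s q) (cen s q') ∧ q' ∈ F := by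
      induction h with
      | refl => exact ⟨JoinedIn.refl (ce_mem hs hq), hq⟩
      | tail _ h2 ih =>
        refine ⟨?_, h2.2⟩
        obtain ⟨z, hz, h3, h4⟩ := mid_mem hs h2.1 ih.2 h2.2
        exact (ih.1.trans (JoinedIn.of_segment_subset (seg_ce hs hz h3)).symm).trans
          (JoinedIn.of_segment_subset (seg_ce hs hz h4))
    exact this.1
  have hp : ∀ z ∈ Om s F, ∀ w ∈ Om s F, JoinedIn (Om s F) z w := by
    intro z hz w hw
    have hz' := mem_cellOf hs z
    have hw' := mem_cellOf hs w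
    exact ((JoinedIn.of_segment_subset (seg_ce hs hz hz')).trans
      (hj _ ((mem_om hs).1 hz _ hz') _
        (hc _ ((mem_om hs).1 hz _ hz') _ ((mem_om hs).1 hw _ hw')))).trans
      (JoinedIn.of_segment_subset (seg_ce hs hw hw')).symm
  refine isPreconnected_of_forall_pair fun z hz w hw => ?_
  obtain ⟨p, hp'⟩ := hp z hz w hw
  exact ⟨range p, by rintro _ ⟨t, rfl⟩; exact hp' t, ⟨0, p.source⟩, ⟨1, p.target⟩,
    isPreconnected_range p.continuous⟩

/-! ### the frontier -/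

theorem common_cases (hs : 0 < s) {q q' : V} {z : ℂ} (h : z ∈ sq s q) (h' : z ∈ sq s q') :
    |q.1 - q'.1| ≤ 1 ∧ |q.2 - q'.2| ≤ 1 := by
  obtain ⟨h1, h2, h3, h4⟩ := h
  obtain ⟨k1, k2, k3, k4⟩ := h'
  have e1 := int_le_of hs h1 k2
  have e2 := int_le_of hs k1 h2
  have e3 := int_le_of hs h3 k4
  have e4 := int_le_of hs k3 h4
  rw [abs_le, abs_le]
  omega

/-- two closed cells with a common point are joined by a chain of adjacent cells containing it -/
theorem mix (hs : 0 < s) {q q' : V} {z : ℂ} (h : z ∈ sq s q) (h' : z ∈ sq s q') :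
    z ∈ sq s (q'.1, q.2) := by
  obtain ⟨h1, h2, h3, h4⟩ := h
  obtain ⟨k1, k2, k3, k4⟩ := h'
  exact ⟨k1, k2, h3, h4⟩

/-- a point on a cell of `F` and on a cell outside `F` lies on two adjacent such cells -/
theorem exists_adj (hs : 0 < s) {q q' : V} {z : ℂ} (h : z ∈ sq s q) (h' : z ∈ sq s q') (hq : q ∈ F)
    (hq' : q' ∉ F) : ∃ p p' : V, Adj p p' ∧ p ∈ F ∧ p' ∉ F ∧ z ∈ sq s p ∧ z ∈ sq s p' := by
  have h2 := mix hs h h'
  by_cases hm : ((q'.1, q.2) : V) ∈ F
  · have e := common_cases hs h2 h'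
    have hne : q.2 ≠ q'.2 := by
      intro h3
      rw [h3] at hm
      exact hq' hm
    refine ⟨(q'.1, q.2), q', ?_, hm, hq', h2, h'⟩
    rw [abs_le, abs_le] at e
    have e2 := e.2
    rcases lt_or_gt_of_ne hne with h4 | h4
    · exact Or.inr (Or.inr (Or.inl ⟨rfl, by simp only at e2 ⊢; omega⟩))
    · exact Or.inr (Or.inr (Or.inr ⟨rfl, by simp only at e2 ⊢; omega⟩))
  · have e := common_cases hs h h2
    have hne : q.1 ≠ q'.1 := by
      intro h3
      rw [← h3] at hm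
      exact hm hq
    refine ⟨q, (q'.1, q.2), ?_, hq, hm, h, h2⟩
    rw [abs_le, abs_le] at e
    have e2 := e.1
    rcases lt_or_gt_of_ne hne with h4 | h4
    · exact Or.inl ⟨by simp only at e2 ⊢; omega, rfl⟩
    · exact Or.inr (Or.inl ⟨by simp only at e2 ⊢; omega, rfl⟩)

theorem mem_ed_iff (hs : 0 < s) {a b : V} (h : Adj a b) {z : ℂ} :
    z ∈ ed s a b ↔ z ∈ sq s (lc a b) ∧ z ∈ sq s (rc a b) := by
  refine ⟨fun hz => ⟨ed_sub_lc hs h hz, ed_sub_rc hs h hz⟩, ?_⟩
  rintro ⟨⟨h1, h2, h3, h4⟩, k1, k2, k3, k4⟩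
  unfold ed
  rw [segment_eq_image']
  rcases h with ⟨e1, e2⟩ | ⟨e1, e2⟩ | ⟨e1, e2⟩ | ⟨e1, e2⟩
  · have f1 : lc a b = (a.1, a.2) := by unfold lc; ext <;> simp only <;> omega
    have f2 : rc a b = (a.1, a.2 - 1) := by unfold rc; ext <;> simp only <;> omega
    rw [f1] at h1 h2 h3 h4
    rw [f2] at k1 k2 k3 k4
    simp only at h1 h2 h3 h4 k1 k2 k3 k4
    push_cast at h1 h2 h3 h4 k1 k2 k3 k4
    have hi : z.im = s * a.2 := by linarith
    refine ⟨(z.re - s * a.1) / s, ⟨div_nonneg (by linarith) hs.le, ?_⟩, ?_⟩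
    · rw [div_le_one hs]; linarith
    · apply Complex.ext
      · simp only [pt, e1, Complex.add_re, Complex.sub_re, Complex.real_smul, Complex.mul_re,
          Complex.ofReal_re, Complex.ofReal_im, zero_mul, sub_zero]
        push_cast
        field_simp
        ring
      · simp only [pt, e2, Complex.add_im, Complex.sub_im, Complex.real_smul, Complex.mul_im,
          Complex.ofReal_re, Complex.ofReal_im, zero_mul, add_zero, sub_self, mul_zero]
        linarith
  · have f1 : lc a b = (a.1 - 1, a.2 - 1) := by unfold lc; ext <;> simp only <;> omega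
    have f2 : rc a b = (a.1 - 1, a.2) := by unfold rc; ext <;> simp only <;> omega
    rw [f1] at h1 h2 h3 h4
    rw [f2] at k1 k2 k3 k4
    simp only at h1 h2 h3 h4 k1 k2 k3 k4
    push_cast at h1 h2 h3 h4 k1 k2 k3 k4
    have hi : z.im = s * a.2 := by linarith
    refine ⟨(s * a.1 - z.re) / s, ⟨div_nonneg (by linarith) hs.le, ?_⟩, ?_⟩
    · rw [div_le_one hs]; linarith
    · apply Complex.ext
      · simp only [pt, e1, Complex.add_re, Complex.sub_re, Complex.real_smul, Complex.mul_re,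
          Complex.ofReal_re, Complex.ofReal_im, zero_mul, sub_zero]
        push_cast
        field_simp
        ring
      · simp only [pt, e2, Complex.add_im, Complex.sub_im, Complex.real_smul, Complex.mul_im,
          Complex.ofReal_re, Complex.ofReal_im, zero_mul, add_zero, sub_self, mul_zero]
        linarith
  · have f1 : lc a b = (a.1 - 1, a.2) := by unfold lc; ext <;> simp only <;> omega
    have f2 : rc a b = (a.1, a.2) := by unfold rc; ext <;> simp only <;> omega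
    rw [f1] at h1 h2 h3 h4
    rw [f2] at k1 k2 k3 k4
    simp only at h1 h2 h3 h4 k1 k2 k3 k4
    push_cast at h1 h2 h3 h4 k1 k2 k3 k4
    have hi : z.re = s * a.1 := by linarith
    refine ⟨(z.im - s * a.2) / s, ⟨div_nonneg (by linarith) hs.le, ?_⟩, ?_⟩
    · rw [div_le_one hs]; linarith
    · apply Complex.ext
      · simp only [pt, e1, Complex.add_re, Complex.sub_re, Complex.real_smul, Complex.mul_re,
          Complex.ofReal_re, Complex.ofReal_im, zero_mul, sub_zero, sub_self, mul_zero]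
        linarith
      · simp only [pt, e2, Complex.add_im, Complex.sub_im, Complex.real_smul, Complex.mul_im,
          Complex.ofReal_re, Complex.ofReal_im, zero_mul, add_zero]
        push_cast
        field_simp
        ring
  · have f1 : lc a b = (a.1, a.2 - 1) := by unfold lc; ext <;> simp only <;> omega
    have f2 : rc a b = (a.1 - 1, a.2 - 1) := by unfold rc; ext <;> simp only <;> omega
    rw [f1] at h1 h2 h3 h4
    rw [f2] at k1 k2 k3 k4
    simp only at h1 h2 h3 h4 k1 k2 k3 k4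
    push_cast at h1 h2 h3 h4 k1 k2 k3 k4
    have hi : z.re = s * a.1 := by linarith
    refine ⟨(s * a.2 - z.im) / s, ⟨div_nonneg (by linarith) hs.le, ?_⟩, ?_⟩
    · rw [div_le_one hs]; linarith
    · apply Complex.ext
      · simp only [pt, e1, Complex.add_re, Complex.sub_re, Complex.real_smul, Complex.mul_re,
          Complex.ofReal_re, Complex.ofReal_im, zero_mul, sub_zero, sub_self, mul_zero]
        linarith
      · simp only [pt, e2, Complex.add_im, Complex.sub_im, Complex.real_smul, Complex.mul_im,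
          Complex.ofReal_re, Complex.ofReal_im, zero_mul, add_zero]
        push_cast
        field_simp
        ring



/-! ### rotations -/

/-- the rotated polyomino -/
def Op (u : ℂ) (s : ℝ) (F : Set V) : Set ℂ := {z | u * z ∈ Om s F}

/-- multiplication by a nonzero number -/
noncomputable def mh (u : ℂ) (hu : u ≠ 0) : ℂ ≃ₜ ℂ := Homeomorph.mulLeft₀ u hu

@[simp] theorem mh_apply (u : ℂ) (hu : u ≠ 0) (z : ℂ) : mh u hu z = u * z := rfl










end Crest.Agent.R158.Tg331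
end

-- ▼ part R143/Tent0_359

/-!
# Row 143 (S0194), block D, TENT : interface (helper359)

Grid cells `V = ℤ × ℤ` (R158, Sp896), `Cyc F L v` : counterclockwise boundary walk of `F`.

* `ref h F`, `vref h v`, `cenc h q` : refinement of the mesh by `2 h + 1`
* `CL h U` : centre line of the cell path `U`
* `Cfg F L v m c M n U` : configuration with `n ≤ 4` tentacles `U 0, …, U (n-1)`, 4 marks
* `body F U n` : cells of `F` and of the tentacles
-/

set_option autoImplicit false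

namespace Crest.Agent.R143.Tentx359

open Crest.Agent.R158.Sp896

/-- rotation by a quarter turn, counterclockwise -/
def rot (d : V) : V := (-d.2, d.1)

/-- directions of the tentacles: east, north, west, south -/
def dir (i : ℕ) : V :=
  if i = 0 then (1, 0) else if i = 1 then (0, 1) else if i = 2 then (-1, 0) else (0, -1)

/-- refinement of a set of cells by `2 h + 1` -/
def ref (h : ℕ) (F : Set V) : Set V := {f | (f.1 / (2 * h + 1), f.2 / (2 * h + 1)) ∈ F}

/-- centre of the refined cell -/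
def cenc (h : ℕ) (q : V) : V := ((2 * h + 1) * q.1 + h, (2 * h + 1) * q.2 + h)

/-- refinement of the boundary walk -/
def vref (h : ℕ) (v : ℕ → V) (i : ℕ) : V :=
  ((2 * h + 1) * (v (i / (2 * h + 1))).1 +
      (i % (2 * h + 1) : ℕ) * ((v (i / (2 * h + 1) + 1)).1 - (v (i / (2 * h + 1))).1),
   (2 * h + 1) * (v (i / (2 * h + 1))).2 +
      (i % (2 * h + 1) : ℕ) * ((v (i / (2 * h + 1) + 1)).2 - (v (i / (2 * h + 1))).2))

/-- centre line of the cell path `U` -/
def CL (h : ℕ) (U : ℕ → V) (n : ℕ) : V :=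
  ((cenc h (U (n / (2 * h + 1)))).1 +
      (n % (2 * h + 1) : ℕ) * ((U (n / (2 * h + 1) + 1)).1 - (U (n / (2 * h + 1))).1),
   (cenc h (U (n / (2 * h + 1)))).2 +
      (n % (2 * h + 1) : ℕ) * ((U (n / (2 * h + 1) + 1)).2 - (U (n / (2 * h + 1))).2))

/-- outer (right) cell of the `i`-th boundary edge -/
def rcv (v : ℕ → V) (i : ℕ) : V := rc (v i) (v (i + 1))

/-- inner (left) cell of the `i`-th boundary edge -/
def lcv (v : ℕ → V) (i : ℕ) : V := lc (v i) (v (i + 1))

/-- configuration with `n` tentacles: `F` finite, simply connected, boundary walk `v`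
(counterclockwise, period `L`), marks `m 0 < m 1 < m 2 < m 3`, centre cell `c`, box radius `M` -/
structure Cfg (F : Set V) (L : ℕ) (v : ℕ → V) (m : ℕ → ℕ) (c : V) (M : ℤ) (n : ℕ)
    (U : ℕ → ℕ → V) : Prop where
  fin : F.Finite
  con : ∀ q ∈ F, ∀ q' ∈ F, Con F q q'
  con' : ∀ q ∉ F, ∀ q' ∉ F, Con Fᶜ q q'
  cyc : Cyc F L v
  m01 : m 0 < m 1
  m12 : m 1 < m 2
  m23 : m 2 < m 3
  m3L : m 3 < L
  box : ∀ q ∈ F, |q.1 - c.1| < M ∧ |q.2 - c.2| < M
  n4 : n ≤ 4
  start0 : ∀ i < n, U i 0 = lcv v (m i)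
  start1 : ∀ i < n, U i 1 = rcv v (m i)
  out : ∀ i < n, ∀ j, U i (j + 1) ∉ F
  step : ∀ i < n, ∀ j, Adj (U i j) (U i (j + 1))
  inj : ∀ i < n, ∀ i' < n, ∀ j j', U i (j + 1) = U i' (j' + 1) → i = i' ∧ j = j'
  ray : ∀ i < n, ∃ j0, 0 < j0 ∧
    (∀ j ≤ j0, |(U i j).1 - c.1| ≤ M ∧ |(U i j).2 - c.2| ≤ M) ∧
    ∀ j : ℕ, U i (j0 + j) = (c.1 + (M + j) * (dir i).1, c.2 + (M + j) * (dir i).2)

/-- cells of the body -/
def body (F : Set V) (U : ℕ → ℕ → V) (n : ℕ) : Set V := F ∪ {q | ∃ i < n, ∃ j, q = U i (j + 1)}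

/-- refined tentacles -/
def Uref (h : ℕ) (U : ℕ → ℕ → V) (i j : ℕ) : V := CL h (U i) (j + h)

/-- refined marks -/
def mref (h : ℕ) (m : ℕ → ℕ) (i : ℕ) : ℕ := (2 * h + 1) * m i + h

/-- **951 (A1)** refinement of the boundary walk -/
def RefCyc : Prop := ∀ (h : ℕ) (F : Set V) (L : ℕ) (v : ℕ → V), Cyc F L v →
  Cyc (ref h F) ((2 * h + 1) * L) (vref h v)

/-- **951 (A2)** -/
def RefCon : Prop := ∀ (h : ℕ) (F : Set V), (∀ q ∈ F, ∀ q' ∈ F, Con F q q') →
  ∀ q ∈ ref h F, ∀ q' ∈ ref h F, Con (ref h F) q q'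

/-- **359 (B1)** refinement of a configuration -/
def RefCfg : Prop := ∀ (h : ℕ) (F : Set V) (L : ℕ) (v : ℕ → V) (m : ℕ → ℕ) (c : V) (M : ℤ) (n : ℕ)
  (U : ℕ → ℕ → V), Cfg F L v m c M n U →
  Cfg (ref h F) ((2 * h + 1) * L) (vref h v) (mref h m) (cenc h c) ((2 * h + 1) * M) n (Uref h U)


/-- **359 (B3)** collar of `F` between two fine boundary edges -/
def CollarArc : Prop := ∀ (h : ℕ), 1 ≤ h → ∀ (F : Set V) (L : ℕ) (v : ℕ → V) (m : ℕ → ℕ) (c : V)
  (M : ℤ) (n : ℕ) (U : ℕ → ℕ → V), Cfg F L v m c M n U → ∀ a b : ℕ, a ≤ b →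
  (∀ x, a ≤ x → x ≤ b → rcv (vref h v) x ∉ body (ref h F) (Uref h U) n) →
  Con (body (ref h F) (Uref h U) n)ᶜ (rcv (vref h v) a) (rcv (vref h v) b)

/-- **359 (B4)** the cells to the left and to the right of a fine tentacle (complement cells that
are edge-adjacent to it) are connected to the collar of `F` after / before the mark; `r` : distance
from the centre on the ray, the side cells of the ray are `c + r dir ± rot dir` -/
def CollarTent : Prop := ∀ (h : ℕ), 1 ≤ h → ∀ (F : Set V) (L : ℕ) (v : ℕ → V) (m : ℕ → ℕ) (c : V)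
  (M : ℤ) (n : ℕ) (U : ℕ → ℕ → V), Cfg F L v m c M n U → ∀ i < n,
  (∀ r : ℤ, (2 * h + 1) * M < r →
    Con (body (ref h F) (Uref h U) n)ᶜ (rcv (vref h v) (mref h m i + 1))
      ((cenc h c).1 + r * (dir i).1 + (rot (dir i)).1, (cenc h c).2 + r * (dir i).2 + (rot (dir i)).2)) ∧
  (∀ r : ℤ, (2 * h + 1) * M < r →
    Con (body (ref h F) (Uref h U) n)ᶜ (rcv (vref h v) (mref h m i - 1))
      ((cenc h c).1 + r * (dir i).1 - (rot (dir i)).1, (cenc h c).2 + r * (dir i).2 - (rot (dir i)).2)) ∧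
  (∀ j : ℕ, ∀ q : V, Adj (Uref h U i (j + 1)) q → q ∉ body (ref h F) (Uref h U) n →
    Con (body (ref h F) (Uref h U) n)ᶜ (rcv (vref h v) (mref h m i + 1)) q ∨
    Con (body (ref h F) (Uref h U) n)ᶜ (rcv (vref h v) (mref h m i - 1)) q)

/-- **359 (B5)** every polygon with four marks has a configuration with four tentacles after
refinement by 27 : the tentacles are those of the 27-refined polygon -/
def ExCfg : Prop := ∀ (F : Set V) (L : ℕ) (v : ℕ → V) (m : ℕ → ℕ), F.Finite →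
  (∀ q ∈ F, ∀ q' ∈ F, Con F q q') → (∀ q ∉ F, ∀ q' ∉ F, Con Fᶜ q q') → Cyc F L v →
  m 0 < m 1 → m 1 < m 2 → m 2 < m 3 → m 3 < L → ∃ (c : V) (M : ℤ) (U : ℕ → ℕ → V),
    Cfg (ref 1 (ref 1 (ref 1 F))) (3 * (3 * (3 * L))) (vref 1 (vref 1 (vref 1 v)))
      (mref 1 (mref 1 (mref 1 m))) c M 4 U

end Crest.Agent.R143.Tentx359
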