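import Crest.Agent.R143.TentB4_951
import Crest.Agent.R143.Tent0_359

/-!
# Row 143 (S0194), block D, TENT M (helper951): plane geometry of cells at two scales

* `near8` : points at distance `< σ` lie in cells that are 8-adjacent
* `seg_cells` : the neighbourhood of the segment between the centres of two adjacent cells
* `pg_ref` : refined polygon
* `ed_split`, `ed_fine` : coarse boundary edges and fine boundary edges
* `mid_far` : the middle of a unit edge is far from the other unit edges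
-/

set_option autoImplicit false

noncomputable section

namespace Crest.Agent.R143.TentMx951

open Set
open Crest.Agent.R158 Crest.Agent.R158.Sp896 Crest.Agent.R143.Tentx359 Crest.Agent.R143.TentAx951
open Crest.Agent.R143.TentBx951
open Crest.Agent.R158.Tj656 (cen Om mem_om)

theorem mem_sq {s : ℝ} {q : V} {z : ℂ} : z ∈ sq s q ↔
    s * q.1 ≤ z.re ∧ z.re ≤ s * (q.1 + 1) ∧ s * q.2 ≤ z.im ∧ z.im ≤ s * (q.2 + 1) := Iff.rfl

theorem re_im_lt {z w : ℂ} {r : ℝ} (h : dist z w < r) :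
    |z.re - w.re| < r ∧ |z.im - w.im| < r := by
  rw [dist_eq_norm] at h
  exact ⟨lt_of_le_of_lt (by rw [← Complex.sub_re]; exact Complex.abs_re_le_norm _) h,
    lt_of_le_of_lt (by rw [← Complex.sub_im]; exact Complex.abs_im_le_norm _) h⟩

theorem near1 {s a b : ℝ} (hs : 0 < s) {m n : ℤ} (h1 : s * m ≤ a) (h2 : a ≤ s * (m + 1))
    (h3 : s * n ≤ b) (h4 : b ≤ s * (n + 1)) (h : |a - b| < s) : |m - n| ≤ 1 := by
  rw [abs_lt] at h
  have e1 : s * (m : ℝ) < s * (n + 2) := by nlinarith [h.2]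
  have e2 : s * (n : ℝ) < s * (m + 2) := by nlinarith [h.1]
  have e1' : (m : ℝ) < n + 2 := lt_of_mul_lt_mul_left e1 hs.le
  have e2' : (n : ℝ) < m + 2 := lt_of_mul_lt_mul_left e2 hs.le
  have e1'' : m < n + 2 := by exact_mod_cast e1'
  have e2'' : n < m + 2 := by exact_mod_cast e2'
  rw [abs_le]
  omega

/-- points at distance less than the mesh are in 8-adjacent cells -/
theorem near8 {s : ℝ} (hs : 0 < s) {f g : V} {z w : ℂ} (hz : z ∈ sq s f) (hw : w ∈ sq s g)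
    (h : dist z w < s) : |f.1 - g.1| ≤ 1 ∧ |f.2 - g.2| ≤ 1 := by
  obtain ⟨h1, h2⟩ := re_im_lt h
  rw [mem_sq] at hz hw
  exact ⟨near1 hs hz.1 hz.2.1 hw.1 hw.2.1 h1, near1 hs hz.2.2.1 hz.2.2.2 hw.2.2.1 hw.2.2.2 h2⟩

/-- the segment between the centres of two adjacent cells, with margin -/
theorem seg_cells {s : ℝ} (hs : 0 < s) {a b g : V} (hab : Adj a b) {z w : ℂ}
    (hz : z ∈ segment ℝ (cen s a) (cen s b)) (hw : dist w z < s / 2) (hg : w ∈ sq s g) :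
    g = a ∨ g = b := by
  obtain ⟨t, ht0, ht1, rfl⟩ : ∃ t : ℝ, 0 ≤ t ∧ t ≤ 1 ∧ cen s a + (t : ℂ) * (cen s b - cen s a) = z := by
    rw [segment_eq_image'] at hz
    obtain ⟨t, ht, rfl⟩ := hz
    exact ⟨t, ht.1, ht.2, by simp [Complex.real_smul]⟩
  obtain ⟨h1, h2⟩ := re_im_lt hw
  rw [Tj656.lin_re] at h1
  rw [Tj656.lin_im] at h2
  rw [mem_sq] at hg
  obtain ⟨g1, g2, g3, g4⟩ := hg
  rw [abs_lt] at h1 h2
  obtain ⟨a1, a2⟩ := a
  obtain ⟨b1, b2⟩ := b
  obtain ⟨g5, g6⟩ := g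
  simp only [cen] at *
  -- generic one dimensional facts
  have key0 : ∀ (x : ℤ) (y : ℤ) (u : ℝ), s * y ≤ u → u ≤ s * (y + 1) →
      -(s / 2) < u - s * (x + 1 / 2) → u - s * (x + 1 / 2) < s / 2 → y = x := by
    intro x y u k1 k2 k3 k4
    have e1 : s * (y : ℝ) < s * (x + 1) := by nlinarith
    have e2 : s * (x : ℝ) < s * (y + 1) := by nlinarith
    have e1' := lt_of_mul_lt_mul_left e1 hs.le
    have e2' := lt_of_mul_lt_mul_left e2 hs.le
    have e1'' : y < x + 1 := by exact_mod_cast e1'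
    have e2'' : x < y + 1 := by exact_mod_cast e2'
    omega
  have key1 : ∀ (x : ℤ) (y : ℤ) (u τ : ℝ), 0 ≤ τ → τ ≤ 1 → s * y ≤ u → u ≤ s * (y + 1) →
      -(s / 2) < u - (s * (x + 1 / 2) + s * τ) → u - (s * (x + 1 / 2) + s * τ) < s / 2 →
      y = x ∨ y = x + 1 := by
    intro x y u τ hτ0 hτ1 k1 k2 k3 k4
    have e1 : s * (y : ℝ) < s * (x + 2) := by nlinarith
    have e2 : s * (x : ℝ) < s * (y + 1) := by nlinarith
    have e1' := lt_of_mul_lt_mul_left e1 hs.le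
    have e2' := lt_of_mul_lt_mul_left e2 hs.le
    have e1'' : y < x + 2 := by exact_mod_cast e1'
    have e2'' : x < y + 1 := by exact_mod_cast e2'
    omega
  unfold Adj at hab
  simp only at hab
  rcases hab with ⟨e1, e2⟩ | ⟨e1, e2⟩ | ⟨e1, e2⟩ | ⟨e1, e2⟩
  · subst e1 e2
    push_cast at h1 h2
    have k2 := key0 b2 g6 w.im g3 g4 (by linarith [h2.1]) (by linarith [h2.2])
    have k1 := key1 a1 g5 w.re t ht0 ht1 g1 g2 (by nlinarith [h1.1]) (by nlinarith [h1.2])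
    rw [Prod.mk.injEq, Prod.mk.injEq]
    omega
  · subst e1 e2
    push_cast at h1 h2
    have k2 := key0 b2 g6 w.im g3 g4 (by linarith [h2.1]) (by linarith [h2.2])
    have k1 := key1 (a1 - 1) g5 w.re (1 - t) (by linarith) (by linarith) g1 g2
      (by push_cast; nlinarith [h1.1]) (by push_cast; nlinarith [h1.2])
    rw [Prod.mk.injEq, Prod.mk.injEq]
    omega
  · subst e1 e2
    push_cast at h1 h2
    have k2 := key0 b1 g5 w.re g1 g2 (by linarith [h1.1]) (by linarith [h1.2])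
    have k1 := key1 a2 g6 w.im t ht0 ht1 g3 g4 (by nlinarith [h2.1]) (by nlinarith [h2.2])
    rw [Prod.mk.injEq, Prod.mk.injEq]
    omega
  · subst e1 e2
    push_cast at h1 h2
    have k2 := key0 b1 g5 w.re g1 g2 (by linarith [h1.1]) (by linarith [h1.2])
    have k1 := key1 (a2 - 1) g6 w.im (1 - t) (by linarith) (by linarith) g3 g4
      (by push_cast; nlinarith [h2.1]) (by push_cast; nlinarith [h2.2])
    rw [Prod.mk.injEq, Prod.mk.injEq]
    omega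

/-- a point of a coarse cell lies in a fine cell of the block -/
theorem sq_ref {σ : ℝ} (hσ : 0 < σ) (h : ℕ) (q : V) :
    sq ((2 * h + 1) * σ) q = ⋃ f ∈ ref h {q}, sq σ f := by
  have hk : (0 : ℝ) < 2 * h + 1 := by positivity
  ext z
  rw [mem_iUnion₂]
  constructor
  · intro hz
    rw [mem_sq] at hz
    obtain ⟨z1, z2, z3, z4⟩ := hz
    have one : ∀ (x : ℝ) (n : ℤ), (2 * h + 1) * σ * n ≤ x → x ≤ (2 * h + 1) * σ * (n + 1) →
        ∃ j : ℤ, (2 * h + 1) * n ≤ j ∧ j ≤ (2 * h + 1) * n + 2 * h ∧ σ * j ≤ x ∧ x ≤ σ * (j + 1) := by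
      intro x n h1 h2
      rcases eq_or_lt_of_le h2 with h3 | h3
      · refine ⟨(2 * h + 1) * n + 2 * h, by omega, le_rfl, ?_, ?_⟩
        · rw [h3]; push_cast; nlinarith
        · rw [h3]; push_cast; nlinarith
      · refine ⟨⌊x / σ⌋, ?_, ?_, ?_, ?_⟩
        · rw [Int.le_floor, le_div_iff₀ hσ]; push_cast; nlinarith
        · have : ⌊x / σ⌋ < (2 * h + 1) * (n + 1) := by
            rw [Int.floor_lt, div_lt_iff₀ hσ]; push_cast; nlinarith
          have e : (2 * (h : ℤ) + 1) * (n + 1) = (2 * h + 1) * n + (2 * h + 1) := by ring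
          omega
        · have := Int.floor_le (x / σ)
          rw [le_div_iff₀ hσ] at this
          linarith
        · have := (Int.lt_floor_add_one (x / σ)).le
          rw [div_le_iff₀ hσ] at this
          linarith
    obtain ⟨i, i1, i2, i3, i4⟩ := one z.re q.1 z1 z2
    obtain ⟨j, j1, j2, j3, j4⟩ := one z.im q.2 z3 z4
    refine ⟨(i, j), ?_, i3, i4, j3, j4⟩
    rw [Tentx359.mem_ref]
    exact ⟨q, rfl, i1, i2, j1, j2⟩
  · rintro ⟨f, hf, hz⟩
    rw [Tentx359.mem_ref] at hf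
    obtain ⟨q', rfl, h1, h2, h3, h4⟩ := hf
    rw [mem_sq] at hz ⊢
    have c1 : ((2 * h + 1 : ℝ)) * q'.1 ≤ f.1 := by exact_mod_cast h1
    have c2 : (f.1 : ℝ) ≤ (2 * h + 1) * q'.1 + 2 * h := by exact_mod_cast h2
    have c3 : ((2 * h + 1 : ℝ)) * q'.2 ≤ f.2 := by exact_mod_cast h3
    have c4 : (f.2 : ℝ) ≤ (2 * h + 1) * q'.2 + 2 * h := by exact_mod_cast h4
    refine ⟨?_, ?_, ?_, ?_⟩
    · nlinarith [hz.1]
    · nlinarith [hz.2.1]
    · nlinarith [hz.2.2.1]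
    · nlinarith [hz.2.2.2]

/-- the polygon is the union of its fine cells -/
theorem pg_ref {σ : ℝ} (hσ : 0 < σ) (h : ℕ) (F : Set V) :
    (⋃ q ∈ F, sq ((2 * h + 1) * σ) q) = ⋃ f ∈ ref h F, sq σ f := by
  ext z
  simp only [mem_iUnion]
  constructor
  · rintro ⟨q, hq, hz⟩
    rw [sq_ref hσ h q, mem_iUnion₂] at hz
    obtain ⟨f, hf, hz⟩ := hz
    rw [Tentx359.mem_ref] at hf
    obtain ⟨q', rfl, hb⟩ := hf
    exact ⟨f, Tentx359.mem_ref.2 ⟨_, hq, hb⟩, hz⟩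
  · rintro ⟨f, hf, hz⟩
    rw [Tentx359.mem_ref] at hf
    obtain ⟨q, hq, hb⟩ := hf
    refine ⟨q, hq, ?_⟩
    rw [sq_ref hσ h q, mem_iUnion₂]
    exact ⟨f, Tentx359.mem_ref.2 ⟨q, rfl, hb⟩, hz⟩

/-- parametrisation of an edge -/
theorem mem_ed {s : ℝ} {a b : V} {z : ℂ} : z ∈ ed s a b ↔
    ∃ t : ℝ, 0 ≤ t ∧ t ≤ 1 ∧ z.re = s * (a.1 + t * (b.1 - a.1)) ∧ z.im = s * (a.2 + t * (b.2 - a.2)) := by
  unfold ed
  rw [segment_eq_image']
  constructor
  · rintro ⟨t, ht, rfl⟩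
    refine ⟨t, ht.1, ht.2, ?_, ?_⟩
    · simp [pt]; ring
    · simp [pt]; ring
  · rintro ⟨t, h0, h1, h2, h3⟩
    refine ⟨t, ⟨h0, h1⟩, ?_⟩
    apply Complex.ext
    · rw [h2]; simp [pt]; ring
    · rw [h3]; simp [pt]; ring

/-- a fine boundary edge is part of its coarse boundary edge -/
theorem ed_fine {σ : ℝ} {h : ℕ} {v : ℕ → V} (a s : ℕ) (hs : s ≤ 2 * h) {z : ℂ}
    (hz : z ∈ ed σ (vref h v ((2 * h + 1) * a + s)) (vref h v ((2 * h + 1) * a + s + 1))) :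
    z ∈ ed ((2 * h + 1) * σ) (v a) (v (a + 1)) := by
  rw [mem_ed] at hz ⊢
  obtain ⟨t, h0, h1, h2, h3⟩ := hz
  have hk : (0 : ℝ) < 2 * h + 1 := by positivity
  have hs' : (s : ℝ) ≤ 2 * h := by exact_mod_cast hs
  rw [show (2 * h + 1) * a + s + 1 = (2 * h + 1) * a + (s + 1) by ring,
    vref_at v a s (by omega), vref_at v a (s + 1) (by omega)] at h2 h3
  refine ⟨(s + t) / (2 * h + 1), by positivity, ?_, ?_, ?_⟩
  · rw [div_le_one hk]; linarith
  · rw [h2]; push_cast; field_simp; ring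
  · rw [h3]; push_cast; field_simp; ring

/-- every point of a coarse boundary edge is on one of its fine edges -/
theorem ed_split {σ : ℝ} {h : ℕ} {v : ℕ → V} (a : ℕ) {z : ℂ}
    (hz : z ∈ ed ((2 * h + 1) * σ) (v a) (v (a + 1))) : ∃ s ≤ 2 * h,
    z ∈ ed σ (vref h v ((2 * h + 1) * a + s)) (vref h v ((2 * h + 1) * a + s + 1)) := by
  rw [mem_ed] at hz
  obtain ⟨t, h0, h1, h2, h3⟩ := hz
  have hk : (0 : ℝ) < 2 * h + 1 := by positivity
  obtain ⟨s, hs, t1, t2⟩ : ∃ s : ℕ, s ≤ 2 * h ∧ (s : ℝ) ≤ t * (2 * h + 1) ∧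
      t * (2 * h + 1) ≤ s + 1 := by
    rcases eq_or_lt_of_le h1 with h4 | h4
    · exact ⟨2 * h, le_rfl, by rw [h4]; push_cast; linarith, by rw [h4]; push_cast; linarith⟩
    · refine ⟨⌊t * (2 * h + 1)⌋₊, ?_, Nat.floor_le (by positivity), (Nat.lt_floor_add_one _).le⟩
      have : ⌊t * (2 * h + 1)⌋₊ < 2 * h + 1 := by
        rw [Nat.floor_lt (by positivity)]
        push_cast
        nlinarith
      omega
  refine ⟨s, hs, ?_⟩
  rw [mem_ed, show (2 * h + 1) * a + s + 1 = (2 * h + 1) * a + (s + 1) by ring,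
    vref_at v a s (by omega), vref_at v a (s + 1) (by omega)]
  refine ⟨t * (2 * h + 1) - s, by linarith, by linarith, ?_, ?_⟩
  · rw [h2]; push_cast; ring
  · rw [h3]; push_cast; ring

theorem canon {a b : V} (h : Adj a b) : ∃ p q : V, ((p = a ∧ q = b) ∨ (p = b ∧ q = a)) ∧
    (q = (p.1 + 1, p.2) ∨ q = (p.1, p.2 + 1)) := by
  rcases h with ⟨h1, h2⟩ | ⟨h1, h2⟩ | ⟨h1, h2⟩ | ⟨h1, h2⟩
  · exact ⟨a, b, Or.inl ⟨rfl, rfl⟩, Or.inl (Prod.ext h1 h2)⟩
  · exact ⟨b, a, Or.inr ⟨rfl, rfl⟩, Or.inl (Prod.ext (by simp only; omega) (by simp only; omega))⟩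
  · exact ⟨a, b, Or.inl ⟨rfl, rfl⟩, Or.inr (Prod.ext h1 h2)⟩
  · exact ⟨b, a, Or.inr ⟨rfl, rfl⟩, Or.inr (Prod.ext (by simp only; omega) (by simp only; omega))⟩

theorem int_eq_of_close {m n : ℤ} (h : |(m : ℝ) - n| < 1 / 2) : m = n := by
  rw [abs_lt] at h
  have h1 : (m : ℝ) < n + 1 := by linarith [h.2]
  have h2 : (n : ℝ) < m + 1 := by linarith [h.1]
  have h1' : m < n + 1 := by exact_mod_cast h1
  have h2' : n < m + 1 := by exact_mod_cast h2
  omega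

theorem int_eq_of_between {m n : ℤ} {t : ℝ} (h0 : 0 ≤ t) (h1 : t ≤ 1)
    (h : |(m : ℝ) + t - (n + 1 / 2)| < 1 / 2) : m = n := by
  rw [abs_lt] at h
  have h1 : (m : ℝ) < n + 1 := by linarith [h.2]
  have h2 : (n : ℝ) < m + 1 := by linarith [h.1]
  have h1' : m < n + 1 := by exact_mod_cast h1
  have h2' : n < m + 1 := by exact_mod_cast h2
  omega

theorem not_int_half {m n : ℤ} (h : |(m : ℝ) - (n + 1 / 2)| < 1 / 2) : False := by
  rw [abs_lt] at h
  have h1 : (m : ℝ) < n + 1 := by linarith [h.2]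
  have h2 : (n : ℝ) < m := by linarith [h.1]
  have h1' : m < n + 1 := by exact_mod_cast h1
  have h2' : n < m := by exact_mod_cast h2
  omega

theorem mid_far_aux {a b a' b' : V} (h : b = (a.1 + 1, a.2) ∨ b = (a.1, a.2 + 1))
    (h' : b' = (a'.1 + 1, a'.2) ∨ b' = (a'.1, a'.2 + 1)) {t : ℝ} (h0 : 0 ≤ t) (h1 : t ≤ 1)
    (e1 : |(a'.1 + t * (b'.1 - a'.1) : ℝ) - (a.1 + b.1) / 2| < 1 / 2)
    (e2 : |(a'.2 + t * (b'.2 - a'.2) : ℝ) - (a.2 + b.2) / 2| < 1 / 2) : a' = a ∧ b' = b := by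
  rcases h with rfl | rfl <;> rcases h' with rfl | rfl
  · simp only at e1 e2
    push_cast at e1 e2
    have k1 : a'.1 = a.1 := int_eq_of_between h0 h1 (by ring_nf at e1 ⊢; exact e1)
    have k2 : a'.2 = a.2 := int_eq_of_close (by ring_nf at e2 ⊢; exact e2)
    exact ⟨Prod.ext k1 k2, by rw [k1, k2]⟩
  · simp only at e1 e2
    push_cast at e1 e2
    exact (not_int_half (m := a'.1) (n := a.1) (by ring_nf at e1 ⊢; exact e1)).elim
  · simp only at e1 e2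
    push_cast at e1 e2
    exact (not_int_half (m := a'.2) (n := a.2) (by ring_nf at e2 ⊢; exact e2)).elim
  · simp only at e1 e2
    push_cast at e1 e2
    have k2 : a'.2 = a.2 := int_eq_of_between h0 h1 (by ring_nf at e2 ⊢; exact e2)
    have k1 : a'.1 = a.1 := int_eq_of_close (by ring_nf at e1 ⊢; exact e1)
    exact ⟨Prod.ext k1 k2, by rw [k1, k2]⟩

/-- the middle of a unit edge is far from every other unit edge -/
theorem mid_far {s : ℝ} (hs : 0 < s) {a b a' b' : V} (hab : Adj a b) (hab' : Adj a' b')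
    (hne : ¬ (a' = a ∧ b' = b) ∧ ¬ (a' = b ∧ b' = a)) {z : ℂ} (hz : z ∈ ed s a' b')
    {w : ℂ} (hw : w.re = s * ((a.1 + b.1) / 2) ∧ w.im = s * ((a.2 + b.2) / 2)) :
    s / 2 ≤ |z.re - w.re| ∨ s / 2 ≤ |z.im - w.im| := by
  by_contra hcon
  push Not at hcon
  obtain ⟨p, q, h1, h2⟩ := canon hab
  obtain ⟨p', q', h1', h2'⟩ := canon hab'
  have hz' : z ∈ ed s p' q' := by
    rcases h1' with ⟨e1, e2⟩ | ⟨e1, e2⟩
    · rw [e1, e2]; exact hz
    · rw [e1, e2]; unfold ed at hz ⊢; rw [segment_symm]; exact hz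
  have hw' : w.re = s * ((p.1 + q.1) / 2) ∧ w.im = s * ((p.2 + q.2) / 2) := by
    rcases h1 with ⟨e1, e2⟩ | ⟨e1, e2⟩
    · rw [e1, e2]; exact hw
    · rw [e1, e2, hw.1, hw.2]; constructor <;> ring
  rw [mem_ed] at hz'
  obtain ⟨t, t0, t1, h3, h4⟩ := hz'
  rw [h3, h4, hw'.1, hw'.2, ← mul_sub, ← mul_sub, abs_mul, abs_mul, abs_of_pos hs] at hcon
  have k1 : |(p'.1 + t * (q'.1 - p'.1) : ℝ) - (p.1 + q.1) / 2| < 1 / 2 := by
    by_contra hh
    push Not at hh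
    nlinarith [hcon.1]
  have k2 : |(p'.2 + t * (q'.2 - p'.2) : ℝ) - (p.2 + q.2) / 2| < 1 / 2 := by
    by_contra hh
    push Not at hh
    nlinarith [hcon.2]
  obtain ⟨k3, k4⟩ := mid_far_aux h2 h2' t0 t1 k1 k2
  rcases h1 with ⟨e1, e2⟩ | ⟨e1, e2⟩ <;> rcases h1' with ⟨e1', e2'⟩ | ⟨e1', e2'⟩
  · exact hne.1 ⟨by rw [← e1', k3, e1], by rw [← e2', k4, e2]⟩
  · exact hne.2 ⟨by rw [← e2', k4, e2], by rw [← e1', k3, e1]⟩
  · exact hne.2 ⟨by rw [← e1', k3, e1], by rw [← e2', k4, e2]⟩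
  · exact hne.1 ⟨by rw [← e2', k4, e2], by rw [← e1', k3, e1]⟩

end Crest.Agent.R143.TentMx951
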