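import Crest.Agent.R143.LabD_755
import Crest.Agent.R143.TentM_951

-- ▼ part R143/LabB1_951
section

/-!
# Row 143 (S0194), CONT, (K7), BASE part 1 (helper951): frames and distances

* `quadLB`, `quadLF`, `quadRF` : the cells around a vertex in the frame of an edge
* `turn` : straight, left turn or right turn
* `ring_ball`, `rad_ball`, `cen_ball` : (BA), (BB), (BC)
* `cen_far`, `rs_near` : distances
-/

set_option autoImplicit false

noncomputable section

namespace Crest.Agent.R143.LabBx951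

open Set Complex
open Crest.Agent.R158 Crest.Agent.R158.Sp896
open Crest.Agent.R143.ToolWx838
open Crest.Agent.R143.Tenx416 (Pg)
open Crest.Agent.R143.LabDx755
open Crest.Agent.R143.TentMx951 (mem_sq re_im_lt mem_ed)

/-- direction of a step as a complex number -/
def cv (a b : V) : ℂ := ⟨((b.1 - a.1 : ℤ) : ℝ), ((b.2 - a.2 : ℤ) : ℝ)⟩

theorem ev_eq (v : ℕ → V) (k : ℕ) : ev v k = cv (v k) (v (k + 1)) := rfl

/-- forward neighbour -/
def fw (a p : V) : V := (2 * p.1 - a.1, 2 * p.2 - a.2)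

/-- left neighbour -/
def lt (a p : V) : V := (p.1 - (p.2 - a.2), p.2 + (p.1 - a.1))

theorem cv_norm {a p : V} (h : Adj a p) : ‖cv a p‖ = 1 := by
  rw [Complex.norm_eq_sqrt_sq_add_sq, Real.sqrt_eq_one]
  unfold cv
  rcases h with ⟨h1, h2⟩ | ⟨h1, h2⟩ | ⟨h1, h2⟩ | ⟨h1, h2⟩ <;> rw [h1, h2] <;> push_cast <;> ring

theorem cv_ne {a p : V} (h : Adj a p) : cv a p ≠ 0 := by
  intro h0
  have := cv_norm h
  rw [h0, norm_zero] at this
  exact zero_ne_one this

theorem lin_mul {s : ℝ} {a b : V} {z : ℂ} {w : ℂ} (h : w = pt s b + z * cv a b) :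
    w.re = s * b.1 + (z.re * (b.1 - a.1) - z.im * (b.2 - a.2)) ∧
    w.im = s * b.2 + (z.re * (b.2 - a.2) + z.im * (b.1 - a.1)) := by
  subst h
  constructor
  · simp [pt, cv]
  · simp [pt, cv]

theorem quadLB {s : ℝ} {a p : V} (h : Adj a p) {w ζ : ℂ} (hw : w = pt s p + ζ * cv a p)
    (h1 : -s ≤ ζ.re) (h2 : ζ.re ≤ 0) (h3 : 0 ≤ ζ.im) (h4 : ζ.im ≤ s) : w ∈ sq s (lc a p) := by
  obtain ⟨e1, e2⟩ := lin_mul hw
  rw [mem_sq, e1, e2]
  obtain ⟨a1, a2⟩ := a
  obtain ⟨p1, p2⟩ := p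
  rcases h with ⟨k1, k2⟩ | ⟨k1, k2⟩ | ⟨k1, k2⟩ | ⟨k1, k2⟩ <;> simp only at k1 k2 <;> subst k1 k2
  · have e : lc (a1, p2) (a1 + 1, p2) = (a1, p2) := by unfold lc; ext <;> simp only <;> omega
    rw [e]
    push_cast
    refine ⟨?_, ?_, ?_, ?_⟩ <;> linarith
  · have e : lc (a1, p2) (a1 - 1, p2) = (a1 - 1, p2 - 1) := by unfold lc; ext <;> simp only <;> omega
    rw [e]
    push_cast
    refine ⟨?_, ?_, ?_, ?_⟩ <;> linarith
  · have e : lc (p1, a2) (p1, a2 + 1) = (p1 - 1, a2) := by unfold lc; ext <;> simp only <;> omega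
    rw [e]
    push_cast
    refine ⟨?_, ?_, ?_, ?_⟩ <;> linarith
  · have e : lc (p1, a2) (p1, a2 - 1) = (p1, a2 - 1) := by unfold lc; ext <;> simp only <;> omega
    rw [e]
    push_cast
    refine ⟨?_, ?_, ?_, ?_⟩ <;> linarith

theorem quadLF {s : ℝ} {a p : V} (h : Adj a p) {w ζ : ℂ} (hw : w = pt s p + ζ * cv a p)
    (h1 : 0 ≤ ζ.re) (h2 : ζ.re ≤ s) (h3 : 0 ≤ ζ.im) (h4 : ζ.im ≤ s) :
    w ∈ sq s (lc p (fw a p)) := by
  obtain ⟨e1, e2⟩ := lin_mul hw
  rw [mem_sq, e1, e2]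
  obtain ⟨a1, a2⟩ := a
  obtain ⟨p1, p2⟩ := p
  rcases h with ⟨k1, k2⟩ | ⟨k1, k2⟩ | ⟨k1, k2⟩ | ⟨k1, k2⟩ <;> simp only at k1 k2 <;> subst k1 k2
  · have e : lc (a1 + 1, p2) (fw (a1, p2) (a1 + 1, p2)) = (a1 + 1, p2) := by
      unfold lc fw; ext <;> simp only <;> omega
    rw [e]
    push_cast
    refine ⟨?_, ?_, ?_, ?_⟩ <;> linarith
  · have e : lc (a1 - 1, p2) (fw (a1, p2) (a1 - 1, p2)) = (a1 - 2, p2 - 1) := by
      unfold lc fw; ext <;> simp only <;> omega
    rw [e]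
    push_cast
    refine ⟨?_, ?_, ?_, ?_⟩ <;> linarith
  · have e : lc (p1, a2 + 1) (fw (p1, a2) (p1, a2 + 1)) = (p1 - 1, a2 + 1) := by
      unfold lc fw; ext <;> simp only <;> omega
    rw [e]
    push_cast
    refine ⟨?_, ?_, ?_, ?_⟩ <;> linarith
  · have e : lc (p1, a2 - 1) (fw (p1, a2) (p1, a2 - 1)) = (p1, a2 - 2) := by
      unfold lc fw; ext <;> simp only <;> omega
    rw [e]
    push_cast
    refine ⟨?_, ?_, ?_, ?_⟩ <;> linarith

theorem quadRF {s : ℝ} {a p : V} (h : Adj a p) {w ζ : ℂ} (hw : w = pt s p + ζ * cv a p)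
    (h1 : 0 ≤ ζ.re) (h2 : ζ.re ≤ s) (h3 : -s ≤ ζ.im) (h4 : ζ.im ≤ 0) :
    w ∈ sq s (rc p (fw a p)) := by
  obtain ⟨e1, e2⟩ := lin_mul hw
  rw [mem_sq, e1, e2]
  obtain ⟨a1, a2⟩ := a
  obtain ⟨p1, p2⟩ := p
  rcases h with ⟨k1, k2⟩ | ⟨k1, k2⟩ | ⟨k1, k2⟩ | ⟨k1, k2⟩ <;> simp only at k1 k2 <;> subst k1 k2
  · have e : rc (a1 + 1, p2) (fw (a1, p2) (a1 + 1, p2)) = (a1 + 1, p2 - 1) := by
      unfold rc fw; ext <;> simp only <;> omega
    rw [e]
    push_cast
    refine ⟨?_, ?_, ?_, ?_⟩ <;> linarith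
  · have e : rc (a1 - 1, p2) (fw (a1, p2) (a1 - 1, p2)) = (a1 - 2, p2) := by
      unfold rc fw; ext <;> simp only <;> omega
    rw [e]
    push_cast
    refine ⟨?_, ?_, ?_, ?_⟩ <;> linarith
  · have e : rc (p1, a2 + 1) (fw (p1, a2) (p1, a2 + 1)) = (p1, a2 + 1) := by
      unfold rc fw; ext <;> simp only <;> omega
    rw [e]
    push_cast
    refine ⟨?_, ?_, ?_, ?_⟩ <;> linarith
  · have e : rc (p1, a2 - 1) (fw (p1, a2) (p1, a2 - 1)) = (p1 - 1, a2 - 2) := by
      unfold rc fw; ext <;> simp only <;> omega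
    rw [e]
    push_cast
    refine ⟨?_, ?_, ?_, ?_⟩ <;> linarith

/-- straight, left turn or right turn -/
theorem turn {F : Set V} {a p b : V} (h : Adj a p) (h' : Adj p b) (hl : lc a p ∈ F)
    (hr' : rc p b ∉ F) :
    (cv p b = cv a p ∧ b = fw a p) ∨ (cv p b = I * cv a p ∧ lc p b = lc a p) ∨
    (cv p b = -I * cv a p ∧ lc p b = rc p (fw a p) ∧ b ≠ lt a p) := by
  obtain ⟨a1, a2⟩ := a
  obtain ⟨p1, p2⟩ := p
  obtain ⟨b1, b2⟩ := b
  rcases h with ⟨k1, k2⟩ | ⟨k1, k2⟩ | ⟨k1, k2⟩ | ⟨k1, k2⟩ <;> simp only at k1 k2 <;>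
    subst k1 k2 <;>
    rcases h' with ⟨k1, k2⟩ | ⟨k1, k2⟩ | ⟨k1, k2⟩ | ⟨k1, k2⟩ <;> simp only at k1 k2 <;>
    subst k1 k2
  all_goals first
    | (left
       refine ⟨?_, ?_⟩
       · unfold cv; apply Complex.ext <;> simp
       · unfold fw; ext <;> simp only <;> omega
       done)
    | (right; left
       refine ⟨?_, ?_⟩
       · unfold cv; apply Complex.ext <;> simp
       · unfold lc; ext <;> simp only <;> omega
       done)
    | (right; right
       refine ⟨?_, ?_, ?_⟩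
       · unfold cv; apply Complex.ext <;> simp
       · unfold lc rc fw; ext <;> simp only <;> omega
       · unfold lt; rw [Ne, Prod.mk.injEq]; simp only; omega
       done)
    | (exfalso
       apply hr'
       convert hl using 1
       unfold lc rc; ext <;> simp only <;> omega)

theorem adj_lt {a p : V} (h : Adj a p) : Adj p (lt a p) ∧ lc p (lt a p) = lc a p ∧
    rc p (lt a p) = lc p (fw a p) := by
  obtain ⟨a1, a2⟩ := a
  obtain ⟨p1, p2⟩ := p
  rcases h with ⟨k1, k2⟩ | ⟨k1, k2⟩ | ⟨k1, k2⟩ | ⟨k1, k2⟩ <;> simp only at k1 k2 <;> subst k1 k2 <;>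
  · refine ⟨?_, ?_, ?_⟩
    · unfold Adj lt; simp only; omega
    · unfold lc lt; ext <;> simp only <;> omega
    · unfold lc rc lt fw; ext <;> simp only <;> omega

/-! ### periodicity -/

theorem per_mod {F : Set V} {N : ℕ} {v : ℕ → V} (h : Cyc F N v) (k : ℕ) : v (k % N) = v k :=
  Function.Periodic.map_mod_nat (f := v) h.per k

theorem pos_N {F : Set V} {N : ℕ} {v : ℕ → V} (h : Cyc F N v) : 0 < N := by
  have := h.four_le; omega

theorem mod_eq {F : Set V} {N : ℕ} {v : ℕ → V} (h : Cyc F N v) {j k : ℕ} (e : v j = v k) :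
    j % N = k % N :=
  h.inj _ (Nat.mod_lt _ (pos_N h)) _ (Nat.mod_lt _ (pos_N h)) (by rw [per_mod h, per_mod h, e])

theorem succ_eq {F : Set V} {N : ℕ} {v : ℕ → V} (h : Cyc F N v) {j k : ℕ} (e : v j = v k) :
    v (j + 1) = v (k + 1) := by
  have e1 := mod_eq h e
  rw [← per_mod h (j + 1), ← per_mod h (k + 1), Nat.add_mod, e1, ← Nat.add_mod]

/-- the outer corner cell at a right turn -/
theorem diag {F : Set V} {N : ℕ} {v : ℕ → V} (h : Cyc F N v) (k : ℕ)
    (hne : v (k + 1 + 1) ≠ lt (v k) (v (k + 1))) : lc (v (k + 1)) (fw (v k) (v (k + 1))) ∈ F := by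
  by_contra hcon
  obtain ⟨h1, h2, h3⟩ := adj_lt (h.step k)
  obtain ⟨i, -, hi1, hi2⟩ := h.all _ _ h1 (by rw [h2]; exact h.left k) (by rw [h3]; exact hcon)
  exact hne (by rw [← hi2]; exact (succ_eq h hi1).symm)

theorem mem_Pg {s : ℝ} {F : Set V} {q : V} {w : ℂ} (hq : q ∈ F) (hw : w ∈ sq s q) : w ∈ Pg s F :=
  mem_iUnion₂.2 ⟨q, hq, hw⟩

/-- points of a ball in the frame of an edge -/
theorem ball_frame {s μ : ℝ} {a p : V} (h : Adj a p) {z w ζ : ℂ} (hz : z = pt s p + ζ * cv a p)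
    (hw : w ∈ Metric.ball z μ) : ∃ ξ : ℂ, w = pt s p + ξ * cv a p ∧ ζ.re - μ < ξ.re ∧
      ξ.re < ζ.re + μ ∧ ζ.im - μ < ξ.im ∧ ξ.im < ζ.im + μ := by
  have h0 := cv_ne h
  refine ⟨(w - pt s p) / cv a p, by field_simp; ring, ?_⟩
  have h1 : ‖(w - pt s p) / cv a p - ζ‖ < μ := by
    have e : (w - pt s p) / cv a p - ζ = (w - z) / cv a p := by rw [hz]; field_simp; ring
    rw [e, norm_div, cv_norm h, div_one]
    exact mem_ball_iff_norm.1 hw
  have h2 := abs_lt.1 (lt_of_le_of_lt (Complex.abs_re_le_norm _) h1)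
  have h3 := abs_lt.1 (lt_of_le_of_lt (Complex.abs_im_le_norm _) h1)
  rw [Complex.sub_re] at h2
  rw [Complex.sub_im] at h3
  refine ⟨?_, ?_, ?_, ?_⟩ <;> linarith [h2.1, h2.2, h3.1, h3.2]

/-! ### points -/

theorem pt_sub {s : ℝ} (a p : V) : pt s p - pt s a = s * cv a p := by
  apply Complex.ext
  · simp [pt, cv]; ring
  · simp [pt, cv]; ring

theorem md_eq (s : ℝ) (v : ℕ → V) (k : ℕ) :
    md s v k = pt s (v (k + 1)) - s / 2 * cv (v k) (v (k + 1)) := by
  have := pt_sub (s := s) (v k) (v (k + 1))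
  unfold md
  linear_combination (-1 / 2 : ℂ) * this

theorem md_eq' (s : ℝ) (v : ℕ → V) (k : ℕ) :
    md s v k = pt s (v k) + s / 2 * cv (v k) (v (k + 1)) := by
  have := pt_sub (s := s) (v k) (v (k + 1))
  unfold md
  linear_combination (1 / 2 : ℂ) * this

theorem seg_par {a b z : ℂ} (h : z ∈ segment ℝ a b) :
    ∃ t : ℝ, 0 ≤ t ∧ t ≤ 1 ∧ z = a + t * (b - a) := by
  rw [segment_eq_image'] at h
  obtain ⟨t, ht, rfl⟩ := h
  exact ⟨t, ht.1, ht.2, by simp⟩

theorem seg_mem {a b : ℂ} {t : ℝ} (h0 : 0 ≤ t) (h1 : t ≤ 1) : a + t * (b - a) ∈ segment ℝ a b := by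
  rw [segment_eq_image']
  exact ⟨t, ⟨h0, h1⟩, by simp⟩

/-- **(BA)** -/
theorem ring_ball {s μ : ℝ} {F : Set V} {N : ℕ} {v : ℕ → V} (hμ : 0 < μ)
    (hs : 16 * μ ≤ s) (hc : Cyc F N v) (k : ℕ) {z : ℂ} (hz : z ∈ rs s μ v k) :
    Metric.ball z μ ⊆ Pg s F := by
  intro w hw
  have hA := hc.step k
  have hL := hc.left k
  have hL' := hc.left (k + 1)
  have hT := turn hA (hc.step (k + 1)) hL (hc.right (k + 1))
  have hI : I * I = -1 := Complex.I_mul_I
  have hM : M s μ v k = pt s (v (k + 1)) + (-(s / 2 : ℝ) + μ * I) * cv (v k) (v (k + 1)) := by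
    unfold M
    rw [md_eq, ev_eq]
    push_cast
    ring
  have hM' : M s μ v (k + 1) = pt s (v (k + 1)) +
      ((s / 2 : ℝ) + μ * I) * cv (v (k + 1)) (v (k + 1 + 1)) := by
    unfold M
    rw [md_eq', ev_eq]
    push_cast
    ring
  have hW : W s μ v k = pt s (v (k + 1)) + μ * I * cv (v k) (v (k + 1)) +
      μ * I * cv (v (k + 1)) (v (k + 1 + 1)) := by
    unfold W
    rw [ev_eq, ev_eq]
    ring
  rcases hT with ⟨t1, t2⟩ | ⟨t1, t2⟩ | ⟨t1, t2, t3⟩
  · -- straight
    rw [t2] at hL'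
    rcases hz with hz | hz
    · obtain ⟨t, h0, h1, hz⟩ := seg_par hz
      have hz' : z = pt s (v (k + 1)) +
          (⟨-(s / 2) * (1 - t), μ * (1 + t)⟩ : ℂ) * cv (v k) (v (k + 1)) := by
        rw [hz, hM, hW, t1, Complex.mk_eq_add_mul_I]; push_cast; ring
      obtain ⟨ξ, hw', b1, b2, b3, b4⟩ := ball_frame hA hz' hw
      simp only at b1 b2 b3 b4
      have m1 : 0 ≤ μ * t := by positivity
      have m2 : μ * t ≤ μ := by nlinarith
      have m3 : 0 ≤ s * t := by have : 0 ≤ s := by linarith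
                                positivity
      have m4 : s * t ≤ s := by nlinarith
      rcases le_total ξ.re 0 with hx | hx
      · exact mem_Pg hL (quadLB hA hw' (by nlinarith) hx (by nlinarith) (by nlinarith))
      · exact mem_Pg hL' (quadLF hA hw' hx (by nlinarith) (by nlinarith) (by nlinarith))
    · obtain ⟨t, h0, h1, hz⟩ := seg_par hz
      have hz' : z = pt s (v (k + 1)) +
          (⟨(s / 2) * t, μ * (2 - t)⟩ : ℂ) * cv (v k) (v (k + 1)) := by
        rw [hz, hM', hW, t1, Complex.mk_eq_add_mul_I]; push_cast; ring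
      obtain ⟨ξ, hw', b1, b2, b3, b4⟩ := ball_frame hA hz' hw
      simp only at b1 b2 b3 b4
      have m1 : 0 ≤ μ * t := by positivity
      have m2 : μ * t ≤ μ := by nlinarith
      have m3 : 0 ≤ s * t := by have : 0 ≤ s := by linarith
                                positivity
      have m4 : s * t ≤ s := by nlinarith
      rcases le_total ξ.re 0 with hx | hx
      · exact mem_Pg hL (quadLB hA hw' (by nlinarith) hx (by nlinarith) (by nlinarith))
      · exact mem_Pg hL' (quadLF hA hw' hx (by nlinarith) (by nlinarith) (by nlinarith))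
  · -- left turn
    rcases hz with hz | hz
    · obtain ⟨t, h0, h1, hz⟩ := seg_par hz
      have hz' : z = pt s (v (k + 1)) +
          (⟨-(s / 2) * (1 - t) - μ * t, μ⟩ : ℂ) * cv (v k) (v (k + 1)) := by
        rw [hz, hM, hW, t1, Complex.mk_eq_add_mul_I]; push_cast
        linear_combination (t * μ * cv (v k) (v (k + 1))) * hI
      obtain ⟨ξ, hw', b1, b2, b3, b4⟩ := ball_frame hA hz' hw
      simp only at b1 b2 b3 b4
      have m1 : 0 ≤ μ * t := by positivity
      have m2 : μ * t ≤ μ := by nlinarith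
      have m3 : 0 ≤ s * t := by have : 0 ≤ s := by linarith
                                positivity
      have m4 : s * t ≤ s := by nlinarith
      have m5 : (s / 2) * (1 - t) + μ * t ≥ μ := by nlinarith
      exact mem_Pg hL (quadLB hA hw' (by nlinarith) (by nlinarith) (by nlinarith) (by nlinarith))
    · obtain ⟨t, h0, h1, hz⟩ := seg_par hz
      have hz' : z = pt s (v (k + 1)) +
          (⟨-μ, μ * (1 - t) + (s / 2) * t⟩ : ℂ) * cv (v k) (v (k + 1)) := by
        rw [hz, hM', hW, t1, Complex.mk_eq_add_mul_I]; push_cast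
        linear_combination (μ * cv (v k) (v (k + 1))) * hI
      obtain ⟨ξ, hw', b1, b2, b3, b4⟩ := ball_frame hA hz' hw
      simp only at b1 b2 b3 b4
      have m1 : 0 ≤ μ * t := by positivity
      have m2 : μ * t ≤ μ := by nlinarith
      have m3 : 0 ≤ s * t := by have : 0 ≤ s := by linarith
                                positivity
      have m4 : s * t ≤ s := by nlinarith
      have m5 : μ * (1 - t) + (s / 2) * t ≥ μ := by nlinarith
      exact mem_Pg hL (quadLB hA hw' (by nlinarith) (by nlinarith) (by nlinarith) (by nlinarith))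
  · -- right turn
    have hD := diag hc k t3
    rw [t2] at hL'
    rcases hz with hz | hz
    · obtain ⟨t, h0, h1, hz⟩ := seg_par hz
      have hz' : z = pt s (v (k + 1)) +
          (⟨-(s / 2) * (1 - t) + μ * t, μ⟩ : ℂ) * cv (v k) (v (k + 1)) := by
        rw [hz, hM, hW, t1, Complex.mk_eq_add_mul_I]; push_cast
        linear_combination (-(t * μ * cv (v k) (v (k + 1)))) * hI
      obtain ⟨ξ, hw', b1, b2, b3, b4⟩ := ball_frame hA hz' hw
      simp only at b1 b2 b3 b4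
      have m1 : 0 ≤ μ * t := by positivity
      have m2 : μ * t ≤ μ := by nlinarith
      have m3 : 0 ≤ s * t := by have : 0 ≤ s := by linarith
                                positivity
      have m4 : s * t ≤ s := by nlinarith
      rcases le_total ξ.re 0 with hx | hx
      · exact mem_Pg hL (quadLB hA hw' (by nlinarith) hx (by nlinarith) (by nlinarith))
      · exact mem_Pg hD (quadLF hA hw' hx (by nlinarith) (by nlinarith) (by nlinarith))
    · obtain ⟨t, h0, h1, hz⟩ := seg_par hz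
      have hz' : z = pt s (v (k + 1)) +
          (⟨μ, μ * (1 - t) - (s / 2) * t⟩ : ℂ) * cv (v k) (v (k + 1)) := by
        rw [hz, hM', hW, t1, Complex.mk_eq_add_mul_I]; push_cast
        linear_combination (-(μ * cv (v k) (v (k + 1)))) * hI
      obtain ⟨ξ, hw', b1, b2, b3, b4⟩ := ball_frame hA hz' hw
      simp only at b1 b2 b3 b4
      have m1 : 0 ≤ μ * t := by positivity
      have m2 : μ * t ≤ μ := by nlinarith
      have m3 : 0 ≤ s * t := by have : 0 ≤ s := by linarith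
                                positivity
      have m4 : s * t ≤ s := by nlinarith
      rcases le_total ξ.im 0 with hx | hx
      · exact mem_Pg hL' (quadRF hA hw' (by nlinarith) (by nlinarith) (by nlinarith) hx)
      · exact mem_Pg hD (quadLF hA hw' (by nlinarith) (by nlinarith) hx (by nlinarith))

end Crest.Agent.R143.LabBx951
end
end

-- ▼ part R143/LabB2_951

/-!
# Row 143 (S0194), CONT, (K7), BASE part 2 (helper951): radial and centre segments, distances
-/

set_option autoImplicit false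

noncomputable section

namespace Crest.Agent.R143.LabBx951

open Set Complex
open Crest.Agent.R158 Crest.Agent.R158.Sp896
open Crest.Agent.R143.ToolWx838
open Crest.Agent.R143.Tenx416 (Pg)
open Crest.Agent.R143.LabDx755
open Crest.Agent.R143.TentMx951 (mem_sq re_im_lt mem_ed)

theorem ctr_lc {s : ℝ} {a p : V} (h : Adj a p) :
    ctr s (lc a p) = (pt s a + pt s p) / 2 + s / 2 * (I * cv a p) := by
  obtain ⟨a1, a2⟩ := a
  obtain ⟨p1, p2⟩ := p
  rcases h with ⟨k1, k2⟩ | ⟨k1, k2⟩ | ⟨k1, k2⟩ | ⟨k1, k2⟩ <;> simp only at k1 k2 <;> subst k1 k2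
  · have e : lc (a1, p2) (a1 + 1, p2) = (a1, p2) := by unfold lc; ext <;> simp only <;> omega
    rw [e]
    apply Complex.ext <;> simp [ctr, pt, cv] <;> ring
  · have e : lc (a1, p2) (a1 - 1, p2) = (a1 - 1, p2 - 1) := by unfold lc; ext <;> simp only <;> omega
    rw [e]
    apply Complex.ext <;> simp [ctr, pt, cv] <;> ring
  · have e : lc (p1, a2) (p1, a2 + 1) = (p1 - 1, a2) := by unfold lc; ext <;> simp only <;> omega
    rw [e]
    apply Complex.ext <;> simp [ctr, pt, cv] <;> ring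
  · have e : lc (p1, a2) (p1, a2 - 1) = (p1, a2 - 1) := by unfold lc; ext <;> simp only <;> omega
    rw [e]
    apply Complex.ext <;> simp [ctr, pt, cv] <;> ring

theorem ctr_rc {s : ℝ} {a p : V} (h : Adj a p) :
    ctr s (rc a p) = (pt s a + pt s p) / 2 - s / 2 * (I * cv a p) := by
  obtain ⟨a1, a2⟩ := a
  obtain ⟨p1, p2⟩ := p
  rcases h with ⟨k1, k2⟩ | ⟨k1, k2⟩ | ⟨k1, k2⟩ | ⟨k1, k2⟩ <;> simp only at k1 k2 <;> subst k1 k2
  · have e : rc (a1, p2) (a1 + 1, p2) = (a1, p2 - 1) := by unfold rc; ext <;> simp only <;> omega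
    rw [e]
    apply Complex.ext <;> simp [ctr, pt, cv] <;> ring
  · have e : rc (a1, p2) (a1 - 1, p2) = (a1 - 1, p2) := by unfold rc; ext <;> simp only <;> omega
    rw [e]
    apply Complex.ext <;> simp [ctr, pt, cv] <;> ring
  · have e : rc (p1, a2) (p1, a2 + 1) = (p1, a2) := by unfold rc; ext <;> simp only <;> omega
    rw [e]
    apply Complex.ext <;> simp [ctr, pt, cv] <;> ring
  · have e : rc (p1, a2) (p1, a2 - 1) = (p1 - 1, a2 - 1) := by unfold rc; ext <;> simp only <;> omega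
    rw [e]
    apply Complex.ext <;> simp [ctr, pt, cv] <;> ring

theorem ctr_ic {s : ℝ} {F : Set V} {N : ℕ} {v : ℕ → V} (hc : Cyc F N v) (k : ℕ) :
    ctr s (ic v k) = md s v k + s / 2 * (I * ev v k) := by
  unfold ic md
  rw [ctr_lc (hc.step k), ev_eq]

theorem mrd {s μ : ℝ} {F : Set V} {N : ℕ} {v : ℕ → V} (hμ : 0 < μ) (hs : 16 * μ ≤ s)
    (hc : Cyc F N v) (k : ℕ) : M s μ v k ∈ rd s v k := by
  unfold rd
  have hs0 : 0 < s := by linarith
  have e : M s μ v k = md s v k + ((2 * μ / s : ℝ) : ℂ) * (ctr s (ic v k) - md s v k) := by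
    rw [ctr_ic hc]
    unfold M
    have : (s : ℂ) ≠ 0 := by exact_mod_cast hs0.ne'
    push_cast
    field_simp
    ring
  rw [e]
  refine seg_mem (by positivity) ?_
  rw [div_le_one hs0]
  linarith

/-- **(BB)** -/
theorem rad_ball {s μ : ℝ} {F : Set V} {N : ℕ} {v : ℕ → V} (hμ : 0 < μ)
    (hs : 16 * μ ≤ s) (hc : Cyc F N v) (k : ℕ) {z : ℂ}
    (hz : z ∈ segment ℝ (M s μ v k) (ctr s (ic v k))) : Metric.ball z μ ⊆ Pg s F := by
  intro w hw
  have hA := hc.step k
  obtain ⟨t, h0, h1, hz⟩ := seg_par hz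
  have hz' : z = pt s (v (k + 1)) +
      (⟨-(s / 2), μ * (1 - t) + s / 2 * t⟩ : ℂ) * cv (v k) (v (k + 1)) := by
    rw [hz, ctr_ic hc]
    unfold M
    rw [md_eq, ev_eq, Complex.mk_eq_add_mul_I]
    push_cast
    ring
  obtain ⟨ξ, hw', b1, b2, b3, b4⟩ := ball_frame hA hz' hw
  simp only at b1 b2 b3 b4
  have m1 : 0 ≤ μ * t := by positivity
  have m2 : μ * t ≤ μ := by nlinarith
  have m3 : 0 ≤ s * t := by have : 0 ≤ s := by linarith
                            positivity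
  have m4 : s * t ≤ s := by nlinarith
  have m5 : μ * (1 - t) + (s / 2) * t ≥ μ := by nlinarith
  have m6 : μ * (1 - t) + (s / 2) * t ≤ s / 2 := by nlinarith
  exact mem_Pg (hc.left k) (quadLB hA hw' (by nlinarith) (by nlinarith) (by nlinarith) (by nlinarith))

theorem ctr_cen (s : ℝ) (q : V) : ctr s q = Tj656.cen s q := rfl

/-- **(BC)** -/
theorem cen_ball {s μ : ℝ} {F : Set V} (hμ : 0 < μ) (hs : 16 * μ ≤ s) {q q' : V} (hq : q ∈ F)
    (hq' : q' ∈ F) (h : Adj q q') {z : ℂ} (hz : z ∈ segment ℝ (ctr s q) (ctr s q')) :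
    Metric.ball z μ ⊆ Pg s F := by
  intro w hw
  have hs0 : 0 < s := by linarith
  rw [ctr_cen, ctr_cen] at hz
  rcases TentMx951.seg_cells hs0 h hz (lt_of_lt_of_le (Metric.mem_ball.1 hw) (by linarith))
    (mem_cellOf hs0 w) with e | e
  · exact mem_Pg (e ▸ hq) (mem_cellOf hs0 w)
  · exact mem_Pg (e ▸ hq') (mem_cellOf hs0 w)

/-! ### distances -/

theorem norm_ge_re {z : ℂ} {r : ℝ} (h : r ≤ z.re ∨ r ≤ -z.re ∨ r ≤ z.im ∨ r ≤ -z.im) : r ≤ ‖z‖ := by
  have h1 := abs_le.1 (Complex.abs_re_le_norm z)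
  have h2 := abs_le.1 (Complex.abs_im_le_norm z)
  rcases h with h | h | h | h <;> linarith [h1.1, h1.2, h2.1, h2.2]

theorem half_ge {s : ℝ} (hs : 0 ≤ s) (m n : ℤ) :
    s / 2 ≤ s * (m + 1 / 2) - s * n ∨ s / 2 ≤ -(s * (m + 1 / 2) - s * n) := by
  rcases le_or_gt n m with h | h
  · left
    have : (n : ℝ) ≤ m := by exact_mod_cast h
    nlinarith
  · right
    have : (m : ℝ) + 1 ≤ n := by exact_mod_cast h
    nlinarith

theorem canon {a b : V} (h : Adj a b) : ∃ p q : V, ((p = a ∧ q = b) ∨ (p = b ∧ q = a)) ∧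
    (q = (p.1 + 1, p.2) ∨ q = (p.1, p.2 + 1)) := TentMx951.canon h

/-- common edge of two adjacent cells -/
def ComE (q q' a b : V) : Prop := (lc a b = q ∧ rc a b = q') ∨ (lc a b = q' ∧ rc a b = q)

theorem comE_H {q a b : V} (h : Adj a b) (hv : (a = (q.1 + 1, q.2) ∧ b = (q.1 + 1, q.2 + 1)) ∨
    (b = (q.1 + 1, q.2) ∧ a = (q.1 + 1, q.2 + 1))) : ComE q (q.1 + 1, q.2) a b := by
  rcases hv with ⟨rfl, rfl⟩ | ⟨rfl, rfl⟩
  · left
    constructor
    · unfold lc; ext <;> simp only <;> omega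
    · unfold rc; ext <;> simp only <;> omega
  · right
    constructor
    · unfold lc; ext <;> simp only <;> omega
    · unfold rc; ext <;> simp only <;> omega

theorem comE_V {q a b : V} (h : Adj a b) (hv : (a = (q.1, q.2 + 1) ∧ b = (q.1 + 1, q.2 + 1)) ∨
    (b = (q.1, q.2 + 1) ∧ a = (q.1 + 1, q.2 + 1))) : ComE q (q.1, q.2 + 1) a b := by
  rcases hv with ⟨rfl, rfl⟩ | ⟨rfl, rfl⟩
  · right
    constructor
    · unfold lc; ext <;> simp only <;> omega
    · unfold rc; ext <;> simp only <;> omega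
  · left
    constructor
    · unfold lc; ext <;> simp only <;> omega
    · unfold rc; ext <;> simp only <;> omega

/-- canonical form: horizontal or vertical neighbours, horizontal or vertical edge -/
theorem cen_far_aux {s : ℝ} (hs : 0 ≤ s) {q q' a b : V}
    (h : q' = (q.1 + 1, q.2) ∨ q' = (q.1, q.2 + 1))
    (hab : b = (a.1 + 1, a.2) ∨ b = (a.1, a.2 + 1))
    (hne : ¬ ComE q q' a b) {z y : ℂ} (hz : z ∈ segment ℝ (ctr s q) (ctr s q'))
    (hy : y ∈ ed s a b) : s / 2 ≤ ‖z - y‖ := by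
  obtain ⟨t, t0, t1, rfl⟩ := seg_par hz
  obtain ⟨u, u0, u1, y1, y2⟩ := mem_ed.1 hy
  have st0 : 0 ≤ s * t := mul_nonneg hs t0
  have st1 : s * t ≤ s := by nlinarith
  have su0 : 0 ≤ s * u := mul_nonneg hs u0
  have su1 : s * u ≤ s := by nlinarith
  apply norm_ge_re
  rw [Complex.sub_re, Complex.sub_im, y1, y2, Tj656.lin_re, Tj656.lin_im]
  rcases h with rfl | rfl
  · rcases hab with rfl | rfl
    · -- centre path horizontal, edge horizontal
      have := half_ge hs q.2 a.2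
      simp only [ctr]
      push_cast
      rcases this with h | h
      · right; right; left; linarith
      · right; right; right; linarith
    · -- centre path horizontal, edge vertical
      simp only [ctr]
      push_cast
      rcases lt_trichotomy a.1 (q.1 + 1) with h | h | h
      · left
        have : (a.1 : ℝ) ≤ q.1 := by exact_mod_cast (by omega : a.1 ≤ q.1)
        nlinarith
      · rcases lt_trichotomy a.2 q.2 with h' | h' | h'
        · right; right; left
          have : (a.2 : ℝ) + 1 ≤ q.2 := by exact_mod_cast (by omega : a.2 + 1 ≤ q.2)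
          nlinarith
        · exfalso
          apply hne
          refine comE_H (by unfold Adj; simp) (Or.inl ⟨?_, ?_⟩)
          · exact Prod.ext h h'
          · exact Prod.ext h (by simp only; omega)
        · right; right; right
          have : (q.2 : ℝ) + 1 ≤ a.2 := by exact_mod_cast (by omega : q.2 + 1 ≤ a.2)
          nlinarith
      · right; left
        have : (q.1 : ℝ) + 2 ≤ a.1 := by exact_mod_cast (by omega : q.1 + 2 ≤ a.1)
        nlinarith
  · rcases hab with rfl | rfl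
    · -- centre path vertical, edge horizontal
      simp only [ctr]
      push_cast
      rcases lt_trichotomy a.2 (q.2 + 1) with h | h | h
      · right; right; left
        have : (a.2 : ℝ) ≤ q.2 := by exact_mod_cast (by omega : a.2 ≤ q.2)
        nlinarith
      · rcases lt_trichotomy a.1 q.1 with h' | h' | h'
        · left
          have : (a.1 : ℝ) + 1 ≤ q.1 := by exact_mod_cast (by omega : a.1 + 1 ≤ q.1)
          nlinarith
        · exfalso
          apply hne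
          refine comE_V (by unfold Adj; simp) (Or.inl ⟨?_, ?_⟩)
          · exact Prod.ext h' h
          · exact Prod.ext (by simp only; omega) h
        · right; left
          have : (q.1 : ℝ) + 1 ≤ a.1 := by exact_mod_cast (by omega : q.1 + 1 ≤ a.1)
          nlinarith
      · right; right; right
        have : (q.2 : ℝ) + 2 ≤ a.2 := by exact_mod_cast (by omega : q.2 + 2 ≤ a.2)
        nlinarith
    · -- centre path vertical, edge vertical
      have := half_ge hs q.1 a.1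
      simp only [ctr]
      push_cast
      rcases this with h | h
      · left; linarith
      · right; left; linarith

theorem comE_swap {q q' a b : V} (h : Adj a b) : ComE q q' a b ↔ ComE q q' b a := by
  have e1 : lc b a = rc a b := by
    unfold lc rc; unfold Adj at h; ext <;> simp only <;> omega
  have e2 : rc b a = lc a b := by
    unfold lc rc; unfold Adj at h; ext <;> simp only <;> omega
  unfold ComE
  rw [e1, e2]
  tauto

theorem comE_comm {q q' a b : V} : ComE q q' a b ↔ ComE q' q a b := by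
  unfold ComE
  tauto

/-- **distance** between a centre segment and a lattice edge which it does not cross -/
theorem cen_far {s : ℝ} (hs : 0 ≤ s) {q q' a b : V} (h : Adj q q') (hab : Adj a b)
    (hne : ¬ ComE q q' a b) {z y : ℂ} (hz : z ∈ segment ℝ (ctr s q) (ctr s q'))
    (hy : y ∈ ed s a b) : s / 2 ≤ ‖z - y‖ := by
  obtain ⟨p, p', hp, hpp⟩ := canon h
  obtain ⟨c, d, hcd, hcc⟩ := canon hab
  have hz' : z ∈ segment ℝ (ctr s p) (ctr s p') := by
    rcases hp with ⟨rfl, rfl⟩ | ⟨rfl, rfl⟩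
    · exact hz
    · rw [segment_symm]; exact hz
  have hy' : y ∈ ed s c d := by
    rcases hcd with ⟨rfl, rfl⟩ | ⟨rfl, rfl⟩
    · exact hy
    · unfold ed; rw [segment_symm]; exact hy
  have hne' : ¬ ComE p p' c d := by
    rcases hp with ⟨rfl, rfl⟩ | ⟨rfl, rfl⟩ <;> rcases hcd with ⟨rfl, rfl⟩ | ⟨rfl, rfl⟩
    · exact hne
    · rwa [← comE_swap hab]
    · rwa [comE_comm]
    · rwa [comE_comm, ← comE_swap hab]
  exact cen_far_aux hs hpp hcc hne' hz' hy'

theorem dart_inj {a b a' b' : V} (h : Adj a b) (h' : Adj a' b') (h1 : lc a b = lc a' b')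
    (h2 : rc a b = rc a' b') : a = a' ∧ b = b' := by
  unfold Adj at h h'
  unfold lc at h1
  unfold rc at h2
  rw [Prod.mk.injEq] at h1 h2
  constructor <;> ext <;> omega

/-- the radial segment is a part of a centre segment -/
theorem rd_sub {s : ℝ} {F : Set V} {N : ℕ} {v : ℕ → V} (hc : Cyc F N v) (k : ℕ) :
    rd s v k ⊆ segment ℝ (ctr s (lc (v k) (v (k + 1)))) (ctr s (rc (v k) (v (k + 1)))) := by
  refine (convex_segment _ _).segment_subset ?_ (left_mem_segment ℝ _ _)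
  have e : md s v k = ctr s (lc (v k) (v (k + 1))) +
      ((1 / 2 : ℝ) : ℂ) * (ctr s (rc (v k) (v (k + 1))) - ctr s (lc (v k) (v (k + 1)))) := by
    rw [ctr_lc (hc.step k), ctr_rc (hc.step k)]
    unfold md
    push_cast
    ring
  rw [e]
  exact seg_mem (by norm_num) (by norm_num)

theorem rd_far {s : ℝ} {F : Set V} {N : ℕ} {v : ℕ → V} (hs : 0 ≤ s) (hc : Cyc F N v) {k j : ℕ}
    (hne : j % N ≠ k % N) {z y : ℂ} (hz : z ∈ rd s v k) (hy : y ∈ ed s (v j) (v (j + 1))) :
    s / 2 ≤ ‖z - y‖ := by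
  refine cen_far hs (adj_lc_rc (hc.step k)) (hc.step j) ?_ (rd_sub hc k hz) hy
  rintro (⟨h1, h2⟩ | ⟨h1, -⟩)
  · exact hne (mod_eq hc (dart_inj (hc.step j) (hc.step k) h1 h2).1)
  · exact hc.right k (h1 ▸ hc.left j)

theorem cc_far {s : ℝ} {F : Set V} {N : ℕ} {v : ℕ → V} (hs : 0 ≤ s) (hc : Cyc F N v) {q q' : V}
    (hq : q ∈ F) (hq' : q' ∈ F) (h : Adj q q') {j : ℕ} {z y : ℂ}
    (hz : z ∈ segment ℝ (ctr s q) (ctr s q')) (hy : y ∈ ed s (v j) (v (j + 1))) :
    s / 2 ≤ ‖z - y‖ := by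
  refine cen_far hs h (hc.step j) ?_ hz hy
  rintro (⟨-, h2⟩ | ⟨-, h2⟩)
  · exact hc.right j (h2 ▸ hq')
  · exact hc.right j (h2 ▸ hq)

/-- the ring is near the edges -/
theorem rs_near {s μ : ℝ} {F : Set V} {N : ℕ} {v : ℕ → V} (hμ : 0 < μ) (hc : Cyc F N v) (j : ℕ)
    {w : ℂ} (hw : w ∈ rs s μ v j) :
    (∃ y ∈ ed s (v j) (v (j + 1)), ‖w - y‖ ≤ 2 * μ) ∨
    ∃ y ∈ ed s (v (j + 1)) (v (j + 1 + 1)), ‖w - y‖ ≤ 2 * μ := by
  have n1 : ‖(μ : ℂ) * (I * ev v j)‖ = μ := by
    rw [norm_mul, norm_mul, Complex.norm_I, ev_eq, cv_norm (hc.step j), Complex.norm_real,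
      Real.norm_of_nonneg hμ.le]; ring
  have n2 : ‖(μ : ℂ) * (I * ev v (j + 1))‖ = μ := by
    rw [norm_mul, norm_mul, Complex.norm_I, ev_eq, cv_norm (hc.step (j + 1)), Complex.norm_real,
      Real.norm_of_nonneg hμ.le]; ring
  rcases hw with hw | hw
  · left
    obtain ⟨t, h0, h1, rfl⟩ := seg_par hw
    refine ⟨md s v j + t * (pt s (v (j + 1)) - md s v j), ?_, ?_⟩
    · have e : md s v j + t * (pt s (v (j + 1)) - md s v j) =
          pt s (v j) + (((1 + t) / 2 : ℝ) : ℂ) * (pt s (v (j + 1)) - pt s (v j)) := by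
        unfold md; push_cast; ring
      rw [e]
      exact seg_mem (by linarith) (by linarith)
    · have e : M s μ v j + t * (W s μ v j - M s μ v j) - (md s v j + t * (pt s (v (j + 1)) - md s v j))
          = μ * (I * ev v j) + t * (μ * (I * ev v (j + 1))) := by
        unfold M W; ring
      rw [e]
      refine (norm_add_le _ _).trans ?_
      rw [n1, norm_mul, n2, Complex.norm_real, Real.norm_of_nonneg h0]
      nlinarith
  · right
    obtain ⟨t, h0, h1, rfl⟩ := seg_par hw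
    refine ⟨pt s (v (j + 1)) + t * (md s v (j + 1) - pt s (v (j + 1))), ?_, ?_⟩
    · have e : pt s (v (j + 1)) + t * (md s v (j + 1) - pt s (v (j + 1))) =
          pt s (v (j + 1)) + ((t / 2 : ℝ) : ℂ) * (pt s (v (j + 1 + 1)) - pt s (v (j + 1))) := by
        unfold md; push_cast; ring
      rw [e]
      exact seg_mem (by linarith) (by linarith)
    · have e : W s μ v j + t * (M s μ v (j + 1) - W s μ v j) -
          (pt s (v (j + 1)) + t * (md s v (j + 1) - pt s (v (j + 1))))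
          = μ * (I * ev v (j + 1)) + ((1 - t : ℝ) : ℂ) * (μ * (I * ev v j)) := by
        unfold M W; push_cast; ring
      rw [e]
      refine (norm_add_le _ _).trans ?_
      rw [n2, norm_mul, n1, Complex.norm_real, Real.norm_of_nonneg (by linarith : 0 ≤ 1 - t)]
      nlinarith

theorem tri {z w y : ℂ} {s μ : ℝ} (hs : 16 * μ ≤ s) (hμ : 0 < μ) (h1 : s / 2 ≤ ‖z - y‖)
    (h2 : ‖w - y‖ ≤ 2 * μ) : s / 4 ≤ ‖z - w‖ := by
  have e : z - y = (z - w) + (w - y) := by ring
  have h3 := norm_add_le (z - w) (w - y)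
  rw [← e] at h3
  linarith

theorem md_ed (s : ℝ) (v : ℕ → V) (j : ℕ) : md s v j ∈ ed s (v j) (v (j + 1)) := by
  have e : md s v j = pt s (v j) + ((1 / 2 : ℝ) : ℂ) * (pt s (v (j + 1)) - pt s (v j)) := by
    unfold md; push_cast; ring
  rw [e]
  exact seg_mem (by norm_num) (by norm_num)

theorem d1 {s μ : ℝ} {F : Set V} {N : ℕ} {v : ℕ → V} (hμ : 0 < μ) (hs : 16 * μ ≤ s)
    (hc : Cyc F N v) (k j : ℕ) (h1 : j % N ≠ k % N) (h2 : (j + 1) % N ≠ k % N) {z w : ℂ}
    (hz : z ∈ rd s v k) (hw : w ∈ rs s μ v j) : s / 4 ≤ ‖z - w‖ := by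
  have hs0 : 0 ≤ s := by linarith
  rcases rs_near hμ hc j hw with ⟨y, hy, hy2⟩ | ⟨y, hy, hy2⟩
  · exact tri hs hμ (rd_far hs0 hc h1 hz hy) hy2
  · exact tri hs hμ (rd_far hs0 hc h2 hz hy) hy2

theorem d2 {s : ℝ} {F : Set V} {N : ℕ} {v : ℕ → V} (hs : 0 ≤ s)
    (hc : Cyc F N v) (k j : ℕ) (h1 : j % N ≠ k % N) {z : ℂ}
    (hz : z ∈ rd s v k) : s / 4 ≤ ‖z - md s v j‖ := by
  have := rd_far hs hc h1 hz (md_ed s v j)
  linarith

theorem d3 {s μ : ℝ} {F : Set V} {N : ℕ} {v : ℕ → V} (hμ : 0 < μ) (hs : 16 * μ ≤ s)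
    (hc : Cyc F N v) {q q' : V} (hq : q ∈ F) (hq' : q' ∈ F) (h : Adj q q') {z : ℂ}
    (hz : z ∈ segment ℝ (ctr s q) (ctr s q')) (j : ℕ) :
    (∀ w ∈ rs s μ v j, s / 4 ≤ ‖z - w‖) ∧ s / 4 ≤ ‖z - md s v j‖ := by
  have hs0 : 0 ≤ s := by linarith
  refine ⟨fun w hw => ?_, ?_⟩
  · rcases rs_near hμ hc j hw with ⟨y, hy, hy2⟩ | ⟨y, hy, hy2⟩
    · exact tri hs hμ (cc_far hs0 hc hq hq' h hz hy) hy2
    · exact tri hs hμ (cc_far hs0 hc hq hq' h hz hy) hy2
  · have := cc_far hs0 hc hq hq' h hz (md_ed s v j)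
    linarith

end Crest.Agent.R143.LabBx951
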