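import Crest.Agent.R143.J10_872
import Crest.Agent.R143.G6W_723
import Crest.Agent.R143.EQ2_63

/-!
# Row 143, block X, leaf LAW (helper872)

* `ann_conn` : the Delaunay graph of the sites of an annulus (of width at least `4 d`) is connected;
  `disc_conn'` : the same for a disc
* `restr_eq_iff` : two flips of a join have the same restriction to the annulus iff the colours are
  equal or complementary on the annulus; `fibre_two`, `pr_restr`
* `pr_indep_V`, `pair_pr_V` : events which look at the edges between the sites of `V`: the law does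
  not depend on the join (one world, two worlds)
* `restr_law`, `restr_law2` : the law of the restriction; `restr_split` : given the restriction the
  other colours are fair, and the colours of the annulus are one of two complementary colourings
-/

set_option autoImplicit false

noncomputable section

open scoped Classical

namespace Crest.Agent.R143.Lawx872

open Crest.ProbabilityR.Voronoi
open Crest.Agent.R143.B0x346 Crest.Agent.R143.DelGx806 Crest.Agent.R143.DelRx806
  Crest.Agent.R143.JColx54 Crest.Agent.R143.JCol2x54 Crest.Agent.R143.Planarx54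
  Crest.Agent.R143.Planar2x54 Crest.Agent.R143.Harx315 Crest.Agent.R143.J8x872
  Crest.Agent.R143.J9x872 Crest.Agent.R143.J10x872
open Crest.Agent.R143.X0Bx683 (OutP LeadsO LegTip Tips TipsS HO GO HI GI Dsc Fs Ann Fc World Rj restr)
open Crest.Agent.R143.X0Cx683 (Pair)

local notation "flp" => Crest.Agent.R143.X0Bx683.flip
local notation "bdy" => Crest.Agent.R143.X0Bx683.bd
local notation "eex" => Crest.Agent.R143.XW1x315.ex
local notation "AgrJ" => Crest.Agent.R143.J9x872.Agr

variable {S S' : Finset ℂ} {N N' : Net ℂ} {G : Trg ℂ} {kl : Set (ℂ × ℂ)} {O : Set (ℂ × ℂ × ℂ)}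
  {D : Set (ℂ × ℂ)} {J J' : Finset (ℂ × ℂ)} {V β β' : Finset ℂ} {z0 : ℂ}

/-! ### connectedness -/

/-- connected inside the set of sites `V` -/
def ConnIn (S V : Finset ℂ) (a b : ℂ) : Prop :=
  Relation.ReflTransGen (fun u v => Adj S u v ∧ u ∈ V ∧ v ∈ V) a b

theorem ConnIn.symm {a b : ℂ} (h : ConnIn S V a b) : ConnIn S V b a := by
  induction h with
  | refl => exact Relation.ReflTransGen.refl
  | tail _ h2 ih => exact Relation.ReflTransGen.head ⟨h2.1.symm, h2.2.2, h2.2.1⟩ ih

theorem ConnIn.trans {a b c : ℂ} (h : ConnIn S V a b) (h' : ConnIn S V b c) : ConnIn S V a c :=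
  Relation.ReflTransGen.trans h h'

/-- a function which is constant along the edges inside `V` -/
theorem ConnIn.const {B : Type} {φ : ℂ → B} (hφ : ∀ u v, Adj S u v → u ∈ V → v ∈ V → φ u = φ v)
    {a b : ℂ} (h : ConnIn S V a b) : φ a = φ b := by
  induction h with
  | refl => rfl
  | tail _ h2 ih => exact ih.trans (hφ _ _ h2.1 h2.2.1 h2.2.2)

/-- the sites whose cells meet a connected set -/
theorem conn_of_set (hS : GP (S : Set ℂ)) (h3 : 3 ≤ S.card) {C : Set ℂ} (hC : IsPreconnected C)
    (hV : ∀ z ∈ C, ∀ s ∈ S, z ∈ voronoiCell (S : Set ℂ) s → s ∈ V) {a b : ℂ} (ha : a ∈ S)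
    (hb : b ∈ S) (h1 : (C ∩ voronoiCell (S : Set ℂ) a).Nonempty)
    (h2 : (C ∩ voronoiCell (S : Set ℂ) b).Nonempty) : ConnIn S V a b := by
  refine Relation.ReflTransGen.mono ?_ _ _ (G6Wx723.chain_of_conn_fin hS h3 hC ha hb h1 h2)
  rintro u v ⟨h, z, hz, hzC⟩
  exact ⟨h, hV z hzC u h.mem.1 (G6Wx723.vedge_sub_cell hz),
    hV z hzC v h.mem.2 (G6Wx723.vedge_sub_cell' hz)⟩



/-! ### the two colourings with a given restriction -/








/-! ### the law does not depend on the join -/


section pair

variable {R R1 d b0 C4 r : ℝ} {f : Fc S N z0 r} {f' : Fc S' N' z0 r}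


end pair



section pair

variable {R R1 d b0 C4 r : ℝ} {f : Fc S N z0 r} {f' : Fc S' N' z0 r}


end pair


end Crest.Agent.R143.Lawx872
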