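import Crest.Agent.R143.DelR_806

/-!
# Row 143, block P, Tool W: winding of chains of points (helper838)

* `ang x a b` : angle under which `x` sees the segment `a → b`, in `(-π, π]`
* `asum x l` : total angle of the chain `l` seen from `x`
* `asum_closed` : a closed chain has total angle in `2π ℤ`
* `asum_const` : a closed chain has the same total angle seen from all points of a preconnected set
  which does not meet its segments
* `asum_half` : if all the points of the chain are in an open half plane bounded by a line through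
  `x` then the total angle of a closed chain is `0`
* `ang_tri_in`, `ang_tri_out` : triangles
-/

set_option autoImplicit false

noncomputable section

open scoped Classical

namespace Crest.Agent.R143.ToolWx838

open Crest.Agent.R143.B0x346 Crest.Agent.R143.DelGx806 Crest.Agent.R143.DelRx806

/-! ### angles -/

/-- angle under which `x` sees the segment from `a` to `b` -/
def ang (x a b : ℂ) : ℝ := ((b - x) / (a - x)).arg


theorem sub_ne {x a : ℂ} (h : a ≠ x) : a - x ≠ 0 := sub_ne_zero.2 h

/-- `x` is not on the segment -/
theorem slit {x a b : ℂ} (h : x ∉ segment ℝ a b) : (b - x) / (a - x) ∈ Complex.slitPlane := by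
  have hb : b ≠ x := fun e => h (e ▸ right_mem_segment ℝ a b)
  have ha : a ≠ x := fun e => h (e ▸ left_mem_segment ℝ a b)
  by_contra hcon
  rw [Complex.mem_slitPlane_iff] at hcon
  push Not at hcon
  obtain ⟨h1, h2⟩ := hcon
  apply h
  set z := (b - x) / (a - x) with hz
  have hz2 : z = ((z.re : ℝ) : ℂ) := by
    apply Complex.ext
    · simp
    · simpa using h2
  have e1 : b - x = (z.re : ℂ) * (a - x) := by
    rw [← hz2, hz, div_mul_cancel₀ _ (sub_ne ha)]
  have hr : 0 < 1 - z.re := by linarith
  rw [segment_eq_image ℝ a b]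
  -- x = (b - r a)/(1 - r)
  refine ⟨1 / (1 - z.re), ⟨by positivity, ?_⟩, ?_⟩
  · rw [div_le_one hr]; linarith
  · have hr' : (1 - (z.re : ℂ)) ≠ 0 := by
      have : ((1 - z.re : ℝ) : ℂ) ≠ 0 := by exact_mod_cast hr.ne'
      simpa using this
    simp only [Complex.real_smul]
    push_cast
    field_simp
    have : b = (z.re : ℂ) * (a - x) + x := by rw [← e1]; ring
    linear_combination this

theorem ang_comm {x a b : ℂ} (h : x ∉ segment ℝ a b) : ang x b a = - ang x a b := by
  unfold ang
  have h1 := slit h
  rw [← inv_div, Complex.arg_inv, if_neg]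
  exact (Complex.mem_slitPlane_iff_arg.1 h1).1

/-- normalised direction -/
def dir (x a : ℂ) : ℂ := (a - x) / (‖a - x‖ : ℂ)

theorem dir_ne {x a : ℂ} (h : a ≠ x) : dir x a ≠ 0 := by
  unfold dir
  have : (‖a - x‖ : ℂ) ≠ 0 := by exact_mod_cast (norm_pos_iff.2 (sub_ne h)).ne'
  exact div_ne_zero (sub_ne h) this

theorem exp_ang {x a b : ℂ} (ha : a ≠ x) (hb : b ≠ x) :
    Complex.exp (ang x a b * Complex.I) * dir x a = dir x b := by
  unfold ang dir
  have h1 := Complex.norm_mul_exp_arg_mul_I ((b - x) / (a - x))
  have na : (‖a - x‖ : ℂ) ≠ 0 := by exact_mod_cast (norm_pos_iff.2 (sub_ne ha)).ne'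
  have nb : (‖b - x‖ : ℂ) ≠ 0 := by exact_mod_cast (norm_pos_iff.2 (sub_ne hb)).ne'
  have ha' := sub_ne ha
  rw [norm_div] at h1
  push_cast at h1
  generalize Complex.exp ((((b - x) / (a - x)).arg : ℝ) * Complex.I) = E at h1
  field_simp at h1 ⊢
  linear_combination h1

/-! ### chains -/

/-- total angle of a chain seen from `x` -/
def asum (x : ℂ) : List ℂ → ℝ
  | [] => 0
  | [_] => 0
  | a :: b :: l => ang x a b + asum x (b :: l)

@[simp] theorem asum_nil (x : ℂ) : asum x [] = 0 := rfl
@[simp] theorem asum_one (x a : ℂ) : asum x [a] = 0 := rfl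
@[simp] theorem asum_cons (x a b : ℂ) (l : List ℂ) :
    asum x (a :: b :: l) = ang x a b + asum x (b :: l) := rfl

theorem asum_append (x : ℂ) (l : List ℂ) (a : ℂ) (m : List ℂ) :
    asum x (l ++ a :: m) = asum x (l ++ [a]) + asum x (a :: m) := by
  induction l with
  | nil => simp
  | cons b l ih =>
    cases l with
    | nil => simp
    | cons c l =>
      simp only [List.cons_append, asum_cons] at ih ⊢
      rw [ih]; ring

/-- consecutive pairs -/
def prs : List ℂ → List (ℂ × ℂ)
  | [] => []
  | [_] => []
  | a :: b :: l => (a, b) :: prs (b :: l)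

@[simp] theorem prs_nil : prs [] = [] := rfl
@[simp] theorem prs_one (a : ℂ) : prs [a] = [] := rfl
@[simp] theorem prs_cons (a b : ℂ) (l : List ℂ) : prs (a :: b :: l) = (a, b) :: prs (b :: l) := rfl

theorem asum_eq (x : ℂ) (l : List ℂ) : asum x l = ((prs l).map fun p => ang x p.1 p.2).sum := by
  induction l with
  | nil => rfl
  | cons a l ih =>
    cases l with
    | nil => rfl
    | cons b l => simp only [asum_cons, prs_cons, List.map_cons, List.sum_cons, ih]

theorem prs_append (l : List ℂ) (a : ℂ) (m : List ℂ) :
    prs (l ++ a :: m) = prs (l ++ [a]) ++ prs (a :: m) := by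
  induction l with
  | nil => simp
  | cons b l ih =>
    cases l with
    | nil => simp
    | cons c l =>
      simp only [List.cons_append, prs_cons] at ih ⊢
      rw [ih]

theorem isChain_iff_prs {R : ℂ → ℂ → Prop} (l : List ℂ) :
    l.IsChain R ↔ ∀ p ∈ prs l, R p.1 p.2 := by
  induction l with
  | nil => simp
  | cons a l ih =>
    cases l with
    | nil => simp
    | cons b l => simp only [List.isChain_cons_cons, ih, prs_cons, List.mem_cons, forall_eq_or_imp]

theorem mem_of_prs {l : List ℂ} {p : ℂ × ℂ} (h : p ∈ prs l) : p.1 ∈ l ∧ p.2 ∈ l := by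
  induction l with
  | nil => simp at h
  | cons a l ih =>
    cases l with
    | nil => simp at h
    | cons b l =>
      simp only [prs_cons, List.mem_cons] at h
      rcases h with rfl | h
      · simp
      · have := ih h
        exact ⟨List.mem_cons_of_mem _ this.1, List.mem_cons_of_mem _ this.2⟩

theorem prs_reverse (l : List ℂ) : prs l.reverse = ((prs l).map Prod.swap).reverse := by
  induction l with
  | nil => rfl
  | cons a l ih =>
    cases l with
    | nil => rfl
    | cons b l =>
      rw [List.reverse_cons, List.reverse_cons, List.append_assoc, List.singleton_append,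
        prs_append, ← List.reverse_cons, ih]
      simp

/-- `x` is not on the chain -/
def Off (x : ℂ) (l : List ℂ) : Prop := ∀ p ∈ prs l, x ∉ segment ℝ p.1 p.2

theorem Off.append {x : ℂ} {l : List ℂ} {a : ℂ} {m : List ℂ} :
    Off x (l ++ a :: m) ↔ Off x (l ++ [a]) ∧ Off x (a :: m) := by
  unfold Off
  rw [prs_append]
  simp only [List.mem_append]
  constructor
  · exact fun h => ⟨fun p hp => h p (Or.inl hp), fun p hp => h p (Or.inr hp)⟩
  · rintro ⟨h1, h2⟩ p (hp | hp)
    · exact h1 p hp
    · exact h2 p hp

theorem asum_reverse {x : ℂ} {l : List ℂ} (h : Off x l) : asum x l.reverse = - asum x l := by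
  rw [asum_eq, asum_eq, prs_reverse, List.map_reverse, List.sum_reverse, List.map_map]
  have : ∀ (m : List (ℂ × ℂ)), (∀ p ∈ m, x ∉ segment ℝ p.1 p.2) →
      (m.map ((fun p => ang x p.1 p.2) ∘ Prod.swap)).sum = -(m.map fun p => ang x p.1 p.2).sum := by
    intro m
    induction m with
    | nil => simp
    | cons p m ih =>
      intro hm
      simp only [List.map_cons, List.sum_cons, Function.comp, Prod.fst_swap, Prod.snd_swap]
      rw [ih (fun q hq => hm q (List.mem_cons_of_mem _ hq)), ang_comm (hm p (by simp))]
      ring
  exact this _ h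

/-- exponential of the total angle -/
theorem exp_asum {x : ℂ} {l : List ℂ} (h : ∀ a ∈ l, a ≠ x) (hl : l ≠ []) :
    Complex.exp (asum x l * Complex.I) * dir x (l.head hl) = dir x (l.getLast hl) := by
  induction l with
  | nil => exact absurd rfl hl
  | cons a l ih =>
    cases l with
    | nil => simp
    | cons b l =>
      have h1 := ih (fun c hc => h c (List.mem_cons_of_mem _ hc)) (by simp)
      simp only [asum_cons, List.head_cons] at h1 ⊢
      rw [List.getLast_cons (by simp)]
      rw [← h1, ← exp_ang (h a (by simp)) (h b (by simp))]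
      push_cast
      rw [add_mul, Complex.exp_add]
      ring

/-- a closed chain has total angle in `2π ℤ` -/
theorem asum_closed {x : ℂ} {l : List ℂ} (h : ∀ a ∈ l, a ≠ x) (hl : l.head? = l.getLast?) :
    ∃ k : ℤ, asum x l = 2 * Real.pi * k := by
  by_cases hn : l = []
  · subst hn; exact ⟨0, by simp⟩
  have h1 := exp_asum h hn
  have e : l.head hn = l.getLast hn := by
    rw [List.head?_eq_some_head hn, List.getLast?_eq_some_getLast hn] at hl
    exact Option.some.inj hl
  rw [e] at h1
  have h2 : dir x (l.getLast hn) ≠ 0 := dir_ne (h _ (List.getLast_mem hn))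
  have h3 : Complex.exp (asum x l * Complex.I) = 1 := by
    have : (Complex.exp (asum x l * Complex.I) - 1) * dir x (l.getLast hn) = 0 := by
      rw [sub_mul, h1]; ring
    rcases mul_eq_zero.1 this with h | h
    · linear_combination h
    · exact absurd h h2
  obtain ⟨n, hn⟩ := Complex.exp_eq_one_iff.1 h3
  refine ⟨n, ?_⟩
  have h4 : (asum x l : ℂ) = ((2 * Real.pi * n : ℝ) : ℂ) := by
    have hI : Complex.I ≠ 0 := Complex.I_ne_zero
    apply mul_right_cancel₀ hI
    rw [hn]
    push_cast
    ring
  exact_mod_cast h4

/-! ### constancy -/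

theorem Off.ne {x : ℂ} {l : List ℂ} (h : Off x l) (h2 : 2 ≤ l.length) : ∀ a ∈ l, a ≠ x := by
  induction l with
  | nil => simp
  | cons a l ih =>
    cases l with
    | nil => simp at h2
    | cons b l =>
      have h0 : x ∉ segment ℝ a b := h (a, b) (by simp)
      have ha : a ≠ x := fun e => h0 (e ▸ left_mem_segment ℝ a b)
      have hb : b ≠ x := fun e => h0 (e ▸ right_mem_segment ℝ a b)
      intro c hc
      rcases List.mem_cons.1 hc with rfl | hc
      · exact ha
      · cases l with
        | nil =>
          rcases List.mem_cons.1 hc with rfl | hc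
          · exact hb
          · simp at hc
        | cons d l =>
          exact ih (fun p hp => h p (by simp only [prs_cons, List.mem_cons] at hp ⊢; tauto))
            (by simp) c hc

theorem ang_cont {a b : ℂ} {x : ℂ} (h : x ∉ segment ℝ a b) :
    ContinuousAt (fun y => ang y a b) x := by
  have ha : a ≠ x := fun e => h (e ▸ left_mem_segment ℝ a b)
  unfold ang
  have h1 : ContinuousAt (fun y : ℂ => (b - y) / (a - y)) x :=
    (continuousAt_const.sub continuousAt_id).div (continuousAt_const.sub continuousAt_id)
      (sub_ne ha)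
  have h2 : ContinuousAt Complex.arg ((fun y : ℂ => (b - y) / (a - y)) x) :=
    Complex.continuousAt_arg (slit h)
  exact ContinuousAt.comp (f := fun y : ℂ => (b - y) / (a - y)) h2 h1

theorem asum_cont {l : List ℂ} {x : ℂ} (h : Off x l) : ContinuousAt (fun y => asum y l) x := by
  induction l with
  | nil => exact continuousAt_const
  | cons a l ih =>
    cases l with
    | nil => exact continuousAt_const
    | cons b l =>
      simp only [asum_cons]
      refine (ang_cont (h (a, b) (by simp))).add (ih ?_)
      intro p hp
      exact h p (by simp only [prs_cons, List.mem_cons]; exact Or.inr hp)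

/-- **constancy**: the total angle of a closed chain does not change while the point moves without
meeting the chain -/
theorem asum_const {l : List ℂ} (hl : l.head? = l.getLast?) {P : Set ℂ} (hP : IsPreconnected P)
    (hoff : ∀ x ∈ P, Off x l) {x y : ℂ} (hx : x ∈ P) (hy : y ∈ P) : asum x l = asum y l := by
  by_cases h2 : 2 ≤ l.length
  · have hc : ContinuousOn (fun z => asum z l / (2 * Real.pi)) P := fun z hz =>
      ((asum_cont (hoff z hz)).div_const _).continuousWithinAt
    have hpi : (2 * Real.pi) ≠ 0 := by positivity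
    have hint : ∀ z ∈ P, ∃ k : ℤ, asum z l / (2 * Real.pi) = k := by
      intro z hz
      obtain ⟨k, hk⟩ := asum_closed ((hoff z hz).ne h2) hl
      exact ⟨k, by rw [hk]; field_simp⟩
    have him := hP.image _ hc
    have h3 : (fun z => asum z l / (2 * Real.pi)) '' P ⊆ Set.range ((↑) : ℤ → ℝ) := by
      rintro _ ⟨z, hz, rfl⟩
      obtain ⟨k, hk⟩ := hint z hz
      exact ⟨k, hk.symm⟩
    have h4 : ((fun z => asum z l / (2 * Real.pi)) '' P).Subsingleton := by
      have htd : IsTotallyDisconnected (Set.range ((↑) : ℤ → ℝ)) := by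
        have : (Set.range ((↑) : ℤ → ℝ)).Countable := Set.countable_range _
        exact this.isTotallyDisconnected
      exact htd _ h3 him
    have h5 := h4 ⟨x, hx, rfl⟩ ⟨y, hy, rfl⟩
    simp only at h5
    field_simp at h5
    exact h5
  · have : l.length = 0 ∨ l.length = 1 := by omega
    rcases this with h | h
    · rw [List.length_eq_zero_iff.1 h]; rfl
    · obtain ⟨a, rfl⟩ := List.length_eq_one_iff.1 h; rfl

theorem asum_seg {l : List ℂ} (hl : l.head? = l.getLast?) {x y : ℂ}
    (hoff : ∀ z ∈ segment ℝ x y, Off z l) : asum x l = asum y l :=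
  asum_const hl (convex_segment x y).isPreconnected hoff (left_mem_segment ℝ x y)
    (right_mem_segment ℝ x y)

/-! ### half planes -/

theorem arg_div_half {z w : ℂ} (hz : 0 < z.re) (hw : 0 < w.re) : (w / z).arg = w.arg - z.arg := by
  have hz0 : z ≠ 0 := by rintro rfl; simp at hz
  have hw0 : w ≠ 0 := by rintro rfl; simp at hw
  have h1 : |z.arg| < Real.pi / 2 := Complex.abs_arg_lt_pi_div_two_iff.2 (Or.inl hz)
  have h2 : |w.arg| < Real.pi / 2 := Complex.abs_arg_lt_pi_div_two_iff.2 (Or.inl hw)
  rw [abs_lt] at h1 h2
  have h3 : (z⁻¹).arg = - z.arg := by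
    rw [Complex.arg_inv, if_neg]
    intro h
    rw [h] at h1
    linarith [Real.pi_pos]
  rw [div_eq_mul_inv, Complex.arg_mul hw0 (inv_ne_zero hz0), h3]
  · ring
  · rw [h3]
    constructor
    · linarith
    · linarith

/-- a chain in an open half plane -/
theorem asum_half {x u : ℂ} {l : List ℂ} (hl : l ≠ []) (h : ∀ a ∈ l, 0 < ((a - x) / u).re) :
    asum x l = ((l.getLast hl - x) / u).arg - ((l.head hl - x) / u).arg := by
  induction l with
  | nil => exact absurd rfl hl
  | cons a l ih =>
    cases l with
    | nil => simp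
    | cons b l =>
      have h1 := ih (by simp) (fun c hc => h c (List.mem_cons_of_mem _ hc))
      rw [asum_cons, h1]
      simp only [List.head_cons, List.getLast_cons_cons]
      have ha := h a (by simp)
      have hb := h b (by simp)
      have hu : u ≠ 0 := by rintro rfl; simp at ha
      have ha0 : a - x ≠ 0 := by rintro h0; rw [h0] at ha; simp at ha
      have e : ang x a b = ((b - x) / u).arg - ((a - x) / u).arg := by
        rw [← arg_div_half ha hb]
        unfold ang
        congr 1
        field_simp
      rw [e]
      ring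

theorem asum_half_closed {x u : ℂ} {l : List ℂ} (hl : l.head? = l.getLast?)
    (h : ∀ a ∈ l, 0 < ((a - x) / u).re) : asum x l = 0 := by
  by_cases hn : l = []
  · subst hn; rfl
  rw [asum_half hn h]
  rw [List.head?_eq_some_head hn, List.getLast?_eq_some_getLast hn] at hl
  rw [Option.some.inj hl]
  ring

end Crest.Agent.R143.ToolWx838
end
private theorem rz_bccf464570 : type_of% @_root_.Crest.Agent.R143.ToolWx838.asum.eq_def := @_root_.Crest.Agent.R143.ToolWx838.asum.eq_def -- L99
private theorem rz_6aaad5e1f7 : type_of% @_root_.Crest.Agent.R143.ToolWx838.asum.eq_1 := @_root_.Crest.Agent.R143.ToolWx838.asum.eq_1 -- L99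
private theorem rz_67726b529f : type_of% @_root_.Crest.Agent.R143.ToolWx838.prs.eq_def := @_root_.Crest.Agent.R143.ToolWx838.prs.eq_def -- L121
private theorem rz_80490c2206 : type_of% @_root_.Crest.Agent.R143.ToolWx838.prs.eq_1 := @_root_.Crest.Agent.R143.ToolWx838.prs.eq_1 -- L121
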