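import Crest.Agent.R143.Spine8_422
import Crest.Agent.R143.DicE_831
import Crest.Agent.R143.NstUI_136
import Crest.Agent.R143.LawOm_139
import Crest.Agent.R143.GapI_877_Mg
import Crest.Agent.R143.EQE1_63
import Crest.Agent.R143.J4_872
import Crest.Agent.R143.Gauge3_950
import Crest.Agent.R143.Mab3_377
import Crest.Agent.R143.RBE_723
import Crest.Agent.R143.XW1_315
import Crest.Agent.R143.Planar2_54
import Crest.Agent.R143.ToolW_838
import Crest.Agent.R143.DomB_722
import Crest.Agent.R143.G6W_723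
import Crest.Agent.R143.CovB_126
import Crest.Agent.R143.Y1_126
import Crest.Agent.R143.PoisM3_930
import Crest.Agent.R143.DomA_722
import Crest.Agent.R143.Asm_336
import Crest.Agent.R143.Y8D_831
import Crest.Agent.R143.B6I_903
import Crest.Agent.R143.Var3_831
import Crest.Agent.R143.Var2_831
import Crest.Agent.R143.EQ4_63
import Crest.Agent.R143.CircP_838
import Crest.Agent.R143.DomD_722
import Crest.Agent.R143.Ad2_422
import Crest.Agent.R143.CNT_930
import Crest.Agent.R143.EQE4_63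
import Crest.Agent.R143.AsmO_758
import Crest.Agent.R143.EQE3_63
import Crest.Agent.R143.AsmC_758
import Crest.Agent.R143.Bnd_377
import Crest.Agent.R143.PolyU_346
import Crest.Agent.R143.AsmD_377
import Crest.Agent.R143.K33R_877
import Crest.Agent.R143.LocU_700
import Crest.Agent.R143.HullM_93
import Crest.Agent.R143.HullE_66
import Crest.Agent.R143.ArmsE_377
import Crest.Agent.R143.GeoSeqP_422
import Crest.Agent.R143.RelP_62
import Crest.Agent.R143.HarmS_496
import Crest.Agent.R143.Hex_877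

-- ▼ part R143/Final_894
section

/-!
# Row 143 (S0194): final wiring (helper894)

`body` : the whole row from the remaining leaf; `literal_of` : the literal statement of S0194
from the remaining leaf. The leaf is only asked on domains with null frontier of the outside
(`AdP`, 422).
-/

set_option autoImplicit false

noncomputable section

namespace Crest.Agent.R143.Finx894

open Crest.ProbabilityR.Voronoi
open Crest Crest.ProbabilityR Crest.ProbabilityR.Voronoi
open Crest.Agent.R143.B0Dx346 Crest.Agent.R143.Spinex422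

/-- remaining leaf of row 143: weak holomorphy or antiholomorphy of the annealed observable -/
abbrev Leaf894 : Prop := LMinW GeoSeqPx422.AdP

theorem body (L : Leaf894) : Body := Spine8x422.body_p L


/-- the literal statement of S0194 -/
theorem literal_of (L : Leaf894)
    (D : Set ℂ) (hD : IsOpen D) (hDb : Bornology.IsBounded D) (hDc : IsConnected D)
    (γ : ℝ → ℂ) (hγ : Continuous γ) (hγp : Function.Periodic γ 1) (hγi : Set.InjOn γ (Set.Ico 0 1))
    (hγD : Set.range γ = frontier D)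
    (φ : ℂ → ℂ) (hφ : DifferentiableOn ℂ φ D) (hφi : Set.InjOn φ D)
    (hφD : φ '' D = {z : ℂ | 0 < z.im})
    (a b c d : ℂ) (ha : a ∈ frontier D) (hb : b ∈ frontier D) (hc : c ∈ frontier D)
    (hd : d ∈ frontier D)
    (hφc : ContinuousOn φ (closure D \ {d}))
    (hφd : Filter.Tendsto (fun z => ‖φ z‖) (nhdsWithin d D) Filter.atTop)
    (x : ℝ) (hx0 : 0 < x) (hx1 : x < 1)
    (hφa : φ a = 0) (hφb : φ b = x) (hφc1 : φ c = 1) :
    Filter.Tendsto
      (fun ε : ℝ => sampleLaw (crossingEvent ε D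
        {z | z ∈ frontier D ∧ z ≠ d ∧ (φ z).im = 0 ∧ 0 ≤ (φ z).re ∧ (φ z).re ≤ x}
        ({z | z ∈ frontier D ∧ z ≠ d ∧ (φ z).im = 0 ∧ 1 ≤ (φ z).re} ∪ {d})))
      (nhdsWithin 0 (Set.Ioi 0))
      (nhds (ENNReal.ofReal (crossingFormula x))) :=
  literal (body L) D hD hDb hDc γ hγ hγp hγi hγD φ hφ hφi hφD a b c d ha hb hc hd hφc hφd
    x hx0 hx1 hφa hφb hφc1

end Crest.Agent.R143.Finx894
end
end

-- ▼ part R143/UI_136
section

/-!
# Row 143 (S0194): uniform integrability of the number of steps, finite part (helper136)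

* `ex_big` : truncated mean of a sum of counts with bounded second moments
* `avg_ui` : the same for the average over the joins of a net with two marks
-/

set_option autoImplicit false

noncomputable section

open scoped Classical
open Finset

namespace Crest.Agent.R143.UIx136

open Crest.Agent.R143.NstUIx136 Crest.Agent.R143.LawOmx139 Crest.Agent.R143.B0x346
  Crest.Agent.R143.B0Dx346 Crest.Agent.R143.JCol2x54 Crest.Agent.R143.Harx315
  Crest.Agent.R143.XW1x315 Crest.Agent.R143.J8x872 Crest.Agent.R143.JColx54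

variable {κ α : Type*}

theorem trunc_mono {a b M : ℝ} (hM : 0 ≤ M) (h : a ≤ b) :
    (if M < a then a else 0) ≤ if M < b then b else 0 := by
  by_cases h1 : M < a
  · rw [if_pos h1, if_pos (h1.trans_le h)]
    exact h
  · rw [if_neg h1]
    split_ifs with h2
    · linarith
    · exact le_rfl


/-- truncated mean of a sum of counts -/
theorem ex_big {V : Finset α} {t : Finset κ} {X : κ → Finset α → ℝ} {C0 M : ℝ} (hM : 0 < M)
    (h0 : ∀ b ∈ t, ∀ β, β ⊆ V → 0 ≤ X b β) (h2 : ∀ b ∈ t, ex V (fun β => X b β ^ 2) ≤ C0) :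
    ex V (fun β => if M < ∑ b ∈ t, X b β then ∑ b ∈ t, X b β else 0) ≤
      (t.card : ℝ) ^ 2 * C0 / M := by
  have h3 := big_le (s := V.powerset) (f := fun β => ∑ b ∈ t, X b β) hM
    (fun β hβ => sum_nonneg fun b hb => h0 b hb β (mem_powerset.1 hβ))
  rw [← ex_av, ← ex_av] at h3
  refine h3.trans ?_
  apply div_le_div_of_nonneg_right _ hM.le
  have h4 : ex V (fun β => (∑ b ∈ t, X b β) ^ 2) ≤
      ex V (fun β => (t.card : ℝ) * ∑ b ∈ t, X b β ^ 2) :=
    ex_mono fun β _ => sq_sum_le_card_mul_sum_sq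
  refine h4.trans ?_
  rw [ex_mul_const, ex_sum, sq, mul_assoc]
  apply mul_le_mul_of_nonneg_left _ (Nat.cast_nonneg _)
  refine (sum_le_sum h2).trans (le_of_eq ?_)
  rw [sum_const, nsmul_eq_mul]

/-- **truncated average over the joins** -/
theorem avg_ui {S : Finset ℂ} {N : Net ℂ} {k : ZMod 3} {V : Finset ℂ} (H : HNet S N)
    (h3 : 3 ≤ S.card) (hV : FreeS S N.kl V) (hVS : V ⊆ S) {t : Finset κ}
    {X : κ → Finset ℂ → ℝ} {C0 M : ℝ} (hM : 0 < M) (h0 : ∀ b ∈ t, ∀ β, 0 ≤ X b β)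
    (h2 : ∀ b ∈ t, ex V (fun β => X b β ^ 2) ≤ C0)
    (hX : ∀ b ∈ t, ∀ B, B ⊆ S → X b B = X b (B ∩ V)) {g : Finset (ℂ × ℂ) → ℝ}
    (hg : ∀ B ∈ Ck S N k, g (jn N k B) ≤ ∑ b ∈ t, X b B) :
    ∑ J ∈ Omk N k, (if M < g J then g J else 0) ≤
      (Omk N k).card * ((t.card : ℝ) ^ 2 * C0 / M) := by
  have h4 := avg_free H h3 (k := k) hV hVS
    (g := fun J => if M < g J then g J else 0)
    (F := fun β => if M < ∑ b ∈ t, X b β then ∑ b ∈ t, X b β else 0)
    (fun B hB => by
      have e : ∑ b ∈ t, X b B = ∑ b ∈ t, X b (B ∩ V) :=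
        sum_congr rfl fun b hb => hX b hb B hB
      show (if M < ∑ b ∈ t, X b B then ∑ b ∈ t, X b B else 0) = _
      rw [e])
    (fun B hB => trunc_mono hM.le (hg B hB))
  exact h4.trans (mul_le_mul_of_nonneg_left (ex_big hM (fun b hb β _ => h0 b hb β) h2)
    (Nat.cast_nonneg _))

end Crest.Agent.R143.UIx136
end
end

-- ▼ part R143/NstB_700
section

/-!
# Row 143, leaf NST (helper700), part B: the steps of a leg around a box

`XB S z0 r β = 4 Σ_k KE S z0 r k β`.

* `circ_few` : a circuit of the square annulus with at most `XB` bichromatic oriented edges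
* `walk_cross` : a path of the walker from the inside to the outside of a closed chain uses an edge of it
* `leadsN_inj` : a leg visits every state at most once
* `steps_le` : the number of `l`-steps which start near `z0` is at most `XB`
-/

set_option autoImplicit false

noncomputable section

open scoped Classical

namespace Crest.Agent.R143.NstBx700

open Crest.Agent.R143.B0x346 Crest.Agent.R143.DelGx806 Crest.Agent.R143.DelRx806
open Crest.Agent.R143.ToolWx838 hiding dir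
open Crest.Agent.R143.Blkx838 Crest.Agent.R143.ToolW2x838
open Crest.Agent.R143.ToolW3x838 Crest.Agent.R143.Circ4x838 Crest.Agent.R143.Harx315
open Crest.Agent.R143.RB0x838 Crest.Agent.R143.CircPx838 Crest.Agent.R143.Gatex838
open Crest.Agent.R143.NstAx700
open Crest.Agent.R143.JWalkx872 Crest.Agent.R143.J1x872 Crest.Agent.R143.J4x872
  Crest.Agent.R143.XFx903 Crest.Agent.R143.EQE1x63

variable {S V : Finset ℂ} {z0 : ℂ} {r : ℝ}

/-- bound for the number of steps -/
def XB (S : Finset ℂ) (z0 : ℂ) (r : ℝ) (β : Finset ℂ) : ℕ := 4 * ∑ k : Fin 4, KE S z0 r k β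

/-- oriented bichromatic edges of a chain -/
def EB (β : Finset ℂ) (l : List ℂ) : Finset (ℂ × ℂ) :=
  ((prs l).filter fun p => decide (bic β p)).toFinset ∪
    (((prs l).filter fun p => decide (bic β p)).map Prod.swap).toFinset

theorem card_eb (β : Finset ℂ) (l : List ℂ) : (EB β l).card ≤ 4 * wt β l := by
  have h1 := (bic_le β l).1
  rw [List.countP_eq_length_filter] at h1
  have h2 := List.toFinset_card_le ((prs l).filter fun p => decide (bic β p))
  have h3 := List.toFinset_card_le (((prs l).filter fun p => decide (bic β p)).map Prod.swap)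
  rw [List.length_map] at h3
  have h4 : (EB β l).card ≤ _ := Finset.card_union_le _ _
  omega

theorem bic_swap {β : Finset ℂ} {p : ℂ × ℂ} : bic β p.swap ↔ bic β p := by
  unfold bic
  rw [Prod.fst_swap, Prod.snd_swap]
  tauto

theorem mem_eb {β : Finset ℂ} {l : List ℂ} {p : ℂ × ℂ} (h : p ∈ prs l ∨ p.swap ∈ prs l)
    (hb : bic β p) : p ∈ EB β l := by
  unfold EB
  rw [Finset.mem_union, List.mem_toFinset, List.mem_toFinset, List.mem_filter, List.mem_map]
  rcases h with h | h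
  · exact Or.inl ⟨h, by simpa using hb⟩
  · refine Or.inr ⟨p.swap, List.mem_filter.2 ⟨h, by simpa using bic_swap.2 hb⟩, Prod.swap_swap p⟩

/-- four chains give a circuit, with its edges -/
theorem circ_edges (hS : GP (S : Set ℂ)) (hr : 0 < r) {T L B R : List ℂ}
    (hT : Cross S (zc z0 r 0) (dir 0) (3 / 2 * r) (1 / 4 * r) S T)
    (hL : Cross S (zc z0 r 1) (dir 1) (3 / 2 * r) (1 / 4 * r) S L)
    (hB : Cross S (zc z0 r 2) (dir 2) (3 / 2 * r) (1 / 4 * r) S B)
    (hR : Cross S (zc z0 r 3) (dir 3) (3 / 2 * r) (1 / 4 * r) S R) :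
    ∃ c, CircC S z0 r S c ∧ ∀ p ∈ prs c, (p ∈ prs T ∨ p.swap ∈ prs T) ∨
      (p ∈ prs L ∨ p.swap ∈ prs L) ∨ (p ∈ prs B ∨ p.swap ∈ prs B) ∨
      (p ∈ prs R ∨ p.swap ∈ prs R) := by
  have aT := CE.ann hr hT
  have aL := CE.ann hr hL
  have aB := CE.ann hr hB
  have aR := CE.ann hr hR
  have hTs := hT.strip
  have hLs := hL.strip
  have hBs := hB.strip
  have hRs := hR.strip
  have hT1 := hT.left
  have hT2 := hT.right
  have hL1 := hL.left
  have hL2 := hL.right
  have hB1 := hB.left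
  have hB2 := hB.right
  have hR1 := hR.left
  have hR2 := hR.right
  simp only [zc, dir, div_one, div_I_re, div_I_im, Complex.sub_re, Complex.sub_im, Complex.add_re,
    Complex.add_im, Complex.mul_re, Complex.mul_im, Complex.ofReal_re, Complex.ofReal_im,
    Complex.I_re, Complex.I_im, mul_zero, mul_one, zero_mul, sub_zero, add_zero, zero_add,
    abs_lt] at hTs hLs hBs hRs hT1 hT2 hL1 hL2 hB1 hB2 hR1 hR2
  obtain ⟨c, hc, hl⟩ := circuit (ρ := 3 / 2 * r) (r := r) (z0 := z0) hS (by linarith) hT.ne hL.ne hB.ne hR.ne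
    hT.adj hL.adj hB.adj hR.adj (fun s hs => ⟨by linarith [hTs s hs], by linarith [hTs s hs]⟩)
    (fun s hs => ⟨by linarith [hLs s hs], by linarith [hLs s hs]⟩)
    (fun s hs => ⟨by linarith [hBs s hs], by linarith [hBs s hs]⟩)
    (fun s hs => ⟨by linarith [hRs s hs], by linarith [hRs s hs]⟩)
    (by linarith) (by linarith) (by linarith) (by linarith) (by linarith) (by linarith)
    (by linarith) (by linarith)
  have hall : ∀ s ∈ c, s ∈ S ∧ r < sup (s - z0) ∧ sup (s - z0) < 2 * r := by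
    intro s hs
    rcases hc.mem s hs with h | h | h | h
    · exact ⟨hT.col s h, aT s h⟩
    · exact ⟨hL.col s h, aL s h⟩
    · exact ⟨hB.col s h, aB s h⟩
    · exact ⟨hR.col s h, aR s h⟩
  refine ⟨c, ⟨hl, ?_, fun s hs => (hall s hs).1, fun s hs => (hall s hs).2.1,
    fun s hs => (hall s hs).2.2, fun z hz => ?_⟩, hc.prs⟩
  · rintro rfl
    have := hc.wind z0 (by simp; exact hr.le) (by simp; exact hr.le)
    simp [asum] at this
  · unfold sup at hz
    rw [max_le_iff, Complex.sub_re, Complex.sub_im] at hz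
    exact hc.wind z hz.1 hz.2

/-- **a circuit with few bichromatic edges** -/
theorem circ_few (hS : GP (S : Set ℂ)) (hr : 0 < r)
    (h : ∀ k : Fin 4, ∃ l, Cross S (zc z0 r k) (dir k) (3 / 2 * r) (1 / 4 * r) S l)
    (β : Finset ℂ) : ∃ c, CircC S z0 r S c ∧ ∃ E : Finset (ℂ × ℂ), E.card ≤ XB S z0 r β ∧
      ∀ p, ¬ Avoid c p → bic β p → p ∈ E := by
  have key : ∀ k : Fin 4, ∃ l, Cross S (zc z0 r k) (dir k) (3 / 2 * r) (1 / 4 * r) S l ∧
      wt β l = KE S z0 r k β := by
    intro k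
    obtain ⟨l, hl⟩ := h k
    obtain ⟨m, hm, e⟩ := kk_spec (β := β) ⟨l, (pe_iff.2 hl : PE S z0 r k l)⟩
    exact ⟨m, pe_iff.1 hm, e⟩
  obtain ⟨T, hT, eT⟩ := key 0
  obtain ⟨L, hL, eL⟩ := key 1
  obtain ⟨B, hB, eB⟩ := key 2
  obtain ⟨R, hR, eR⟩ := key 3
  obtain ⟨c, hc, hp⟩ := circ_edges hS hr hT hL hB hR
  refine ⟨c, hc, EB β T ∪ EB β L ∪ EB β B ∪ EB β R, ?_, ?_⟩
  · have h1 := card_eb β T
    have h2 := card_eb β L
    have h3 := card_eb β B
    have h4 := card_eb β R
    have u1 := Finset.card_union_le (EB β T ∪ EB β L ∪ EB β B) (EB β R)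
    have u2 := Finset.card_union_le (EB β T ∪ EB β L) (EB β B)
    have u3 := Finset.card_union_le (EB β T) (EB β L)
    unfold XB
    rw [Fin.sum_univ_four, ← eT, ← eL, ← eB, ← eR]
    omega
  · intro p hav hb
    have hav' : p ∈ prs c ∨ p.swap ∈ prs c := by
      unfold Avoid at hav
      by_contra hcon
      push Not at hcon
      exact hav hcon
    have key2 : ∀ q : ℂ × ℂ, q ∈ prs c → bic β q → q ∈ EB β T ∪ EB β L ∪ EB β B ∪ EB β R ∧
        q.swap ∈ EB β T ∪ EB β L ∪ EB β B ∪ EB β R := by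
      intro q hq hb
      have hb' : bic β q.swap := bic_swap.2 hb
      have hor : ∀ {l : List ℂ}, (q ∈ prs l ∨ q.swap ∈ prs l) →
          (q.swap ∈ prs l ∨ q.swap.swap ∈ prs l) := fun h => by
        rw [Prod.swap_swap]; exact h.symm
      simp only [Finset.mem_union]
      rcases hp q hq with h | h | h | h
      · exact ⟨Or.inl (Or.inl (Or.inl (mem_eb h hb))),
          Or.inl (Or.inl (Or.inl (mem_eb (hor h) hb')))⟩
      · exact ⟨Or.inl (Or.inl (Or.inr (mem_eb h hb))),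
          Or.inl (Or.inl (Or.inr (mem_eb (hor h) hb')))⟩
      · exact ⟨Or.inl (Or.inr (mem_eb h hb)), Or.inl (Or.inr (mem_eb (hor h) hb'))⟩
      · exact ⟨Or.inr (mem_eb h hb), Or.inr (mem_eb (hor h) hb')⟩
    rcases hav' with h | h
    · exact (key2 p h hb).1
    · have := (key2 p.swap h (bic_swap.2 hb)).2
      rwa [Prod.swap_swap] at this

/-! ### paths of the walker -/

section walk

variable {G : Trg ℂ} {kl : Set (ℂ × ℂ)} {O : Set (ℂ × ℂ × ℂ)} {D : Set (ℂ × ℂ)}
  {J : Finset (ℂ × ℂ)} {c : List ℂ}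

/-- a path from the inside to the outside of `c` has a state where the total angle changes -/
theorem walk_cross (hS : GP (S : Set ℂ)) (hG : G.T = delT S) :
    ∀ (M : List ((ℂ × ℂ) × (ℂ × ℂ))) (p q : ℂ × ℂ), Fol G O D J p M q →
    AL S c p ≠ 0 → AL S c q.swap = 0 → M ≠ [] → ∃ a ∈ M, AL S c a.1 ≠ AL S c a.1.swap := by
  intro M
  induction M with
  | nil => intro p q _ _ _ h; exact absurd rfl h
  | cons a M ih =>
    rintro p q ⟨h1, m, h2, h3, h4⟩ hp hq _
    have h5 : AL S c m.swap = AL S c p := al_step hS hG h3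
    rcases M with _ | ⟨b, M⟩
    · change m = q at h4
      rw [h4, hq] at h5
      exact absurd h5.symm hp
    · by_cases h6 : AL S c m = 0
      · have hb : b.1 = m := h4.1
        refine ⟨b, by simp, ?_⟩
        rw [hb, h6, h5]
        exact fun h => hp h.symm
      · obtain ⟨x, hx, h7⟩ := ih m q h4 h6 hq (by simp)
        exact ⟨x, List.mem_cons_of_mem _ hx, h7⟩






end walk

end Crest.Agent.R143.NstBx700
end
end

-- ▼ part R143/NstC_700
section

/-!
# Row 143, leaf NST (helper700), part C: the number of `l`-steps which start in a box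

* `steps_le` : the number of the states `xs N l J j` (helper377) with tip near `b` is at most `XB`
* `nst_t : NSTt` : with the functionals `KE` and their geometric tails
* `nst : NST` : the form of helper139 (37005)
-/

set_option autoImplicit false

noncomputable section

open scoped Classical

namespace Crest.Agent.R143.NstCx700

open Crest.Agent.R143.B0x346 Crest.Agent.R143.DelGx806 Crest.Agent.R143.DelRx806
open Crest.Agent.R143.ToolWx838 hiding dir
open Crest.Agent.R143.Blkx838 Crest.Agent.R143.ToolW2x838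
open Crest.Agent.R143.ToolW3x838 Crest.Agent.R143.Circ4x838 Crest.Agent.R143.Harx315
open Crest.Agent.R143.RB0x838 Crest.Agent.R143.CircPx838 Crest.Agent.R143.Gatex838
open Crest.Agent.R143.RBmx838 Crest.Agent.R143.JColx54
open Crest.Agent.R143.NstAx700 Crest.Agent.R143.NstBx700
open Crest.Agent.R143.JWalkx872 Crest.Agent.R143.J1x872 Crest.Agent.R143.J4x872
  Crest.Agent.R143.XFx903 Crest.Agent.R143.EQE1x63
open Crest.Agent.R143.Mabx377 (xs D2 Om xs_step xs_fol fol_norep ex0_mem)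
open Crest.Agent.R143.LawOmx139 (Ck jn jn_occ jn_mem Omk)

variable {S V : Finset ℂ} {N : Net ℂ} {b : ℂ} {r d l R : ℝ}

theorem mid_sub (p : ℂ × ℂ) (z : ℂ) : ‖mid p - z‖ ≤ (‖p.1 - z‖ + ‖p.2 - z‖) / 2 := by
  have e : mid p - z = ((p.1 - z) + (p.2 - z)) / 2 := by unfold mid; ring
  rw [e, norm_div, Complex.norm_ofNat]
  exact div_le_div_of_nonneg_right (norm_add_le _ _) (by norm_num)

theorem mid_sw (p : ℂ × ℂ) : mid (sw p) = mid p := by unfold mid sw; ring

theorem mid_seg (p : ℂ × ℂ) : mid p ∈ segment ℝ p.1 p.2 := by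
  refine ⟨1 / 2, 1 / 2, by norm_num, by norm_num, by norm_num, ?_⟩
  unfold mid
  rw [Complex.real_smul, Complex.real_smul]
  push_cast
  ring

/-- the triangle of a centroid near `b` is small -/
theorem gc_small (hD : LDns S b R d) {t : ℂ × ℂ × ℂ} (ht : t ∈ delT S) {ρ : ℝ} (hρ : ρ + d ≤ R)
    (h : ‖gc t - b‖ ≤ ρ) : ‖t.1 - gc t‖ < 2 * d ∧ ‖t.2.1 - gc t‖ < 2 * d ∧ ‖t.2.2 - gc t‖ < 2 * d := by
  obtain ⟨x, y, z⟩ := t
  have hH := hol_ldns hD hρ
  have hw : gc (x, y, z) ∈ Metric.closedBall b ρ := by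
    rw [Metric.mem_closedBall, dist_eq_norm]; exact h
  have hpos := B1gx991.tri_pos ht
  have hin := gc_in ht
  obtain ⟨o, -, -, -, -, -, g1, g2, g3⟩ := Locx922.del_small hD.dpos hH hw
    (Locx922.InT.inD hpos (⟨le_of_lt hin.1, le_of_lt hin.2.1, le_of_lt hin.2.2⟩)) (mem_delT.1 ht)
  exact ⟨g1, g2, g3⟩

variable {c : List ℂ} {β : Finset ℂ}

/-- the total angle ahead of a state near the centre -/
theorem al_near (hc : CircC S b r β c) (hD : LDns S b R d) {p : ℂ × ℂ} {x : ℂ}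
    (hx : (p.1, p.2, x) ∈ delT S) (hp : ‖mid p - b‖ ≤ r / 2) (hd : 8 * d ≤ r)
    (hR : 2 * r ≤ R) : AL S c p = 2 * Real.pi := by
  have hd0 := hD.dpos
  have hS := hD.gp
  have hr : 0 < r := by linarith
  have hadj : Adj S p.1 p.2 := Or.inl ⟨x, hx⟩
  obtain ⟨h1, h2⟩ := Gax950.adj_seg hD (ρ := r) (by linarith) hadj (mid_seg p) (by linarith)
  have h3 : ‖p.1 - b‖ < r / 2 + 2 * d := by
    have e : p.1 - b = (p.1 - mid p) + (mid p - b) := by ring
    rw [e]
    exact (norm_add_le _ _).trans_lt (by linarith)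
  have h4 : ‖p.2 - b‖ < r / 2 + 2 * d := by
    have e : p.2 - b = (p.2 - mid p) + (mid p - b) := by ring
    rw [e]
    exact (norm_add_le _ _).trans_lt (by linarith)
  obtain ⟨-, h5, -⟩ := GapIx877.tri_small hD hx (by linarith)
  have h6 : ‖x - b‖ < r := by
    have e : x - b = (x - p.1) + (p.1 - b) := by ring
    rw [e]
    exact (norm_add_le _ _).trans_lt (by linarith)
  have h7 : ‖gc (p.1, p.2, x) - b‖ < r := gc_near ⟨by simp only; linarith, by simp only; linarith, h6⟩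
  have e : AL S c p = AL S c (p.1, p.2) := rfl
  rw [e, al_tri hS hx]
  exact hc.wind _ ((sup_le_norm _).trans h7.le)

/-- the total angle behind a state far from the centre -/
theorem al_far (hc : CircC S b r β c) (hD : LDns S b R d) {p : ℂ × ℂ}
    (hp : 4 * r + 2 * d ≤ ‖mid p - b‖) (hR : 4 * r + d ≤ R) : AL S c p.swap = 0 := by
  have hd0 := hD.dpos
  have hS := hD.gp
  by_cases hx : ∃ x, (p.2, p.1, x) ∈ delT S
  · obtain ⟨x, hx⟩ := hx
    have e : AL S c p.swap = AL S c (p.2, p.1) := rfl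
    rw [e, al_tri hS hx]
    refine hc.out ?_
    by_contra hcon
    push Not at hcon
    have h1 : ‖gc (p.2, p.1, x) - b‖ ≤ 4 * r := by
      have := norm_le_sup (gc (p.2, p.1, x) - b)
      linarith
    obtain ⟨h2, h3, -⟩ := gc_small hD hx (by linarith) h1
    have h4 := mid_sub p (gc (p.2, p.1, x))
    have h5 : ‖mid p - b‖ ≤ ‖mid p - gc (p.2, p.1, x)‖ + ‖gc (p.2, p.1, x) - b‖ := by
      have e : mid p - b = (mid p - gc (p.2, p.1, x)) + (gc (p.2, p.1, x) - b) := by ring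
      rw [e]
      exact norm_add_le _ _
    have h2' : ‖p.2 - gc (p.2, p.1, x)‖ < 2 * d := h2
    have h3' : ‖p.1 - gc (p.2, p.1, x)‖ < 2 * d := h3
    linarith
  · push Not at hx
    exact al_none hx

/-- the total angle at a mark -/
theorem al_mark (H : HNet S N) (hc : CircC S b r β c) (hcS : ∀ s ∈ c, s ∈ S) {k : ZMod 3}
    (hav : Avoid c (N.ex k)) : AL S c (N.ex k) = 0 := by
  have hh := H.hex k
  obtain ⟨x, hx⟩ := hh.1
  have e : AL S c (N.ex k) = AL S c ((N.ex k).1, (N.ex k).2) := rfl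
  rw [e, al_tri H.gp hx, asum_open_mid H.gp hc.loop hx (gc_in hx) hav]
  exact asum_hull H.gp hc.loop hcS hh hav

/-- later paths extend earlier ones -/
theorem xs_prefix (hg : Good N) (hl : 0 < l) {J : Finset (ℂ × ℂ)} (hJ : J ∈ Om N) (i : ℕ) :
    ∀ j, i ≤ j → ∃ M, (xs N l J j).1 = (xs N l J i).1 ++ M := by
  intro j hij
  induction j, hij using Nat.le_induction with
  | base => exact ⟨[], by simp⟩
  | succ j _ ih =>
    obtain ⟨M, hM⟩ := ih
    obtain ⟨L, hL, -⟩ := xs_step hg hl hJ j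
    exact ⟨M ++ L, by rw [hL, hM, List.append_assoc]⟩

/-- a followed path crosses triangles -/
theorem fol_de {G : Trg ℂ} {O : Set (ℂ × ℂ × ℂ)} {D : Set (ℂ × ℂ)} {J : Finset (ℂ × ℂ)}
    (hG : G.T = delT S) : ∀ (L : List ((ℂ × ℂ) × (ℂ × ℂ))) (p q : ℂ × ℂ), Fol G O D J p L q →
    ∀ a ∈ L, DE S a.1.1 a.1.2 := by
  intro L
  induction L with
  | nil => intro p q _ a ha; simp at ha
  | cons a L ih =>
    rintro p q ⟨h1, m, ⟨x, hx, _⟩, h3, h4⟩ y hy
    rcases List.mem_cons.1 hy with rfl | hy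
    · rw [h1]
      exact Or.inl ⟨x, hG ▸ hx⟩
    · exact ih m q h4 y hy

theorem fol_occ {G : Trg ℂ} {kl : Set (ℂ × ℂ)} {O : Set (ℂ × ℂ × ℂ)} {D : Set (ℂ × ℂ)}
    {J : Finset (ℂ × ℂ)} (hJ : IsJoin G kl O D J) :
    ∀ (L : List ((ℂ × ℂ) × (ℂ × ℂ))) (p q : ℂ × ℂ), (p ∈ J ∨ sw p ∈ D) → Fol G O D J p L q →
    ∀ a ∈ L, a.1 ∈ J := by
  intro L
  induction L with
  | nil => intro p q _ _ a ha; simp at ha
  | cons a L ih =>
    rintro p q hp ⟨h1, m, h2, h3, h4⟩ y hy
    rcases List.mem_cons.1 hy with rfl | hy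
    · rw [h1]
      rcases hp with hp | hp
      · exact hp
      · exact absurd hp (step_pre h3)
    · exact ih m q (step_mem hJ h3) h4 y hy

/-- **the number of `l`-steps which start near `b` is at most `XB`** -/
theorem steps_le (H : HNet S N) (hl : 0 < l) (hr : 0 < r) (hlr : 5 * r ≤ l) (hd : 8 * d ≤ r)
    (hD : LDns S b R d) (hR : 5 * r ≤ R)
    (hex : ∀ a x : ℂ, ‖a - b‖ < R → ¬ hullE S a x ∧ ¬ hullE S x a)
    (hC : ∀ k : Fin 4, ∃ l, Cross S (zc b r k) (CircPx838.dir k) (3 / 2 * r) (1 / 4 * r) S l)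
    {B : Finset ℂ} (hB : B ∈ Ck S N 2) (A : Finset ℕ)
    (hA : ∀ j ∈ A, ‖mid (xs N l (jn N 2 B) j).2 - b‖ ≤ r / 2) : A.card ≤ XB S b r B := by
  have hS := H.gp
  have hg := good_of_hnet H
  have hd0 := hD.dpos
  set J := jn N 2 B with hJdef
  have hJ : J ∈ Om N := jn_mem H hB
  have hJ' : IsJoin N.toTrg N.kl ∅ (D2 N) J := JCardx872.mem_joins.1 hJ
  obtain ⟨c, hc, E, hE, hEm⟩ := circ_few hS hr hC B
  have hcS : ∀ s ∈ c, s ∈ S := hc.col
  have hav : ∀ k, Avoid c (N.ex k) := by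
    intro k
    have hh := H.hex k
    have key : ∀ p ∈ prs c, ¬ hullE S p.1 p.2 ∧ ¬ hullE S p.2 p.1 := by
      intro p hp
      refine hex p.1 p.2 ?_
      have h1 := hc.up _ (mem_of_prs hp).1
      have h2 := norm_le_sup (p.1 - b)
      linarith
    exact ⟨fun h => (key _ h).1 hh, fun h => (key _ h).2 hh⟩
  have hal : ∀ k, AL S c (N.ex k) = 0 := fun k => al_mark H hc hcS (hav k)
  have hfar : ∀ k, 5 * r - d < ‖mid (N.ex k) - b‖ := fun k =>
    mark_far H hD (by linarith) k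
  have hend : ∀ q : ℂ × ℂ, sw q ∈ D2 N → ∃ k, sw q = N.ex k := by
    rintro q ⟨⟨k, hk⟩, -⟩
    exact ⟨k, hk.symm⟩
  -- the crossing state of the step `j`
  have key : ∀ j ∈ A, ∃ s, s ∈ E ∧ ∃ L'', (xs N l J (j + 1)).1 = (xs N l J j).1 ++ L'' ∧
      Fol N.toTrg ∅ (D2 N) J (xs N l J j).2 L'' (xs N l J (j + 1)).2 ∧ ∃ a ∈ L'', a.1 = s := by
    intro j hj
    have hq := hA j hj
    set q := (xs N l J j).2 with hqdef
    obtain ⟨L'', e1, e2, -, e4⟩ := xs_step hg hl hJ j
    rw [← hqdef] at e2 e4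
    have hqn : sw q ∉ D2 N := by
      intro h
      obtain ⟨k, hk⟩ := hend q h
      have h1 := hfar k
      rw [← hk, mid_sw] at h1
      linarith
    have hqJ : q ∈ J := by
      rcases leads_mem hJ' (hJ'.mark _ _ (ex0_mem N hg)).1
        (fol_leads _ _ _ (xs_fol (l := l) hg hJ j)) with h | h
      · exact h
      · exact absurd h hqn
    obtain ⟨x, hx⟩ := occ_tri hJ' hqJ
    rw [H.tri] at hx
    have a1 : AL S c q ≠ 0 := by
      rw [al_near hc hD hx hq hd (by linarith)]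
      exact (by positivity : (0 : ℝ) < 2 * Real.pi).ne'
    have a2 : AL S c (xs N l J (j + 1)).2.swap = 0 := by
      rcases e4 with e4 | e4
      · refine al_far hc hD ?_ (by linarith)
        rw [dist_eq_norm] at e4
        have e : mid (xs N l J (j + 1)).2 - mid q = (mid (xs N l J (j + 1)).2 - b) - (mid q - b) := by
          ring
        rw [e] at e4
        have := norm_sub_le (mid (xs N l J (j + 1)).2 - b) (mid q - b)
        linarith
      · obtain ⟨k, hk⟩ := hend _ e4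
        have e : (xs N l J (j + 1)).2.swap = N.ex k := hk
        rw [e]
        exact hal k
    have a3 : L'' ≠ [] := by
      rintro rfl
      have e5 : q = (xs N l J (j + 1)).2 := e2
      rw [← e5] at e4
      rcases e4 with e4 | e4
      · rw [dist_self] at e4
        linarith
      · exact hqn e4
    obtain ⟨a, ha, ha'⟩ := walk_cross hS H.tri L'' q _ e2 a1 a2 a3
    have hde := fol_de H.tri L'' _ _ e2 a ha
    have hocc : a.1 ∈ J := fol_occ hJ' L'' _ _ (Or.inl hqJ) e2 a ha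
    refine ⟨a.1, hEm _ ?_ ?_, L'', e1, e2, a, ha, rfl⟩
    · intro hv
      exact ha' (al_swap hS hc.loop hcS hde hv)
    · have h1 := (jn_occ H (k := 2) (B := B) (a := a.1.1) (b := a.1.2) hde).1 (Or.inl hocc)
      unfold bic
      tauto
  choose! s hs1 hs2 using key
  refine le_trans (Finset.card_le_card_of_injOn s hs1 ?_) hE
  -- injectivity
  have hlt : ∀ i ∈ A, ∀ j ∈ A, i < j → s i ≠ s j := by
    intro i hi j hj hij h
    obtain ⟨L1, e1, -, a1, m1, f1⟩ := hs2 i hi
    obtain ⟨L2, e2, g2, a2, m2, f2⟩ := hs2 j hj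
    obtain ⟨M, hM⟩ := xs_prefix hg hl hJ (i + 1) j hij
    have hn := (fol_norep hJ' rotInv_empty (ex0_mem N hg) (xs_fol (l := l) hg hJ j) g2).2
    refine hn a1 ?_ a2 m2 ?_
    · rw [hM, e1]
      simp [m1]
    · rw [f1, f2, h]
  intro i hi j hj h
  rcases lt_trichotomy i j with h1 | h1 | h1
  · exact absurd h (hlt i hi j hj h1)
  · exact h1
  · exact absurd h.symm (hlt j hj i hi h1)

/-! ### the law -/

open Crest.Agent.R143.XW1x315

/-- expectation from a geometric tail -/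
theorem ex_geo {V : Finset ℂ} {f : Finset ℂ → ℕ} {p : ℝ} (hp : 0 < p) (hp1 : p ≤ 1)
    (h : ∀ k : ℕ, pr V (fun β => k ≤ f β) ≤ (1 - p) ^ k) : ex V (fun β => (f β : ℝ)) ≤ 4 / p ^ 2 := by
  have hx : (1 + p / 2) * (1 - p) < 1 := by nlinarith
  have h1 := ex_pow_le (x := 1 + p / 2) (by linarith) (by linarith) hx h
  have h2 : ex V (fun β => (f β : ℝ)) ≤ 2 / p * ex V (fun β => (1 + p / 2) ^ f β) := by
    rw [← ex_mul_const]
    refine ex_mono fun β _ => ?_
    have h3 := one_add_mul_le_pow (a := p / 2) (by linarith) (f β)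
    rw [div_mul_eq_mul_div, le_div_iff₀ hp]
    nlinarith
  have h4 : 1 / (1 - (1 + p / 2) * (1 - p)) ≤ 2 / p := by
    rw [div_le_div_iff₀ (by linarith) hp]
    nlinarith
  calc ex V (fun β => (f β : ℝ)) ≤ 2 / p * ex V (fun β => (1 + p / 2) ^ f β) := h2
    _ ≤ 2 / p * (2 / p) := mul_le_mul_of_nonneg_left (h1.trans h4) (by positivity)
    _ = 4 / p ^ 2 := by ring

/-- helper139's form -/
def NST : Prop := ∀ C4 : ℝ, 0 ≤ C4 → ∃ C0 c1 c2 K : ℝ, 0 < c1 ∧ 0 < c2 ∧ c2 ≤ 1 ∧ 1 ≤ K ∧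
  ∀ (S : Finset ℂ) (b : ℂ) (d l : ℝ), 0 < l → LDns S b (K * l) d →
  (∀ x : ℝ, c2 * l ≤ x → x ≤ l → Mesh S b (K * l) x C4) → d ≤ c1 * l →
  ∃ X : Finset ℂ → ℝ, (∀ B, 0 ≤ X B) ∧ (∀ B, X B = X (B.filter fun s => ‖s - b‖ < l)) ∧
    (∀ V : Finset ℂ, V ⊆ S → (∀ s ∈ S, ‖s - b‖ < l → s ∈ V) → ex V X ≤ C0) ∧
    ∀ N : Net ℂ, HNet S N → (∀ a x : ℂ, ‖a - b‖ < K * l → (a, x) ∉ N.kl ∧ ¬ hullE S a x ∧
      ¬ hullE S x a) → ∀ B ∈ Ck S N 2, ∀ m : ℕ,
      (((Finset.range m).filter fun j => ‖mid (xs N l (jn N 2 B) j).2 - b‖ ≤ l / 10).card : ℝ) ≤ X B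

/-- the same with the four functionals and their tails -/
def NSTt : Prop := ∀ C4 : ℝ, 0 ≤ C4 → ∃ p c1 c2 K : ℝ, 0 < p ∧ p ≤ 1 ∧ 0 < c1 ∧ 0 < c2 ∧ c2 ≤ 1 ∧
  1 ≤ K ∧ ∀ (S : Finset ℂ) (b : ℂ) (d l : ℝ), 0 < l → LDns S b (K * l) d →
  (∀ x : ℝ, c2 * l ≤ x → x ≤ l → Mesh S b (K * l) x C4) → d ≤ c1 * l →
    (∀ (k : Fin 4) (B : Finset ℂ),
      KE S b (l / 5) k B = KE S b (l / 5) k (B.filter fun s => ‖s - b‖ < l)) ∧
    (∀ V : Finset ℂ, V ⊆ S → (∀ s ∈ S, ‖s - b‖ < l → s ∈ V) → ∀ (k : Fin 4) (j : ℕ),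
      pr V (fun B => j ≤ KE S b (l / 5) k B) ≤ (1 - p) ^ j) ∧
    ∀ N : Net ℂ, HNet S N → (∀ a x : ℂ, ‖a - b‖ < K * l → (a, x) ∉ N.kl ∧ ¬ hullE S a x ∧
      ¬ hullE S x a) → ∀ B ∈ Ck S N 2, ∀ A : Finset ℕ,
      (∀ j ∈ A, ‖mid (xs N l (jn N 2 B) j).2 - b‖ ≤ l / 10) →
      A.card ≤ 4 * ∑ k : Fin 4, KE S b (l / 5) k B

theorem nst_t : NSTt := by
  intro C4 hC4
  obtain ⟨p, c1, c2, K, hp, hp1, hc1, hc2, hc2', hK, h⟩ := ke_tail RBEx723.rbm C4 hC4
  refine ⟨p, min (c1 / 5) (1 / 40), c2 / 5, K / 5 + 1, hp, hp1, by positivity, by positivity,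
    by linarith, by linarith [hK], ?_⟩
  intro S b d l hl hD hM hd
  have hr : 0 < l / 5 := by positivity
  have hKl : K * (l / 5) ≤ (K / 5 + 1) * l := by nlinarith
  have hd1 : d ≤ c1 * (l / 5) := by
    have := hd.trans (mul_le_mul_of_nonneg_right (min_le_left _ _) hl.le)
    linarith
  have hd2 : 8 * d ≤ l / 5 := by
    have := hd.trans (mul_le_mul_of_nonneg_right (min_le_right _ _) hl.le)
    linarith
  have hD' : LDns S b (K * (l / 5)) d := LDns.mono hD hKl
  have hM' : MeshA S b (K * (l / 5)) c2 (l / 5) C4 := by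
    intro x hx1 hx2
    refine mesh_shift (hM x (by linarith) (by linarith)) ?_
    rw [sub_self, norm_zero]
    linarith
  obtain ⟨hC, hT⟩ := h S b (l / 5) d hr hD' hM' hd1
  have hreg : ∀ s : ℂ, sup (s - b) < 2 * (l / 5) → ‖s - b‖ < l := by
    intro s hs
    have := norm_le_sup (s - b)
    linarith
  refine ⟨fun k B => ke_congr hr fun s _ _ hs => ?_, fun V hV hVs k j => ?_, ?_⟩
  · rw [Finset.mem_filter]
    exact ⟨fun h => ⟨h, hreg s hs⟩, fun h => h.1⟩
  · exact hT V hV (fun s hs _ h2 => hVs s hs (hreg s h2)) k j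
  · intro N H hN B hB A hA
    exact steps_le (l := l) H hl hr (by linarith) hd2 hD (by nlinarith)
      (fun a x ha => (hN a x ha).2) hC hB A fun j hj => (hA j hj).trans (by linarith)


end Crest.Agent.R143.NstCx700
end
end

-- ▼ part R143/XW2_315
section

/-!
# R143, block X, winding tail XW (helper315), part 2: branches of the argument

* `label_bound2` : the label bound when the jumps are at the edges with an end in `Z`
* `Lf q l` : branch of the argument of `-(z - x) / q` outside the polygon `l` (first vertex `x`)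
  and the final ray in the direction `q`; `Lf_ang`, `abs_Lf_le`
* `lf_edge` : the angle of a Delaunay edge whose two cells do not meet the cut
-/
namespace Crest.Agent.R143.XW2x315
end Crest.Agent.R143.XW2x315
end

-- ▼ part R143/XW3_315
section

/-!
# R143, block X, winding tail XW (helper315), part 3: gauge, flips, clusters

* `JF S J a b` : Delaunay edge which is not occupied by `J`
* `gauge` : in a half plane seen from the odd triangle, a join is the boundary of a colouring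
* `Fr S N v` : free site; `bd S β` : boundary edges of `β`; `flip_mem` : `J xor bd β` is a join
* `sum_ex` : the sum over the joins is invariant under a fair colouring of free sites
* `NJ_le` : number of crossing `J`-free clusters in a half plane
* `sum_prod_le` : exponential moment of the numbers of crossing clusters of disjoint regions
-/

set_option autoImplicit false

noncomputable section

open scoped Classical

namespace Crest.Agent.R143.XW3x315

open Finset
open Crest.Agent.R143.B0x346 Crest.Agent.R143.DelGx806 Crest.Agent.R143.DelRx806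
open Crest.Agent.R143.B0Dx346 Crest.Agent.R143.JColx54 Crest.Agent.R143.JCol2x54
open Crest.Agent.R143.JCardx872 Crest.Agent.R143.Planarx54 Crest.Agent.R143.Planar2x54
open Crest.Agent.R143.Harx315 Crest.Agent.R143.XW1x315

variable {S : Finset ℂ} {G : Trg ℂ} {kl : Set (ℂ × ℂ)} {D : Set (ℂ × ℂ)} {J : Finset (ℂ × ℂ)}
  {t : ℂ × ℂ × ℂ} {x : ℂ}

/-- occupied edge -/
def occ (J : Finset (ℂ × ℂ)) (a b : ℂ) : Prop := (a, b) ∈ J ∨ (b, a) ∈ J

theorem occ_symm {a b : ℂ} : occ J a b ↔ occ J b a := or_comm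

/-- empty Delaunay edge -/
def JF (S : Finset ℂ) (J : Finset (ℂ × ℂ)) (a b : ℂ) : Prop := Adj S a b ∧ ¬ occ J a b

theorem JF.symm {a b : ℂ} (h : JF S J a b) : JF S J b a :=
  ⟨h.1.symm, fun h' => h.2 (occ_symm.1 h')⟩

/-! ### gauge -/

/-- the integer part of the angle of an edge, with respect to the cut opposite to `e` -/
def nn (e x a b : ℂ) : ℤ := round ((ang x a b - (L e x b - L e x a)) / (2 * Real.pi))







/-! ### free sites and flips -/

/-- free site: no killed edge, no hull edge -/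
def Fr (S : Finset ℂ) (N : Net ℂ) (v : ℂ) : Prop := ∀ b, Adj S v b →
  (v, b) ∉ N.kl ∧ (b, v) ∉ N.kl ∧ ¬ hullE S v b ∧ ¬ hullE S b v

/-- the boundary edges of `β` -/
def bd (S : Finset ℂ) (β : Finset ℂ) : Finset (ℂ × ℂ) :=
  (S ×ˢ S).filter fun p => Adj S p.1 p.2 ∧ (p.1 ∈ β ↔ p.2 ∉ β)







variable {N : Net ℂ}






/-! ### crossing clusters -/


variable {V T : Finset ℂ} {q o : Set ℂ}





end Crest.Agent.R143.XW3x315
end
end

-- ▼ part R143/XW4_315
section

/-!
# R143, block X, winding tail XW (helper315), part 4: abstract winding bound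

* `Reg` : a region in a half plane seen from `x`, with its free sites, whose other sites are
  connected by empty edges
* `lab_count` : number of the components of reachable sites of a region
* `wind_le` : deterministic bound of the rotation
* `wind_exp` : exponential moment of the rotation
-/

set_option autoImplicit false

noncomputable section

open scoped Classical

namespace Crest.Agent.R143.XW4x315

open Finset
open Crest.Agent.R143.B0x346 Crest.Agent.R143.DelGx806 Crest.Agent.R143.DelRx806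
open Crest.Agent.R143.B0Dx346 Crest.Agent.R143.JColx54 Crest.Agent.R143.JCol2x54
open Crest.Agent.R143.JCardx872 Crest.Agent.R143.JWalkx872
open Crest.Agent.R143.Planarx54 Crest.Agent.R143.Planar2x54
open Crest.Agent.R143.Harx315 Crest.Agent.R143.XW1x315 Crest.Agent.R143.XW2x315
open Crest.Agent.R143.XW3x315

variable {S : Finset ℂ} {N : Net ℂ} {J : Finset (ℂ × ℂ)} {t : ℂ × ℂ × ℂ} {x : ℂ}

/-- empty edges inside `Q` -/
def JFQ (S : Finset ℂ) (J : Finset (ℂ × ℂ)) (Q : Set ℂ) (a b : ℂ) : Prop :=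
  JF S J a b ∧ a ∈ Q ∧ b ∈ Q

theorem JFQ.symm {Q : Set ℂ} {a b : ℂ} (h : JFQ S J Q a b) : JFQ S J Q b a :=
  ⟨h.1.symm, h.2.2, h.2.1⟩



/-- component in `Q` -/
def comp (S : Finset ℂ) (J : Finset (ℂ × ℂ)) (Q : Set ℂ) (a : ℂ) : Finset ℂ :=
  S.filter fun b => Relation.ReflTransGen (JFQ S J Q) a b



/-- a region -/
structure Reg (S : Finset ℂ) (N : Net ℂ) (t : ℂ × ℂ × ℂ) (x : ℂ) (q Q Qp : Set ℂ)
    (V : Finset ℂ) : Prop where
  qQ : q ⊆ Q
  QQp : ∀ a ∈ S, a ∈ Q → a ∈ Qp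
  hp : ∃ e : ℂ, e ≠ 0 ∧ ∀ a ∈ S, a ∈ Qp → HP e x a
  start : t.2.1 ∉ Q
  VS : ∀ a ∈ V, a ∈ S ∧ a ∈ Qp ∧ Fr S N a
  wall : ∀ J ∈ N.tj t, ∀ a ∈ S, a ∈ Q → a ∉ V → ∀ b ∈ S, b ∈ Q → b ∉ V →
    Relation.ReflTransGen (JFQ S J Qp) a b


variable {q Q Qp : Set ℂ} {V : Finset ℂ}



/-! ### the deterministic bound -/





variable {ι : Type*}


/-! ### the exponential moment -/



end Crest.Agent.R143.XW4x315
end
end

-- ▼ part R143/CovC_126
section

/-!
# R143 (helper126): rotated environments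

* `Mo.ok` : the moved domain is admissible
* `umark` : uniqueness of the ray marks when no site is on the three rays; `ae_umark`
* `moe g ε` : the motion of the lattice symmetry `g` at scale `ε`
* `h_rot` : `(D.mv φ e).h ε (g.S ω) (φ z) = D.h ε ω z`
* `Sb_mv`, `Db_mv` : the mollified derivatives of the rotated observable
* `integral_Sb_mv`, `integral_Db_mv` : expectations with frozen outside
-/

set_option autoImplicit false
set_option linter.unusedSectionVars false

noncomputable section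

open scoped Classical

namespace Crest.Agent.R143.CovCx126

open MeasureTheory Filter
open Crest.ProbabilityR.Voronoi
open Crest.Agent.R143.B0x346 Crest.Agent.R143.B0Dx346 Crest.Agent.R143.CovAx126
open Crest.Agent.R143.DelGx806 Crest.Agent.R143.CovBx126 Crest.Agent.R143.Y1x126
open Crest.Agent.R143.DomAx722 Crest.Agent.R143.DelRx806
open Crest.Agent.R143.BC0x336 Crest.Agent.R143.EndAx336 Crest.Agent.R143.EndBx336
open Crest.Agent.R143.Mollx887 Crest.Agent.R143.Asmx336

variable {φ : ℂ ≃ ℂ} {e : ℂ}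

theorem Mo.symm (h : Mo φ e) : Mo φ.symm e⁻¹ := by
  have hne : e ≠ 0 := by
    intro h0
    have := h.ne
    rw [h0, norm_zero] at this
    exact zero_ne_one this
  refine ⟨by rw [norm_inv, h.ne, inv_one], fun z w => ?_⟩
  have h1 := h.sub (φ.symm z) (φ.symm w)
  rw [Equiv.apply_symm_apply, Equiv.apply_symm_apply] at h1
  rw [h1, inv_mul_cancel_left₀ hne]


/-! ### admissible domains -/





theorem Mo.add (h : Mo φ e) (c w : ℂ) : φ (c + w) = φ c + e * w := by
  rw [h.eq_add (c + w) c]; ring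


/-! ### uniqueness of the marks -/

variable {S : Finset ℂ}






/-! ### lattice symmetries -/







/-! ### mollified derivatives -/







/-- environments for which the observable of `D` is well defined -/
def Wd (D : Dom) (ε : ℝ) (ω : Sample) : Prop :=
  GP (D.sites ε ω : Set ℂ) ∧ UMark D (D.sites ε ω)



end Crest.Agent.R143.CovCx126
end
end

-- ▼ part R143/Y9A_831
section

/-!
# R143, block Y (helper831): abstract concentration

`f (p, z)` measurable bounded function of the positions and of `z`; the blocks outside the finite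
set `Kf` are frozen; `g p = ∫ κ z f (P p, z)`.
-/
namespace Crest.Agent.R143.Y9Ax831
end Crest.Agent.R143.Y9Ax831
end

-- ▼ part R143/Y9B_831
section

/-!
# R143, block Y (helper831): positions of a sample, freezing, transfer of probabilities
-/

set_option autoImplicit false

noncomputable section

open scoped Classical

namespace Crest.Agent.R143.Y9Bx831

open MeasureTheory Set Filter Topology Function
open Crest.ProbabilityR.Voronoi
open Crest.Agent.R143.B0x346 Crest.Agent.R143.B0Dx346 Crest.Agent.R143.PP1x831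
open Crest.Agent.R143.Y0x831 Crest.Agent.R143.Lawx831 Crest.Agent.R143.Y5Dx831
open Crest.Agent.R143.Y8Dx831 Crest.Agent.R143.Y1x126 Crest.Agent.R143.Y9Ax831
open scoped ENNReal

local notation "smk" => Crest.Agent.R143.Lawx831.mk









/-- the Finset version of the square -/
def KF (n : ℤ) : Finset (ℤ × ℤ) := Finset.Ico (-n) n ×ˢ Finset.Ico (-n) n





/-! ### dependence on the positions only -/







/-- good in a large disc implies good in a smaller concentric disc -/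
lemma GoodB.good {D : Dom} {R ε C K a C4 : ℝ} {ω : Sample} (h : B6Ix903.GoodB R ε C K a C4 ω)
    (hc : D.c = 0) (hL : D.L ≤ R) : Good D ε C K a C4 ω := by
  have h1 : Metric.closedBall D.c D.L ⊆ Metric.closedBall (0 : ℂ) R := by
    rw [hc]; exact Metric.closedBall_subset_closedBall hL
  refine ⟨⟨h.env.fin.subset (Set.inter_subset_inter_right _ h1), h.env.gp, ?_, ?_⟩, ?_⟩
  · intro z hz
    refine h.env.hole z ?_
    rw [hc] at hz
    exact Metric.closedBall_subset_closedBall (by linarith) hz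
  · exact fun z hz => h.env.cnt z (h1 hz)
  · exact fun z hz => h.diam z (h1 hz)

end Crest.Agent.R143.Y9Bx831
end
end

-- ▼ part R143/Y9C_831
section

/-!
# R143, block Y (helper831): the pointwise bound for good positions
-/

set_option autoImplicit false

noncomputable section

open scoped Classical

namespace Crest.Agent.R143.Y9Cx831

open MeasureTheory Set Filter Topology Function
open Crest.ProbabilityR.Voronoi
open Crest.Agent.R143.B0x346 Crest.Agent.R143.B0Dx346 Crest.Agent.R143.PP1x831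
open Crest.Agent.R143.Y0x831 Crest.Agent.R143.Lawx831 Crest.Agent.R143.Y5Dx831
open Crest.Agent.R143.Varx831 Crest.Agent.R143.Var3x831
open Crest.Agent.R143.Y6Ax831 Crest.Agent.R143.Y6Bx831 Crest.Agent.R143.B1cx796
open Crest.Agent.R143.Y8Dx831 Crest.Agent.R143.Y9Ax831 Crest.Agent.R143.Y9Bx831
open scoped ENNReal

local notation "smk" => Crest.Agent.R143.Lawx831.mk
local notation "Tk" => Crest.Agent.R143.Var2x831.Tk
local notation "del" => Crest.Agent.R143.Var2x831.del

/-- corner of the cell `k` -/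
def crn (ε : ℝ) (k : ℤ × ℤ) : ℂ := (ε : ℂ) * (((k.1 : ℝ) : ℂ) + ((k.2 : ℝ) : ℂ) * Complex.I)






/-- the good positions -/
structure GQ (D : Dom) (Rb R1 ε C K a C4 : ℝ) (M : ℕ) (p : Pos) : Prop where
  good : B6Ix903.GoodB Rb ε C K a C4 (smk p fun _ => 0)
  inj : InjP ε p
  ray : ∀ k : ZMod 3, ∀ v ∈ points ε (smk p fun _ => 0), ∀ t : ℝ, v ≠ D.c + t * D.q k
  num : ∀ k ∈ KF ⌊R1 / ε⌋, (p k).1 ≤ M

/-- the proved leaves -/
structure YL : Prop where
  h3 : Y3
  h3s : Y3s
  h4 : Y4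
  h4a : Y4a
  h5a : Y5a
  h5b : Y5b
  h5c : Y5c

/-- what `Y8` says for one `p` -/
structure Y8c (D : Dom) (R1 ε d : ℝ) (p : Pos) : Prop where
  yg : YG D ε p
  ae : ∀ᵐ z : ℂ, ‖z - D.c‖ < R1 → ∃ t ∈ delT (SP D ε p), z ∈ opn t
  blk : ∀ k' : ℤ × ℤ, cellS ε k' ⊆ Metric.closedBall D.c (2 * R1) →
      YG D ε (del k' p) ∧ BlkOK D ε p k' ∧
      (∃ M' : ℝ, Env ε (3 * d) M' D.c D.L (smk (del k' p) fun _ => 0))
  tri : ∀ z : ℂ, ‖z - D.c‖ < R1 → ∀ t ∈ delT (SP D ε p), z ∈ opn t →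
      (∀ x ∈ ({t.1, t.2.1, t.2.2} : Set ℂ), x ∈ Metric.closedBall D.c (2 * R1)) ∧
      ∃ s0 s1 s2 : ℂ × ℂ × ℂ, ∀ k' : ℤ × ℤ, cellS ε k' ⊆ Metric.closedBall D.c (2 * R1) →
        (∀ w ∈ cellS ε k', 5 * d ≤ ‖z - w‖) → TriD D ε p k' t s0 s1 s2


variable {D : Dom} {Rb R1 ε C K a C4 d δ : ℝ} {M : ℕ} {p : Pos}


end Crest.Agent.R143.Y9Cx831
end
end

-- ▼ part R143/M4U_991
section

/-!
# Row 143 (S0194), leaf LOW: M4 at all scales for the triangles which meet a disc (helper991)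

* `sum_V` : the sum of the squares of the longest sides over the triangles which meet `V`
* `m4_U` : for the triangles which meet the disc `closedBall x ρ` (in the big disc), at every dyadic
  scale `k` (small scales from M4, large scales by a finite cover with balls of radius `1 / 2`)
-/

set_option autoImplicit false

noncomputable section

namespace Crest.Agent.R143.M4Ux991

open Set MeasureTheory
open scoped Classical ENNReal
open Crest.ProbabilityR.Voronoi
open Crest.Agent.R143.B0x346 Crest.Agent.R143.B0Dx346 Crest.Agent.R143.Oscx63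
open Crest.Agent.R143.DelGx806 Crest.Agent.R143.Circx63 Crest.Agent.R143.Scalx63
open Crest.Agent.R143.EQ2x63 Crest.Agent.R143.EQ4x63 Crest.Agent.R143.Locx922
open Crest.Agent.R143.PP1x831

variable {D : Dom} {ε d M : ℝ} {ω : Sample}

/-- the sum of the squares of the longest sides of the triangles which meet `V` -/
theorem sum_V (hd : 0 < d) (h : Env ε d M D.c D.L ω) {V W : Set ℂ}
    (hV : V ⊆ Metric.closedBall D.c (D.L - 2 * d))
    (hW : ∀ v ∈ V, Metric.ball v (2 * d) ⊆ W) :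
    ENNReal.ofReal (∑ t ∈ (delT (D.sites ε ω)).filter (fun t => (cT t ∩ V).Nonempty), dm t ^ 2) ≤
      4 * diamSum (points ε ω) W := by
  set F := (delT (D.sites ε ω)).filter (fun t => (cT t ∩ V).Nonempty) with hF
  set P : Set (ℂ × ℂ × ℂ) := {t : ℂ × ℂ × ℂ | Del (points ε ω) t.1 t.2.1 t.2.2 ∧
    ((voronoiCell (points ε ω) t.1 ∪ voronoiCell (points ε ω) t.2.1 ∪
      voronoiCell (points ε ω) t.2.2) ∩ W).Nonempty} with hP
  -- every triangle of `F`
  have key : ∀ t ∈ F, t ∈ P ∧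
      ENNReal.ofReal (dm t ^ 2) ≤ 4 * (Metric.ediam (voronoiCell (points ε ω) t.1)) ^ 2 := by
    rintro ⟨a, b, c⟩ ht
    rw [hF, Finset.mem_filter] at ht
    obtain ⟨htS, y, hy, hyV⟩ := ht
    obtain ⟨o', hT⟩ := mem_delT_iff.1 htS
    have hyW : y ∈ Metric.closedBall D.c (D.L - 2 * d) := hV hyV
    have hyT : InT y a b c := hy
    have hDel : Del (points ε ω) a b c := (Env.mem_delT hd h hyW hyT).1 htS
    obtain ⟨o, h1, h2, h3, h4, h5, ga, gb, gc⟩ := del_small hd (Env.hol h) hyW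
      (InT.inD hT.pos hyT) hDel
    constructor
    · refine ⟨hDel, a, Or.inl (Or.inl ?_), ?_⟩
      · intro s hs
        simp
      · apply hW y hyV
        rw [mem_ball_iff_norm]
        exact ga
    · have hdm : dm (a, b, c) ≤ 2 * ‖a - o‖ := dm_le le_rfl h1.le h2.le
      have hdm0 : 0 ≤ dm (a, b, c) := le_max_of_le_right (norm_nonneg _)
      have ha : a ∈ voronoiCell (points ε ω) a := fun s hs => by simp
      have ho : o ∈ voronoiCell (points ε ω) a := by
        intro s hs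
        rw [norm_sub_rev o a, norm_sub_rev o s]
        exact h3 s hs
      have h6 : ENNReal.ofReal ‖a - o‖ ≤ Metric.ediam (voronoiCell (points ε ω) a) := by
        have := Metric.edist_le_ediam_of_mem ha ho
        rwa [edist_dist, dist_eq_norm] at this
      calc ENNReal.ofReal (dm (a, b, c) ^ 2) ≤ ENNReal.ofReal (4 * ‖a - o‖ ^ 2) := by
            apply ENNReal.ofReal_le_ofReal
            nlinarith [norm_nonneg (a - o)]
        _ = 4 * (ENNReal.ofReal ‖a - o‖) ^ 2 := by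
            rw [ENNReal.ofReal_mul (by norm_num), ENNReal.ofReal_pow (norm_nonneg _)]
            norm_num
        _ ≤ 4 * (Metric.ediam (voronoiCell (points ε ω) a)) ^ 2 := by gcongr
  have hsum : ∑ t ∈ F, ENNReal.ofReal (dm t ^ 2) ≤ 4 * diamSum (points ε ω) W := by
    have e1 : diamSum (points ε ω) W =
        ∑' t : ℂ × ℂ × ℂ, P.indicator
          (fun t => (Metric.ediam (voronoiCell (points ε ω) t.1)) ^ 2) t := by
      rw [← tsum_subtype]
      rfl
    rw [e1]
    calc ∑ t ∈ F, ENNReal.ofReal (dm t ^ 2)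
        ≤ ∑ t ∈ F, 4 * P.indicator
          (fun t => (Metric.ediam (voronoiCell (points ε ω) t.1)) ^ 2) t := by
          apply Finset.sum_le_sum
          intro t ht
          rw [Set.indicator_of_mem (key t ht).1]
          exact (key t ht).2
      _ = 4 * ∑ t ∈ F, P.indicator
          (fun t => (Metric.ediam (voronoiCell (points ε ω) t.1)) ^ 2) t := by
          rw [Finset.mul_sum]
      _ ≤ _ := by
          gcongr
          exact ENNReal.sum_le_tsum _
  rw [ENNReal.ofReal_sum_of_nonneg fun t _ => sq_nonneg _]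
  exact hsum

/-- real form -/
theorem sum_V' (hd : 0 < d) (h : Env ε d M D.c D.L ω) {V W : Set ℂ}
    (hV : V ⊆ Metric.closedBall D.c (D.L - 2 * d))
    (hW : ∀ v ∈ V, Metric.ball v (2 * d) ⊆ W) {C : ℝ} (hC : 0 ≤ C)
    (hM : diamSum (points ε ω) W ≤ ENNReal.ofReal C) :
    ∑ t ∈ (delT (D.sites ε ω)).filter (fun t => (cT t ∩ V).Nonempty), dm t ^ 2 ≤ 4 * C := by
  have h1 := (sum_V hd h hV hW).trans (mul_le_mul_right hM 4)
  have e2 : (4 : ℝ≥0∞) = ENNReal.ofReal 4 := by norm_num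
  rw [e2, ← ENNReal.ofReal_mul (by norm_num)] at h1
  exact (ENNReal.ofReal_le_ofReal_iff (by positivity)).1 h1








end Crest.Agent.R143.M4Ux991
end
end

-- ▼ part R143/XW5_315
section

/-!
# R143, block X, winding tail XW (helper315), part 5: regions

* `crs_le` : a circuit blocks the crossings of a square annulus
* `reg_disc`, `wall_conn` : the regions around a point of the cut
* `reg_ray` : the region along a ray inside the outside
* `mesh_good`, `ldns_good` : hypotheses of `circ_pr` in a good environment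
-/
namespace Crest.Agent.R143.XW5x315
end Crest.Agent.R143.XW5x315
end

-- ▼ part R143/XW6_315
section

/-!
# R143, block X, winding tail XW (helper315), part 6: circuits in a good environment, walls on arcs

* `circ_good` : circuits around every point at every scale in a good environment
* `reg_free` : the region of a disc which does not meet the outside
* `reg_arc` : the region of a disc centred on the arc from the axis of the tentacle `0` to the middle
  of the sector of the region `0`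
-/

set_option autoImplicit false

noncomputable section

open scoped Classical

namespace Crest.Agent.R143.XW6x315

open Finset
open Crest.ProbabilityR.Voronoi
open Crest.Agent.R143.B0x346 Crest.Agent.R143.DelGx806 Crest.Agent.R143.DelRx806
open Crest.Agent.R143.B0Dx346 Crest.Agent.R143.JColx54 Crest.Agent.R143.JCol2x54
open Crest.Agent.R143.PP1x831 Crest.Agent.R143.Y0x831
open Crest.Agent.R143.Planarx54 Crest.Agent.R143.Planar2x54
open Crest.Agent.R143.DomAx722 hiding ang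
open Crest.Agent.R143.DomBx722 Crest.Agent.R143.DomCx722
open Crest.Agent.R143.Harx315 Crest.Agent.R143.XW1x315 Crest.Agent.R143.XW2x315
open Crest.Agent.R143.XW3x315 Crest.Agent.R143.XW4x315 Crest.Agent.R143.XW5x315
open Crest.Agent.R143.CircPx838 Crest.Agent.R143.Blkx838 Crest.Agent.R143.RB0x838

variable {S : Finset ℂ} {N : Net ℂ} {J : Finset (ℂ × ℂ)} {t : ℂ × ℂ × ℂ} {x w : ℂ} {r : ℝ}
  {V : Finset ℂ}

/-! ### circuits -/

/-- size of the triangles in a good environment -/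
theorem mesh_good {D : Dom} {ε C K a C4 : ℝ} {ω : Sample} (hG : Good D ε C K a C4 ω)
    (hd0 : 0 < rad C ε) (hC4 : 0 ≤ C4) {K1 b : ℝ} (hb : 0 ≤ b) (h1 : ε * Real.log (1 / ε) ^ a ≤ 3 * b)
    (h2 : 3 * b ≤ 1) (h3 : 2 * rad C ε ≤ b)
    (h4 : ‖w - D.c‖ + K1 * b + b + 2 * rad C ε ≤ D.L) :
    Mesh (D.sites ε ω) w (K1 * b) b (36 * C4) := by
  intro z hz
  have hzc : ‖z - D.c‖ ≤ K1 * b + ‖w - D.c‖ := by
    have := norm_add_le (z - w) (w - D.c)
    rw [sub_add_sub_cancel] at this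
    linarith
  have hM := M4Ux991.sum_V' hd0 hG.env (V := Metric.closedBall z b) (W := Metric.ball z (3 * b))
    (C := C4 * (3 * b) ^ 2) ?_ ?_ (by positivity) ?_
  · refine hM.trans (le_of_eq ?_)
    ring
  · intro y hy
    rw [mem_closedBall_iff_norm] at hy ⊢
    have := norm_add_le (y - z) (z - D.c)
    rw [sub_add_sub_cancel] at this
    linarith
  · intro y hy u hu
    rw [mem_closedBall_iff_norm] at hy
    rw [mem_ball_iff_norm] at hu ⊢
    have := norm_add_le (u - y) (y - z)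
    rw [sub_add_sub_cancel] at this
    linarith
  · refine hG.diam z ?_ (3 * b) h1 h2
    rw [mem_closedBall_iff_norm]
    linarith


/-! ### free discs -/

variable {d δ : ℝ}


/-! ### discs on the arc -/





end Crest.Agent.R143.XW6x315
end
end

-- ▼ part R143/UIJ_136
section

/-!
# Row 143 (S0194), leaf UIJ (helper136): uniform integrability of the number of steps

* `quenched` : truncated mean of the number of steps in a good disc
* `uij : (Adm → D.W) → UIJ Adm`
-/

set_option autoImplicit false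

noncomputable section

open scoped Classical

namespace Crest.Agent.R143.UIJx136

open Set Filter Topology MeasureTheory
open scoped ENNReal
open Crest.ProbabilityR.Voronoi
open Crest.Agent.R143.B0x346 Crest.Agent.R143.B0Dx346
open Crest.Agent.R143.Y0x831 (Good)
open Crest.Agent.R143.PP1x831 (rad)
open Crest.Agent.R143.X0Bx683 (Fs)
open Crest.Agent.R143.Mabx377
open Crest.Agent.R143.Spinex422 (Room Linked)
open Crest.Agent.R143.B6Ix903 (net)
open Crest.Agent.R143.DicCx831 (rad_small ev_unit log_small)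
open Crest.Agent.R143.DicDx831 (good_ev room_norm)
open Crest.Agent.R143.RB0x838 Crest.Agent.R143.RBmx838 Crest.Agent.R143.CircPx838
open Crest.Agent.R143.Harx315 Crest.Agent.R143.XW1x315
open Crest.Agent.R143.NstAx700 Crest.Agent.R143.NstBx700 Crest.Agent.R143.NstCx700
open Crest.Agent.R143.LawOmx139 Crest.Agent.R143.CNTx930 Crest.Agent.R143.UIx136
open Crest.Agent.R143.NstUIx136 Crest.Agent.R143.EQE3x63 Crest.Agent.R143.AsmNx758

/-- second moment of the functional of one box -/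
theorem xb_sq {V : Finset ℂ} {S : Finset ℂ} {b : ℂ} {q p : ℝ} (hp : 0 < p) (hp1 : p ≤ 1)
    (h : ∀ (k : Fin 4) (j : ℕ), pr V (fun β => j ≤ KE S b q k β) ≤ (1 - p) ^ j) :
    ex V (fun β => (XB S b q β : ℝ) ^ 2) ≤ 512 / p ^ 2 := by
  have h1 := ex_sq (V := V) (t := (Finset.univ : Finset (Fin 4))) (N := fun k β => KE S b q k β)
    (p := 1 - p) (by linarith) (by linarith) (fun k _ j => h k j)
  have h2 : ex V (fun β => (XB S b q β : ℝ) ^ 2) =
      16 * ex V (fun β => (∑ k : Fin 4, (KE S b q k β : ℝ)) ^ 2) := by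
    rw [← ex_mul_const]
    refine ex_congr fun β _ => ?_
    unfold XB
    push_cast
    ring
  rw [h2]
  refine (mul_le_mul_of_nonneg_left h1 (by norm_num)).trans (le_of_eq ?_)
  rw [Finset.card_univ, Fintype.card_fin, sub_sub_cancel]
  push_cast
  ring

/-- **the quenched estimate** -/
theorem quenched : ∀ C4 : ℝ, 0 ≤ C4 → ∃ p c1 c2 K : ℝ, 0 < p ∧ 0 < c1 ∧ 0 < c2 ∧ c2 ≤ 1 ∧
    0 < K ∧ ∀ (S : Finset ℂ) (N : Net ℂ) (z : ℂ) (R d l q ρ : ℝ), Wd S N z R d → 0 < q →
    5 * q ≤ l → 0 ≤ ρ → ρ + (K + 6) * q ≤ R →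
    (∀ b : ℂ, ‖b - z‖ ≤ ρ + q → MeshA S b (K * q) c2 q C4) → d ≤ c1 * q →
    ∀ M : ℕ, 0 < M → av N (fun J => if M < cnt S N l z ρ J then (cnt S N l z ρ J : ℝ) else 0) ≤
      ((grid z ρ (q / 2)).card : ℝ) ^ 2 * (512 / p ^ 2) / M := by
  intro C4 hC4
  obtain ⟨p, c1, c2, K, hp, hp1, hc1, hc2, hc2', hK, h⟩ := ke_tail RBEx723.rbm C4 hC4
  refine ⟨p, min c1 (1 / 8), c2, K, hp, by positivity, hc2, hc2', hK, ?_⟩
  intro S N z R d l q ρ W hq hql hρ hR hM hd M hM0
  have hd1 : d ≤ c1 * q := hd.trans (mul_le_mul_of_nonneg_right (min_le_left _ _) hq.le)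
  have hd2 : 8 * d ≤ q := by
    have := hd.trans (mul_le_mul_of_nonneg_right (min_le_right _ _) hq.le)
    linarith
  have hd0 := W.dns.dpos
  have hKq : 0 < K * q := by positivity
  have hR' : ρ + K * q + 6 * q ≤ R := by nlinarith
  set t : Finset ℂ := (grid z ρ (q / 2)).filter fun b => ‖b - z‖ ≤ ρ + q with ht
  have htz : ∀ b ∈ t, ‖b - z‖ ≤ ρ + q := fun b hb => (Finset.mem_filter.1 hb).2
  have tri : ∀ x y w : ℂ, ‖x - w‖ ≤ ‖x - y‖ + ‖y - w‖ := fun x y w => norm_sub_le_norm_sub_add_norm_sub x y w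
  -- the sites
  set V := Fs S z R with hV
  have hVS : V ⊆ S := Finset.filter_subset _ _
  have hann : ∀ b ∈ t, ∀ s ∈ S, q < sup (s - b) → sup (s - b) < 2 * q → s ∈ V := by
    intro b hb s hs _ h2
    refine Finset.mem_filter.2 ⟨hs, ?_⟩
    have h3 := norm_le_sup (s - b)
    have h4 := htz b hb
    have h5 := tri s b z
    linarith
  have hbox : ∀ b ∈ t, (∀ k : Fin 4, ∃ l, Cross S (zc b q k) (CircPx838.dir k) (3 / 2 * q)
      (1 / 4 * q) S l) ∧ ∀ (k : Fin 4) (j : ℕ), pr V (fun β => j ≤ KE S b q k β) ≤ (1 - p) ^ j := by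
    intro b hb
    have h4 := htz b hb
    have hD : LDns S b (K * q) d := LDns.shift W.dns (by linarith)
    obtain ⟨h1, h2⟩ := h S b q d hq hD (hM b h4) hd1
    exact ⟨h1, fun k j => h2 V hVS (hann b hb) k j⟩
  have hcard := Planarx54.HNet.card W.hnet
  have main := avg_ui (S := S) (N := N) (k := 2) (V := V) W.hnet hcard W.free hVS (t := t)
    (X := fun b B => (XB S b q B : ℝ)) (C0 := 512 / p ^ 2) (M := (M : ℝ)) (by exact_mod_cast hM0)
    (fun b _ B => Nat.cast_nonneg _) (fun b hb => xb_sq hp hp1 (hbox b hb).2)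
    (fun b hb B _ => by
      have : XB S b q B = XB S b q (B ∩ V) := by
        unfold XB
        congr 1
        exact Finset.sum_congr rfl fun k _ => ke_dep hq B (hann b hb)
      rw [this])
    (g := fun J => (cnt S N l z ρ J : ℝ)) ?_
  · have hle : av N (fun J => if M < cnt S N l z ρ J then (cnt S N l z ρ J : ℝ) else 0) ≤
        (t.card : ℝ) ^ 2 * (512 / p ^ 2) / M := by
      unfold AsmNx758.av
      rcases Nat.eq_zero_or_pos (Om N).card with h0 | h0
      · rw [h0, Nat.cast_zero, div_zero]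
        positivity
      · rw [div_le_iff₀ (by exact_mod_cast h0), mul_comm _ ((Om N).card : ℝ)]
        refine le_trans (le_of_eq ?_) main
        refine Finset.sum_congr rfl fun J _ => ?_
        simp only [Nat.cast_lt]
    refine hle.trans ?_
    gcongr
    exact Finset.filter_subset _ _
  · intro B hB
    have hc : cnt S N l z ρ (jn N 2 B) ≤ ∑ b ∈ t, XB S b q B := by
      unfold cnt
      set F := (Finset.range (fuel N + 1)).filter fun j =>
        Alive S N (xs N l (jn N 2 B) j) ∧ dist (mid (xs N l (jn N 2 B) j).2) z < ρ with hF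
      have hsub : F ⊆ t.biUnion fun b => F.filter fun j =>
          ‖mid (xs N l (jn N 2 B) j).2 - b‖ ≤ q / 2 := by
        intro j hj
        have h1 := (Finset.mem_filter.1 hj).2.2
        rw [dist_eq_norm] at h1
        obtain ⟨b, hb, hb2⟩ := grid_cover (z := z) (s := q / 2) (by linarith) h1.le
        rw [Finset.mem_biUnion]
        refine ⟨b, Finset.mem_filter.2 ⟨hb, ?_⟩, Finset.mem_filter.2 ⟨hj, hb2⟩⟩
        have h2 := tri b (mid (xs N l (jn N 2 B) j).2) z
        have h3 := norm_sub_rev b (mid (xs N l (jn N 2 B) j).2)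
        linarith
      refine (Finset.card_le_card hsub).trans (Finset.card_biUnion_le.trans ?_)
      refine Finset.sum_le_sum fun b hb => ?_
      have h4 := htz b hb
      refine steps_le (r := q) (R := 5 * q) (d := d) W.hnet (by linarith) hq hql hd2
        (LDns.shift W.dns (by linarith)) le_rfl (fun a x ha => W.inner a x ?_) (hbox b hb).1 hB _
        fun j hj => (Finset.mem_filter.1 hj).2
      have h5 := tri a b z
      linarith
    show (cnt S N l z ρ (jn N 2 B) : ℝ) ≤ ∑ b ∈ t, (XB S b q B : ℝ)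
    exact_mod_cast hc

/-- **leaf UIJ** -/
theorem uij {Adm : Dom → ℝ → Prop} (hAdm : ∀ D δ, Adm D δ → D.W δ) : UIJ Adm := by
  intro D δ hD m hm r hr z hz hli l hl hlr η hη
  have hW := hAdm D δ hD
  have hL := hW.Lpos
  obtain ⟨C, Kg, a, C4, hC, hKg, ha, hC4, hgood⟩ := good_ev D hL
  obtain ⟨p, c1, c2, K, hp, hc1, hc2, hc2', hK, hq⟩ := quenched (36 * C4) (by positivity)
  have h1 := room_norm hz (by linarith)
  set q : ℝ := min (l / 5) (min (r / (2 * (K + 6))) (1 / 6)) with hqdef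
  have hq0 : 0 < q := by positivity
  have hq1 : 5 * q ≤ l := by
    have : q ≤ l / 5 := min_le_left _ _
    linarith
  have hq2 : (K + 6) * q ≤ r / 2 := by
    have : q ≤ r / (2 * (K + 6)) := (min_le_right _ _).trans (min_le_left _ _)
    rw [le_div_iff₀ (by positivity)] at this
    linarith
  have hq3 : q ≤ 1 / 6 := (min_le_right _ _).trans (min_le_right _ _)
  set A : ℝ := ((grid z (2 * r) (q / 2)).card : ℝ) ^ 2 * (512 / p ^ 2) with hA
  have hA0 : 0 ≤ A := by positivity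
  obtain ⟨M, hM⟩ := exists_nat_gt (A / η)
  have hM1 : 0 < M + 1 := Nat.succ_pos M
  refine ⟨M + 1, ?_⟩
  filter_upwards [ev_unit, hnet_evW (C := C) hW, hgood, (rad_small C).eventually
    (ge_mem_nhds (show (0 : ℝ) < min (min (c1 * q) (r / 8)) (min (c2 * q / 2) (D.L / 8)) by positivity)),
    (log_small a).eventually (ge_mem_nhds (show (0 : ℝ) < c2 * q by positivity)),
    nhdsWithin_le_nhds (ge_mem_nhds (show (0 : ℝ) < η from hη))] with ε e1 e2 e3 e4 e5 e6
  refine (measure_mono ?_).trans (e3.trans (ENNReal.ofReal_le_ofReal e6))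
  intro ω hω hG
  change η < _ at hω
  have hd0 : 0 < rad C ε := DicCx831.rad_pos hC e1
  have d1 : rad C ε ≤ c1 * q := e4.trans ((min_le_left _ _).trans (min_le_left _ _))
  have d2 : rad C ε ≤ r / 8 := e4.trans ((min_le_left _ _).trans (min_le_right _ _))
  have d3 : rad C ε ≤ c2 * q / 2 := e4.trans ((min_le_right _ _).trans (min_le_left _ _))
  have d4 : rad C ε ≤ D.L / 8 := e4.trans ((min_le_right _ _).trans (min_le_right _ _))
  have hN := e2 Kg a C4 ω hG
  have hWd : Wd (D.sites ε ω) (net D ε ω) z (3 * r) (rad C ε) :=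
    EQE4x63.wd_of_env hd0 hG.env hN hz (by linarith) (by linarith)
  have h7 : 4 * r ≤ D.L / 2 := by
    have h0 : 0 ≤ ‖z - D.c‖ := norm_nonneg _
    linarith
  have hbnd := hq (D.sites ε ω) (net D ε ω) z (3 * r) (rad C ε) l q (2 * r) hWd hq0 hq1
    (by linarith) (by linarith) (fun b hb b' hb1 hb2 => by
      have hb0 : 0 < b' := lt_of_lt_of_le (by positivity) hb1
      have hKq : K * q / b' * b' = K * q := by field_simp
      have h5 := norm_sub_le_norm_sub_add_norm_sub b z D.c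
      have h8 := XW6x315.mesh_good (w := b) hG hd0 hC4.le (K1 := K * q / b') hb0.le
        (by linarith) (by linarith) (by linarith) (by
          rw [hKq]
          nlinarith)
      rwa [hKq] at h8) d1 (M + 1) hM1
  have : A / ((M + 1 : ℕ) : ℝ) ≤ η := by
    rw [div_lt_iff₀ hη] at hM
    rw [div_le_iff₀ (by positivity)]
    push_cast
    nlinarith
  exact absurd (hbnd.trans this) (not_le.2 hω)

end Crest.Agent.R143.UIJx136
end
end

-- ▼ part R143/StpI_139
section

/-!
# Row 143, STEP 4, number of steps, part 2 (helper139): the number of steps in one disc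

* `left_conn` : the left sites of a walk of the join of a colouring are connected, with one colour
* `mid_small` : the ends of an edge are near its middle
* `arm_of_state` : a leg from outside of the disc which visits the box `B(b, s)` makes an arm
* `NST` : strand count (leaf of helper700), literal form
* `disc_count` : average number of steps with tip in a disc
-/

set_option autoImplicit false

noncomputable section

open scoped Classical

namespace Crest.Agent.R143.StpIx139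

open Crest.Agent.R143.B0x346 Crest.Agent.R143.DelGx806 Crest.Agent.R143.DelRx806
  Crest.Agent.R143.B0Dx346 Crest.Agent.R143.JColx54 Crest.Agent.R143.JCol2x54
  Crest.Agent.R143.Harx315 Crest.Agent.R143.XW1x315 Crest.Agent.R143.J8x872
  Crest.Agent.R143.JCardx872 Crest.Agent.R143.JWalkx872 Crest.Agent.R143.J1x872
  Crest.Agent.R143.J4x872 Crest.Agent.R143.LawOmx139 Crest.Agent.R143.CNTx930
  Crest.Agent.R143.D3Fx802 Crest.Agent.R143.EQE3x63 Crest.Agent.R143.Mabx377
open Crest.Agent.R143.RB0x838 (LDns Mesh)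
open Crest.Agent.R143.Lawx872 (ConnIn)
open Crest.Agent.R143.X0Bx683 (Fs)

variable {S V B : Finset ℂ} {N : Net ℂ} {k : ZMod 3} {d l R ρ : ℝ}

/-! ### the left chain -/

/-- left sites of a step -/
theorem left_step (H : HNet S N) (hJ : IsJoin N.toTrg N.kl ∅ (Dk N k) (jn N k B)) {p q : ℂ × ℂ}
    (hp : p ∈ jn N k B) (h : Step N.toTrg ∅ (Dk N k) (jn N k B) p q) :
    q.1 = p.1 ∨ (Adj S p.1 q.1 ∧ (q.1 ∈ B ↔ p.1 ∈ B)) := by
  obtain ⟨u, hu⟩ := step_turn h
  have hne := turn_empty hJ hp hu h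
  obtain ⟨c, hc, h1⟩ := hu
  rcases h1 with ⟨rfl, rfl⟩ | ⟨rfl, rfl⟩
  · right
    have ht : (p.1, p.2, c) ∈ delT S := by rw [← H.tri]; exact hc
    have ht' : (c, p.1, p.2) ∈ delT S := delT_rot H.gp (delT_rot H.gp ht)
    have hadj : Adj S c p.1 := adj_tri ht'
    refine ⟨hadj.symm, ?_⟩
    have h2 := occ_iff H.tri (fun a b h => (dk_hull (k := k) H a b h).2) hJ ht'
    have h3 := jn_occ (k := k) (B := B) H hadj
    have h4 : ¬ (c ∈ B ↔ p.1 ∉ B) := by
      rw [← h3, h2]
      exact hne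
    dsimp only
    tauto
  · left; rfl

/-- **the left sites of a walk are connected, with one colour** -/
theorem left_conn (H : HNet S N) (hJ : IsJoin N.toTrg N.kl ∅ (Dk N k) (jn N k B)) {p q : ℂ × ℂ}
    (hp : p ∈ jn N k B) (hpS : p.1 ∈ S) (h : Leads N.toTrg ∅ (Dk N k) (jn N k B) p q) :
    (q.1 ∈ B ↔ p.1 ∈ B) ∧ q.1 ∈ S ∧ ConnIn S (if p.1 ∈ B then B else S \ B) p.1 q.1 := by
  induction h with
  | refl => exact ⟨Iff.rfl, hpS, Relation.ReflTransGen.refl⟩
  | @tail q r hpq hqr ih =>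
    have hq := leads_step_mem hJ hp hpq hqr
    obtain ⟨i1, i2, i3⟩ := ih
    rcases left_step H hJ hq hqr with h1 | ⟨h1, h2⟩
    · rw [h1]; exact ⟨i1, i2, i3⟩
    · refine ⟨h2.trans i1, h1.mem.2, i3.tail ⟨h1, ?_, ?_⟩⟩
      · split_ifs with h3
        · exact i1.2 h3
        · exact Finset.mem_sdiff.2 ⟨i2, fun h4 => h3 (i1.1 h4)⟩
      · split_ifs with h3
        · exact h2.2 (i1.2 h3)
        · exact Finset.mem_sdiff.2 ⟨h1.mem.2, fun h4 => h3 (i1.1 (h2.1 h4))⟩

/-! ### short edges -/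

/-- the ends of an edge are near its middle -/
theorem mid_small {p : ℂ} (h : LDns S p R d) {u v : ℂ} (ha : Adj S u v)
    (hu : ‖mid (u, v) - p‖ + d ≤ R) : ‖u - mid (u, v)‖ < 2 * d ∧ ‖v - mid (u, v)‖ < 2 * d := by
  have hH : Locx922.Hol (S : Set ℂ) {w | ‖w - p‖ + d ≤ R} d := by
    intro w hw z hz
    have hw' : ‖w - p‖ + d ≤ R := hw
    obtain ⟨s, hs, h1⟩ := h.hole z (by
      have := Locx922.norm_tri z w p
      linarith)
    exact ⟨s, hs, h1⟩
  have hin : ∀ a b c : ℂ, Locx922.InD (mid (a, b)) a b c := by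
    intro a b c o h1 _
    have e : mid (a, b) - o = ((a - o) + (b - o)) / 2 := by
      unfold mid; ring
    rw [e, norm_div]
    have h2 := norm_add_le (a - o) (b - o)
    have h3 : ‖(2 : ℂ)‖ = 2 := by norm_num
    rw [h3]
    linarith
  rcases ha with ⟨c, hc⟩ | ⟨c, hc⟩
  · obtain ⟨o, -, -, -, -, -, h6, h7, -⟩ := Locx922.del_small h.dpos hH
      (show mid (u, v) ∈ {w | ‖w - p‖ + d ≤ R} from hu) (hin u v c) (mem_delT.1 hc)
    exact ⟨h6, h7⟩
  · have e : mid (u, v) = mid (v, u) := by unfold mid; ring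
    rw [e] at hu ⊢
    obtain ⟨o, -, -, -, -, -, h6, h7, -⟩ := Locx922.del_small h.dpos hH
      (show mid (v, u) ∈ {w | ‖w - p‖ + d ≤ R} from hu) (hin v u c) (mem_delT.1 hc)
    exact ⟨h7, h6⟩

/-! ### the arm -/

theorem join_jn (H : HNet S N) (hB : B ∈ Ck S N k) :
    IsJoin N.toTrg N.kl ∅ (Dk N k) (jn N k B) := mem_Omk.1 (jn_mem H hB)

/-- **a leg which visits the box makes an arm** -/
theorem arm_of_state {z b : ℂ} {Rw s : ℝ} (W : Wd S N z Rw d) (hB : B ∈ Ck S N k) {e0 q : ℂ × ℂ}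
    (he0 : e0 ∈ Dk N k) (h : Leads N.toTrg ∅ (Dk N k) (jn N k B) e0 q)
    (hq : ‖mid q - b‖ ≤ s) (hs : s + 2 * d ≤ l) (hlR : l < R)
    (hw : ‖b - z‖ + R + 2 * d < Rw) : Arm2 S (Fs S z Rw) b l R (B ∩ Fs S z Rw) := by
  have H := W.hnet
  have hJ := join_jn H hB
  have hd := W.dns.dpos
  have he1 := dk_hull H e0.1 e0.2 he0
  have he0J : e0 ∈ jn N k B := (hJ.mark e0.1 e0.2 he0).1
  have heS : e0.1 ∈ S := (hullE.mem he1).1
  obtain ⟨c1, c2, c3⟩ := left_conn H hJ he0J heS h
  -- `q` is an edge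
  have hqA : Adj S q.1 q.2 := by
    rcases leads_mem hJ he0J h with h1 | h1
    · exact (mem_E H.tri).1 (hJ.sub h1)
    · exact (Or.inl (dk_hull H _ _ h1).1 : Adj S q.2 q.1).symm
  have hball : ∀ w : ℂ, ‖w - b‖ ≤ R + 2 * d → ‖w - z‖ < Rw := by
    intro w hw'
    have := Locx922.norm_tri w b z
    linarith
  have hbR : LDns S b (R + 2 * d) d := by
    refine ⟨W.dns.gp, hd, fun w hw' => W.dns.hole w ?_⟩
    linarith [hball w hw']
  obtain ⟨m1, -⟩ := mid_small hbR hqA (by
    show ‖mid q - b‖ + d ≤ R + 2 * d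
    linarith)
  have hq1 : ‖q.1 - b‖ ≤ l := by
    have := Locx922.norm_tri q.1 (mid q) b
    have e : mid (q.1, q.2) = mid q := rfl
    rw [e] at m1
    linarith
  -- the start is far
  have hfar : R ≤ ‖e0.1 - b‖ := by
    by_contra hcon
    push Not at hcon
    exact (W.inner e0.1 e0.2 (hball _ (by linarith))).1 he1
  have hst : ∀ u v, Adj S u v → ‖u - b‖ < R → ‖v - u‖ ≤ 2 * d := fun u v huv hu =>
    (ArmPx930.adj_small hbR huv (by linarith)).le
  have key : ∀ A : Finset ℂ, A ⊆ S → q.1 ∈ A → ConnIn S A q.1 e0.1 →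
      CArm S (A ∩ Fs S z Rw) b l R := by
    intro A hAS hqA' hc
    obtain ⟨x', y', k1, k2, k3, k4, k5⟩ := extract (S := S) (β := A) (p := b) (a := l)
      (b := R) (e := 2 * d) hlR hst hqA' hq1 hfar hc
    have hsub : (A.filter fun s => l - 2 * d ≤ ‖s - b‖ ∧ ‖s - b‖ ≤ R + 2 * d) ⊆
        A ∩ Fs S z Rw := by
      intro x hx
      rw [Finset.mem_filter] at hx
      exact Finset.mem_inter.2 ⟨hx.1, Finset.mem_filter.2 ⟨hAS hx.1, hball x hx.2.2⟩⟩
    exact ⟨x', y', hsub k1, hsub k2, k3, k4, conn_mono hsub k5⟩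
  have hBS : B ⊆ S := Finset.mem_powerset.1 (Finset.mem_filter.1 hB).1
  by_cases h0 : e0.1 ∈ B
  · rw [if_pos h0] at c3
    exact Or.inl (key B hBS (c1.2 h0) c3.symm)
  · rw [if_neg h0] at c3
    right
    have h1 := key (S \ B) Finset.sdiff_subset (Finset.mem_sdiff.2 ⟨c2, fun h2 => h0 (c1.1 h2)⟩)
      c3.symm
    refine carm_mono ?_ h1
    intro x hx
    rw [Finset.mem_inter, Finset.mem_sdiff] at hx
    rw [Finset.mem_sdiff, Finset.mem_inter]
    exact ⟨hx.2, fun h3 => hx.1.2 h3.1⟩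

/-! ### the number of steps in a disc -/

/-- states with tip in a disc -/
def cnt (N : Net ℂ) (l : ℝ) (J : Finset (ℂ × ℂ)) (m : ℕ) (b : ℂ) (s : ℝ) : ℕ :=
  ((Finset.range m).filter fun j => ‖mid (xs N l J j).2 - b‖ ≤ s).card

/-- **strand count** (leaf NST, helper700) : literal form, with the second moment -/
def NST2 : Prop := ∀ C4 : ℝ, 0 ≤ C4 → ∃ C0 c1 c2 K : ℝ, 0 < c1 ∧ 0 < c2 ∧ c2 ≤ 1 ∧ 1 ≤ K ∧
  ∀ (S : Finset ℂ) (b : ℂ) (d l : ℝ), 0 < l → LDns S b (K * l) d →
    (∀ x, c2 * l ≤ x → x ≤ l → Mesh S b (K * l) x C4) → d ≤ c1 * l →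
    ∃ X : Finset ℂ → ℝ, (∀ β, 0 ≤ X β) ∧ (∀ β, X β = X (β.filter fun s => ‖s - b‖ < l)) ∧
      (∀ V ⊆ S, (∀ s ∈ S, ‖s - b‖ < l → s ∈ V) →
        ex V X ≤ C0 ∧ ex V (fun β => X β ^ 2) ≤ C0) ∧
      ∀ N : Net ℂ, HNet S N →
        (∀ a x, ‖a - b‖ < K * l → (a, x) ∉ N.kl ∧ ¬ hullE S a x ∧ ¬ hullE S x a) →
        ∀ B ∈ Ck S N 2, ∀ m, (cnt N l (jn N 2 B) m b (l / 10) : ℝ) ≤ X B

/-- **the number of steps in a disc**, deterministic bound and moments -/
theorem disc (hN : NST2) : ∀ C4 : ℝ, 0 ≤ C4 → ∃ C c c1 c2 K : ℝ, 0 < C ∧ 0 < c ∧ 0 < c1 ∧ 0 < c2 ∧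
    c2 ≤ 1 ∧ 1 ≤ K ∧ ∀ (S : Finset ℂ) (N : Net ℂ) (z : ℂ) (Rw d l ρ R : ℝ), Wd S N z Rw d → 0 < l →
    l / 10 ≤ ρ → 2 * l ≤ R → 4 * ρ + K * R ≤ Rw →
    (∀ x, c2 * l ≤ x → x ≤ R → Mesh S z Rw x C4) → d ≤ c1 * l →
    ∃ F : Finset ℂ → ℝ, (∀ β, 0 ≤ F β) ∧ (∀ β, β ⊆ S → F β = F (β ∩ Fs S z Rw)) ∧
      (∀ B ∈ Ck S N 2, ∀ m, (cnt N l (jn N 2 B) m z ρ : ℝ) ≤ F B) ∧
      ex (Fs S z Rw) F ≤ C * (ρ / l) ^ 2 * (l / R) ^ c ∧
      ex (Fs S z Rw) (fun β => F β ^ 2) ≤ C * (ρ / l) ^ 4 := by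
  intro C4 hC4
  obtain ⟨C0, a1, a2, Ka, ha1, ha2, ha2', hKa, HA⟩ := hN C4 hC4
  obtain ⟨C, c, b1, b2, Kb, hC, hc, hb1, hb2, hb2', hKb, HB⟩ := sum_grid C4 hC4
  refine ⟨6250000 * (C + 1) * (|C0| + 1), c, min (min a1 b1) (1 / 8), min a2 b2,
    max (max Ka Kb) 2, by positivity, hc, by positivity, by positivity,
    (min_le_left _ _).trans ha2', le_trans (by norm_num) (le_max_right _ _), ?_⟩
  intro S N z Rw d l ρ R W hl hsρ hlR hRw hM hd
  have H := W.hnet
  have hdp := W.dns.dpos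
  have hR : 0 < R := by linarith
  have hρ : 0 < ρ := by linarith
  set V := Fs S z Rw with hV
  have hVS : V ⊆ S := Finset.filter_subset _ _
  set s := l / 10 with hs
  have hs0 : 0 < s := by positivity
  set K := max (max Ka Kb) 2 with hK
  have k1 : Ka ≤ K := (le_max_left _ _).trans (le_max_left _ _)
  have k2 : Kb ≤ K := (le_max_right _ _).trans (le_max_left _ _)
  have k3 : 2 ≤ K := le_max_right _ _
  have d1 : d ≤ a1 * l := hd.trans (mul_le_mul_of_nonneg_right
    ((min_le_left _ _).trans (min_le_left _ _)) hl.le)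
  have d2 : d ≤ b1 * l := hd.trans (mul_le_mul_of_nonneg_right
    ((min_le_left _ _).trans (min_le_right _ _)) hl.le)
  have d3 : d ≤ 1 / 8 * l := hd.trans (mul_le_mul_of_nonneg_right (min_le_right _ _) hl.le)
  have q1 : Ka * l ≤ K * R := by
    calc Ka * l ≤ K * l := mul_le_mul_of_nonneg_right k1 hl.le
      _ ≤ K * R := mul_le_mul_of_nonneg_left (by linarith) (by linarith)
  have q2 : Kb * R ≤ K * R := mul_le_mul_of_nonneg_right k2 hR.le
  have q3 : 2 * R ≤ K * R := mul_le_mul_of_nonneg_right k3 hR.le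
  have gn : ∀ b ∈ grid z ρ s, ‖b - z‖ ≤ 4 * ρ := fun b hb => by
    have := grid_near hs0 hb
    linarith
  have hin : ∀ b ∈ grid z ρ s, ∀ w : ℂ, ‖w - b‖ ≤ Ka * l → ‖w - z‖ ≤ Rw := by
    intro b hb w hw
    have := Locx922.norm_tri w b z
    have := gn b hb
    linarith
  -- the counts
  have hex : ∀ b ∈ grid z ρ s, ∃ X : Finset ℂ → ℝ, (∀ β, 0 ≤ X β) ∧
      (∀ β, X β = X (β.filter fun s => ‖s - b‖ < l)) ∧
      (∀ V ⊆ S, (∀ s ∈ S, ‖s - b‖ < l → s ∈ V) → ex V X ≤ C0 ∧ ex V (fun β => X β ^ 2) ≤ C0) ∧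
      ∀ B ∈ Ck S N 2, ∀ m, (cnt N l (jn N 2 B) m b (l / 10) : ℝ) ≤ X B := by
    intro b hb
    obtain ⟨X, x1, x2, x3, x4⟩ := HA S b d l hl
      ⟨W.dns.gp, hdp, fun w hw => W.dns.hole w (by linarith [hin b hb w hw])⟩
      (fun x hx1 hx2 w hw => hM x ((mul_le_mul_of_nonneg_right (min_le_left _ _) hl.le).trans hx1)
        (by linarith) w (hin b hb w hw)) d1
    refine ⟨X, x1, x2, x3, x4 N H ?_⟩
    intro a x ha
    have ha' : ‖a - z‖ < Rw := by
      have := Locx922.norm_tri a b z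
      have := gn b hb
      linarith
    exact ⟨W.live a x ha', W.inner a x ha'⟩
  choose! X x1 x2 x3 x4 using hex
  have hVb : ∀ b ∈ grid z ρ s, ∀ x ∈ S, ‖x - b‖ < l → x ∈ V := by
    intro b hb x hx hxb
    refine Finset.mem_filter.2 ⟨hx, ?_⟩
    have := Locx922.norm_tri x b z
    have := gn b hb
    linarith
  have hXV : ∀ b ∈ grid z ρ s, ∀ β, β ⊆ S → X b β = X b (β ∩ V) := by
    intro b hb β hβ
    rw [x2 b hb β, x2 b hb (β ∩ V)]
    congr 1
    ext x
    rw [Finset.mem_filter, Finset.mem_filter, Finset.mem_inter]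
    constructor
    · rintro ⟨h1, h2⟩; exact ⟨⟨h1, hVb b hb x (hβ h1) h2⟩, h2⟩
    · rintro ⟨h1, h2⟩; exact ⟨h1.1, h2⟩
  set F : Finset ℂ → ℝ := fun β => ∑ b ∈ grid z ρ s, X b β *
    (if Arm2 S V b l R (β ∩ V) then 1 else 0) with hF
  have hind : ∀ P : Prop, 0 ≤ (if P then (1 : ℝ) else 0) ∧ (if P then (1 : ℝ) else 0) ≤ 1 := by
    intro P; split_ifs <;> norm_num
  have hC0 : 0 ≤ |C0| := abs_nonneg _
  have hρs : ρ / s = 10 * (ρ / l) := by rw [hs]; field_simp
  have hpos : 0 ≤ ρ / l := by positivity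
  refine ⟨F, ?_, ?_, ?_, ?_, ?_⟩
  · intro β
    exact Finset.sum_nonneg fun b hb => mul_nonneg (x1 b hb β) (hind _).1
  · intro β hβ
    rw [hF]
    refine Finset.sum_congr rfl fun b hb => ?_
    rw [hXV b hb β hβ, Finset.inter_assoc, Finset.inter_self]
  · intro B hB m
    have hJ := jn_mem H hB
    have h1 : ((Finset.range m).filter fun j => ‖mid (xs N l (jn N 2 B) j).2 - z‖ ≤ ρ) ⊆
        (grid z ρ s).biUnion fun b =>
          (Finset.range m).filter fun j => ‖mid (xs N l (jn N 2 B) j).2 - b‖ ≤ s := by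
      intro j hj
      rw [Finset.mem_filter] at hj
      obtain ⟨b, hb, hb'⟩ := grid_cover hs0 hj.2
      exact Finset.mem_biUnion.2 ⟨b, hb, Finset.mem_filter.2 ⟨hj.1, hb'⟩⟩
    have h2 : (cnt N l (jn N 2 B) m z ρ : ℝ) ≤
        ∑ b ∈ grid z ρ s, (cnt N l (jn N 2 B) m b s : ℝ) := by
      have := (Finset.card_le_card h1).trans Finset.card_biUnion_le
      unfold cnt
      exact_mod_cast this
    refine h2.trans (Finset.sum_le_sum fun b hb => ?_)
    by_cases h0 : cnt N l (jn N 2 B) m b s = 0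
    · rw [h0]
      simpa using mul_nonneg (x1 b hb B) (hind (Arm2 S V b l R (B ∩ V))).1
    · have h3 : Arm2 S V b l R (B ∩ V) := by
        obtain ⟨j, hj⟩ := Finset.card_pos.1 (Nat.pos_of_ne_zero h0)
        rw [Finset.mem_filter] at hj
        refine arm_of_state (k := 2) (s := s) W hB
          (Mabx377.ex0_mem N (good_of_hnet H)) (q := (xs N l (jn N 2 B) j).2) ?_ hj.2
          (by rw [hs]; linarith) (by linarith) ?_
        · exact fol_leads _ _ _ (xs_fol (good_of_hnet H) hJ j)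
        · have := gn b hb
          linarith
      rw [if_pos h3, mul_one]
      exact x4 b hb B hB m
  · have h1 := HB S z d l s ρ R hs0 (by rw [hs]; linarith) hsρ hlR
      ⟨W.dns.gp, hdp, fun w hw => W.dns.hole w (by linarith)⟩
      (fun x hx1 hx2 w hw => hM x ((mul_le_mul_of_nonneg_right (min_le_right _ _) hl.le).trans hx1)
        hx2 w (by linarith)) d2 V hVS |C0| X F (fun b hb β _ => x1 b hb β) ?_
      (fun b hb => (x3 b hb V hVS (hVb b hb)).1.trans (le_abs_self _)) ?_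
    · refine h1.trans ?_
      have hp : 0 ≤ (l / R) ^ c := Real.rpow_nonneg (by positivity) _
      have e : C * |C0| * (ρ / s) ^ 2 * (l / R) ^ c = 100 * (C * |C0|) * ((ρ / l) ^ 2 * (l / R) ^ c) := by
        rw [hρs]; ring
      have e' : 6250000 * (C + 1) * (|C0| + 1) * (ρ / l) ^ 2 * (l / R) ^ c =
        6250000 * ((C + 1) * (|C0| + 1)) * ((ρ / l) ^ 2 * (l / R) ^ c) := by ring
      rw [e, e']
      refine mul_le_mul_of_nonneg_right ?_ (by positivity)
      nlinarith [mul_nonneg hC.le hC0]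
    · intro b hb β hβ
      rw [x2 b hb β, x2 b hb (β ∩ V.filter fun s => ‖s - b‖ < l)]
      congr 1
      ext x
      rw [Finset.mem_filter, Finset.mem_filter, Finset.mem_inter, Finset.mem_filter]
      constructor
      · rintro ⟨h1, h2⟩; exact ⟨⟨h1, hβ h1, h2⟩, h2⟩
      · rintro ⟨h1, h2⟩; exact ⟨h1.1, h2⟩
    · intro β hβ
      rw [hF]
      simp only
      rw [Finset.inter_eq_left.2 hβ]
  · have h1 : ∀ β, β ⊆ V → F β ^ 2 ≤ ((grid z ρ s).card : ℝ) * ∑ b ∈ grid z ρ s, X b β ^ 2 := by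
      intro β _
      have h2 : F β ≤ ∑ b ∈ grid z ρ s, X b β := by
        refine Finset.sum_le_sum fun b hb => ?_
        exact mul_le_of_le_one_right (x1 b hb β) (hind _).2
      have h3 : 0 ≤ F β := Finset.sum_nonneg fun b hb => mul_nonneg (x1 b hb β) (hind _).1
      calc F β ^ 2 ≤ (∑ b ∈ grid z ρ s, X b β) ^ 2 := pow_le_pow_left₀ h3 h2 2
        _ ≤ _ := sq_sum_le_card_mul_sum_sq
    refine (ex_mono h1).trans ?_
    rw [ex_mul_const, ex_sum]
    have h2 : ∑ b ∈ grid z ρ s, ex V (fun β => X b β ^ 2) ≤ (grid z ρ s).card * |C0| := by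
      rw [← nsmul_eq_mul, ← Finset.sum_const]
      exact Finset.sum_le_sum fun b hb => (x3 b hb V hVS (hVb b hb)).2.trans (le_abs_self _)
    have h3 := grid_card z hs0 hsρ
    rw [hρs] at h3
    have h4 : (0 : ℝ) ≤ (grid z ρ s).card := Nat.cast_nonneg _
    calc ((grid z ρ s).card : ℝ) * ∑ b ∈ grid z ρ s, ex V (fun β => X b β ^ 2)
        ≤ (grid z ρ s).card * ((grid z ρ s).card * |C0|) := mul_le_mul_of_nonneg_left h2 h4
      _ = (grid z ρ s).card ^ 2 * |C0| := by ring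
      _ ≤ (25 * (10 * (ρ / l)) ^ 2) ^ 2 * |C0| :=
          mul_le_mul_of_nonneg_right (pow_le_pow_left₀ h4 h3 2) hC0
      _ = 6250000 * |C0| * (ρ / l) ^ 4 := by ring
      _ ≤ 6250000 * (C + 1) * (|C0| + 1) * (ρ / l) ^ 4 := by
          refine mul_le_mul_of_nonneg_right ?_ (by positivity)
          nlinarith [mul_nonneg hC.le hC0]

end Crest.Agent.R143.StpIx139
end
end

-- ▼ part R143/NstP_528
section

/-!
# Row 143 (S0194), leaf NST (helper528, shadow of 139): number of steps for the exits of `l`-balls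

* `nst2` : `NST2` of StpI_139 (two moments of the number of steps in one disc)
* `quenchedN` : mean number of steps in a good disc
* `nstP : (Adm → D.W) → NST Adm`
-/

set_option autoImplicit false

noncomputable section

open scoped Classical

namespace Crest.Agent.R143.NstPx528

open Set Filter Topology MeasureTheory
open scoped ENNReal
open Crest.ProbabilityR.Voronoi
open Crest.Agent.R143.B0x346 Crest.Agent.R143.B0Dx346
open Crest.Agent.R143.Y0x831 (Good)
open Crest.Agent.R143.PP1x831 (rad)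
open Crest.Agent.R143.X0Bx683 (Fs)
open Crest.Agent.R143.Mabx377
open Crest.Agent.R143.Spinex422 (Room Linked)
open Crest.Agent.R143.B6Ix903 (net)
open Crest.Agent.R143.DicCx831 (rad_small ev_unit log_small)
open Crest.Agent.R143.DicDx831 (good_ev room_norm)
open Crest.Agent.R143.RB0x838 Crest.Agent.R143.RBmx838 Crest.Agent.R143.CircPx838
open Crest.Agent.R143.Harx315 Crest.Agent.R143.XW1x315
open Crest.Agent.R143.NstAx700 Crest.Agent.R143.NstBx700
open Crest.Agent.R143.NstCx700 (nst_t ex_geo)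
open Crest.Agent.R143.LawOmx139 Crest.Agent.R143.CNTx930 Crest.Agent.R143.UIx136
open Crest.Agent.R143.EQE3x63 Crest.Agent.R143.AsmNx758

/-- **strand count** with two moments -/
theorem nst2 : StpIx139.NST2 := by
  intro C4 hC4
  obtain ⟨p, c1, c2, K, hp, hp1, hc1, hc2, hc2', hK, h⟩ := nst_t C4 hC4
  refine ⟨512 / p ^ 2, c1, c2, K, hc1, hc2, hc2', hK, ?_⟩
  intro S b d l hl hD hM hd
  obtain ⟨h1, h2, h3⟩ := h S b d l hl hD hM hd
  refine ⟨fun B => 4 * ∑ k : Fin 4, (KE S b (l / 5) k B : ℝ), fun B => by positivity, fun B => ?_,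
    fun V hV hVs => ⟨?_, ?_⟩, ?_⟩
  · simp only
    congr 1
    refine Finset.sum_congr rfl fun k _ => ?_
    rw [h1 k B]
  · rw [ex_mul_const, ex_sum]
    have h5 : ∑ k : Fin 4, ex V (fun β => (KE S b (l / 5) k β : ℝ)) ≤ 4 * (4 / p ^ 2) := by
      refine (Finset.sum_le_sum fun k _ => ex_geo hp hp1 (h2 V hV hVs k)).trans ?_
      rw [Finset.sum_const, Finset.card_univ, Fintype.card_fin, nsmul_eq_mul]
      norm_num
    have h6 : 4 * (4 * (4 / p ^ 2)) ≤ 512 / p ^ 2 := by
      have e : 4 * (4 * (4 / p ^ 2)) = 64 / p ^ 2 := by ring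
      rw [e]
      gcongr
      norm_num
    exact (mul_le_mul_of_nonneg_left h5 (by norm_num)).trans h6
  · have h5 := UIJx136.xb_sq (V := V) (S := S) (b := b) (q := l / 5) hp hp1
      (fun k j => h2 V hV hVs k j)
    refine le_trans (le_of_eq ?_) h5
    refine ex_congr fun β _ => ?_
    unfold XB
    push_cast
    ring
  · intro N H hN B hB m
    have := h3 N H hN B hB ((Finset.range m).filter fun j =>
      ‖mid (xs N l (jn N 2 B) j).2 - b‖ ≤ l / 10) (fun j hj => (Finset.mem_filter.1 hj).2)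
    show _ ≤ 4 * ∑ k : Fin 4, (KE S b (l / 5) k B : ℝ)
    unfold StpIx139.cnt
    exact_mod_cast this

theorem wd_shift {S : Finset ℂ} {N : Net ℂ} {z b : ℂ} {R R' d : ℝ} (W : Wd S N z R d)
    (h : ‖b - z‖ + R' ≤ R) : Wd S N b R' d := by
  have tri : ∀ x y w : ℂ, ‖x - w‖ ≤ ‖x - y‖ + ‖y - w‖ :=
    fun x y w => norm_sub_le_norm_sub_add_norm_sub x y w
  refine ⟨W.hnet, LDns.shift W.dns (by linarith), fun a x ha => W.live a x ?_,
    fun a x ha => W.inner a x ?_⟩
  · linarith [tri a b z]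
  · linarith [tri a b z]

/-- **the quenched estimate** -/
theorem quenchedN : ∀ C4 : ℝ, 0 ≤ C4 → ∃ C c c1 c2 K : ℝ, 0 < C ∧ 0 < c ∧ 0 < c1 ∧ 0 < c2 ∧
    c2 ≤ 1 ∧ 1 ≤ K ∧ ∀ (S : Finset ℂ) (N : Net ℂ) (z : ℂ) (Rw d l ρ σ R : ℝ), Wd S N z Rw d →
    0 < l → l / 10 ≤ σ → 2 * l ≤ R → 0 ≤ ρ → ρ + 5 * σ + K * R ≤ Rw →
    (∀ b : ℂ, ‖b - z‖ ≤ ρ + σ → ∀ x, c2 * l ≤ x → x ≤ R → Mesh S b (4 * σ + K * R) x C4) →
    d ≤ c1 * l →
    av N (fun J => (cnt S N l z ρ J : ℝ)) ≤
      ((grid z ρ σ).card : ℝ) * (C * (σ / l) ^ 2 * (l / R) ^ c) := by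
  intro C4 hC4
  obtain ⟨C, c, c1, c2, K, hC, hc, hc1, hc2, hc2', hK, h⟩ := StpIx139.disc nst2 C4 hC4
  refine ⟨C, c, c1, c2, K, hC, hc, hc1, hc2, hc2', hK, ?_⟩
  intro S N z Rw d l ρ σ R W hl hσ hlR hρ hRw hM hd
  have hσ0 : 0 < σ := by linarith
  have hR0 : 0 < R := by linarith
  have hKR : 0 < K * R := by positivity
  set t : Finset ℂ := (grid z ρ σ).filter fun b => ‖b - z‖ ≤ ρ + σ with ht
  have htz : ∀ b ∈ t, ‖b - z‖ ≤ ρ + σ := fun b hb => (Finset.mem_filter.1 hb).2
  have tri : ∀ x y w : ℂ, ‖x - w‖ ≤ ‖x - y‖ + ‖y - w‖ :=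
    fun x y w => norm_sub_le_norm_sub_add_norm_sub x y w
  have hWb : ∀ b ∈ t, Wd S N b (4 * σ + K * R) d := fun b hb =>
    wd_shift W (by linarith [htz b hb])
  have hdisc : ∀ b ∈ t, ∃ F : Finset ℂ → ℝ, (∀ β, 0 ≤ F β) ∧
      (∀ β, β ⊆ S → F β = F (β ∩ Fs S b (4 * σ + K * R))) ∧
      (∀ B ∈ Ck S N 2, ∀ m, (StpIx139.cnt N l (jn N 2 B) m b σ : ℝ) ≤ F B) ∧
      ex (Fs S b (4 * σ + K * R)) F ≤ C * (σ / l) ^ 2 * (l / R) ^ c := by
    intro b hb
    obtain ⟨F, f1, f2, f3, f4, -⟩ := h S N b (4 * σ + K * R) d l σ R (hWb b hb) hl hσ hlR le_rfl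
      (fun x hx1 hx2 => hM b (htz b hb) x hx1 hx2) hd
    exact ⟨F, f1, f2, f3, f4⟩
  choose! F f1 f2 f3 f4 using hdisc
  set A : ℝ := C * (σ / l) ^ 2 * (l / R) ^ c with hA
  have hA0 : 0 ≤ A := by positivity
  have hcard := Planarx54.HNet.card W.hnet
  have hcb : ∀ J, (cnt S N l z ρ J : ℝ) ≤ ∑ b ∈ t, (StpIx139.cnt N l J (fuel N + 1) b σ : ℝ) := by
    intro J
    have hc : cnt S N l z ρ J ≤ ∑ b ∈ t, StpIx139.cnt N l J (fuel N + 1) b σ := by
      unfold cnt StpIx139.cnt
      refine (Finset.card_le_card (t := t.biUnion fun b => (Finset.range (fuel N + 1)).filter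
        fun j => ‖mid (xs N l J j).2 - b‖ ≤ σ) ?_).trans Finset.card_biUnion_le
      intro j hj
      obtain ⟨hj1, -, hj2⟩ := Finset.mem_filter.1 hj
      rw [dist_eq_norm] at hj2
      obtain ⟨b, hb, hb2⟩ := grid_cover (z := z) (s := σ) hσ0 hj2.le
      rw [Finset.mem_biUnion]
      refine ⟨b, Finset.mem_filter.2 ⟨hb, ?_⟩, Finset.mem_filter.2 ⟨hj1, hb2⟩⟩
      have h2 := tri b (mid (xs N l J j).2) z
      have h3 := norm_sub_rev b (mid (xs N l J j).2)
      linarith
    exact_mod_cast hc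
  have hone : ∀ b ∈ t, ∑ J ∈ Omk N 2, (StpIx139.cnt N l J (fuel N + 1) b σ : ℝ) ≤
      (Omk N 2).card * A := by
    intro b hb
    have h1 := avg_free (k := 2) W.hnet hcard (hWb b hb).free (Finset.filter_subset _ _)
      (g := fun J => (StpIx139.cnt N l J (fuel N + 1) b σ : ℝ)) (F := F b) (f2 b hb)
      (fun B hB => f3 b hb B hB _)
    exact h1.trans (mul_le_mul_of_nonneg_left (f4 b hb) (Nat.cast_nonneg _))
  have hOm : Om N = Omk N 2 := rfl
  unfold AsmNx758.av
  rcases Nat.eq_zero_or_pos (Om N).card with h0 | h0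
  · rw [h0, Nat.cast_zero, div_zero]
    positivity
  · rw [div_le_iff₀ (by exact_mod_cast h0)]
    calc ∑ J ∈ Om N, (cnt S N l z ρ J : ℝ)
        ≤ ∑ J ∈ Om N, ∑ b ∈ t, (StpIx139.cnt N l J (fuel N + 1) b σ : ℝ) :=
          Finset.sum_le_sum fun J _ => hcb J
      _ = ∑ b ∈ t, ∑ J ∈ Om N, (StpIx139.cnt N l J (fuel N + 1) b σ : ℝ) := Finset.sum_comm
      _ ≤ ∑ b ∈ t, ((Om N).card : ℝ) * A := Finset.sum_le_sum fun b hb => hone b hb
      _ = (t.card : ℝ) * (((Om N).card : ℝ) * A) := by rw [Finset.sum_const, nsmul_eq_mul]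
      _ ≤ ((grid z ρ σ).card : ℝ) * (((Om N).card : ℝ) * A) := by
          gcongr
          exact Finset.filter_subset _ _
      _ = _ := by ring

/-- **leaf NST** -/
theorem nstP {Adm : Dom → ℝ → Prop} (hAdm : ∀ D δ, Adm D δ → D.W δ) : NST Adm := by
  intro D δ hD m hm r hr z hz hli η hη
  have hW := hAdm D δ hD
  have hL := hW.Lpos
  obtain ⟨C, Kg, a, C4, hC, hKg, ha, hC4, hgood⟩ := good_ev D hL
  obtain ⟨C', c, c1, c2, K, hC', hc, hc1, hc2, hc2', hK, hq⟩ := quenchedN (36 * C4) (by positivity)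
  have h1 := room_norm hz (by linarith)
  have hK0 : 0 < K := by linarith
  set σ : ℝ := r / 10 with hσ
  have hσ0 : 0 < σ := by positivity
  set R : ℝ := min (r / (2 * K)) (1 / 3) with hR
  have hR0 : 0 < R := by positivity
  have hR1 : K * R ≤ r / 2 := by
    have : R ≤ r / (2 * K) := min_le_left _ _
    rw [le_div_iff₀ (by positivity)] at this
    linarith
  have hR2 : R ≤ 1 / 3 := min_le_right _ _
  have hR3 : R ≤ r / 2 := by nlinarith
  set A : ℝ := ((grid z (2 * r) σ).card : ℝ) * C' * σ ^ 2 with hA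
  have hA0 : 0 ≤ A := by positivity
  set y : ℝ := η / (A + 1) with hy
  have hy0 : 0 < y := by positivity
  refine ⟨min (min (10 * σ) (R / 2)) (R * y ^ (1 / c)), by positivity, ?_⟩
  intro l hl hl0
  have l1 : l ≤ 10 * σ := hl0.le.trans ((min_le_left _ _).trans (min_le_left _ _))
  have l2 : l ≤ R / 2 := hl0.le.trans ((min_le_left _ _).trans (min_le_right _ _))
  have l3 : l ≤ R * y ^ (1 / c) := hl0.le.trans (min_le_right _ _)
  have l4 : (l / R) ^ c ≤ y := by
    have h2 : l / R ≤ y ^ (1 / c) := by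
      rw [div_le_iff₀ hR0]
      linarith
    calc (l / R) ^ c ≤ (y ^ (1 / c)) ^ c := Real.rpow_le_rpow (by positivity) h2 hc.le
      _ = y := by
        rw [← Real.rpow_mul hy0.le, one_div, inv_mul_cancel₀ hc.ne', Real.rpow_one]
  filter_upwards [ev_unit, hnet_evW (C := C) hW, hgood, (rad_small C).eventually
    (ge_mem_nhds (show (0 : ℝ) < min (min (c1 * l) (r / 8)) (min (c2 * l / 2) (D.L / 8)) by positivity)),
    (log_small a).eventually (ge_mem_nhds (show (0 : ℝ) < c2 * l by positivity)),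
    nhdsWithin_le_nhds (ge_mem_nhds (show (0 : ℝ) < η from hη))] with ε e1 e2 e3 e4 e5 e6
  refine (measure_mono ?_).trans (e3.trans (ENNReal.ofReal_le_ofReal e6))
  intro ω hω hG
  change η < _ at hω
  have hd0 : 0 < rad C ε := DicCx831.rad_pos hC e1
  have d1 : rad C ε ≤ c1 * l := e4.trans ((min_le_left _ _).trans (min_le_left _ _))
  have d2 : rad C ε ≤ r / 8 := e4.trans ((min_le_left _ _).trans (min_le_right _ _))
  have d3 : rad C ε ≤ c2 * l / 2 := e4.trans ((min_le_right _ _).trans (min_le_left _ _))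
  have d4 : rad C ε ≤ D.L / 8 := e4.trans ((min_le_right _ _).trans (min_le_right _ _))
  have hN := e2 Kg a C4 ω hG
  have hWd : Wd (D.sites ε ω) (net D ε ω) z (3 * r) (rad C ε) :=
    EQE4x63.wd_of_env hd0 hG.env hN hz (by linarith) (by linarith)
  have h7 : 4 * r ≤ D.L / 2 := by
    have h0 : 0 ≤ ‖z - D.c‖ := norm_nonneg _
    linarith
  have hbnd := hq (D.sites ε ω) (net D ε ω) z (3 * r) (rad C ε) l (2 * r) σ R hWd hl
    (by linarith) (by linarith) (by linarith) (by rw [hσ]; linarith) (fun b hb b' hb1 hb2 => by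
      have hb0 : 0 < b' := lt_of_lt_of_le (by positivity) hb1
      have hKq : (4 * σ + K * R) / b' * b' = 4 * σ + K * R := by field_simp
      have h5 := norm_sub_le_norm_sub_add_norm_sub b z D.c
      have h8 := XW6x315.mesh_good (w := b) hG hd0 hC4.le (K1 := (4 * σ + K * R) / b') hb0.le
        (by linarith) (by linarith) (by linarith) (by
          rw [hKq]
          rw [hσ] at hb ⊢
          linarith)
      rwa [hKq] at h8) d1
  have h9 : l ^ 2 * av (net D ε ω) (fun J => (cnt (D.sites ε ω) (net D ε ω) l z (2 * r) J : ℝ)) ≤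
      A * (l / R) ^ c := by
    refine (mul_le_mul_of_nonneg_left hbnd (sq_nonneg l)).trans (le_of_eq ?_)
    rw [hA]
    field_simp
  have h10 : A * (l / R) ^ c ≤ η := by
    refine (mul_le_mul_of_nonneg_left l4 hA0).trans ?_
    rw [hy, mul_div_assoc', div_le_iff₀ (by positivity)]
    nlinarith
  exact absurd (h9.trans h10) (not_le.2 hω)

end Crest.Agent.R143.NstPx528
end
end

-- ▼ part R143/FinB_894
section

/-!
# Row 143 (S0194): bridges from the forms of the core to the leaf (helper894)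

831's `YG`, `YE`, `YL`, `YW` and 758's five Props `NST`, `UIJ`, `BND`, `CONT`, `POLY`, all on
422's domains `AdP`, give `Finx894.Leaf894` and hence the row.
-/

set_option autoImplicit false

noncomputable section

namespace Crest.Agent.R143.FinBx894

open Crest.ProbabilityR.Voronoi
open Crest.Agent.R143.B0Dx346 Crest.Agent.R143.Spinex422 Crest.Agent.R143.GeoSeqPx422
open Crest.Agent.R143.AsmNx758 Crest.Agent.R143.Finx894


theorem adP_w (D : Dom) (δ : ℝ) (h : AdP D δ) : D.W δ := h.1.w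




theorem leaf_of_yw (h : DicDx831.YW AdP) : Leaf894 := DicDx831.lmin_of_yw adP_w h

/-- the leaf from 758's five Props -/
theorem leaf_of_five {U U' : Type} {T : U → ℝ → Sample → ℂ} {T' : U' → ℝ → Sample → ℂ}
    (h1 : NST AdP) (h2 : UIJ AdP) (h3 : BND we AdP) (h3' : BND wd AdP)
    (h4 : CONT we T AdP) (h4' : CONT wd T' AdP) (h5 : POLY T T') : Leaf894 :=
  leaf_of_yw (yw_of adP_w h1 h2 h3 h3' h4 h4' h5)


/-- `NST` is 528's theorem, `UIJ` 136's, `BND` 377's: what is left of 758's interface -/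
theorem leaf_of_cont {U U' : Type} {T : U → ℝ → Sample → ℂ} {T' : U' → ℝ → Sample → ℂ}
    (h4 : CONT we T AdP) (h4' : CONT wd T' AdP) (h5 : POLY T T') : Leaf894 :=
  leaf_of_five (NstPx528.nstP adP_w) (UIJx136.uij adP_w) (Mabx377.bnd_we fun _ _ h => h.1)
    (Mabx377.bnd_wd fun _ _ h => h.1) h4 h4' h5


end Crest.Agent.R143.FinBx894
end
end

-- ▼ part R143/FinC_894
section

/-!
# Row 143 (S0194): what is left, in the frozen objects (helper894)

`T := PolyUx346.Poly.T`, `T' := PolyUx346.Poly.T'` (346's frozen totals of a labelled polygon).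
* `leaf_frozen` : `CONT we T AdP → CONT wd T' AdP → POLY T T' → Leaf894`
* `leaf_vis` : the same with 377's `SMALL`, `VIS` for the two weights, any predicate `Sm`
-/

set_option autoImplicit false

noncomputable section

namespace Crest.Agent.R143.FinCx894

open Crest.ProbabilityR.Voronoi
open Crest.Agent.R143.B0Dx346 Crest.Agent.R143.GeoSeqPx422
open Crest.Agent.R143.AsmNx758 Crest.Agent.R143.Finx894 Crest.Agent.R143.PolyUx346
open Crest.Agent.R143.Mabx377 (SMALL VIS)

/-- CONT, weight `e` -/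
abbrev ContB : Prop := CONT we Poly.T AdP

/-- CONT, weight `conj e` -/
abbrev ContD : Prop := CONT wd Poly.T' AdP

/-- RIG -/
abbrev Rig : Prop := POLY Poly.T Poly.T'

theorem leaf_frozen (h : ContB) (h' : ContD) (h5 : Rig) : Leaf894 :=
  FinBx894.leaf_of_cont h h' h5




end Crest.Agent.R143.FinCx894
end
end

-- ▼ part R143/VisA_758
section

/-!
# Row 143 (S0194), CONT: VIS, top (helper758)

* `fin_poly` : finitely many labelled brick polygons of a given unit in a given box, up to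
  representatives with the same region and the same arcs
* `Tz u z` : `T` (`z = id`), `T'` (`z = conj`)
* **leaf `VISD Sm z Adm`** : without a small centre the static total is close to
  `TU (D.sites ε ω) u.P √ε u.Lab z` for some labelled polygon `u` of unit `2⁻ⁿ` in the disc
* **`vis_of : VISD Sm z Adm → VIS Sm (fun u => Tz u z) z Adm`**
-/

set_option autoImplicit false

noncomputable section

open scoped Classical

namespace Crest.Agent.R143.VisAx758

open Complex Set Filter Topology MeasureTheory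
open Crest.ProbabilityR.Voronoi
open Crest.Agent.R143.B0x346 Crest.Agent.R143.B0Dx346 Crest.Agent.R143.PP1x831
open Crest.Agent.R143.JCardx872
open Crest.Agent.R143.B6Ix903 (net)
open Crest.Agent.R143.Locx922 (Hol)
open Crest.Agent.R143.DicCx831 (rad_small rad_pos ev_unit)
open Crest.Agent.R143.DicDx831 (good_ev)
open Crest.Agent.R143.Mabx377
open Crest.Agent.R143.NetUx346 (TS)
open Crest.Agent.R143.NetVx346
open Crest.Agent.R143.LocUx700 (deep TU_local)
open Crest.Agent.R143.PolyUx346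
open Crest.Agent.R143.Brkx478 (Bk cells bk)
open Crest.Agent.R143.Tenx416 (Pg)
open Crest.Agent.R158.Sp896 hiding rad sq

/-! ### finitely many polygons -/

/-- the total of the polygon `u` with the coordinate `z` -/
def Tz (u : Poly) (z : ℂ → ℂ) (ε : ℝ) (ω : Sample) : ℂ := TU (u.S ε ω) u.P √ε u.Lab z



theorem s_eq {u u' : Poly} (hn : u'.n = u.n) : u'.s = u.s := by
  unfold Poly.s
  rw [hn]

theorem P_eq {u u' : Poly} (hn : u'.n = u.n) (hU : u'.U = u.U) : u'.P = u.P := by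
  unfold Poly.P
  rw [s_eq hn, hU]

theorem lab_eq {u u' : Poly} (hA : u'.Arc = u.Arc) : u'.Lab = u.Lab := by
  have hN : u'.Near = u.Near := by
    funext x j
    unfold Poly.Near
    rw [hA]
  funext x
  unfold Poly.Lab
  rw [hN]

theorem S_eq {u u' : Poly} (hn : u'.n = u.n) (hU : u'.U = u.U) : u'.S = u.S := by
  funext ε ω
  unfold Poly.S
  rw [P_eq hn hU]

theorem Tz_eq {u u' : Poly} (hn : u'.n = u.n) (hU : u'.U = u.U) (hA : u'.Arc = u.Arc) :
    Tz u' = Tz u := by
  funext z ε ω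
  unfold Tz
  rw [S_eq hn hU, P_eq hn hU, lab_eq hA]

/-- all the cells are in the box -/
def InBox (U : Finset Bk) (M : ℕ) : Prop := ∀ q ∈ cells (U : Set Bk), |q.1| ≤ M ∧ |q.2| ≤ M

theorem brick_box {U : Finset Bk} {M : ℕ} (h : InBox U M) :
    U ⊆ Finset.Icc (-(M : ℤ)) M ×ˢ Finset.Icc (-(M : ℤ)) M := by
  intro b hb
  have h1 : ((2 * b.1 + b.2, b.2) : V) ∈ cells (U : Set Bk) := by
    show bk (2 * b.1 + b.2, b.2) ∈ (U : Set Bk)
    have e : bk (2 * b.1 + b.2, b.2) = b := by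
      unfold bk
      ext <;> simp
    rw [e]
    exact hb
  obtain ⟨h2, h3⟩ := h _ h1
  simp only at h2 h3
  rw [abs_le] at h2 h3
  rw [Finset.mem_product, Finset.mem_Icc, Finset.mem_Icc]
  refine ⟨⟨?_, ?_⟩, ?_, ?_⟩ <;> omega

/-- the vertices of the boundary walk are in the box -/
theorem vert_box {u : Poly} {M : ℕ} (h : InBox u.U M) (i : ℕ) :
    |(u.v i).1| ≤ M + 1 ∧ |(u.v i).2| ≤ M + 1 := by
  obtain ⟨h2, h3⟩ := h _ (u.cyc.left i)
  have h1 := u.cyc.step i
  unfold lc at h2 h3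
  unfold Adj at h1
  simp only at h2 h3
  rw [abs_le] at h2 h3 ⊢
  rw [abs_le]
  omega

/-- the lattice points in the box -/
def Wb (M : ℕ) : Set V := {a | |a.1| ≤ (M : ℤ) + 1 ∧ |a.2| ≤ (M : ℤ) + 1}

theorem Wb_fin (M : ℕ) : (Wb M).Finite := by
  refine ((Finset.Icc (-((M : ℤ) + 1)) (M + 1) ×ˢ Finset.Icc (-((M : ℤ) + 1)) (M + 1) :
    Finset V).finite_toSet).subset ?_
  intro a ha
  obtain ⟨h1, h2⟩ := ha
  rw [abs_le] at h1 h2
  rw [Finset.mem_coe, Finset.mem_product, Finset.mem_Icc, Finset.mem_Icc]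
  exact ⟨⟨h1.1, h1.2⟩, h2.1, h2.2⟩

/-- end points of the pieces -/
def Qs (s : ℝ) (M : ℕ) : Set ℂ :=
  (fun a => pt s a) '' Wb M ∪ (fun p : V × V => (pt s p.1 + pt s p.2) / 2) '' (Wb M ×ˢ Wb M)

theorem Qs_fin (s : ℝ) (M : ℕ) : (Qs s M).Finite :=
  ((Wb_fin M).image _).union (((Wb_fin M).prod (Wb_fin M)).image _)

/-- the segments -/
def Sg (s : ℝ) (M : ℕ) : Set (Set ℂ) :=
  (fun p : ℂ × ℂ => segment ℝ p.1 p.2) '' (Qs s M ×ˢ Qs s M)

theorem Sg_fin (s : ℝ) (M : ℕ) : (Sg s M).Finite :=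
  ((Qs_fin s M).prod (Qs_fin s M)).image _

theorem pt_Qs {u : Poly} {M : ℕ} (h : InBox u.U M) (i : ℕ) : pt u.s (u.v i) ∈ Qs u.s M :=
  Or.inl ⟨_, vert_box h i, rfl⟩

theorem mid_Qs {u : Poly} {M : ℕ} (h : InBox u.U M) (i : ℕ) : u.mid i ∈ Qs u.s M :=
  Or.inr ⟨(u.v i, u.v (i + 1)), ⟨vert_box h i, vert_box h (i + 1)⟩, rfl⟩

theorem seg_Sg {s : ℝ} {M : ℕ} {x y : ℂ} (hx : x ∈ Qs s M) (hy : y ∈ Qs s M) :
    segment ℝ x y ∈ Sg s M := ⟨(x, y), ⟨hx, hy⟩, rfl⟩

/-- the arcs are finite unions of segments of the box -/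
theorem arc_Sg {u : Poly} {M : ℕ} (h : InBox u.U M) (j : Fin 3) :
    u.Arc j ∈ sUnion '' {G | G ⊆ Sg u.s M} := by
  refine ⟨insert (segment ℝ (u.mid (u.k j)) (pt u.s (u.v (u.k j + 1))))
    (insert (segment ℝ (pt u.s (u.v (u.k' j))) (u.mid (u.k' j)))
      ((fun i => ed u.s (u.v i) (u.v (i + 1))) '' Set.Ioo (u.k j) (u.k' j))), ?_, ?_⟩
  · rintro G (rfl | rfl | ⟨i, -, rfl⟩)
    · exact seg_Sg (mid_Qs h _) (pt_Qs h _)
    · exact seg_Sg (pt_Qs h _) (mid_Qs h _)
    · exact seg_Sg (pt_Qs h _) (pt_Qs h _)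
  · rw [sUnion_insert, sUnion_insert, sUnion_image]
    unfold Poly.Arc
    ext x
    simp only [mem_union]
    tauto

/-- **finitely many polygons** -/
theorem fin_poly (n M : ℕ) : ∃ P : Finset Poly, ∀ u : Poly, u.n = n → InBox u.U M →
    ∃ u' ∈ P, u'.n = u.n ∧ u'.U = u.U ∧ u'.Arc = u.Arc := by
  set s : ℝ := (1 / 2) ^ n with hs
  set K : Set (Finset Bk × (Fin 3 → Set ℂ)) :=
    {x | ∃ u : Poly, u.n = n ∧ InBox u.U M ∧ u.U = x.1 ∧ u.Arc = x.2} with hK
  have hfin : K.Finite := by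
    have h1 : (((Finset.Icc (-(M : ℤ)) M ×ˢ Finset.Icc (-(M : ℤ)) M).powerset :
        Finset (Finset Bk)) : Set (Finset Bk)).Finite := Finset.finite_toSet _
    have h2 : (Set.univ.pi fun _ : Fin 3 => sUnion '' {G | G ⊆ Sg s M}).Finite :=
      Set.Finite.pi fun _ => ((Sg_fin s M).finite_subsets).image _
    refine (h1.prod h2).subset ?_
    rintro ⟨a, b⟩ ⟨u, hn, hb, rfl, rfl⟩
    have e : u.s = s := by unfold Poly.s; rw [hn]
    refine ⟨Finset.mem_coe.2 (Finset.mem_powerset.2 (brick_box hb)), ?_⟩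
    rw [Set.mem_pi]
    intro j _
    have := arc_Sg hb j
    rw [e] at this
    exact this
  choose g hg using fun x : K => x.2
  have := hfin.fintype
  refine ⟨Finset.univ.image g, ?_⟩
  intro u hn hb
  refine ⟨g ⟨(u.U, u.Arc), u, hn, hb, rfl, rfl⟩, Finset.mem_image_of_mem _ (Finset.mem_univ _), ?_⟩
  obtain ⟨h1, -, h3, h4⟩ := hg ⟨(u.U, u.Arc), u, hn, hb, rfl, rfl⟩
  exact ⟨h1.trans hn.symm, h3, h4⟩

/-- regions inside a disc are in a box -/
theorem box_of_ball (n : ℕ) (c : ℂ) (R : ℝ) : ∃ M : ℕ, ∀ u : Poly, u.n = n →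
    u.P ⊆ Metric.closedBall c R → InBox u.U M := by
  obtain ⟨M, hM⟩ := exists_nat_ge ((‖c‖ + R) * 2 ^ n)
  refine ⟨M, ?_⟩
  intro u hn hP q hq
  have hs : u.s = (1 / 2) ^ n := by unfold Poly.s; rw [hn]
  have hs0 : 0 < u.s := u.s_pos
  have h1 : (⟨u.s * q.1, u.s * q.2⟩ : ℂ) ∈ u.P := by
    unfold Poly.P Pg
    rw [Set.mem_iUnion₂]
    refine ⟨q, hq, ?_⟩
    refine ⟨le_rfl, ?_, le_rfl, ?_⟩
    · exact mul_le_mul_of_nonneg_left (by linarith) hs0.le
    · exact mul_le_mul_of_nonneg_left (by linarith) hs0.le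
  have h2 := hP h1
  rw [Metric.mem_closedBall, dist_eq_norm] at h2
  have h3 : ‖(⟨u.s * q.1, u.s * q.2⟩ : ℂ)‖ ≤ ‖c‖ + R := by
    have := norm_le_norm_add_norm_sub' (⟨u.s * q.1, u.s * q.2⟩ : ℂ) c
    linarith
  have e : (2 : ℝ) ^ n * u.s = 1 := by
    rw [hs, ← mul_pow]
    norm_num
  have h4 : ∀ k : ℤ, |u.s * k| ≤ ‖c‖ + R → |k| ≤ (M : ℤ) := by
    intro k hk
    rw [abs_mul, abs_of_pos hs0] at hk
    have h5 : |(k : ℝ)| ≤ (M : ℝ) := by
      have h6 : |(k : ℝ)| = (u.s * |(k : ℝ)|) * 2 ^ n := by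
        have : (u.s * |(k : ℝ)|) * 2 ^ n = (2 ^ n * u.s) * |(k : ℝ)| := by ring
        rw [this, e, one_mul]
      rw [h6]
      exact (mul_le_mul_of_nonneg_right hk (by positivity)).trans hM
    exact_mod_cast h5
  exact ⟨h4 _ ((Complex.abs_re_le_norm _).trans h3), h4 _ ((Complex.abs_im_le_norm _).trans h3)⟩

/-! ### VIS -/

/-- **leaf VISD** -/
def VISD (Sm : Finset ℂ → (ZMod 3 → Set ℂ) → ℝ → Prop) (z : ℂ → ℂ)
    (Adm : Dom → ℝ → Prop) : Prop :=
  ∀ (D : Dom) (δ : ℝ), Adm D δ → ∀ ρ > 0, ∀ η > 0, ∃ n : ℕ, ∀ᶠ ε : ℝ in 𝓝[>] 0,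
    sampleLaw {ω | ∃ x : St ℂ, Ok (net D ε ω) x.1 x.2 ∧ Alive (D.sites ε ω) (net D ε ω) x ∧
      ¬ Sm (D.sites ε ω) (sx (D.sites ε ω) (net D ε ω) x) ρ ∧
      ∀ u : Poly, u.n = n → u.P ⊆ Metric.closedBall D.c D.L →
        η < ‖TS (D.sites ε ω) (sx (D.sites ε ω) (net D ε ω) x) z -
          TU (D.sites ε ω) u.P √ε u.Lab z‖} ≤ ENNReal.ofReal η

/-- `rad C ε ≤ √ε` -/
theorem rad_le_sqrt {C : ℝ} (hC : 0 < C) : ∀ᶠ ε : ℝ in 𝓝[>] 0, rad C ε ≤ √ε := by
  have h1 := (DicCx831.log_small 1).eventually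
    (ge_mem_nhds (show (0 : ℝ) < 1 / C ^ 2 by positivity))
  filter_upwards [h1, ev_unit] with ε h2 h3
  have hl : 0 < Real.log (1 / ε) := Real.log_pos (by rw [lt_div_iff₀ h3.1]; linarith [h3.2])
  rw [Real.rpow_one, le_div_iff₀ (by positivity)] at h2
  refine Real.le_sqrt_of_sq_le ?_
  have h4 : rad C ε ^ 2 = ε * (ε * Real.log (1 / ε) * C ^ 2) := by
    unfold rad
    rw [mul_pow, mul_pow, Real.sq_sqrt hl.le]
    ring
  rw [h4]
  have := h3.1
  nlinarith

/-- a closed ball inside a closed ball -/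
theorem ball_in {z c : ℂ} {r L : ℝ} (hr : 0 ≤ r)
    (h : Metric.closedBall z r ⊆ Metric.closedBall c L) : ‖z - c‖ + r ≤ L := by
  obtain ⟨e, he, hz⟩ : ∃ e : ℂ, ‖e‖ = 1 ∧ z - c = (‖z - c‖ : ℂ) * e := by
    by_cases h0 : z - c = 0
    · exact ⟨1, norm_one, by rw [h0]; simp⟩
    · have h1 : (‖z - c‖ : ℂ) ≠ 0 := by
        exact_mod_cast (norm_pos_iff.2 h0).ne'
      refine ⟨(z - c) / ‖z - c‖, ?_, by field_simp⟩
      rw [norm_div, Complex.norm_real, norm_norm, div_self (norm_pos_iff.2 h0).ne']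
  have h1 : z + r * e ∈ Metric.closedBall z r := by
    rw [Metric.mem_closedBall, dist_eq_norm, add_sub_cancel_left, norm_mul, he, mul_one,
      Complex.norm_real, Real.norm_eq_abs, abs_of_nonneg hr]
  have h2 := h h1
  rw [Metric.mem_closedBall, dist_eq_norm] at h2
  have h3 : z + r * e - c = ((‖z - c‖ + r : ℝ) : ℂ) * e := by
    push_cast
    linear_combination hz
  rw [h3, norm_mul, he, mul_one, Complex.norm_real, Real.norm_eq_abs,
    abs_of_nonneg (by positivity)] at h2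
  exact h2

theorem P_ne (u : Poly) : u.P.Nonempty := by
  refine ⟨⟨u.s * (lc (u.v 0) (u.v 1)).1, u.s * (lc (u.v 0) (u.v 1)).2⟩, ?_⟩
  have hs0 : 0 < u.s := u.s_pos
  unfold Poly.P Pg
  rw [Set.mem_iUnion₂]
  refine ⟨lc (u.v 0) (u.v 1), u.cyc.left 0, le_rfl, ?_, le_rfl, ?_⟩
  · exact mul_le_mul_of_nonneg_left (by linarith) hs0.le
  · exact mul_le_mul_of_nonneg_left (by linarith) hs0.le

/-- the points near a region in a disc are in a disc -/
theorem near_in {u : Poly} {c : ℂ} {L a : ℝ} (h : u.P ⊆ Metric.closedBall c L) :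
    {x | Metric.infDist x u.P ≤ a} ⊆ Metric.closedBall 0 (‖c‖ + L + a + 1) := by
  intro x hx
  obtain ⟨y, hy, hxy⟩ := (Metric.infDist_lt_iff (P_ne u)).1 (lt_of_le_of_lt hx (lt_add_one a))
  have h1 := h hy
  rw [Metric.mem_closedBall, dist_eq_norm] at h1
  rw [dist_eq_norm] at hxy
  rw [mem_closedBall_zero_iff]
  calc ‖x‖ = ‖c + (y - c) + (x - y)‖ := by congr 1; ring
    _ ≤ ‖c + (y - c)‖ + ‖x - y‖ := norm_add_le _ _
    _ ≤ ‖c‖ + ‖y - c‖ + ‖x - y‖ := by linarith [norm_add_le c (y - c)]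
    _ ≤ _ := by linarith

/-- **locality**: in a good environment `TU` of the sites of the domain is `T u` -/
theorem tu_eq {D : Dom} {ε C K a C4 : ℝ} {ω : Sample} {u : Poly} (hε : 0 < ε)
    (hr : rad C ε ≤ √ε) (hG : Y0x831.Good D ε C K a C4 ω)
    (hf : ∀ r : ℝ, (points ε ω ∩ Metric.closedBall 0 r).Finite)
    (hP : u.P ⊆ Metric.closedBall D.c D.L) (z : ℂ → ℂ) :
    TU (D.sites ε ω) u.P √ε u.Lab z = Tz u z ε ω := by
  have hd : 0 < √ε := Real.sqrt_pos.2 hε
  have hE := hG.env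
  have hfu : (points ε ω ∩ {x | Metric.infDist x u.P ≤ 100 * √ε}).Finite :=
    (hf _).subset (Set.inter_subset_inter_right _ (near_in hP))
  unfold Tz
  refine TU_local hd ?_ ?_ (fun _ _ => rfl) z
  · intro w hw y hy
    have hw2 : Metric.closedBall w (2 * √ε) ⊆ u.P := hw
    have h1 : Metric.closedBall y √ε ⊆ Metric.closedBall w (2 * √ε) := by
      refine Metric.closedBall_subset_closedBall' ?_
      rw [dist_eq_norm]
      linarith
    have h2 := ball_in hd.le (h1.trans (hw2.trans hP))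
    obtain ⟨s, hs, hs2⟩ := hE.hole y (by
      rw [Metric.mem_closedBall, dist_eq_norm]
      linarith)
    rw [Metric.mem_ball, dist_eq_norm] at hs2
    have h3 : s ∈ Metric.closedBall D.c D.L := by
      refine (h1.trans (hw2.trans hP)) ?_
      rw [Metric.mem_closedBall, dist_eq_norm]
      linarith
    rw [Metric.mem_closedBall, dist_eq_norm] at h3
    exact ⟨s, Finset.mem_coe.2 ((DomAx722.mem_sites hE.fin).2 ⟨hs, h3⟩), by linarith⟩
  · intro x hx
    have h3 := hP hx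
    rw [Metric.mem_closedBall, dist_eq_norm] at h3
    rw [DomAx722.mem_sites hE.fin, Poly.mem_S hfu]
    refine ⟨fun h => ⟨h.1, ?_⟩, fun h => ⟨h.1, h3⟩⟩
    rw [Metric.infDist_zero_of_mem hx]
    positivity

theorem vis_of {Sm : Finset ℂ → (ZMod 3 → Set ℂ) → ℝ → Prop} {z : ℂ → ℂ}
    {Adm : Dom → ℝ → Prop} (hAdm : ∀ D δ, Adm D δ → D.W δ) (h : VISD Sm z Adm) :
    VIS Sm (fun u => Tz u z) z Adm := by
  intro D δ hD ρ hρ η hη
  have hL := (hAdm D δ hD).Lpos
  obtain ⟨n, h1⟩ := h D δ hD ρ hρ (η / 2) (by positivity)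
  obtain ⟨M, hM⟩ := box_of_ball n D.c D.L
  obtain ⟨P, hP⟩ := fin_poly n M
  obtain ⟨C, K, a, C4, hC, hK, ha, hC4, hgood⟩ := good_ev D hL
  refine ⟨P, ?_⟩
  filter_upwards [h1, hgood, rad_le_sqrt hC, ev_unit,
    (tendsto_id.mono_left nhdsWithin_le_nhds : Tendsto (fun ε : ℝ => ε) (𝓝[>] 0) (𝓝 0)).eventually
      (ge_mem_nhds (show (0 : ℝ) < η / 2 by positivity))] with ε e1 e2 e3 e4 e5
  set B1 : Set Sample := {ω | ∃ x : St ℂ, Ok (net D ε ω) x.1 x.2 ∧
      Alive (D.sites ε ω) (net D ε ω) x ∧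
      ¬ Sm (D.sites ε ω) (sx (D.sites ε ω) (net D ε ω) x) ρ ∧
      ∀ u : Poly, u.n = n → u.P ⊆ Metric.closedBall D.c D.L →
        η / 2 < ‖TS (D.sites ε ω) (sx (D.sites ε ω) (net D ε ω) x) z -
          TU (D.sites ε ω) u.P √ε u.Lab z‖} with hB1
  set B2 : Set Sample := {ω | ¬ Y0x831.Good D ε C K a C4 ω} with hB2
  set Z : Set Sample := {ω | ¬ ∀ r : ℝ, (points ε ω ∩ Metric.closedBall 0 r).Finite} with hZ
  have hZ0 : sampleLaw Z = 0 := by
    have h' : ∀ᵐ ω ∂sampleLaw, ∀ r : ℝ, (points ε ω ∩ Metric.closedBall 0 r).Finite := by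
      filter_upwards [PoisM3x930.m3a ε e4.1] with ω hω
      exact hω.2.2
    exact ae_iff.1 h'
  have hsub : {ω | ∃ x : St ℂ, Ok (net D ε ω) x.1 x.2 ∧ Alive (D.sites ε ω) (net D ε ω) x ∧
      ¬ Sm (D.sites ε ω) (sx (D.sites ε ω) (net D ε ω) x) ρ ∧
      ∀ u ∈ P, η < ‖TS (D.sites ε ω) (sx (D.sites ε ω) (net D ε ω) x) z - Tz u z ε ω‖} ⊆
      (B1 ∪ B2) ∪ Z := by
    rintro ω ⟨x, hok, hAl, hs, hu⟩
    by_contra hcon
    simp only [mem_union, not_or] at hcon
    obtain ⟨⟨c1, c2⟩, c3⟩ := hcon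
    have hω : Y0x831.Good D ε C K a C4 ω := by
      by_contra h'
      exact c2 h'
    have hf : ∀ r : ℝ, (points ε ω ∩ Metric.closedBall 0 r).Finite := by
      by_contra h'
      exact c3 h'
    refine c1 ⟨x, hok, hAl, hs, ?_⟩
    intro u hn huP
    obtain ⟨u', hu', f1, f2, f3⟩ := hP u hn (hM u hn huP)
    have h3 := hu u' hu'
    rw [Tz_eq f1 f2 f3] at h3
    rw [tu_eq e4.1 e3 hω hf huP]
    linarith
  refine (measure_mono hsub).trans ((measure_union_le _ _).trans ?_)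
  rw [hZ0, add_zero]
  refine (measure_union_le _ _).trans ?_
  have h3 : ENNReal.ofReal η = ENNReal.ofReal (η / 2) + ENNReal.ofReal (η / 2) := by
    rw [← ENNReal.ofReal_add (by positivity) (by positivity)]
    congr 1
    ring
  rw [h3]
  exact add_le_add e1 (e2.trans (ENNReal.ofReal_le_ofReal e5))

end Crest.Agent.R143.VisAx758
end
end

-- ▼ part R143/HullF_93
section

/-!
# Row 143 (S0194), leaf HULLM (helper93 + helper66): the mesh bound M4 up to the hull circle

* `hullm` : for every domain with `0 < D.L`, with probability tending to `1`, for all `z` in the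
  closed disc and all `b ∈ [b0, 1]`: the energy of the Delaunay triangles of the sites which meet
  the closed ball `B(z, b)` is at most `CH * b ^ 2` (`CH` absolute)
-/

set_option autoImplicit false

noncomputable section

namespace Crest.Agent.R143.HullFx93

open Set MeasureTheory Filter Topology
open scoped Classical ENNReal ComplexConjugate
open Crest.ProbabilityR.Voronoi
open Crest.Agent.R143.B0Dx346 Crest.Agent.R143.PP1x831 Crest.Agent.R143.HullMx93

theorem capS_of_capOK {ε L : ℝ} {c : ℂ} {ω : Sample} (hW : ε ^ (3 / 5 : ℝ) ≤ L)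
    (hW0 : 0 ≤ ε ^ (3 / 5 : ℝ)) (h : HullEx66.CapOK ε c L ω) : CapS ε c L ω := by
  intro e he
  refine h e he (√(L ^ 2 - (ε ^ (3 / 5 : ℝ)) ^ 2)) (ε ^ (3 / 5 : ℝ)) ?_ le_rfl
  rw [Real.sq_sqrt (by nlinarith)]
  ring

theorem capS (c : ℂ) {L : ℝ} (hL : 0 < L) : ∀ η : ℝ, 0 < η → ∀ᶠ ε : ℝ in 𝓝[>] 0,
    sampleLaw {ω | ¬ CapS ε c L ω} ≤ ENNReal.ofReal η := by
  intro η hη
  have l5 : Tendsto (fun ε : ℝ => ε ^ (3 / 5 : ℝ)) (𝓝[>] 0) (𝓝 0) := by
    have h0 : Tendsto (fun ε : ℝ => ε ^ (3 / 5 : ℝ)) (𝓝 0) (𝓝 (0 ^ (3 / 5 : ℝ))) :=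
      (Real.continuousAt_rpow_const 0 (3 / 5 : ℝ) (Or.inr (by norm_num))).tendsto
    rw [Real.zero_rpow (by norm_num)] at h0
    exact h0.mono_left nhdsWithin_le_nhds
  filter_upwards [HullEx66.cap_ok c hL hη, l5.eventually_le_const hL, eventually_mem_nhdsWithin]
    with ε h1 h2 h3
  refine (measure_mono ?_).trans h1
  intro ω hω hcon
  exact hω (capS_of_capOK h2 (Real.rpow_nonneg (le_of_lt h3) _) hcon)

theorem annS (c : ℂ) {L : ℝ} (hL : 0 < L) : ∀ C : ℝ, 0 < C → ∀ η : ℝ, 0 < η →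
    ∀ᶠ ε : ℝ in 𝓝[>] 0, sampleLaw {ω | ¬ AnnS C ε c L ω} ≤ ENNReal.ofReal η :=
  fun C hC η hη => HullEx66.ann_ok c hL hC (A := 4) (by norm_num) hη

/-- **HULLM** -/
theorem hullm {D : Dom} (hL : 0 < D.L) :
    ∀ b0 : ℝ, 0 < b0 → ∀ η : ℝ, 0 < η → ∀ᶠ ε : ℝ in 𝓝[>] 0,
      sampleLaw {ω | ¬ MHull D CH ε b0 ω} ≤ ENNReal.ofReal η :=
  hullm_of hL (capS D.c hL) (annS D.c hL)

end Crest.Agent.R143.HullFx93
end
end

-- ▼ part R143/HullQ_93
section

/-!
# Row 143 (S0194): HULLM in the literal form of 377's ArmsE (helper93)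
-/

set_option autoImplicit false

noncomputable section

namespace Crest.Agent.R143.HullQx93

open Set MeasureTheory Filter Topology
open scoped Classical ENNReal
open Crest.ProbabilityR.Voronoi
open Crest.Agent.R143.B0Dx346 Crest.Agent.R143.HullMx93

/-- for every class of domains with positive radius -/
theorem hullM {Adm : Dom → ℝ → Prop} (hA : ∀ D δ, Adm D δ → 0 < D.L) : Mabx377.HULLM Adm := by
  intro D δ hD
  refine ⟨CH, CH_pos.le, fun b0 h0 η hη => ?_⟩
  filter_upwards [HullFx93.hullm (hA D δ hD) b0 h0 η hη] with ε h1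
  refine (measure_mono ?_).trans h1
  intro ω hω hcon
  refine hω fun z hz b hb hb' => hcon z ?_ b hb hb'
  rw [mem_closedBall_iff_norm]
  exact hz

/-- **HULLM for the admissible domains** -/
theorem hullM_adP : Mabx377.HULLM GeoSeqPx422.AdP :=
  hullM fun _ _ h => h.1.Lpos

end Crest.Agent.R143.HullQx93
end
end

-- ▼ part R143/FinD_894
section

/-!
# Row 143 (S0194): what is left, second form (helper894)

* `leaf_visd` : `SMALL`, `VISD` (758, the total of the sites of the domain) for `id`, `conj`, and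
  `RIGP Poly.T Dk` (854, 62) give the leaf
* `leaf_harm` : `HARM`, `HULLM` (377's `SMALL`), `VISD Sm1` for `id`, `conj`, and `RIGP Poly.T Dk`
-/

set_option autoImplicit false

noncomputable section

namespace Crest.Agent.R143.FinDx894

open Crest.ProbabilityR.Voronoi
open Crest.Agent.R143.B0Dx346 Crest.Agent.R143.GeoSeqPx422
open Crest.Agent.R143.AsmNx758 Crest.Agent.R143.Finx894 Crest.Agent.R143.PolyUx346
open Crest.Agent.R143.FinCx894 Crest.Agent.R143.VisAx758 Crest.Agent.R143.RelPx62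
open Crest.Agent.R143.Mabx377 (SMALL VIS)
open Crest.Agent.R143.PolyQx854 (RIGP)





theorem adP_ad (D : Dom) (δ : ℝ) (h : AdP D δ) : D.Ad δ := h.1

theorem contB_harm (hH : Mabx377.HARM) (hM : Mabx377.HULLM AdP)
    (h2 : VISD Mabx377.Sm1 id AdP) : ContB :=
  Mabx377.cont_we' adP_ad hH hM (vis_of FinBx894.adP_w h2)

theorem contD_harm (hH : Mabx377.HARM) (hM : Mabx377.HULLM AdP)
    (h2 : VISD Mabx377.Sm1 (starRingEnd ℂ) AdP) : ContD :=
  Mabx377.cont_wd' adP_ad hH hM (vis_of FinBx894.adP_w h2)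



end Crest.Agent.R143.FinDx894
end
end

-- ▼ part R143/SmlF_377
section

/-!
# Row 143 (S0194), CONT: the small side from one statement (helper377)

* `hullm_adm : HULLM Adm` (helper93, helper66)
* `harm_of : HarmSx496.Harm → HARM`
* **`small_one_id`, `small_one_conj`** : `HarmOne → SMALL Sm1 z Adm`
* **`cont_we_one`, `cont_wd_one`** : `HarmOne → VIS Sm1 T z Adm → CONT`
-/

set_option autoImplicit false

noncomputable section

open scoped Classical

namespace Crest.Agent.R143.Mabx377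

open Complex Set Filter Topology MeasureTheory
open Crest.ProbabilityR.Voronoi
open Crest.Agent.R143.B0x346 Crest.Agent.R143.B0Dx346

/-- **HULLM** -/
theorem hullm_adm {Adm : Dom → ℝ → Prop} (hAdm : ∀ D δ, Adm D δ → D.Ad δ) : HULLM Adm := by
  intro D δ hD
  have hL := (hAdm D δ hD).w.Lpos
  refine ⟨HullMx93.CH, HullMx93.CH_pos.le, ?_⟩
  intro b0 hb0 η hη
  filter_upwards [HullFx93.hullm hL b0 hb0 η hη] with ε h1
  refine (measure_mono ?_).trans h1
  intro ω hω hcon
  exact hω fun z hz b hb hb' => hcon z (mem_closedBall_iff_norm.2 hz) b hb hb'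

theorem harm_of (h : HarmSx496.Harm) : HARM := h

/-- **one arm at all places of the disc, environment form** -/
theorem arms_one {Adm : Dom → ℝ → Prop} (hAdm : ∀ D δ, Adm D δ → D.Ad δ)
    (h : HarmSx496.HarmOne) : ARMS Adm :=
  arms_of hAdm (harm_of (HarmSx496.harm_of_one h)) (hullm_adm hAdm)

theorem small_one_id {Adm : Dom → ℝ → Prop} (hAdm : ∀ D δ, Adm D δ → D.Ad δ)
    (h : HarmSx496.HarmOne) : SMALL Sm1 id Adm :=
  small_of hAdm (arms_one hAdm h) (hullm_adm hAdm) fun _ _ => le_rfl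

theorem small_one_conj {Adm : Dom → ℝ → Prop} (hAdm : ∀ D δ, Adm D δ → D.Ad δ)
    (h : HarmSx496.HarmOne) : SMALL Sm1 (starRingEnd ℂ) Adm :=
  small_of hAdm (arms_one hAdm h) (hullm_adm hAdm) fun u v => by
    rw [← map_sub, Complex.norm_conj]

/-- **CONT, weight `we`** -/
theorem cont_we_one {U : Type} {T : U → ℝ → Sample → ℂ} {Adm : Dom → ℝ → Prop}
    (hAdm : ∀ D δ, Adm D δ → D.Ad δ) (h : HarmSx496.HarmOne) (h2 : VIS Sm1 T id Adm) :
    AsmNx758.CONT AsmNx758.we T Adm :=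
  cont_we NetH2x346.hitu' hAdm (small_one_id hAdm h) h2

/-- **CONT, weight `wd`** -/
theorem cont_wd_one {U : Type} {T : U → ℝ → Sample → ℂ} {Adm : Dom → ℝ → Prop}
    (hAdm : ∀ D δ, Adm D δ → D.Ad δ) (h : HarmSx496.HarmOne)
    (h2 : VIS Sm1 T (starRingEnd ℂ) Adm) : AsmNx758.CONT AsmNx758.wd T Adm :=
  cont_wd NetH2x346.hitu' hAdm (small_one_conj hAdm h) h2

end Crest.Agent.R143.Mabx377
end
end

-- ▼ part R143/VisE_377

/-!
# Row 143 (S0194), CONT: the environment passage of the visible side (helper377)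

* `DETQ z` : 877's deterministic statement `DETV z` (literal)
* `ccw_x` : the classes of an alive state are in counterclockwise order
* **`visd_of : DETQ z → ARMS Adm → HULLM Adm → VISD Sm1 z Adm`**
* **`cont_we_det`, `cont_wd_det`** : `HarmOne → DETQ z → CONT` for the frozen polygons
-/

set_option autoImplicit false

noncomputable section

open scoped Classical

namespace Crest.Agent.R143.Mabx377

open Complex Set Filter Topology MeasureTheory
open Crest.ProbabilityR.Voronoi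
open Crest.Agent.R143.B0x346 Crest.Agent.R143.B0Dx346 Crest.Agent.R143.PP1x831
open Crest.Agent.R143.J1x872 Crest.Agent.R143.J4x872 Crest.Agent.R143.JWalkx872
open Crest.Agent.R143.JCardx872 Crest.Agent.R143.Oscx63
open Crest.Agent.R143.Sidesx697 (Wall Side)
open Crest.Agent.R143.B6Ix903 (net)
open Crest.Agent.R143.DicCx831 (rad_small rad_pos ev_unit)
open Crest.Agent.R143.DicDx831 (hnet_ev good_ev)
open Crest.Agent.R143.HitLx54 (Dj sA)
open Crest.Agent.R143.NetUx346 (TS ff Hex)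
open Crest.Agent.R143.NetVx346 (TU)
open Crest.Agent.R143.PolyUx346
open Crest.Agent.R143.VisAx758 (VISD rad_le_sqrt)

/-- 877's deterministic statement -/
def DETQ (z : ℂ → ℂ) : Prop := ∀ (x0 : ℂ) (L C4 C c : ℝ), 0 < L → 0 ≤ C4 → 1 ≤ C → 0 < c →
  ∀ ρ > 0, ∀ η > 0, ∃ (n : ℕ) (b0 : ℝ), 0 < b0 ∧ ∀ (S : Finset ℂ) (e e' : ℝ),
    DomAx722.Dns S x0 L e → e ≤ e' → e' ≤ b0 → HM S x0 L C4 b0 → Arms S x0 L C c b0 →
    ∀ A : ZMod 3 → Set ℂ, K33x877.Tr S A → Hexx877.Ccw S A → ¬ Sm1 S A ρ →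
      ∃ u : Poly, u.n = n ∧ u.P ⊆ Metric.closedBall x0 L ∧
        ‖TS S A z - TU S u.P e' u.Lab z‖ ≤ η

/-- the classes of an alive state are counterclockwise -/
theorem ccw_x {S : Finset ℂ} {N : Net ℂ} (h : HNet S N)
    (hkl : ∀ a b : ℂ, (a, b) ∈ N.kl → (a, b) ∈ N.E → ∃ i, Side N i a)
    {x : St ℂ} (hok : Ok N x.1 x.2) (hA : Alive S N x) : Hexx877.Ccw S (sx S N x) := by
  obtain ⟨hN, hpr, -⟩ := alive_net h hkl hok hA
  have O := PgNx848.tg_of_net hN hpr
  intro i
  refine ⟨_, _, O.hr (i + 1), ?_, O.end2 (i + 1)⟩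
  have := O.end1 (i + 1)
  rw [add_sub_cancel_right] at this
  exact this

/-- **the environment passage of VIS** -/
theorem visd_of {z : ℂ → ℂ} {Adm : Dom → ℝ → Prop} (hAdm : ∀ D δ, Adm D δ → D.Ad δ)
    (hz : DETQ z) (hA : ARMS Adm) (hM : HULLM Adm) : VISD Sm1 z Adm := by
  intro D δ hD ρ hρ η hη
  have hOK := hAdm D δ hD
  have hL := hOK.w.Lpos
  have hδ := hOK.w.dpos
  obtain ⟨C, c, hC, hc, h1⟩ := hA D δ hD
  obtain ⟨C4, hC4, h2⟩ := hM D δ hD
  obtain ⟨n, b0, hb0, h3⟩ := hz D.c D.L C4 C c hL hC4 hC hc ρ hρ η hη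
  refine ⟨n, ?_⟩
  obtain ⟨C', K, a, C4', hC', hK, ha, hC4', hgood⟩ := good_ev D hL
  have hsq : ∀ᶠ ε : ℝ in 𝓝[>] 0, √ε ≤ b0 := by
    have ht : Tendsto (fun ε : ℝ => √ε) (𝓝[>] 0) (𝓝 0) := by
      have := (Real.continuous_sqrt.tendsto 0).mono_left
        (nhdsWithin_le_nhds (s := Ioi (0 : ℝ)))
      rwa [Real.sqrt_zero] at this
    exact ht.eventually (ge_mem_nhds hb0)
  filter_upwards [h1 b0 hb0 (η / 3) (by positivity), h2 b0 hb0 (η / 3) (by positivity), hgood,
    hnet_ev hOK.w hC',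
    (rad_small C').eventually (ge_mem_nhds (show (0 : ℝ) < δ ^ 6 / (40000 * D.L ^ 5) by positivity)),
    (tendsto_id.mono_left nhdsWithin_le_nhds : Tendsto (fun ε : ℝ => ε) (𝓝[>] 0) (𝓝 0)).eventually
      (ge_mem_nhds (show (0 : ℝ) < η / 3 by positivity)), rad_le_sqrt hC', hsq]
    with ε g1 g2 g3 g4 g5 g6 g7 g8
  rw [le_div_iff₀ (by positivity)] at g5
  have hd : 40000 * D.L ^ 5 * rad C' ε ≤ δ ^ 6 := by linarith
  have hsub : {ω | ∃ x : St ℂ, Ok (net D ε ω) x.1 x.2 ∧ Alive (D.sites ε ω) (net D ε ω) x ∧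
      ¬ Sm1 (D.sites ε ω) (sx (D.sites ε ω) (net D ε ω) x) ρ ∧
      ∀ u : Poly, u.n = n → u.P ⊆ Metric.closedBall D.c D.L →
        η < ‖TS (D.sites ε ω) (sx (D.sites ε ω) (net D ε ω) x) z -
          TU (D.sites ε ω) u.P √ε u.Lab z‖} ⊆
      ({ω | ¬ Arms (D.sites ε ω) D.c D.L C c b0} ∪
        {ω | ¬ HM (D.sites ε ω) D.c D.L C4 b0}) ∪ {ω | ¬ Y0x831.Good D ε C' K a C4' ω} := by
    rintro ω ⟨x, hok, hAl, hSm, hbig⟩
    by_contra hcon
    simp only [mem_union, mem_ofPred_eq, not_or, not_not] at hcon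
    obtain ⟨⟨c1, c2⟩, c3⟩ := hcon
    have hN := g4 K a C4' ω c3
    have hS := DomAx722.dns_of_env hL (DomAx722.small_d hL hδ hOK.w.lt.le hd) c3.env
    have hkl := hkl_dom hOK hS hd hN
    obtain ⟨-, -, -, -, hT, -⟩ := alive_net hN hkl hok hAl
    obtain ⟨u, hu1, hu2, hu3⟩ := h3 _ _ √ε hS g7 g8 c2 c1 _ hT (ccw_x hN hkl hok hAl) hSm
    exact absurd (hbig u hu1 hu2) (not_lt.2 hu3)
  have h4 : ENNReal.ofReal η =
      ENNReal.ofReal (η / 3) + ENNReal.ofReal (η / 3) + ENNReal.ofReal (η / 3) := by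
    rw [← ENNReal.ofReal_add (by positivity) (by positivity),
      ← ENNReal.ofReal_add (by positivity) (by positivity)]
    congr 1
    ring
  rw [h4]
  refine (measure_mono hsub).trans ((measure_union_le _ _).trans ?_)
  refine add_le_add ((measure_union_le _ _).trans (add_le_add g1 g2)) ?_
  exact g3.trans (ENNReal.ofReal_le_ofReal g6)

/-- **VISD from the deterministic statement and one scale at the hull** -/
theorem visd_one {z : ℂ → ℂ} {Adm : Dom → ℝ → Prop} (hAdm : ∀ D δ, Adm D δ → D.Ad δ)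
    (h : HarmSx496.HarmOne) (hz : DETQ z) : VISD Sm1 z Adm :=
  visd_of hAdm hz (arms_one hAdm h) (hullm_adm hAdm)

/-- **CONT, weight `we`, frozen polygons** -/
theorem cont_we_det {Adm : Dom → ℝ → Prop} (hAdm : ∀ D δ, Adm D δ → D.Ad δ)
    (h : HarmSx496.HarmOne) (hz : DETQ id) :
    AsmNx758.CONT AsmNx758.we (fun u : Poly => u.T) Adm :=
  cont_we_one hAdm h (VisAx758.vis_of (fun D δ hD => (hAdm D δ hD).w) (visd_one hAdm h hz))

/-- **CONT, weight `wd`, frozen polygons** -/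
theorem cont_wd_det {Adm : Dom → ℝ → Prop} (hAdm : ∀ D δ, Adm D δ → D.Ad δ)
    (h : HarmSx496.HarmOne) (hz : DETQ (starRingEnd ℂ)) :
    AsmNx758.CONT AsmNx758.wd (fun u : Poly => u.T') Adm :=
  cont_wd_one hAdm h (VisAx758.vis_of (fun D δ hD => (hAdm D δ hD).w) (visd_one hAdm h hz))

end Crest.Agent.R143.Mabx377
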