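import Crest.Agent.R143.Comp_54_Mg
import Crest.Agent.R143.HarmZ_802
import Crest.Agent.R143.Hul_755
import Crest.Agent.R143.Grd_359
import Crest.Agent.R143.VisE_377_Mg
import Crest.Agent.R143.VisD_877
import Crest.Agent.R143.K7_359
import Crest.Agent.R143.Comp_66
import Crest.Agent.R143.CtrL_723
import Crest.Agent.R143.K33R_877
import Crest.Agent.R143.Spk_951
import Crest.Agent.R143.LabB3_951
import Crest.Agent.R143.RE0_723
import Crest.Agent.R143.For_991
import Crest.Agent.R143.K33_877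
import Crest.Agent.R143.K7D_359
import Crest.Agent.R143.GridT_991
import Crest.Agent.R143.D4L_408
import Crest.Agent.R143.Seg_991
import Crest.Agent.R143.Ten_416
import Crest.Agent.R143.TentM_951

-- ▼ part R143/FinF_894
section

/-!
# Row 143 (S0194): closed boxes inserted (helper894)

`HarmOne` (802), `PG` (755), `GRID` (359), `COMP` (54) are theorems: what is left is
`LAYER`, `CENT`, `THR`, `MARK` of 359 and `Rig`.
-/

set_option autoImplicit false

noncomputable section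

namespace Crest.Agent.R143.FinFx894

open Crest.ProbabilityR.Voronoi
open Crest.Agent.R143.Finx894 Crest.Agent.R143.FinCx894 Crest.Agent.R143.FinEx894
open Crest.Agent.R143.K7Dx359 (LAYER CENT THR MARK K7)

theorem pg : VisDx877.PG := fun _ _ hT hc _ => Hulx755.pg_of_ccw hT hc

theorem k7 (h1 : LAYER) (h4 : CENT) (h5 : THR) (h6 : MARK) : K7 :=
  K7x359.k7_of h1 Grdx359.grid Compx54.comp h4 h5 h6

theorem contB (h : K7) : ContB := contB_det HarmZx802.harmOne (detq_id h pg)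

theorem contD (h : K7) : ContD := contD_det HarmZx802.harmOne (detq_conj h pg)



end Crest.Agent.R143.FinFx894
end
end

-- ▼ part R143/FinE_377
section

/-!
# Row 143 (S0194): what is left, third form (helper377)

* **`leaf_det`** : the leaf from four open Props, three of them deterministic:
  `HarmSx496.HarmOne` (the quad step at the hull), `DETQ id`, `DETQ conj` (877's visible side at one
  environment), and `RIGP Poly.T Dk`.
-/

set_option autoImplicit false

noncomputable section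

namespace Crest.Agent.R143.Mabx377

open Crest.ProbabilityR.Voronoi
open Crest.Agent.R143.B0Dx346 Crest.Agent.R143.GeoSeqPx422
open Crest.Agent.R143.AsmNx758 Crest.Agent.R143.Finx894 Crest.Agent.R143.PolyUx346
open Crest.Agent.R143.FinCx894 Crest.Agent.R143.VisAx758 Crest.Agent.R143.RelPx62
open Crest.Agent.R143.PolyQx854 (RIGP)

/-- CONT for the frozen polygons -/
theorem contB_det (h1 : HarmSx496.HarmOne) (h2 : DETQ id) : ContB :=
  FinDx894.contB_harm (harm_of (HarmSx496.harm_of_one h1)) HullQx93.hullM_adP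
    (visd_one FinDx894.adP_ad h1 h2)

theorem contD_det (h1 : HarmSx496.HarmOne) (h2 : DETQ (starRingEnd ℂ)) : ContD :=
  FinDx894.contD_harm (harm_of (HarmSx496.harm_of_one h1)) HullQx93.hullM_adP
    (visd_one FinDx894.adP_ad h1 h2)



end Crest.Agent.R143.Mabx377
end
end

-- ▼ part R143/FinF_377
section

/-!
# Row 143 (S0194): what is left, fourth form (helper377)

* `pg : PG` (755), `detq_id`, `detq_conj` : `K7 → DETQ z`
* **`leaf_k7`** : `HarmOne → K7 → RIGP Poly.T Dk → Leaf894`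
* **`leaf_k7'`** : the same with K7 cut into 359's leaves (COMP is 66's theorem)
-/

set_option autoImplicit false

noncomputable section

namespace Crest.Agent.R143.Mabx377

open Crest.ProbabilityR.Voronoi
open Crest.Agent.R143.Finx894 Crest.Agent.R143.PolyUx346 Crest.Agent.R143.RelPx62
open Crest.Agent.R143.PolyQx854 (RIGP)
open Crest.Agent.R143.FinCx894 (ContB ContD)

theorem pg : VisDx877.PG := fun _ _ hT hc _ => Hulx755.pg_of_ccw hT hc

theorem detq_id (h : K7Dx359.K7) : DETQ id := VisDx877.detv_id h pg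

theorem detq_conj (h : K7Dx359.K7) : DETQ (starRingEnd ℂ) := VisDx877.detv_conj h pg

theorem contB_k7 (h1 : HarmSx496.HarmOne) (h2 : K7Dx359.K7) : ContB := contB_det h1 (detq_id h2)

theorem contD_k7 (h1 : HarmSx496.HarmOne) (h2 : K7Dx359.K7) : ContD := contD_det h1 (detq_conj h2)



end Crest.Agent.R143.Mabx377
end
end

-- ▼ part R143/Cent_723
section

/-!
# Row 143 (S0194), CONT / K7: leaf CENT of `K7D_359` (helper723)

* `vis0` : `CtrLx723.vis` without orientation (existence of the hit `HITE` of 877 for the empty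
  colouring)
* **`cent : K7Dx359.CENT`**
-/

set_option autoImplicit false

noncomputable section

open scoped Classical

namespace Crest.Agent.R143.Centx723

open Set
open Crest.Agent.R143.B0x346 Crest.Agent.R143.DelGx806 Crest.Agent.R143.DelRx806
  Crest.Agent.R143.JColx54 Crest.Agent.R143.RE0x723
open Crest.Agent.R143.K33x877
open Crest.Agent.R143.RB2x54 (Vt)
open Crest.Agent.R143.CenSx496 (SmC)
open Crest.Agent.R143.Loc8x277 (Cp cp_ctr clu_out)
open Crest.Agent.R143.CtrLx723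

variable {S : Finset ℂ} {A A' : ZMod 3 → Set ℂ} {r m : ℝ}

/-- three classes have a centre -/
theorem ex_centre (hT : Tr S A) : (∃ t, CtrT S A t) ∨ ∃ b, b ∈ fr S A ∧ CtrX S A (Cp S A b) := by
  have hS := hT.gp
  obtain ⟨b, v, u, h⟩ := hite S A hT 0 1 2 (by decide) (by decide) (by decide) ∅
  have hb : b ∈ A 0 := by
    rcases clu_out h.hb with h1 | ⟨h1, -⟩
    · exact h1
    · exact absurd h1.2 (Set.notMem_empty _)
  have hu := h.hu
  -- adjacencies
  have hadj : Adj S b v ∧ Adj S v u ∧ Adj S u b := by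
    rcases h.tri with h1 | h1
    · exact ⟨adj_tri h1, adj_tri' hS h1, adj_tri'' hS h1⟩
    · exact ⟨(adj_tri h1).symm, (adj_tri'' hS h1).symm, (adj_tri' hS h1).symm⟩
  obtain ⟨abv, avu, aub⟩ := hadj
  have z3' : ∀ k : ZMod 3, k = 0 ∨ k = 1 ∨ k = 2 := by decide
  rcases clu_out h.hv with hv | ⟨hv, a, ha, c, hac, hp⟩
  · left
    rcases h.tri with h1 | h1
    · refine ⟨_, h1, fun k => ?_⟩
      rcases z3' k with rfl | rfl | rfl
      · exact ⟨b, Or.inl rfl, hb⟩
      · exact ⟨v, Or.inr (Or.inl rfl), hv⟩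
      · exact ⟨u, Or.inr (Or.inr rfl), hu⟩
    · refine ⟨_, h1, fun k => ?_⟩
      rcases z3' k with rfl | rfl | rfl
      · exact ⟨b, Or.inr (Or.inl rfl), hb⟩
      · exact ⟨v, Or.inl rfl, hv⟩
      · exact ⟨u, Or.inr (Or.inr rfl), hu⟩
  · right
    have hv' : v ∈ fr S A := hv.1
    refine ⟨v, hv', cp_ctr fun k => ?_⟩
    have vv : v ∈ Cp S A v := Pth.refl hv'
    rcases z3' k with rfl | rfl | rfl
    · exact ⟨v, vv, b, hb, abv.symm⟩
    · exact ⟨c, (hp.mono Set.sdiff_subset).symm, a, ha, hac.symm⟩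
    · exact ⟨v, vv, u, hu, avu⟩

/-- **VISIBILITY** without orientation -/
theorem vis0 (hT' : Tr S A') (hA : ∀ i, A i ⊆ A' i) (hth : Thn S A A' r)
    (hr : 0 ≤ r) (hm : ∀ u v, Adj S u v → ‖u - v‖ ≤ m) (hns : ∀ p, ¬ SmC S A p (m + r)) :
    (∀ t, ¬ CtrT S A' t) ∧ ∃ X, CtrX S A' X ∧ X ⊆ fr S A' ∧
      (∀ x ∈ X, ∀ y, Pth S (fr S A') x y → y ∈ X) ∧ ∀ Y, CtrX S A' Y → ¬ Disjoint X Y := by
  have hS := hT'.gp
  have hnt : ∀ t, ¬ CtrT S A' t := by
    intro t ht
    have h1 : ∀ v, Vt t v → ‖v - t.1‖ ≤ m := by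
      intro v hv
      by_cases e : v = t.1
      · rw [e, sub_self, norm_zero]
        have h2 : Adj S t.1 t.2.1 := adj_tri ht.1
        exact (norm_nonneg _).trans (hm _ _ h2)
      · exact hm _ _ (vt_adj hS ht.1 hv (Or.inl rfl) e)
    exact hns _ (lift_t hS hA (fun i j h => hT'.disj i j h) hth hr ht h1)
  refine ⟨hnt, ?_⟩
  rcases ex_centre hT' with ⟨t, ht⟩ | ⟨b, hb, hX⟩
  · exact absurd ht (hnt t)
  · exact ⟨Cp S A' b, hX, fun v hv => Pth.snd hv, fun x hx y hy => Pth.trans hx hy,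
      fun Y hY => kxx S A' hT' _ _ hX hY⟩

theorem smC_mono {p : ℂ} {r r' : ℝ} (h : SmC S A p r) (hr : r ≤ r') : SmC S A p r' := by
  rcases h with ⟨c, h1, h2⟩ | ⟨X, h1, h2⟩
  · exact Or.inl ⟨c, h1, fun v hv => (h2 v hv).trans hr⟩
  · exact Or.inr ⟨X, h1, fun v hv => (h2 v hv).trans hr⟩

theorem thn_of {C s : ℝ} (h : ∀ j, K7Dx359.ThF S A A' j (C * s)) : Thn S A A' (C * s) := by
  intro j x hx
  obtain ⟨a, ha, hp⟩ := h j x hx
  refine ⟨a, ha, hp.mono ?_⟩
  rintro y ⟨h1, h2⟩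
  exact ⟨h1, mem_closedBall_iff_norm.2 h2⟩

/-- **leaf CENT** -/
theorem cent : K7Dx359.CENT := by
  intro C hC
  refine ⟨C + 1, by linarith, ?_⟩
  intro S A A' x0 L d s l hStg hLay
  obtain ⟨hs, -⟩ := Compx66.numbers hStg
  by_cases hns : ∃ p, SmC S A p ((C + 1) * s)
  · exact Or.inl hns
  right
  push Not at hns
  have hm : ∀ u v, Adj S u v → ‖u - v‖ ≤ s := by
    intro u v huv
    refine (Compx66.edge_len hStg huv).trans ?_
    rw [div_le_iff₀ (by norm_num)]
    nlinarith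
  obtain ⟨h1, X, hX, hXf, -, hXY⟩ := vis0 hLay.tr hLay.sub (thn_of hLay.thin)
    (mul_nonneg (by linarith) hs.le) hm (fun p h => hns p (smC_mono h (by linarith)))
  refine ⟨h1, X, hX, fun x hx => ?_, hXY⟩
  have h2 := hXf hx
  rw [hLay.fr] at h2
  exact h2

end Crest.Agent.R143.Centx723
end
end

-- ▼ part R143/FinG_377
section

/-!
# Row 143 (S0194): what is left, fifth form (helper377)

`HarmOne` (802), PG (755), GRID (359), COMP (66), CENT (723), HULLM (93, 66) are theorems.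

* `arms : ARMS Adm`, `small_id`, `small_conj'` : no hypothesis left
* **`leaf_k : K7 → RIGP Poly.T Dk → Leaf894`**, `leaf_rig : K7 → Rig → Leaf894`
* **`leaf_lmt : LAYER → THR → MARK → Rig → Leaf894`**
-/

set_option autoImplicit false

noncomputable section

namespace Crest.Agent.R143.Mabx377

open Crest.ProbabilityR.Voronoi
open Crest.Agent.R143.B0x346 Crest.Agent.R143.B0Dx346
open Crest.Agent.R143.Finx894 Crest.Agent.R143.PolyUx346 Crest.Agent.R143.RelPx62
open Crest.Agent.R143.PolyQx854 (RIGP)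
open Crest.Agent.R143.FinCx894 (ContB ContD Rig)




/-- **CONT from K7** -/
theorem contB_of_k7 (h : K7Dx359.K7) : ContB := contB_k7 HarmZx802.harmOne h

theorem contD_of_k7 (h : K7Dx359.K7) : ContD := contD_k7 HarmZx802.harmOne h

/-- 359's assembly with the proved leaves -/
theorem k7_lmt (a : K7Dx359.LAYER) (e : K7Dx359.THR) (f : K7Dx359.MARK) : K7Dx359.K7 :=
  K7x359.k7_of a Grdx359.grid Compx66.comp Centx723.cent e f


theorem leaf_rig (h2 : K7Dx359.K7) (h5 : Rig) : Leaf894 :=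
  FinCx894.leaf_frozen (contB_of_k7 h2) (contD_of_k7 h2) h5

/-- **the row from LAYER, THR, MARK and RIG** -/
theorem leaf_lmt (a : K7Dx359.LAYER) (e : K7Dx359.THR) (f : K7Dx359.MARK) (h5 : Rig) : Leaf894 :=
  leaf_rig (k7_lmt a e f) h5

end Crest.Agent.R143.Mabx377
end
end

-- ▼ part R143/Thr_755
section

/-!
# Row 143 (S0194), CONT (K7), leaf THR : three intervals of labels (helper755)

* `pg_near` : the component is well inside the disc; `inH` : inside the hull
* `st` : the setting of `Sep_755` for a component of the good bricks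
* `spoke` : a spoke at every boundary edge, its outer site has the label of the edge
* **`thr : THR`**
-/

set_option autoImplicit false

noncomputable section

open scoped Classical

namespace Crest.Agent.R143.Thrx755

open Crest.Agent.R158.Sp896 (V lc rc pt ed sq Cyc)
open Crest.Agent.R143.JColx54 (Adj)
open Crest.Agent.R143.B0x346 Crest.Agent.R143.DelGx806 Crest.Agent.R143.DelRx806
open Crest.Agent.R143.Brkx478 (Bk Nb Conn cells bk)
open Crest.Agent.R143.Tenx416 (Pg)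
open Crest.Agent.R143.NetVx346 (Vin)
open Crest.Agent.R143.DomAx722 (edge_dist abs_cr_le)
open Crest.Agent.R143.LabDx755 (md M)
open Crest.Agent.R143.Sepx755 (Out Spo St)
open Crest.Agent.R143.Segx991 (Hl)
open Crest.Agent.R143.K7Dx359
open Crest.Agent.R143.Compx66

variable {S : Finset ℂ} {A A' : ZMod 3 → Set ℂ} {x0 : ℂ} {L d s C : ℝ} {U : Finset Bk} {N : ℕ}
  {v : ℕ → V} {l : V → V → ZMod 3}

/-- the component is well inside the disc -/
theorem pg_near (hU : Cm A x0 L s U) {z : ℂ} (hz : z ∈ Pg s (cells (U : Set Bk))) :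
    ‖z - x0‖ ≤ L - 2 * s := by
  obtain ⟨q, hq, hz⟩ := mem_Pg.1 hz
  exact ((hU.sub _ hq) (bk q) (Or.inl rfl)).1 z (mem_Pg.2 ⟨q, rfl, hz⟩)

/-- the component is inside the hull -/
theorem inH (h : Stg S A x0 L d s) (hU : Cm A x0 L s U) {z : ℂ}
    (hz : z ∈ Pg s (cells (U : Set Bk))) : Ordx755.InH S z := by
  intro a b hab
  obtain ⟨hs, hd, h2d, -⟩ := numbers h
  have h1 := edge_dist h.dns hab
  have h2 := (abs_le.1 (abs_cr_le (b - a) (z - x0))).1
  have h3 := pg_near hU hz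
  have hn : 0 < ‖b - a‖ := norm_pos_iff.2 (sub_ne_zero.2 (hullE.ne hab).symm)
  have e : cr (b - a) (z - a) = cr (b - a) (x0 - a) + cr (b - a) (z - x0) := by
    unfold cr
    simp only [Complex.sub_re, Complex.sub_im]
    ring
  have h4 : ‖b - a‖ * ‖z - x0‖ ≤ ‖b - a‖ * (L - 2 * s) := mul_le_mul_of_nonneg_left h3 hn.le
  have h5 : 2 * d ≤ s := by norm_num at h2d; linarith
  rw [e]
  have h6 : 0 < ‖b - a‖ * (2 * s - 2 * d) := mul_pos hn (by linarith)
  nlinarith

/-- the setting of `Sep_755` -/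
theorem st (h : Stg S A x0 L d s) (hU : Cm A x0 L s U) (hc : Cyc (cells (U : Set Bk)) N v) :
    St S s (s / 16) (s / 10) (2 * d) (cells (U : Set Bk)) N v := by
  obtain ⟨hs, hd, h2d, -⟩ := numbers h
  norm_num at h2d
  exact
    { gp := h.dns.gp
      hμ := by linarith
      hr1 := by linarith
      hr := by linarith
      hδ := by linarith
      C := hc
      B := LabBx951.base s (s / 16) _ N v hs (by linarith) (by linarith)
        (Brkx478.cells_finite U.finite_toSet) (Brkx478.con_cells hU.con)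
        (fun q hq q' hq' => Brkx478.con_cells hU.con' q hq q' hq') hc
      con := Brkx478.con_cells hU.con
      sh := fun a b hab _ => by
        have := edge_len h (show Adj S a b from hab)
        have h3 : s / 2 ^ 17 < s / 16 / 2 := by norm_num; linarith
        linarith }

/-- `A'` is off the component -/
theorem out_A (h : Stg S A x0 L d s) (hL : Lay S A x0 L d s C l A') (hU : Cm A x0 L s U)
    {i : ZMod 3} {x : ℂ} (hx : x ∈ A' i) : Out s (2 * d) (cells (U : Set Bk)) x := by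
  intro hb
  have h1 : x ∈ Vu S d s U := mem_Vin.2 ⟨hL.tr.sub i hx, hb⟩
  have h2 : x ∈ (Va S A x0 L d s : Set ℂ) := ((comp S A x0 L d s h).1 U hU).1 x h1
  rw [← hL.fr] at h2
  exact h2.2 i hx

theorem irrefl {y : ℂ} (h : Adj S y y) : False := by
  rcases h with ⟨c, hc⟩ | ⟨c, hc⟩
  · obtain ⟨o, ht⟩ := mem_delT_iff.1 hc
    have := ht.pos
    simp [cr] at this
  · obtain ⟨o, ht⟩ := mem_delT_iff.1 hc
    have := ht.pos
    simp [cr] at this

/-- **a spoke at every boundary edge, its outer site has the label of the edge** -/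
theorem spoke (h : Stg S A x0 L d s) (hL : Lay S A x0 L d s C l A') (hU : Cm A x0 L s U)
    (hB : Bd S A' d s U l N v) (k : ℕ) :
    ∃ y c q, Spo S s (s / 16) (s / 10) (2 * d) (cells (U : Set Bk)) v k y c q ∧
      y ∈ A' (l (v k) (v (k + 1))) := by
  obtain ⟨hs, hd, h2d, -⟩ := numbers h
  norm_num at h2d
  have Z := st h hU hB.cyc
  have hMP : Metric.ball (M s (s / 16) v k) (s / 16) ⊆ Pg s (cells (U : Set Bk)) :=
    Z.B.rad k _ (left_mem_segment ℝ _ _)
  have hM : ‖M s (s / 16) v k - x0‖ ≤ L - 2 * s := pg_near hU (hMP (Metric.mem_ball_self Z.hμ))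
  have hMm := Labx755.M_md (s := s) Z.C Z.hμ k
  have hm : ‖md s v k - x0‖ ≤ L - 2 * s + s / 16 := by
    have e : md s v k - x0 = (M s (s / 16) v k - x0) - (M s (s / 16) v k - md s v k) := by ring
    rw [e]
    refine (norm_sub_le _ _).trans ?_
    linarith
  have H : Hl S (segment ℝ (md s v k) (M s (s / 16) v k)) d := by
    intro z hz
    have h1 : z ∈ Metric.closedBall x0 (L - 2 * s + s / 16) := by
      refine (convex_closedBall x0 _).segment_subset ?_ ?_ hz
      · rw [mem_closedBall_iff_norm]; exact hm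
      · rw [mem_closedBall_iff_norm]; linarith
    rw [mem_closedBall_iff_norm] at h1
    obtain ⟨t, ht, ht'⟩ := h.dns.hole z (by linarith)
    exact ⟨t, ht, by rw [norm_sub_rev]; exact ht'.le⟩
  obtain ⟨y, c, q, hq, -⟩ := Spkx951.spk_ex h.dns.gp h.card hB.cyc hs Z.hμ
    (show d < 2 * d by linarith) Z.hδ (show s / 16 + d ≤ s / 10 by linarith) k H
  refine ⟨y, c, q, hq, ?_⟩
  have hcd : ¬ Out s (2 * d) (cells (U : Set Bk)) c := by
    intro ho
    apply ho
    refine Set.Subset.trans ?_ hMP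
    have h1 := hq.last
    refine Metric.closedBall_subset_ball' ?_
    rw [dist_eq_norm]
    linarith
  obtain ⟨q0, rfl⟩ := hq.pl.left
  cases q0 with
  | nil =>
    exfalso
    obtain ⟨q1, h1⟩ := hq.pl.right
    have : q1 = [] ∧ y = c := by
      cases q1 with
      | nil => simpa using h1
      | cons => simp at h1
    exact hcd (this.2 ▸ hq.out)
  | cons x q1 =>
    have hadj : Adj S y x := hq.del (y, x) (by simp [ToolWx838.prs_cons])
    have hxq : x ∈ y :: x :: q1 := by simp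
    have hx : ¬ Out s (2 * d) (cells (U : Set Bk)) x := by
      intro ho
      have e := hq.inn x hxq ho
      rw [e] at hadj
      exact irrefl hadj
    have hxV : x ∈ Vu S d s U := mem_Vin.2 ⟨hq.mem x hxq, not_not.1 hx⟩
    have hyV : y ∉ (Va S A x0 L d s : Set ℂ) := by
      intro hy
      have h1 := ((comp S A x0 L d s h).1 U hU).2.1 x hxV y hy hadj.symm
      exact hq.out (mem_Vin.1 h1).2
    have hyS : y ∈ S := hq.mem y (by simp)
    rw [← hL.fr] at hyV
    have hyi : ∃ i, y ∈ A' i := by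
      by_contra hcon
      push Not at hcon
      exact hyV ⟨hyS, hcon⟩
    obtain ⟨i, hi⟩ := hyi
    obtain ⟨k', hk', hinf⟩ := hB.lab i y hi ⟨x, hxV, hadj⟩
    have hne : (ed s (v k') (v (k' + 1))).Nonempty := ⟨_, LabBx951.md_ed s v k'⟩
    obtain ⟨z, hz, hyz⟩ := (Metric.infDist_lt_iff hne).1 (show Metric.infDist y _ < s / 4 by linarith)
    rw [dist_eq_norm] at hyz
    have hmod : k' % N = k % N := by
      by_contra hne
      have h1 := LabBx951.rd_far hs.le Z.C hne (left_mem_segment ℝ _ _) hz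
      have h2 := hq.near y (by simp)
      have e : md s v k - z = (y - z) - (y - md s v k) := by ring
      rw [e] at h1
      have h3 := norm_sub_le (y - z) (y - md s v k)
      linarith
    have hper : Function.Periodic v N := Z.C.per
    have e1 : v k' = v k := by
      rw [← hper.map_mod_nat k', ← hper.map_mod_nat k, hmod]
    have e2 : v (k' + 1) = v (k + 1) := by
      rw [← hper.map_mod_nat (k' + 1), ← hper.map_mod_nat (k + 1), Nat.add_mod, hmod,
        ← Nat.add_mod]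
    rw [← e1, ← e2, hk']
    exact hi

/-- **THR** : the labels form three intervals -/
theorem thr : THR := by
  intro S A A' x0 L d s C l U N v hC h hL hU hB
  obtain ⟨n, w, p, hP⟩ := h.pg
  have H := Hulx755.hul_of_pg hP hL.sub
  obtain ⟨a0, a1, a2, h1, h2, h3, e0, e1, e2⟩ := Ordx755.three (st h hU hB.cyc)
    (fun z hz => inH h hU hz) (A := A') (fun i x hx => hL.tr.sub i hx)
    (fun i x hx => out_A h hL hU hx) (fun i j hij => hL.tr.disj i j hij)
    (fun i => hL.tr.con i) H (lab := fun k => l (v k) (v (k + 1)))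
    (fun k => by
      show l (v (k + N)) (v (k + N + 1)) = _
      rw [hB.cyc.per, show k + N + 1 = k + 1 + N by ring, hB.cyc.per])
    hB.all (spoke h hL hU hB)
  exact ⟨![a0, a1, a2], h1, h2, h3, e0, e1, e2⟩

end Crest.Agent.R143.Thrx755
end
end

-- ▼ part R143/Terr_583
section

/-!
# Row 143 (S0194): territories (helper583)

`S` sites, `V` a set of free sites, `X` the union of the classes. `ter S V X K` = sites of `S \ V`
whose shortest chain to `X` off `V` (991's forest) ends in `K`; `Dt S V X x` its length.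

* `ter_thin`, `ter_sub`, `ter_disj`, `ter_con`, `ter_all`, `ter_union`, `ter_un`
* `pg_ter` : the territories of the classes of a combinatorial polygon form a combinatorial
  polygon with the same hull marks whose inner sites are exactly `V`; `qd_ter` : the same for quads
* `Joi` : every site off `V` is joined to the classes off `V` (`joi_of_cut`: enough next to ..)
-/

set_option autoImplicit false

noncomputable section

open scoped Classical ENNReal

namespace Crest.Agent.R143.Terrx583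

open Crest.Agent.R143.B0x346 Crest.Agent.R143.DelGx806 Crest.Agent.R143.JColx54
open Crest.Agent.R143.RE0x723
open Crest.Agent.R143.Forx991 (D root Ln)

variable {S V X K K' : Finset ℂ} {x y : ℂ}

/-- length of the shortest chain off `V` from `x` to `X` -/
def Dt (S V X : Finset ℂ) (x : ℂ) : ℝ≥0∞ := D (Adj S) (S \ V) X x





/-- all sites off `V` are joined to `X` off `V` -/
def Joi (S V X : Finset ℂ) : Prop :=
  ∀ x ∈ S, x ∉ V → ∃ y ∈ X, Pth S {z | z ∈ S ∧ z ∉ V} x y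

/-- a chain off `V` to `X` bounds the distance -/
theorem dt_lt (hy : y ∈ X) (h : Pth S {z | z ∈ S ∧ z ∉ V} x y) : Dt S V X x < ⊤ := by
  have h' := h.symm
  refine h'.ind (P := fun z => Dt S V X z < ⊤) ?_ ?_
  · show D _ _ _ _ < ⊤
    rw [Forx991.D_A hy]
    exact ENNReal.zero_lt_top
  · intro a b ha hb hab hlt
    have h1 : D (Adj S) (S \ V) X b ≤ edist b a + D (Adj S) (S \ V) X a :=
      Forx991.D_step (Finset.mem_sdiff.2 hb) hab.symm
    exact h1.trans_lt (ENNReal.add_lt_top.2 ⟨edist_lt_top _ _, hlt⟩)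

theorem Joi.lt (h : Joi S V X) (hx : x ∈ S) (hV : x ∉ V) : Dt S V X x < ⊤ := by
  obtain ⟨y, hy, hp⟩ := h x hx hV
  exact dt_lt hy hp
















/-! ### polygons -/

section pg

variable {n m : ℕ} {w : ℤ → ℂ} {p : ℕ → ℤ} {A : ℕ → Finset ℂ}










end pg

/-! ### quads -/

section qd

variable {n : ℕ} {w : ℤ → ℂ} {i0 i1 i2 i3 : ℤ} {B : ZMod 4 → Finset ℂ}











end qd

/-! ### when all sites off `V` are joined to the classes -/


end Crest.Agent.R143.Terrx583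
end
end

-- ▼ part R143/Terr2_583
section

/-!
# Row 143 (S0194): thin territories without lengths (helper583)

Hypothesis: chains of small DIAMETER (no edge lengths, no mesh condition). Four shifted grids of
cells of side `4 ρ`; in step `c` the sites joined inside one cell of the grid `c` to the labelled
sites get their label (991's forest inside the cells), finally the global forest.

* `thin_forest` : abstract form
* `Frs S V X ρ f` : `f : ℂ → ℂ` retraction of `S \ V` onto `X` along chains; sites which are joined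
  to `X` off `V` inside the ball of radius `ρ` have a link of radius `24 ρ` ; `exists_frs`
* `cl S V f K` : territory of `K`; `pg_frs`, `inr_frs`, `pg_thin`, `qd_frs`, `fre_frs`, `qd_thin`
-/

set_option autoImplicit false

noncomputable section

open scoped Classical ENNReal

namespace Crest.Agent.R143.Terr2x583

open Crest.Agent.R143.B0x346 Crest.Agent.R143.DelGx806 Crest.Agent.R143.JColx54
open Crest.Agent.R143.RE0x723
open Crest.Agent.R143.Forx991 (D root Ln)

/-! ### abstract part -/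

section abs

variable {R : ℂ → ℂ → Prop} {O A E : Finset ℂ} {f : ℂ → ℂ} {x y : ℂ}

/-- `f` is a retraction of `E` onto `A` with links inside `E` of radius `r` -/
structure Lab (R : ℂ → ℂ → Prop) (O A E : Finset ℂ) (f : ℂ → ℂ) (r : ℝ) : Prop where
  nn : 0 ≤ r
  subA : A ⊆ E
  subO : E ⊆ O
  fA : ∀ a ∈ A, f a = a
  mem : ∀ x ∈ E, f x ∈ A
  link : ∀ x ∈ E, Relation.ReflTransGen
    (fun a b => R a b ∧ (b ∈ E ∧ f b = f x ∧ dist x b ≤ r)) x (f x)

/-- start -/
theorem lab_base (hA : A ⊆ O) : Lab R O A A id 0 where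
  nn := le_rfl
  subA := fun _ h => h
  subO := hA
  fA := fun _ _ => rfl
  mem := fun _ h => h
  link := fun _ _ => Relation.ReflTransGen.refl

theorem end_mem {P : ℂ → ℂ → Prop} (h : Relation.ReflTransGen (fun a b => P a b ∧ b ∈ O) x y)
    (hx : x ∈ O) : y ∈ O := by
  rcases Relation.ReflTransGen.cases_tail h with h | ⟨_, _, h⟩
  · rw [h]; exact hx
  · exact h.2

/-- finite distance from a chain -/
theorem d_lt (hy : y ∈ A) (h : Relation.ReflTransGen (fun a b => R a b ∧ b ∈ O) x y)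
    (hx : x ∈ O) : D R O A x < ⊤ := by
  have key : ∀ z, Relation.ReflTransGen (fun a b => R a b ∧ b ∈ O) x z → D R O A z < ⊤ →
      D R O A x < ⊤ := by
    intro z hz
    induction hz with
    | refl => exact fun h => h
    | @tail b c h1 h2 ih =>
      intro hD
      refine ih ?_
      exact (Forx991.D_step (end_mem h1 hx) h2.1).trans_lt
        (ENNReal.add_lt_top.2 ⟨edist_lt_top _ _, hD⟩)
  refine key y h ?_
  rw [Forx991.D_A hy]
  exact ENNReal.zero_lt_top

/-- the new labelled set -/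
def nE (R' : ℂ → ℂ → Prop) (O E : Finset ℂ) : Finset ℂ := O.filter fun x => D R' O E x < ⊤

theorem sub_nE {R' : ℂ → ℂ → Prop} (h : E ⊆ O) : E ⊆ nE R' O E := by
  intro x hx
  refine Finset.mem_filter.2 ⟨h hx, ?_⟩
  rw [Forx991.D_A hx]
  exact ENNReal.zero_lt_top

/-- **one step** : `R'` a smaller relation whose chains have diameter `≤ t` -/
theorem lab_step (hR : ∀ x y, R x y → x ≠ y) {R' : ℂ → ℂ → Prop} (hle : ∀ x y, R' x y → R x y)
    {r t : ℝ} (ht : ∀ x y, Relation.ReflTransGen R' x y → dist x y ≤ t)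
    (h : Lab R O A E f r) :
    Lab R O A (nE R' O E) (fun x => f (root R' O E x)) (r + t) := by
  have hR' : ∀ x y, R' x y → x ≠ y := fun x y hxy => hR x y (hle x y hxy)
  have hEE : E ⊆ nE R' O E := sub_nE h.subO
  have hfE : ∀ x ∈ E, f (root R' O E x) = f x := fun x hx => by rw [Forx991.root_A hx]
  have h0 : 0 ≤ t := (dist_nonneg).trans (ht 0 0 Relation.ReflTransGen.refl)
  refine ⟨add_nonneg h.nn h0, h.subA.trans hEE, Finset.filter_subset _ _, ?_, ?_, ?_⟩
  · intro a ha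
    show f (root R' O E a) = a
    rw [hfE a (h.subA ha), h.fA a ha]
  · intro x hx
    obtain ⟨hxO, hxD⟩ := Finset.mem_filter.1 hx
    exact h.mem _ (Forx991.root_mem h.subO hR' hxO hxD)
  · intro x hx
    obtain ⟨hxO, hxD⟩ := Finset.mem_filter.1 hx
    have hy := Forx991.root_mem h.subO hR' hxO hxD
    have hb := Forx991.branch h.subO hR' hxO hxD
    set y := root R' O E x with hydef
    -- first part
    have h1 : ∀ z, Relation.ReflTransGen (fun a b => R' a b ∧ (b ∈ O ∧ D R' O E b < ⊤ ∧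
        root R' O E b = y ∧ edist x b ≤ D R' O E x)) x z → Relation.ReflTransGen R' x z ∧
        Relation.ReflTransGen (fun a b => R a b ∧ (b ∈ nE R' O E ∧
          f (root R' O E b) = f y ∧ dist x b ≤ r + t)) x z := by
      intro z hz
      induction hz with
      | refl => exact ⟨Relation.ReflTransGen.refl, Relation.ReflTransGen.refl⟩
      | @tail b c _ h3 ih =>
        obtain ⟨h4, h5, h6, h7, -⟩ := h3
        have h8 : Relation.ReflTransGen R' x c := ih.1.tail h4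
        refine ⟨h8, ih.2.tail ⟨hle _ _ h4, Finset.mem_filter.2 ⟨h5, h6⟩, by rw [h7], ?_⟩⟩
        have h9 := ht x c h8
        have h10 := h.nn
        linarith
    obtain ⟨h2, h3⟩ := h1 y hb
    have hd := ht x y h2
    -- second part
    refine h3.trans (Relation.ReflTransGen.mono ?_ _ _ (h.link y hy))
    rintro a b ⟨h4, h5, h6, h7⟩
    refine ⟨h4, hEE h5, ?_, ?_⟩
    · show f (root R' O E b) = f y
      rw [hfE b h5, h6]
    · have := dist_triangle x y b
      linarith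

/-! #### the four grids -/

/-- cell of the grid shifted by `u, v` -/
def cel (ρ u v : ℝ) (z : ℂ) : ℤ × ℤ := (⌊z.re / (4 * ρ) + u⌋, ⌊z.im / (4 * ρ) + v⌋)

/-- relation inside the cells -/
def Rc (R : ℂ → ℂ → Prop) (ρ u v : ℝ) (a b : ℂ) : Prop := R a b ∧ cel ρ u v a = cel ρ u v b

theorem rc_cel {ρ u v : ℝ} (h : Relation.ReflTransGen (Rc R ρ u v) x y) :
    cel ρ u v x = cel ρ u v y := by
  induction h with
  | refl => rfl
  | tail _ h2 ih => rw [ih, h2.2]

theorem floor_close {s t : ℝ} (h : ⌊s⌋ = ⌊t⌋) : |s - t| ≤ 1 := by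
  have h1 := Int.floor_le s
  have h2 := Int.lt_floor_add_one s
  have h3 := Int.floor_le t
  have h4 := Int.lt_floor_add_one t
  rw [h] at h1 h2
  rw [abs_le]
  constructor <;> linarith

theorem rc_dist {ρ u v : ℝ} (hρ : 0 < ρ) (h : Relation.ReflTransGen (Rc R ρ u v) x y) :
    dist x y ≤ 6 * ρ := by
  have hc := rc_cel h
  unfold cel at hc
  rw [Prod.mk.injEq] at hc
  have h1 := floor_close hc.1
  have h2 := floor_close hc.2
  have h4 : (0 : ℝ) < 4 * ρ := by linarith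
  have e1 : (x.re / (4 * ρ) + u) - (y.re / (4 * ρ) + u) = (x.re - y.re) / (4 * ρ) := by ring
  have e2 : (x.im / (4 * ρ) + v) - (y.im / (4 * ρ) + v) = (x.im - y.im) / (4 * ρ) := by ring
  rw [e1, abs_div, abs_of_pos h4, div_le_one h4] at h1
  rw [e2, abs_div, abs_of_pos h4, div_le_one h4] at h2
  rw [dist_eq_norm, Complex.norm_def, Real.sqrt_le_left (by linarith)]
  rw [Complex.normSq_apply, Complex.sub_re, Complex.sub_im]
  have h5 : (x.re - y.re) * (x.re - y.re) ≤ (4 * ρ) ^ 2 := by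
    rw [← sq]; exact sq_le_sq' (by linarith [abs_le.1 h1]) (abs_le.1 h1).2
  have h6 : (x.im - y.im) * (x.im - y.im) ≤ (4 * ρ) ^ 2 := by
    rw [← sq]; exact sq_le_sq' (by linarith [abs_le.1 h2]) (abs_le.1 h2).2
  nlinarith

/-- one of the two shifts is good -/
theorem shift_ok (t : ℝ) : ∃ u : ℝ, (u = 0 ∨ u = 1 / 2) ∧ ∀ s : ℝ, |s - t| ≤ 1 / 4 →
    ⌊s + u⌋ = ⌊t + u⌋ := by
  have h1 := Int.floor_le t
  have h2 := Int.lt_floor_add_one t
  have key : ∀ (u : ℝ) (n : ℤ), (n : ℝ) + 1 / 4 ≤ t + u → t + u < n + 3 / 4 →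
      ∀ s : ℝ, |s - t| ≤ 1 / 4 → ⌊s + u⌋ = ⌊t + u⌋ := by
    intro u n h3 h4 s hs
    obtain ⟨h5, h6⟩ := abs_le.1 hs
    have e1 : ⌊s + u⌋ = n := Int.floor_eq_iff.2 ⟨by linarith, by linarith⟩
    have e2 : ⌊t + u⌋ = n := Int.floor_eq_iff.2 ⟨by linarith, by linarith⟩
    rw [e1, e2]
  rcases lt_or_ge t (⌊t⌋ + 1 / 4) with h3 | h3
  · exact ⟨1 / 2, Or.inr rfl, key (1 / 2) ⌊t⌋ (by linarith) (by linarith)⟩
  · rcases lt_or_ge t (⌊t⌋ + 3 / 4) with h4 | h4
    · exact ⟨0, Or.inl rfl, key 0 ⌊t⌋ (by linarith) (by linarith)⟩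
    · refine ⟨1 / 2, Or.inr rfl, key (1 / 2) (⌊t⌋ + 1) ?_ ?_⟩
      · push_cast; linarith
      · push_cast; linarith

theorem cel_ok {ρ : ℝ} (hρ : 0 < ρ) (x : ℂ) : ∃ u v : ℝ, (u = 0 ∨ u = 1 / 2) ∧
    (v = 0 ∨ v = 1 / 2) ∧ ∀ z : ℂ, dist x z ≤ ρ → cel ρ u v z = cel ρ u v x := by
  obtain ⟨u, hu, hu'⟩ := shift_ok (x.re / (4 * ρ))
  obtain ⟨v, hv, hv'⟩ := shift_ok (x.im / (4 * ρ))
  refine ⟨u, v, hu, hv, fun z hz => ?_⟩
  have h4 : (0 : ℝ) < 4 * ρ := by linarith
  rw [dist_comm, dist_eq_norm] at hz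
  unfold cel
  rw [hu', hv']
  · rw [← sub_div, abs_div, abs_of_pos h4, div_le_iff₀ h4]
    have := (Complex.abs_im_le_norm (z - x)).trans hz
    rw [Complex.sub_im] at this
    linarith
  · rw [← sub_div, abs_div, abs_of_pos h4, div_le_iff₀ h4]
    have := (Complex.abs_re_le_norm (z - x)).trans hz
    rw [Complex.sub_re] at this
    linarith

/-- the chain in the ball is a chain of the cells -/
theorem rc_chain {ρ u v : ℝ} (hρ : 0 < ρ) (hc : ∀ z : ℂ, dist x z ≤ ρ → cel ρ u v z = cel ρ u v x)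
    (h : Relation.ReflTransGen (fun a b => R a b ∧ (b ∈ O ∧ dist x b ≤ ρ)) x y) :
    Relation.ReflTransGen (fun a b => Rc R ρ u v a b ∧ b ∈ O) x y := by
  have key : ∀ z, Relation.ReflTransGen (fun a b => R a b ∧ (b ∈ O ∧ dist x b ≤ ρ)) x z →
      dist x z ≤ ρ ∧ Relation.ReflTransGen (fun a b => Rc R ρ u v a b ∧ b ∈ O) x z := by
    intro z hz
    induction hz with
    | refl => exact ⟨by rw [dist_self]; exact hρ.le, Relation.ReflTransGen.refl⟩
    | @tail b c _ h2 ih =>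
      refine ⟨h2.2.2, ih.2.tail ⟨⟨h2.1, ?_⟩, h2.2.1⟩⟩
      rw [hc b ih.1, hc c h2.2.2]
  exact (key y h).2

/-- **thin forest** -/
theorem thin_forest (hA : A ⊆ O) (hR : ∀ x y, R x y → x ≠ y) {ρ : ℝ} (hρ : 0 < ρ) :
    ∃ (E : Finset ℂ) (f : ℂ → ℂ), Lab R O A E f (24 * ρ) ∧
      ∀ x ∈ O, (∃ y ∈ A, Relation.ReflTransGen
        (fun a b => R a b ∧ (b ∈ O ∧ dist x b ≤ ρ)) x y) → x ∈ E := by
  have st : ∀ (u v : ℝ) (E : Finset ℂ) (f : ℂ → ℂ) (r : ℝ), Lab R O A E f r →
      ∃ (E' : Finset ℂ) (f' : ℂ → ℂ), E ⊆ E' ∧ Lab R O A E' f' (r + 6 * ρ) ∧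
      ∀ x ∈ O, (∃ y ∈ A, Relation.ReflTransGen
        (fun a b => R a b ∧ (b ∈ O ∧ dist x b ≤ ρ)) x y) →
        (∀ z : ℂ, dist x z ≤ ρ → cel ρ u v z = cel ρ u v x) → x ∈ E' := by
    intro u v E f r h
    refine ⟨nE (Rc R ρ u v) O E, fun x => f (root (Rc R ρ u v) O E x), sub_nE h.subO,
      lab_step hR (fun _ _ h => h.1) (fun _ _ h => rc_dist hρ h) h, ?_⟩
    rintro x hx ⟨y, hy, hp⟩ hc
    exact Finset.mem_filter.2 ⟨hx, d_lt (h.subA hy) (rc_chain hρ hc hp) hx⟩
  obtain ⟨E1, f1, h11, h12, h13⟩ := st 0 0 A id 0 (lab_base hA)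
  obtain ⟨E2, f2, h21, h22, h23⟩ := st 0 (1 / 2) E1 f1 _ h12
  obtain ⟨E3, f3, h31, h32, h33⟩ := st (1 / 2) 0 E2 f2 _ h22
  obtain ⟨E4, f4, h41, h42, h43⟩ := st (1 / 2) (1 / 2) E3 f3 _ h32
  refine ⟨E4, f4, ?_, ?_⟩
  · have e : (0 + 6 * ρ + 6 * ρ + 6 * ρ + 6 * ρ : ℝ) = 24 * ρ := by ring
    rw [← e]
    exact h42
  · intro x hx hy
    obtain ⟨u, v, hu, hv, hc⟩ := cel_ok hρ x
    rcases hu with rfl | rfl <;> rcases hv with rfl | rfl
    · exact h41 (h31 (h21 (h13 x hx hy hc)))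
    · exact h41 (h31 (h23 x hx hy hc))
    · exact h41 (h33 x hx hy hc)
    · exact h43 x hx hy hc

/-- **thin forest, all sites** : the sites not reached by short chains are attached by the global
forest -/
theorem thin_global (hA : A ⊆ O) (hR : ∀ x y, R x y → x ≠ y) {ρ : ℝ} (hρ : 0 < ρ) :
    ∃ f : ℂ → ℂ, (∀ a ∈ A, f a = a) ∧
      (∀ x ∈ O, (∃ y ∈ A, Relation.ReflTransGen (fun a b => R a b ∧ b ∈ O) x y) →
        f x ∈ A ∧ Relation.ReflTransGen (fun a b => R a b ∧ (b ∈ O ∧ f b = f x)) x (f x)) ∧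
      (∀ x ∈ O, (∃ y ∈ A, Relation.ReflTransGen
        (fun a b => R a b ∧ (b ∈ O ∧ dist x b ≤ ρ)) x y) →
        Relation.ReflTransGen (fun a b => R a b ∧ (b ∈ O ∧ f b = f x ∧ dist x b ≤ 24 * ρ))
          x (f x)) := by
  obtain ⟨E, f, h, hE⟩ := thin_forest hA hR hρ
  have hroot : ∀ x ∈ E, root R O E x = x := fun x hx => Forx991.root_A hx
  refine ⟨fun x => f (root R O E x), ?_, ?_, ?_⟩
  · intro a ha
    show f (root R O E a) = a
    rw [hroot a (h.subA ha), h.fA a ha]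
  · rintro x hx ⟨y, hy, hp⟩
    have hD : D R O E x < ⊤ := d_lt (h.subA hy) hp hx
    have hr := Forx991.root_mem h.subO hR hx hD
    refine ⟨h.mem _ hr, ?_⟩
    have hb := Forx991.branch h.subO hR hx hD
    refine (Relation.ReflTransGen.mono ?_ _ _ hb).trans
      (Relation.ReflTransGen.mono ?_ _ _ (h.link _ hr))
    · rintro a b ⟨h1, h2, -, h3, -⟩
      refine ⟨h1, h2, ?_⟩
      show f (root R O E b) = f (root R O E x)
      rw [h3]
    · rintro a b ⟨h1, h2, h3, -⟩
      refine ⟨h1, h.subO h2, ?_⟩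
      show f (root R O E b) = _
      rw [hroot b h2, h3]
  · intro x hx hy
    have hxE := hE x hx hy
    show Relation.ReflTransGen _ x (f (root R O E x))
    rw [hroot x hxE]
    refine Relation.ReflTransGen.mono ?_ _ _ (h.link x hxE)
    rintro a b ⟨h1, h2, h3, h4⟩
    refine ⟨h1, h.subO h2, ?_, h4⟩
    show f (root R O E b) = f (root R O E x)
    rw [hroot b h2, hroot x hxE, h3]

end abs

/-! ### sites -/

section sites

variable {S V X K K' : Finset ℂ} {f : ℂ → ℂ} {ρ : ℝ} {x y : ℂ}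

/-- all sites off `V` are joined to `X` off `V` -/
def Joi (S V X : Finset ℂ) : Prop :=
  ∀ x ∈ S, x ∉ V → ∃ y ∈ X, Pth S {z | z ∈ S ∧ z ∉ V} x y

/-- `x` is joined to `X` off `V` inside the ball of radius `ρ` -/
def Near (S V X : Finset ℂ) (ρ : ℝ) (x : ℂ) : Prop :=
  ∃ y ∈ X, Pth S {z | (z ∈ S ∧ z ∉ V) ∧ ‖z - x‖ ≤ ρ} x y

/-- thin retraction of `S \ V` onto `X` -/
structure Frs (S V X : Finset ℂ) (ρ : ℝ) (f : ℂ → ℂ) : Prop where
  sub : X ⊆ S \ V
  fX : ∀ a ∈ X, f a = a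
  mem : ∀ x ∈ S, x ∉ V → f x ∈ X
  link : ∀ x ∈ S, x ∉ V → Pth S {z | (z ∈ S ∧ z ∉ V) ∧ f z = f x} x (f x)
  thin : ∀ x ∈ S, x ∉ V → Near S V X ρ x →
    Pth S {z | (z ∈ S ∧ z ∉ V) ∧ f z = f x ∧ ‖z - x‖ ≤ 24 * ρ} x (f x)









namespace Frs

variable (h : Frs S V X ρ f)
include h







end Frs

end sites

/-! ### polygons -/

section pg

variable {S V : Finset ℂ} {n m : ℕ} {w : ℤ → ℂ} {p : ℕ → ℤ} {A : ℕ → Finset ℂ} {f : ℂ → ℂ}
  {ρ : ℝ} {x : ℂ}








end pg

/-! ### quads -/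

section qd

variable {S V : Finset ℂ} {n : ℕ} {w : ℤ → ℂ} {i0 i1 i2 i3 : ℤ} {B : ZMod 4 → Finset ℂ}
  {f : ℂ → ℂ} {ρ : ℝ} {x : ℂ}





end qd

end Crest.Agent.R143.Terr2x583
end
end

-- ▼ part R143/Col_583
section

/-!
# Row 143 (S0194), K7: collar (helper583)

* `tr_up` : enlarged classes
* `tr_terr` : territories of three classes `Tr S A` (877) with free sites `W`, thin for the sites
  with a short chain to the classes
* `collar` : classes `T` with the free sites `W`, `V ⊆ W`, seeds `sd k ⊆ W \ V` joined to `T (l k)`;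
  every site of `W \ V` joined to a seed inside `W \ V` within `ρ` : classes `A'` with the free sites
  `V`, the label of a site of `W \ V` is the label of a seed reached within `24 ρ`
-/

set_option autoImplicit false

noncomputable section

open scoped Classical

namespace Crest.Agent.R143.Colx583

open Set
open Crest.Agent.R143.B0x346 Crest.Agent.R143.DelGx806 Crest.Agent.R143.DelRx806
  Crest.Agent.R143.JColx54 Crest.Agent.R143.RE0x723 Crest.Agent.R143.K33x877
  Crest.Agent.R143.Terr2x583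

variable {S V W : Finset ℂ} {A C T : ZMod 3 → Set ℂ} {ρ : ℝ} {x y : ℂ}

/-- enlarged classes -/
theorem tr_up (h : Tr S A) (hAC : ∀ i, A i ⊆ C i) (hs : ∀ i, C i ⊆ (S : Set ℂ))
    (hd : ∀ i j, i ≠ j → Disjoint (C i) (C j))
    (hc : ∀ i, ∀ x ∈ C i, ∀ y ∈ C i, Pth S (C i) x y) : Tr S C where
  gp := h.gp
  sub := hs
  disj := hd
  con := hc
  hull := fun a b hab => by
    obtain ⟨i, hi⟩ := h.hull a b hab
    exact ⟨i, hAC i hi⟩
  one := fun i j hij => by
    obtain ⟨a, b, h1, h2, h3, h4⟩ := h.one i j hij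
    refine ⟨a, b, h1, hAC i h2, hAC j h3, fun a' b' h5 h6 h7 => ?_⟩
    have key : ∀ {z : ℂ} {m : ZMod 3}, (∃ k, z ∈ A k) → z ∈ C m → z ∈ A m := by
      rintro z m ⟨k, hk⟩ hz
      by_contra hne
      have hkm : k ≠ m := by rintro rfl; exact hne hk
      exact Set.disjoint_left.1 (hd k m hkm) (hAC k hk) hz
    exact h4 a' b' h5 (key (h.hull_mem h5) h6) (key (h.hull_mem (Or.symm h5)) h7)

/-- sites of the classes -/
def uA (S : Finset ℂ) (A : ZMod 3 → Set ℂ) : Finset ℂ := S.filter fun x => ∃ i, x ∈ A i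

theorem mem_uA (h : Tr S A) : x ∈ uA S A ↔ ∃ i, x ∈ A i := by
  unfold uA
  rw [Finset.mem_filter]
  exact ⟨fun h' => h'.2, fun h' => ⟨Finset.mem_coe.1 (h.sub _ h'.choose_spec), h'⟩⟩




end Crest.Agent.R143.Colx583
end
end

-- ▼ part R143/QFor_341
section

/-!
# Row 143 (S0194), K7, LAYER: quotient forest (helper341)

Disjoint connected sets `K k` of sites off `V` and off `X` are contracted to points; 583's thin
forest on the quotient gives a retraction which is constant on every `K k`.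

* `exists_frsK` : thin retraction `f` of `S \ V` onto `X`, constant on every `K k`
* `tr_terrK` : enlarged classes `A'` with free sites `V`; every `K k` lies in one class `A' (l k)`
-/

set_option autoImplicit false

noncomputable section

open scoped Classical

namespace Crest.Agent.R143.QForx341

open Set
open Crest.Agent.R143.B0x346 Crest.Agent.R143.DelGx806 Crest.Agent.R143.DelRx806
  Crest.Agent.R143.JColx54 Crest.Agent.R143.RE0x723 Crest.Agent.R143.K33x877
  Crest.Agent.R143.Terr2x583 Crest.Agent.R143.Colx583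

variable {S V X : Finset ℂ} {A : ZMod 3 → Set ℂ} {ι : Type} {K : ι → Set ℂ} {ρ D : ℝ} {x y : ℂ}

/-! ### the contraction -/

/-- representative of a nonempty set -/
def rep (K : ι → Set ℂ) (k : ι) : ℂ := if h : (K k).Nonempty then h.some else 0

theorem rep_mem {k : ι} (h : (K k).Nonempty) : rep K k ∈ K k := by
  unfold rep
  rw [dif_pos h]
  exact h.some_mem

/-- contraction of the sets `K k` to points -/
def ctr (K : ι → Set ℂ) (x : ℂ) : ℂ := if h : ∃ k, x ∈ K k then rep K h.choose else x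

theorem ctr_of (hd : ∀ k k', k ≠ k' → Disjoint (K k) (K k')) {k : ι} (hx : x ∈ K k) :
    ctr K x = rep K k := by
  have hex : ∃ k, x ∈ K k := ⟨k, hx⟩
  unfold ctr
  rw [dif_pos hex]
  by_contra hne
  have h1 : hex.choose ≠ k := by
    intro h
    rw [h] at hne
    exact hne rfl
  exact Set.disjoint_left.1 (hd _ _ h1) hex.choose_spec hx

theorem ctr_off (hx : ∀ k, x ∉ K k) : ctr K x = x := by
  unfold ctr
  rw [dif_neg]
  rintro ⟨k, hk⟩
  exact hx k hk


/-- data of the contraction -/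
structure Blk (S V X : Finset ℂ) (K : ι → Set ℂ) (D : ℝ) : Prop where
  nn : 0 ≤ D
  sub : ∀ k, ∀ x ∈ K k, (x ∈ S ∧ x ∉ V) ∧ x ∉ X
  dis : ∀ k k', k ≠ k' → Disjoint (K k) (K k')
  con : ∀ k, ∀ x ∈ K k, ∀ y ∈ K k, Pth S (K k) x y
  dia : ∀ k, ∀ x ∈ K k, ∀ y ∈ K k, ‖x - y‖ ≤ D

namespace Blk

variable (h : Blk S V X K D)
include h


theorem ctr_X (hx : x ∈ X) : ctr K x = x :=
  ctr_off fun k hk => (h.sub k x hk).2 hx

theorem ctr_dist (x : ℂ) : ‖x - ctr K x‖ ≤ D := by
  by_cases hk : ∃ k, x ∈ K k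
  · obtain ⟨k, hk⟩ := hk
    rw [ctr_of h.dis hk]
    exact h.dia k _ hk _ (rep_mem ⟨x, hk⟩)
  · rw [ctr_off fun k hk' => hk ⟨k, hk'⟩, sub_self, norm_zero]
    exact h.nn

/-- chain in the fibre -/
theorem fib (hx : x ∈ S ∧ x ∉ V) :
    Pth S {z | (z ∈ S ∧ z ∉ V) ∧ ctr K z = ctr K x} x (ctr K x) := by
  by_cases hk : ∃ k, x ∈ K k
  · obtain ⟨k, hk⟩ := hk
    rw [ctr_of h.dis hk]
    refine (h.con k _ hk _ (rep_mem ⟨x, hk⟩)).mono fun z hz => ⟨(h.sub k z hz).1, ?_⟩
    rw [ctr_of h.dis hz]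
  · have e : ctr K x = x := ctr_off fun k hk' => hk ⟨k, hk'⟩
    rw [e]
    exact Pth.refl ⟨hx, by rw [e]⟩

end Blk

/-- relation of the quotient -/
def Rq (S V : Finset ℂ) (K : ι → Set ℂ) (u v : ℂ) : Prop :=
  u ≠ v ∧ ∃ a b, (a ∈ S ∧ a ∉ V) ∧ (b ∈ S ∧ b ∉ V) ∧ Adj S a b ∧ ctr K a = u ∧ ctr K b = v

/-- vertices of the quotient -/
def Oq (S V : Finset ℂ) (K : ι → Set ℂ) : Finset ℂ := (S \ V).image (ctr K)

theorem mem_Oq : y ∈ Oq S V K ↔ ∃ a, (a ∈ S ∧ a ∉ V) ∧ ctr K a = y := by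
  unfold Oq
  rw [Finset.mem_image]
  constructor
  · rintro ⟨a, ha, h⟩
    exact ⟨a, Finset.mem_sdiff.1 ha, h⟩
  · rintro ⟨a, ha, h⟩
    exact ⟨a, Finset.mem_sdiff.2 ha, h⟩

/-- **thin retraction, constant on the blocks** -/
theorem exists_frsK (hX : X ⊆ S \ V) (hρ : 0 < ρ)
    (hN : ∀ x ∈ S, x ∉ V → Near S V X ρ x) (h : Blk S V X K D) :
    ∃ f, Frs S V X (ρ + 4 * D) f ∧ ∀ k, ∀ x ∈ K k, ∀ y ∈ K k, f x = f y := by
  have hD := h.nn
  have hρ' : 0 < ρ + 2 * D := by linarith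
  have hA : X ⊆ Oq S V K := by
    intro a ha
    exact mem_Oq.2 ⟨a, Finset.mem_sdiff.1 (hX ha), h.ctr_X ha⟩
  obtain ⟨g, g1, g2, g3⟩ := thin_global (R := Rq S V K) hA (fun _ _ hh => hh.1) hρ'
  -- the projected chain
  have hpr : ∀ x ∈ S, x ∉ V → ∃ y ∈ X, Relation.ReflTransGen
      (fun a b => Rq S V K a b ∧ (b ∈ Oq S V K ∧ dist (ctr K x) b ≤ ρ + 2 * D)) (ctr K x) y := by
    intro x hxS hxV
    obtain ⟨y, hy, hp⟩ := hN x hxS hxV
    refine ⟨y, hy, ?_⟩
    have key : ∀ z, Relation.ReflTransGen (fun a b => Adj S a b ∧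
        b ∈ {z | (z ∈ S ∧ z ∉ V) ∧ ‖z - x‖ ≤ ρ}) x z → (z ∈ S ∧ z ∉ V) ∧
        Relation.ReflTransGen (fun a b => Rq S V K a b ∧
          (b ∈ Oq S V K ∧ dist (ctr K x) b ≤ ρ + 2 * D)) (ctr K x) (ctr K z) := by
      intro z hz
      induction hz with
      | refl => exact ⟨⟨hxS, hxV⟩, Relation.ReflTransGen.refl⟩
      | @tail b c _ h2 ih =>
        obtain ⟨h3, h4, h5⟩ := h2
        refine ⟨h4, ?_⟩
        by_cases he : ctr K b = ctr K c
        · rw [← he]; exact ih.2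
        · refine ih.2.tail ⟨⟨he, b, c, ih.1, h4, h3, rfl, rfl⟩, mem_Oq.2 ⟨c, h4, rfl⟩, ?_⟩
          rw [dist_eq_norm]
          have e : ctr K x - ctr K c = (c - ctr K c) - (x - ctr K x) - (c - x) := by ring
          rw [e]
          have k1 := norm_sub_le ((c - ctr K c) - (x - ctr K x)) (c - x)
          have k2 := norm_sub_le (c - ctr K c) (x - ctr K x)
          have k3 := h.ctr_dist c
          have k4 := h.ctr_dist x
          linarith
    have h1 := (key y hp.2).2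
    rw [h.ctr_X hy] at h1
    exact h1
  set f : ℂ → ℂ := fun z => g (ctr K z) with hf
  -- the lifted link
  have hlift : ∀ x, (x ∈ S ∧ x ∉ V) → Pth S {z | (z ∈ S ∧ z ∉ V) ∧ f z = f x ∧
      ‖z - x‖ ≤ 24 * (ρ + 4 * D)} x (f x) := by
    intro x hx
    obtain ⟨y, hy, hp⟩ := hpr x hx.1 hx.2
    have hu : ctr K x ∈ Oq S V K := mem_Oq.2 ⟨x, hx, rfl⟩
    have hch := g3 _ hu ⟨y, hy, hp⟩
    set P : Set ℂ := {z | (z ∈ S ∧ z ∉ V) ∧ f z = f x ∧ ‖z - x‖ ≤ 24 * (ρ + 4 * D)} with hP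
    -- points of a fibre near `u`
    have hin : ∀ a u, (a ∈ S ∧ a ∉ V) → ctr K a = u → g u = g (ctr K x) →
        dist (ctr K x) u ≤ 24 * (ρ + 2 * D) → a ∈ P := by
      intro a u ha hau hgu hdu
      refine ⟨ha, ?_, ?_⟩
      · show g (ctr K a) = g (ctr K x)
        rw [hau, hgu]
      · rw [dist_eq_norm] at hdu
        have e : a - x = (a - ctr K a) - (x - ctr K x) - (ctr K x - u) := by rw [hau]; ring
        rw [e]
        have k1 := norm_sub_le ((a - ctr K a) - (x - ctr K x)) (ctr K x - u)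
        have k2 := norm_sub_le (a - ctr K a) (x - ctr K x)
        have k3 := h.ctr_dist a
        have k4 := h.ctr_dist x
        linarith
    have hfibP : ∀ a, (a ∈ S ∧ a ∉ V) → g (ctr K a) = g (ctr K x) →
        dist (ctr K x) (ctr K a) ≤ 24 * (ρ + 2 * D) → Pth S P a (ctr K a) := by
      intro a ha hga hda
      refine (h.fib ha).mono ?_
      rintro z ⟨hz, hz'⟩
      exact hin z (ctr K a) hz hz' hga hda
    have h0 : dist (ctr K x) (ctr K x) ≤ 24 * (ρ + 2 * D) := by rw [dist_self]; linarith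
    have key : ∀ v, Relation.ReflTransGen (fun a b => Rq S V K a b ∧ (b ∈ Oq S V K ∧
        g b = g (ctr K x) ∧ dist (ctr K x) b ≤ 24 * (ρ + 2 * D))) (ctr K x) v →
        (g v = g (ctr K x) ∧ dist (ctr K x) v ≤ 24 * (ρ + 2 * D)) ∧ Pth S P x v := by
      intro v hv
      induction hv with
      | refl => exact ⟨⟨rfl, h0⟩, hfibP x hx rfl h0⟩
      | @tail b c _ h2 ih =>
        obtain ⟨⟨hne, a1, a2, ha1, ha2, hadj, e1, e2⟩, h3, h4, h5⟩ := h2
        refine ⟨⟨h4, h5⟩, ?_⟩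
        have p1 : Pth S P a1 b := by
          have := hfibP a1 ha1 (by rw [e1]; exact ih.1.1) (by rw [e1]; exact ih.1.2)
          rwa [e1] at this
        have p2 : Pth S P a2 c := by
          have := hfibP a2 ha2 (by rw [e2]; exact h4) (by rw [e2]; exact h5)
          rwa [e2] at this
        exact ((ih.2.trans p1.symm).tail hadj p2.1).trans p2
    exact (key _ hch).2
  have hgX : ∀ x, (x ∈ S ∧ x ∉ V) → f x ∈ X := by
    intro x hx
    obtain ⟨y, hy, hp⟩ := hpr x hx.1 hx.2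
    refine (g2 (ctr K x) (mem_Oq.2 ⟨x, hx, rfl⟩) ⟨y, hy, Relation.ReflTransGen.mono ?_ _ _ hp⟩).1
    rintro a b ⟨h1, h2, -⟩
    exact ⟨h1, h2⟩
  refine ⟨f, ⟨hX, ?_, fun x h1 h2 => hgX x ⟨h1, h2⟩, ?_, ?_⟩, ?_⟩
  · intro a ha
    show g (ctr K a) = a
    rw [h.ctr_X ha, g1 a ha]
  · intro x h1 h2
    refine (hlift x ⟨h1, h2⟩).mono ?_
    rintro z ⟨h3, h4, -⟩
    exact ⟨h3, h4⟩
  · intro x h1 h2 _
    exact hlift x ⟨h1, h2⟩
  · intro k x hx y hy
    show g (ctr K x) = g (ctr K y)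
    rw [ctr_of h.dis hx, ctr_of h.dis hy]

/-- **territories, constant on the blocks** : `V` are the free sites, every site of `A' i` is joined
to `A i` in `A' i` within `24 (ρ + 4 D)`, every block lies in one class -/
theorem tr_terrK (h : Tr S A) (hV : (V : Set ℂ) ⊆ fr S A) (hρ : 0 < ρ)
    (hN : ∀ x ∈ S, x ∉ V → Near S V (uA S A) ρ x) (hK : Blk S V (uA S A) K D) :
    ∃ (A' : ZMod 3 → Set ℂ) (l : ι → ZMod 3), Tr S A' ∧ (∀ i, A i ⊆ A' i) ∧ fr S A' = V ∧
      (∀ i, ∀ x ∈ A' i, ∃ y ∈ A i, Pth S {z | z ∈ A' i ∧ ‖z - x‖ ≤ 24 * (ρ + 4 * D)} x y) ∧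
      ∀ k, K k ⊆ A' (l k) := by
  have hX : uA S A ⊆ S \ V := by
    intro x hx
    obtain ⟨i, hi⟩ := (mem_uA h).1 hx
    refine Finset.mem_sdiff.2 ⟨(Finset.mem_filter.1 hx).1, fun hxV => ?_⟩
    exact (hV (Finset.mem_coe.2 hxV)).2 i hi
  obtain ⟨f, hf, hfK⟩ := exists_frsK hX hρ hN hK
  have hD := hK.nn
  have hN' : ∀ x ∈ S, x ∉ V → Near S V (uA S A) (ρ + 4 * D) x := by
    intro x h1 h2
    obtain ⟨y, hy, hp⟩ := hN x h1 h2
    exact ⟨y, hy, hp.mono fun z hz => ⟨hz.1, hz.2.trans (by linarith)⟩⟩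
  set A' : ZMod 3 → Set ℂ := fun i => {x | (x ∈ S ∧ x ∉ V) ∧ f x ∈ A i} with hA'
  have hAT : ∀ i, A i ⊆ A' i := by
    intro i x hx
    have h1 : x ∈ uA S A := (mem_uA h).2 ⟨i, hx⟩
    refine ⟨Finset.mem_sdiff.1 (hX h1), ?_⟩
    rw [hf.fX x h1]
    exact hx
  have hex : ∀ x, (x ∈ S ∧ x ∉ V) → ∃ i, f x ∈ A i := fun x hx =>
    (mem_uA h).1 (hf.mem x hx.1 hx.2)
  have hl : ∀ i, ∀ x ∈ A' i, f x ∈ A i ∧ Pth S (A' i) x (f x) := by
    rintro i x ⟨⟨h1, h2⟩, h3⟩
    refine ⟨h3, (hf.link x h1 h2).mono ?_⟩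
    rintro z ⟨h4, h5⟩
    exact ⟨h4, by rw [h5]; exact h3⟩
  refine ⟨A', fun k => if hk : (K k).Nonempty then
    (hex _ (hK.sub k _ hk.some_mem).1).choose else 0, ?_, hAT, ?_, ?_, ?_⟩
  · refine tr_up h hAT (fun i x hx => Finset.mem_coe.2 hx.1.1) ?_ ?_
    · intro i j hij
      rw [Set.disjoint_left]
      rintro x ⟨-, h1⟩ ⟨-, h2⟩
      exact Set.disjoint_left.1 (h.disj i j hij) h1 h2
    · intro i x hx y hy
      obtain ⟨h1, h2⟩ := hl i x hx
      obtain ⟨h3, h4⟩ := hl i y hy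
      exact (h2.trans ((h.con i _ h1 _ h3).mono (hAT i))).trans h4.symm
  · ext x
    constructor
    · rintro ⟨h1, h2⟩
      by_contra hxW
      have hxW' : x ∉ V := fun h' => hxW (Finset.mem_coe.2 h')
      obtain ⟨i, hi⟩ := hex x ⟨h1, hxW'⟩
      exact h2 i ⟨⟨h1, hxW'⟩, hi⟩
    · intro hx
      exact ⟨(hV hx).1, fun i hi => hi.1.2 (Finset.mem_coe.1 hx)⟩
  · rintro i x ⟨⟨h1, h2⟩, h3⟩
    refine ⟨f x, h3, (hf.thin x h1 h2 (hN' x h1 h2)).mono ?_⟩
    rintro z ⟨h4, h5, h6⟩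
    exact ⟨⟨h4, by rw [h5]; exact h3⟩, h6⟩
  · intro k x hx
    have hk : (K k).Nonempty := ⟨x, hx⟩
    refine ⟨(hK.sub k x hx).1, ?_⟩
    show f x ∈ A (if hk : (K k).Nonempty then (hex _ (hK.sub k _ hk.some_mem).1).choose else 0)
    rw [dif_pos hk, hfK k x hx _ hk.some_mem]
    exact (hex _ (hK.sub k _ hk.some_mem).1).choose_spec

end Crest.Agent.R143.QForx341
end
end

-- ▼ part R143/GridK_991
section

/-!
# Row 143 (S0194), K7: GRID (helper991)

* `tile_eq`, `al_eq`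
* `tl_near` : bricks at distance `< s` are equal or neighbours
* numbers of the setting: `Stg.s0`, `Stg.d_s`, `Stg.L0`, `edge_s`, `hull_s`
* `gd_cls` : class sites have distance `≥ s` from the good bricks; `gd_ball` : good bricks are in
  `closedBall x0 (L - 3 s)`
* `bad_conn7` : the bad bricks are connected; `con_F7` : the cells off the good bricks are connected
* `grid_of : K7Dx359.GRID`
-/

set_option autoImplicit false

noncomputable section

open scoped Classical

namespace Crest.Agent.R143.GridKx991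

open Set
open Crest.Agent.R158
open Crest.Agent.R143.B0x346 Crest.Agent.R143.DelGx806 Crest.Agent.R143.DelRx806
  Crest.Agent.R143.JColx54 Crest.Agent.R143.RE0x723 Crest.Agent.R143.K33x877
open Crest.Agent.R143.Brkx478 Crest.Agent.R143.Gridx991
open Crest.Agent.R143.Discx683 (Es mem_Es cls_Es)
open Crest.Agent.R143.K7Dx359 (Stg tile Al Va Dart Cm GRID)

variable {S : Finset ℂ} {A : ZMod 3 → Set ℂ} {s L d : ℝ} {x0 z e : ℂ} {b c : Bk}

/-! ### tiles -/

theorem tile_eq (s : ℝ) (b : Bk) : tile s b = tl s b := by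
  unfold tile
  rw [pg_eq]
  simp only [mem_singleton_iff, iUnion_iUnion_eq_left]

theorem al_eq : Al A x0 L s = ⋃ b ∈ K7Dx359.Gd A x0 L s, tl s b := pg_eq s _

theorem int_bd' {s : ℝ} (hs : 0 < s) {m m' : ℤ} {k : ℕ} {x : ℝ} (h1 : s * m ≤ x)
    (h2 : x < s * (m' + k)) : m - m' < k := by
  have h3 : (m : ℝ) < m' + k := lt_of_mul_lt_mul_left (h1.trans_lt h2) hs.le
  have h4 : m < m' + k := by exact_mod_cast h3
  omega

/-- **bricks at distance `< s` are equal or neighbours** -/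
theorem tl_near (hs : 0 < s) (hb : z ∈ tl s b) (hc : e ∈ tl s c) (h : ‖z - e‖ < s) :
    c = b ∨ Nb b c := by
  have h1 := (Complex.abs_re_le_norm (z - e)).trans_lt h
  have h2 := (Complex.abs_im_le_norm (z - e)).trans_lt h
  rw [Complex.sub_re, abs_lt] at h1
  rw [Complex.sub_im, abs_lt] at h2
  rw [mem_tl hs] at hb hc
  obtain ⟨b1, b2, b3, b4⟩ := hb
  obtain ⟨c1, c2, c3, c4⟩ := hc
  have k1 : (2 * b.1 + b.2) - (2 * c.1 + c.2) < (3 : ℕ) :=
    int_bd' hs (x := z.re) (by push_cast; exact b1) (by push_cast; linarith)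
  have k2 : (2 * c.1 + c.2) - (2 * b.1 + b.2) < (3 : ℕ) :=
    int_bd' hs (x := e.re) (by push_cast; exact c1) (by push_cast; linarith)
  have k3 : b.2 - c.2 < (2 : ℕ) := int_bd' hs (x := z.im) b3 (by push_cast; linarith)
  have k4 : c.2 - b.2 < (2 : ℕ) := int_bd' hs (x := e.im) c3 (by push_cast; linarith)
  push_cast at k1 k2 k3 k4
  by_cases hbc : c = b
  · exact Or.inl hbc
  · right
    rw [nb_iff]
    have : ¬ (c.1 = b.1 ∧ c.2 = b.2) := fun h => hbc (Prod.ext h.1 h.2)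
    omega

/-! ### numbers -/

theorem L0 (h : Stg S A x0 L d s) : 0 < L := by
  have := h.dns.dpos
  have := h.dns.dL
  linarith

theorem sq0 (h : Stg S A x0 L d s) : 0 < √(L * d) :=
  Real.sqrt_pos.2 (mul_pos (L0 h) h.dns.dpos)

theorem s0 (h : Stg S A x0 L d s) : 0 < s := by
  have := sq0 h
  have := h.scl
  linarith

/-- `√(L d) ≤ s / 2²⁰` -/
theorem sq_s (h : Stg S A x0 L d s) : √(L * d) ≤ s / 2 ^ 20 := by
  rw [le_div_iff₀ (by norm_num)]
  have := h.scl
  linarith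

/-- `d ≤ s / 2²⁰` -/
theorem d_s (h : Stg S A x0 L d s) : d ≤ s / 2 ^ 20 := by
  have h1 := h.dns.dpos
  have h2 := h.dns.dL
  exact (DomBx722.d_le_sqrt h1.le (by linarith)).trans (sq_s h)

/-- edges are shorter than `s / 2¹⁷` -/
theorem edge_s (h : Stg S A x0 L d s) {u v : ℂ} (huv : Adj S u v) : ‖u - v‖ ≤ s / 2 ^ 17 := by
  have h1 := D4Lx408.adj_len h.dns (D4Ux408.adj_iff.2 huv)
  have h2 := sq_s h
  have := s0 h
  have e1 : s / 2 ^ 17 = 8 * (s / 2 ^ 20) := by ring
  rw [e1]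
  have := sq0 h
  linarith


/-! ### good bricks -/

theorem gd_iff : b ∈ K7Dx359.Gd A x0 L s ↔ ∀ c, (c = b ∨ Nb b c) →
    (∀ z ∈ tl s c, ‖z - x0‖ ≤ L - 2 * s) ∧ ∀ i, ∀ e ∈ A i, e ∉ tl s c := by
  unfold K7Dx359.Gd
  simp only [tile_eq]
  exact Iff.rfl

/-- **class sites have distance `≥ s` from the good bricks** -/
theorem gd_cls (hs : 0 < s) (hb : b ∈ K7Dx359.Gd A x0 L s) (hz : z ∈ tl s b) {i : ZMod 3}
    (he : e ∈ A i) : s ≤ ‖z - e‖ := by
  by_contra hcon
  push Not at hcon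
  obtain ⟨c, hc⟩ := exists_tl hs e
  exact ((gd_iff.1 hb) c (tl_near hs hz hc hcon)).2 i e he hc

/-- **good bricks are in `closedBall x0 (L - 3 s)`** -/
theorem gd_ball (hs : 0 < s) (hL : 3 * s ≤ L) (hb : b ∈ K7Dx359.Gd A x0 L s) (hz : z ∈ tl s b) :
    ‖z - x0‖ ≤ L - 3 * s := by
  by_contra hcon
  push Not at hcon
  set D := ‖z - x0‖ with hD
  have hD0 : 0 < D := by linarith
  -- a point at distance `< s` outside
  obtain ⟨r, hr1, hr2⟩ : ∃ r, L - 2 * s - D < r ∧ r < s := exists_between (by linarith)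
  obtain ⟨r', hr1', hr2'⟩ : ∃ r', max 0 r < r' ∧ r' < s := exists_between (max_lt hs hr2)
  have h0 : 0 < r' := (le_max_left _ _).trans_lt hr1'
  have h1 : r < r' := (le_max_right _ _).trans_lt hr1'
  set w : ℂ := z + ((r' / D : ℝ) : ℂ) * (z - x0) with hw
  have e1 : ‖z - w‖ = r' := by
    have : z - w = -(((r' / D : ℝ) : ℂ) * (z - x0)) := by rw [hw]; ring
    rw [this, norm_neg, norm_mul, Complex.norm_real, Real.norm_of_nonneg (by positivity), ← hD]
    field_simp
  have e2 : ‖w - x0‖ = D + r' := by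
    have : w - x0 = ((1 + r' / D : ℝ) : ℂ) * (z - x0) := by rw [hw]; push_cast; ring
    rw [this, norm_mul, Complex.norm_real, Real.norm_of_nonneg (by positivity), ← hD]
    field_simp
  obtain ⟨c, hc⟩ := exists_tl hs w
  have h2 := ((gd_iff.1 hb) c (tl_near hs hz hc (by rw [e1]; exact hr2'))).1 w hc
  rw [e2] at h2
  linarith

/-- a bad brick has a neighbour (or is one) with a class site or a point outside -/
theorem bad7 (hb : b ∉ K7Dx359.Gd A x0 L s) : ∃ c, (c = b ∨ Nb b c) ∧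
    ((∃ z ∈ tl s c, L - 2 * s < ‖z - x0‖) ∨ ∃ i, ∃ e ∈ A i, e ∈ tl s c) := by
  rw [gd_iff] at hb
  push Not at hb
  obtain ⟨c, hc, h⟩ := hb
  refine ⟨c, hc, ?_⟩
  by_cases h1 : ∀ z ∈ tl s c, ‖z - x0‖ ≤ L - 2 * s
  · exact Or.inr (h h1)
  · push Not at h1
    exact Or.inl h1

theorem bad_of_cls (hs : 0 < s) {i : ZMod 3} (he : e ∈ A i) (hz : z ∈ tl s b) (h : ‖z - e‖ < s) :
    b ∉ K7Dx359.Gd A x0 L s := fun hb => by
  have := gd_cls hs hb hz he
  linarith

theorem bad_of_out (hz : z ∈ tl s b) (h : L - 2 * s < ‖z - x0‖) : b ∉ K7Dx359.Gd A x0 L s :=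
  fun hb => by
  have := ((gd_iff.1 hb) b (Or.inl rfl)).1 z hz
  linarith








end Crest.Agent.R143.GridKx991
end
end

-- ▼ part R143/Pw_453
section

/-!
# Row 143 (S0194), CONT (K7): paths outside a thickened lattice polygon (helper453)

`Pw s w F` = cells of `F` (side `s`) thickened by `w` in the sup norm (`Pw s 0 F = Pg s F`).
* `way_cell` : from a point of a cell off `F` to the centre; `way_con` : along a chain of cells
* `way_far` : global form, `way_loc` : local form (segment whose cells are off `F`)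
* `off_conn'` : chains of sites along `C` are off the deep sites, density on `P` only
* `near_w` : `Near S (deep S (Pw s w F) ρ) X r x`; `joi_w` : `Joi`
-/

set_option autoImplicit false

noncomputable section

open scoped Classical

namespace Crest.Agent.R143.Pwx453

open Set
open Crest.ProbabilityR.Voronoi
open Crest.Agent.R158.Sp896 (V Adj Con sq cells cells_con convex_sq sq_dist mem_cellOf cellOf
  cellOf_mem)
open Crest.Agent.R143.B0x346 Crest.Agent.R143.DelGx806 Crest.Agent.R143.RE0x723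
open Crest.Agent.R143.Segx991
open Crest.Agent.R143.Nearx440 (seg_add)
open Crest.Agent.R143.Terr2x583 (Joi Near)

variable {s w : ℝ} {F : Set V} {q q' : V} {p t e z : ℂ}

/-! ### geometry -/

/-- thickened cell -/
def sw (s w : ℝ) (q : V) : Set ℂ :=
  {z | s * q.1 - w ≤ z.re ∧ z.re ≤ s * (q.1 + 1) + w ∧ s * q.2 - w ≤ z.im ∧
    z.im ≤ s * (q.2 + 1) + w}

/-- thickened polygon -/
def Pw (s w : ℝ) (F : Set V) : Set ℂ := ⋃ q ∈ F, sw s w q

theorem mem_pw : z ∈ Pw s w F ↔ ∃ q ∈ F, z ∈ sw s w q := by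
  unfold Pw
  simp only [mem_iUnion, exists_prop]

theorem sq_sw (hw : 0 ≤ w) : sq s q ⊆ sw s w q := by
  rintro z ⟨h1, h2, h3, h4⟩
  exact ⟨by linarith, by linarith, by linarith, by linarith⟩

theorem pw_zero : Pw s 0 F = Tenx416.Pg s F := by
  unfold Pw Tenx416.Pg sw Crest.Agent.R158.Sp896.sq
  simp only [sub_zero, add_zero]


theorem not_F (hw : 0 ≤ w) (h : z ∉ Pw s w F) (hz : z ∈ sq s q) : q ∉ F := fun hq =>
  h (mem_pw.2 ⟨q, hq, sq_sw hw hz⟩)

/-- centre of a cell -/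
def ct (s : ℝ) (q : V) : ℂ := ⟨s * (q.1 + 1 / 2), s * (q.2 + 1 / 2)⟩

theorem ct_sq (hs : 0 < s) : ct s q ∈ sq s q := by
  refine ⟨?_, ?_, ?_, ?_⟩ <;> simp only [ct] <;> nlinarith

theorem seg_co {a b : ℂ} (h : z ∈ segment ℝ a b) : ∃ θ : ℝ, 0 ≤ θ ∧ θ ≤ 1 ∧
    z.re = a.re + θ * (b.re - a.re) ∧ z.im = a.im + θ * (b.im - a.im) := by
  obtain ⟨x, y, hx, hy, hxy, rfl⟩ := h
  refine ⟨y, hy, by linarith, ?_, ?_⟩
  · simp only [Complex.add_re, Complex.real_smul, Complex.mul_re, Complex.ofReal_re,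
      Complex.ofReal_im, zero_mul, sub_zero]
    have : x = 1 - y := by linarith
    rw [this]; ring
  · simp only [Complex.add_im, Complex.real_smul, Complex.mul_im, Complex.ofReal_re,
      Complex.ofReal_im, zero_mul, add_zero]
    have : x = 1 - y := by linarith
    rw [this]; ring

/-- one coordinate: moving from `u` (in the cell `n`) to the middle of the cell does not enter an
interval -/
theorem move1 (hs : 0 < s) (hws : 2 * w < s) {n m : ℤ} {u v θ : ℝ} (h0 : 0 ≤ θ) (h1 : θ ≤ 1)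
    (hu1 : s * n ≤ u) (hu2 : u ≤ s * (n + 1)) (hv : v = u + θ * (s * (n + 1 / 2) - u))
    (k1 : s * m - w ≤ v) (k2 : v ≤ s * (m + 1) + w) (hw : 0 ≤ w) :
    s * m - w ≤ u ∧ u ≤ s * (m + 1) + w := by
  have hc : ∀ a b : ℤ, s * a ≤ s * b + s / 2 + w → a ≤ b := by
    intro a b h
    have h2 : s * (a - b : ℝ) < s * 1 := by nlinarith
    have h3 : (a - b : ℝ) < 1 := lt_of_mul_lt_mul_left h2 hs.le
    have h4 : ((a - b : ℤ) : ℝ) < ((1 : ℤ) : ℝ) := by push_cast; exact h3
    have := Int.cast_lt.1 h4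
    omega
  constructor
  · by_contra hcon
    push Not at hcon
    -- `u < s m - w ≤ v ≤ middle`
    have h2 : v ≤ s * (n + 1 / 2) := by
      rcases le_total u (s * (n + 1 / 2)) with h | h
      · nlinarith
      · exfalso
        have : v ≤ u := by nlinarith
        linarith
    have h3 : m ≤ n := hc m n (by linarith)
    have h4 : (m : ℝ) ≤ n := by exact_mod_cast h3
    nlinarith
  · by_contra hcon
    push Not at hcon
    have h2 : s * (n + 1 / 2) ≤ v := by
      rcases le_total u (s * (n + 1 / 2)) with h | h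
      · exfalso
        have : u ≤ v := by nlinarith
        linarith
      · nlinarith
    have h3 : n ≤ m := hc n m (by linarith)
    have h4 : (n : ℝ) ≤ m := by exact_mod_cast h3
    nlinarith

/-- vertical move to the middle height -/
theorem move_v (hs : 0 < s) (hw : 0 ≤ w) (hws : 2 * w < s) (hp : p ∈ sq s q) (hP : p ∉ Pw s w F)
    (hz : z ∈ segment ℝ p ⟨p.re, s * (q.2 + 1 / 2)⟩) : z ∉ Pw s w F := by
  obtain ⟨θ, h0, h1, h2, h3⟩ := seg_co hz
  intro hzP
  obtain ⟨m, hm, k1, k2, k3, k4⟩ := mem_pw.1 hzP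
  simp only [sub_self, mul_zero, add_zero] at h2
  obtain ⟨e1, e2⟩ := move1 hs hws h0 h1 hp.2.2.1 hp.2.2.2 h3 k3 k4 hw
  exact hP (mem_pw.2 ⟨m, hm, h2 ▸ k1, h2 ▸ k2, e1, e2⟩)

/-- horizontal move to the middle -/
theorem move_h (hs : 0 < s) (hw : 0 ≤ w) (hws : 2 * w < s) (hp : p ∈ sq s q) (hP : p ∉ Pw s w F)
    (hz : z ∈ segment ℝ p ⟨s * (q.1 + 1 / 2), p.im⟩) : z ∉ Pw s w F := by
  obtain ⟨θ, h0, h1, h2, h3⟩ := seg_co hz
  intro hzP
  obtain ⟨m, hm, k1, k2, k3, k4⟩ := mem_pw.1 hzP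
  simp only [sub_self, mul_zero, add_zero] at h3
  obtain ⟨e1, e2⟩ := move1 hs hws h0 h1 hp.1 hp.2.1 h2 k1 k2 hw
  exact hP (mem_pw.2 ⟨m, hm, e1, e2, h3 ▸ k3, h3 ▸ k4⟩)

/-- **from a point of a cell to its centre** -/
theorem way_cell (hs : 0 < s) (hw : 0 ≤ w) (hws : 2 * w < s) (hp : p ∈ sq s q)
    (hP : p ∉ Pw s w F) : ∃ C : Set ℂ, IsPreconnected C ∧ p ∈ C ∧ ct s q ∈ C ∧
      (∀ z ∈ C, z ∉ Pw s w F) ∧ ∀ z ∈ C, z ∈ sq s q := by
  set p' : ℂ := ⟨p.re, s * (q.2 + 1 / 2)⟩ with hp'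
  have h1 : p' ∈ sq s q := by
    refine ⟨hp.1, hp.2.1, ?_, ?_⟩ <;> simp only [hp'] <;> nlinarith
  have h2 : p' ∉ Pw s w F := move_v hs hw hws hp hP (right_mem_segment ℝ _ _)
  have h3 : ct s q = ⟨s * (q.1 + 1 / 2), p'.im⟩ := rfl
  refine ⟨segment ℝ p p' ∪ segment ℝ p' (ct s q), ?_, Or.inl (left_mem_segment ℝ _ _),
    Or.inr (right_mem_segment ℝ _ _), ?_, ?_⟩
  · exact IsPreconnected.union p' (right_mem_segment ℝ _ _) (left_mem_segment ℝ _ _)
      (convex_segment _ _).isPreconnected (convex_segment _ _).isPreconnected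
  · rintro z (hz | hz)
    · exact move_v hs hw hws hp hP hz
    · rw [h3] at hz
      exact move_h hs hw hws h1 h2 hz
  · rintro z (hz | hz)
    · exact (convex_sq s q).segment_subset hp h1 hz
    · exact (convex_sq s q).segment_subset h1 (ct_sq hs) hz

/-- one coordinate: the middle of the cell `n` is in the thickened interval `m` -/
theorem mid1 (hs : 0 < s) (hws : 2 * w < s) {n m : ℤ} (k1 : s * m - w ≤ s * (n + 1 / 2))
    (k2 : s * (n + 1 / 2) ≤ s * (m + 1) + w) : m = n := by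
  have h1 : s * (m - n : ℝ) < s * 1 := by nlinarith
  have h2 : (m - n : ℝ) < 1 := lt_of_mul_lt_mul_left h1 hs.le
  have h3 : s * (n - m : ℝ) < s * 1 := by nlinarith
  have h4 : (n - m : ℝ) < 1 := lt_of_mul_lt_mul_left h3 hs.le
  have h5 : ((m - n : ℤ) : ℝ) < ((1 : ℤ) : ℝ) := by push_cast; exact h2
  have h6 : ((n - m : ℤ) : ℝ) < ((1 : ℤ) : ℝ) := by push_cast; exact h4
  have h7 := Int.cast_lt.1 h5
  have h8 := Int.cast_lt.1 h6
  omega

/-- one coordinate: between the middles of the cells `n`, `n + 1` -/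
theorem mid2 (hs : 0 < s) (hws : 2 * w < s) {n m : ℤ} {v θ : ℝ} (h0 : 0 ≤ θ) (h1 : θ ≤ 1)
    (hv : v = s * (n + 1 / 2) + θ * s) (k1 : s * m - w ≤ v) (k2 : v ≤ s * (m + 1) + w) :
    m = n ∨ m = n + 1 := by
  have h2 : s * (m - n : ℝ) < s * 2 := by nlinarith
  have h3 : (m - n : ℝ) < 2 := lt_of_mul_lt_mul_left h2 hs.le
  have h4 : s * (n - m : ℝ) < s * 1 := by nlinarith
  have h5 : (n - m : ℝ) < 1 := lt_of_mul_lt_mul_left h4 hs.le
  have h6 : ((m - n : ℤ) : ℝ) < ((2 : ℤ) : ℝ) := by push_cast; exact h3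
  have h7 : ((n - m : ℤ) : ℝ) < ((1 : ℤ) : ℝ) := by push_cast; exact h5
  have h8 := Int.cast_lt.1 h6
  have h9 := Int.cast_lt.1 h7
  omega

theorem ctr_right (hs : 0 < s) (hws : 2 * w < s) (hq : q ∉ F) (hq' : q' ∉ F)
    (h : q'.1 = q.1 + 1 ∧ q'.2 = q.2) (hz : z ∈ segment ℝ (ct s q) (ct s q')) :
    z ∉ Pw s w F ∧ (z ∈ sq s q ∨ z ∈ sq s q') := by
  obtain ⟨θ, h0, h1, h2, h3⟩ := seg_co hz
  simp only [ct, h.1, h.2] at h2 h3
  push_cast at h2
  have e2 : z.re = s * (q.1 + 1 / 2) + θ * s := by rw [h2]; ring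
  have e3 : z.im = s * (q.2 + 1 / 2) := by rw [h3]; ring
  constructor
  · intro hzP
    obtain ⟨m, hm, k1, k2, k3, k4⟩ := mem_pw.1 hzP
    have g2 : m.2 = q.2 := mid1 hs hws (e3 ▸ k3) (e3 ▸ k4)
    rcases mid2 hs hws h0 h1 e2 k1 k2 with g1 | g1
    · exact hq ((Prod.ext g1 g2 : m = q) ▸ hm)
    · exact hq' ((Prod.ext (g1.trans h.1.symm) (g2.trans h.2.symm) : m = q') ▸ hm)
  · rcases le_total θ (1 / 2) with hθ | hθ
    · left
      refine ⟨?_, ?_, ?_, ?_⟩
      · rw [e2]; nlinarith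
      · rw [e2]; nlinarith
      · rw [e3]; nlinarith
      · rw [e3]; nlinarith
    · right
      refine ⟨?_, ?_, ?_, ?_⟩
      · rw [e2, h.1]; push_cast; nlinarith
      · rw [e2, h.1]; push_cast; nlinarith
      · rw [e3, h.2]; nlinarith
      · rw [e3, h.2]; nlinarith

theorem ctr_up (hs : 0 < s) (hws : 2 * w < s) (hq : q ∉ F) (hq' : q' ∉ F)
    (h : q'.1 = q.1 ∧ q'.2 = q.2 + 1) (hz : z ∈ segment ℝ (ct s q) (ct s q')) :
    z ∉ Pw s w F ∧ (z ∈ sq s q ∨ z ∈ sq s q') := by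
  obtain ⟨θ, h0, h1, h2, h3⟩ := seg_co hz
  simp only [ct, h.1, h.2] at h2 h3
  push_cast at h3
  have e2 : z.re = s * (q.1 + 1 / 2) := by rw [h2]; ring
  have e3 : z.im = s * (q.2 + 1 / 2) + θ * s := by rw [h3]; ring
  constructor
  · intro hzP
    obtain ⟨m, hm, k1, k2, k3, k4⟩ := mem_pw.1 hzP
    have g1 : m.1 = q.1 := mid1 hs hws (e2 ▸ k1) (e2 ▸ k2)
    rcases mid2 hs hws h0 h1 e3 k3 k4 with g2 | g2
    · exact hq ((Prod.ext g1 g2 : m = q) ▸ hm)
    · exact hq' ((Prod.ext (g1.trans h.1.symm) (g2.trans h.2.symm) : m = q') ▸ hm)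
  · rcases le_total θ (1 / 2) with hθ | hθ
    · left
      refine ⟨?_, ?_, ?_, ?_⟩
      · rw [e2]; nlinarith
      · rw [e2]; nlinarith
      · rw [e3]; nlinarith
      · rw [e3]; nlinarith
    · right
      refine ⟨?_, ?_, ?_, ?_⟩
      · rw [e2, h.1]; nlinarith
      · rw [e2, h.1]; nlinarith
      · rw [e3, h.2]; push_cast; nlinarith
      · rw [e3, h.2]; push_cast; nlinarith

/-- **the segment between the centres of two adjacent cells off `F`** -/
theorem ctr_adj (hs : 0 < s) (hws : 2 * w < s) (hq : q ∉ F) (hq' : q' ∉ F) (h : Adj q q')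
    (hz : z ∈ segment ℝ (ct s q) (ct s q')) : z ∉ Pw s w F ∧ (z ∈ sq s q ∨ z ∈ sq s q') := by
  rcases h with h | h | h | h
  · exact ctr_right hs hws hq hq' h hz
  · rw [segment_symm] at hz
    have := ctr_right hs hws hq' hq ⟨by omega, h.2.symm⟩ hz
    exact ⟨this.1, this.2.symm⟩
  · exact ctr_up hs hws hq hq' h hz
  · rw [segment_symm] at hz
    have := ctr_up hs hws hq' hq ⟨h.1.symm, by omega⟩ hz
    exact ⟨this.1, this.2.symm⟩

/-- **along a chain of cells** -/
theorem way_con (hs : 0 < s) (hws : 2 * w < s) {N : Set V} (hN : ∀ x ∈ N, x ∉ F)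
    (hq : q ∉ F) (h : Con N q q') : ∃ C : Set ℂ, IsPreconnected C ∧ ct s q ∈ C ∧ ct s q' ∈ C ∧
      (∀ z ∈ C, z ∉ Pw s w F) ∧ ∀ z ∈ C, ∃ x, (x = q ∨ x ∈ N) ∧ z ∈ sq s x := by
  induction h with
  | refl =>
    have h1 : ct s q ∉ Pw s w F := by
      intro hzP
      obtain ⟨m, hm, k1, k2, k3, k4⟩ := mem_pw.1 hzP
      have g1 : m.1 = q.1 := mid1 hs hws k1 k2
      have g2 : m.2 = q.2 := mid1 hs hws k3 k4
      exact hq ((Prod.ext g1 g2 : m = q) ▸ hm)
    refine ⟨{ct s q}, isPreconnected_singleton, rfl, rfl, ?_, ?_⟩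
    · rintro z rfl
      exact h1
    · rintro z rfl
      exact ⟨q, Or.inl rfl, ct_sq hs⟩
  | @tail x y hx hy ih =>
    obtain ⟨C, c1, c2, c3, c4, c5⟩ := ih
    have hxF : x ∉ F ∧ (x = q ∨ x ∈ N) := by
      rcases Relation.ReflTransGen.cases_tail hx with h | ⟨y', -, h⟩
      · exact ⟨h ▸ hq, Or.inl h⟩
      · exact ⟨hN _ h.2, Or.inr h.2⟩
    refine ⟨C ∪ segment ℝ (ct s x) (ct s y), ?_, Or.inl c2, Or.inr (right_mem_segment ℝ _ _), ?_, ?_⟩
    · exact IsPreconnected.union (ct s x) c3 (left_mem_segment ℝ _ _) c1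
        (convex_segment _ _).isPreconnected
    · rintro z (hz | hz)
      · exact c4 z hz
      · exact (ctr_adj hs hws hxF.1 (hN y hy.2) hy.1 hz).1
    · rintro z (hz | hz)
      · exact c5 z hz
      · rcases (ctr_adj (w := 0) hs (by linarith) hxF.1 (hN y hy.2) hy.1 hz).2 with h | h
        · exact ⟨x, hxF.2, h⟩
        · exact ⟨y, Or.inr hy.2, h⟩

/-- **from point to point along a chain of cells off `F`** -/
theorem way_pts (hs : 0 < s) (hw : 0 ≤ w) (hws : 2 * w < s) {N : Set V} (hN : ∀ x ∈ N, x ∉ F)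
    (h : Con N q q') (hp : p ∈ sq s q) (hP : p ∉ Pw s w F) (he : e ∈ sq s q')
    (hE : e ∉ Pw s w F) : ∃ C : Set ℂ, IsPreconnected C ∧ p ∈ C ∧ e ∈ C ∧
      (∀ z ∈ C, z ∉ Pw s w F) ∧ ∀ z ∈ C, ∃ x, (x = q ∨ x ∈ N) ∧ z ∈ sq s x := by
  obtain ⟨A, a1, a2, a3, a4, a5⟩ := way_cell hs hw hws hp hP
  obtain ⟨B, b1, b2, b3, b4, b5⟩ := way_con hs hws hN (not_F hw hP hp) h
  obtain ⟨C, c1, c2, c3, c4, c5⟩ := way_cell hs hw hws he hE
  have hq' : q' = q ∨ q' ∈ N := by
    rcases Relation.ReflTransGen.cases_tail h with h | ⟨y', -, h⟩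
    · exact Or.inl h
    · exact Or.inr h.2
  refine ⟨A ∪ B ∪ C, ?_, Or.inl (Or.inl a2), Or.inr c2, ?_, ?_⟩
  · exact IsPreconnected.union (ct s q') (Or.inr b3) c3
      (IsPreconnected.union (ct s q) a3 b2 a1 b1) c1
  · rintro z ((hz | hz) | hz)
    · exact a4 z hz
    · exact b4 z hz
    · exact c4 z hz
  · rintro z ((hz | hz) | hz)
    · exact ⟨q, Or.inl rfl, a5 z hz⟩
    · exact b5 z hz
    · exact ⟨q', hq', c5 z hz⟩



/-! ### chains of sites -/

variable {S X : Finset ℂ} {P C : Set ℂ} {x y a : ℂ} {ρ d r : ℝ}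

/-- **chains along connected sets outside `P` are off the deep sites; density on `P` only** -/
theorem off_conn' (hCP : ∀ q ∈ C, q ∉ P) (hH : Hl S P d) (hd0 : 0 ≤ d) (hd : d < ρ)
    (hz : z ∈ Clm S C) : z ∉ deep S P ρ := by
  intro hdp
  obtain ⟨h1, c, hc, hcc⟩ := hz
  obtain ⟨-, hb⟩ := mem_deep.1 hdp
  have hcz : ρ < ‖c - z‖ := by
    by_contra hcon
    exact hCP c hc (hb (by rw [Metric.mem_closedBall, dist_eq_norm]; exact not_lt.1 hcon))
  have hpos : 0 < ‖c - z‖ := by linarith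
  set τ : ℝ := ρ / ‖c - z‖ with hτ
  have hτ0 : 0 ≤ τ := by
    rw [hτ]
    exact div_nonneg (by linarith) hpos.le
  have hτ1 : τ ≤ 1 := by
    rw [hτ, div_le_one hpos]
    exact hcz.le
  have hτm : τ * ‖c - z‖ = ρ := by rw [hτ]; field_simp
  set u : ℂ := z + τ * (c - z) with hu
  have e1 : ‖u - z‖ = ρ := by
    have : u - z = (τ : ℂ) * (c - z) := by rw [hu]; ring
    rw [this, norm_mul, Complex.norm_real, Real.norm_eq_abs, abs_of_nonneg hτ0, hτm]
  have e2 : ‖c - u‖ = ‖c - z‖ - ρ := by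
    have : c - u = ((1 - τ : ℝ) : ℂ) * (c - z) := by rw [hu]; push_cast; ring
    rw [this, norm_mul, Complex.norm_real, Real.norm_eq_abs, abs_of_nonneg (by linarith), sub_mul,
      one_mul, hτm]
  obtain ⟨x, hx, hux⟩ := hH u (hb (by rw [Metric.mem_closedBall, dist_eq_norm, e1]))
  have h3 : ‖c - z‖ ≤ ‖c - x‖ := hcc x (Finset.mem_coe.2 hx)
  have h4 : ‖c - x‖ ≤ ‖c - u‖ + ‖u - x‖ := by
    have := norm_add_le (c - u) (u - x)
    rwa [sub_add_sub_cancel] at this
  linarith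




end Crest.Agent.R143.Pwx453
end
end

-- ▼ part R143/Glu_991
section

/-!
# Row 143 (S0194), K7: territories off the good bricks (helper991)

Setting `Stg S A x0 L d s` (359), `F = cells (Gd A x0 L s)`; `Pw s w F` the polygon thickened by
`w` in the sup norm (453), `deep S P ρ` the sites with `closedBall · ρ ⊆ P`; `2 w < s`, `d < ρ`,
`ρ ≤ s`.
* `far_pw` : class sites are off `Pw s w F`; `pw_ball`; `deep_fr` : deep sites are free
* `way_bad` : a point `p` off `Pw s w F`, `‖p - x0‖ ≤ L + s`, is joined off `Pw s w F` to a class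
  site within `14 s`
* `joi` : (Joi) for `deep S (Pw s w F) ρ`; `near` : (Near) for EVERY site off the deep sites,
  radius `40 s`
* `terr` : territories with free sites `deep S (Pw s w F) ρ`, full thinness `960 s`
* `va_eq` : `Va` is `deep S (Pw s 0 F) (2 d)`
-/

set_option autoImplicit false

noncomputable section

open scoped Classical

namespace Crest.Agent.R143.Glux991

open Set
open Crest.Agent.R158
open Crest.Agent.R158.Sp896 (sq)
open Crest.Agent.R143.B0x346 Crest.Agent.R143.DelGx806 Crest.Agent.R143.DelRx806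
  Crest.Agent.R143.JColx54 Crest.Agent.R143.RE0x723 Crest.Agent.R143.K33x877
open Crest.Agent.R143.Brkx478
open Crest.Agent.R143.Gridx991 (tl mem_tl sq_sub_tl tl_dist nb_meet)
open Crest.Agent.R143.Segx991 Crest.Agent.R143.Pwx453 Crest.Agent.R143.GridKx991
open Crest.Agent.R143.Terr2x583 (Joi Near)
open Crest.Agent.R143.Colx583 (uA mem_uA)
open Crest.Agent.R143.K7Dx359 (Stg Gd Al Va ThF)

variable {S : Finset ℂ} {A : ZMod 3 → Set ℂ} {s L R w ρ d : ℝ} {x0 x p e z : ℂ}
  {q q' : Sp896.V} {i : ZMod 3}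

theorem clamp {a b w u : ℝ} (hab : a ≤ b) (h1 : a - w ≤ u) (h2 : u ≤ b + w) (hw : 0 ≤ w) :
    ∃ v, a ≤ v ∧ v ≤ b ∧ |u - v| ≤ w := by
  rcases le_total u a with h | h
  · exact ⟨a, le_rfl, hab, by rw [abs_le]; constructor <;> linarith⟩
  · rcases le_total u b with h' | h'
    · exact ⟨u, h, h', by rw [sub_self, abs_zero]; exact hw⟩
    · exact ⟨b, hab, le_rfl, by rw [abs_le]; constructor <;> linarith⟩

/-- a point of the thickened cell is near the cell -/
theorem sw_near (hs : 0 < s) (hw : 0 ≤ w) (hz : z ∈ sw s w q) : ∃ y ∈ sq s q, ‖z - y‖ ≤ 2 * w := by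
  obtain ⟨h1, h2, h3, h4⟩ := hz
  obtain ⟨u, u1, u2, u3⟩ := clamp (a := s * q.1) (b := s * (q.1 + 1)) (by nlinarith) h1 h2 hw
  obtain ⟨v, v1, v2, v3⟩ := clamp (a := s * q.2) (b := s * (q.2 + 1)) (by nlinarith) h3 h4 hw
  refine ⟨⟨u, v⟩, ⟨u1, u2, v1, v2⟩, ?_⟩
  have h5 := Complex.norm_le_abs_re_add_abs_im (z - ⟨u, v⟩)
  rw [Complex.sub_re, Complex.sub_im] at h5
  linarith

/-- class sites are off the thickened polygon -/
theorem far_pw (h : Stg S A x0 L d s) (hw : 0 ≤ w) (hws : 2 * w < s) (he : e ∈ A i) :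
    e ∉ Pw s w (cells (Gd A x0 L s)) := by
  intro h'
  have hs := s0 h
  obtain ⟨q, hq, hz⟩ := mem_pw.1 h'
  obtain ⟨y, hy, h1⟩ := sw_near hs hw hz
  have h2 := gd_cls hs hq (sq_sub_tl s q hy) he
  rw [norm_sub_rev] at h1
  linarith

/-- the thickened polygon is in the ball of radius `L - 3 s + 2 w` -/
theorem pw_ball (h : Stg S A x0 L d s) (hw : 0 ≤ w)
    (hz : z ∈ Pw s w (cells (Gd A x0 L s))) : ‖z - x0‖ ≤ L - 3 * s + 2 * w := by
  have hs := s0 h
  have hsL := h.sL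
  obtain ⟨q, hq, hz⟩ := mem_pw.1 hz
  obtain ⟨y, hy, h1⟩ := sw_near hs hw hz
  have h2 := gd_ball hs (by linarith) hq (sq_sub_tl s q hy)
  have h3 : ‖z - x0‖ ≤ ‖z - y‖ + ‖y - x0‖ := by
    have := norm_add_le (z - y) (y - x0)
    rwa [sub_add_sub_cancel] at this
  linarith

/-- **way from a point outside to a class site** -/
theorem way_bad (h : Stg S A x0 L d s) (hw : 0 ≤ w) (hws : 4 * w ≤ s)
    (hP : p ∉ Pw s w (cells (Gd A x0 L s))) (hpL : ‖p - x0‖ ≤ L + s) :
    ∃ e ∈ uA S A, ∃ C : Set ℂ, IsPreconnected C ∧ p ∈ C ∧ e ∈ C ∧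
      (∀ c ∈ C, c ∉ Pw s w (cells (Gd A x0 L s))) ∧ ∀ c ∈ C, ‖c - p‖ ≤ 14 * s := by
  have hs := s0 h
  have hsL := h.sL
  have hws' : 2 * w < s := by linarith
  set G := Gd A x0 L s with hG
  set q := Sp896.cellOf s p with hq
  have hp : p ∈ sq s q := Sp896.mem_cellOf hs p
  have hqF : q ∉ cells G := not_F hw hP hp
  have hbq : bk q ∉ G := hqF
  obtain ⟨c, hc, h1⟩ := bad7 hbq
  have hcG : c ∉ G := by
    rcases h1 with ⟨z, hz, h2⟩ | ⟨i, e, he, h2⟩
    · exact bad_of_out hz h2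
    · exact bad_of_cls hs he h2 (by rw [sub_self, norm_zero]; exact hs)
  -- way to a point of the tile of `c`
  have key : ∀ y ∈ tl s c, y ∉ Pw s w (cells G) → ∃ C : Set ℂ, IsPreconnected C ∧ p ∈ C ∧
      y ∈ C ∧ (∀ c ∈ C, c ∉ Pw s w (cells G)) ∧ ∀ c ∈ C, ‖c - p‖ ≤ 6 * s := by
    intro y hy hyP
    obtain ⟨q', hq', hyq⟩ : ∃ q', q' ∈ cells ({bk q, c} : Set Bk) ∧ y ∈ sq s q' := by
      rcases hy with h | h
      · exact ⟨c0 c, by rw [mem_cells, bk_c0]; exact Or.inr rfl, h⟩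
      · exact ⟨c1 c, by rw [mem_cells, bk_c1]; exact Or.inr rfl, h⟩
    have hconn : Conn ({bk q, c} : Set Bk) := by
      have m1 : bk q ∈ ({bk q, c} : Set Bk) := Or.inl rfl
      have m2 : c ∈ ({bk q, c} : Set Bk) := Or.inr rfl
      have h2 : Cn ({bk q, c} : Set Bk) (bk q) c := by
        rcases hc with hc | hc
        · rw [hc]; exact Relation.ReflTransGen.refl
        · exact Relation.ReflTransGen.single ⟨m1, m2, hc⟩
      rintro a (ha | ha) b (hb | hb)
      · rw [ha, hb]; exact Relation.ReflTransGen.refl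
      · rw [ha, hb]; exact h2
      · rw [ha, hb]; exact Gridx991.Cn.symm h2
      · rw [ha, hb]; exact Relation.ReflTransGen.refl
    have hcon := con_cells hconn q (Or.inl rfl) q' hq'
    obtain ⟨C, k1, k2, k3, k4, k5⟩ := way_pts hs hw hws' (F := cells G)
      (N := cells ({bk q, c} : Set Bk)) (by
        rintro x (hx | hx) hx'
        · exact hbq (hx ▸ hx')
        · exact hcG (hx ▸ hx')) hcon hp hP hyq hyP
    refine ⟨C, k1, k2, k3, k4, fun c' hc' => ?_⟩
    have hpb : p ∈ tl s (bk q) := sq_sub_tl s q hp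
    obtain ⟨x, hx, hcx⟩ := k5 c' hc'
    have hx' : bk x = bk q ∨ bk x = c := by
      rcases hx with rfl | hx
      · exact Or.inl rfl
      · exact hx
    have hcx' : c' ∈ tl s (bk x) := sq_sub_tl s x hcx
    rcases hx' with hx' | hx'
    · rw [hx'] at hcx'
      have := tl_dist hs hcx' hpb
      linarith
    · rw [hx'] at hcx'
      obtain ⟨u, hu1, hu2⟩ : (tl s (bk q) ∩ tl s c).Nonempty := by
        rcases hc with hc | hc
        · exact ⟨p, hpb, by rw [hc]; exact hpb⟩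
        · exact nb_meet hs hc
      have e1 := tl_dist hs hcx' hu2
      have e2 := tl_dist hs hu1 hpb
      have e3 : ‖c' - p‖ ≤ ‖c' - u‖ + ‖u - p‖ := by
        have := norm_add_le (c' - u) (u - p)
        rwa [sub_add_sub_cancel] at this
      linarith
  rcases h1 with ⟨z, hz, h2⟩ | ⟨i, e, he, h2⟩
  · -- outside
    have hzP : z ∉ Pw s w (cells G) := fun h' => by
      have := pw_ball h hw h'
      linarith
    obtain ⟨C, k1, k2, k3, k4, k5⟩ := key z hz hzP
    set D := ‖z - x0‖ with hD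
    have hD0 : 0 < D := by linarith
    obtain ⟨u, hu, hzu⟩ := DomBx722.exists_pol (c := x0) (z := z) hD0
    obtain ⟨pr, hpr⟩ := DomAx722.crossRay_exists h.dns hu
    have h3 := (DomBx722.crossRay_ends h.dns hu hpr).1
    obtain ⟨i, hi⟩ := h.tr.hull_mem (Or.inl hpr.1)
    set a := pr.1 with ha
    have hsq := sq_s h
    have e0 : 6 * (s / 2 ^ 20) ≤ s / 4 := by
      have : s / 4 - 6 * (s / 2 ^ 20) = s * (1 / 4 - 6 / 2 ^ 20) := by ring
      have h5 : 0 ≤ s * (1 / 4 - 6 / 2 ^ 20) := mul_nonneg hs.le (by norm_num)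
      linarith
    have h4 : ‖a - (x0 + L * u)‖ ≤ s / 4 := by linarith
    have hDL : D ≤ L + 7 * s := by
      have e1 := k5 z k3
      have e2 : ‖z - x0‖ ≤ ‖z - p‖ + ‖p - x0‖ := by
        have := norm_add_le (z - p) (p - x0)
        rwa [sub_add_sub_cancel] at this
      linarith
    refine ⟨a, (mem_uA h.tr).2 ⟨i, hi⟩, C ∪ segment ℝ z a, ?_, Or.inl k2,
      Or.inr (right_mem_segment ℝ z a), ?_, ?_⟩
    · exact IsPreconnected.union z k3 (left_mem_segment ℝ z a) k1 (convex_segment z a).isPreconnected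
    · rintro y (hy | ⟨α, β, hα, hβ, hαβ, rfl⟩)
      · exact k4 y hy
      · intro h'
        have h5 := pw_ball h hw h'
        have e : α • z + β • a - x0 = ((α * D + β * L : ℝ) : ℂ) * u + (β : ℂ) * (a - (x0 + L * u)) := by
          have e1 : (α : ℂ) + β = 1 := by exact_mod_cast hαβ
          have e2 : z = x0 + (D : ℂ) * u := hzu
          simp only [Complex.real_smul]
          push_cast
          rw [e2]
          linear_combination x0 * e1
        have e3 : ‖((α * D + β * L : ℝ) : ℂ) * u‖ = α * D + β * L := by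
          have hL := L0 h
          rw [norm_mul, hu, mul_one, Complex.norm_real, Real.norm_of_nonneg (by positivity)]
        have e4 : ‖(β : ℂ) * (a - (x0 + L * u))‖ ≤ s / 4 := by
          rw [norm_mul, Complex.norm_real, Real.norm_of_nonneg hβ]
          have : β ≤ 1 := by linarith
          nlinarith [norm_nonneg (a - (x0 + L * u))]
        have e5 : ‖((α * D + β * L : ℝ) : ℂ) * u‖ ≤
            ‖α • z + β • a - x0‖ + ‖(β : ℂ) * (a - (x0 + L * u))‖ := by
          have : ((α * D + β * L : ℝ) : ℂ) * u =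
              (α • z + β • a - x0) - (β : ℂ) * (a - (x0 + L * u)) := by rw [e]; ring
          rw [this]
          exact norm_sub_le _ _
        rw [e3] at e5
        have e6 : L - 2 * s ≤ α * D + β * L := by
          have : α * (L - 2 * s) ≤ α * D := mul_le_mul_of_nonneg_left h2.le hα
          have h7 : β * (L - 2 * s) ≤ β * L := mul_le_mul_of_nonneg_left (by linarith) hβ
          have h8 : L - 2 * s = α * (L - 2 * s) + β * (L - 2 * s) := by
            rw [← add_mul, hαβ, one_mul]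
          linarith
        linarith
    · rintro y (hy | hy)
      · have := k5 y hy
        linarith
      · have h5 := Nearx440.seg_add hy
        have h6 : ‖z - a‖ ≤ 7 * s + s / 4 := by
          have e1 : z - a = ((D - L : ℝ) : ℂ) * u - (a - (x0 + L * u)) := by
            have e2 : z = x0 + (D : ℂ) * u := hzu
            rw [e2]; push_cast; ring
          have e3 : ‖((D - L : ℝ) : ℂ) * u‖ ≤ 7 * s := by
            rw [norm_mul, hu, mul_one, Complex.norm_real, Real.norm_eq_abs, abs_le]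
            constructor <;> linarith
          rw [e1]
          have := norm_sub_le (((D - L : ℝ) : ℂ) * u) (a - (x0 + L * u))
          linarith
        have h7 := k5 z k3
        have h8 : ‖y - p‖ ≤ ‖y - z‖ + ‖z - p‖ := by
          have := norm_add_le (y - z) (z - p)
          rwa [sub_add_sub_cancel] at this
        have h9 := norm_nonneg (y - a)
        rw [norm_sub_rev z y] at h5
        linarith
  · obtain ⟨C, k1, k2, k3, k4, k5⟩ := key e h2 (far_pw h hw hws' he)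
    exact ⟨e, (mem_uA h.tr).2 ⟨i, he⟩, C, k1, k2, k3, k4, fun c hc => (k5 c hc).trans (by linarith)⟩

/-! ### holes -/

/-- holes inside -/
theorem hol (h : Stg S A x0 L d s) : Hl S (Metric.closedBall x0 (L - d)) d := by
  intro z hz
  rw [Metric.mem_closedBall, dist_eq_norm] at hz
  obtain ⟨a, ha, h1⟩ := h.dns.hole z hz
  exact ⟨a, ha, by rw [norm_sub_rev]; exact h1.le⟩

/-- crude holes outside -/
theorem hol' (h : Stg S A x0 L d s) (hR : 0 ≤ R) :
    Hl S (Metric.closedBall x0 (L + R)) (R + s) := by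
  intro z hz
  rw [Metric.mem_closedBall, dist_eq_norm] at hz
  have hs := s0 h
  have hds := d_s h
  have hd0 := h.dns.dpos
  have hdL := h.dns.dL
  have hd2 : 2 * d ≤ s := by
    have : s - 2 * (s / 2 ^ 20) = s * (1 - 2 / 2 ^ 20) := by ring
    have h5 : 0 ≤ s * (1 - 2 / 2 ^ 20) := mul_nonneg hs.le (by norm_num)
    linarith
  rcases le_or_gt ‖z - x0‖ (L - d) with h1 | h1
  · obtain ⟨a, ha, h2⟩ := h.dns.hole z h1
    exact ⟨a, ha, by rw [norm_sub_rev]; linarith⟩
  · obtain ⟨u, hu, hzu⟩ := DomBx722.exists_pol (c := x0) (z := z) (by linarith)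
    obtain ⟨a, ha, h2⟩ := h.dns.hole (x0 + ((L - d : ℝ) : ℂ) * u) (by
      rw [add_sub_cancel_left, norm_mul, hu, mul_one, Complex.norm_real,
        Real.norm_of_nonneg (by linarith)])
    refine ⟨a, ha, ?_⟩
    have e : z - a = ((‖z - x0‖ - (L - d) : ℝ) : ℂ) * u - (a - (x0 + ((L - d : ℝ) : ℂ) * u)) := by
      have e2 : z = x0 + (‖z - x0‖ : ℂ) * u := hzu
      nth_rewrite 1 [e2]
      push_cast; ring
    have e3 : ‖((‖z - x0‖ - (L - d) : ℝ) : ℂ) * u‖ = ‖z - x0‖ - (L - d) := by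
      rw [norm_mul, hu, mul_one, Complex.norm_real, Real.norm_of_nonneg (by linarith)]
    rw [e]
    have := norm_sub_le (((‖z - x0‖ - (L - d) : ℝ) : ℂ) * u) (a - (x0 + ((L - d : ℝ) : ℂ) * u))
    linarith

/-- holes on the thickened polygon -/
theorem hol_pw (h : Stg S A x0 L d s) (hw : 0 ≤ w) (hws : 2 * w < s) :
    Hl S (Pw s w (cells (Gd A x0 L s))) d := by
  refine (hol h).mono fun z hz => ?_
  rw [Metric.mem_closedBall, dist_eq_norm]
  have h1 := pw_ball h hw hz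
  have hds := d_s h
  have hs := s0 h
  have : s / 2 ^ 20 ≤ s := div_le_self hs.le (by norm_num)
  linarith

/-- chains off the deep sites, two hole radii -/
theorem pth_out3 {P C : Set ℂ} {x y : ℂ} {r r' : ℝ} (hS : GP (S : Set ℂ)) (h3 : 3 ≤ S.card)
    (hx : x ∈ S) (hp : p ∉ P) (hxp : ‖x - p‖ ≤ ρ) (hC : IsPreconnected C)
    (hCP : ∀ q ∈ C, q ∉ P) (hH : Hl S P d) (hd0 : 0 ≤ d) (hd : d < ρ) (hpC : p ∈ C)
    (hCr : ∀ q ∈ C, ‖q - x‖ ≤ r) (hH2 : Hl S C r') (hy : y ∈ Clm S C) :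
    Pth S {z | (z ∈ S ∧ z ∉ deep S P ρ) ∧ ‖z - x‖ ≤ r + r' + 2 * ρ} x y := by
  have hρ : 0 ≤ ρ := (norm_nonneg _).trans hxp
  have hr : 0 ≤ r := (norm_nonneg _).trans (hCr p hpC)
  have hr' : 0 ≤ r' := by
    obtain ⟨s, -, h⟩ := hH2 p hpC
    exact (norm_nonneg _).trans h
  obtain ⟨c, hc, hcc⟩ := G6Wx723.exists_cell ⟨x, hx⟩ p
  have h1 : Pth S (Clm S (segment ℝ x p)) x c :=
    pth_conn hS h3 (convex_segment x p).isPreconnected (mem_clm hx (left_mem_segment ℝ x p))
      ⟨hc, p, right_mem_segment ℝ x p, hcc⟩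
  have h2 : Pth S (Clm S C) c y := pth_conn hS h3 hC ⟨hc, p, hpC, hcc⟩ hy
  refine (h1.mono ?_).trans (h2.mono ?_)
  · intro z hz
    refine ⟨⟨hz.1, off_seg hx hp hxp hz⟩, ?_⟩
    have h4 := seg_ball hx hz
    have h5 : ‖z - x‖ ≤ ‖z - p‖ + ‖p - x‖ := by
      have := norm_add_le (z - p) (p - x)
      rwa [sub_add_sub_cancel] at this
    rw [norm_sub_rev p x] at h5
    linarith
  · intro z hz
    refine ⟨⟨hz.1, off_conn' hCP hH hd0 hd hz⟩, ?_⟩
    obtain ⟨q, hq, h4⟩ := Segx991.near hH2 hz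
    have h5 : ‖z - x‖ ≤ ‖z - q‖ + ‖q - x‖ := by
      have := norm_add_le (z - q) (q - x)
      rwa [sub_add_sub_cancel] at this
    rw [norm_sub_rev z q] at h5
    have := hCr q hq
    linarith

/-! ### main statements -/

/-- deep sites are free -/
theorem deep_fr (h : Stg S A x0 L d s) (hw : 0 ≤ w) (hws : 2 * w < s) (hρ : 0 ≤ ρ) :
    (deep S (Pw s w (cells (Gd A x0 L s))) ρ : Set ℂ) ⊆ fr S A := by
  intro x hx
  have hx' := Finset.mem_coe.1 hx
  exact ⟨(mem_deep.1 hx').1, fun i hi => far_pw h hw hws hi (deep_mem hρ hx')⟩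



/-- **(Near)** for every site off the deep sites -/
theorem near (h : Stg S A x0 L d s) (hw : 0 ≤ w) (hws : 4 * w ≤ s) (hd : d < ρ) (hρ : ρ ≤ s)
    (hx : x ∈ S) (hxd : x ∉ deep S (Pw s w (cells (Gd A x0 L s))) ρ) :
    Near S (deep S (Pw s w (cells (Gd A x0 L s))) ρ) (uA S A) (40 * s) x := by
  have hs := s0 h
  have hws' : 2 * w < s := by linarith
  obtain ⟨p, hp, hxp⟩ := exists_out hx hxd
  have hxL := h.dns.sub x hx
  have hpL : ‖p - x0‖ ≤ L + s := by
    have : ‖p - x0‖ ≤ ‖p - x‖ + ‖x - x0‖ := by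
      have := norm_add_le (p - x) (x - x0)
      rwa [sub_add_sub_cancel] at this
    rw [norm_sub_rev p x] at this
    linarith
  obtain ⟨e, he, C, k1, k2, k3, k4, k5⟩ := way_bad h hw hws hp hpL
  refine ⟨e, he, (pth_out3 (r := 15 * s) (r' := 17 * s) h.dns.gp h.card hx hp hxp k1 k4
    (hol_pw h hw hws') h.dns.dpos.le hd k2 ?_ ?_ (mem_clm (Finset.filter_subset _ _ he) k3)).mono ?_⟩
  · intro q hq
    have h1 := k5 q hq
    have h2 : ‖q - x‖ ≤ ‖q - p‖ + ‖p - x‖ := by
      have := norm_add_le (q - p) (p - x)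
      rwa [sub_add_sub_cancel] at this
    rw [norm_sub_rev p x] at h2
    linarith
  · have h3 := hol' h (R := 16 * s) (by linarith)
    rw [show 16 * s + s = 17 * s by ring] at h3
    refine h3.mono fun q hq => ?_
    rw [Metric.mem_closedBall, dist_eq_norm]
    have h1 := k5 q hq
    have h2 : ‖q - x0‖ ≤ ‖q - p‖ + ‖p - x0‖ := by
      have := norm_add_le (q - p) (p - x0)
      rwa [sub_add_sub_cancel] at this
    linarith
  · rintro y ⟨h1, h2⟩
    exact ⟨h1, h2.trans (by linarith)⟩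


/-- the deep sites of the setting -/
theorem va_eq : Va S A x0 L d s = deep S (Pw s 0 (cells (Gd A x0 L s))) (2 * d) := by
  unfold Va Al NetVx346.Vin deep
  rw [pw_zero]

end Crest.Agent.R143.Glux991
end
end

-- ▼ part R143/Side_359
section

/-!
# Row 143 (S0194), CONT, (K7), LAYER (660's route): sides of neighbouring bricks (helper359)

* `mem_box` : points of a unit edge
* **`side`** : for neighbouring bricks `g, b` a dart with `g` on the left and `b` on the right; a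
  point at distance `≤ δ` from both tiles is at distance `≤ 2 δ` from the edge
* `dart_nb` : the bricks of a dart of `G`
-/

set_option autoImplicit false
set_option linter.unreachableTactic false
set_option linter.unusedTactic false

noncomputable section

open scoped Classical

namespace Crest.Agent.R143.Sidex359

open Set
open Crest.Agent.R143.K7Dx359 Crest.Agent.R143.K7x359 Crest.Agent.R143.Grdx359
open Crest.Agent.R158
open Crest.Agent.R143.Brkx478 (Bk Nb Conn cells Cn bk nb_iff mem_cells)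
open Crest.Agent.R143.Gridx991 (tl mem_tl)
open Crest.Agent.R158.Sp896 (lc rc pt ed)

variable {s δ : ℝ} {g b : Bk} {x z w : ℂ}

theorem clamp {lo hi x δ : ℝ} (hδ : 0 ≤ δ) (h : lo ≤ hi) (h1 : lo - δ ≤ x) (h2 : x ≤ hi + δ) :
    ∃ p, lo ≤ p ∧ p ≤ hi ∧ |x - p| ≤ δ := by
  refine ⟨max lo (min hi x), le_max_left _ _, max_le h (min_le_left _ _), ?_⟩
  rw [abs_le]
  rcases le_total hi x with h3 | h3
  · rw [min_eq_left h3, max_eq_right h]
    constructor <;> linarith
  · rw [min_eq_right h3]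
    rcases le_total lo x with h4 | h4
    · rw [max_eq_right h4]; constructor <;> linarith
    · rw [max_eq_left h4]; constructor <;> linarith

/-- points of a unit edge -/
theorem mem_box (hs : 0 < s) {a a' : Sp896.V} (h : Sp896.Adj a a')
    (h1 : s * (min a.1 a'.1 : ℤ) ≤ z.re) (h2 : z.re ≤ s * (max a.1 a'.1 : ℤ))
    (h3 : s * (min a.2 a'.2 : ℤ) ≤ z.im) (h4 : z.im ≤ s * (max a.2 a'.2 : ℤ)) : z ∈ ed s a a' := by
  rw [TentMx951.mem_ed]
  have q : ∀ {m n : ℤ} {y : ℝ}, n = m + 1 → s * (m : ℝ) ≤ y → y ≤ s * (n : ℝ) →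
      ∃ t : ℝ, 0 ≤ t ∧ t ≤ 1 ∧ y = s * (m + t) := by
    intro m n y hn h5 h6
    refine ⟨y / s - m, ?_, ?_, ?_⟩
    · rw [sub_nonneg, le_div_iff₀ hs]; linarith
    · rw [sub_le_iff_le_add, div_le_iff₀ hs]
      rw [hn] at h6
      push_cast at h6
      linarith
    · field_simp; ring
  rcases h with ⟨e1, e2⟩ | ⟨e1, e2⟩ | ⟨e1, e2⟩ | ⟨e1, e2⟩
  · rw [min_eq_left (by omega)] at h1
    rw [max_eq_right (by omega)] at h2
    rw [min_eq_left (by omega)] at h3
    rw [max_eq_left (by omega)] at h4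
    obtain ⟨t, t0, t1, ht⟩ := q e1 h1 h2
    refine ⟨t, t0, t1, ?_, ?_⟩
    · rw [ht, e1]; push_cast; ring
    · rw [e2]; linarith
  · rw [min_eq_right (by omega)] at h1
    rw [max_eq_left (by omega)] at h2
    rw [min_eq_left (by omega)] at h3
    rw [max_eq_left (by omega)] at h4
    obtain ⟨t, t0, t1, ht⟩ := q (show a.1 = a'.1 + 1 by omega) h1 h2
    refine ⟨1 - t, by linarith, by linarith, ?_, ?_⟩
    · rw [ht, e1]; push_cast; ring
    · rw [e2]; linarith
  · rw [min_eq_left (by omega)] at h1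
    rw [max_eq_left (by omega)] at h2
    rw [min_eq_left (by omega)] at h3
    rw [max_eq_right (by omega)] at h4
    obtain ⟨t, t0, t1, ht⟩ := q e2 h3 h4
    refine ⟨t, t0, t1, ?_, ?_⟩
    · rw [e1]; linarith
    · rw [ht, e2]; push_cast; ring
  · rw [min_eq_left (by omega)] at h1
    rw [max_eq_left (by omega)] at h2
    rw [min_eq_right (by omega)] at h3
    rw [max_eq_left (by omega)] at h4
    obtain ⟨t, t0, t1, ht⟩ := q (show a.2 = a'.2 + 1 by omega) h3 h4
    refine ⟨1 - t, by linarith, by linarith, ?_, ?_⟩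
    · rw [e1]; linarith
    · rw [ht, e2]; push_cast; ring

/-- a point near both tiles is near the box between them -/
theorem near_box (hs : 0 < s) (hδ : 0 ≤ δ) {a a' : Sp896.V} (h : Sp896.Adj a a')
    (hx : ∀ z ∈ tl s g, ∀ w ∈ tl s b, ‖x - z‖ ≤ δ → ‖x - w‖ ≤ δ →
      s * (min a.1 a'.1 : ℤ) - δ ≤ x.re ∧ x.re ≤ s * (max a.1 a'.1 : ℤ) + δ ∧
      s * (min a.2 a'.2 : ℤ) - δ ≤ x.im ∧ x.im ≤ s * (max a.2 a'.2 : ℤ) + δ)
    (hz : z ∈ tl s g) (hw : w ∈ tl s b) (h1 : ‖x - z‖ ≤ δ) (h2 : ‖x - w‖ ≤ δ) :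
    Metric.infDist x (ed s a a') ≤ 2 * δ := by
  obtain ⟨b1, b2, b3, b4⟩ := hx z hz w hw h1 h2
  have m1 : s * ((min a.1 a'.1 : ℤ) : ℝ) ≤ s * ((max a.1 a'.1 : ℤ) : ℝ) :=
    mul_le_mul_of_nonneg_left (by exact_mod_cast min_le_max) hs.le
  have m2 : s * ((min a.2 a'.2 : ℤ) : ℝ) ≤ s * ((max a.2 a'.2 : ℤ) : ℝ) :=
    mul_le_mul_of_nonneg_left (by exact_mod_cast min_le_max) hs.le
  obtain ⟨p, p1, p2, p3⟩ := clamp hδ m1 b1 b2
  obtain ⟨q, q1, q2, q3⟩ := clamp hδ m2 b3 b4
  have hmem : (⟨p, q⟩ : ℂ) ∈ ed s a a' := mem_box hs h p1 p2 q1 q2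
  refine (Metric.infDist_le_dist_of_mem hmem).trans ?_
  rw [dist_eq_norm]
  refine (Complex.norm_le_abs_re_add_abs_im _).trans ?_
  rw [Complex.sub_re, Complex.sub_im]
  linarith

/-- **the side between two neighbouring bricks** -/
theorem side (hs : 0 < s) (hδ : 0 ≤ δ) (h : Nb g b) : ∃ a a' : Sp896.V, Sp896.Adj a a' ∧
    bk (lc a a') = g ∧ bk (rc a a') = b ∧
    ∀ x z w, z ∈ tl s g → w ∈ tl s b → ‖x - z‖ ≤ δ → ‖x - w‖ ≤ δ →
      Metric.infDist x (ed s a a') ≤ 2 * δ := by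
  have bd : ∀ {x z w : ℂ}, z ∈ tl s g → w ∈ tl s b → ‖x - z‖ ≤ δ → ‖x - w‖ ≤ δ →
      (s * (2 * g.1 + g.2) - δ ≤ x.re ∧ x.re ≤ s * (2 * g.1 + g.2 + 2) + δ ∧
        s * g.2 - δ ≤ x.im ∧ x.im ≤ s * (g.2 + 1) + δ) ∧
      (s * (2 * b.1 + b.2) - δ ≤ x.re ∧ x.re ≤ s * (2 * b.1 + b.2 + 2) + δ ∧
        s * b.2 - δ ≤ x.im ∧ x.im ≤ s * (b.2 + 1) + δ) := by
    intro x z w hz hw h1 h2
    rw [mem_tl hs] at hz hw
    have r1 := (Complex.abs_re_le_norm (x - z)).trans h1
    have r2 := (Complex.abs_im_le_norm (x - z)).trans h1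
    have r3 := (Complex.abs_re_le_norm (x - w)).trans h2
    have r4 := (Complex.abs_im_le_norm (x - w)).trans h2
    rw [Complex.sub_re, abs_le] at r1 r3
    rw [Complex.sub_im, abs_le] at r2 r4
    obtain ⟨z1, z2, z3, z4⟩ := hz
    obtain ⟨w1, w2, w3, w4⟩ := hw
    refine ⟨⟨?_, ?_, ?_, ?_⟩, ⟨?_, ?_, ?_, ?_⟩⟩ <;> linarith
  obtain ⟨g1, g2⟩ := g
  obtain ⟨b1, b2⟩ := b
  rw [nb_iff] at h
  simp only at h bd
  have fin : ∀ {a a' : Sp896.V} (had : Sp896.Adj a a') (h1 : bk (lc a a') = (g1, g2))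
      (h2 : bk (rc a a') = (b1, b2))
      (h3 : ∀ x : ℂ, (s * (2 * (g1 : ℝ) + g2) - δ ≤ x.re ∧ x.re ≤ s * (2 * g1 + g2 + 2) + δ ∧
        s * g2 - δ ≤ x.im ∧ x.im ≤ s * (g2 + 1) + δ) →
        (s * (2 * (b1 : ℝ) + b2) - δ ≤ x.re ∧ x.re ≤ s * (2 * b1 + b2 + 2) + δ ∧
        s * b2 - δ ≤ x.im ∧ x.im ≤ s * (b2 + 1) + δ) →
        s * (min a.1 a'.1 : ℤ) - δ ≤ x.re ∧ x.re ≤ s * (max a.1 a'.1 : ℤ) + δ ∧
        s * (min a.2 a'.2 : ℤ) - δ ≤ x.im ∧ x.im ≤ s * (max a.2 a'.2 : ℤ) + δ),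
      ∃ a a' : Sp896.V, Sp896.Adj a a' ∧ bk (lc a a') = (g1, g2) ∧ bk (rc a a') = (b1, b2) ∧
        ∀ x z w, z ∈ tl s (g1, g2) → w ∈ tl s (b1, b2) → ‖x - z‖ ≤ δ → ‖x - w‖ ≤ δ →
        Metric.infDist x (ed s a a') ≤ 2 * δ := by
    intro a a' had h1 h2 h3
    refine ⟨a, a', had, h1, h2, fun x z w hz hw e1 e2 => ?_⟩
    refine near_box hs hδ had (fun z hz w hw e1 e2 => ?_) hz hw e1 e2
    obtain ⟨c1, c2⟩ := bd hz hw e1 e2
    exact h3 x c1 c2
  rcases h with ⟨e1, e2⟩ | ⟨e1, e2⟩ | ⟨e1, e2⟩ | ⟨e1, e2⟩ | ⟨e1, e2⟩ | ⟨e1, e2⟩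
  · refine fin (a := (2 * g1 + g2 + 2, g2)) (a' := (2 * g1 + g2 + 2, g2 + 1)) ?_ ?_ ?_ ?_
    · unfold Sp896.Adj; first | omega | (simp only; omega)
    · unfold bk lc; ext <;> simp only <;> first | omega | rfl
    · unfold bk rc; ext <;> simp only <;> omega
    · rintro x ⟨c1, c2, c3, c4⟩ ⟨c5, c6, c7, c8⟩
      have f1 : (b1 : ℝ) = _ := congrArg (Int.cast : ℤ → ℝ) e1
      have f2 : (b2 : ℝ) = _ := congrArg (Int.cast : ℤ → ℝ) e2
      rw [f1, f2] at c5 c6
      rw [f2] at c7 c8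
      push_cast at c5 c6 c7 c8
      simp only
      refine ⟨?_, ?_, ?_, ?_⟩
      · first
          | rw [min_eq_left (by omega)]; push_cast; nlinarith
          | rw [min_eq_right (by omega)]; push_cast; nlinarith
      · first
          | rw [max_eq_left (by omega)]; push_cast; nlinarith
          | rw [max_eq_right (by omega)]; push_cast; nlinarith
      · first
          | rw [min_eq_left (by omega)]; push_cast; nlinarith
          | rw [min_eq_right (by omega)]; push_cast; nlinarith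
      · first
          | rw [max_eq_left (by omega)]; push_cast; nlinarith
          | rw [max_eq_right (by omega)]; push_cast; nlinarith
  · refine fin (a := (2 * g1 + g2 + 2, g2 + 1)) (a' := (2 * g1 + g2 + 1, g2 + 1)) ?_ ?_ ?_ ?_
    · unfold Sp896.Adj; first | omega | (simp only; omega)
    · unfold bk lc; ext <;> simp only <;> first | omega | rfl
    · unfold bk rc; ext <;> simp only <;> omega
    · rintro x ⟨c1, c2, c3, c4⟩ ⟨c5, c6, c7, c8⟩
      have f1 : (b1 : ℝ) = _ := congrArg (Int.cast : ℤ → ℝ) e1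
      have f2 : (b2 : ℝ) = _ := congrArg (Int.cast : ℤ → ℝ) e2
      rw [f1, f2] at c5 c6
      rw [f2] at c7 c8
      push_cast at c5 c6 c7 c8
      simp only
      refine ⟨?_, ?_, ?_, ?_⟩
      · first
          | rw [min_eq_left (by omega)]; push_cast; nlinarith
          | rw [min_eq_right (by omega)]; push_cast; nlinarith
      · first
          | rw [max_eq_left (by omega)]; push_cast; nlinarith
          | rw [max_eq_right (by omega)]; push_cast; nlinarith
      · first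
          | rw [min_eq_left (by omega)]; push_cast; nlinarith
          | rw [min_eq_right (by omega)]; push_cast; nlinarith
      · first
          | rw [max_eq_left (by omega)]; push_cast; nlinarith
          | rw [max_eq_right (by omega)]; push_cast; nlinarith
  · refine fin (a := (2 * g1 + g2 + 1, g2 + 1)) (a' := (2 * g1 + g2, g2 + 1)) ?_ ?_ ?_ ?_
    · unfold Sp896.Adj; first | omega | (simp only; omega)
    · unfold bk lc; ext <;> simp only <;> first | omega | rfl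
    · unfold bk rc; ext <;> simp only <;> omega
    · rintro x ⟨c1, c2, c3, c4⟩ ⟨c5, c6, c7, c8⟩
      have f1 : (b1 : ℝ) = _ := congrArg (Int.cast : ℤ → ℝ) e1
      have f2 : (b2 : ℝ) = _ := congrArg (Int.cast : ℤ → ℝ) e2
      rw [f1, f2] at c5 c6
      rw [f2] at c7 c8
      push_cast at c5 c6 c7 c8
      simp only
      refine ⟨?_, ?_, ?_, ?_⟩
      · first
          | rw [min_eq_left (by omega)]; push_cast; nlinarith
          | rw [min_eq_right (by omega)]; push_cast; nlinarith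
      · first
          | rw [max_eq_left (by omega)]; push_cast; nlinarith
          | rw [max_eq_right (by omega)]; push_cast; nlinarith
      · first
          | rw [min_eq_left (by omega)]; push_cast; nlinarith
          | rw [min_eq_right (by omega)]; push_cast; nlinarith
      · first
          | rw [max_eq_left (by omega)]; push_cast; nlinarith
          | rw [max_eq_right (by omega)]; push_cast; nlinarith
  · refine fin (a := (2 * g1 + g2, g2 + 1)) (a' := (2 * g1 + g2, g2)) ?_ ?_ ?_ ?_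
    · unfold Sp896.Adj; first | omega | (simp only; omega)
    · unfold bk lc; ext <;> simp only <;> first | omega | rfl
    · unfold bk rc; ext <;> simp only <;> omega
    · rintro x ⟨c1, c2, c3, c4⟩ ⟨c5, c6, c7, c8⟩
      have f1 : (b1 : ℝ) = _ := congrArg (Int.cast : ℤ → ℝ) e1
      have f2 : (b2 : ℝ) = _ := congrArg (Int.cast : ℤ → ℝ) e2
      rw [f1, f2] at c5 c6
      rw [f2] at c7 c8
      push_cast at c5 c6 c7 c8
      simp only
      refine ⟨?_, ?_, ?_, ?_⟩
      · first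
          | rw [min_eq_left (by omega)]; push_cast; nlinarith
          | rw [min_eq_right (by omega)]; push_cast; nlinarith
      · first
          | rw [max_eq_left (by omega)]; push_cast; nlinarith
          | rw [max_eq_right (by omega)]; push_cast; nlinarith
      · first
          | rw [min_eq_left (by omega)]; push_cast; nlinarith
          | rw [min_eq_right (by omega)]; push_cast; nlinarith
      · first
          | rw [max_eq_left (by omega)]; push_cast; nlinarith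
          | rw [max_eq_right (by omega)]; push_cast; nlinarith
  · refine fin (a := (2 * g1 + g2, g2)) (a' := (2 * g1 + g2 + 1, g2)) ?_ ?_ ?_ ?_
    · unfold Sp896.Adj; first | omega | (simp only; omega)
    · unfold bk lc; ext <;> simp only <;> first | omega | rfl
    · unfold bk rc; ext <;> simp only <;> omega
    · rintro x ⟨c1, c2, c3, c4⟩ ⟨c5, c6, c7, c8⟩
      have f1 : (b1 : ℝ) = _ := congrArg (Int.cast : ℤ → ℝ) e1
      have f2 : (b2 : ℝ) = _ := congrArg (Int.cast : ℤ → ℝ) e2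
      rw [f1, f2] at c5 c6
      rw [f2] at c7 c8
      push_cast at c5 c6 c7 c8
      simp only
      refine ⟨?_, ?_, ?_, ?_⟩
      · first
          | rw [min_eq_left (by omega)]; push_cast; nlinarith
          | rw [min_eq_right (by omega)]; push_cast; nlinarith
      · first
          | rw [max_eq_left (by omega)]; push_cast; nlinarith
          | rw [max_eq_right (by omega)]; push_cast; nlinarith
      · first
          | rw [min_eq_left (by omega)]; push_cast; nlinarith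
          | rw [min_eq_right (by omega)]; push_cast; nlinarith
      · first
          | rw [max_eq_left (by omega)]; push_cast; nlinarith
          | rw [max_eq_right (by omega)]; push_cast; nlinarith
  · refine fin (a := (2 * g1 + g2 + 1, g2)) (a' := (2 * g1 + g2 + 2, g2)) ?_ ?_ ?_ ?_
    · unfold Sp896.Adj; first | omega | (simp only; omega)
    · unfold bk lc; ext <;> simp only <;> first | omega | rfl
    · unfold bk rc; ext <;> simp only <;> omega
    · rintro x ⟨c1, c2, c3, c4⟩ ⟨c5, c6, c7, c8⟩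
      have f1 : (b1 : ℝ) = _ := congrArg (Int.cast : ℤ → ℝ) e1
      have f2 : (b2 : ℝ) = _ := congrArg (Int.cast : ℤ → ℝ) e2
      rw [f1, f2] at c5 c6
      rw [f2] at c7 c8
      push_cast at c5 c6 c7 c8
      simp only
      refine ⟨?_, ?_, ?_, ?_⟩
      · first
          | rw [min_eq_left (by omega)]; push_cast; nlinarith
          | rw [min_eq_right (by omega)]; push_cast; nlinarith
      · first
          | rw [max_eq_left (by omega)]; push_cast; nlinarith
          | rw [max_eq_right (by omega)]; push_cast; nlinarith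
      · first
          | rw [min_eq_left (by omega)]; push_cast; nlinarith
          | rw [min_eq_right (by omega)]; push_cast; nlinarith
      · first
          | rw [max_eq_left (by omega)]; push_cast; nlinarith
          | rw [max_eq_right (by omega)]; push_cast; nlinarith



/-- **a point near a tile of `G` and near a tile off `G` is near the common boundary edge** -/
theorem lab_side {G : Set Bk} (hs : 0 < s) (hδs : 2 * δ < s) (hg : g ∈ G) (hb : b ∉ G)
    (hz : z ∈ tl s g) (hw : w ∈ tl s b) (h1 : ‖x - z‖ ≤ δ) (h2 : ‖x - w‖ ≤ δ) :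
    ∃ a a', Dart G a a' ∧ bk (lc a a') = g ∧ bk (rc a a') = b ∧
      Metric.infDist x (ed s a a') ≤ 2 * δ := by
  have hδ : 0 ≤ δ := (norm_nonneg _).trans h1
  have hgb : g ≠ b := fun h => hb (h ▸ hg)
  have hnb : Nb g b := by
    rcases far' hs hz hw (by
      have h3 : ‖z - w‖ ≤ ‖z - x‖ + ‖x - w‖ := by
        have := norm_add_le (z - x) (x - w)
        rwa [sub_add_sub_cancel] at this
      rw [norm_sub_rev z x] at h3
      linarith) with h | h
    · exact absurd h hgb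
    · exact h
  obtain ⟨a, a', h3, h4, h5, h6⟩ := side hs hδ hnb
  refine ⟨a, a', ⟨h3, ?_, ?_⟩, h4, h5, h6 x z w hz hw h1 h2⟩
  · rw [mem_cells, h4]; exact hg
  · rw [mem_cells, h5]; exact hb

end Crest.Agent.R143.Sidex359
end
end

-- ▼ part R143/LayK_341

/-!
# Row 143 (S0194), K7: the layer (helper341)

Proof of 359's `LAYER` by the quotient forest (`QFor_341`): one region only. A ring brick `b` (bad,
next to a good one) contains no class site; its core = the sites whose cells meet the shrunk tile.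
The sites next to the deep sites are attached to the cores by 583's thin forest inside the free
sites off `Va`; the blocks are contracted to points, 991's `near` gives the classes.
-/

set_option autoImplicit false

noncomputable section

open scoped Classical

namespace Crest.Agent.R143.LayKx341

open Set
open Crest.Agent.R158
open Crest.Agent.R158.Sp896 (V lc rc pt ed sq)
open Crest.Agent.R143.B0x346 Crest.Agent.R143.DelGx806 Crest.Agent.R143.DelRx806
  Crest.Agent.R143.JColx54 Crest.Agent.R143.RE0x723 Crest.Agent.R143.K33x877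
open Crest.Agent.R143.Brkx478
open Crest.Agent.R143.Tenx416 (Pg)
open Crest.Agent.R143.Gridx991 (tl mem_tl tl_dist exists_tl)
open Crest.Agent.R143.GridKx991 (al_eq int_bd' tl_near gd_iff gd_cls s0 d_s edge_s)
open Crest.Agent.R143.Segx991
open Crest.Agent.R143.Terr2x583 (Joi Near Lab thin_forest)
open Crest.Agent.R143.Colx583 (uA mem_uA)
open Crest.Agent.R143.QForx341
open Crest.Agent.R143.K7Dx359 (Stg Gd Al Va ThF Lay LAYER Dart)

variable {S : Finset ℂ} {A : ZMod 3 → Set ℂ} {s L d δ : ℝ} {x0 x y z w : ℂ} {b c g : Bk}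

/-! ### boxes -/

theorem box_convex (a1 a2 b1 b2 : ℝ) :
    Convex ℝ {z : ℂ | a1 ≤ z.re ∧ z.re ≤ a2 ∧ b1 ≤ z.im ∧ z.im ≤ b2} := by
  have h := ((convex_halfSpace_re_ge a1).inter (convex_halfSpace_re_le a2)).inter
    ((convex_halfSpace_im_ge b1).inter (convex_halfSpace_im_le b2))
  convert h using 1
  ext z
  constructor
  · rintro ⟨h1, h2, h3, h4⟩; exact ⟨⟨h1, h2⟩, h3, h4⟩
  · rintro ⟨⟨h1, h2⟩, h3, h4⟩; exact ⟨h1, h2, h3, h4⟩

/-- shrunk tile -/
def Tc (s δ : ℝ) (b : Bk) : Set ℂ :=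
  {z | s * (2 * b.1 + b.2) + δ ≤ z.re ∧ z.re ≤ s * (2 * b.1 + b.2 + 2) - δ ∧
    s * b.2 + δ ≤ z.im ∧ z.im ≤ s * (b.2 + 1) - δ}

/-- open tile -/
def Ti (s : ℝ) (b : Bk) : Set ℂ :=
  {z | s * (2 * b.1 + b.2) < z.re ∧ z.re < s * (2 * b.1 + b.2 + 2) ∧
    s * b.2 < z.im ∧ z.im < s * (b.2 + 1)}

theorem tc_convex : Convex ℝ (Tc s δ b) := box_convex _ _ _ _

theorem tl_convex (hs : 0 < s) : Convex ℝ (tl s b) := by
  have e : tl s b = {z : ℂ | s * (2 * b.1 + b.2) ≤ z.re ∧ z.re ≤ s * (2 * b.1 + b.2 + 2) ∧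
      s * b.2 ≤ z.im ∧ z.im ≤ s * (b.2 + 1)} := by
    ext z; exact mem_tl hs
  rw [e]
  exact box_convex _ _ _ _

theorem ti_tl (hs : 0 < s) (h : z ∈ Ti s b) : z ∈ tl s b := by
  rw [mem_tl hs]
  exact ⟨h.1.le, h.2.1.le, h.2.2.1.le, h.2.2.2.le⟩

/-- an inner point of a tile is in no other tile -/
theorem ti_eq (hs : 0 < s) (h : z ∈ Ti s b) (hc : z ∈ tl s c) : c = b := by
  rw [mem_tl hs] at hc
  obtain ⟨h1, h2, h3, h4⟩ := h
  obtain ⟨c1, c2, c3, c4⟩ := hc
  have k1 : (2 * c.1 + c.2) - (2 * b.1 + b.2) < (2 : ℕ) :=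
    int_bd' hs (x := z.re) (by push_cast; exact c1) (by push_cast; exact h2)
  have k2 : (2 * b.1 + b.2) - (2 * c.1 + c.2) < (2 : ℕ) :=
    int_bd' hs (x := s * (2 * b.1 + b.2)) (by push_cast; exact le_rfl)
      (by push_cast; exact h1.trans_le c2)
  have k3 : c.2 - b.2 < (1 : ℕ) := int_bd' hs (x := z.im) c3 (by push_cast; exact h4)
  have k4 : b.2 - c.2 < (1 : ℕ) :=
    int_bd' hs (x := s * b.2) le_rfl (by push_cast; exact h3.trans_le c4)
  push_cast at k1 k2 k3 k4
  exact Prod.ext (by omega) (by omega)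

theorem tc_ti (hδ : 0 < δ) (h : z ∈ Tc s δ b) : z ∈ Ti s b := by
  obtain ⟨h1, h2, h3, h4⟩ := h
  exact ⟨by linarith, by linarith, by linarith, by linarith⟩

/-- every point of the tile is near the shrunk tile -/
theorem clampT (hs : 0 < s) (hδ : 0 ≤ δ) (hδs : 2 * δ ≤ s) (hw : w ∈ tl s b) :
    ∃ p ∈ Tc s δ b, ‖w - p‖ ≤ 2 * δ := by
  rw [mem_tl hs] at hw
  obtain ⟨h1, h2, h3, h4⟩ := hw
  obtain ⟨u, u1, u2, u3⟩ := Glux991.clamp (a := s * (2 * b.1 + b.2) + δ)
    (b := s * (2 * b.1 + b.2 + 2) - δ) (w := δ) (u := w.re) (by linarith) (by linarith)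
    (by linarith) hδ
  obtain ⟨v, v1, v2, v3⟩ := Glux991.clamp (a := s * b.2 + δ)
    (b := s * (b.2 + 1) - δ) (w := δ) (u := w.im) (by linarith) (by linarith) (by linarith) hδ
  refine ⟨⟨u, v⟩, ⟨u1, u2, v1, v2⟩, ?_⟩
  have := Complex.norm_le_abs_re_add_abs_im (w - ⟨u, v⟩)
  rw [Complex.sub_re, Complex.sub_im] at this
  dsimp only at this
  linarith

/-! ### ring bricks -/

/-- ring brick: bad, next to a good one -/
def Rg (A : ZMod 3 → Set ℂ) (x0 : ℂ) (L s : ℝ) (b : Bk) : Prop :=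
  b ∉ Gd A x0 L s ∧ ∃ g ∈ Gd A x0 L s, Nb g b

theorem Rg.ball (h : Rg A x0 L s b) (hz : z ∈ tl s b) : ‖z - x0‖ ≤ L - 2 * s := by
  obtain ⟨-, g, hg, hgb⟩ := h
  exact ((gd_iff.1 hg) b (Or.inr hgb)).1 z hz

theorem Rg.cls (h : Rg A x0 L s b) {i : ZMod 3} (he : z ∈ A i) : z ∉ tl s b := by
  obtain ⟨-, g, hg, hgb⟩ := h
  exact ((gd_iff.1 hg) b (Or.inr hgb)).2 i z he

theorem mem_al : z ∈ Al A x0 L s ↔ ∃ g ∈ Gd A x0 L s, z ∈ tl s g := by
  rw [al_eq]
  simp only [mem_iUnion, exists_prop]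

theorem va_deep : Va S A x0 L d s = deep S (Al A x0 L s) (2 * d) := rfl

/-- density on the tile -/
theorem Rg.hl (h : Rg A x0 L s b) (hS : Stg S A x0 L d s) : Hl S (tl s b) d := by
  refine (Glux991.hol hS).mono fun z hz => ?_
  rw [Metric.mem_closedBall, dist_eq_norm]
  have h1 := h.ball hz
  have h2 := d_s hS
  have hs := s0 hS
  have : s / 2 ^ 20 ≤ s := div_le_self hs.le (by norm_num)
  linarith

/-- sites near a bad tile are not deep -/
theorem off_tile (hS : Stg S A x0 L d s) (hb : b ∉ Gd A x0 L s) (hw : w ∈ tl s b)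
    (hyw : ‖y - w‖ ≤ d) : y ∉ Va S A x0 L d s := by
  have hs := s0 hS
  have hd := hS.dns.dpos
  have hds := d_s hS
  have h20 : s / 2 ^ 20 ≤ s := div_le_self hs.le (by norm_num)
  obtain ⟨p, hp, hwp⟩ := clampT (δ := d / 2) hs (by linarith) (by linarith) hw
  have hpA : p ∉ Al A x0 L s := by
    intro h
    obtain ⟨g, hg, h1⟩ := mem_al.1 h
    have := ti_eq hs (tc_ti (by linarith) hp) h1
    rw [this] at hg
    exact hb hg
  rw [va_deep]
  refine not_deep hpA ?_
  have := norm_add_le (y - w) (w - p)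
  rw [sub_add_sub_cancel] at this
  linarith

/-- core of a ring brick -/
def core (S : Finset ℂ) (s δ : ℝ) (b : Bk) : Set ℂ := Clm S (Tc s δ b)

theorem core_ti (hS : Stg S A x0 L d s) (hb : Rg A x0 L s b) (hd : d < δ)
    (hx : x ∈ core S s δ b) : x ∈ S ∧ x ∈ Ti s b := by
  have hs := s0 hS
  have hd0 := hS.dns.dpos
  have hH : Hl S (Tc s δ b) d := (hb.hl hS).mono fun z hz => ti_tl hs (tc_ti (by linarith) hz)
  obtain ⟨q, hq, h1⟩ := near hH hx
  refine ⟨hx.1, ?_⟩
  obtain ⟨q1, q2, q3, q4⟩ := hq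
  have e1 := (Complex.abs_re_le_norm (q - x)).trans h1
  have e2 := (Complex.abs_im_le_norm (q - x)).trans h1
  rw [Complex.sub_re, abs_le] at e1
  rw [Complex.sub_im, abs_le] at e2
  exact ⟨by linarith [e1.2], by linarith [e1.1], by linarith [e2.2], by linarith [e2.1]⟩

/-- free sites off `Va` -/
def Of (S : Finset ℂ) (A : ZMod 3 → Set ℂ) (x0 : ℂ) (L d s : ℝ) : Finset ℂ :=
  S.filter fun x => x ∉ Va S A x0 L d s ∧ ∀ i, x ∉ A i

theorem mem_Of : x ∈ Of S A x0 L d s ↔ x ∈ S ∧ x ∉ Va S A x0 L d s ∧ ∀ i, x ∉ A i :=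
  Finset.mem_filter

theorem core_Of (hS : Stg S A x0 L d s) (hb : Rg A x0 L s b) (hd : d < δ)
    (hx : x ∈ core S s δ b) : x ∈ Of S A x0 L d s := by
  have hs := s0 hS
  obtain ⟨h1, h2⟩ := core_ti hS hb hd hx
  refine mem_Of.2 ⟨h1, ?_, fun i hi => hb.cls hi (ti_tl hs h2)⟩
  have hd0 := hS.dns.dpos
  exact off_tile hS hb.1 (ti_tl hs h2) (by rw [sub_self, norm_zero]; exact hd0.le)

/-- **the sites next to the deep sites are joined to the cores** -/
theorem to_core (hS : Stg S A x0 L d s) (hd : 3 * d ≤ δ) (hδ : 8 * δ ≤ s) (hx : x ∈ S)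
    (hxV : x ∉ Va S A x0 L d s) {v : ℂ} (hv : v ∈ Va S A x0 L d s) (hxv : Adj S x v) :
    x ∈ Of S A x0 L d s ∧ (∃ g ∈ Gd A x0 L s, v ∈ tl s g) ∧
    ∃ b, Rg A x0 L s b ∧ ∃ e ∈ core S s δ b,
      Pth S {z | z ∈ Of S A x0 L d s ∧ ‖z - x‖ ≤ 3 * δ} x e := by
  have hs := s0 hS
  have hd0 := hS.dns.dpos
  have hE := edge_s hS hxv
  have h17 : s / 2 ^ 17 ≤ s / 8 := div_le_div_of_nonneg_left hs.le (by norm_num) (by norm_num)
  have hvA : v ∈ Al A x0 L s := deep_mem (by linarith) hv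
  obtain ⟨g, hg, hvg⟩ := mem_al.1 hvA
  obtain ⟨q, hqA, hxq⟩ := exists_out hx hxV
  obtain ⟨b, hqb⟩ := exists_tl hs q
  have hbG : b ∉ Gd A x0 L s := fun h' => hqA (mem_al.2 ⟨b, h', hqb⟩)
  have hvq : ‖v - q‖ ≤ s / 8 + 2 * d := by
    have := norm_add_le (v - x) (x - q)
    rw [sub_add_sub_cancel, norm_sub_rev v x] at this
    linarith
  have hR : Rg A x0 L s b := by
    refine ⟨hbG, g, hg, ?_⟩
    rcases tl_near hs hvg hqb (by linarith) with h' | h'
    · rw [h'] at hbG; exact absurd hg hbG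
    · exact h'
  obtain ⟨p, hp, hqp⟩ := clampT (δ := δ) hs (by linarith) (by linarith) hqb
  have hseg : segment ℝ q p ⊆ tl s b := (tl_convex hs).segment_subset hqb
    (ti_tl hs (tc_ti (by linarith) hp))
  -- class sites are far
  have hcl : ∀ z, ‖v - z‖ < s → ∀ i, z ∉ A i := by
    intro z hz i hi
    have := gd_cls hs hg hvg hi
    linarith
  have leg1 : ∀ z ∈ Clm S (segment ℝ x q), z ∈ Of S A x0 L d s ∧ ‖z - x‖ ≤ 3 * δ := by
    intro z hz
    have k1 := seg_ball hx hz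
    have k2 : ‖z - x‖ ≤ 4 * d := by
      have := norm_add_le (z - q) (q - x)
      rw [sub_add_sub_cancel, norm_sub_rev q x] at this
      linarith
    refine ⟨mem_Of.2 ⟨hz.1, off_seg hx hqA hxq hz, hcl z ?_⟩, by linarith⟩
    have := norm_add_le (v - q) (q - z)
    rw [sub_add_sub_cancel, norm_sub_rev q z] at this
    linarith
  have leg2 : ∀ z ∈ Clm S (segment ℝ q p), z ∈ Of S A x0 L d s ∧ ‖z - x‖ ≤ 3 * δ := by
    intro z hz
    obtain ⟨w, hw, hwz⟩ := near ((hR.hl hS).mono hseg) hz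
    have k0 : ‖q - w‖ ≤ 2 * δ := by
      have h4 := Nearx440.seg_add hw
      have h5 := norm_nonneg (w - p)
      linarith
    have k1 : ‖q - z‖ ≤ 2 * δ + d := by
      have := norm_add_le (q - w) (w - z)
      rw [sub_add_sub_cancel] at this
      linarith
    have k2 : ‖z - x‖ ≤ 3 * δ := by
      have := norm_add_le (z - q) (q - x)
      rw [sub_add_sub_cancel, norm_sub_rev q x, norm_sub_rev z q] at this
      linarith
    refine ⟨mem_Of.2 ⟨hz.1, off_tile hS hbG (hseg hw) (by rw [norm_sub_rev]; exact hwz),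
      hcl z ?_⟩, k2⟩
    have := norm_add_le (v - q) (q - z)
    rw [sub_add_sub_cancel] at this
    linarith
  have hxm : x ∈ Clm S (segment ℝ x q) := mem_clm hx (left_mem_segment ℝ x q)
  obtain ⟨c, hc, hcq⟩ := G6Wx723.exists_cell ⟨x, hx⟩ q
  obtain ⟨e, he, hep⟩ := G6Wx723.exists_cell ⟨x, hx⟩ p
  have hc1 : c ∈ Clm S (segment ℝ x q) := ⟨hc, q, right_mem_segment ℝ x q, hcq⟩
  have hc2 : c ∈ Clm S (segment ℝ q p) := ⟨hc, q, left_mem_segment ℝ q p, hcq⟩
  have he2 : e ∈ Clm S (segment ℝ q p) := ⟨he, p, right_mem_segment ℝ q p, hep⟩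
  have P1 := pth_conn hS.dns.gp hS.card (convex_segment x q).isPreconnected hxm hc1
  have P2 := pth_conn hS.dns.gp hS.card (convex_segment q p).isPreconnected hc2 he2
  exact ⟨(leg1 x hxm).1, ⟨g, hg, hvg⟩, b, hR, e, ⟨he, p, hp, hep⟩,
    (P1.mono fun z hz => leg1 z hz).trans (P2.mono fun z hz => leg2 z hz)⟩

/-! ### the blocks -/

/-- **the layer** -/
theorem layer : LAYER := by
  refine ⟨1344, by norm_num, fun S A x0 L d s hS => ?_⟩
  have hs := s0 hS
  have hd0 := hS.dns.dpos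
  have hds := d_s hS
  obtain ⟨δ, hδ⟩ : ∃ δ, δ = s / 2 ^ 12 := ⟨_, rfl⟩
  have hδ0 : 0 < δ := by rw [hδ]; positivity
  have hsδ : s = 4096 * δ := by rw [hδ]; ring
  have hdδ : 3 * d ≤ δ := by
    have : s / 2 ^ 20 = δ / 256 := by rw [hδ]; ring
    rw [this] at hds
    linarith
  have hdδ' : d < δ := by linarith
  have hδs : 8 * δ ≤ s := by rw [hsδ]; linarith
  -- first forest
  set O : Finset ℂ := Of S A x0 L d s with hO
  set A1 : Finset ℂ := O.filter fun x => ∃ b, Rg A x0 L s b ∧ x ∈ core S s δ b with hA1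
  have hA1O : A1 ⊆ O := Finset.filter_subset _ _
  obtain ⟨E, f, hL, hE⟩ := thin_forest (R := Adj S) hA1O (fun _ _ h => Adj.ne h)
    (ρ := 3 * δ) (by linarith)
  set K : Bk → Set ℂ := fun b => {x | x ∈ E ∧ Rg A x0 L s b ∧ f x ∈ core S s δ b} with hK
  have hcK : ∀ b, Rg A x0 L s b → core S s δ b ⊆ K b := by
    intro b hb x hx
    have h1 : x ∈ A1 := Finset.mem_filter.2 ⟨core_Of hS hb hdδ' hx, b, hb, hx⟩
    refine ⟨hL.subA h1, hb, ?_⟩
    rw [hL.fA x h1]
    exact hx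
  have hlink : ∀ b, ∀ x ∈ K b, Pth S (K b) x (f x) := by
    rintro b x ⟨h1, h2, h3⟩
    refine ⟨⟨h1, h2, h3⟩, Relation.ReflTransGen.mono ?_ _ _ (hL.link x h1)⟩
    rintro a a' ⟨k1, k2, k3, -⟩
    exact ⟨k1, k2, h2, by rw [k3]; exact h3⟩
  have hfd : ∀ x ∈ E, ‖x - f x‖ ≤ 72 * δ := by
    intro x hx
    rw [← dist_eq_norm]
    rcases Relation.ReflTransGen.cases_tail (hL.link x hx) with h | ⟨a, -, h⟩
    · rw [h, dist_self]; linarith
    · have := h.2.2.2
      linarith
  have hB : Blk S (Va S A x0 L d s) (uA S A) K (4 * s) := by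
    refine ⟨by linarith, ?_, ?_, ?_, ?_⟩
    · rintro b x ⟨h1, -, -⟩
      obtain ⟨k1, k2, k3⟩ := mem_Of.1 (hL.subO h1)
      refine ⟨⟨k1, k2⟩, fun h => ?_⟩
      obtain ⟨i, hi⟩ := (mem_uA hS.tr).1 h
      exact k3 i hi
    · intro b b' hbb
      rw [Set.disjoint_left]
      rintro x ⟨-, h2, h3⟩ ⟨-, h5, h6⟩
      exact hbb (ti_eq hs (core_ti hS h5 hdδ' h6).2 (ti_tl hs (core_ti hS h2 hdδ' h3).2))
    · intro b x hx y hy
      have h1 := hlink b x hx
      have h2 := hlink b y hy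
      have h3 := pth_conn hS.dns.gp hS.card (C := Tc s δ b) tc_convex.isPreconnected hx.2.2 hy.2.2
      exact (h1.trans (h3.mono (hcK b hx.2.1))).trans h2.symm
    · intro b x hx y hy
      have h1 := hfd x hx.1
      have h2 := hfd y hy.1
      have h3 := tl_dist hs (ti_tl hs (core_ti hS hx.2.1 hdδ' hx.2.2).2)
        (ti_tl hs (core_ti hS hy.2.1 hdδ' hy.2.2).2)
      have e : x - y = (x - f x) - (y - f y) + (f x - f y) := by ring
      rw [e]
      have k1 := norm_add_le ((x - f x) - (y - f y)) (f x - f y)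
      have k2 := norm_sub_le (x - f x) (y - f y)
      rw [hsδ] at h3 ⊢
      linarith
  -- second forest
  have hVfr : (Va S A x0 L d s : Set ℂ) ⊆ fr S A := by
    rw [Glux991.va_eq]
    exact Glux991.deep_fr hS le_rfl (by linarith) (by linarith)
  have hN : ∀ x ∈ S, x ∉ Va S A x0 L d s → Near S (Va S A x0 L d s) (uA S A) (40 * s) x := by
    intro x hx hxV
    rw [Glux991.va_eq] at hxV ⊢
    exact Glux991.near hS le_rfl (by linarith) (by linarith) (by rw [hsδ]; linarith) hx hxV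
  obtain ⟨A', l, t1, t2, t3, t4, t5⟩ := tr_terrK hS.tr hVfr (by linarith) hN hB
  refine ⟨fun a a' => l (bk (rc a a')), A', t1, t2, t3, ?_, ?_⟩
  · intro j x hx
    obtain ⟨y, hy, hp⟩ := t4 j x hx
    refine ⟨y, hy, hp.mono ?_⟩
    rintro z ⟨h1, h2⟩
    exact ⟨h1, h2.trans (by linarith)⟩
  · rintro i x hx ⟨v, hv, hxv⟩
    have hxS : x ∈ S := Finset.mem_coe.1 (t1.sub i hx)
    have hxV : x ∉ Va S A x0 L d s := by
      intro h'
      have : x ∈ fr S A' := by rw [t3]; exact Finset.mem_coe.2 h'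
      exact this.2 i hx
    obtain ⟨k1, ⟨g, hg, hvg⟩, b0, hb0, e, he, hp⟩ := to_core hS hdδ hδs hxS hxV hv hxv
    have hxE : x ∈ E := by
      refine hE x k1 ⟨e, ?_, ?_⟩
      · exact Finset.mem_filter.2 ⟨core_Of hS hb0 hdδ' he, b0, hb0, he⟩
      · refine Relation.ReflTransGen.mono ?_ _ _ hp.2
        rintro a a' ⟨m1, m2, m3⟩
        refine ⟨m1, m2, ?_⟩
        rw [dist_comm, dist_eq_norm]
        exact m3
    obtain ⟨-, b, hb, hfb⟩ := Finset.mem_filter.1 (hL.mem x hxE)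
    have hxK : x ∈ K b := ⟨hxE, hb, hfb⟩
    have hli : l b = i := by
      by_contra hne
      exact Set.disjoint_left.1 (t1.disj _ _ hne) (t5 b hxK) hx
    have hE' := edge_s hS hxv
    have h17 : s / 2 ^ 17 = δ / 32 := by rw [hδ]; ring
    rw [h17] at hE'
    have hfx := hfd x hxE
    have h16 : s / 16 = 256 * δ := by rw [hsδ]; ring
    have n1 : ‖x - v‖ ≤ s / 16 := by rw [h16]; linarith
    have n2 : ‖x - f x‖ ≤ s / 16 := by rw [h16]; linarith
    obtain ⟨a, a', m1, -, m3, m4⟩ := Sidex359.lab_side (δ := s / 16) hs (by linarith) hg hb.1 hvg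
      (ti_tl hs (core_ti hS hb hdδ' hfb).2) n1 n2
    refine ⟨a, a', m1, ?_, by linarith⟩
    show l (bk (rc a a')) = i
    rw [m3, hli]

end Crest.Agent.R143.LayKx341
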