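import Crest.Agent.R143.TileR0_228

/-!
# Row 143 (S0194), CORE-C, box R1f, quantitative facts about the fine path (helper811)

`Seg n M m p W A` : the fine path `W` of period `M` follows the coarse closed walk `p` of period `n`
magnified by `m` (output of 422's `Fine`): `W` is straight with the coarse direction between the
indices `A k` and `A (k + 1)`, `W (A k)` is within `1` of `m p k`, `|A (k + 1) - A k - m| ≤ 2`, and
non consecutive coarse edges are at sup distance at least `1` (`far`, 478).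

* `seg_exists` : every index is in exactly one segment
* `W_seg` : the value of `W` in a segment
* `M_le` : `M ≤ n (m + 2)`
* `straight`, `bad_card` : the tiles `a` such that one of the tiles `a - 1`, `a`, `a + 1` turns: at most
  `3 (n + 2)` in a period
* `quasi` : `sup |W a - W b| ≤ r`, `r + 7 ≤ m` ⟹ `|a - b - j M| ≤ 2 r` for some `j`
* `quasi_open` : in an open corridor `|a - b| ≤ 2 r`
* `nearest` : every point of a coarse edge (magnified) is within `3` of some `W a` of its segment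
-/

set_option autoImplicit false

noncomputable section

open scoped Classical

namespace Crest.Agent.R143.LayQx811

open Crest.Agent.R143.TileRx228

/-- sup distance of integer points -/
def sd2 (u v : ℤ × ℤ) : ℤ := max |u.1 - v.1| |u.2 - v.2|

theorem sd2_le {u v : ℤ × ℤ} {r : ℤ} : sd2 u v ≤ r ↔ |u.1 - v.1| ≤ r ∧ |u.2 - v.2| ≤ r := max_le_iff

theorem sd2_comm (u v : ℤ × ℤ) : sd2 u v = sd2 v u := by
  unfold sd2
  rw [abs_sub_comm u.1, abs_sub_comm u.2]

/-- the fine path along the coarse walk -/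
structure Seg (n M : ℕ) (m : ℤ) (p W : ℤ → ℤ × ℤ) (A : ℤ → ℤ) : Prop where
  n0 : 0 < n
  pper : ∀ k, p (k + n) = p k
  pstep : ∀ k, U4 (p (k + 1) - p k)
  pturn : ∀ k, p (k + 2) ≠ p k
  Aper : ∀ k, A (k + n) = A k + M
  Alt : ∀ k, A k < A (k + 1)
  Wper : ∀ a, W (a + M) = W a
  Wst : ∀ k a, A k ≤ a → a < A (k + 1) → W (a + 1) - W a = p (k + 1) - p k
  near : ∀ k, |(W (A k)).1 - m * (p k).1| ≤ 1 ∧ |(W (A k)).2 - m * (p k).2| ≤ 1
  len : ∀ k, |A (k + 1) - A k - m| ≤ 2
  far : ∀ k l : ℤ, ¬ (n : ℤ) ∣ l - k → ¬ (n : ℤ) ∣ l - k - 1 → ¬ (n : ℤ) ∣ l - k + 1 →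
    ∀ s t : ℝ, 0 ≤ s → s ≤ 1 → 0 ≤ t → t ≤ 1 →
      1 ≤ |((p k).1 + s * ((p (k + 1)).1 - (p k).1) : ℝ) -
            ((p l).1 + t * ((p (l + 1)).1 - (p l).1))| ∨
      1 ≤ |((p k).2 + s * ((p (k + 1)).2 - (p k).2) : ℝ) -
            ((p l).2 + t * ((p (l + 1)).2 - (p l).2))|

variable {n M : ℕ} {m : ℤ} {p W : ℤ → ℤ × ℤ} {A : ℤ → ℤ}

namespace Seg

theorem Amono (h : Seg n M m p W A) : StrictMono A := strictMono_int_of_lt_succ h.Alt

theorem Age (h : Seg n M m p W A) (k : ℤ) (j : ℕ) : A k + j ≤ A (k + j) := by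
  induction j with
  | zero => simp
  | succ j ih =>
    have := h.Alt (k + j)
    push_cast
    rw [← add_assoc k]
    omega

/-- every index is in a segment -/
theorem seg_exists (h : Seg n M m p W A) (a : ℤ) : ∃ k, A k ≤ a ∧ a < A (k + 1) := by
  have h1 : ∃ k, A k ≤ a := by
    refine ⟨0 - (A 0 - a).toNat, ?_⟩
    have := h.Age (0 - (A 0 - a).toNat) (A 0 - a).toNat
    rw [sub_add_cancel] at this
    omega
  have h2 : ∀ k, A k ≤ a → k ≤ (a - A 0).toNat := by
    intro k hk
    by_contra hc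
    push Not at hc
    have := h.Age 0 ((a - A 0).toNat)
    rw [zero_add] at this
    have h3 := h.Amono hc
    omega
  obtain ⟨k, hk, hmax⟩ := Int.exists_greatest_of_bdd ⟨_, h2⟩ h1
  refine ⟨k, hk, ?_⟩
  by_contra hc
  push Not at hc
  have := hmax (k + 1) hc
  omega


/-- the value in a segment -/
theorem W_seg (h : Seg n M m p W A) {k a : ℤ} (h1 : A k ≤ a) (h2 : a ≤ A (k + 1)) :
    W a = W (A k) + ((a - A k) * (p (k + 1) - p k).1, (a - A k) * (p (k + 1) - p k).2) := by
  obtain ⟨j, rfl⟩ : ∃ j : ℕ, a = A k + j := ⟨(a - A k).toNat, by omega⟩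
  clear h1
  induction j with
  | zero => simp
  | succ j ih =>
    have e1 := ih (by push_cast at h2; omega)
    have e2 := h.Wst k (A k + j) (by omega) (by push_cast at h2; omega)
    have e3 : W (A k + ((j + 1 : ℕ) : ℤ)) = W (A k + j) + (p (k + 1) - p k) := by
      rw [← e2]; push_cast; rw [← add_assoc]; abel
    rw [e3, e1]
    ext
    · simp only [Prod.fst_add]; push_cast; ring
    · simp only [Prod.snd_add]; push_cast; ring

theorem Aper' (h : Seg n M m p W A) (k : ℤ) (j : ℤ) : A (k + j * n) = A k + j * M := by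
  induction j using Int.induction_on with
  | zero => simp
  | succ j ih =>
    rw [show k + ((j : ℤ) + 1) * n = (k + j * n) + n by ring, h.Aper, ih]; ring
  | pred j ih =>
    have := h.Aper (k + (-(j : ℤ) - 1) * n)
    rw [show k + (-(j : ℤ) - 1) * n + n = k + -(j : ℤ) * n by ring, ih] at this
    linarith

theorem Wper' (h : Seg n M m p W A) (a : ℤ) (j : ℤ) : W (a + j * M) = W a := by
  induction j using Int.induction_on with
  | zero => simp
  | succ j ih =>
    rw [show a + ((j : ℤ) + 1) * M = (a + j * M) + M by ring, h.Wper, ih]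
  | pred j ih =>
    have := h.Wper (a + (-(j : ℤ) - 1) * M)
    rw [show a + (-(j : ℤ) - 1) * M + M = a + -(j : ℤ) * M by ring, ih] at this
    exact this.symm

theorem pper' (h : Seg n M m p W A) (k : ℤ) (j : ℤ) : p (k + j * n) = p k := by
  induction j using Int.induction_on with
  | zero => simp
  | succ j ih =>
    rw [show k + ((j : ℤ) + 1) * n = (k + j * n) + n by ring, h.pper, ih]
  | pred j ih =>
    have := h.pper (k + (-(j : ℤ) - 1) * n)
    rw [show k + (-(j : ℤ) - 1) * n + n = k + -(j : ℤ) * n by ring, ih] at this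
    exact this.symm

/-- length of the fine path -/
theorem M_le (h : Seg n M m p W A) : (M : ℤ) ≤ n * (m + 2) := by
  have key : ∀ j : ℕ, A (0 + j) ≤ A 0 + j * (m + 2) := by
    intro j
    induction j with
    | zero => simp
    | succ j ih =>
      have := (abs_le.1 (h.len (0 + j))).2
      push_cast
      rw [← add_assoc 0]
      linarith
  have h1 := h.Aper 0
  have h2 := key n
  rw [h1] at h2
  linarith


/-! ### turning tiles -/

/-- the tile `a` is straight if `a` is not a corner index -/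
theorem straight (h : Seg n M m p W A) {a : ℤ} (ha : ∀ k, a ≠ A k) :
    W (a + 1) - W a = W a - W (a - 1) := by
  obtain ⟨k, h1, h2⟩ := h.seg_exists a
  have h3 : A k < a := lt_of_le_of_ne h1 fun e => ha k e.symm
  rw [h.Wst k a h1 h2]
  have := h.Wst k (a - 1) (by omega) (by omega)
  rw [sub_add_cancel] at this
  exact this.symm

/-- number of corner indices in a period -/
theorem corner_card (h : Seg n M m p W A) (α : ℤ) :
    ((Finset.Ico α (α + M)).filter fun a => ∃ k, a = A k).card ≤ n := by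
  obtain ⟨k0, h1, h2⟩ := h.seg_exists (α - 1)
  have hsub : ((Finset.Ico α (α + M)).filter fun a => ∃ k, a = A k) ⊆
      (Finset.Ioc k0 (k0 + n)).image A := by
    intro a ha
    obtain ⟨ha, k, rfl⟩ := Finset.mem_filter.1 ha
    rw [Finset.mem_Ico] at ha
    refine Finset.mem_image_of_mem _ (Finset.mem_Ioc.2 ⟨?_, ?_⟩)
    · by_contra hc
      push Not at hc
      have := h.Amono.monotone hc
      omega
    · by_contra hc
      push Not at hc
      have h3 := h.Amono.monotone (show k0 + n + 1 ≤ k by omega)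
      have h4 := h.Aper (k0 + 1)
      rw [show k0 + 1 + (n : ℤ) = k0 + n + 1 by ring] at h4
      omega
  calc _ ≤ ((Finset.Ioc k0 (k0 + n)).image A).card := Finset.card_le_card hsub
    _ ≤ (Finset.Ioc k0 (k0 + (n : ℤ))).card := Finset.card_image_le
    _ = n := by rw [Int.card_Ioc]; omega

/-- the tiles with a turning tile among `a - 1`, `a`, `a + 1` : at most `3 n` in a period -/
theorem bad_card (h : Seg n M m p W A) (α : ℤ) :
    ((Finset.Ico α (α + M)).filter fun a =>
      ¬ (W a - W (a - 1) = W (a - 1) - W (a - 2) ∧ W (a + 1) - W a = W a - W (a - 1) ∧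
        W (a + 2) - W (a + 1) = W (a + 1) - W a)).card ≤ 3 * n := by
  have key : ∀ a, ¬ (W a - W (a - 1) = W (a - 1) - W (a - 2) ∧ W (a + 1) - W a = W a - W (a - 1) ∧
      W (a + 2) - W (a + 1) = W (a + 1) - W a) → ∃ k, a - 1 = A k ∨ a = A k ∨ a + 1 = A k := by
    intro a hb
    by_contra hc
    push Not at hc
    apply hb
    refine ⟨?_, ?_, ?_⟩
    · have := h.straight (a := a - 1) fun k => (hc k).1
      rw [show a - 1 + 1 = a by ring, show a - 1 - 1 = a - 2 by ring] at this
      exact this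
    · exact h.straight fun k => (hc k).2.1
    · have := h.straight (a := a + 1) fun k => (hc k).2.2
      rw [show a + 1 + 1 = a + 2 by ring, show a + 1 - 1 = a by ring] at this
      exact this
  have c1 : ∀ β : ℤ, ((Finset.Ico α (α + M)).filter fun a => ∃ k, a + β = A k).card ≤ n := by
    intro β
    refine le_trans ?_ (h.corner_card (α + β))
    refine Finset.card_le_card_of_injOn (fun a => a + β) ?_ fun a _ b _ e => by
      simpa using e
    intro a ha
    obtain ⟨ha, k, hk⟩ := Finset.mem_filter.1 (Finset.mem_coe.1 ha)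
    rw [Finset.mem_Ico] at ha
    show a + β ∈ _
    exact Finset.mem_coe.2 (Finset.mem_filter.2 ⟨Finset.mem_Ico.2 ⟨by omega, by omega⟩, k, hk⟩)
  have hsub : ((Finset.Ico α (α + M)).filter fun a =>
      ¬ (W a - W (a - 1) = W (a - 1) - W (a - 2) ∧ W (a + 1) - W a = W a - W (a - 1) ∧
        W (a + 2) - W (a + 1) = W (a + 1) - W a)) ⊆
      ((Finset.Ico α (α + M)).filter fun a => ∃ k, a + (-1) = A k) ∪
      (((Finset.Ico α (α + M)).filter fun a => ∃ k, a + 0 = A k) ∪
      ((Finset.Ico α (α + M)).filter fun a => ∃ k, a + 1 = A k)) := by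
    intro a ha
    obtain ⟨ha, hb⟩ := Finset.mem_filter.1 ha
    obtain ⟨k, hk⟩ := key a hb
    rw [Finset.mem_union, Finset.mem_union, Finset.mem_filter, Finset.mem_filter,
      Finset.mem_filter]
    rcases hk with hk | hk | hk
    · exact Or.inl ⟨ha, k, by rw [← hk]; ring⟩
    · exact Or.inr (Or.inl ⟨ha, k, by rw [← hk]; ring⟩)
    · exact Or.inr (Or.inr ⟨ha, k, hk⟩)
  refine (Finset.card_le_card hsub).trans ((Finset.card_union_le _ _).trans ?_)
  have h2 := Finset.card_union_le ((Finset.Ico α (α + M)).filter fun a => ∃ k, a + 0 = A k)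
    ((Finset.Ico α (α + M)).filter fun a => ∃ k, a + 1 = A k)
  have := c1 (-1)
  have := c1 0
  have := c1 1
  omega

/-! ### quasi geodesic -/

theorem u4_abs {u : ℤ × ℤ} (h : U4 u) : |u.1| ≤ 1 ∧ |u.2| ≤ 1 := by
  rcases h with rfl | rfl | rfl | rfl <;> simp

/-- a point of the fine path is near the magnified coarse edge of its segment -/
theorem near_edge (h : Seg n M m p W A) (hm : 3 ≤ m) {k a : ℤ} (h1 : A k ≤ a)
    (h2 : a ≤ A (k + 1)) : ∃ t : ℝ, 0 ≤ t ∧ t ≤ 1 ∧
      |((W a).1 : ℝ) - m * ((p k).1 + t * ((p (k + 1)).1 - (p k).1))| ≤ 3 ∧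
      |((W a).2 : ℝ) - m * ((p k).2 + t * ((p (k + 1)).2 - (p k).2))| ≤ 3 := by
  have e := h.W_seg h1 h2
  obtain ⟨n1, n2⟩ := h.near k
  obtain ⟨u1, u2⟩ := u4_abs (h.pstep k)
  obtain ⟨l1, l2⟩ := abs_le.1 (h.len k)
  have hm' : (0 : ℝ) < m := by exact_mod_cast (show (0 : ℤ) < m by omega)
  set s : ℤ := a - A k with hs
  have hs0 : 0 ≤ s := by omega
  have hs1 : s ≤ m + 2 := by omega
  set t : ℝ := min 1 ((s : ℝ) / m) with ht
  have ht0 : 0 ≤ t := le_min zero_le_one (div_nonneg (by exact_mod_cast hs0) hm'.le)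
  have ht1 : t ≤ 1 := min_le_left _ _
  have hst : |(s : ℝ) - m * t| ≤ 2 := by
    rcases le_total 1 ((s : ℝ) / m) with hc | hc
    · rw [ht, min_eq_left hc, mul_one]
      rw [le_div_iff₀ hm', one_mul] at hc
      rw [abs_of_nonneg (by linarith)]
      have : (s : ℝ) ≤ m + 2 := by exact_mod_cast hs1
      linarith
    · rw [ht, min_eq_right hc, mul_div_cancel₀ _ hm'.ne', sub_self, abs_zero]
      norm_num
  have key : ∀ (w w0 q q' : ℤ), w = w0 + s * (q' - q) → |w0 - m * q| ≤ 1 → |q' - q| ≤ 1 →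
      |(w : ℝ) - m * (q + t * (q' - q))| ≤ 3 := by
    intro w w0 q q' e1 e2 e3
    have e1' : (w : ℝ) = w0 + s * (q' - q) := by exact_mod_cast congrArg (Int.cast (R := ℝ)) e1
    have e2' : |(w0 : ℝ) - m * q| ≤ 1 := by exact_mod_cast e2
    have e3' : |(q' : ℝ) - q| ≤ 1 := by exact_mod_cast e3
    rw [e1', show (w0 : ℝ) + s * (q' - q) - m * (q + t * (q' - q)) =
      (w0 - m * q) + (s - m * t) * (q' - q) by ring]
    refine (abs_add_le _ _).trans ?_
    rw [abs_mul]
    have : |(s : ℝ) - m * t| * |(q' : ℝ) - q| ≤ 2 * 1 :=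
      mul_le_mul hst e3' (abs_nonneg _) (by norm_num)
    linarith
  have c1 := congrArg Prod.fst e
  have c2 := congrArg Prod.snd e
  simp only [Prod.fst_add, Prod.snd_add, Prod.fst_sub, Prod.snd_sub] at c1 c2 u1 u2
  exact ⟨t, ht0, ht1, key _ _ _ _ c1 n1 u1, key _ _ _ _ c2 n2 u2⟩

/-- points of non consecutive segments are far apart -/
theorem far_seg (h : Seg n M m p W A) (hm : 3 ≤ m) {k l a b : ℤ} (a1 : A k ≤ a)
    (a2 : a ≤ A (k + 1)) (b1 : A l ≤ b) (b2 : b ≤ A (l + 1)) (h0 : ¬ (n : ℤ) ∣ l - k)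
    (h1 : ¬ (n : ℤ) ∣ l - k - 1) (h2 : ¬ (n : ℤ) ∣ l - k + 1) : m - 6 ≤ sd2 (W a) (W b) := by
  obtain ⟨s, s0, s1, s2, s3⟩ := h.near_edge hm a1 a2
  obtain ⟨t, t0, t1, t2, t3⟩ := h.near_edge hm b1 b2
  have hm' : (0 : ℝ) < m := by exact_mod_cast (show (0 : ℤ) < m by omega)
  have key : ∀ (w w' : ℤ) (P Q : ℝ), |(w : ℝ) - m * P| ≤ 3 → |(w' : ℝ) - m * Q| ≤ 3 →
      1 ≤ |P - Q| → m - 6 ≤ |w - w'| := by
    intro w w' P Q e1 e2 e3
    have e4 : (m : ℝ) ≤ |m * P - m * Q| := by
      rw [← mul_sub, abs_mul, abs_of_pos hm']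
      nlinarith
    have e5 : |(m : ℝ) * P - m * Q| ≤ 3 + |(w : ℝ) - w'| + 3 := by
      have : (m : ℝ) * P - m * Q = -((w : ℝ) - m * P) + ((w : ℝ) - w') + ((w' : ℝ) - m * Q) := by
        ring
      rw [this]
      refine (abs_add_le _ _).trans ?_
      refine add_le_add ((abs_add_le _ _).trans ?_) e2
      rw [abs_neg]
      exact add_le_add e1 le_rfl
    have e6 : ((m - 6 : ℤ) : ℝ) ≤ ((|w - w'| : ℤ) : ℝ) := by
      push_cast
      linarith
    exact_mod_cast e6
  rcases h.far k l h0 h1 h2 s t s0 s1 t0 t1 with hf | hf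
  · exact (key _ _ _ _ s2 t2 hf).trans (le_max_left _ _)
  · exact (key _ _ _ _ s3 t3 hf).trans (le_max_right _ _)

/-- two points of one segment -/
theorem same_seg (h : Seg n M m p W A) {k a b : ℤ} (a1 : A k ≤ a) (a2 : a ≤ A (k + 1))
    (b1 : A k ≤ b) (b2 : b ≤ A (k + 1)) : |a - b| ≤ sd2 (W a) (W b) := by
  have ea := h.W_seg a1 a2
  have eb := h.W_seg b1 b2
  unfold sd2
  rw [ea, eb]
  simp only [Prod.fst_add, Prod.snd_add]
  rcases h.pstep k with hu | hu | hu | hu
  · refine le_trans (le_of_eq ?_) (le_max_left _ _)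
    rw [hu]; congr 1; ring
  · refine le_trans (le_of_eq ?_) (le_max_right _ _)
    rw [hu]; congr 1; ring
  · refine le_trans (le_of_eq ?_) (le_max_left _ _)
    rw [hu, abs_sub_comm]; congr 1; ring
  · refine le_trans (le_of_eq ?_) (le_max_right _ _)
    rw [hu, abs_sub_comm]; congr 1; ring

/-- two points of consecutive segments -/
theorem next_seg (h : Seg n M m p W A) {k a b : ℤ} (a1 : A k ≤ a) (a2 : a ≤ A (k + 1))
    (b1 : A (k + 1) ≤ b) (b2 : b ≤ A (k + 2)) : b - a ≤ 2 * sd2 (W a) (W b) := by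
  have ea := h.W_seg a1 a2
  have ea' := h.W_seg (k := k) (a := A (k + 1)) (by have := h.Alt k; omega) le_rfl
  have eb := h.W_seg b1 (by rw [show k + 1 + 1 = k + 2 by ring]; exact b2)
  have ht := h.pturn k
  rw [show k + 1 + 1 = k + 2 by ring] at eb
  set P := p k with hP
  set Q := p (k + 1) with hQ
  set R := p (k + 2) with hR
  have u1 : U4 (Q - P) := h.pstep k
  have u2 : U4 (R - Q) := by
    have := h.pstep (k + 1)
    rwa [show k + 1 + 1 = k + 2 by ring] at this
  set x := A (k + 1) - a with hx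
  set y := b - A (k + 1) with hy
  have hx0 : 0 ≤ x := by omega
  have hy0 : 0 ≤ y := by omega
  have d1 : (W b).1 - (W a).1 = x * (Q - P).1 + y * (R - Q).1 := by
    have c1 := congrArg Prod.fst ea
    have c2 := congrArg Prod.fst ea'
    have c3 := congrArg Prod.fst eb
    simp only [Prod.fst_add] at c1 c2 c3
    rw [c3, c2, c1]; ring
  have d2 : (W b).2 - (W a).2 = x * (Q - P).2 + y * (R - Q).2 := by
    have c1 := congrArg Prod.snd ea
    have c2 := congrArg Prod.snd ea'
    have c3 := congrArg Prod.snd eb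
    simp only [Prod.snd_add] at c1 c2 c3
    rw [c3, c2, c1]; ring
  have hsum : b - a = x + y := by omega
  rw [hsum, sd2_comm]
  unfold sd2
  rw [d1, d2]
  have hne : ¬ (R - Q = -(Q - P)) := by
    intro hc
    apply ht
    have : R = P := by
      have := congrArg (fun z => z + Q) hc
      simp only [sub_add_cancel, neg_sub] at this
      exact this
    exact this
  rcases u1 with e1 | e1 | e1 | e1 <;> rcases u2 with e2 | e2 | e2 | e2 <;> rw [e1, e2] at hne ⊢ <;>
    simp at hne ⊢ <;>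
    (try simp only [abs_of_nonneg hx0, abs_of_nonneg hy0]) <;> (try rw [abs_of_nonneg (by omega)]) <;>
    (try rw [abs_of_nonpos (by omega)]) <;> omega

/-- **quasi geodesic** -/
theorem quasi (h : Seg n M m p W A) {r a b : ℤ} (hr : r + 7 ≤ m) (hr0 : 0 ≤ r)
    (hab : sd2 (W a) (W b) ≤ r) : ∃ j : ℤ, |a - b - j * M| ≤ 2 * r := by
  obtain ⟨k, k1, k2⟩ := h.seg_exists a
  obtain ⟨l, l1, l2⟩ := h.seg_exists b
  have hcase : (n : ℤ) ∣ l - k ∨ (n : ℤ) ∣ l - k - 1 ∨ (n : ℤ) ∣ l - k + 1 := by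
    by_contra hc
    push Not at hc
    have := h.far_seg (by omega) k1 k2.le l1 l2.le hc.1 hc.2.1 hc.2.2
    omega
  have shift : ∀ {l' j : ℤ}, l = l' + j * n → A l' ≤ b - j * M ∧ b - j * M < A (l' + 1) ∧
      W (b - j * M) = W b := by
    intro l' j e
    have e1 := h.Aper' l' j
    have e2 := h.Aper' (l' + 1) j
    rw [← e] at e1
    rw [show l' + 1 + j * n = l + 1 by rw [e]; ring] at e2
    refine ⟨by omega, by omega, ?_⟩
    have := h.Wper' (b - j * M) j
    rw [sub_add_cancel] at this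
    exact this.symm
  rcases hcase with ⟨j, hj⟩ | ⟨j, hj⟩ | ⟨j, hj⟩
  · obtain ⟨s1, s2, s3⟩ := shift (l' := k) (j := j) (by rw [mul_comm]; linarith)
    have := h.same_seg k1 k2.le s1 s2.le
    rw [s3] at this
    refine ⟨-j, ?_⟩
    rw [show a - b - -j * (M : ℤ) = a - (b - j * M) by ring]
    omega
  · obtain ⟨s1, s2, s3⟩ := shift (l' := k + 1) (j := j) (by rw [mul_comm]; linarith)
    rw [show k + 1 + 1 = k + 2 by ring] at s2
    have := h.next_seg k1 k2.le s1 s2.le
    rw [s3] at this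
    refine ⟨-j, ?_⟩
    rw [show a - b - -j * (M : ℤ) = a - (b - j * M) by ring, abs_le]
    constructor
    · omega
    · omega
  · obtain ⟨s1, s2, s3⟩ := shift (l' := k - 1) (j := j) (by rw [mul_comm]; linarith)
    rw [sub_add_cancel] at s2
    have := h.next_seg (k := k - 1) (a := b - j * M) (b := a) s1
      (by rw [sub_add_cancel]; exact s2.le) (by rw [sub_add_cancel]; exact k1)
      (by rw [show k - 1 + 2 = k + 1 by ring]; exact k2.le)
    rw [s3, sd2_comm] at this
    refine ⟨-j, ?_⟩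
    rw [show a - b - -j * (M : ℤ) = a - (b - j * M) by ring, abs_le]
    constructor
    · omega
    · omega

/-- **quasi geodesic, open corridor** -/
theorem quasi_open (h : Seg n M m p W A) {r a b α β : ℤ} (hr : r + 7 ≤ m) (hr0 : 0 ≤ r)
    (hab : sd2 (W a) (W b) ≤ r) (a1 : α ≤ a) (a2 : a ≤ β) (b1 : α ≤ b) (b2 : b ≤ β)
    (hαβ : β - α + 2 * r < M) : |a - b| ≤ 2 * r := by
  obtain ⟨j, hj⟩ := h.quasi hr hr0 hab
  have hM : (0 : ℤ) ≤ M := Int.natCast_nonneg M
  rcases lt_trichotomy j 0 with h1 | h1 | h1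
  · have h2 : (j + 1) * (M : ℤ) ≤ 0 := mul_nonpos_of_nonpos_of_nonneg (by omega) hM
    have h3 := (abs_le.1 hj).2
    nlinarith
  · rw [h1, zero_mul, sub_zero] at hj
    exact hj
  · have h2 : 0 ≤ (j - 1) * (M : ℤ) := mul_nonneg (by omega) hM
    have h3 := (abs_le.1 hj).1
    nlinarith


end Seg

/-! ### gate centres -/

theorem cz_add (u v : ℤ × ℤ) : cz (u + v) = cz u + cz v := by
  unfold cz; apply Complex.ext <;> simp

theorem cz_sub (u v : ℤ × ℤ) : cz (u - v) = cz u - cz v := by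
  unfold cz; apply Complex.ext <;> simp



end Crest.Agent.R143.LayQx811
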