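import Crest.Agent.R143.Sides_697
import Crest.Agent.R143.Planar_54
import Crest.Agent.R143.J4_872
import Crest.Agent.R143.Frame7_395

-- ▼ part R143/Mono_697
section

/-!
# Row 143, block P: three legs from a triangle (helper697)

* `leg_odd` : a join with the odd triangle `t` without the leg of one side of `t`
* `p1` : **P1** : three legs end in cyclic order
* `tri_side` : **leaf (D)** : a triangle with the vertex `w` on the side `i`: `Q = A om ^ (i + 1)`,
  `A ≥ 0`; monotonicity of the observable along the side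
-/

set_option autoImplicit false
set_option linter.unusedSimpArgs false
set_option linter.unusedVariables false

noncomputable section

open scoped Classical

namespace Crest.Agent.R143.Monox697

open Crest.Agent.R143.B0x346 Crest.Agent.R143.JCardx872 Crest.Agent.R143.Sidesx697
open Crest.Agent.R143.J1x872 (sd sd0 sd1 sd2 sw Good En P1 sd_tri of_rots sd_inj)
open Crest.Agent.R143.JWalkx872 (RotInv rotInv_rots Term exists_end mark_pre side_pre
  term_unique leads_mem leads_step_mem step_pre)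

variable {V : Type}

section odd

variable {G : Trg V} {kl : Set (V × V)} {t : V × V × V} {D : Set (V × V)} {J : Finset (V × V)}

/-- the part of a join off the states reached from `p` -/
def offO (G : Trg V) (O : Set (V × V × V)) (D : Set (V × V)) (J : Finset (V × V)) (p : V × V) :
    Finset (V × V) :=
  J.filter fun q => ¬ Leads G O D J p q ∧ ¬ Leads G O D J p (rev q)

theorem mem_offO {O : Set (V × V × V)} {p q : V × V} : q ∈ offO G O D J p ↔
    q ∈ J ∧ ¬ Leads G O D J p q ∧ ¬ Leads G O D J p (rev q) := by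
  unfold offO; rw [Finset.mem_filter]

theorem ends_uniqueO {O : Set (V × V × V)} {p x y : V × V} (hx : x ∈ D) (hy : y ∈ D)
    (h : Leads G O D J p (rev x)) (h' : Leads G O D J p (rev y)) : x = y := by
  have h1 : rev x = rev y := term_unique (Or.inl hx) (Or.inl hy) h h'
  have := congrArg rev h1
  simpa using this

/-- exactly two occupied sides, off the odd triangle -/
theorem par2O {O : Set (V × V × V)} (hJ : IsJoin G kl O D J) {a b c : V} (h : (a, b, c) ∈ G.T)
    (hO : (a, b, c) ∉ O) :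
    ((a, b) ∈ J ∧ (b, c) ∈ J ∧ (c, a) ∉ J) ∨ ((a, b) ∈ J ∧ (b, c) ∉ J ∧ (c, a) ∈ J) ∨
    ((a, b) ∉ J ∧ (b, c) ∈ J ∧ (c, a) ∈ J) ∨ ((a, b) ∉ J ∧ (b, c) ∉ J ∧ (c, a) ∉ J) := by
  have h1 := hJ.par a b c h
  rw [if_neg hO] at h1
  by_cases g1 : (a, b) ∈ J <;> by_cases g2 : (b, c) ∈ J <;> by_cases g3 : (c, a) ∈ J <;>
    simp [g1, g2, g3] at h1 ⊢

theorem rots_iff {a b c : V} : (b, c, a) ∈ rots t ↔ (a, b, c) ∈ rots t := by
  have h := rotInv_rots t
  exact ⟨fun h1 => h _ _ _ (h _ _ _ h1), fun h1 => h _ _ _ h1⟩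

theorem rots_three {a b c u v y : V} (hO : (a, b, c) ∈ rots t) (h : (u, v, y) ∈ rots t) :
    (u, v, y) = (a, b, c) ∨ (u, v, y) = (b, c, a) ∨ (u, v, y) = (c, a, b) := by
  obtain ⟨t1, t2, t3⟩ := t
  unfold rots at h hO
  rcases hO with hO | hO | hO <;> rcases h with h | h | h <;>
    (simp only [Set.mem_singleton_iff, Prod.mk.injEq] at h hO ⊢
     obtain ⟨rfl, rfl, rfl⟩ := hO
     obtain ⟨rfl, rfl, rfl⟩ := h
     tauto)

theorem rots_side {a b c z : V} {s : V × V} (hO : (a, b, c) ∈ rots t)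
    (h : (s.1, s.2, z) ∈ rots t) : s = (a, b) ∨ s = (b, c) ∨ s = (c, a) := by
  obtain ⟨s1, s2⟩ := s
  rcases rots_three hO h with h | h | h
  · left
    simp only [Prod.mk.injEq] at h ⊢
    exact ⟨h.1, h.2.1⟩
  · right; left
    simp only [Prod.mk.injEq] at h ⊢
    exact ⟨h.1, h.2.1⟩
  · right; right
    simp only [Prod.mk.injEq] at h ⊢
    exact ⟨h.1, h.2.1⟩

/-- parity at the odd triangle after removal of one side -/
theorem par_odd (hJ : IsJoin G kl (rots t) D J) {s : V × V} (hsJ : s ∈ J) {a b c : V}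
    (hT : (a, b, c) ∈ G.T) (hO : (a, b, c) ∈ rots t) (hs3 : s = (a, b) ∨ s = (b, c) ∨ s = (c, a)) :
    ((if (a, b) ∈ J ∧ (a, b) ≠ s then 1 else 0) + (if (b, c) ∈ J ∧ (b, c) ≠ s then 1 else 0) +
      (if (c, a) ∈ J ∧ (c, a) ≠ s then 1 else 0)) % 2 = 0 := by
  have hT1 := G.rot hT
  have hT2 := G.rot hT1
  have hpar := hJ.par a b c hT
  rw [if_pos hO] at hpar
  have hne1 : (a, b) ≠ (b, c) := fun h => G.ne hT (congrArg Prod.fst h)
  have hne2 : (b, c) ≠ (c, a) := fun h => G.ne hT1 (congrArg Prod.fst h)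
  have hne3 : (c, a) ≠ (a, b) := fun h => G.ne hT2 (congrArg Prod.fst h)
  rcases hs3 with rfl | rfl | rfl
  · by_cases g2 : (b, c) ∈ J <;> by_cases g3 : (c, a) ∈ J
    all_goals
      simp only [hsJ, g2, g3, if_true, if_false, ne_eq, not_true_eq_false, and_false, hne1.symm,
        hne3, not_false_eq_true, and_true, and_self, false_and] at hpar ⊢
      try omega
  · by_cases g1 : (a, b) ∈ J <;> by_cases g3 : (c, a) ∈ J
    all_goals
      simp only [hsJ, g1, g3, if_true, if_false, ne_eq, not_true_eq_false, and_false, hne1,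
        hne2.symm, not_false_eq_true, and_true, and_self, false_and] at hpar ⊢
      try omega
  · by_cases g1 : (a, b) ∈ J <;> by_cases g2 : (b, c) ∈ J
    all_goals
      simp only [hsJ, g1, g2, if_true, if_false, ne_eq, not_true_eq_false, and_false, hne3.symm,
        hne2, not_false_eq_true, and_true, and_self, false_and] at hpar ⊢
      try omega

/-- a reached occupied state: the other occupied side of its left triangle -/
theorem fwdO {O : Set (V × V × V)} (hJ : IsJoin G kl O D J) {p a b : V × V} (ha : a ∈ J)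
    (hb : b ∈ J) {c : V} (ht : (a.1, a.2, c) ∈ G.T) (hO : (a.1, a.2, c) ∉ O)
    (hbt : b = (a.2, c) ∨ b = (c, a.1)) (h : Leads G O D J p a) : Leads G O D J p (rev b) := by
  refine Relation.ReflTransGen.tail h ⟨c, ht, hO, ?_, ?_⟩
  · intro h1
    exact (hJ.mark _ _ h1).2 ha
  · have h2 := par2O hJ ht hO
    rcases hbt with rfl | rfl
    · left
      exact ⟨hb, rfl⟩
    · right
      refine ⟨hb, ?_, rfl⟩
      have ha' : (a.1, a.2) ∈ J := ha
      tauto

/-- a side through which the walk leaves the triangle; `rev p` occupied or `p` a mark -/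
theorem bwdO {O : Set (V × V × V)} (hJ : IsJoin G kl O D J) (hRO : RotInv O) {p a b : V × V}
    (hp : p ∈ J ∨ rev p ∈ D) (ha : a ∈ J)
    (hb : b ∈ J) {c : V} (ht : (a.1, a.2, c) ∈ G.T) (hO : (a.1, a.2, c) ∉ O)
    (hpa : rev a ≠ p) (hbt : b = (a.2, c) ∨ b = (c, a.1)) (h : Leads G O D J p (rev a)) :
    Leads G O D J p b := by
  rcases Relation.ReflTransGen.cases_tail h with h1 | ⟨s, hs, h1⟩
  · exact absurd h1 hpa
  · obtain ⟨e, h2, h2O, h3, h4⟩ := h1
    have hsJ : s ∈ J := by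
      rcases Relation.ReflTransGen.cases_tail hs with h5 | ⟨s', hs', h5⟩
      · rcases hp with hp | hp
        · rw [h5]; exact hp
        · rw [← h5] at hp; exact absurd hp h3
      · rcases JWalkx872.step_mem hJ h5 with h6 | h6
        · exact h6
        · exact absurd h6 h3
    have key : s = b := by
      have hT := G.rot ht
      have hT2 := G.rot hT
      rcases h4 with ⟨h5, h6⟩ | ⟨h5, h6, h7⟩
      · have ha' : a = (s.2, e) := by
          have := congrArg rev h6
          simpa using this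
        have h8 : (s.2, e, s.1) ∈ G.T := G.rot h2
        rw [ha'] at ht
        have hc : c = s.1 := G.uniq ht h8
        have h9 := par2O hJ h2 h2O
        rcases hbt with hb' | hb'
        · exfalso
          have hb2 : (e, s.1) ∈ J := by
            rw [hb', ha', hc] at hb; exact hb
          have hs2 : (s.1, s.2) ∈ J := hsJ
          tauto
        · rw [hb', ha', hc]
      · have ha' : a = (e, s.1) := by
          have := congrArg rev h7
          simpa using this
        have h8 : (e, s.1, s.2) ∈ G.T := G.rot (G.rot h2)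
        rw [ha'] at ht
        have hc : c = s.2 := G.uniq ht h8
        rcases hbt with hb' | hb'
        · rw [hb', ha', hc]
        · exfalso
          have hb2 : (s.2, e) ∈ J := by
            rw [hb', ha', hc] at hb; exact hb
          exact h6 hb2
    rw [← key]; exact hs

/-- **a join with the odd triangle `t` without the leg of the side `s` of `t`** -/
theorem leg_odd (hJ : IsJoin G kl (rots t) D J) (ht : t ∈ G.T) {s x : V × V} {z : V}
    (hs : (s.1, s.2, z) ∈ rots t) (hsT : (s.1, s.2, z) ∈ G.T) (hsJ : s ∈ J) (hx : x ∈ D)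
    (hpx : Leads G (rots t) D J (rev s) (rev x)) :
    IsJoin G kl ∅ (D \ {x}) (offO G (rots t) D J (rev s)) ∧
      ∀ s', s' ∈ J → (∃ z', (s'.1, s'.2, z') ∈ rots t ∧ (s'.1, s'.2, z') ∈ G.T) → s' ≠ s →
        s' ∈ offO G (rots t) D J (rev s) := by
  have hRO := rotInv_rots t
  have hrx : rev x ∉ J := (hJ.mark _ _ hx).2
  have hp : rev s ∈ J ∨ rev (rev s) ∈ D := by
    rw [rev_rev]
    by_cases h1 : s ∈ D
    · exact Or.inr h1
    · by_cases h2 : rev s ∈ D
      · exact Or.inl (hJ.mark _ _ h2).1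
      · exact Or.inl ((hJ.sym _ _ h1 h2).1 hsJ)
  have hpre : ∀ q, ¬ Step G (rots t) D J q (rev s) := fun q => side_pre hRO hsT hs q
  have nx : x ∉ offO G (rots t) D J (rev s) := fun h => (mem_offO.1 h).2.2 hpx
  have nrx : rev x ∉ offO G (rots t) D J (rev s) := fun h => hrx (mem_offO.1 h).1
  have ns : s ∉ offO G (rots t) D J (rev s) := fun h =>
    (mem_offO.1 h).2.2 Relation.ReflTransGen.refl
  -- the other sides of `t` stay
  have stay : ∀ s', s' ∈ J → (∃ z', (s'.1, s'.2, z') ∈ rots t ∧ (s'.1, s'.2, z') ∈ G.T) →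
      s' ≠ s → s' ∈ offO G (rots t) D J (rev s) := by
    rintro s' h1 ⟨z', h2, h3⟩ h4
    refine mem_offO.2 ⟨h1, fun h5 => ?_, fun h5 => ?_⟩
    · have h6 : rev x = s' := term_unique (Or.inl hx) (Or.inr ⟨h1, z', h3, h2⟩) hpx h5
      exact hrx (h6 ▸ h1)
    · rcases Relation.ReflTransGen.cases_tail h5 with h6 | ⟨q, -, h6⟩
      · have := congrArg rev h6
        simp only [rev_rev] at this
        exact h4 this
      · exact side_pre hRO h3 h2 q h6
  refine ⟨⟨fun q hq => hJ.sub (mem_offO.1 hq).1, ?_, ?_, ?_, ?_, ?_⟩, stay⟩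
  · intro a b h1 h2
    by_cases h3 : (a, b) ∈ D
    · have h4 : (a, b) = x := by
        by_contra h5
        exact h1 ⟨h3, h5⟩
      have h5 : (b, a) = rev x := by rw [← h4]; rfl
      rw [h4, h5]; tauto
    · by_cases h3' : (b, a) ∈ D
      · have h4 : (b, a) = x := by
          by_contra h5
          exact h2 ⟨h3', h5⟩
        have h5 : (a, b) = rev x := by rw [← h4]; rfl
        rw [h4, h5]; tauto
      · rw [mem_offO, mem_offO, hJ.sym a b h3 h3']
        simp only [rev_mk]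
        tauto
  · rintro a b ⟨h1, h2⟩
    have h3 := hJ.mark a b h1
    refine ⟨mem_offO.2 ⟨h3.1, fun h => ?_, fun h => ?_⟩, fun h => h3.2 (mem_offO.1 h).1⟩
    · rcases Sidesx697.leads_rev h with h4 | h4
      · have h5 : (b, a) = s := by
          have := congrArg rev h4
          simpa using this
        exact h3.2 (h5 ▸ hsJ)
      · exact h3.2 h4
    · exact h2 (ends_uniqueO hx h1 hpx h).symm
  · intro a b h1 h2
    by_cases h3 : (a, b) ∈ D
    · have h4 : (a, b) = x := by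
        by_contra h5
        exact h2 ⟨h3, h5⟩
      have h5 : (b, a) = rev x := by rw [← h4]; rfl
      rw [h4, h5]; exact ⟨nx, nrx⟩
    · have h4 := hJ.bdr a b h1 h3
      exact ⟨fun h => h4.1 (mem_offO.1 h).1, fun h => h4.2 (mem_offO.1 h).1⟩
  · intro a b h1 h2 h2'
    by_cases h3 : (a, b) ∈ D
    · have h4 : (a, b) = x := by
        by_contra h5
        exact h2 ⟨h3, h5⟩
      have h5 : (b, a) = rev x := by rw [← h4]; rfl
      rw [h4, h5]; exact ⟨nx, nrx⟩
    · by_cases h3' : (b, a) ∈ D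
      · have h4 : (b, a) = x := by
          by_contra h5
          exact h2' ⟨h3', h5⟩
        have h5 : (a, b) = rev x := by rw [← h4]; rfl
        rw [h4, h5]; exact ⟨nrx, nx⟩
      · have h4 := hJ.kill a b h1 h3 h3'
        exact ⟨fun h => h4.1 (mem_offO.1 h).1, fun h => h4.2 (mem_offO.1 h).1⟩
  · intro a b c hT
    have hT1 := G.rot hT
    have hT2 := G.rot hT1
    have offJ : ∀ q, q ∉ J → q ∉ offO G (rots t) D J (rev s) := fun q h h' =>
      h (mem_offO.1 h').1
    by_cases hO : (a, b, c) ∈ rots t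
    · -- the odd triangle
      have hO1 : (b, c, a) ∈ rots t := hRO _ _ _ hO
      have hO2 : (c, a, b) ∈ rots t := hRO _ _ _ hO1
      have st : ∀ u v y : V, (u, v, y) ∈ rots t → (u, v, y) ∈ G.T →
          ((u, v) ∈ offO G (rots t) D J (rev s) ↔ (u, v) ∈ J ∧ (u, v) ≠ s) := by
        intro u v y h1 h2
        constructor
        · intro h3
          exact ⟨(mem_offO.1 h3).1, fun h4 => ns (h4 ▸ h3)⟩
        · rintro ⟨h3, h4⟩
          exact stay _ h3 ⟨y, h1, h2⟩ h4
      -- `s` is one of the three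
      have hs3 : s = (a, b) ∨ s = (b, c) ∨ s = (c, a) := rots_side hO hs
      have key := par_odd hJ hsJ hT hO hs3
      simp only [← st a b c hO hT, ← st b c a hO1 hT1, ← st c a b hO2 hT2] at key
      rw [if_neg (Set.notMem_empty _)]
      exact key
    · -- sides on the leg come in pairs
      have hO1 : (b, c, a) ∉ rots t := fun h => hO (rots_iff.1 h)
      have hO2 : (c, a, b) ∉ rots t := fun h => hO1 (rots_iff.1 h)
      -- the reverse of a side of another triangle is not the start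
      have hst : ∀ u v y : V, (u, v, y) ∈ G.T → (u, v, y) ∉ rots t → rev (u, v) ≠ rev s := by
        intro u v y h1 h2 h3
        have h4 : (u, v) = s := by
          have := congrArg rev h3
          simpa using this
        rw [← h4] at hs hsT
        have h5 : y = z := G.uniq h1 hsT
        rw [← h5] at hs
        exact h2 hs
      have pair : ∀ u v w : V, (u, v, w) ∈ G.T → (u, v, w) ∉ rots t → (u, v) ∈ J → (v, w) ∈ J →
          ((u, v) ∈ offO G (rots t) D J (rev s) ↔ (v, w) ∈ offO G (rots t) D J (rev s)) := by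
        intro u v w h hn h1 h2
        have h' := G.rot h
        have hn' : (v, w, u) ∉ rots t := fun h => hn (rots_iff.1 h)
        rw [mem_offO, mem_offO]
        constructor
        · rintro ⟨-, g1, g2⟩
          refine ⟨h2, fun g => g2 ?_, fun g => g1 ?_⟩
          · exact fwdO hJ h2 h1 h' hn' (Or.inr rfl) g
          · exact bwdO hJ hRO hp h2 h1 h' hn' (hst _ _ _ h' hn') (Or.inr rfl) g
        · rintro ⟨-, g1, g2⟩
          refine ⟨h1, fun g => g2 ?_, fun g => g1 ?_⟩
          · exact fwdO hJ h1 h2 h hn (Or.inl rfl) g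
          · exact bwdO hJ hRO hp h1 h2 h hn (hst _ _ _ h hn) (Or.inl rfl) g
      rcases par2O hJ hT hO with ⟨g1, g2, g3⟩ | ⟨g1, g2, g3⟩ | ⟨g1, g2, g3⟩ | ⟨g1, g2, g3⟩
      · have h1 := pair a b c hT hO g1 g2
        have h2 := offJ _ g3
        by_cases h3 : (a, b) ∈ offO G (rots t) D J (rev s)
        · simp [h1.1 h3, h2, h3]
        · simp [mt h1.2 h3, h2, h3]
      · have h1 := pair c a b hT2 hO2 g3 g1
        have h2 := offJ _ g2
        by_cases h3 : (a, b) ∈ offO G (rots t) D J (rev s)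
        · simp [h1.2 h3, h2, h3]
        · simp [mt h1.1 h3, h2, h3]
      · have h1 := pair b c a hT1 hO1 g2 g3
        have h2 := offJ _ g1
        by_cases h3 : (b, c) ∈ offO G (rots t) D J (rev s)
        · simp [h1.1 h3, h2, h3]
        · simp [mt h1.2 h3, h2, h3]
      · simp [offJ _ g1, offJ _ g2, offJ _ g3]

end odd

/-! ### networks on Delaunay triangulations -/

section tri

variable {S : Finset ℂ} {N : Net ℂ}

open Crest.Agent.R143.JColx54 Crest.Agent.R143.JCol2x54
















end tri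

end Crest.Agent.R143.Monox697
end
end

-- ▼ part R143/Mab_377
section

/-!
# Row 143, finite-net half of STEP 4 (note 2908): tower identity along the stopped leg

* `D2 N` = the marks `ex 0`, `ex 1`; `Om N` = the joins with the marks `ex 0`, `ex 1` and no odd
  triangle (uniform measure on it = the interface from `ex 0` to `ex 1`);
* `nx N stop J` = the stopped path of `J ∈ Om N` (path `L`, tip `q`);
* `Qx N L t` = the amplitude of `t` in the explored network (`0` if `ex 2` has been cut off);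
* `tower` : `(Om N).card * N.Q t = ∑ J ∈ Om N, Qx N (nx N stop J).1 t` for every triangle `t` which
  cannot be reached before `stop`.
-/

set_option autoImplicit false

noncomputable section

open scoped Classical

namespace Crest.Agent.R143.Mabx377

open Crest.Agent.R143.B0x346 Crest.Agent.R143.JCardx872 Crest.Agent.R143.JWalkx872
  Crest.Agent.R143.J1x872 Crest.Agent.R143.J4x872

variable {V : Type}

/-- path of states with their uncrossed sides -/
abbrev Pt (V : Type) := List ((V × V) × (V × V))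

/-- the marks `ex 0`, `ex 1` -/
def D2 (N : Net V) : Set (V × V) := N.exS \ {N.ex 2}

/-- the joins of the interface from `ex 0` to `ex 1` -/
def Om (N : Net V) : Finset (Finset (V × V)) := joins N.toTrg N.kl ∅ (D2 N)

/-- the stopped path -/
def nx (N : Net V) (stop : V × V → Prop) (J : Finset (V × V)) : Pt V × (V × V) :=
  sPath N.toTrg ∅ (D2 N) stop (N.ex 0) J

/-- the amplitude in the explored network, `0` if `ex 2` has been cut off -/
def Qx (N : Net V) (L : Pt V) (t : V × V × V) : ℂ :=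
  if N.ex 2 ∈ unc L then 0 else (knet N L).Q t

theorem ex0_mem (N : Net V) (hg : Good N) : N.ex 0 ∈ D2 N :=
  ⟨mem_exS 0, fun h => absurd (hg.inj h) (by decide)⟩


theorem D2_sub (N : Net V) : D2 N ⊆ N.exS := Set.sdiff_subset

theorem mem_D2 {N : Net V} {p : V × V} : p ∈ D2 N ↔ p ∈ N.exS ∧ p ≠ N.ex 2 := by
  unfold D2
  rw [Set.mem_sdiff, Set.mem_singleton_iff]

/-- marks are boundary edges -/
theorem mark_bdry {N : Net V} (hg : Good N) (a b : V) (h : (a, b) ∈ N.exS) (c : V) :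
    (b, a, c) ∉ N.T := by
  obtain ⟨k, hk⟩ := h
  have := hg.bd k c
  rw [hk] at this
  exact this

theorem card_of_ne {N : Net V} (hg : Good N) {O : Set (V × V × V)} {D : Set (V × V)}
    (hD : D ⊆ N.exS) (hne : (joins N.toTrg N.kl O D).Nonempty) :
    (joins N.toTrg N.kl O D).card = (joins N.toTrg N.kl ∅ ∅).card :=
  card_joins_bdry (fun a b h c => mark_bdry hg a b (hD h) c) hne

/-- a nonzero amplitude: three legs -/
theorem exists_tri {N : Net V} {t : V × V × V} (h : N.Q t ≠ 0) :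
    ∃ J ∈ N.tj t, ∃ k, N.Tri3 t k J := by
  by_contra hn
  push Not at hn
  apply h
  unfold Net.Q
  refine Finset.sum_eq_zero fun k _ => ?_
  have : N.triA t k = 0 := by
    unfold Net.triA
    rw [Finset.filter_false_of_mem (fun J hJ => hn J hJ k)]
    simp
  rw [this]
  simp

/-- **surgery**: three legs give a join with the marks `ex 0`, `ex 1` -/
theorem om_ne {N : Net V} {t : V × V × V} (ht : t ∈ N.T) {J : Finset (V × V)}
    (hJ : J ∈ N.tj t) {k : ZMod 3} (h : N.Tri3 t k J) : (Om N).Nonempty := by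
  have hJ' := mem_joins.1 hJ
  have key : ∀ i : ZMod 3, En N t J i 2 → sd t i ∈ J → (Om N).Nonempty := by
    intro i hi hs
    obtain ⟨z, hz, hz'⟩ := sd_tri ht i
    have h1 := (Monox697.leg_odd hJ' ht hz' hz hs (mem_exS 2) hi).1
    exact ⟨_, mem_joins.2 h1⟩
  obtain ⟨h1, h2⟩ := (tri3_iff k).1 h
  exact key (2 - k) (by have := h2 (2 - k); rwa [sub_add_cancel] at this) (h1 _)

/-- numerator of the amplitude -/
def Cn (N : Net V) (t : V × V × V) : ℂ :=
  ∑ k : ZMod 3, (((N.tj t).filter (N.Tri3 t k)).card : ℂ) * omz k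

theorem q_mul_card (N : Net V) (t : V × V × V) : N.Q t * ((N.tj t).card : ℂ) = Cn N t := by
  unfold Net.Q Net.triA Cn
  rcases (N.tj t).eq_empty_or_nonempty with he | hne
  · rw [he]; simp
  · have h0 : ((N.tj t).card : ℂ) ≠ 0 := by
      have := hne.card_pos
      exact_mod_cast this.ne'
    rw [Finset.sum_mul]
    refine Finset.sum_congr rfl fun k _ => ?_
    push_cast
    field_simp

theorem cn_eq {N : Net V} (hg : Good N) {t : V × V × V} (ht : t ∈ N.T) :
    Cn N t = N.Q t * ((Om N).card : ℂ) := by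
  rw [← q_mul_card]
  by_cases hQ : N.Q t = 0
  · rw [hQ]; simp
  · obtain ⟨J, hJ, k, hk⟩ := exists_tri hQ
    have h1 := om_ne ht hJ hk
    have e1 := card_of_ne hg (le_refl N.exS) ⟨J, hJ⟩
    have e2 := card_of_ne hg (D2_sub N) h1
    have e3 : (N.tj t).card = (Om N).card := by
      unfold Net.tj Om
      rw [e1, e2]
    rw [e3]

theorem cn_markov (N : Net V) (t : V × V × V) (stop : V × V → Prop) :
    Cn N t = ∑ x ∈ stopPaths N.toTrg N.kl (rots t) N.exS stop (N.ex 0), Cn (knet N x.1) t := by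
  unfold Cn
  rw [Finset.sum_comm]
  refine Finset.sum_congr rfl fun k _ => ?_
  rw [← Finset.sum_mul, tri_markov N t 0 stop k]
  push_cast
  rfl

/-! ### followed paths -/

theorem unc_tri {G : Trg V} : ∀ (L : Pt V) (p q : V × V), Pth G p L q →
    ∀ a ∈ L, ∃ c, (a.2.1, a.2.2, c) ∈ G.T := by
  intro L
  induction L with
  | nil =>
    intro p q _ a ha
    simp at ha
  | cons b L ih =>
    rintro p q ⟨_, m, ⟨c, hc, hm⟩, hrest⟩ a ha
    rcases List.mem_cons.1 ha with rfl | ha
    · rcases hm with ⟨_, hm⟩ | ⟨_, hm⟩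
      · exact ⟨p.2, by rw [hm]; exact G.rot (G.rot hc)⟩
      · exact ⟨p.1, by rw [hm]; exact G.rot hc⟩
    · exact ih m q hrest a ha

/-- the triangle of a state of the path, its uncrossed side -/
theorem pth_tri {G : Trg V} : ∀ (L : Pt V) (p q : V × V), Pth G p L q →
    ∀ a ∈ L, ∃ c, (a.1.1, a.1.2, c) ∈ G.T ∧ (a.2 = (c, a.1.1) ∨ a.2 = (a.1.2, c)) := by
  intro L
  induction L with
  | nil =>
    intro p q _ a ha
    simp at ha
  | cons b L ih =>
    rintro p q ⟨hb, m, ⟨c, hc, hm⟩, hrest⟩ a ha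
    rcases List.mem_cons.1 ha with rfl | ha
    · rw [hb]
      refine ⟨c, hc, ?_⟩
      rcases hm with ⟨_, hm⟩ | ⟨_, hm⟩
      · exact Or.inl hm
      · exact Or.inr hm
    · exact ih m q hrest a ha

/-- the path `L` from `ex 0` to `q` is followed by a join of the interface -/
def Ok (N : Net V) (L : Pt V) (q : V × V) : Prop :=
  ∃ J ∈ Om N, Fol N.toTrg ∅ (D2 N) J (N.ex 0) L q

theorem ok_pth {N : Net V} {L : Pt V} {q : V × V} (h : Ok N L q) : Pth N.toTrg (N.ex 0) L q := by
  obtain ⟨J, _, h⟩ := h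
  exact fol_pth _ _ _ h

theorem ok_unc {N : Net V} (hg : Good N) {L : Pt V} {q : V × V} (h : Ok N L q) :
    ∀ a ∈ L, a.2 ∉ D2 N := by
  obtain ⟨J, hJ, h⟩ := h
  have hJ' := mem_joins.1 hJ
  exact fol_unc hJ' (Or.inl (hJ'.mark (N.ex 0).1 (N.ex 0).2 (ex0_mem N hg)).1) h

theorem om_knet {N : Net V} (hg : Good N) {L : Pt V} {q : V × V} (h : Ok N L q) :
    Om (knet N L) = (Om N).filter (fun J => Fol N.toTrg ∅ (D2 N) J (N.ex 0) L q) :=
  joins_path' (ex0_mem N hg) h

/-- a mark in `unc L` -/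
theorem mark_unc {N : Net V} (hg : Good N) {L : Pt V} {p q : V × V} (hL : Pth N.toTrg p L q)
    {k : ZMod 3} (h : N.ex k ∈ unc L) : ∃ a ∈ L, N.ex k = a.2 := by
  obtain ⟨a, ha, h | h⟩ := h
  · exact ⟨a, ha, h⟩
  · exfalso
    obtain ⟨c, hc⟩ := unc_tri L p q hL a ha
    apply hg.bd k c
    rw [h]
    exact hc

theorem good_knet {N : Net V} (hg : Good N) {L : Pt V} {q : V × V} (h : Ok N L q)
    (h2 : N.ex 2 ∉ unc L) : Good (knet N L) where
  inj := hg.inj
  bd := hg.bd
  live := by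
    rintro k (hk | hk)
    · exact hg.live k hk
    · obtain ⟨a, ha, e⟩ := mark_unc hg (ok_pth h) hk
      apply ok_unc hg h a ha
      rw [mem_D2, ← e]
      refine ⟨mem_exS k, ?_⟩
      intro e2
      apply h2
      rw [← e2]
      exact hk

theorem hnet_ok {S : Finset ℂ} {N : Net ℂ} (h : HNet S N) {L : Pt ℂ} {q : ℂ × ℂ}
    (hok : Ok N L q) (h2 : N.ex 2 ∉ unc L) : HNet S (knet N L) where
  gp := h.gp
  tri := h.tri
  hex := h.hex
  live := (good_knet (good_of_hnet h) hok h2).live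
  ccw := h.ccw

theorem mem_stopPaths {G : Trg V} {kl : Set (V × V)} {O : Set (V × V × V)} {D : Set (V × V)}
    {J : Finset (V × V)} (hJ : J ∈ joins G kl O D) (hO : RotInv O) {p : V × V} (hp : p ∈ D)
    {stop : V × V → Prop} {x : Pt V × (V × V)} (h : Stopped G O D stop J p x.1 x.2) :
    x ∈ stopPaths G kl O D stop p := by
  refine Finset.mem_image.2 ⟨J, hJ, ?_⟩
  obtain ⟨e1, e2⟩ := stop_unique _ _ _ _ _ (sPath_spec (mem_joins.1 hJ) hO hp stop) h
  exact Prod.ext e1 e2

/-- three legs: the walker from `ex 0` comes to `t` -/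
theorem from_ex0 {N : Net V} (hg : Good N) {t : V × V × V} (ht : t ∈ N.T) {J : Finset (V × V)}
    (hJ : J ∈ N.tj t) {k : ZMod 3} (h : N.Tri3 t k J) (j : ZMod 3) :
    ∃ i, sd t i ∈ J ∧ Leads N.toTrg (rots t) N.exS J (N.ex j) (sd t i) := by
  obtain ⟨h1, h2⟩ := (tri3_iff k).1 h
  have hJ' := mem_joins.1 hJ
  refine ⟨j - k, h1 _, ?_⟩
  have h3 := h2 (j - k)
  rw [sub_add_cancel] at h3
  by_cases hm : sd t (j - k) ∈ N.exS
  · obtain ⟨m, hm⟩ := hm
    have h4 : Ends N.toTrg (rots t) N.exS J (sw (sd t (j - k))) (N.ex m) := by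
      unfold Ends
      rw [hm]
      exact Relation.ReflTransGen.refl
    have h5 := ends_unique hg (le_refl N.exS) h3 h4
    subst h5
    rw [← hm]
    exact Relation.ReflTransGen.refl
  · exact leads_rev hJ' (rotInv_rots t) (sw_mem hg ht hJ' (h1 _) hm) h3

/-- from the joins with odd triangle `t` to the interface -/
theorem to_om {N : Net V} (hg : Good N) {t : V × V × V} (ht : t ∈ N.T) {L : Pt V} {q : V × V}
    (hf : ∃ J ∈ N.tj t, Fol N.toTrg (rots t) N.exS J (N.ex 0) L q)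
    (hQ : (knet N L).Q t ≠ 0) : Ok N L q ∧ N.ex 2 ∉ unc L := by
  obtain ⟨J0, hJ0, hF0⟩ := hf
  have hJ0' := mem_joins.1 hJ0
  have hu := fol_unc hJ0' (Or.inl (hJ0'.mark (N.ex 0).1 (N.ex 0).2 (mem_exS 0)).1) hF0
  have h2 : N.ex 2 ∉ unc L := by
    intro h
    obtain ⟨a, ha, e⟩ := mark_unc hg (fol_pth _ _ _ hF0) h
    exact hu a ha (e ▸ mem_exS 2)
  refine ⟨?_, h2⟩
  obtain ⟨J, hJ, k, hk⟩ := exists_tri hQ
  obtain ⟨J1, hJ1⟩ := om_ne (N := knet N L) ht hJ hk
  have hfree := fol_free _ _ _ hF0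
  have e := joins_path (G := N.toTrg) (kl := N.kl) (O := ∅) (D := D2 N) (p := N.ex 0) (q := q)
    (L := L) (ex0_mem N hg) (fol_pth _ _ _ hF0)
    (fun a ha => ⟨fun h => (hfree a ha).1 (D2_sub N h), fun c _ h => h.elim⟩)
    (fun a ha h => hu a ha (D2_sub N h))
  have hJ1' : J1 ∈ joins N.toTrg (N.kl ∪ unc L) ∅ (D2 N) := hJ1
  rw [e, Finset.mem_filter] at hJ1'
  exact ⟨J1, hJ1'.1, hJ1'.2⟩

/-- from the interface to the joins with odd triangle `t` -/
theorem of_om {N : Net V} (hg : Good N) {t : V × V × V} (_ht : t ∈ N.T) {L : Pt V} {q : V × V}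
    (hok : Ok N L q) (h2 : N.ex 2 ∉ unc L) {J : Finset (V × V)} (hJ : J ∈ (knet N L).tj t)
    {k : ZMod 3} (hk : (knet N L).Tri3 t k J) :
    J ∈ N.tj t ∧ Fol N.toTrg (rots t) N.exS J (N.ex 0) L q := by
  have hL := ok_pth hok
  have hJ' : IsJoin N.toTrg (N.kl ∪ unc L) (rots t) N.exS J := mem_joins.1 hJ
  have hU : ∀ a ∈ L, a.2 ∉ N.exS := by
    rintro a ha ⟨j, hj⟩
    have h3 : N.ex j ∈ unc L := ⟨a, ha, Or.inl hj⟩
    exact (good_knet hg hok h2).live j (Or.inr h3)
  have hsw : ∀ a ∈ L, sw a.2 ∉ N.exS := by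
    rintro a ha ⟨j, hj⟩
    obtain ⟨c, hc⟩ := unc_tri L _ _ hL a ha
    apply hg.bd j c
    rw [hj]
    exact hc
  have hF : Free N.toTrg (rots t) N.exS L := by
    intro a ha
    obtain ⟨c, hc, hu⟩ := pth_tri L _ _ hL a ha
    refine ⟨?_, ?_⟩
    · rintro ⟨j, hj⟩
      apply hg.bd j c
      rw [hj]
      exact hc
    · intro c' hc' hO
      have := N.uniq hc hc'
      subst this
      have h4 : ∃ i, a.2 = sd t i := by
        rcases hu with hu | hu
        · have h5 := rotInv_rots t _ _ _ (rotInv_rots t _ _ _ hO)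
          obtain ⟨i, hi⟩ := of_rots h5
          exact ⟨i, hu.trans hi⟩
        · have h5 := rotInv_rots t _ _ _ hO
          obtain ⟨i, hi⟩ := of_rots h5
          exact ⟨i, hu.trans hi⟩
      obtain ⟨i, hi⟩ := h4
      have h6 := ((tri3_iff k).1 hk).1 i
      rw [← hi] at h6
      exact (hJ'.kill a.2.1 a.2.2 (Or.inr ⟨a, ha, Or.inl rfl⟩) (hU a ha) (hsw a ha)).1 h6
  have e := joins_path (G := N.toTrg) (kl := N.kl) (O := rots t) (D := N.exS) (p := N.ex 0)
    (q := q) (L := L) (mem_exS 0) hL hF hU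
  have hJ2 : J ∈ joins N.toTrg (N.kl ∪ unc L) (rots t) N.exS := hJ
  rw [e, Finset.mem_filter] at hJ2
  exact hJ2

/-- the explored joins -/
theorem nx_spec {N : Net V} (hg : Good N) {J : Finset (V × V)} (hJ : J ∈ Om N)
    (stop : V × V → Prop) :
    Stopped N.toTrg ∅ (D2 N) stop J (N.ex 0) (nx N stop J).1 (nx N stop J).2 :=
  sPath_spec (mem_joins.1 hJ) rotInv_empty (ex0_mem N hg) stop

theorem nx_ok {N : Net V} (hg : Good N) {J : Finset (V × V)} (hJ : J ∈ Om N)
    (stop : V × V → Prop) : Ok N (nx N stop J).1 (nx N stop J).2 :=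
  ⟨J, hJ, (nx_spec hg hJ stop).1⟩

/-- sums over the interface, arranged by the stopped path -/
theorem sum_nx {N : Net V} (hg : Good N) (stop : V × V → Prop) {M : Type} [AddCommMonoid M]
    (g : Finset (V × V) → M) :
    ∑ J ∈ Om N, g J = ∑ x ∈ stopPaths N.toTrg N.kl ∅ (D2 N) stop (N.ex 0),
      ∑ J ∈ Om (knet N x.1), g J := by
  have h1 : ∀ J ∈ Om N, nx N stop J ∈ stopPaths N.toTrg N.kl ∅ (D2 N) stop (N.ex 0) :=
    fun J hJ => Finset.mem_image_of_mem _ hJ
  rw [← Finset.sum_fiberwise_of_maps_to h1]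
  refine Finset.sum_congr rfl fun x hx => ?_
  have hx' : Ok N x.1 x.2 := by
    obtain ⟨J0, hJ0, rfl⟩ := Finset.mem_image.1 hx
    exact nx_ok hg hJ0 stop
  rw [om_knet hg hx']
  refine Finset.sum_congr ?_ fun _ _ => rfl
  ext J
  rw [Finset.mem_filter, Finset.mem_filter]
  constructor
  · rintro ⟨h, h'⟩
    exact ⟨h, (sPath_eq_iff h rotInv_empty (ex0_mem N hg) hx).1 h'⟩
  · rintro ⟨h, h'⟩
    exact ⟨h, (sPath_eq_iff h rotInv_empty (ex0_mem N hg) hx).2 h'⟩

/-- on the fibre the stopped path is constant -/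
theorem nx_fibre {N : Net V} (hg : Good N) {stop : V × V → Prop} {x : Pt V × (V × V)}
    (hx : x ∈ stopPaths N.toTrg N.kl ∅ (D2 N) stop (N.ex 0)) {J : Finset (V × V)}
    (hJ : J ∈ Om (knet N x.1)) : J ∈ Om N ∧ nx N stop J = x := by
  have hx' : Ok N x.1 x.2 := by
    obtain ⟨J0, hJ0, rfl⟩ := Finset.mem_image.1 hx
    exact nx_ok hg hJ0 stop
  rw [om_knet hg hx', Finset.mem_filter] at hJ
  exact ⟨hJ.1, (sPath_eq_iff hJ.1 rotInv_empty (ex0_mem N hg) hx).2 hJ.2⟩

/-- a stopped path of the joins with odd triangle `t` which carries an amplitude is a stopped path of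
the interface, or it enters `t` -/
theorem stopped_to_om {N : Net V} (hg : Good N) {t : V × V × V} (ht : t ∈ N.T)
    {stop : V × V → Prop} {x : Pt V × (V × V)}
    (hx : x ∈ stopPaths N.toTrg N.kl (rots t) N.exS stop (N.ex 0))
    (hQ : (knet N x.1).Q t ≠ 0) :
    N.ex 2 ∉ unc x.1 ∧ Ok N x.1 x.2 ∧
      (x ∈ stopPaths N.toTrg N.kl ∅ (D2 N) stop (N.ex 0) ∨ (¬ stop x.2 ∧ ∃ i, x.2 = sd t i)) := by
  obtain ⟨J0, hJ0, hJx⟩ := Finset.mem_image.1 hx
  have hS := sPath_spec (mem_joins.1 hJ0) (rotInv_rots t) (mem_exS (N := N) 0) stop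
  rw [hJx] at hS
  obtain ⟨hok, h2⟩ := to_om hg ht ⟨J0, hJ0, hS.1⟩ hQ
  refine ⟨h2, hok, ?_⟩
  by_cases hst : stop x.2
  · left
    obtain ⟨J1, hJ1, hF1⟩ := hok
    exact mem_stopPaths hJ1 rotInv_empty (ex0_mem N hg) ⟨hF1, hS.2.1, Or.inl hst⟩
  · rcases hS.2.2 with h | h | ⟨_, c, hc, hcO⟩
    · exact absurd h hst
    · exfalso
      obtain ⟨J, hJ, k, hk⟩ := exists_tri hQ
      obtain ⟨hJt, hF⟩ := of_om hg ht hok h2 hJ hk
      obtain ⟨i, hi, hl⟩ := from_ex0 hg ht hJt hk 0
      have e := term_unique (Or.inl h) (term_side ht hi) (fol_leads _ _ _ hF) hl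
      obtain ⟨z, hz, _⟩ := sd_tri ht i
      rw [← e] at hz
      exact mark_bdry hg _ _ h z hz
    · right
      obtain ⟨i, hi⟩ := of_rots hcO
      exact ⟨hst, i, hi⟩

theorem stopped_of_om {N : Net V} (hg : Good N) {t : V × V × V} (ht : t ∈ N.T)
    {stop : V × V → Prop} {x : Pt V × (V × V)}
    (hx : x ∈ stopPaths N.toTrg N.kl ∅ (D2 N) stop (N.ex 0)) (h2 : N.ex 2 ∉ unc x.1)
    (hQ : (knet N x.1).Q t ≠ 0) :
    x ∈ stopPaths N.toTrg N.kl (rots t) N.exS stop (N.ex 0) := by
  obtain ⟨J0, hJ0, hJx⟩ := Finset.mem_image.1 hx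
  have hS := sPath_spec (mem_joins.1 hJ0) rotInv_empty (ex0_mem N hg) stop
  rw [hJx] at hS
  obtain ⟨J, hJ, k, hk⟩ := exists_tri hQ
  obtain ⟨hJt, hF⟩ := of_om hg ht ⟨J0, hJ0, hS.1⟩ h2 hJ hk
  refine mem_stopPaths hJt (rotInv_rots t) (mem_exS 0) ⟨hF, hS.2.1, ?_⟩
  rcases hS.2.2 with h | h | ⟨_, c, hc, hcO⟩
  · exact Or.inl h
  · exact Or.inr (Or.inl (D2_sub N h))
  · exact hcO.elim

theorem cn_knet {N : Net V} (hg : Good N) {t : V × V × V} (ht : t ∈ N.T) {L : Pt V} {q : V × V}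
    (hok : Ok N L q) (h2 : N.ex 2 ∉ unc L) :
    Cn (knet N L) t = Qx N L t * ((Om (knet N L)).card : ℂ) := by
  rw [cn_eq (good_knet hg hok h2) ht]
  unfold Qx
  rw [if_neg h2]

/-- **TOWER**: the amplitude of a triangle which is not reached before `stop` is the mean over the
interface from `ex 0` of the amplitudes in the explored networks -/
theorem tower {N : Net V} (hg : Good N) {t : V × V × V} (ht : t ∈ N.T) {stop : V × V → Prop}
    (hs : ∀ i, stop (sd t i)) :
    ((Om N).card : ℂ) * N.Q t = ∑ J ∈ Om N, Qx N (nx N stop J).1 t := by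
  rw [mul_comm, ← cn_eq hg ht, cn_markov N t stop, sum_nx hg stop]
  have e1 : ∀ x ∈ stopPaths N.toTrg N.kl ∅ (D2 N) stop (N.ex 0),
      ∑ J ∈ Om (knet N x.1), Qx N (nx N stop J).1 t =
        Qx N x.1 t * ((Om (knet N x.1)).card : ℂ) := by
    intro x hx
    rw [Finset.sum_congr rfl (fun J hJ => by rw [(nx_fibre hg hx hJ).2]), Finset.sum_const,
      nsmul_eq_mul, mul_comm]
  rw [Finset.sum_congr rfl e1, ← Finset.sum_filter_ne_zero, ← Finset.sum_filter_ne_zero
    (s := stopPaths N.toTrg N.kl ∅ (D2 N) stop (N.ex 0))]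
  have hA : ∀ x ∈ stopPaths N.toTrg N.kl (rots t) N.exS stop (N.ex 0),
      Cn (knet N x.1) t ≠ 0 → x ∈ stopPaths N.toTrg N.kl ∅ (D2 N) stop (N.ex 0) ∧
        Cn (knet N x.1) t = Qx N x.1 t * ((Om (knet N x.1)).card : ℂ) := by
    intro x hx hne
    have hQ : (knet N x.1).Q t ≠ 0 := by
      intro h
      apply hne
      rw [← q_mul_card, h, zero_mul]
    obtain ⟨h2, hok, h3⟩ := stopped_to_om hg ht hx hQ
    refine ⟨?_, cn_knet hg ht hok h2⟩
    rcases h3 with h3 | ⟨h3, i, hi⟩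
    · exact h3
    · exact absurd (hi ▸ hs i) h3
  have hB : ∀ x ∈ stopPaths N.toTrg N.kl ∅ (D2 N) stop (N.ex 0),
      Qx N x.1 t * ((Om (knet N x.1)).card : ℂ) ≠ 0 →
        x ∈ stopPaths N.toTrg N.kl (rots t) N.exS stop (N.ex 0) ∧
        Cn (knet N x.1) t = Qx N x.1 t * ((Om (knet N x.1)).card : ℂ) := by
    intro x hx hne
    have h2 : N.ex 2 ∉ unc x.1 := by
      intro h
      apply hne
      unfold Qx
      rw [if_pos h, zero_mul]
    have hQ : (knet N x.1).Q t ≠ 0 := by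
      intro h
      apply hne
      unfold Qx
      rw [if_neg h2, h, zero_mul]
    have hok : Ok N x.1 x.2 := by
      obtain ⟨J0, hJ0, rfl⟩ := Finset.mem_image.1 hx
      exact nx_ok hg hJ0 stop
    exact ⟨stopped_of_om hg ht hx h2 hQ, cn_knet hg ht hok h2⟩
  refine Finset.sum_congr ?_ ?_
  · ext x
    rw [Finset.mem_filter, Finset.mem_filter]
    constructor
    · rintro ⟨hx, hne⟩
      obtain ⟨h1, h2⟩ := hA x hx hne
      exact ⟨h1, h2 ▸ hne⟩
    · rintro ⟨hx, hne⟩
      obtain ⟨h1, h2⟩ := hB x hx hne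
      exact ⟨h1, h2.symm ▸ hne⟩
  · intro x hx
    rw [Finset.mem_filter] at hx
    exact (hB x hx.1 hx.2).2

end Crest.Agent.R143.Mabx377
end
end

-- ▼ part R143/Mab2_377

/-!
# Row 143, finite-net half of STEP 4 (note 2908): one step, iteration

* `one_step` : frame estimate of the error of the tower identity for a weighted sum;
* `iter` : the iterated estimate along the interface for a rule `st`;
* `mab` : the final inequality for a rule with progress.
-/

set_option autoImplicit false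

noncomputable section

open scoped Classical

namespace Crest.Agent.R143.Mabx377

open Crest.Agent.R143.B0x346 Crest.Agent.R143.JCardx872 Crest.Agent.R143.JWalkx872
  Crest.Agent.R143.J1x872 Crest.Agent.R143.J4x872

variable {V : Type}

/-! ### one step -/

theorem q_dead {N : Net V} (hg : Good N) {t : V × V × V} (ht : t ∈ N.T) {i : ZMod 3}
    (h : sd t i ∈ N.kl) : N.Q t = 0 := by
  by_contra hQ
  obtain ⟨J, hJ, k, hk⟩ := exists_tri hQ
  have h1 := ((tri3_iff k).1 hk).1 i
  have hJ' := mem_joins.1 hJ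
  have h2 : sd t i ∉ N.exS := by
    rintro ⟨j, hj⟩
    exact hg.live j (hj ▸ h)
  exact (hJ'.kill (sd t i).1 (sd t i).2 h h2 (sw_sd_notMark hg ht i)).1 h1

theorem qx_dead {N : Net V} (hg : Good N) {t : V × V × V} (ht : t ∈ N.T) {i : ZMod 3}
    (h : sd t i ∈ N.kl) {L : Pt V} {q : V × V} (hok : Ok N L q) : Qx N L t = 0 := by
  unfold Qx
  split_ifs with h2
  · rfl
  · exact q_dead (good_knet hg hok h2) ht (Or.inl h)

/-- the triangles which can be reached before `stop` -/
def reach (S : Finset ℂ) (N : Net ℂ) (stop : ℂ × ℂ → Prop) : Finset (ℂ × ℂ × ℂ) :=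
  (delT S).filter fun t => (∃ i, ¬ stop (sd t i)) ∧ ∀ i, sd t i ∉ N.kl

theorem reach_sub (S : Finset ℂ) (N : Net ℂ) (stop : ℂ × ℂ → Prop) :
    reach S N stop ⊆ delT S := Finset.filter_subset _ _

/-- the error of one step -/
def err (S : Finset ℂ) (N : Net ℂ) (stop : ℂ × ℂ → Prop) (u : ℂ × ℂ × ℂ → ℂ) : ℝ :=
  2 * (√3 * √(∑ t ∈ reach S N stop, ‖u t‖ ^ 2))

theorem err_nonneg (S : Finset ℂ) (N : Net ℂ) (stop : ℂ × ℂ → Prop) (u : ℂ × ℂ × ℂ → ℂ) :
    0 ≤ err S N stop u := by
  unfold err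
  positivity

/-- Cauchy-Schwarz with the frame -/
theorem cs_frame {S : Finset ℂ} {N : Net ℂ} (h : HNet S N) {U : Finset (ℂ × ℂ × ℂ)}
    (hU : U ⊆ delT S) (u : ℂ × ℂ × ℂ → ℂ) :
    ∑ t ∈ U, ‖u t‖ * ‖N.Q t‖ ≤ √3 * √(∑ t ∈ U, ‖u t‖ ^ 2) := by
  have h1 := Real.sum_mul_le_sqrt_mul_sqrt U (fun t => ‖u t‖) (fun t => ‖N.Q t‖)
  have h2 : √(∑ t ∈ U, ‖N.Q t‖ ^ 2) ≤ √3 := Real.sqrt_le_sqrt (Frame7x395.frame3 h hU)
  calc ∑ t ∈ U, ‖u t‖ * ‖N.Q t‖ ≤ √(∑ t ∈ U, ‖u t‖ ^ 2) * √(∑ t ∈ U, ‖N.Q t‖ ^ 2) := h1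
    _ ≤ √(∑ t ∈ U, ‖u t‖ ^ 2) * √3 := mul_le_mul_of_nonneg_left h2 (Real.sqrt_nonneg _)
    _ = _ := mul_comm _ _

theorem cs_frame_x {S : Finset ℂ} {N : Net ℂ} (h : HNet S N) {L : Pt ℂ} {q : ℂ × ℂ}
    (hok : Ok N L q) {U : Finset (ℂ × ℂ × ℂ)} (hU : U ⊆ delT S) (u : ℂ × ℂ × ℂ → ℂ) :
    ∑ t ∈ U, ‖u t‖ * ‖Qx N L t‖ ≤ √3 * √(∑ t ∈ U, ‖u t‖ ^ 2) := by
  unfold Qx
  split_ifs with h2
  · simp only [norm_zero, mul_zero, Finset.sum_const_zero]
    positivity
  · exact cs_frame (hnet_ok h hok h2) hU u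

/-- **ONE STEP** -/
theorem one_step {S : Finset ℂ} {N : Net ℂ} (h : HNet S N) (stop : ℂ × ℂ → Prop)
    (u : ℂ × ℂ × ℂ → ℂ) :
    ‖((Om N).card : ℂ) * ∑ t ∈ delT S, u t * N.Q t -
      ∑ J ∈ Om N, ∑ t ∈ delT S, u t * Qx N (nx N stop J).1 t‖ ≤
      ((Om N).card : ℝ) * err S N stop u := by
  have hg := good_of_hnet h
  have hT : ∀ t, t ∈ delT S → t ∈ N.T := fun t ht => h.tri ▸ ht
  set R : ℂ × ℂ × ℂ → ℂ := fun t => ((Om N).card : ℂ) * N.Q t -
    ∑ J ∈ Om N, Qx N (nx N stop J).1 t with hR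
  have e1 : ((Om N).card : ℂ) * ∑ t ∈ delT S, u t * N.Q t -
      ∑ J ∈ Om N, ∑ t ∈ delT S, u t * Qx N (nx N stop J).1 t = ∑ t ∈ delT S, u t * R t := by
    rw [Finset.mul_sum, Finset.sum_comm, ← Finset.sum_sub_distrib]
    refine Finset.sum_congr rfl fun t _ => ?_
    rw [hR, ← Finset.mul_sum]
    ring
  have e2 : ∑ t ∈ delT S, u t * R t = ∑ t ∈ reach S N stop, u t * R t := by
    symm
    refine Finset.sum_subset (reach_sub S N stop) fun t ht hn => ?_
    have h0 : R t = 0 := by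
      unfold reach at hn
      rw [Finset.mem_filter] at hn
      by_cases hk : ∃ i, sd t i ∈ N.kl
      · obtain ⟨i, hi⟩ := hk
        simp only [hR]
        rw [q_dead hg (hT t ht) hi, mul_zero, Finset.sum_eq_zero, sub_zero]
        intro J hJ
        exact qx_dead hg (hT t ht) hi (nx_ok hg hJ stop)
      · push Not at hk
        have hs : ∀ i, stop (sd t i) := by
          intro i
          by_contra hi
          exact hn ⟨ht, ⟨i, hi⟩, hk⟩
        simp only [hR]
        rw [tower hg (hT t ht) hs, sub_self]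
    rw [h0, mul_zero]
  rw [e1, e2]
  have hs := reach_sub S N stop
  set s : ℝ := √3 * √(∑ t ∈ reach S N stop, ‖u t‖ ^ 2) with hsd
  calc ‖∑ t ∈ reach S N stop, u t * R t‖
      ≤ ∑ t ∈ reach S N stop, ‖u t‖ * (((Om N).card : ℝ) * ‖N.Q t‖ +
        ∑ J ∈ Om N, ‖Qx N (nx N stop J).1 t‖) := by
        refine (norm_sum_le _ _).trans (Finset.sum_le_sum fun t _ => ?_)
        rw [norm_mul]
        refine mul_le_mul_of_nonneg_left ?_ (norm_nonneg _)
        simp only [hR]
        refine (norm_sub_le _ _).trans (add_le_add ?_ (norm_sum_le _ _))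
        rw [norm_mul, Complex.norm_natCast]
    _ = ((Om N).card : ℝ) * ∑ t ∈ reach S N stop, ‖u t‖ * ‖N.Q t‖ +
        ∑ J ∈ Om N, ∑ t ∈ reach S N stop, ‖u t‖ * ‖Qx N (nx N stop J).1 t‖ := by
        rw [Finset.mul_sum, Finset.sum_comm, ← Finset.sum_add_distrib]
        refine Finset.sum_congr rfl fun t _ => ?_
        rw [mul_add, Finset.mul_sum]
        ring
    _ ≤ ((Om N).card : ℝ) * s + ∑ J ∈ Om N, s := by
        refine add_le_add (mul_le_mul_of_nonneg_left (cs_frame h hs u) (Nat.cast_nonneg _)) ?_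
        exact Finset.sum_le_sum fun J hJ => cs_frame_x h (nx_ok hg hJ stop) hs u
    _ = ((Om N).card : ℝ) * err S N stop u := by
        rw [Finset.sum_const, nsmul_eq_mul]
        unfold err
        rw [← hsd]
        ring

/-! ### prefixes -/

theorem fol_prefix {G : Trg V} {O : Set (V × V × V)} {D : Set (V × V)} {J : Finset (V × V)}
    {stop : V × V → Prop} : ∀ (L L' : Pt V) (p q q' : V × V), Fol G O D J p L q →
    Stopped G O D stop J p L' q' → (∀ a ∈ L, ¬ stop a.1) →
    ∃ L'', L' = L ++ L'' ∧ Stopped G O D stop J q L'' q' := by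
  intro L
  induction L with
  | nil =>
    intro L' p q q' h hS _
    change p = q at h
    subst h
    exact ⟨L', rfl, hS⟩
  | cons a L ih =>
    rintro L' p q q' ⟨ha, m, hm, hst, hf⟩ ⟨h1, h2, h3⟩ hn
    rcases L' with _ | ⟨b, L'⟩
    · exfalso
      change p = q' at h1
      subst h1
      rcases h3 with h3 | h3
      · exact hn a (List.mem_cons_self ..) (ha ▸ h3)
      · exact term_noStep h3 hst
    · obtain ⟨hb, m', hm', hst', hf'⟩ := h1
      have e := step_det hst hst'
      subst e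
      have hu := turn_unc_unique hm hm'
      have hab : a = b := Prod.ext (ha.trans hb.symm) hu
      obtain ⟨L'', e1, e2⟩ := ih L' m q q' hf
        ⟨hf', fun c hc => h2 c (List.mem_cons_of_mem _ hc), h3⟩
        (fun c hc => hn c (List.mem_cons_of_mem _ hc))
      exact ⟨L'', by rw [hab, e1, List.cons_append], e2⟩

theorem unc_append (L L' : Pt V) : unc (L ++ L') = unc L ∪ unc L' := by
  ext u
  unfold unc
  simp only [List.mem_append, Set.mem_ofPred_eq, Set.mem_union]
  constructor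
  · rintro ⟨a, h | h, h'⟩
    · exact Or.inl ⟨a, h, h'⟩
    · exact Or.inr ⟨a, h, h'⟩
  · rintro (⟨a, h, h'⟩ | ⟨a, h, h'⟩)
    · exact ⟨a, Or.inl h, h'⟩
    · exact ⟨a, Or.inr h, h'⟩

theorem knet_ext (N : Net V) (L : Pt V) {k : Set (V × V)} (h : N.kl ∪ unc L = k)
    (hs : ∀ a b : V, (a, b) ∈ k → (b, a) ∈ k) :
    knet N L = { toTrg := N.toTrg, kl := k, klsym := hs, ex := N.ex } := by
  subst h
  rfl

theorem knet_knet (N : Net V) (L L' : Pt V) :
    knet (knet N L) (L ++ L') = knet N (L ++ L') := by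
  rw [knet_ext N (L ++ L') rfl (knet N (L ++ L')).klsym]
  refine knet_ext (knet N L) (L ++ L') ?_ _
  change N.kl ∪ unc L ∪ unc (L ++ L') = N.kl ∪ unc (L ++ L')
  rw [unc_append, Set.union_assoc, ← Set.union_assoc (unc L), Set.union_self]

theorem unc_nil : unc ([] : Pt V) = ∅ := by
  ext u
  unfold unc
  simp

theorem knet_nil (N : Net V) : knet N [] = N := by
  have := knet_ext N [] (k := N.kl) (by rw [unc_nil, Set.union_empty]) N.klsym
  rw [this]

theorem qx_nil (N : Net V) (t : V × V × V) : Qx N [] t = N.Q t := by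
  unfold Qx
  rw [unc_nil, if_neg (Set.notMem_empty _), knet_nil]

theorem qx_knet (N : Net V) (L L' : Pt V) (t : V × V × V) :
    Qx (knet N L) (L ++ L') t = Qx N (L ++ L') t := by
  unfold Qx
  rw [knet_knet]
  rfl

/-! ### iteration -/

/-- state of the exploration -/
abbrev St (V : Type) := Pt V × (V × V)

/-- one step of the exploration with the rule `st` -/
def stepJ (N : Net V) (st : St V → V × V → Prop) (J : Finset (V × V)) (x : St V) : St V :=
  nx N (st x) J

/-- the rule does not fire on the explored path -/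
def Fwd (st : St V → V × V → Prop) : Prop := ∀ x, ∀ a ∈ x.1, ¬ st x a.1

theorem step_append {N : Net V} (hg : Good N) {st : St V → V × V → Prop} (hst : Fwd st)
    {x : St V} {J : Finset (V × V)} (hJ : J ∈ Om N)
    (hF : Fol N.toTrg ∅ (D2 N) J (N.ex 0) x.1 x.2) :
    ∃ L'', (stepJ N st J x).1 = x.1 ++ L'' ∧
      Stopped N.toTrg ∅ (D2 N) (st x) J x.2 L'' (stepJ N st J x).2 :=
  fol_prefix x.1 _ _ _ _ hF (nx_spec hg hJ (st x)) (hst x)

variable {S : Finset ℂ} {N : Net ℂ}

/-- weighted sum of the amplitudes of an explored network -/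
def Y (S : Finset ℂ) (N : Net ℂ) (u : ℂ × ℂ × ℂ → ℂ) (x : St ℂ) : ℂ :=
  ∑ t ∈ delT S, u t * Qx N x.1 t

/-- the explored network carries an amplitude -/
def Alive (S : Finset ℂ) (N : Net ℂ) (x : St ℂ) : Prop := ∃ t ∈ delT S, Qx N x.1 t ≠ 0

/-- the cost of the step from `x` to `x'` -/
def cost (S : Finset ℂ) (N : Net ℂ) (st : St ℂ → ℂ × ℂ → Prop) (φ w : ℂ × ℂ × ℂ → ℂ)
    (ψ : ℂ × ℂ → ℂ) (x x' : St ℂ) : ℝ :=
  (if Alive S N x then err S (knet N x.1) (st x) (fun t => (φ t - ψ x.2) * w t) else 0) +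
    ‖ψ x'.2 - ψ x.2‖ * ‖Y S N w x'‖

theorem cost_nonneg (st : St ℂ → ℂ × ℂ → Prop) (φ w : ℂ × ℂ × ℂ → ℂ)
    (ψ : ℂ × ℂ → ℂ) (x x' : St ℂ) : 0 ≤ cost S N st φ w ψ x x' := by
  unfold cost
  refine add_nonneg ?_ (mul_nonneg (norm_nonneg _) (norm_nonneg _))
  split_ifs
  · exact err_nonneg _ _ _ _
  · exact le_refl _

/-- the centered sum -/
def Dv (S : Finset ℂ) (N : Net ℂ) (φ w : ℂ × ℂ × ℂ → ℂ) (ψ : ℂ × ℂ → ℂ) (x : St ℂ) : ℂ :=
  Y S N (fun t => (φ t - ψ x.2) * w t) x

theorem dv_change (φ w : ℂ × ℂ × ℂ → ℂ) (ψ : ℂ × ℂ → ℂ) (q : ℂ × ℂ) (x : St ℂ) :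
    ‖Y S N (fun t => (φ t - ψ q) * w t) x‖ ≤ ‖Dv S N φ w ψ x‖ + ‖ψ x.2 - ψ q‖ * ‖Y S N w x‖ := by
  have : Y S N (fun t => (φ t - ψ q) * w t) x = Dv S N φ w ψ x + (ψ x.2 - ψ q) * Y S N w x := by
    unfold Dv Y
    rw [Finset.mul_sum, ← Finset.sum_add_distrib]
    refine Finset.sum_congr rfl fun t _ => ?_
    ring
  rw [this, ← norm_mul]
  exact norm_add_le _ _

/-- one step from the state `x` -/
theorem step_le (h : HNet S N) {st : St ℂ → ℂ × ℂ → Prop} (hst : Fwd st)
    (φ w : ℂ × ℂ × ℂ → ℂ) (ψ : ℂ × ℂ → ℂ) {x : St ℂ} (hx : Ok N x.1 x.2) :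
    ((Om (knet N x.1)).card : ℝ) * ‖Dv S N φ w ψ x‖ ≤
      ∑ J ∈ Om (knet N x.1), (cost S N st φ w ψ x (stepJ N st J x) +
        ‖Dv S N φ w ψ (stepJ N st J x)‖) := by
  have hg := good_of_hnet h
  by_cases hA : Alive S N x
  · have h2 : N.ex 2 ∉ unc x.1 := by
      intro h'
      obtain ⟨t, _, ht⟩ := hA
      apply ht
      unfold Qx
      rw [if_pos h']
    have hN := hnet_ok h hx h2
    set u : ℂ × ℂ × ℂ → ℂ := fun t => (φ t - ψ x.2) * w t with hu
    have h1 := one_step hN (st x) u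
    have e1 : ∑ t ∈ delT S, u t * (knet N x.1).Q t = Dv S N φ w ψ x := by
      unfold Dv Y Qx
      simp only [if_neg h2, hu]
    have e2 : ∀ J ∈ Om (knet N x.1), ∑ t ∈ delT S, u t *
        Qx (knet N x.1) (nx (knet N x.1) (st x) J).1 t = Y S N u (stepJ N st J x) := by
      intro J hJ
      rw [om_knet hg hx, Finset.mem_filter] at hJ
      obtain ⟨L'', e, _⟩ := step_append hg hst hJ.1 hJ.2
      unfold Y
      refine Finset.sum_congr rfl fun t _ => ?_
      have e3 : (nx (knet N x.1) (st x) J).1 = x.1 ++ L'' := e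
      rw [e3, qx_knet, ← e]
    rw [e1, Finset.sum_congr rfl e2] at h1
    have h3 : ((Om (knet N x.1)).card : ℝ) * ‖Dv S N φ w ψ x‖ ≤
        ((Om (knet N x.1)).card : ℝ) * err S (knet N x.1) (st x) u +
          ∑ J ∈ Om (knet N x.1), ‖Y S N u (stepJ N st J x)‖ := by
      have h4 := norm_sub_norm_le (((Om (knet N x.1)).card : ℂ) * Dv S N φ w ψ x)
        (∑ J ∈ Om (knet N x.1), Y S N u (stepJ N st J x))
      have h5 := norm_sum_le (Om (knet N x.1)) (fun J => Y S N u (stepJ N st J x))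
      rw [norm_mul, Complex.norm_natCast] at h4
      linarith
    refine h3.trans ?_
    rw [← nsmul_eq_mul, ← Finset.sum_const, ← Finset.sum_add_distrib]
    refine Finset.sum_le_sum fun J _ => ?_
    have h6 := dv_change (S := S) (N := N) φ w ψ x.2 (stepJ N st J x)
    unfold cost
    rw [if_pos hA]
    linarith
  · have h0 : Dv S N φ w ψ x = 0 := by
      unfold Dv Y
      refine Finset.sum_eq_zero fun t ht => ?_
      have : Qx N x.1 t = 0 := by
        by_contra h'
        exact hA ⟨t, ht, h'⟩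
      rw [this, mul_zero]
    rw [h0, norm_zero, mul_zero]
    exact Finset.sum_nonneg fun J _ => add_nonneg (cost_nonneg _ _ _ _ _ _) (norm_nonneg _)

/-- **ITERATION** -/
theorem iter (h : HNet S N) {st : St ℂ → ℂ × ℂ → Prop} (hst : Fwd st)
    (φ w : ℂ × ℂ × ℂ → ℂ) (ψ : ℂ × ℂ → ℂ) : ∀ (n : ℕ) (x : St ℂ), Ok N x.1 x.2 →
    ((Om (knet N x.1)).card : ℝ) * ‖Dv S N φ w ψ x‖ ≤
      ∑ J ∈ Om (knet N x.1), (∑ j ∈ Finset.range n, cost S N st φ w ψ
        ((stepJ N st J)^[j] x) ((stepJ N st J)^[j + 1] x) +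
        ‖Dv S N φ w ψ ((stepJ N st J)^[n] x)‖) := by
  have hg := good_of_hnet h
  intro n
  induction n with
  | zero =>
    intro x _
    simp
  | succ n ih =>
    intro x hx
    by_cases h2 : N.ex 2 ∈ unc x.1
    · have h0 : Dv S N φ w ψ x = 0 := by
        unfold Dv Y
        refine Finset.sum_eq_zero fun t ht => ?_
        unfold Qx
        rw [if_pos h2, mul_zero]
      rw [h0, norm_zero, mul_zero]
      exact Finset.sum_nonneg fun J _ => add_nonneg
        (Finset.sum_nonneg fun j _ => cost_nonneg _ _ _ _ _ _) (norm_nonneg _)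
    refine (step_le h hst φ w ψ hx).trans ?_
    set F : St ℂ → Finset (ℂ × ℂ) → ℝ := fun y J => ∑ j ∈ Finset.range n, cost S N st φ w ψ
        ((stepJ N st J)^[j] y) ((stepJ N st J)^[j + 1] y) +
        ‖Dv S N φ w ψ ((stepJ N st J)^[n] y)‖ with hF
    have key : ∑ J ∈ Om (knet N x.1), ‖Dv S N φ w ψ (stepJ N st J x)‖ ≤
        ∑ J ∈ Om (knet N x.1), F (stepJ N st J x) J := by
      have hg' := good_knet hg hx h2
      rw [sum_nx hg' (st x), sum_nx hg' (st x) (fun J => F (stepJ N st J x) J)]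
      refine Finset.sum_le_sum fun y hy => ?_
      have hy' := hy
      obtain ⟨J0, hJ0, hJy⟩ := Finset.mem_image.1 hy'
      have hJ0' := hJ0
      have hJ0'' : J0 ∈ Om (knet N x.1) := hJ0
      rw [om_knet hg hx, Finset.mem_filter] at hJ0''
      have hJy' : stepJ N st J0 x = y := hJy
      obtain ⟨L'', e, _⟩ := step_append hg hst hJ0''.1 hJ0''.2
      rw [hJy'] at e
      have hk : knet (knet N x.1) y.1 = knet N y.1 := by rw [e, knet_knet]
      have hok : Ok N y.1 y.2 := hJy' ▸ nx_ok hg hJ0''.1 (st x)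
      have hf : ∀ J ∈ Om (knet (knet N x.1) y.1), stepJ N st J x = y :=
        fun J hJ => (nx_fibre hg' hy hJ).2
      have a1 : ∑ J ∈ Om (knet (knet N x.1) y.1), ‖Dv S N φ w ψ (stepJ N st J x)‖ =
          ((Om (knet N y.1)).card : ℝ) * ‖Dv S N φ w ψ y‖ := by
        rw [Finset.sum_congr rfl (g := fun _ => ‖Dv S N φ w ψ y‖)
          (fun J hJ => by rw [hf J hJ]), hk, Finset.sum_const, nsmul_eq_mul]
      have a2 : ∑ J ∈ Om (knet (knet N x.1) y.1), F (stepJ N st J x) J =
          ∑ J ∈ Om (knet N y.1), F y J := by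
        rw [Finset.sum_congr rfl (g := fun J => F y J) (fun J hJ => by rw [hf J hJ]), hk]
      rw [a1, a2]
      exact ih y hok
    have e : ∀ J, ∑ j ∈ Finset.range (n + 1), cost S N st φ w ψ
        ((stepJ N st J)^[j] x) ((stepJ N st J)^[j + 1] x) +
        ‖Dv S N φ w ψ ((stepJ N st J)^[n + 1] x)‖ =
        cost S N st φ w ψ x (stepJ N st J x) + F (stepJ N st J x) J := by
      intro J
      rw [Finset.sum_range_succ', hF]
      simp only [Function.iterate_succ_apply, Function.iterate_zero, id]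
      ring
    rw [Finset.sum_congr rfl (fun J _ => e J), Finset.sum_add_distrib, Finset.sum_add_distrib]
    exact add_le_add (le_refl _) key

/-! ### the end of the exploration -/

/-- at the end of the leg all amplitudes vanish -/
theorem qx_end {N : Net V} (hg : Good N) {x : St V} (hok : Ok N x.1 x.2)
    (hend : sw x.2 ∈ N.exS) {t : V × V × V} (ht : t ∈ N.T) : Qx N x.1 t = 0 := by
  by_contra hne
  have h2 : N.ex 2 ∉ unc x.1 := by
    intro h
    apply hne
    unfold Qx
    rw [if_pos h]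
  have hQ : (knet N x.1).Q t ≠ 0 := by
    intro h
    apply hne
    unfold Qx
    rw [if_neg h2, h]
  obtain ⟨J, hJ, k, hk⟩ := exists_tri hQ
  obtain ⟨hJt, hF⟩ := of_om hg ht hok h2 hJ hk
  obtain ⟨i, hi, hl⟩ := from_ex0 hg ht hJt hk 0
  have e := term_unique (Or.inl hend) (term_side ht hi) (fol_leads _ _ _ hF) hl
  obtain ⟨z, hz, _⟩ := sd_tri ht i
  rw [← e] at hz
  exact mark_bdry hg _ _ hend z hz

/-- the rule does not fire at the tip -/
def Prog (st : St V → V × V → Prop) : Prop := ∀ x, ¬ st x x.2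

/-- the states along the interface `J` -/
theorem iterate_fol {N : Net V} (hg : Good N) {st : St V → V × V → Prop}
    {J : Finset (V × V)} (hJ : J ∈ Om N) (n : ℕ) :
    Fol N.toTrg ∅ (D2 N) J (N.ex 0) ((stepJ N st J)^[n] ([], N.ex 0)).1
      ((stepJ N st J)^[n] ([], N.ex 0)).2 := by
  cases n with
  | zero => exact rfl
  | succ n =>
    rw [Function.iterate_succ_apply']
    exact (nx_spec hg hJ _).1

theorem iterate_ok {N : Net V} (hg : Good N) {st : St V → V × V → Prop}
    {J : Finset (V × V)} (hJ : J ∈ Om N) (n : ℕ) :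
    Ok N ((stepJ N st J)^[n] ([], N.ex 0)).1 ((stepJ N st J)^[n] ([], N.ex 0)).2 :=
  ⟨J, hJ, iterate_fol hg hJ n⟩

/-- after `n` steps the leg has ended or the explored path has length at least `n` -/
theorem iterate_len {N : Net V} (hg : Good N) {st : St V → V × V → Prop} (hst : Fwd st)
    (hpr : Prog st) {J : Finset (V × V)} (hJ : J ∈ Om N) (n : ℕ) :
    n ≤ ((stepJ N st J)^[n] ([], N.ex 0)).1.length ∨
      sw ((stepJ N st J)^[n] ([], N.ex 0)).2 ∈ D2 N := by
  induction n with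
  | zero => exact Or.inl (Nat.zero_le _)
  | succ n ih =>
    rw [Function.iterate_succ_apply']
    set x := (stepJ N st J)^[n] ([], N.ex 0) with hx
    obtain ⟨L'', e, h1, h2, h3⟩ := step_append hg hst hJ (iterate_fol (st := st) hg hJ n)
    rw [← hx] at e h1 h2 h3
    rcases L'' with _ | ⟨a, L''⟩
    · change x.2 = (stepJ N st J x).2 at h1
      rw [← h1] at h3 ⊢
      rcases h3 with h3 | h3 | ⟨_, c, _, h3⟩
      · exact absurd h3 (hpr x)
      · exact Or.inr h3
      · exact h3.elim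
    · rcases ih with ih | ih
      · left
        rw [e, List.length_append, List.length_cons]
        omega
      · exfalso
        obtain ⟨_, m, _, hs, _⟩ := h1
        exact step_pre hs ih

theorem len_bound {N : Net V} (hg : Good N) {J : Finset (V × V)} (hJ : J ∈ Om N) {L : Pt V}
    {q : V × V} (hF : Fol N.toTrg ∅ (D2 N) J (N.ex 0) L q) :
    L.length ≤ (nx N (fun _ => False) J).1.length := by
  obtain ⟨L'', e, _⟩ := fol_prefix L _ _ _ _ hF (nx_spec hg hJ (fun _ => False)) (by simp)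
  rw [e, List.length_append]
  omega

/-- a number of steps after which every interface has ended -/
def fuel (N : Net V) : ℕ := (Om N).sup (fun J => (nx N (fun _ => False) J).1.length) + 1

theorem iterate_end {N : Net V} (hg : Good N) {st : St V → V × V → Prop} (hst : Fwd st)
    (hpr : Prog st) {J : Finset (V × V)} (hJ : J ∈ Om N) {n : ℕ} (hn : fuel N ≤ n) :
    sw ((stepJ N st J)^[n] ([], N.ex 0)).2 ∈ D2 N := by
  rcases iterate_len hg hst hpr hJ n with h | h
  · exfalso
    have h1 := len_bound hg hJ (iterate_fol (st := st) hg hJ n)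
    have h2 : (nx N (fun _ => False) J).1.length ≤
        (Om N).sup (fun J => (nx N (fun _ => False) J).1.length) :=
      Finset.le_sup (f := fun J => (nx N (fun _ => False) J).1.length) hJ
    unfold fuel at hn
    omega
  · exact h

/-- **the finite-net inequality of STEP 4** -/
theorem mab (h : HNet S N) {st : St ℂ → ℂ × ℂ → Prop} (hst : Fwd st) (hpr : Prog st)
    (φ w : ℂ × ℂ × ℂ → ℂ) (ψ : ℂ × ℂ → ℂ) {n : ℕ} (hn : fuel N ≤ n) :
    ‖∑ t ∈ delT S, φ t * w t * N.Q t‖ ≤ ‖ψ (N.ex 0)‖ * ‖∑ t ∈ delT S, w t * N.Q t‖ +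
      (∑ J ∈ Om N, ∑ j ∈ Finset.range n, cost S N st φ w ψ
        ((stepJ N st J)^[j] ([], N.ex 0)) ((stepJ N st J)^[j + 1] ([], N.ex 0))) /
        ((Om N).card : ℝ) := by
  have hg := good_of_hnet h
  have hT : ∀ t, t ∈ delT S → t ∈ N.T := fun t ht => h.tri ▸ ht
  rcases (Om N).eq_empty_or_nonempty with he | hne
  · have h0 : ∀ t ∈ delT S, N.Q t = 0 := by
      intro t ht
      by_contra hQ
      obtain ⟨J, hJ, k, hk⟩ := exists_tri hQ
      obtain ⟨J1, hJ1⟩ := om_ne (hT t ht) hJ hk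
      rw [he] at hJ1
      exact absurd hJ1 (Finset.notMem_empty _)
    have h1 : ∑ t ∈ delT S, φ t * w t * N.Q t = 0 :=
      Finset.sum_eq_zero fun t ht => by rw [h0 t ht, mul_zero]
    rw [h1, norm_zero, he, Finset.sum_empty, zero_div, add_zero]
    exact mul_nonneg (norm_nonneg _) (norm_nonneg _)
  · have hc : (0 : ℝ) < ((Om N).card : ℝ) := by exact_mod_cast hne.card_pos
    obtain ⟨J0, hJ0⟩ := hne
    have hok : Ok N ([] : Pt ℂ) (N.ex 0) := ⟨J0, hJ0, rfl⟩
    have h1 := iter h hst φ w ψ n ([], N.ex 0) hok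
    rw [knet_nil, Finset.sum_add_distrib] at h1
    have h2 : ∑ J ∈ Om N, ‖Dv S N φ w ψ ((stepJ N st J)^[n] ([], N.ex 0))‖ = 0 := by
      refine Finset.sum_eq_zero fun J hJ => ?_
      have h3 := iterate_end hg hst hpr hJ hn
      unfold Dv Y
      rw [Finset.sum_eq_zero, norm_zero]
      intro t ht
      rw [qx_end hg (iterate_ok hg hJ n) (D2_sub N h3) (hT t ht), mul_zero]
    rw [h2, add_zero] at h1
    have h4 : ∑ t ∈ delT S, φ t * w t * N.Q t = Dv S N φ w ψ ([], N.ex 0) +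
        ψ (N.ex 0) * ∑ t ∈ delT S, w t * N.Q t := by
      unfold Dv Y
      rw [Finset.mul_sum, ← Finset.sum_add_distrib]
      refine Finset.sum_congr rfl fun t _ => ?_
      rw [qx_nil]
      ring
    rw [h4]
    refine (norm_add_le _ _).trans ?_
    rw [norm_mul, add_comm]
    refine add_le_add (le_refl _) ?_
    rw [le_div_iff₀ hc, mul_comm]
    exact h1

end Crest.Agent.R143.Mabx377
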