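import Crest.Agent.R143.Neck3_921
import Crest.Agent.R143.TileG2_73
import Crest.Agent.R143.Cross_228

/-!
# Row 143, CORE-C, block V4: extensions of the neck gate with the long black crossing (helper921)

* `HB.mono`, `HB.inter`, `HB.sub`, `HC.sub` : long black crossing, smaller windows
* `ExtRB`, `ExtLB` : black extensions (staircase crossing `HB` and vertical crossing of the landing zone)
* `black_rightH`, `black_leftH` : the landing chain is linked to the neck `y`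
* `NumH`, `right_linksH`, `left_linksH` : both landing links of a gate (same conclusions as 73's
  `right_links`, `left_links`)
* `GE.extRB`, `GE.extLB`, `GE.extRW`, `GE.extLW` : the event `GE` of Neck3_921 contains the extensions
-/

set_option autoImplicit false

noncomputable section

open scoped Classical

namespace Crest.Agent.R143.Neckx921

open Crest.Agent.R143.B0x346 Crest.Agent.R143.DelGx806 Crest.Agent.R143.DelRx806
open Crest.Agent.R143.ToolWx838 Crest.Agent.R143.Blkx838 Crest.Agent.R143.ToolW2x838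
open Crest.Agent.R143.ToolW3x838 Crest.Agent.R143.Circ4x838 Crest.Agent.R143.Harx315
open Crest.Agent.R143.RB0x838 Crest.Agent.R143.CircPx838 Crest.Agent.R143.Gatex838
open Crest.Agent.R143.TileGx73 (last_mark prs_suffix prs_rev suffix_last suffix_rev_head ExtR ExtL Rc
  white_right' white_left')

variable {S V β : Finset ℂ} {z0 e : ℂ}
variable {x0 x1 y0 y1 a0 a1 b0 b1 p0 p1 q0 q1 l0 l1 r0 r1 m m' mN : ℝ}

/-! ### restriction of crossings -/

theorem HB.mono {A A' : Finset ℂ} {l : List ℂ} (h : HB S z0 e x0 x1 a0 a1 b0 p0 p1 m A l)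
    (hA : A ⊆ A') : HB S z0 e x0 x1 a0 a1 b0 p0 p1 m A' l :=
  ⟨h.ne, h.adj, fun s hs => hA (h.col s hs), h.strip, h.out, h.loc, h.left, h.right, h.step⟩


/-- a list chain as a chain of a relation -/
theorem rtg_of_list {r : ℂ → ℂ → Prop} {l : List ℂ} (hl : l ≠ []) (h : ∀ p ∈ prs l, r p.1 p.2) :
    Relation.ReflTransGen r (l.head hl) (l.getLast hl) := by
  induction l with
  | nil => exact absurd rfl hl
  | cons a l ih =>
    cases l with
    | nil => exact .refl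
    | cons b l =>
      have h1 := ih (List.cons_ne_nil _ _) fun p hp => h p (by
        rw [show prs (a :: b :: l) = (a, b) :: prs (b :: l) from rfl]
        exact List.mem_cons_of_mem _ hp)
      rw [List.getLast_cons (List.cons_ne_nil _ _)]
      refine Relation.ReflTransGen.head (h (a, b) ?_) h1
      rw [show prs (a :: b :: l) = (a, b) :: prs (b :: l) from rfl]
      exact List.mem_cons_self

/-- members of consecutive pairs -/
theorem mem_of_prs {l : List ℂ} {p : ℂ × ℂ} (h : p ∈ prs l) : p.1 ∈ l ∧ p.2 ∈ l := by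
  induction l with
  | nil => simp at h
  | cons a l ih =>
    cases l with
    | nil => simp at h
    | cons b l =>
      rw [show prs (a :: b :: l) = (a, b) :: prs (b :: l) from rfl, List.mem_cons] at h
      rcases h with rfl | h
      · exact ⟨by simp, by simp⟩
      · exact ⟨List.mem_cons_of_mem _ (ih h).1, List.mem_cons_of_mem _ (ih h).2⟩

/-- **smaller window** -/
theorem HB.sub {l : List ℂ} (h : HB S z0 e x0 x1 a0 a1 b0 p0 p1 m β l) (h0 : x0 ≤ y0) (h01 : y0 < y1)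
    (h1 : y1 ≤ x1) : ∃ l', HB S z0 e y0 y1 a0 a1 b0 p0 p1 m β l' := by
  set G : ℂ → Prop := fun s => s ∈ β ∧ (b0 < Y z0 e s ∧ Y z0 e s < p1) ∧
    (X z0 e s ≤ a0 ∨ a1 ≤ X z0 e s → p0 < Y z0 e s) with hG
  set r : ℂ → ℂ → Prop := fun u v => (DE S u v ∧ |X z0 e u - X z0 e v| ≤ m) ∧ G u ∧ G v with hr
  have hGl : ∀ s ∈ l, G s := fun s hs => ⟨h.col s hs, h.strip s hs, h.out s hs⟩
  obtain ⟨l', hl', k1, k2, k3, k4⟩ := Crossx228.sub_chain (r := r) (G := G) (f := X z0 e) (m := m) h01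
    (fun u v h => h.2) (fun u v h => h.1.2)
    (rtg_of_list h.ne fun p hp => ⟨⟨h.adj p hp, h.step p hp⟩, hGl _ (mem_of_prs hp).1,
      hGl _ (mem_of_prs hp).2⟩) (h.left.trans h0) (h1.trans h.right)
  exact ⟨l', hl', fun p hp => (k1 p hp).1.1, fun s hs => (k4 s hs).1.1, fun s hs => (k4 s hs).1.2.1,
    fun s hs => (k4 s hs).1.2.2, fun s hs => (k4 s hs).2, k2, k3, fun p hp => (k1 p hp).1.2⟩

/-- **smaller window**, horizontal crossing with short steps -/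
theorem HC.sub {l : List ℂ} {c0 c1 : ℝ} (h : HC S z0 e x0 x1 c0 c1 m' β l) (h0 : x0 ≤ y0)
    (h01 : y0 < y1) (h1 : y1 ≤ x1) (hq0 : q0 ≤ c0) (hq1 : c1 ≤ q1)
    (hst : ∀ u v, DE S u v → u ∈ β → v ∈ β → x0 - m' ≤ X z0 e u → X z0 e u ≤ x1 + m' →
      c0 < Y z0 e u → Y z0 e u < c1 → |X z0 e u - X z0 e v| ≤ m) :
    ∃ l', HC S z0 e y0 y1 q0 q1 m β l' := by
  set G : ℂ → Prop := fun s => s ∈ β ∧ (c0 < Y z0 e s ∧ Y z0 e s < c1) with hG
  set r : ℂ → ℂ → Prop := fun u v => (DE S u v ∧ |X z0 e u - X z0 e v| ≤ m) ∧ G u ∧ G v with hr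
  have hGl : ∀ s ∈ l, G s := fun s hs => ⟨h.col s hs, h.strip s hs⟩
  obtain ⟨l', hl', k1, k2, k3, k4⟩ := Crossx228.sub_chain (r := r) (G := G) (f := X z0 e) (m := m) h01
    (fun u v h => h.2) (fun u v h => h.1.2)
    (rtg_of_list h.ne fun p hp => by
      have m1 := (mem_of_prs hp).1
      have m2 := (mem_of_prs hp).2
      exact ⟨⟨h.adj p hp, hst _ _ (h.adj p hp) (h.col _ m1) (h.col _ m2) (h.loc _ m1).1 (h.loc _ m1).2
        (h.strip _ m1).1 (h.strip _ m1).2⟩, hGl _ m1, hGl _ m2⟩) (h.left.trans h0) (h1.trans h.right)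
  exact ⟨l', hl', fun p hp => (k1 p hp).1.1, fun s hs => (k4 s hs).1.1,
    fun s hs => ⟨hq0.trans_lt (k4 s hs).1.2.1, (k4 s hs).1.2.2.trans_le hq1⟩,
    fun s hs => (k4 s hs).2, k2, k3⟩

/-! ### black extensions -/

/-- black extension of a gate to the right -/
def ExtRB (S : Finset ℂ) (z0 e : ℂ) (a0 a1 l0 l1 b0 p0 p1 m m' : ℝ) (A : Finset ℂ) (Q : List ℂ) : Prop :=
  (∃ P, HB S z0 e a0 l1 a0 a1 b0 p0 p1 m A P) ∧ VC S z0 e l0 l1 p0 p1 m' A Q

/-- black extension of a gate to the left -/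
def ExtLB (S : Finset ℂ) (z0 e : ℂ) (a0 a1 r0 r1 b0 p0 p1 m m' : ℝ) (A : Finset ℂ) (Q : List ℂ) : Prop :=
  (∃ P, HB S z0 e r0 a1 a0 a1 b0 p0 p1 m A P) ∧ VC S z0 e r0 r1 p0 p1 m' A Q

theorem ExtRB.mono {A A' : Finset ℂ} {Q : List ℂ}
    (h : ExtRB S z0 e a0 a1 l0 l1 b0 p0 p1 m m' A Q) (hA : A ⊆ A') :
    ExtRB S z0 e a0 a1 l0 l1 b0 p0 p1 m m' A' Q :=
  ⟨⟨h.1.choose, h.1.choose_spec.mono hA⟩, h.2.mono hA⟩

theorem ExtLB.mono {A A' : Finset ℂ} {Q : List ℂ}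
    (h : ExtLB S z0 e a0 a1 r0 r1 b0 p0 p1 m m' A Q) (hA : A ⊆ A') :
    ExtLB S z0 e a0 a1 r0 r1 b0 p0 p1 m m' A' Q :=
  ⟨⟨h.1.choose, h.1.choose_spec.mono hA⟩, h.2.mono hA⟩

/-- **black landing, right** : every site of the landing chain `Q` is linked to the neck `y` -/
theorem black_rightH {up dn : List ℂ} {y : ℂ} (hN : Neck S z0 e a0 a1 b0 b1 mN V β up y dn)
    (hS : GP (S : Set ℂ)) (he : e ≠ 0) {P Q : List ℂ} (h : HB S z0 e a0 l1 a0 a1 b0 p0 p1 m β P)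
    (v : VC S z0 e l0 l1 p0 p1 m' β Q) (hp1 : p1 ≤ b1) (h1 : a1 + m ≤ l0) (h01 : l0 < l1) {R : Set ℂ}
    (hR : ∀ s ∈ β, a0 < X z0 e s → X z0 e s ≤ l1 + m → b0 < Y z0 e s → Y z0 e s < p1 → s ∈ R)
    (hR' : ∀ s ∈ Q, s ∈ R) {t : ℂ} (ht : t ∈ Q) : Lk S {s | s ∈ β ∧ s ∈ R} y t := by
  have hm : 0 ≤ m := by
    have h2 := h.left
    have h3 := (h.loc _ (List.head_mem h.ne)).1
    linarith
  have hstrip : ∀ s ∈ P, b0 < Y z0 e s ∧ Y z0 e s < b1 := fun s hs =>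
    ⟨(h.strip s hs).1, by linarith [(h.strip s hs).2]⟩
  have hw0 := hN.win y (by simp)
  have hr : a1 ≤ l1 := by linarith
  obtain ⟨t0, T, hT, rfl, hTT⟩ := last_mark (M := fun s => s = y) (A := fun s => X z0 e s ≤ a0) P
    ⟨y, hN.meet hS he h.ne h.adj h.col hstrip h.left (hr.trans h.right), rfl⟩
    (fun s T hT hs => ⟨y, hN.meet hS he (by simp) (fun p hp => h.adj p (prs_suffix hT p hp))
      (fun u hu => h.col u (hT.subset hu)) (fun u hu => hstrip u (hT.subset hu))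
      (by simpa using hs) (by rw [suffix_last hT h.ne]; exact hr.trans h.right), rfl⟩)
  have hX : ∀ s ∈ t0 :: T, a0 < X z0 e s := by
    intro s hs
    rcases List.mem_cons.1 hs with rfl | hs
    · exact hw0.1.1
    · exact not_le.1 (hTT s hs).2
  -- the last site with `X ≤ l0`
  obtain ⟨t1, T1, hT1, ht1, hTT1⟩ := last_mark (M := fun s => X z0 e s ≤ l0) (A := fun _ => False)
    (t0 :: T) ⟨t0, by simp, by linarith [hw0.1.2]⟩ (fun _ _ _ h => h.elim)
  have hlast1 : (t1 :: T1).getLast (by simp) = P.getLast h.ne := by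
    rw [suffix_last hT1 (List.cons_ne_nil _ _), suffix_last hT h.ne]
  have hT1n : T1 ≠ [] := by
    rintro rfl
    have h2 := h.right
    rw [← hlast1] at h2
    simp only [List.getLast_singleton] at h2
    linarith
  have hT1P : (t1 :: T1) <:+ P := hT1.trans hT
  have hstr : ∀ s ∈ t1 :: T1, p0 < Y z0 e s ∧ Y z0 e s < p1 := by
    intro s hs
    have hsP := hT1P.subset hs
    refine ⟨h.out s hsP (Or.inr ?_), (h.strip s hsP).2⟩
    rcases List.mem_cons.1 hs with rfl | hs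
    · obtain ⟨v1, T2, rfl⟩ := List.exists_cons_of_ne_nil hT1n
      have h3 := h.step (s, v1) (prs_suffix hT1P _ (by
        rw [show prs (s :: v1 :: T2) = (s, v1) :: prs (v1 :: T2) from rfl]
        exact List.mem_cons_self))
      have h4 := abs_le.1 h3
      have h5 := (hTT1 v1 (by simp)).1
      simp only at h4 h5
      linarith [h4.1]
    · have h5 := (hTT1 s hs).1
      linarith
  obtain ⟨s, hs1, hs2⟩ := cross_e hS he (P := t1 :: T1) (Q := Q) (by simp) v.ne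
    (fun p hp => h.adj p (prs_suffix hT1P p hp)) v.adj hstr v.strip (by simpa using ht1)
    (by rw [hlast1]; exact h.right) v.left v.right
  have k1 : Lk S {s | s ∈ β ∧ s ∈ R} t0 s := by
    refine lk_list (fun p hp => h.adj p (prs_suffix hT p hp)) (fun u hu => ?_)
      (by simp) (hT1.subset hs1)
    have hu' := hT.subset hu
    exact ⟨h.col u hu', hR u (h.col u hu') (hX u hu) (h.loc u hu').2 (h.strip u hu').1
      (h.strip u hu').2⟩
  exact k1.trans (lk_list (A := {s | s ∈ β ∧ s ∈ R}) v.adj (fun u hu => ⟨v.col u hu, hR' u hu⟩)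
    hs2 ht)

/-- **black landing, left** -/
theorem black_leftH {up dn : List ℂ} {y : ℂ} (hN : Neck S z0 e a0 a1 b0 b1 mN V β up y dn)
    (hS : GP (S : Set ℂ)) (he : e ≠ 0) {P Q : List ℂ} (h : HB S z0 e r0 a1 a0 a1 b0 p0 p1 m β P)
    (v : VC S z0 e r0 r1 p0 p1 m' β Q) (hp1 : p1 ≤ b1) (h1 : r1 + m ≤ a0) (h01 : r0 < r1) {R : Set ℂ}
    (hR : ∀ s ∈ β, X z0 e s < a1 → r0 - m ≤ X z0 e s → b0 < Y z0 e s → Y z0 e s < p1 → s ∈ R)
    (hR' : ∀ s ∈ Q, s ∈ R) {t : ℂ} (ht : t ∈ Q) : Lk S {s | s ∈ β ∧ s ∈ R} y t := by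
  have hm : 0 ≤ m := by
    have h2 := h.left
    have h3 := (h.loc _ (List.head_mem h.ne)).1
    linarith
  have hstrip : ∀ s ∈ P, b0 < Y z0 e s ∧ Y z0 e s < b1 := fun s hs =>
    ⟨(h.strip s hs).1, by linarith [(h.strip s hs).2]⟩
  have hw0 := hN.win y (by simp)
  have hr : r0 ≤ a0 := by linarith
  have hPr : P.reverse ≠ [] := by simpa using h.ne
  obtain ⟨t0, T, hT, rfl, hTT⟩ := last_mark (M := fun s => s = y) (A := fun s => a1 ≤ X z0 e s)
    P.reverse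
    ⟨y, List.mem_reverse.2 (hN.meet hS he h.ne h.adj h.col hstrip (h.left.trans hr) h.right), rfl⟩
    (fun s T hT hs => ⟨y, List.mem_reverse.1 (hN.meet hS he (P := (s :: T).reverse) (by simp)
      (prs_rev fun p hp => prs_rev h.adj p (prs_suffix hT p hp))
      (fun u hu => h.col u (List.mem_reverse.1 (hT.subset (List.mem_reverse.1 hu))))
      (fun u hu => hstrip u (List.mem_reverse.1 (hT.subset (List.mem_reverse.1 hu))))
      (by rw [suffix_rev_head hT h.ne]; exact h.left.trans hr) (by simpa using hs)), rfl⟩)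
  have hX : ∀ s ∈ t0 :: T, X z0 e s < a1 := by
    intro s hs
    rcases List.mem_cons.1 hs with rfl | hs
    · exact hw0.1.2
    · exact not_le.1 (hTT s hs).2
  obtain ⟨t1, T1, hT1, ht1, hTT1⟩ := last_mark (M := fun s => r1 ≤ X z0 e s) (A := fun _ => False)
    (t0 :: T) ⟨t0, by simp, by linarith [hw0.1.1]⟩ (fun _ _ _ h => h.elim)
  have hT1P : (t1 :: T1) <:+ P.reverse := hT1.trans hT
  have hlast1 : (t1 :: T1).getLast (by simp) = P.head h.ne := by
    rw [suffix_last hT1P hPr, List.getLast_reverse]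
  have hT1n : T1 ≠ [] := by
    rintro rfl
    have h2 := h.left
    rw [← hlast1] at h2
    simp only [List.getLast_singleton] at h2
    linarith
  have mT : ∀ u ∈ t0 :: T, u ∈ P := fun u hu => List.mem_reverse.1 (hT.subset hu)
  have mT1 : ∀ u ∈ t1 :: T1, u ∈ P := fun u hu => List.mem_reverse.1 (hT1P.subset hu)
  have dT : ∀ p ∈ prs (t0 :: T), DE S p.1 p.2 := fun p hp => prs_rev h.adj p (prs_suffix hT p hp)
  have dT1 : ∀ p ∈ prs (t1 :: T1), DE S p.1 p.2 := fun p hp => prs_rev h.adj p (prs_suffix hT1P p hp)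
  have hstr : ∀ s ∈ t1 :: T1, p0 < Y z0 e s ∧ Y z0 e s < p1 := by
    intro s hs
    have hsP := mT1 s hs
    refine ⟨h.out s hsP (Or.inl ?_), (h.strip s hsP).2⟩
    rcases List.mem_cons.1 hs with rfl | hs
    · obtain ⟨v1, T2, rfl⟩ := List.exists_cons_of_ne_nil hT1n
      have h2 : (s, v1) ∈ prs P.reverse := prs_suffix hT1P _ (by
        rw [show prs (s :: v1 :: T2) = (s, v1) :: prs (v1 :: T2) from rfl]
        exact List.mem_cons_self)
      rw [prs_reverse, List.mem_reverse, List.mem_map] at h2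
      obtain ⟨q, hq, hqe⟩ := h2
      have h3 := abs_le.1 (h.step q hq)
      have e1 : q.2 = s := congrArg Prod.fst hqe
      have e2 : q.1 = v1 := congrArg Prod.snd hqe
      rw [e1, e2] at h3
      have h5 := (hTT1 v1 (by simp)).1
      linarith [h3.1]
    · have h5 := (hTT1 s hs).1
      linarith
  obtain ⟨s, hs1, hs2⟩ := cross_e hS he (P := (t1 :: T1).reverse) (Q := Q) (by simp) v.ne
    (prs_rev dT1) v.adj (fun u hu => hstr u (List.mem_reverse.1 hu)) v.strip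
    (by rw [List.head_reverse, hlast1]; exact h.left) (by simpa using ht1) v.left v.right
  rw [List.mem_reverse] at hs1
  have k1 : Lk S {s | s ∈ β ∧ s ∈ R} t0 s := by
    refine lk_list dT (fun u hu => ?_) (by simp) (hT1.subset hs1)
    have hu' := mT u hu
    exact ⟨h.col u hu', hR u (h.col u hu') (hX u hu) (h.loc u hu').1 (h.strip u hu').1
      (h.strip u hu').2⟩
  exact k1.trans (lk_list (A := {s | s ∈ β ∧ s ∈ R}) v.adj (fun u hu => ⟨v.col u hu, hR' u hu⟩)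
    hs2 ht)

/-! ### both landing links of a gate -/

/-- numbers of a gate: window `(a0, a1)`, levels `b0, b1`, black levels `p0, p1`, white levels `q0, q1`,
landing zones `(l0, l1)`, `(r0, r1)`, margins `m` (horizontal crossings), `m'` (vertical crossings),
region `W0 < X < W1`, `b0 < Y < Y1` -/
structure NumH (a0 a1 b0 b1 p0 p1 q0 q1 l0 l1 r0 r1 m m' Y1 W0 W1 : ℝ) : Prop where
  bp : b0 < p0 - m'
  pp : p0 < p1
  pq : p1 + m' < q0 - m'
  qq : q0 < q1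
  qb : q1 ≤ b1
  qY : q1 + m' < Y1
  al : a1 + m ≤ l0
  ll : l0 < l1
  rr : r0 < r1
  ra : r1 + m ≤ a0
  W1 : l1 + m < W1
  W0 : W0 < r0 - m
  m : 0 ≤ m
  m' : 0 ≤ m'


variable {Y1 W0 W1 : ℝ} {R : Set ℂ}






/-! ### the event `GE` contains the four extensions -/

section

variable {L : Lc} {lR0 lR1 lL0 lL1 c0 c1 d0 d1 : ℝ}

theorem GE.extRB (h : GE S V z0 e L r0 r1 lR0 lR1 lL0 lL1 p1 c0 c1 d0 d1 b1 m mN β)
    (h0 : r0 + m ≤ L.a0) (h1 : L.a0 < lR1) (h2 : lR1 ≤ r1 - m) :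
    ∃ Q, ExtRB S z0 e L.a0 L.a1 lR0 lR1 L.b0 L.p0 p1 (2 * m) m β Q := by
  obtain ⟨P, hP⟩ := h.bl
  obtain ⟨Q, hQ⟩ := h.bR
  exact ⟨Q, hP.sub h0 h1 h2, hQ⟩

theorem GE.extLB (h : GE S V z0 e L r0 r1 lR0 lR1 lL0 lL1 p1 c0 c1 d0 d1 b1 m mN β)
    (h0 : r0 + m ≤ lL0) (h1 : lL0 < L.a1) (h2 : L.a1 ≤ r1 - m) :
    ∃ Q, ExtLB S z0 e L.a0 L.a1 lL0 lL1 L.b0 L.p0 p1 (2 * m) m β Q := by
  obtain ⟨P, hP⟩ := h.bl
  obtain ⟨Q, hQ⟩ := h.bL
  exact ⟨Q, hP.sub h0 h1 h2, hQ⟩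

theorem GE.extRW (h : GE S V z0 e L r0 r1 lR0 lR1 lL0 lL1 p1 c0 c1 d0 d1 b1 m mN β)
    (h0 : r0 ≤ L.a0) (h1 : L.a0 < lR1) (h2 : lR1 ≤ r1) (hc : d0 ≤ c0) (hc' : c1 ≤ d1)
    (hst : ∀ u v, DE S u v → u ∈ V → v ∈ V → r0 - m ≤ X z0 e u → X z0 e u ≤ r1 + m →
      c0 < Y z0 e u → Y z0 e u < c1 → |X z0 e u - X z0 e v| ≤ 2 * m) :
    ∃ Q, ExtR S z0 e L.a0 lR0 lR1 d0 d1 (2 * m) m (V \ β) Q := by
  obtain ⟨U, hU⟩ := h.wh
  obtain ⟨Q, hQ⟩ := h.wR
  exact ⟨Q, HC.sub hU h0 h1 h2 hc hc' fun u v a b c => hst u v a (Finset.mem_sdiff.1 b).1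
    (Finset.mem_sdiff.1 c).1, hQ⟩

theorem GE.extLW (h : GE S V z0 e L r0 r1 lR0 lR1 lL0 lL1 p1 c0 c1 d0 d1 b1 m mN β)
    (h0 : r0 ≤ lL0) (h1 : lL0 < L.a1) (h2 : L.a1 ≤ r1) (hc : d0 ≤ c0) (hc' : c1 ≤ d1)
    (hst : ∀ u v, DE S u v → u ∈ V → v ∈ V → r0 - m ≤ X z0 e u → X z0 e u ≤ r1 + m →
      c0 < Y z0 e u → Y z0 e u < c1 → |X z0 e u - X z0 e v| ≤ 2 * m) :
    ∃ Q, ExtL S z0 e L.a1 lL0 lL1 d0 d1 (2 * m) m (V \ β) Q := by
  obtain ⟨U, hU⟩ := h.wh
  obtain ⟨Q, hQ⟩ := h.wL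
  exact ⟨Q, HC.sub hU h0 h1 h2 hc hc' fun u v a b c => hst u v a (Finset.mem_sdiff.1 b).1
    (Finset.mem_sdiff.1 c).1, hQ⟩

end

end Crest.Agent.R143.Neckx921
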