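import Crest.Agent.R143.RB1_54
import Crest.Agent.R143.Crs6_117
import Crest.Agent.R143.RB2_54
import Crest.Agent.R143.Frame7_395
import Crest.Agent.R143.Half_930
import Crest.Agent.R143.RE0_723

-- ▼ part R143/Qd1_54
section

/-!
# Row 143 (S0194): combinatorial quads (helper54)

* `Qd S V B r` : Delaunay triangulation of `S`, inner sites `V`, four disjoint connected classes
  `B 0 .. B 3` of outer sites (counterclockwise), `r k` = the hull edge from the class `k - 1` to the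
  class `k`
* `Qd.N` : its network (killed edges = pairs inside a class, marks `r 0, r 2, r 3`)
* `Qd.hnet`, `Qd.pos` : the order of the marks
* `Qd.Crs`, `Qd.pr` : chains from `B i` to `B (i + 2)` in a set of sites, their probability
* `Qd.xor` : black chain `B 0 - B 2` iff no white chain `B 1 - B 3`
* `Qd.exists_box` : the network is a `Box`, `p = pr`
-/

set_option autoImplicit false
set_option linter.all false

noncomputable section

open scoped Classical

namespace Crest.Agent.R143.Qdx54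

open Crest.Agent.R143.B0x346 Crest.Agent.R143.DelGx806 Crest.Agent.R143.DelRx806
  Crest.Agent.R143.B0Dx346 Crest.Agent.R143.JColx54 Crest.Agent.R143.JCol2x54
  Crest.Agent.R143.JWalkx872 Crest.Agent.R143.JCardx872 Crest.Agent.R143.Crsx117
open Crest.Agent.R143.Crs6x117 (adj_of_hull chn_xor)

/-- **combinatorial quad** -/
structure Qd (S V : Finset ℂ) (B : ZMod 4 → Set ℂ) (r : ZMod 4 → ℂ × ℂ) : Prop where
  gp : GP (S : Set ℂ)
  sub : ∀ i, B i ⊆ S
  disj : ∀ i j, i ≠ j → Disjoint (B i) (B j)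
  /-- inner sites = sites in no class -/
  inn : ∀ v, v ∈ V ↔ v ∈ S ∧ ∀ i, v ∉ B i
  hr : ∀ k, hullE S (r k).1 (r k).2
  end1 : ∀ k, (r k).1 ∈ B (k - 1)
  end2 : ∀ k, (r k).2 ∈ B k
  /-- a hull edge which is not a mark joins two sites of the same class -/
  hull : ∀ a b, hullE S a b → (∃ k, r k = (a, b)) ∨ ∃ i, a ∈ B i ∧ b ∈ B i
  /-- the classes are connected -/
  con : ∀ i, ∀ v ∈ B i, ∀ w ∈ B i,
    Relation.ReflTransGen (fun a b => a ∈ B i ∧ b ∈ B i ∧ Adj S a b) v w

variable {S V : Finset ℂ} {B : ZMod 4 → Set ℂ} {r : ZMod 4 → ℂ × ℂ}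

namespace Qd

variable (O : Qd S V B r)


/-- the network of a quad -/
def N (O : Qd S V B r) : Net ℂ where
  T := delT S
  rot := fun h => (g1 S O.gp).1 _ _ _ h
  uniq := fun h h' => (g1 S O.gp).2.1 _ _ _ _ h h'
  ne := fun h => (g1 S O.gp).2.2 _ _ _ h
  kl := {p | ∃ i, p.1 ∈ B i ∧ p.2 ∈ B i}
  klsym := by
    rintro a b ⟨i, h1, h2⟩
    exact ⟨i, h2, h1⟩
  ex := fun k => if k = 0 then r 0 else if k = 1 then r 2 else r 3

include O

/-- the class of a site is unique -/
theorem uniq {v : ℂ} {i j : ZMod 4} (hi : v ∈ B i) (hj : v ∈ B j) : i = j := by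
  by_contra h
  exact Set.disjoint_left.1 (O.disj i j h) hi hj

theorem r_ne {i j : ZMod 4} (h : i ≠ j) : r i ≠ r j := fun e => by
  have h1 := O.end2 i
  rw [e] at h1
  exact h (O.uniq h1 (O.end2 j))

/-- the two ends of a mark are in no common class -/
theorem r_not_same {k i : ZMod 4} (h1 : (r k).1 ∈ B i) (h2 : (r k).2 ∈ B i) : False := by
  have e1 := O.uniq h1 (O.end1 k)
  have e2 := O.uniq h2 (O.end2 k)
  have e3 : k - 1 = k := e1.symm.trans e2
  have : ∀ k : ZMod 4, k - 1 ≠ k := by decide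
  exact this k e3

theorem hull_cls {a b : ℂ} (h : hullE S a b) : (∃ i, a ∈ B i) ∧ ∃ i, b ∈ B i := by
  rcases O.hull a b h with ⟨k, hk⟩ | ⟨i, h1, h2⟩
  · have e1 : a = (r k).1 := by rw [hk]
    have e2 : b = (r k).2 := by rw [hk]
    exact ⟨⟨_, e1 ▸ O.end1 k⟩, ⟨_, e2 ▸ O.end2 k⟩⟩
  · exact ⟨⟨i, h1⟩, ⟨i, h2⟩⟩

theorem ex0 : O.N.ex 0 = r 0 := rfl
theorem ex1 : O.N.ex 1 = r 2 := by
  show (if (1 : ZMod 3) = 0 then r 0 else if (1 : ZMod 3) = 1 then r 2 else r 3) = r 2
  rw [if_neg (by decide), if_pos rfl]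
theorem ex2 : O.N.ex 2 = r 3 := by
  show (if (2 : ZMod 3) = 0 then r 0 else if (2 : ZMod 3) = 1 then r 2 else r 3) = r 3
  rw [if_neg (by decide), if_neg (by decide)]


theorem mem_exS {p : ℂ × ℂ} : p ∈ O.N.exS ↔ ∃ k : ZMod 4, k ≠ 1 ∧ r k = p := by
  constructor
  · rintro ⟨k, hk⟩
    have h3 : ∀ k : ZMod 3, k = 0 ∨ k = 1 ∨ k = 2 := by decide
    rcases h3 k with rfl | rfl | rfl
    · rw [O.ex0] at hk; exact ⟨0, by decide, hk⟩
    · rw [O.ex1] at hk; exact ⟨2, by decide, hk⟩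
    · rw [O.ex2] at hk; exact ⟨3, by decide, hk⟩
  · rintro ⟨k, h1, hk⟩
    have h4 : ∀ k : ZMod 4, k = 0 ∨ k = 1 ∨ k = 2 ∨ k = 3 := by decide
    rcases h4 k with rfl | rfl | rfl | rfl
    · exact ⟨0, by rw [O.ex0]; exact hk⟩
    · exact absurd rfl h1
    · exact ⟨1, by rw [O.ex1]; exact hk⟩
    · exact ⟨2, by rw [O.ex2]; exact hk⟩

/-- an edge inside one class is no mark -/
theorem not_exS {a b : ℂ} {i : ZMod 4} (ha : a ∈ B i) (hb : b ∈ B i) : (a, b) ∉ O.N.exS := by
  rw [O.mem_exS]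
  rintro ⟨k, -, hk⟩
  apply O.r_not_same (k := k) (i := i)
  · rw [hk]; exact ha
  · rw [hk]; exact hb

/-! ### order of the marks -/

variable {n : ℕ} {w : ℤ → ℂ} {m : ℤ → ℤ}

/-- along the hull, as long as there is no mark, the class is constant -/
theorem run (H : HullCyc S n w) {i : ZMod 4} {a b : ℤ} (hab : a ≤ b) (ha : w a ∈ B i)
    (h : ∀ j, a ≤ j → j < b → ∀ k, r k ≠ hm w j) : w b ∈ B i := by
  obtain ⟨q, rfl⟩ := Int.le.dest hab
  induction q with
  | zero => simpa using ha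
  | succ q ih =>
    have h1 := ih (by linarith) (fun j h1 h2 => h j h1 (by push_cast; linarith))
    rcases O.hull _ _ (H.edge (a + q)) with ⟨k, hk⟩ | ⟨l, h2, h3⟩
    · exact absurd hk (h (a + q) (by linarith) (by push_cast; linarith) k)
    · have : l = i := O.uniq h2 h1
      subst this
      have e : a + ((q + 1 : ℕ) : ℤ) = a + q + 1 := by push_cast; ring
      rw [e]
      exact h3

/-- the next mark -/
theorem next (H : HullCyc S n w) {k : ZMod 4} {j J : ℤ} {l : ZMod 4} (hj : r k = hm w j)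
    (hJ : r l = hm w J) (hjJ : j < J) : ∃ j', j < j' ∧ j' ≤ J ∧ r (k + 1) = hm w j' := by
  have hex : ∃ q : ℕ, ∃ l, r l = hm w (j + 1 + q) := by
    refine ⟨(J - (j + 1)).toNat, l, ?_⟩
    rw [Int.toNat_of_nonneg (by omega)]
    rw [show j + 1 + (J - (j + 1)) = J by ring]
    exact hJ
  obtain ⟨l', hl'⟩ := Nat.find_spec hex
  set q := Nat.find hex with hq
  have hmin : ∀ q', q' < q → ∀ l, r l ≠ hm w (j + 1 + q') := by
    intro q' h l h'
    exact Nat.find_min hex h ⟨l, h'⟩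
  have h0 : w (j + 1) ∈ B k := by
    have := O.end2 k
    rw [hj] at this
    exact this
  have h1 : w (j + 1 + q) ∈ B k := by
    refine O.run H (by omega) h0 ?_
    intro i h2 h3 l h4
    refine hmin (i - (j + 1)).toNat (by omega) l ?_
    rw [Int.toNat_of_nonneg (by omega), show j + 1 + (i - (j + 1)) = i by ring]
    exact h4
  have h2 := O.end1 l'
  rw [hl'] at h2
  have h3 : l' - 1 = k := O.uniq h2 h1
  have h4 : l' = k + 1 := by rw [← h3]; ring
  refine ⟨j + 1 + q, by omega, ?_, by rw [← h4]; exact hl'⟩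
  by_contra hc
  push Not at hc
  have := hmin (J - (j + 1)).toNat (by omega) l
  rw [Int.toNat_of_nonneg (by omega), show j + 1 + (J - (j + 1)) = J by ring] at this
  exact this hJ

theorem hm_per (H : HullCyc S n w) (j : ℤ) : hm w (j + n) = hm w j := by
  unfold hm
  rw [H.per, show j + (n : ℤ) + 1 = j + 1 + n by ring, H.per]

/-- **positions of the four marks** -/
theorem pos4 (H : HullCyc S n w) : ∃ j0 j1 j2 j3 : ℤ, j0 < j1 ∧ j1 < j2 ∧ j2 < j3 ∧
    j3 < j0 + n ∧ r 0 = hm w j0 ∧ r 1 = hm w j1 ∧ r 2 = hm w j2 ∧ r 3 = hm w j3 := by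
  have hn : (0 : ℤ) < n := by exact_mod_cast H.pos
  obtain ⟨j0, -, -, a1, a2⟩ := H.all _ _ (O.hr 0)
  have e0 : r 0 = hm w j0 := Prod.ext a1.symm a2.symm
  have e0' : r 0 = hm w (j0 + n) := by rw [hm_per O H]; exact e0
  obtain ⟨j1, h1, h1', e1⟩ := O.next H e0 e0' (by linarith)
  have n1 : j1 ≠ j0 + n := by
    rintro rfl
    exact O.r_ne (by decide : (0 : ZMod 4) + 1 ≠ 0) (e1.trans e0'.symm)
  obtain ⟨j2, h2, h2', e2⟩ := O.next H e1 e0' (lt_of_le_of_ne h1' n1)
  have n2 : j2 ≠ j0 + n := by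
    rintro rfl
    exact O.r_ne (by decide : (0 : ZMod 4) + 1 + 1 ≠ 0) (e2.trans e0'.symm)
  obtain ⟨j3, h3, h3', e3⟩ := O.next H e2 e0' (lt_of_le_of_ne h2' n2)
  have n3 : j3 ≠ j0 + n := by
    rintro rfl
    exact O.r_ne (by decide : (0 : ZMod 4) + 1 + 1 + 1 ≠ 0) (e3.trans e0'.symm)
  exact ⟨j0, j1, j2, j3, h1, h2, h3, lt_of_le_of_ne h3' n3, e0, e1, e2, e3⟩

theorem card3 : 3 ≤ S.card := by
  obtain ⟨⟨c, hc⟩, -⟩ := O.hr 0
  obtain ⟨h1, h2, h3, h4, -⟩ := mem_delT.1 hc
  have n1 : (r 0).1 ≠ (r 0).2 := (g1 S O.gp).2.2 _ _ _ hc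
  have n2 : (r 0).2 ≠ c := (g1 S O.gp).2.2 _ _ _ ((g1 S O.gp).1 _ _ _ hc)
  have n3 : c ≠ (r 0).1 := (g1 S O.gp).2.2 _ _ _ ((g1 S O.gp).1 _ _ _ ((g1 S O.gp).1 _ _ _ hc))
  have h5 : ({(r 0).1, (r 0).2, c} : Finset ℂ) ⊆ S := by
    intro x hx
    simp only [Finset.mem_insert, Finset.mem_singleton] at hx
    rcases hx with rfl | rfl | rfl
    · exact h1
    · exact h2
    · exact h3
  have h6 : ({(r 0).1, (r 0).2, c} : Finset ℂ).card = 3 :=
    Finset.card_eq_three.2 ⟨_, _, _, n1, n3.symm, n2, rfl⟩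
  rw [← h6]
  exact Finset.card_le_card h5

/-- **the network of a quad is a network** -/
theorem hnet : HNet S O.N where
  gp := O.gp
  tri := rfl
  hex := by
    intro k
    have h3 : ∀ k : ZMod 3, k = 0 ∨ k = 1 ∨ k = 2 := by decide
    rcases h3 k with rfl | rfl | rfl
    · rw [O.ex0]; exact O.hr 0
    · rw [O.ex1]; exact O.hr 2
    · rw [O.ex2]; exact O.hr 3
  live := by
    intro k
    have key : ∀ k, r k ∉ O.N.kl := by
      intro k hk
      obtain ⟨i, h1, h2⟩ := hk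
      exact O.r_not_same h1 h2
    have h3 : ∀ k : ZMod 3, k = 0 ∨ k = 1 ∨ k = 2 := by decide
    rcases h3 k with rfl | rfl | rfl
    · rw [O.ex0]; exact key 0
    · rw [O.ex1]; exact key 2
    · rw [O.ex2]; exact key 3
  ccw := by
    obtain ⟨n, w, H⟩ := hull_cycle O.gp O.card3
    obtain ⟨j0, j1, j2, j3, h1, h2, h3, h4, e0, e1, e2, e3⟩ := O.pos4 H
    rw [O.ex0, O.ex1, O.ex2, e0, e2, e3]
    exact Planarx54.mid_pos H (by linarith) h3 h4

theorem pp0 (Pm : Sidesx697.Pos O.N n w m) : r 0 = hm w (m 0) := by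
  have e := Pm.ex 0
  rw [Int.cast_zero, O.ex0] at e
  exact e

theorem pp1 (Pm : Sidesx697.Pos O.N n w m) : r 2 = hm w (m 1) := by
  have e := Pm.ex 1
  rw [Int.cast_one, O.ex1] at e
  exact e

theorem pp2 (Pm : Sidesx697.Pos O.N n w m) : r 3 = hm w (m 2) := by
  have e := Pm.ex 2
  rw [show (((2 : ℤ)) : ZMod 3) = 2 from rfl, O.ex2] at e
  exact e

/-- the mark `1` lies between the marks `0` and `2` -/
theorem pos1 (H : HullCyc S n w) (Pm : Sidesx697.Pos O.N n w m) :
    ∃ j1, m 0 < j1 ∧ j1 < m 1 ∧ r 1 = hm w j1 := by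
  have m01 : m 0 < m 1 := Pm.mono (by norm_num)
  obtain ⟨j1, h1, h2, e1⟩ := O.next H (O.pp0 Pm) (O.pp1 Pm) m01
  refine ⟨j1, h1, lt_of_le_of_ne h2 ?_, e1⟩
  rintro rfl
  exact O.r_ne (by decide : (0 : ZMod 4) + 1 ≠ 2) (e1.trans (O.pp1 Pm).symm)

/-- dead edges of a class are walls -/
theorem wall_of {a b : ℂ} {i : ZMod 4} (ha : a ∈ B i) (hb : b ∈ B i) (h : Adj S a b) :
    Sidesx697.Wall O.N a b :=
  ⟨(mem_E O.hnet.tri).2 h, O.not_exS ha hb, O.not_exS hb ha, Or.inl ⟨i, ha, hb⟩⟩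

theorem free (H : HullCyc S n w) (Pm : Sidesx697.Pos O.N n w m) : Free S O.N V where
  sub := fun v hv => ((O.inn v).1 hv).1
  live := by
    rintro a ha b _ ⟨i, h1, h2⟩
    exact ((O.inn a).1 ha).2 i h1
  nh := by
    intro a ha b
    have ha' := ((O.inn a).1 ha).2
    constructor
    · intro h
      obtain ⟨i, hi⟩ := (O.hull_cls h).1
      exact ha' i hi
    · intro h
      obtain ⟨i, hi⟩ := (O.hull_cls h).2
      exact ha' i hi
  out := by
    intro v hv hvI
    have : ∃ i, v ∈ B i := by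
      by_contra hc
      push Not at hc
      exact hvI ((O.inn v).2 ⟨hv, hc⟩)
    obtain ⟨i, hi⟩ := this
    have hcon : Relation.ReflTransGen (Sidesx697.Wall O.N) (r i).2 v := by
      have h1 := O.con i _ (O.end2 i) v hi
      refine Relation.ReflTransGen.mono ?_ _ _ h1
      rintro a b ⟨h2, h3, h4⟩
      exact O.wall_of h2 h3 h4
    have h4 : ∀ k : ZMod 4, k = 0 ∨ k = 1 ∨ k = 2 ∨ k = 3 := by decide
    rcases h4 i with rfl | rfl | rfl | rfl
    · refine ⟨0, ?_⟩
      unfold Sidesx697.Side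
      rw [O.ex0]
      exact hcon
    · refine ⟨0, ?_⟩
      obtain ⟨j1, h1, h2, h3⟩ := O.pos1 H Pm
      have hT := O.hnet.tri
      have hn : (0 : ℤ) < n := by exact_mod_cast H.pos
      have p0 := O.pp0 Pm
      have m12 : m 1 < m 2 := Pm.mono (by norm_num)
      have m23 : m 2 < m 0 + n := by
        rw [← Pm.per 0]
        exact Pm.mono (by norm_num)
      have key : ∀ q : ℕ, m 0 + 1 + q ≤ m 1 → Sidesx697.Side O.N 0 (w (m 0 + 1 + q)) := by
        intro q
        induction q with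
        | zero =>
          intro _
          unfold Sidesx697.Side
          rw [O.ex0, p0]
          simp only [hm, Nat.cast_zero, add_zero]
          exact Relation.ReflTransGen.refl
        | succ q ih =>
          intro hq
          push_cast at hq
          have h5 := ih (by linarith)
          refine Relation.ReflTransGen.tail h5 ?_
          have e : m 0 + 1 + ((q + 1 : ℕ) : ℤ) = m 0 + 1 + q + 1 := by push_cast; ring
          rw [e]
          have hh := H.edge (m 0 + 1 + q)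
          have hx : (w (m 0 + 1 + q), w (m 0 + 1 + q + 1)) ∉ O.N.exS := by
            rintro ⟨k, hk⟩
            have h3 : ∀ k : ZMod 3, k = 0 ∨ k = 1 ∨ k = 2 := by decide
            have e0 := Pm.ex 0
            have e1 := Pm.ex 1
            have e2 := Pm.ex 2
            simp only [Int.cast_zero, Int.cast_one, Int.cast_ofNat] at e0 e1 e2
            rcases h3 k with rfl | rfl | rfl
            · rw [e0] at hk
              exact hm_ne H (by linarith) (by linarith) hk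
            · rw [e1] at hk
              exact hm_ne H (by linarith) (by linarith) hk.symm
            · rw [e2] at hk
              exact hm_ne H (by linarith) (by linarith) hk.symm
          refine ⟨(mem_E hT).2 (adj_of_hull hh), hx, ?_, Or.inr (Or.inl ?_)⟩
          · intro h'
            exact hullE_asymm hh (exS_hull O.hnet h')
          · intro c
            rw [hT]
            exact hh.2 c
      have h6 := key (j1 - m 0).toNat (by rw [Int.toNat_of_nonneg (by linarith)]; linarith)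
      rw [Int.toNat_of_nonneg (by linarith)] at h6
      have e : m 0 + 1 + (j1 - m 0) = j1 + 1 := by ring
      rw [e] at h6
      have h7 : (r 1).2 = w (j1 + 1) := by rw [h3]; rfl
      rw [h7] at hcon
      exact Relation.ReflTransGen.trans h6 hcon
    · refine ⟨1, ?_⟩
      unfold Sidesx697.Side
      rw [O.ex1]
      exact hcon
    · refine ⟨2, ?_⟩
      unfold Sidesx697.Side
      rw [O.ex2]
      exact hcon

/-! ### the colouring -/

omit O in
/-- the sites of the classes `0` and `2` -/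
def B02 (S : Finset ℂ) (B : ZMod 4 → Set ℂ) : Finset ℂ := S.filter fun v => v ∈ B 0 ∨ v ∈ B 2

theorem mem_B02 {v : ℂ} : v ∈ B02 S B ↔ v ∈ B 0 ∨ v ∈ B 2 := by
  unfold B02
  rw [Finset.mem_filter]
  constructor
  · exact fun h => h.2
  · intro h
    exact ⟨by rcases h with h | h; exacts [O.sub _ h, O.sub _ h], h⟩

theorem B02_cls {v : ℂ} {i : ZMod 4} (h : v ∈ B i) : v ∈ B02 S B ↔ (i = 0 ∨ i = 2) := by
  rw [O.mem_B02]
  constructor
  · rintro (h1 | h1)
    · exact Or.inl (O.uniq h h1)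
    · exact Or.inr (O.uniq h h1)
  · rintro (rfl | rfl)
    · exact Or.inl h
    · exact Or.inr h

theorem hdd {p : ℂ × ℂ} : p ∈ DD O.N (r 1) ↔ ∃ k, r k = p := by
  constructor
  · rintro (h | h)
    · obtain ⟨k, -, hk⟩ := O.mem_exS.1 h
      exact ⟨k, hk⟩
    · exact ⟨1, h.symm⟩
  · rintro ⟨k, hk⟩
    by_cases h1 : k = 1
    · right
      rw [← hk, h1]
      rfl
    · left
      exact O.mem_exS.2 ⟨k, h1, hk⟩

theorem r1_exS : r 1 ∉ O.N.exS := by
  rw [O.mem_exS]
  rintro ⟨k, h1, hk⟩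
  exact O.r_ne h1 hk

theorem px : PX S O.N (r 1) ∅ := PX.empty (O.hr 1) O.r1_exS

/-- the boundary colouring is valid -/
theorem B02_VC : B02 S B ∈ VC S O.N (r 1) ∅ := by
  rw [PX.mem_VC]
  have same : ∀ {a b : ℂ} {i : ZMod 4}, a ∈ B i → b ∈ B i →
      blk (B02 S B) a = blk (B02 S B) b := by
    intro a b i ha hb
    unfold blk
    rw [decide_eq_decide, O.B02_cls ha, O.B02_cls hb]
  refine ⟨Finset.filter_subset _ _, ⟨?_, ?_, ?_⟩, by simp⟩
  · intro a b hab hk _ _
    obtain ⟨i, h1, h2⟩ := hk.1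
    exact same h1 h2
  · intro a b hab hn
    rcases O.hull a b hab with ⟨k, hk⟩ | ⟨i, h1, h2⟩
    · exact absurd (O.hdd.2 ⟨k, hk⟩) hn
    · exact same h1 h2
  · intro a b hab
    obtain ⟨k, hk⟩ := O.hdd.1 hab
    have h1 := O.end1 k
    have h2 := O.end2 k
    rw [hk] at h1 h2
    unfold blk
    rw [ne_eq, decide_eq_decide, O.B02_cls h1, O.B02_cls h2]
    have : ∀ k : ZMod 4, ¬ ((k - 1 = 0 ∨ k - 1 = 2) ↔ (k = 0 ∨ k = 2)) := by decide
    exact this k

theorem hj_ne : (O.N.hj (r 1).1 (r 1).2).Nonempty := by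
  have h1 := O.B02_VC
  unfold VC at h1
  have h2 := setJ_mem O.gp O.hnet.tri (O.px.hD O.hnet) klx_symm (Finset.mem_filter.1 h1).1
  have hkl : klx O.N ∅ = O.N.kl := by
    ext p
    simp [klx]
  rw [hkl] at h2
  exact ⟨_, h2⟩

/-- chain inside the boundary class -/
theorem cls_chn {i : ZMod 4} {σ : ℂ → Bool} (hσ : ∀ a ∈ B i, ∀ b ∈ B i, σ a = σ b)
    {a b : ℂ} (ha : a ∈ B i) (hb : b ∈ B i) : Chn S σ a b := by
  refine Relation.ReflTransGen.mono ?_ _ _ (O.con i a ha b hb)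
  rintro x y ⟨h1, h2, h3⟩
  exact ⟨h3, hσ x h1 y h2⟩

omit O in
/-- chain of sites of `T` from the class `i` to the class `i + 2` -/
def Crs (S : Finset ℂ) (B : ZMod 4 → Set ℂ) (T : Set ℂ) (i : ZMod 4) : Prop :=
  ∃ a ∈ B i, ∃ b ∈ B (i + 2), Relation.ReflTransGen
    (fun x y => Adj S x y ∧ (y ∈ T ∨ y ∈ B i ∨ y ∈ B (i + 2))) a b

/-- **chain of colour = crossing** -/
theorem chn_iff {i : ZMod 4} {T C : Finset ℂ}
    (hB : ∀ v ∈ S, v ∈ C ↔ v ∈ T ∨ v ∈ B i ∨ v ∈ B (i + 2)) {a b : ℂ}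
    (ha : a ∈ B i) (hb : b ∈ B (i + 2)) :
    Chn S (blk C) a b ↔ Crs S B (T : Set ℂ) i := by
  have haB : a ∈ C := (hB a (O.sub _ ha)).2 (Or.inr (Or.inl ha))
  constructor
  · intro h
    refine ⟨a, ha, b, hb, ?_⟩
    clear hb
    induction h with
    | refl => exact Relation.ReflTransGen.refl
    | tail h1 h2 ih =>
      rename_i x y
      refine Relation.ReflTransGen.tail ih ⟨h2.1, ?_⟩
      have h3 : blk C a = blk C y := (Chn.col h1).trans h2.2
      have h4 : y ∈ C := by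
        unfold blk at h3
        rw [decide_eq_decide] at h3
        exact h3.1 haB
      have h5 := (hB y h2.1.mem.2).1 h4
      rcases h5 with h5 | h5 | h5
      · exact Or.inl (by exact_mod_cast h5)
      · exact Or.inr (Or.inl h5)
      · exact Or.inr (Or.inr h5)
  · rintro ⟨a', ha', b', hb', h⟩
    have ca : ∀ x ∈ B i, ∀ y ∈ B i, blk C x = blk C y := by
      intro x hx y hy
      unfold blk
      rw [decide_eq_decide]
      exact ⟨fun _ => (hB y (O.sub _ hy)).2 (Or.inr (Or.inl hy)),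
        fun _ => (hB x (O.sub _ hx)).2 (Or.inr (Or.inl hx))⟩
    have cb : ∀ x ∈ B (i + 2), ∀ y ∈ B (i + 2), blk C x = blk C y := by
      intro x hx y hy
      unfold blk
      rw [decide_eq_decide]
      exact ⟨fun _ => (hB y (O.sub _ hy)).2 (Or.inr (Or.inr hy)),
        fun _ => (hB x (O.sub _ hx)).2 (Or.inr (Or.inr hx))⟩
    have h1 : Chn S (blk C) a' b' ∧ b' ∈ C := by
      clear hb'
      induction h with
      | refl => exact ⟨Chn.refl _ _, (hB a' (O.sub _ ha')).2 (Or.inr (Or.inl ha'))⟩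
      | tail _ h2 ih =>
        rename_i x y _
        have h3 : Adj S x y := h2.1
        have h4 : y ∈ C := by
          rw [hB y h3.mem.2]
          rcases h2.2 with h5 | h5 | h5
          · exact Or.inl (by exact_mod_cast h5)
          · exact Or.inr (Or.inl h5)
          · exact Or.inr (Or.inr h5)
        refine ⟨ih.1.trans (Chn.single h3 ?_), h4⟩
        unfold blk
        rw [decide_eq_decide]
        exact ⟨fun _ => h4, fun _ => ih.2⟩
    exact ((O.cls_chn ca ha ha').trans h1.1).trans (O.cls_chn cb hb' hb)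

theorem inn_notB {v : ℂ} (hv : v ∈ V) : v ∉ B02 S B := by
  rw [O.mem_B02]
  rintro (h | h)
  · exact ((O.inn v).1 hv).2 _ h
  · exact ((O.inn v).1 hv).2 _ h

/-- chains of the colour `B02 ∪ T` -/
theorem chn0 {T : Finset ℂ} {a b : ℂ} (ha : a ∈ B 0) (hb : b ∈ B 2) :
    Chn S (blk (B02 S B ∪ T)) a b ↔ Crs S B (T : Set ℂ) 0 := by
  have e : (0 : ZMod 4) + 2 = 2 := by decide
  refine O.chn_iff ?_ ha (e ▸ hb)
  intro v _
  rw [Finset.mem_union, O.mem_B02, e]
  tauto

/-- chains of the other colour -/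
theorem chn1 {T : Finset ℂ} (hT : T ⊆ V) {a b : ℂ} (ha : a ∈ B 1) (hb : b ∈ B 3) :
    Chn S (blk (B02 S B ∪ T)) a b ↔ Crs S B ((V \ T : Finset ℂ) : Set ℂ) 1 := by
  rw [← chn_compl]
  have e : (1 : ZMod 4) + 2 = 3 := by decide
  refine O.chn_iff ?_ ha (e ▸ hb)
  intro v hv
  rw [e, Finset.mem_sdiff, Finset.mem_union, Finset.mem_sdiff]
  by_cases hin : v ∈ V
  · have h1 := O.inn_notB hin
    have h2 := ((O.inn v).1 hin).2
    have h3 := h2 1
    have h4 := h2 3
    tauto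
  · have h1 : v ∉ T := fun h' => hin (hT h')
    have h2 : ∃ i, v ∈ B i := by
      by_contra hc
      push Not at hc
      exact hin ((O.inn v).2 ⟨hv, hc⟩)
    obtain ⟨i, hi⟩ := h2
    have h3 := O.B02_cls hi
    have h4 : v ∈ B 1 ↔ i = 1 := ⟨fun h => O.uniq hi h, fun h => h ▸ hi⟩
    have h5 : v ∈ B 3 ↔ i = 3 := ⟨fun h => O.uniq hi h, fun h => h ▸ hi⟩
    rw [h3, h4, h5]
    have h6 : ∀ i : ZMod 4, (¬ (i = 0 ∨ i = 2)) ↔ (i = 1 ∨ i = 3) := by decide
    have := h6 i
    tauto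

/-- **black chain `B 0 - B 2` iff no white chain `B 1 - B 3`** -/
theorem xor {T : Finset ℂ} (hT : T ⊆ V) :
    Crs S B (T : Set ℂ) 0 ↔ ¬ Crs S B ((V \ T : Finset ℂ) : Set ℂ) 1 := by
  obtain ⟨n, w, H⟩ := hull_cycle O.gp O.card3
  obtain ⟨m, Pm⟩ := Sidesx697.exists_pos O.hnet H
  obtain ⟨j1, q1, q2, hf⟩ := O.pos1 H Pm
  have hF := O.free H Pm
  have e0 := O.pp0 Pm
  have e1 := O.pp1 Pm
  have e2 := O.pp2 Pm
  have a0 : w j1 ∈ B 0 := by
    have := O.end1 1
    rw [hf] at this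
    exact this
  have a2 : w (m 2) ∈ B 2 := by
    have := O.end1 3
    rw [e2] at this
    exact this
  have a1 : w (m 1) ∈ B 1 := by
    have := O.end1 2
    rw [e1] at this
    exact this
  have a3 : w (m 0) ∈ B 3 := by
    have := O.end1 0
    rw [e0] at this
    exact this
  have hBV := O.B02_VC
  rw [hf] at hBV
  have hpx := O.px
  rw [hf] at hpx
  have hsd : B02 S B \ V = B02 S B := by
    ext v
    rw [Finset.mem_sdiff]
    exact ⟨fun h => h.1, fun h => ⟨h, fun h' => O.inn_notB h' h⟩⟩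
  have valid : B02 S B ∪ T ∈ VC S O.N (hm w j1) ∅ := by
    have := free_mem O.hnet hpx hF hBV hT
    rw [hsd] at this
    exact this
  rw [← O.chn0 a0 a2, ← O.chn1 hT a1 a3]
  have := chn_xor (i := 0) O.hnet H Pm q1 q2 valid
  simpa using this

omit O in
/-- probability of a chain `B i - B (i + 2)` : fair colours of the inner sites -/
def pr (S V : Finset ℂ) (B : ZMod 4 → Set ℂ) (i : ZMod 4) : ℝ :=
  ((V.powerset.filter fun T : Finset ℂ => Crs S B (T : Set ℂ) i).card : ℝ) / 2 ^ V.card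

end Qd

end Crest.Agent.R143.Qdx54
end
end

-- ▼ part R143/Qd2_54
section

/-!
# Row 143 (S0194): combinatorial quads, file 2 (helper54)

* `exists_box` : the network of a quad is a `Box`, `p = Qd.pr S V Z 0`
* `far_two`, `tj_of_lk`, `lk_f`
* `ep` : **energy principle**: `3 / 2 ≤ √3 * pr + √3 * √(∑ c²)` for every family of walks from the
  class `0` to the class `2`, from the frame bound (no E3)
-/

set_option autoImplicit false
set_option linter.all false

noncomputable section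

open scoped Classical

namespace Crest.Agent.R143.Qd2x54

open Set
open Crest.Agent.R143.B0x346 Crest.Agent.R143.B0Dx346 Crest.Agent.R143.DelGx806
  Crest.Agent.R143.DelRx806 Crest.Agent.R143.Oscx63 Crest.Agent.R143.Rswx63
  Crest.Agent.R143.Circx63 Crest.Agent.R143.Famx930
  Crest.Agent.R143.Crsx117 Crest.Agent.R143.JCardx872
open Crest.Agent.R143.JCol2x54 (HullM join_col isCol_of_join IsCol mem_E)
open Crest.Agent.R143.JColx54 (delT_rot)
open Crest.Agent.R143.Ex0x922 (Lk LAdj)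
open Crest.Agent.R143.RB1x54 (Box WallF)
open Crest.Agent.R143.RB2x54 (rot3 Vt vt_of_side net0 extract lk_conn norm_om_ge)
open Crest.Agent.R143.Scalx63 (dm)
open Crest.Agent.R143.Qdx54

variable {S V : Finset ℂ} {Z : ZMod 4 → Set ℂ} {r : ZMod 4 → ℂ × ℂ}

/-! ### the box of a quad -/

theorem exists_box (O : Qd S V Z r) : ∃ (n : ℕ) (w : ℤ → ℂ) (i0 i1 i2 i3 : ℤ),
    ∃ B : Box S O.N n w i0 i1 i2 i3, r 1 = hm w i1 ∧ r 0 = hm w i0 ∧
      (∀ v ∈ Z 0, v ∈ B.A) ∧ Box.p O.N w i1 = Qd.pr S V Z 0 := by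
  obtain ⟨n, w, H⟩ := hull_cycle O.gp (Sidesx697.card3 O.hnet)
  obtain ⟨m, Pm⟩ := Sidesx697.exists_pos O.hnet H
  obtain ⟨j1, q1, q2, hf⟩ := O.pos1 H Pm
  have hF := O.free H Pm
  have e0 := O.pp0 Pm
  have e1 := O.pp1 Pm
  have e2 := O.pp2 Pm
  have hM := m4_of H Pm (i := 0) q1 q2
  rw [zero_add, zero_add] at hM
  have h01 := hM.h01
  have h12 := hM.h12
  have h23 := hM.h23
  have h30 := hM.h30
  have f1 : (r 1).1 = w j1 := by rw [hf]; rfl
  have f2 : (r 1).2 = w (j1 + 1) := by rw [hf]; rfl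
  have a0 : w j1 ∈ Z 0 := by
    have := O.end1 1
    rw [f1] at this
    exact this
  -- the class is closed under walls
  have hclosed : ∀ u v, WallF S O.N (hm w j1) u v → u ∈ Z 0 → v ∈ Z 0 := by
    intro u v h hu
    have same : ∀ i, u ∈ Z i → v ∈ Z i → v ∈ Z 0 := by
      intro i h1 h2
      have := O.uniq h1 hu
      rw [← this]; exact h2
    rcases h.2.2.2.2.2 with h1 | h1 | h1
    · obtain ⟨i, h2, h3⟩ := h1
      exact same i h2 h3
    · rcases O.hull u v h1 with ⟨k, hk⟩ | ⟨i, h2, h3⟩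
      · exfalso
        by_cases hk1 : k = 1
        · rw [hk1, hf] at hk
          exact h.2.2.2.1 hk.symm
        · exact h.2.1 (O.mem_exS.2 ⟨k, hk1, hk⟩)
      · exact same i h2 h3
    · rcases O.hull v u h1 with ⟨k, hk⟩ | ⟨i, h2, h3⟩
      · exfalso
        by_cases hk1 : k = 1
        · rw [hk1, hf] at hk
          exact h.2.2.2.2.1 hk.symm
        · exact h.2.2.1 (O.mem_exS.2 ⟨k, hk1, hk⟩)
      · exact same i h3 h2
  have hA0 : ∀ v, v ∈ RB1x54.cls S O.N (hm w j1) (w j1) → v ∈ Z 0 := by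
    intro v hv
    have hv' : Relation.ReflTransGen (WallF S O.N (hm w j1)) (w j1) v := hv
    induction hv' with
    | refl => exact a0
    | tail h1 h2 ih => exact hclosed _ _ h2 (ih h1)
  -- no ray edge between two positions
  have nray : ∀ j, m 0 < j → j < m 0 + n → j ≠ j1 → j ≠ m 1 → j ≠ m 2 → ∀ k, r k ≠ hm w j := by
    intro j h1 h2 h3 h4 h5 k hk
    have key : ∀ i, m 0 ≤ i → i < m 0 + n → j ≠ i → hm w i ≠ hm w j := by
      intro i hi hi' hne
      rcases lt_or_gt_of_ne hne with h6 | h6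
      · exact (hm_ne H h6 (by linarith)).symm
      · exact hm_ne H h6 (by linarith)
    have h4' : ∀ k : ZMod 4, k = 0 ∨ k = 1 ∨ k = 2 ∨ k = 3 := by decide
    rcases h4' k with rfl | rfl | rfl | rfl
    · rw [e0] at hk; exact key _ le_rfl (by linarith) (by linarith) hk
    · rw [hf] at hk; exact key _ (by linarith) (by linarith) h3 hk
    · rw [e1] at hk; exact key _ (by linarith) (by linarith) h4 hk
    · rw [e2] at hk; exact key _ (by linarith) (by linarith) h5 hk
  have hout : ∀ k, j1 < k → k ≤ m 0 + n → ∃ i, i ≠ 0 ∧ w k ∈ Z i := by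
    intro k h1 h2
    rcases le_or_gt k (m 1) with h3 | h3
    · refine ⟨1, by decide, O.run H (a := j1 + 1) (by linarith) ?_ ?_⟩
      · have := O.end2 1
        rw [f2] at this
        exact this
      · intro j h4 h5
        exact nray j (by linarith) (by linarith) (by linarith) (by linarith) (by linarith)
    · rcases le_or_gt k (m 2) with h4 | h4
      · refine ⟨2, by decide, O.run H (a := m 1 + 1) (by linarith) ?_ ?_⟩
        · have := O.end2 2
          rw [e1] at this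
          exact this
        · intro j h5 h6
          exact nray j (by linarith) (by linarith) (by linarith) (by linarith) (by linarith)
      · refine ⟨3, by decide, O.run H (a := m 2 + 1) (by linarith) ?_ ?_⟩
        · have := O.end2 3
          rw [e2] at this
          exact this
        · intro j h5 h6
          exact nray j (by linarith) (by linarith) (by linarith) (by linarith) (by linarith)
  have hlive : hm w j1 ∉ O.N.kl := by
    intro h'
    rw [← hf] at h'
    obtain ⟨i, g1, g2⟩ := h'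
    exact O.r_not_same g1 g2
  have B : Box S O.N n w (m 0) j1 (m 1) (m 2) :=
    { net := O.hnet
      m4 := hM
      e0 := by rw [O.ex0, e0]
      e1 := by rw [O.ex1, e1]
      e2 := by rw [O.ex2, e2]
      live := hlive
      out := by
        intro k h1 h2 h3
        obtain ⟨i, hi, h4⟩ := hout k h1 h2
        exact hi (O.uniq h4 (hA0 _ h3)) }
  refine ⟨n, w, m 0, j1, m 1, m 2, B, hf, e0, ?_, ?_⟩
  · intro v hv
    have h1 := O.con 0 _ a0 v hv
    have h2 : Relation.ReflTransGen (WallF S O.N (hm w j1)) (w j1) v := by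
      refine Relation.ReflTransGen.mono ?_ _ _ h1
      rintro x y ⟨h3, h4, h5⟩
      exact B.wall_kill h5 ⟨0, h3, h4⟩
    exact h2
  · -- the crossing probability
    have hbx := O.end1 1
    have a2 : w (m 2) ∈ Z 2 := by
      have := O.end1 3
      rw [e2] at this
      exact this
    have hBV := O.B02_VC
    rw [hf] at hBV
    have hpx := O.px
    rw [hf] at hpx
    have hj := O.hj_ne
    rw [f1, f2] at hj
    have hnotin : ∀ v ∈ V, v ∉ Qd.B02 S Z := fun v hv => O.inn_notB hv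
    have hsd : Qd.B02 S Z \ V = Qd.B02 S Z := by
      ext v
      rw [Finset.mem_sdiff]
      exact ⟨fun h => h.1, fun h => ⟨h, fun h' => hnotin v h' h⟩⟩
    have hw0 : w j1 ∈ Qd.B02 S Z := O.mem_B02.2 (Or.inl a0)
    have p0 : Qd.pr S V Z 0 = crossP S (V) (Qd.B02 S Z) (w j1) (w (m 2)) := by
      unfold Qd.pr crossP crossT
      congr 2
      refine congrArg Finset.card (Finset.filter_congr ?_)
      intro T _
      exact (O.chn0 a0 a2).symm
    have hkl : klx O.N ∅ = O.N.kl := by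
      ext p
      simp [klx]
    obtain ⟨B0, g1, g2, g3, g4, g5⟩ := main O.hnet H Pm q1 q2 hpx hF
      (c := fun k => O.N.cnt (w j1) (w (j1 + 1)) k)
      (Hn := (O.N.hj (w j1) (w (j1 + 1))).card)
      (fun k => by
        rw [hkl]
        unfold Net.cnt Net.hj
        simp only [Finset.empty_subset, true_and]
        rfl)
      (by
        rw [hkl]
        unfold Net.hj
        simp only [Finset.empty_subset, Finset.filter_true]
        rfl)
      (Finset.card_pos.2 hj)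
    have hB0 : B0 = Qd.B02 S Z := by
      rw [← g4 _ hBV hw0, hsd]
    subst hB0
    rw [show (0 : ℤ) + 2 = 2 from rfl, ← p0] at g5
    have hHn : (0 : ℝ) < ((O.N.hj (w j1) (w (j1 + 1))).card : ℝ) := by
      exact_mod_cast Finset.card_pos.2 hj
    have hsum := Sidesx697.sum_cnt (J1x872.good_of_hnet O.hnet) (w j1) (w (j1 + 1)) 0
    set N := O.N with hN
    have o0 : omz ((0 : ℤ) : ZMod 3) = 1 := by
      rw [Int.cast_zero]
      exact Box.omz_zero
    have o1 : omz (((0 : ℤ) : ZMod 3) + 1) = om := by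
      rw [Int.cast_zero, zero_add]
      exact Box.omz_one
    have hfin : ∀ f : ZMod 3 → ℂ, ∑ k : ZMod 3, f k = f 0 + f 1 + f 2 := fun f =>
      Fin.sum_univ_three f
    have o2 : omz 2 = om ^ 2 := by
      unfold omz
      rw [show ZMod.val (2 : ZMod 3) = 2 from rfl]
    rw [hfin, o0, o1, Box.omz_zero, Box.omz_one, o2, mul_one, mul_one] at g5
    rw [show (0 : ZMod 3) + 1 = 1 from rfl, show (0 : ZMod 3) + 2 = 2 from rfl] at hsum
    set α0 : ℝ := (N.cnt (w j1) (w (j1 + 1)) 0 : ℝ) / ((N.hj (w j1) (w (j1 + 1))).card : ℝ) with hα0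
    set α1 : ℝ := (N.cnt (w j1) (w (j1 + 1)) 1 : ℝ) / ((N.hj (w j1) (w (j1 + 1))).card : ℝ) with hα1
    set α2 : ℝ := (N.cnt (w j1) (w (j1 + 1)) 2 : ℝ) / ((N.hj (w j1) (w (j1 + 1))).card : ℝ) with hα2
    have hs : α0 + α1 + α2 = 1 := by
      rw [hα0, hα1, hα2, ← add_div, ← add_div, div_eq_one_iff_eq hHn.ne']
      exact_mod_cast hsum
    have g6 : (α0 : ℂ) + α1 * om + α2 * om ^ 2 = ((1 - Qd.pr S V Z 0 : ℝ) : ℂ) + (Qd.pr S V Z 0 : ℂ) * om := by
      rw [← g5, hα0, hα1, hα2]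
      push_cast
      ring
    have him := congrArg Complex.im g6
    have hre := congrArg Complex.re g6
    have r1 := Oscx63.om_re
    have n1 : om.re * om.re + om.im * om.im = 1 := by
      rw [← Complex.normSq_apply, Complex.normSq_eq_norm_sq, Oscx63.norm_om]
      norm_num
    simp only [Complex.add_im, Complex.add_re, Complex.mul_im, Complex.mul_re, Complex.ofReal_re,
      Complex.ofReal_im, pow_two, zero_mul, add_zero, sub_zero, zero_add] at him hre
    rw [r1] at him hre n1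
    have hii : om.im ≠ 0 := by
      intro h0
      rw [h0] at n1
      norm_num at n1
    have h2 : α1 - α2 = Qd.pr S V Z 0 := by
      have : om.im * (α1 - α2 - Qd.pr S V Z 0) = 0 := by linarith
      rcases mul_eq_zero.1 this with h3 | h3
      · exact absurd h3 hii
      · linarith
    have h3 : om.im * om.im = 3 / 4 := by linarith
    rw [h3] at hre
    show α1 = Qd.pr S V Z 0
    linarith

/-- a triangle linked to triangles with vertices in the class `0` and in the class `2` is linked to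
the hull edge of the ray `1` -/
theorem lk_f (O : Qd S V Z r) {t s s' : ℂ × ℂ × ℂ} (hs : Lk O.N t s)
    (hs' : Lk O.N t s') {v v' : ℂ} (hv : v = s.1 ∨ v = s.2.1 ∨ v = s.2.2)
    (hv' : v' = s'.1 ∨ v' = s'.2.1 ∨ v' = s'.2.2) (h0 : v ∈ Z 0) (h2 : v' ∈ Z 2)
    (ht : t ∈ delT S) {x : ℂ} (hx : ((r 1).1, (r 1).2, x) ∈ delT S) :
    Lk O.N t ((r 1).1, (r 1).2, x) := by
  by_contra hcon
  have hS := O.gp
  set N := O.N with hN
  have hT : N.T = delT S := O.hnet.tri
  obtain ⟨n, w, i0, i1, i2, i3, B, r1, r0, hA, -⟩ := exists_box O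
  set g0 : ℂ → Bool := fun v => decide (v ∈ Z 0) with hg0
  have same : ∀ {a b : ℂ} {i : ZMod 4}, a ∈ Z i → b ∈ Z i → g0 a = g0 b := by
    intro a b i ha hb
    rw [hg0]
    simp only [decide_eq_decide]
    constructor
    · intro h
      rw [← O.uniq ha h]; exact hb
    · intro h
      rw [← O.uniq hb h]; exact ha
  set J : Finset (ℂ × ℂ) := N.E.filter fun p => g0 p.1 ≠ g0 p.2 ∧
    ∃ c, (p.1, p.2, c) ∈ delT S ∧ Lk N t (p.1, p.2, c) with hJ
  have mJ : ∀ a b, (a, b) ∈ J ↔ g0 a ≠ g0 b ∧ ∃ c, (a, b, c) ∈ delT S ∧ Lk N t (a, b, c) := by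
    intro a b
    rw [hJ, Finset.mem_filter]
    constructor
    · exact fun h => h.2
    · intro h
      refine ⟨?_, h⟩
      obtain ⟨-, c, hc, -⟩ := h
      rw [mem_E hT]
      exact Or.inl ⟨c, hc⟩
  -- hull edges in `J`
  have hullJ : ∀ a b, hullE S a b → (a, b) ∈ J → (a, b) = r 0 := by
    intro a b hab h
    obtain ⟨h1, c, h3, h4⟩ := (mJ a b).1 h
    rcases O.hull a b hab with ⟨k, hk⟩ | ⟨i, h5, h6⟩
    · have e1 := O.end1 k
      have e2 := O.end2 k
      rw [hk] at e1 e2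
      have h5 : k = 0 ∨ k = 1 := by
        by_contra hc
        push Not at hc
        apply h1
        have f1 : ¬ (a ∈ Z 0) := fun h => by
          have := O.uniq e1 h
          apply hc.2
          have h7 : ∀ k : ZMod 4, k - 1 = 0 → k = 1 := by decide
          exact h7 k this
        have f2 : ¬ (b ∈ Z 0) := fun h => hc.1 (O.uniq e2 h)
        rw [hg0]
        simp only [f1, f2, decide_false]
      rcases h5 with rfl | rfl
      · exact hk.symm
      · exfalso
        apply hcon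
        have hab' : ((r 1).1, (r 1).2) = (a, b) := by rw [← hk]
        rw [Prod.mk.injEq] at hab'
        rw [hab'.1, hab'.2] at hx ⊢
        have : c = x := N.uniq (by rw [hT]; exact h3) (by rw [hT]; exact hx)
        rw [← this]; exact h4
    · exact absurd (same h5 h6) h1
  have hr0 : hullE S (r 0).1 (r 0).2 := O.hr 0
  set D' : Set (ℂ × ℂ) := {p | p = r 0 ∧ p ∈ J} with hD'
  have hDh : ∀ a b, (a, b) ∈ D' → hullE S a b := by
    rintro a b ⟨h1, -⟩
    rw [← h1] at hr0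
    exact hr0
  have killg : ∀ a b, (a, b) ∈ N.kl → Crest.Agent.R143.JColx54.Adj S a b → g0 a = g0 b := by
    intro a b h1 h3
    obtain ⟨i, h4, h5⟩ := h1
    exact same h4 h5
  -- crossing an edge
  have cross : ∀ a b, (a, b) ∈ J → (∃ c, (b, a, c) ∈ delT S) → (b, a) ∈ J := by
    rintro a b h ⟨c', hc'⟩
    obtain ⟨h1, c, h3, h4⟩ := (mJ a b).1 h
    have hk : (a, b) ∉ N.kl := fun h5 => h1 (killg a b h5 (Or.inl ⟨c, h3⟩))
    refine (mJ b a).2 ⟨fun e => h1 e.symm, c', hc', h4.trans (Lk.of_adj ?_)⟩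
    exact ⟨a, b, c, c', by rw [hT]; exact h3, by rw [hT]; exact hc', Ex0x922.mem_rots_self _,
      Ex0x922.mem_rots_self _, hk⟩
  have key : ∀ a b, (a, b) ∈ J → (a, b) ∉ D' → (b, a) ∈ J := by
    intro a b h h'
    by_cases hh : ∃ c, (b, a, c) ∈ delT S
    · exact cross a b h hh
    · exfalso
      push Not at hh
      obtain ⟨h1, c, h3, h4⟩ := (mJ a b).1 h
      exact h' ⟨hullJ a b ⟨⟨c, h3⟩, hh⟩ h, h⟩
  have hJoin : IsJoin N.toTrg N.kl ∅ D' J := by
    refine ⟨Finset.filter_subset _ _, ?_, ?_, ?_, ?_, ?_⟩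
    · intro a b h1 h3
      exact ⟨fun h => key a b h h1, fun h => key b a h h3⟩
    · rintro a b ⟨h1, h3⟩
      refine ⟨h3, fun h4 => ?_⟩
      obtain ⟨-, c, h5, -⟩ := (mJ b a).1 h4
      have := hr0.2
      rw [← h1] at this
      exact this c h5
    · intro a b h1 h3
      rw [hT] at h1
      have h4 : (b, a) ∉ J := fun h => by
        obtain ⟨-, c, h5, -⟩ := (mJ b a).1 h
        exact h1 c h5
      exact ⟨fun h => h4 (key a b h h3), h4⟩
    · intro a b h1 h3 h4
      refine ⟨fun h => ?_, fun h => ?_⟩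
      · obtain ⟨h5, c, h6, -⟩ := (mJ a b).1 h
        exact h5 (killg a b h1 (Or.inl ⟨c, h6⟩))
      · obtain ⟨h5, c, h6, -⟩ := (mJ b a).1 h
        exact h5 (killg b a (N.klsym _ _ h1) (Or.inl ⟨c, h6⟩))
    · intro a b c h
      have hdt : (a, b, c) ∈ delT S := by rw [← hT]; exact h
      have hr1 := delT_rot hS hdt
      have hr2 := delT_rot hS hr1
      simp only [Set.mem_empty_iff_false, if_false]
      by_cases hl : Lk N t (a, b, c)
      · have m1 : (a, b) ∈ J ↔ g0 a ≠ g0 b := by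
          rw [mJ]; exact ⟨fun h => h.1, fun h => ⟨h, c, hdt, hl⟩⟩
        have m2 : (b, c) ∈ J ↔ g0 b ≠ g0 c := by
          rw [mJ]; exact ⟨fun h => h.1, fun h => ⟨h, a, hr1, hl.trans (Lk.of_rots (rot3 a b c).1)⟩⟩
        have m3 : (c, a) ∈ J ↔ g0 c ≠ g0 a := by
          rw [mJ]; exact ⟨fun h => h.1, fun h => ⟨h, b, hr2, hl.trans (Lk.of_rots (rot3 a b c).2)⟩⟩
        simp only [m1, m2, m3]
        generalize g0 a = p, g0 b = q, g0 c = r
        revert p q r
        decide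
      · have m1 : (a, b) ∉ J := by
          rw [mJ]
          rintro ⟨-, e, h5, h6⟩
          have := N.uniq h (by rw [hT]; exact h5)
          rw [← this] at h6
          exact hl h6
        have m2 : (b, c) ∉ J := by
          rw [mJ]
          rintro ⟨-, e, h5, h6⟩
          have := N.uniq (N.rot h) (by rw [hT]; exact h5)
          rw [← this] at h6
          exact hl (h6.trans (Lk.of_rots (rot3 b c a).2))
        have m3 : (c, a) ∉ J := by
          rw [mJ]
          rintro ⟨-, e, h5, h6⟩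
          have := N.uniq (N.rot (N.rot h)) (by rw [hT]; exact h5)
          rw [← this] at h6
          exact hl (h6.trans (Lk.of_rots (rot3 c a b).1))
        simp [m1, m2, m3]
  obtain ⟨χ, hχ⟩ := join_col hS hT (fun a b h => (hDh a b h).2) hJoin
  have hχc := isCol_of_join hT hDh hJoin hχ
  -- the hull
  have q30 := B.m4.h30
  have q0 := B.m4.h01
  have q1 := B.m4.h12
  have q2 := B.m4.h23
  have hullc : ∀ j, i0 + 1 ≤ j → j < i0 + n → χ (w j) = χ (w (j + 1)) := by
    intro j h1 h3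
    refine hχc.hull _ _ (B.m4.cyc.edge j) ?_
    rintro ⟨h4, -⟩
    rw [r0] at h4
    exact hm_ne B.m4.cyc (i := i0) (j := j) (by linarith) (by linarith) h4.symm
  have hullk : ∀ j, i0 + 1 ≤ j → j ≤ i0 + n → χ (w (i0 + 1)) = χ (w j) := fun j h1 h3 =>
    w_const h1 fun k h4 h5 => hullc k h4 (by linarith)
  have hD0 : D' = ∅ := by
    rw [Set.eq_empty_iff_forall_notMem]
    rintro p hp
    have h1 := hχc.mark p.1 p.2 hp
    obtain ⟨h3, -⟩ := hp
    rw [h3, r0] at h1
    apply h1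
    show χ (w i0) = χ (w (i0 + 1))
    rw [hullk (i0 + n) (by linarith) le_rfl, B.m4.cyc.per]
  -- all the classes have one colour
  have clsc : ∀ i, ∀ a ∈ Z i, ∀ b ∈ Z i, χ a = χ b := by
    intro i a ha b hb
    have h1 := O.con i a ha b hb
    clear hb
    induction h1 with
    | refl => rfl
    | @tail x y _ hxy ih =>
      rw [ih]
      obtain ⟨h3, h4, h5⟩ := hxy
      exact hχc.kill _ _ h5 ⟨i, h3, h4⟩ (by rw [hD0]; simp) (by rw [hD0]; simp)
  have hc0 : ∀ i a, a ∈ Z i → χ a = χ (w (i0 + 1)) := by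
    intro i a ha
    have h1 := clsc i a ha _ (O.end2 i)
    rw [h1]
    obtain ⟨k, h3, h4, h5, h6⟩ := B.m4.cyc.all _ _ (O.hr i)
    -- shift the position
    rw [← h6]
    have hn : (0 : ℤ) < n := by exact_mod_cast B.m4.cyc.pos
    have h7 := mod_per B.m4.cyc.pos B.m4.cyc.per (k + 1 - (i0 + 1))
    obtain ⟨q, hq1, hq2, hq3⟩ : ∃ q, i0 + 1 ≤ q ∧ q < i0 + 1 + n ∧ w q = w (k + 1) := by
      refine ⟨i0 + 1 + (k + 1 - (i0 + 1)) % n, by linarith [Int.emod_nonneg (k + 1 - (i0 + 1)) hn.ne'],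
        by linarith [Int.emod_lt_of_pos (k + 1 - (i0 + 1)) hn], ?_⟩
      have hper : ∀ i, (fun j => w (i0 + 1 + j)) (i + n) = (fun j => w (i0 + 1 + j)) i := by
        intro i
        show w (i0 + 1 + (i + n)) = w (i0 + 1 + i)
        rw [← add_assoc, B.m4.cyc.per]
      have := mod_per (w := fun j => w (i0 + 1 + j)) B.m4.cyc.pos hper (k + 1 - (i0 + 1))
      rw [this]
      congr 1
      ring
    rw [← hq3]
    exact (hullk q hq1 (by linarith)).symm
  -- the function `χ xor g0` is constant on the linked triangles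
  have tri1 : ∀ a b c, (a, b, c) ∈ delT S → Lk N t (a, b, c) → xor (χ a) (g0 a) = xor (χ b) (g0 b) := by
    intro a b c h hl
    have h1 := hχ a b (Or.inl ⟨c, h⟩)
    have h3 : ((a, b) ∈ J ∨ (b, a) ∈ J) ↔ g0 a ≠ g0 b := by
      constructor
      · rintro (h4 | h4)
        · exact ((mJ a b).1 h4).1
        · exact fun e => ((mJ b a).1 h4).1 e.symm
      · intro h4
        exact Or.inl ((mJ a b).2 ⟨h4, c, h, hl⟩)
    rw [h3] at h1
    revert h1
    generalize χ a = p, χ b = q, g0 a = r, g0 b = u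
    revert p q r u
    decide
  set ps : ℂ → Bool := fun v => xor (χ v) (g0 v) with hps
  have tri2 : ∀ s ∈ delT S, Lk N t s → ps s.2.1 = ps s.1 ∧ ps s.2.2 = ps s.1 := by
    rintro ⟨a, b, c⟩ h hl
    have h1 := tri1 a b c h hl
    have h3 := tri1 b c a (delT_rot hS h) (hl.trans (Lk.of_rots (rot3 a b c).1))
    exact ⟨h1.symm, (h1.trans h3).symm⟩
  have tri3 : ∀ s, Lk N t s → ps s.1 = ps t.1 ∧ s ∈ delT S := by
    intro s hs
    have hs2 : Lk N t s := hs
    induction hs with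
    | refl => exact ⟨rfl, ht⟩
    | @tail a b h1 h3 ih =>
      obtain ⟨ih1, ih2⟩ := ih h1
      have hb : b ∈ delT S := by
        rw [← hT]
        exact Lk.mem (N := N) (t := a) (Relation.ReflTransGen.single h3) (by rw [hT]; exact ih2)
      refine ⟨?_, hb⟩
      rw [← ih1]
      have ta := tri2 a ih2 h1
      have tb := tri2 b hb hs2
      rcases h3 with h3 | ⟨p, q, c, c', h4, h5, h6, h7, h8⟩
      · simp only [rots, Set.mem_insert_iff, Set.mem_singleton_iff] at h3
        rcases h3 with rfl | rfl | rfl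
        · rfl
        · exact ta.1
        · exact ta.2
      · simp only [rots, Set.mem_insert_iff, Set.mem_singleton_iff] at h6 h7
        have pa : ps p = ps a.1 := by
          rcases h6 with h6 | h6 | h6
          · rw [show p = a.1 from congrArg (fun t => t.1) h6]
          · rw [show p = a.2.1 from congrArg (fun t => t.1) h6]; exact ta.1
          · rw [show p = a.2.2 from congrArg (fun t => t.1) h6]; exact ta.2
        have pb : ps p = ps b.1 := by
          rcases h7 with h7 | h7 | h7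
          · rw [show p = b.2.1 from congrArg (fun t => t.2.1) h7]; exact tb.1
          · rw [show p = b.2.2 from congrArg (fun t => t.2.1) h7]; exact tb.2
          · rw [show p = b.1 from congrArg (fun t => t.2.1) h7]
        rw [← pa, pb]
  have e1 : ps v = ps t.1 := by
    obtain ⟨h1, h3⟩ := tri3 s hs
    have h4 := tri2 s h3 hs
    rcases hv with rfl | rfl | rfl
    · exact h1
    · rw [h4.1]; exact h1
    · rw [h4.2]; exact h1
  have e2 : ps v' = ps t.1 := by
    obtain ⟨h1, h3⟩ := tri3 s' hs'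
    have h4 := tri2 s' h3 hs'
    rcases hv' with rfl | rfl | rfl
    · exact h1
    · rw [h4.1]; exact h1
    · rw [h4.2]; exact h1
  have e3 : ps v = ps v' := e1.trans e2.symm
  rw [hps] at e3
  simp only at e3
  rw [hc0 0 v h0, hc0 2 v' h2] at e3
  have g1 : g0 v = true := by rw [hg0]; simpa using h0
  have g2 : g0 v' = false := by
    rw [hg0]
    simp only [decide_eq_false_iff_not]
    intro h
    have := O.uniq h h2
    exact absurd this (by decide)
  rw [g1, g2] at e3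
  revert e3
  generalize χ (w (i0 + 1)) = p
  revert p
  decide

/-- values at the class `2` -/
theorem far_two (O : Qd S V Z r) {e : ℂ × ℂ} (he : e.1 ∈ Z 2 ∨ e.2 ∈ Z 2)
    {a b c : ℂ} (ht : (a, b, c) ∈ delT S) (hab : e = (a, b) ∨ e = (b, a))
    (hk : (a, b) ∉ O.N.kl) (hne : (O.N.tj (a, b, c)).Nonempty) :
    3 / 2 ≤ ‖O.N.F e.1 e.2 - 1‖ := by
  set N := O.N with hN
  have hT : N.T = delT S := O.hnet.tri
  have hFc : N.F e.1 e.2 = N.F a b := by
    rcases hab with rfl | rfl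
    · rfl
    · exact Oscx63.F_comm N b a
  have hA : a ∈ Z 2 ∨ b ∈ Z 2 := by
    rcases hab with rfl | rfl
    · exact he
    · exact he.symm
  rw [hFc]
  by_cases hex : ∃ k, N.ex k = (a, b) ∨ N.ex k = (b, a)
  · have hF : N.F a b = omz hex.choose := by
      unfold Net.F
      rw [dif_pos hex]
    rw [hF]
    apply norm_om_ge
    have h0 : hex.choose ≠ 0 := by
      intro h0
      have h1 := hex.choose_spec
      rw [h0, hN, O.ex0] at h1
      have e1 := O.end1 0
      have e2 := O.end2 0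
      rcases h1 with h1 | h1
      · rw [h1] at e1 e2
        rcases hA with h2 | h2
        · exact absurd (O.uniq e1 h2) (by decide)
        · exact absurd (O.uniq e2 h2) (by decide)
      · rw [h1] at e1 e2
        rcases hA with h2 | h2
        · exact absurd (O.uniq e2 h2) (by decide)
        · exact absurd (O.uniq e1 h2) (by decide)
    rcases Box.z3 hex.choose with h1 | h1 | h1
    · exact absurd h1 h0
    · exact Or.inl h1
    · exact Or.inr h1
  · push Not at hex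
    have h1 : (a, b) ∉ N.exS := by rintro ⟨k, hk'⟩; exact (hex k).1 hk'
    have h2 : (b, a) ∉ N.exS := by rintro ⟨k, hk'⟩; exact (hex k).2 hk'
    have ht' : (a, b, c) ∈ N.T := by rw [hT]; exact ht
    have hk' : (b, a) ∉ N.kl := fun h => hk (N.klsym _ _ h)
    have hcard := card_half (G := N.toTrg) (kl := N.kl) (D := N.exS) ht' hk hk' h1 h2
    have hpos : 0 < (N.tj (a, b, c)).card := Finset.card_pos.2 hne
    have hne' : (N.hj a b).Nonempty ∨ (N.hj b a).Nonempty := by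
      by_contra hcon
      push Not at hcon
      unfold Net.tj at hpos
      unfold Net.hj at hcon
      rw [← hcard, hcon.1, hcon.2] at hpos
      simp at hpos
    have hsd : ∀ v ∈ Z 2, Sidesx697.Side N 1 v := by
      intro v hv
      unfold Sidesx697.Side
      rw [hN, O.ex1]
      refine Relation.ReflTransGen.mono ?_ _ _ (O.con 2 _ (O.end2 2) v hv)
      rintro x y ⟨g1, g2, g3⟩
      exact O.wall_of g1 g2 g3
    have hside : Sidesx697.Side N 1 a ∨ Sidesx697.Side N 1 b := by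
      rcases hA with h | h
      · exact Or.inl (hsd _ h)
      · exact Or.inr (hsd _ h)
    obtain ⟨p0, p1, pF⟩ := Sidesx697.F_side O.hnet h1 h2 (i := 1) hside hne'
    rw [show (1 : ZMod 3) + 1 = 2 from rfl] at p0 p1 pF
    have hre : (N.F a b).re = -1 / 2 := by
      have r1 := Oscx63.om_re
      have h3 : (omz 1).re = -1 / 2 := by rw [Box.omz_one]; exact r1
      have h4 : (omz 2).re = -1 / 2 := by
        have : omz 2 = om ^ 2 := by
          unfold omz
          rw [show ZMod.val (2 : ZMod 3) = 2 from rfl]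
        rw [this, ← Rswx63.conj_om]
        simpa using r1
      rw [pF, Complex.add_re, Complex.re_ofReal_mul, Complex.re_ofReal_mul, h3, h4]
      ring
    have h2 := Complex.abs_re_le_norm (N.F a b - 1)
    rw [Complex.sub_re, Complex.one_re, hre] at h2
    norm_num at h2
    linarith

/-- joins exist at a triangle linked to the hull edge of the ray `1` -/
theorem tj_of_lk (O : Qd S V Z r) {t : ℂ × ℂ × ℂ} (ht : t ∈ delT S) {x : ℂ}
    (hx : ((r 1).1, (r 1).2, x) ∈ delT S)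
    (h : Lk O.N t ((r 1).1, (r 1).2, x)) :
    (O.N.tj t).Nonempty := by
  set N := O.N with hN
  have hT : N.T = delT S := O.hnet.tri
  obtain ⟨J, hJ⟩ := O.hj_ne
  obtain ⟨K, hK⟩ := Exx395.chain_isJoin h
  have hJ := mem_joins.1 hJ
  have hr1 : hullE S (r 1).1 (r 1).2 := O.hr 1
  have hlive : ((r 1).1, (r 1).2) ∉ N.kl := by
    intro h'
    obtain ⟨i, g1, g2⟩ := h'
    exact O.r_not_same g1 g2
  have hnx : ((r 1).1, (r 1).2) ∉ N.exS := O.r1_exS
  have hnx' : ((r 1).2, (r 1).1) ∉ N.exS := by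
    intro h'
    exact hullE_asymm hr1 (exS_hull O.hnet h')
  have h1 := erase_isJoin (G := N.toTrg) (kl := N.kl) (D := N.exS) (by rw [hT]; exact hx) hlive
    (fun h' => hlive (N.klsym _ _ h')) hnx hnx' hJ
  have h2 := xor_isJoin hK (D := N.exS) (fun x hx => by
    obtain ⟨k, rfl⟩ := hx
    exact (hK.bdr _ _ (by rw [hT]; exact (O.hnet.hex k).2) (by simp)).1) h1.1
  have e : symmDiff (rots ((r 1).1, (r 1).2, x))
      (symmDiff (rots t) (rots ((r 1).1, (r 1).2, x))) = rots t := by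
    rw [symmDiff_comm (rots t), symmDiff_symmDiff_cancel_left]
  rw [e] at h2
  exact ⟨_, mem_joins.2 h2⟩


/-! ### adjacent classes -/

/-- if the classes `0` and `2` are adjacent, there is always a chain -/
theorem pr_one (O : Qd S V Z r) {a b : ℂ} (ha : a ∈ Z 0) (hb : b ∈ Z 2)
    (hab : Crest.Agent.R143.JColx54.Adj S a b) : Qd.pr S V Z 0 = 1 := by
  have e : (0 : ZMod 4) + 2 = 2 := by decide
  have h : V.powerset.filter (fun T : Finset ℂ => Qd.Crs S Z (T : Set ℂ) 0) = V.powerset := by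
    rw [Finset.filter_eq_self]
    intro T _
    refine ⟨a, ha, b, by rw [e]; exact hb, Relation.ReflTransGen.single ⟨hab, ?_⟩⟩
    rw [e]
    exact Or.inr (Or.inr hb)
  unfold Qd.pr
  rw [h, Finset.card_powerset]
  push_cast
  exact div_self (by positivity)

theorem adj_of_vt (hS : GP (S : Set ℂ)) {t : ℂ × ℂ × ℂ} (ht : t ∈ delT S) {v v' : ℂ}
    (hv : Vt t v) (hv' : Vt t v') (hne : v ≠ v') : Crest.Agent.R143.JColx54.Adj S v v' := by
  obtain ⟨a, b, c⟩ := t
  have h2 := delT_rot hS ht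
  have h3 := delT_rot hS h2
  rcases hv with rfl | rfl | rfl <;> rcases hv' with rfl | rfl | rfl
  · exact absurd rfl hne
  · exact Or.inl ⟨_, ht⟩
  · exact Or.inr ⟨_, h3⟩
  · exact Or.inr ⟨_, ht⟩
  · exact absurd rfl hne
  · exact Or.inl ⟨_, h2⟩
  · exact Or.inl ⟨_, h3⟩
  · exact Or.inr ⟨_, h2⟩
  · exact absurd rfl hne

/-- **energy principle** for a quad: every member `s` of a weighted family of sets of triangles
contains a walk from the class `0` to the class `2` -/
theorem ep_gen (O : Qd S V Z r) {U : Finset (ℂ × ℂ × ℂ)} (hUS : U ⊆ delT S)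
    (hrep : ∀ t ∈ U, ∀ t' ∈ U, t ≠ t' → t' ∉ rots t)
    {J : Finset (Finset (ℂ × ℂ × ℂ))} {lam : Finset (ℂ × ℂ × ℂ) → ℝ}
    (hl : ∀ s ∈ J, 0 ≤ lam s) (hs : ∑ s ∈ J, lam s = 1) (hsU : ∀ s ∈ J, s ⊆ U)
    (hvert : ∀ s ∈ J, ∀ t ∈ s, ∀ v, Vt t v → v ∈ Z 0 ∨ v ∈ Z 2 ∨ v ∈ (V : Set ℂ))
    (hno : ∀ s ∈ J, ∀ t ∈ s, ∀ v v', Vt t v → Vt t v' → v ∈ Z 0 → v' ∉ Z 2)
    (hconn : ∀ s ∈ J, ∃ g g', Conn (net0 O.N) s g g' ∧ (g.1 ∈ Z 0 ∨ g.2 ∈ Z 0) ∧
      (g'.1 ∈ Z 2 ∨ g'.2 ∈ Z 2) ∧ ∃ t ∈ s, LSide (net0 O.N) t g) :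
    3 / 2 ≤ Real.sqrt 3 * Qd.pr S V Z 0 +
      Real.sqrt 3 * Real.sqrt (∑ t ∈ U, cw J lam (fun s => s) t ^ 2) := by
  have hS := O.gp
  set N := O.N with hN
  have hT : N.T = delT S := O.hnet.tri
  obtain ⟨n, ww, i0, i1, i2, i3, B, r1, r0, hA, hp⟩ := exists_box O
  -- triangles of the family
  set U' : Finset (ℂ × ℂ × ℂ) := U.filter fun t => ∃ s ∈ J, t ∈ s with hU'
  have hU'U : U' ⊆ U := Finset.filter_subset _ _
  have mU' : ∀ s ∈ J, ∀ t ∈ s, t ∈ U' := fun s hs' t ht =>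
    Finset.mem_filter.2 ⟨hsU s hs' ht, s, hs', ht⟩
  have vtU : ∀ t ∈ U', ∀ v, Vt t v → v ∈ Z 0 ∨ v ∈ Z 2 ∨ v ∈ (V : Set ℂ) := by
    intro t ht v hv
    obtain ⟨-, s, hs', hts⟩ := Finset.mem_filter.1 ht
    exact hvert s hs' t hts v hv
  have hnoex : ∀ t ∈ U', ∀ a b, Vt t a → Vt t b → (a, b) ∉ N.exS := by
    intro t ht a b ha hb hex
    obtain ⟨k, hk1, hk⟩ := O.mem_exS.1 hex
    have e1 := O.end1 k
    have e2 := O.end2 k
    rw [hk] at e1 e2
    have a1 : k - 1 = 0 ∨ k - 1 = 2 := by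
      rcases vtU t ht a ha with h | h | h
      · exact Or.inl (O.uniq e1 h)
      · exact Or.inr (O.uniq e1 h)
      · exact absurd e1 (((O.inn a).1 (Finset.mem_coe.1 h)).2 _)
    have a2 : k = 0 ∨ k = 2 := by
      rcases vtU t ht b hb with h | h | h
      · exact Or.inl (O.uniq e2 h)
      · exact Or.inr (O.uniq e2 h)
      · exact absurd e2 (((O.inn b).1 (Finset.mem_coe.1 h)).2 _)
    have h3 : ∀ k : ZMod 4, (k - 1 = 0 ∨ k - 1 = 2) → ¬ (k = 0 ∨ k = 2) := by decide
    exact h3 k a1 a2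
  have hR : ∀ t ∈ U', RelAt N t := by
    intro t ht
    refine Rel2x63.relAt O.hnet (hUS (hU'U ht)) (Or.inr ⟨?_, ?_, ?_⟩)
    · exact hnoex t ht _ _ (Or.inl rfl) (Or.inr (Or.inl rfl))
    · exact hnoex t ht _ _ (Or.inr (Or.inl rfl)) (Or.inr (Or.inr rfl))
    · exact hnoex t ht _ _ (Or.inr (Or.inr rfl)) (Or.inl rfl)
  -- the walks
  have hwalk : ∀ s ∈ J, ∃ e e' : ℂ × ℂ, Conn N s e e' ∧
      ‖N.F e.1 e.2 - 1‖ ≤ Real.sqrt 3 * Qd.pr S V Z 0 ∧ 3 / 2 ≤ ‖N.F e'.1 e'.2 - 1‖ := by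
    intro s hs'
    have hsT : ∀ t ∈ s, t ∈ N.T := fun t ht => by rw [hT]; exact hUS (hsU s hs' ht)
    have hsS : ∀ t ∈ s, t ∈ delT S := fun t ht => hUS (hsU s hs' ht)
    obtain ⟨g, g', hc, hg, hg', t0, ht0, hgt⟩ := hconn s hs'
    have hext := extract (N := N) (A := s) (P := Z 0) (Q := Z 2)
      (I := (V : Set ℂ)) hsT (fun t ht v hv => hvert s hs' t ht v hv)
      (fun t ht v v' hv hv' h1 => hno s hs' t ht v v' hv hv' h1)
      (fun v hv => ((O.inn v).1 (Finset.mem_coe.1 hv)).2 0)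
      (fun v hv => ((O.inn v).1 (Finset.mem_coe.1 hv)).2 2)
      (fun v hv x hx => by
        obtain ⟨i, h1, -⟩ := hx
        exact ((O.inn v).1 (Finset.mem_coe.1 hv)).2 i h1)
      hc hg hg'
    rcases hext with hgg | ⟨e, e', he, he', hconn', ⟨t, ht, hte⟩, t', ht', hte'⟩
    · exfalso
      have v1 := (vt_of_side hgt).1
      have v2 := (vt_of_side hgt).2
      rw [← hgg] at hg'
      rcases hg with h1 | h1 <;> rcases hg' with h2 | h2
      · exact hno s hs' t0 ht0 _ _ v1 v1 h1 h2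
      · exact hno s hs' t0 ht0 _ _ v1 v2 h1 h2
      · exact hno s hs' t0 ht0 _ _ v2 v1 h1 h2
      · exact hno s hs' t0 ht0 _ _ v2 v2 h1 h2
    refine ⟨e, e', hconn', ?_, ?_⟩
    · -- the start
      have htT := hsT t ht
      have htT' := hsT t' ht'
      have hlk : Lk N t t' := lk_conn hsT htT hte hconn' t' htT' hte'
      obtain ⟨x, hx⟩ := (O.hr 1).1
      have hva := vt_of_side hte
      have hvb := vt_of_side hte'
      have hlf : Lk N t ((r 1).1, (r 1).2, x) := by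
        rcases he with h1 | h1 <;> rcases he' with h2 | h2
        · exact lk_f O (Lk.refl t) hlk hva.1 hvb.1 h1 h2 (hsS t ht) hx
        · exact lk_f O (Lk.refl t) hlk hva.1 hvb.2 h1 h2 (hsS t ht) hx
        · exact lk_f O (Lk.refl t) hlk hva.2 hvb.1 h1 h2 (hsS t ht) hx
        · exact lk_f O (Lk.refl t) hlk hva.2 hvb.2 h1 h2 (hsS t ht) hx
      have key : ∀ a b c : ℂ, (a, b, c) ∈ rots t → (e = (a, b) ∨ e = (b, a)) →
          ‖N.F e.1 e.2 - 1‖ ≤ Real.sqrt 3 * Qd.pr S V Z 0 := by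
        intro a b c hr hab
        have h3 : (a, b, c) ∈ delT S := by rw [← hT]; exact Ex0x922.rots_mem_T hr htT
        have h4 : Lk N (a, b, c) ((r 1).1, (r 1).2, x) :=
          (Lk.of_rots (Ex0x922.rots_symm hr)).trans hlf
        have h5 := tj_of_lk O h3 hx h4
        have hFc : N.F e.1 e.2 = N.F a b := by
          rcases hab with rfl | rfl
          · rfl
          · exact Oscx63.F_comm N b a
        have hkl : (a, b) ∉ N.kl := by
          rcases hab with rfl | rfl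
          · exact hte.1
          · exact fun h => hte.1 (N.klsym _ _ h)
        have hAB : a ∈ B.A ∨ b ∈ B.A := by
          rcases hab with rfl | rfl
          · exact he.imp (hA _) (hA _)
          · exact he.symm.imp (hA _) (hA _)
        rw [hFc, ← hp]
        exact B.near_one h3 hAB hkl h5
      rcases T6Dx697.side_cases hte with ⟨c, hc⟩ | ⟨c, hc⟩
      · exact key _ _ c hc (Or.inl rfl)
      · exact key _ _ c hc (Or.inr rfl)
    · -- the end
      have htT := hsT t ht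
      have htT' := hsT t' ht'
      have hlk : Lk N t' t := (lk_conn hsT htT hte hconn' t' htT' hte').symm
      obtain ⟨x, hx⟩ := (O.hr 1).1
      have hva := vt_of_side hte
      have hvb := vt_of_side hte'
      have hlf : Lk N t' ((r 1).1, (r 1).2, x) := by
        rcases he with h1 | h1 <;> rcases he' with h2 | h2
        · exact lk_f O hlk (Lk.refl t') hva.1 hvb.1 h1 h2 (hsS t' ht') hx
        · exact lk_f O hlk (Lk.refl t') hva.1 hvb.2 h1 h2 (hsS t' ht') hx
        · exact lk_f O hlk (Lk.refl t') hva.2 hvb.1 h1 h2 (hsS t' ht') hx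
        · exact lk_f O hlk (Lk.refl t') hva.2 hvb.2 h1 h2 (hsS t' ht') hx
      have key : ∀ a b c : ℂ, (a, b, c) ∈ rots t' → (e' = (a, b) ∨ e' = (b, a)) →
          3 / 2 ≤ ‖N.F e'.1 e'.2 - 1‖ := by
        intro a b c hr hab
        have h3 : (a, b, c) ∈ delT S := by rw [← hT]; exact Ex0x922.rots_mem_T hr htT'
        have h4 : Lk N (a, b, c) ((r 1).1, (r 1).2, x) :=
          (Lk.of_rots (Ex0x922.rots_symm hr)).trans hlf
        have h5 := tj_of_lk O h3 hx h4
        have hkl : (a, b) ∉ N.kl := by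
          rcases hab with rfl | rfl
          · exact hte'.1
          · exact fun h => hte'.1 (N.klsym _ _ h)
        exact far_two O he' h3 hab hkl h5
      rcases T6Dx697.side_cases hte' with ⟨c, hc⟩ | ⟨c, hc⟩
      · exact key _ _ c hc (Or.inl rfl)
      · exact key _ _ c hc (Or.inr rfl)
  -- Cauchy-Schwarz
  obtain ⟨s, hs', hT4⟩ := Oscx63.T4 (N := N) J lam hl hs (fun s => s) U'
    (fun s hs' t ht => mU' s hs' t ht) hR
  obtain ⟨e, e', h1, h2, h3⟩ := hwalk s hs'
  have h4 := hT4 e e' h1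
  have h5 : ‖N.F e'.1 e'.2 - 1‖ ≤ ‖N.F e.1 e.2 - 1‖ + ‖N.F e.1 e.2 - N.F e'.1 e'.2‖ := by
    have : N.F e'.1 e'.2 - 1 = (N.F e.1 e.2 - 1) - (N.F e.1 e.2 - N.F e'.1 e'.2) := by ring
    rw [this]
    exact norm_sub_le _ _
  have h6 : Real.sqrt (∑ t ∈ U', ‖N.Q t‖ ^ 2) ≤ 1 := by
    refine Real.sqrt_le_one.2 ?_
    exact Frame7x395.frame O.hnet (hU'U.trans hUS) fun t ht t' ht' h =>
      hrep t (hU'U ht) t' (hU'U ht') h
  have h7 : Real.sqrt (∑ t ∈ U', (∑ i ∈ J.filter (fun i => t ∈ i), lam i) ^ 2) ≤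
      Real.sqrt (∑ t ∈ U, cw J lam (fun s => s) t ^ 2) := by
    apply Real.sqrt_le_sqrt
    refine (Finset.sum_le_sum_of_subset_of_nonneg hU'U fun t _ _ => sq_nonneg _).trans (le_of_eq ?_)
    refine Finset.sum_congr rfl fun t _ => ?_
    unfold cw
    congr!
  have h8 : Real.sqrt (∑ t ∈ U', (∑ i ∈ J.filter (fun i => t ∈ i), lam i) ^ 2) *
      Real.sqrt (∑ t ∈ U', ‖N.Q t‖ ^ 2) ≤ Real.sqrt (∑ t ∈ U, cw J lam (fun s => s) t ^ 2) := by
    calc _ ≤ Real.sqrt (∑ t ∈ U', (∑ i ∈ J.filter (fun i => t ∈ i), lam i) ^ 2) * 1 :=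
          mul_le_mul_of_nonneg_left h6 (Real.sqrt_nonneg _)
      _ ≤ _ := by rw [mul_one]; exact h7
  have h9 := mul_le_mul_of_nonneg_left h8 (Real.sqrt_nonneg 3)
  linarith

end Crest.Agent.R143.Qd2x54
end
end

-- ▼ part R143/Qd3_54

/-!
# Row 143 (S0194): RSW without E3, the quads of RE0_723 (helper54)

* `toQd` : a quad of `RE0_723` is a quad of `Qd1_54`
* `xorq` : duality
* `epl` : energy principle for the arcs of circles with radii in `[r, R]`
-/

set_option autoImplicit false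

noncomputable section

open scoped Classical

namespace Crest.Agent.R143.Qd3x54

open Set
open Crest.Agent.R143.B0x346 Crest.Agent.R143.B0Dx346 Crest.Agent.R143.DelGx806
  Crest.Agent.R143.DelRx806 Crest.Agent.R143.Oscx63 Crest.Agent.R143.Rswx63
  Crest.Agent.R143.Circx63 Crest.Agent.R143.Famx930
  Crest.Agent.R143.Crsx117 Crest.Agent.R143.JCardx872
open Crest.Agent.R143.RB2x54 (rot3 Vt vt_of_side net0)
open Crest.Agent.R143.Scalx63 (dm)
open Crest.Agent.R143.Harx315 (pr)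
open Crest.Agent.R143.RE0x723 (Pth fre Crq)
open Crest.Agent.R143.JColx54 (Adj)

variable {S : Finset ℂ} {n : ℕ} {w : ℤ → ℂ} {i0 i1 i2 i3 : ℤ} {B : ZMod 4 → Finset ℂ}

/-- the marks -/
def mks (w : ℤ → ℂ) (i0 i1 i2 i3 : ℤ) (k : ZMod 4) : ℂ × ℂ :=
  if k = 0 then hm w i0 else if k = 1 then hm w i1 else if k = 2 then hm w i2 else hm w i3

theorem mks0 : mks w i0 i1 i2 i3 0 = hm w i0 := by unfold mks; rw [if_pos rfl]
theorem mks1 : mks w i0 i1 i2 i3 1 = hm w i1 := by
  unfold mks; rw [if_neg (by decide), if_pos rfl]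
theorem mks2 : mks w i0 i1 i2 i3 2 = hm w i2 := by
  unfold mks; rw [if_neg (by decide), if_neg (by decide), if_pos rfl]
theorem mks3 : mks w i0 i1 i2 i3 3 = hm w i3 := by
  unfold mks; rw [if_neg (by decide), if_neg (by decide), if_neg (by decide)]

theorem z4 (k : ZMod 4) : k = 0 ∨ k = 1 ∨ k = 2 ∨ k = 3 := by revert k; decide

/-- the class as a set -/
def cs (B : ZMod 4 → Finset ℂ) (i : ZMod 4) : Set ℂ := (B i : Set ℂ)

/-- the quads of `RE0_723` -/
theorem toQd (h : RE0x723.Qd S n w i0 i1 i2 i3 B) :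
    Qdx54.Qd S (fre S B) (cs B) (mks w i0 i1 i2 i3) where
  gp := h.gp
  sub := fun i => by
    intro v hv
    exact Finset.mem_coe.2 (h.sub i (Finset.mem_coe.1 hv))
  disj := fun i j hij => Finset.disjoint_coe.2 (h.disj i j hij)
  inn := by
    intro v
    unfold fre
    rw [Finset.mem_filter]
    rfl
  hr := by
    intro k
    rcases z4 k with rfl | rfl | rfl | rfl
    · rw [mks0]; exact h.m4.cyc.edge _
    · rw [mks1]; exact h.m4.cyc.edge _
    · rw [mks2]; exact h.m4.cyc.edge _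
    · rw [mks3]; exact h.m4.cyc.edge _
  end1 := by
    intro k
    have h01 := h.m4.h01
    have h12 := h.m4.h12
    have h23 := h.m4.h23
    have h30 := h.m4.h30
    rcases z4 k with rfl | rfl | rfl | rfl
    · rw [mks0, show (0 : ZMod 4) - 1 = 3 from rfl]
      have := h.a3 (i0 + n) (by linarith) le_rfl
      rw [h.m4.cyc.per] at this
      exact this
    · rw [mks1, show (1 : ZMod 4) - 1 = 0 from rfl]
      exact h.a0 i1 h01 le_rfl
    · rw [mks2, show (2 : ZMod 4) - 1 = 1 from rfl]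
      exact h.a1 i2 h12 le_rfl
    · rw [mks3, show (3 : ZMod 4) - 1 = 2 from rfl]
      exact h.a2 i3 h23 le_rfl
  end2 := by
    intro k
    have h01 := h.m4.h01
    have h12 := h.m4.h12
    have h23 := h.m4.h23
    have h30 := h.m4.h30
    rcases z4 k with rfl | rfl | rfl | rfl
    · rw [mks0]; exact h.a0 (i0 + 1) (by linarith) (by linarith)
    · rw [mks1]; exact h.a1 (i1 + 1) (by linarith) (by linarith)
    · rw [mks2]; exact h.a2 (i2 + 1) (by linarith) (by linarith)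
    · rw [mks3]; exact h.a3 (i3 + 1) (by linarith) (by linarith)
  hull := by
    intro a b hab
    have h01 := h.m4.h01
    have h12 := h.m4.h12
    have h23 := h.m4.h23
    have h30 := h.m4.h30
    obtain ⟨i, g1, g2, rfl, rfl⟩ := Sidesx697.hull_window h.m4.cyc i0 hab
    rcases eq_or_lt_of_le g1 with e | g3
    · left; exact ⟨0, by rw [mks0, e]; rfl⟩
    rcases lt_trichotomy i i1 with g4 | g4 | g4
    · right; exact ⟨0, h.a0 i g3 g4.le, h.a0 (i + 1) (by linarith) (by linarith)⟩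
    · left; exact ⟨1, by rw [mks1, g4]; rfl⟩
    rcases lt_trichotomy i i2 with g5 | g5 | g5
    · right; exact ⟨1, h.a1 i g4 g5.le, h.a1 (i + 1) (by linarith) (by linarith)⟩
    · left; exact ⟨2, by rw [mks2, g5]; rfl⟩
    rcases lt_trichotomy i i3 with g6 | g6 | g6
    · right; exact ⟨2, h.a2 i g5 g6.le, h.a2 (i + 1) (by linarith) (by linarith)⟩
    · left; exact ⟨3, by rw [mks3, g6]; rfl⟩
    · right; exact ⟨3, h.a3 i g6 g2.le, h.a3 (i + 1) (by linarith) (by linarith)⟩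
  con := by
    intro i x hx y hy
    obtain ⟨-, h1⟩ := h.con i x hx y hy
    have h2 : Relation.ReflTransGen (fun a b => a ∈ cs B i ∧ b ∈ cs B i ∧ Adj S a b) x y ∧
        y ∈ cs B i := by
      clear hy
      induction h1 with
      | refl => exact ⟨Relation.ReflTransGen.refl, hx⟩
      | tail _ h3 ih => exact ⟨ih.1.tail ⟨ih.2, h3.2, h3.1⟩, h3.2⟩
    exact h2.1

theorem crs_iff (_h : RE0x723.Qd S n w i0 i1 i2 i3 B) (i : ZMod 4) (T : Finset ℂ) :
    Crq S B i T ↔ Qdx54.Qd.Crs S (cs B) (T : Set ℂ) i := by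
  constructor
  · rintro ⟨x, hx, y, hy, -, h1⟩
    refine ⟨x, hx, y, hy, Relation.ReflTransGen.mono ?_ _ _ h1⟩
    rintro a b ⟨h2, h3⟩
    exact ⟨h2, h3⟩
  · rintro ⟨x, hx, y, hy, h1⟩
    refine ⟨x, hx, y, hy, Or.inr (Or.inl hx), Relation.ReflTransGen.mono ?_ _ _ h1⟩
    rintro a b ⟨h2, h3⟩
    exact ⟨h2, h3⟩

/-- **duality** -/
theorem xorq (h : RE0x723.Qd S n w i0 i1 i2 i3 B) {T : Finset ℂ} (hT : T ⊆ fre S B) :
    Crq S B 0 T ↔ ¬ Crq S B 1 (fre S B \ T) := by
  rw [crs_iff h, crs_iff h]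
  exact (toQd h).xor hT

theorem pr_eq (h : RE0x723.Qd S n w i0 i1 i2 i3 B) (i : ZMod 4) :
    Qdx54.Qd.pr S (fre S B) (cs B) i = pr (fre S B) (Crq S B i) := by
  unfold Qdx54.Qd.pr pr Harx315.nb Harx315.fl
  congr 2
  refine congrArg Finset.card (Finset.filter_congr ?_)
  intro T _
  exact (crs_iff h i T).symm

theorem cT_vt {t t' : ℂ × ℂ × ℂ} (h : t' ∈ rots t) {v : ℂ} (hv : Vt t v) : Vt t' v := by
  obtain ⟨a, b, c⟩ := t
  simp only [rots, Set.mem_insert_iff, Set.mem_singleton_iff] at h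
  unfold Vt at hv ⊢
  rcases h with rfl | rfl | rfl <;> simp only at hv ⊢ <;> tauto

/-- **energy principle for arcs**: if the arcs with centre `x` and radii in `[r, R]` go from the
class `0` to the class `2`, then there is a crossing with probability `≥ 1/3` -/
theorem epl (h : RE0x723.Qd S n w i0 i1 i2 i3 B) (x : ℂ) (φ ψ : ℝ) {r R b C4 : ℝ} (hr : 0 < r)
    (hrR : 2 * r ≤ R) (hRb : R ≤ b) (hlog : 96 * C4 ≤ Real.log (R / r))
    (hcov : ∀ ρ ∈ Icc r R, ∀ y ∈ arc x φ ψ ρ, ∃ t ∈ delT S, y ∈ cT t)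
    (hvert : ∀ ρ ∈ Icc r R, ∀ t ∈ delT S, (cT t ∩ arc x φ ψ ρ).Nonempty →
      ∀ v, Vt t v → v ∈ B 0 ∨ v ∈ B 2 ∨ v ∈ fre S B)
    (hfst : ∀ ρ ∈ Icc r R, ∃ t ∈ delT S, (cT t ∩ arc x φ ψ ρ).Nonempty ∧ ∃ v, Vt t v ∧ v ∈ B 0)
    (hlst : ∀ ρ ∈ Icc r R, ∃ t ∈ delT S, (cT t ∩ arc x φ ψ ρ).Nonempty ∧ ∃ v, Vt t v ∧ v ∈ B 2)
    (hM : ∀ b' ∈ Icc r b, ∑ t ∈ (delT S).filter
      (fun t => (cT t ∩ Metric.closedBall x b').Nonempty), dm t ^ 2 ≤ C4 * b' ^ 2) :
    1 / 3 ≤ pr (fre S B) (Crq S B 0) := by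
  have O := toQd h
  have hS := O.gp
  rw [← pr_eq h]
  by_cases hadj : ∃ a ∈ B 0, ∃ b ∈ B 2, Adj S a b
  · obtain ⟨a, ha, b, hb, hab⟩ := hadj
    rw [Qd2x54.pr_one O ha hb hab]
    norm_num
  push Not at hadj
  -- representatives
  obtain ⟨U, hUT, hrep, hcovU⟩ := T6Dx697.reps (delT S)
  have hR0 : 0 < R := by linarith
  have hlogpos : 0 < Real.log (R / r) := Real.log_pos (by rw [lt_div_iff₀ hr]; linarith)
  obtain ⟨J, lam, p, hG, -, hsq⟩ := Halfx930.arcs U hUT x φ ψ hr hrR hRb hM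
  have hrad : ∀ s ∈ J, Real.exp (p s) ∈ Icc r R := by
    intro s hs
    have h1 := hG.mem s hs
    exact ⟨by rw [← Real.exp_log hr]; exact Real.exp_le_exp.2 h1.1,
      by rw [← Real.exp_log hR0]; exact Real.exp_le_exp.2 h1.2⟩
  have hmeet : ∀ s ∈ J, ∀ t ∈ s, t ∈ delT S ∧ ∃ ρ ∈ Icc r R, (cT t ∩ arc x φ ψ ρ).Nonempty := by
    intro s hs t ht
    obtain ⟨q, hq, hm⟩ := hG.meet s hs t ht
    refine ⟨hUT (hG.sub s hs ht), Real.exp q, ⟨?_, ?_⟩, hm⟩
    · rw [← Real.exp_log hr]; exact Real.exp_le_exp.2 hq.1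
    · rw [← Real.exp_log hR0]; exact Real.exp_le_exp.2 hq.2
  have hno : ∀ s ∈ J, ∀ t ∈ s, ∀ v v', Vt t v → Vt t v' → v ∈ cs B 0 → v' ∉ cs B 2 := by
    intro s hs t ht v v' hv hv' h1 h2
    have hne : v ≠ v' := by
      rintro rfl
      exact absurd (O.uniq h1 h2) (by decide)
    exact hadj v h1 v' h2 (Qd2x54.adj_of_vt hS (hmeet s hs t ht).1 hv hv' hne)
  have side_at : ∀ t : ℂ × ℂ × ℂ, ∀ v, Vt t v → ∃ e, LSide (net0 O.N) t e ∧ e.1 = v := by
    rintro ⟨a, b, c⟩ v hv
    rcases hv with h | h | h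
    · exact ⟨(a, b), ⟨fun h => h, Or.inl rfl⟩, h.symm⟩
    · exact ⟨(b, c), ⟨fun h => h, Or.inr (Or.inl rfl)⟩, h.symm⟩
    · exact ⟨(c, a), ⟨fun h => h, Or.inr (Or.inr (Or.inl rfl))⟩, h.symm⟩
  have hmain := Qd2x54.ep_gen O (U := U) hUT hrep
    hG.nn hG.sum hG.sub ?_ hno ?_
  · have h1 : Real.sqrt (∑ t ∈ U, cw J lam (fun s => s) t ^ 2) ≤ 1 / 2 := by
      rw [show (1 / 2 : ℝ) = Real.sqrt (1 / 4) by
        rw [show (1 / 4 : ℝ) = (1 / 2) ^ 2 by norm_num, Real.sqrt_sq (by norm_num)]]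
      apply Real.sqrt_le_sqrt
      refine hsq.trans ?_
      rw [div_le_iff₀ hlogpos]
      linarith
    have h3 : Real.sqrt 3 * Real.sqrt 3 = 3 := Real.mul_self_sqrt (by norm_num)
    have h3p : 0 < Real.sqrt 3 := Real.sqrt_pos.2 (by norm_num)
    have h3l : Real.sqrt 3 ≤ 9 / 5 := by
      rw [Real.sqrt_le_left (by norm_num)]; norm_num
    set P := Qdx54.Qd.pr S (fre S B) (cs B) 0 with hP
    have h2 : 3 / 2 ≤ Real.sqrt 3 * P + Real.sqrt 3 * (1 / 2) := by
      have := mul_le_mul_of_nonneg_left h1 h3p.le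
      linarith
    by_contra hcon
    push Not at hcon
    have h4 : Real.sqrt 3 * P < Real.sqrt 3 * (1 / 3) := mul_lt_mul_of_pos_left hcon h3p
    nlinarith
  · intro s hs t ht v hv
    obtain ⟨h1, ρ, h2, h3⟩ := hmeet s hs t ht
    rcases hvert ρ h2 t h1 h3 v hv with h4 | h4 | h4
    · exact Or.inl h4
    · exact Or.inr (Or.inl h4)
    · exact Or.inr (Or.inr h4)
  · intro s hs
    obtain ⟨t1, ht1, hm1, v1, hv1, hv1c⟩ := hfst _ (hrad s hs)
    obtain ⟨t2, ht2, hm2, v2, hv2, hv2c⟩ := hlst _ (hrad s hs)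
    have hAc : ∀ t ∈ delT S, (cT t ∩ arc x φ ψ (Real.exp (p s))).Nonempty →
        ∃ t' ∈ s, t' ∈ rots t := by
      intro t ht hm
      obtain ⟨t', ht', hr'⟩ := hcovU t ht
      refine ⟨t', hG.hit s hs t' ht' ?_, hr'⟩
      show (cT t' ∩ arc x φ ψ (Real.exp (p s))).Nonempty
      rwa [cT_rots hr']
    -- the first triangle in `s`
    obtain ⟨t1', ht1', hr1⟩ := hAc t1 ht1 hm1
    have hv1' : Vt t1' v1 := cT_vt hr1 hv1
    have ht1S : t1' ∈ delT S := (hmeet s hs t1' ht1').1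
    have hm1' : (cT t1' ∩ arc x φ ψ (Real.exp (p s))).Nonempty := by rwa [cT_rots hr1]
    obtain ⟨g, hg1, hg2⟩ := side_at t1' v1 hv1'
    obtain ⟨g', hg1', hg2'⟩ := side_at t2 v2 hv2
    refine ⟨g, g', ?_, Or.inl (by rw [hg2]; exact hv1c), Or.inl (by rw [hg2']; exact hv2c),
      t1', ht1', hg1⟩
    exact conn_all (N := net0 O.N) hS (arc_conn x φ ψ _) (hcov _ (hrad s hs)) (hG.off s hs)
      (fun _ _ _ _ _ _ _ h => h) hAc ht1S hm1' ht2 hm2 hg1 hg1'

/-- **EPQ** -/
theorem epq : RE0x723.EPQ := fun _ _ _ _ _ _ _ _ h x φ ψ _ _ _ _ hr hrR hRb hlog hcov hvert hfst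
    hlst hM => epl h x φ ψ hr hrR hRb hlog hcov hvert hfst hlst hM

end Crest.Agent.R143.Qd3x54
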