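import Crest.Agent.R143.RE4_723
import Crest.Agent.R143.SSb_930
import Crest.Agent.R143.Qd3_54
import Crest.Agent.R143.RBm_838
import Crest.Agent.R143.HUL_838

-- ▼ part R143/RE5_723
section

/-!
# Row 143, RBE, T3a: the polygon of a strip (helper723)

* `nok_ex`, `uniq`, `outer_iff` : the labels
* `geo` : the walks to the hull give the polygon
-/

set_option autoImplicit false

noncomputable section

open scoped Classical

namespace Crest.Agent.R143.RE5x723

open Set
open Crest.Agent.R143.B0x346 Crest.Agent.R143.DelGx806 Crest.Agent.R143.DelRx806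
  Crest.Agent.R143.JColx54 Crest.Agent.R143.RE0x723 Crest.Agent.R143.RE3x723
  Crest.Agent.R143.RE4x723
open Crest.Agent.R143.HULx838 (xj_succ xj_one hh_pos)
open Crest.Agent.R143.SSbx930 (SH)

variable {S : Finset ℂ} {z0 u : ℂ} {a b k d : ℝ} {K N : ℕ}

/-! ### the labels -/

theorem MM3 (hK : 0 < K) : (6 : ℝ) ≤ MM K := by
  have : 6 ≤ MM K := by
    unfold MM
    have : 4 ^ 1 ≤ 4 ^ K := Nat.pow_le_pow_right (by norm_num) hK
    omega
  exact_mod_cast this

theorem hh_le (hK : 0 < K) (hb : 0 < b) : 48 * hh K b ≤ b := by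
  have := MM3 hK
  unfold hh
  rw [← mul_div_assoc, div_le_iff₀ (by linarith)]
  nlinarith

theorem nok_ex (hK : 0 < K) (ha : 0 < a) (hb : 0 < b) (hab : a ≤ k * b) :
    ∃ N, Nok a b k K N := by
  have hh0 := hh_pos (b := b) K hb
  have hl := hh_le (b := b) hK hb
  have hM := MM3 hK
  have h1 : (2 * a + b / 2) / hh K b ≤ (⌈(2 * a + b / 2) / hh K b⌉₊ : ℝ) := Nat.le_ceil _
  have h2 := Nat.ceil_lt_add_one (show 0 ≤ (2 * a + b / 2) / hh K b by positivity)
  have e : (2 * a + b / 2) / hh K b = 8 * MM K * (2 * a + b / 2) / b := by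
    unfold hh
    field_simp
  have h3 : (2 * a + b / 2) / hh K b * hh K b = 2 * a + b / 2 := div_mul_cancel₀ _ hh0.ne'
  refine ⟨⌈(2 * a + b / 2) / hh K b⌉₊, ?_, ?_, ?_, ?_⟩
  · have : (MM K : ℝ) ≤ (2 * a + b / 2) / hh K b := by
      rw [e, le_div_iff₀ hb]
      nlinarith
    exact_mod_cast this.trans h1
  · refine h2.le.trans ?_
    have : (2 * a + b / 2) / hh K b ≤ 8 * MM K * (2 * k + 1) := by
      rw [e, div_le_iff₀ hb]
      have : 8 * (MM K : ℝ) * (2 * a + b / 2) ≤ 8 * (MM K : ℝ) * ((2 * k + 1) * b) :=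
        mul_le_mul_of_nonneg_left (by linarith) (by linarith)
      linarith
    linarith
  · unfold xj
    push_cast
    nlinarith
  · unfold xj
    push_cast
    nlinarith

theorem xj_mono (hb : 0 < b) {i j : ℕ} (h : i ≤ j) : xj K a b i ≤ xj K a b j := by
  unfold xj
  have : (i : ℝ) ≤ j := by exact_mod_cast h
  have := hh_pos (b := b) K hb
  nlinarith

theorem xj_lt (hb : 0 < b) {i j : ℕ} (h : i < j) : xj K a b i + hh K b ≤ xj K a b j := by
  rw [← xj_succ]
  exact xj_mono hb h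

theorem lab0 {s : ℂ} : Lab z0 u a b K N 0 s ↔ X z0 u s ≤ xj K a b 1 := by
  unfold Lab
  rw [if_pos rfl]

theorem labR {s : ℂ} : Lab z0 u a b K N (N + 1) s ↔ xj K a b (N + 1) < X z0 u s := by
  unfold Lab
  rw [if_neg (by omega), if_pos rfl]

theorem labT {s : ℂ} : Lab z0 u a b K N (N + 2) s ↔
    xj K a b 1 < X z0 u s ∧ X z0 u s ≤ xj K a b (N + 1) ∧ b / 2 ≤ Y z0 u s := by
  unfold Lab
  rw [if_neg (by omega), if_neg (by omega), if_pos rfl]

theorem labB {s : ℂ} {j : ℕ} (h1 : 1 ≤ j) (h2 : j ≤ N) : Lab z0 u a b K N j s ↔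
    xj K a b j < X z0 u s ∧ X z0 u s ≤ xj K a b (j + 1) ∧ Y z0 u s < -(b / 2) := by
  unfold Lab
  rw [if_neg (by omega), if_neg (by omega), if_neg (by omega)]

/-- the four kinds of labels -/
theorem lcases {j : ℕ} (hj : j ≤ N + 2) : j = 0 ∨ (1 ≤ j ∧ j ≤ N) ∨ j = N + 1 ∨ j = N + 2 := by
  omega

theorem uniq (hb : 0 < b) (hN : 1 ≤ N) {i j : ℕ} (hi : i ≤ N + 2) (hj : j ≤ N + 2) {s : ℂ}
    (h1 : Lab z0 u a b K N i s) (h2 : Lab z0 u a b K N j s) : i = j := by
  have key : ∀ i j : ℕ, i ≤ N + 2 → j ≤ N + 2 → Lab z0 u a b K N i s → Lab z0 u a b K N j s →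
      i < j → False := by
    intro i j hi hj h1 h2 hij
    have m0 : ∀ i, 1 ≤ i → xj K a b 1 ≤ xj K a b i := fun i h => xj_mono hb h
    have mN : ∀ i, i ≤ N + 1 → xj K a b i ≤ xj K a b (N + 1) := fun i h => xj_mono hb h
    rcases lcases hi with rfl | ⟨i1, i2⟩ | rfl | rfl
    · rw [lab0] at h1
      rcases lcases hj with rfl | ⟨j1, j2⟩ | rfl | rfl
      · omega
      · rw [labB j1 j2] at h2
        have := m0 j j1
        linarith [h2.1]
      · rw [labR] at h2
        have := m0 (N + 1) (by omega)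
        linarith
      · rw [labT] at h2
        linarith [h2.1]
    · rw [labB i1 i2] at h1
      rcases lcases hj with rfl | ⟨j1, j2⟩ | rfl | rfl
      · omega
      · rw [labB j1 j2] at h2
        have := xj_mono (K := K) (a := a) hb (show i + 1 ≤ j from hij)
        linarith [h2.1, h1.2.1]
      · rw [labR] at h2
        have := mN (i + 1) (by omega)
        linarith [h1.2.1]
      · rw [labT] at h2
        linarith [h2.2.2, h1.2.2]
    · rw [labR] at h1
      rcases lcases hj with rfl | ⟨j1, j2⟩ | h | rfl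
      · omega
      · omega
      · omega
      · rw [labT] at h2
        linarith [h2.2.1]
    · omega
  rcases lt_trichotomy i j with h | h | h
  · exact (key i j hi hj h1 h2 h).elim
  · exact h
  · exact (key j i hj hi h2 h1 h).elim

theorem outer_iff (hb : 0 < b) (hN : 1 ≤ N) {s : ℂ} : (∃ j, j ≤ N + 2 ∧ Lab z0 u a b K N j s) ↔
    X z0 u s ≤ xj K a b 1 ∨ xj K a b (N + 1) < X z0 u s ∨ b / 2 ≤ Y z0 u s ∨
      Y z0 u s < -(b / 2) := by
  constructor
  · rintro ⟨j, hj, h⟩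
    rcases lcases hj with rfl | ⟨j1, j2⟩ | rfl | rfl
    · exact Or.inl (lab0.1 h)
    · exact Or.inr (Or.inr (Or.inr ((labB j1 j2).1 h).2.2))
    · exact Or.inr (Or.inl (labR.1 h))
    · exact Or.inr (Or.inr (Or.inl (labT.1 h).2.2))
  · intro h
    by_cases h1 : X z0 u s ≤ xj K a b 1
    · exact ⟨0, by omega, lab0.2 h1⟩
    by_cases h2 : xj K a b (N + 1) < X z0 u s
    · exact ⟨N + 1, by omega, labR.2 h2⟩
    push Not at h1 h2
    rcases h with h | h | h | h
    · linarith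
    · linarith
    · exact ⟨N + 2, le_rfl, labT.2 ⟨h1, h2, h⟩⟩
    · have hex : ∃ j, X z0 u s ≤ xj K a b (j + 1) := ⟨N, h2⟩
      have f1 := Nat.find_spec hex
      have f2 : Nat.find hex ≤ N := Nat.find_min' hex h2
      have f3 : 1 ≤ Nat.find hex := by
        by_contra hcon
        have : Nat.find hex = 0 := by omega
        rw [this] at f1
        rw [zero_add] at f1
        linarith
      have f4 := Nat.find_min hex (m := Nat.find hex - 1) (by omega)
      rw [Nat.sub_add_cancel f3] at f4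
      push Not at f4
      exact ⟨Nat.find hex, by omega, (labB f3 f2).2 ⟨f4, f1, h⟩⟩

/-! ### the walks -/

/-- bottom walk -/
def WB (S : Finset ℂ) (z0 u : ℂ) (a b k d : ℝ) : Prop := ∀ v ∈ SS S z0 u k a b,
  |X z0 u v| ≤ a + b / 2 → Y z0 u v < -(b / 2) → ∃ x y, hullE (SS S z0 u k a b) x y ∧
    Pth (SS S z0 u k a b) {s | s ∈ SS S z0 u k a b ∧ Y z0 u s < -(b / 2) ∧
      |X z0 u s - X z0 u v| ≤ 10 * Real.sqrt (RR k a b * d)} v x

/-- top walk -/
def WT (S : Finset ℂ) (z0 u : ℂ) (a b k d : ℝ) : Prop := ∀ v ∈ SS S z0 u k a b,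
  |X z0 u v| ≤ a + b / 2 → b / 2 ≤ Y z0 u v → ∃ x y, hullE (SS S z0 u k a b) x y ∧
    Pth (SS S z0 u k a b) {s | s ∈ SS S z0 u k a b ∧ b / 2 ≤ Y z0 u s ∧
      min (X z0 u v) 0 - 10 * Real.sqrt (RR k a b * d) ≤ X z0 u s ∧
      X z0 u s ≤ max (X z0 u v) 0 + 10 * Real.sqrt (RR k a b * d)} v x

theorem X_dt (hu : ‖u‖ = 1) (s v : ℂ) : X z0 u s - X z0 u v = dt (s - v) u := by
  rw [HULx838.X_sub, Complex.div_re]
  have : Complex.normSq u = 1 := by rw [Complex.normSq_eq_norm_sq, hu, one_pow]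
  rw [this]
  unfold dt
  ring

/-- a pocket near the line `l` -/
def Loc (z0 u : ℂ) (a b D0 : ℝ) (K N : ℕ) (l : ℕ) (t : Bool) (s : ℂ) : Prop :=
  1 ≤ l ∧ l ≤ N + 1 ∧ |X z0 u s - xj K a b l| ≤ 10 * D0 ∧
    (t = true → b / 2 ≤ Y z0 u s) ∧ (t = false → Y z0 u s < -(b / 2))

section geo

variable {n : ℕ} {w : ℤ → ℂ} {p : ℕ → ℤ}

/-- **the polygon** -/
theorem geo (H : SH S z0 u a b k d) (hK : 0 < K) (hN : Nok a b k K N)
    (h4 : 200 * Real.sqrt (RR k a b * d) ≤ hh K b) (hH : Hul S z0 u a b k K n w N p)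
    (wb : WB S z0 u a b k d) (wt : WT S z0 u a b k d) :
    Geo S z0 u a b k K n w N p (Ak (SS S z0 u k a b) w (N + 2) (Lab z0 u a b K N)) := by
  have hb := H.hb
  have ha := H.ha
  have hu := H.u1
  have hgp := H.gp
  have h3 := H.dns.card
  have hh0 := hh_pos (b := b) K hb
  have hhb := hh_le (b := b) hK hb
  have hN1 : 1 ≤ N := by
    have := hN.MN
    have : 6 ≤ MM K := by exact_mod_cast MM3 hK
    omega
  have hxl := hN.xl
  have hxr := hN.xr
  have hx1 : xj K a b 1 = -(a + b / 4) := xj_one K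
  set D0 := Real.sqrt (RR k a b * d) with hD0
  have hD0p : 0 ≤ D0 := Real.sqrt_nonneg _
  set T := SS S z0 u k a b with hT
  have hcyc := hH.cyc
  rw [← hT] at hcyc
  set Lb := Lab z0 u a b K N with hLb
  have onh : ∀ {x y : ℂ}, hullE T x y → ∃ i : ℤ, w i = x := by
    intro x y hxy
    obtain ⟨i, -, -, h, -⟩ := hcyc.all x y hxy
    exact ⟨i, h⟩
  -- half planes
  have F1 : ∀ v ∈ T, Lb 0 v → v ∈ Mn T w Lb 0 := by
    intro v hv hl
    obtain ⟨x, y, hxy, hp⟩ := walkH hgp h3 (e := -u) (neg_ne_zero.2 H.u0) _ v hv le_rfl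
    obtain ⟨i, rfl⟩ := onh hxy
    refine ⟨i, hp.mono ?_⟩
    rintro s ⟨h1, h2⟩
    refine ⟨h1, lab0.2 ?_⟩
    have h5 := lab0.1 hl
    have h6 := X_dt (z0 := z0) hu s v
    have h7 : dt (s - v) (-u) = -dt (s - v) u := by unfold dt; simp only [Complex.neg_re, Complex.neg_im]; ring
    linarith
  have F2 : ∀ v ∈ T, Lb (N + 1) v → v ∈ Mn T w Lb (N + 1) := by
    intro v hv hl
    obtain ⟨x, y, hxy, hp⟩ := walkH hgp h3 (e := u) H.u0 _ v hv le_rfl
    obtain ⟨i, rfl⟩ := onh hxy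
    refine ⟨i, hp.mono ?_⟩
    rintro s ⟨h1, h2⟩
    refine ⟨h1, labR.2 ?_⟩
    have h5 := labR.1 hl
    have h6 := X_dt (z0 := z0) hu s v
    linarith
  have xin : ∀ s : ℂ, xj K a b 1 < X z0 u s → X z0 u s ≤ xj K a b (N + 1) →
      |X z0 u s| ≤ a + b / 2 := by
    intro s h1 h2
    rw [abs_le]
    constructor <;> linarith
  have F3 : ∀ v ∈ T, ∀ j, 1 ≤ j → j ≤ N → Lb j v → xj K a b j + 10 * D0 < X z0 u v →
      X z0 u v + 10 * D0 ≤ xj K a b (j + 1) → v ∈ Mn T w Lb j := by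
    intro v hv j j1 j2 hl g1 g2
    obtain ⟨l1, l2, l3⟩ := (labB j1 j2).1 hl
    have m1 := xj_mono (K := K) (a := a) hb j1
    have m2 := xj_mono (K := K) (a := a) hb (show j + 1 ≤ N + 1 by omega)
    obtain ⟨x, y, hxy, hp⟩ := wb v hv (xin v (by linarith) (by linarith)) l3
    obtain ⟨i, rfl⟩ := onh hxy
    refine ⟨i, hp.mono ?_⟩
    rintro s ⟨s1, s2, s3⟩
    rw [abs_le] at s3
    exact ⟨s1, (labB j1 j2).2 ⟨by linarith, by linarith, s2⟩⟩
  have F4 : ∀ v ∈ T, Lb (N + 2) v → xj K a b 1 + 10 * D0 < X z0 u v →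
      X z0 u v + 10 * D0 ≤ xj K a b (N + 1) → v ∈ Mn T w Lb (N + 2) := by
    intro v hv hl g1 g2
    obtain ⟨l1, l2, l3⟩ := labT.1 hl
    obtain ⟨x, y, hxy, hp⟩ := wt v hv (xin v l1 l2) l3
    obtain ⟨i, rfl⟩ := onh hxy
    refine ⟨i, hp.mono ?_⟩
    rintro s ⟨s1, s2, s3, s4⟩
    refine ⟨s1, labT.2 ⟨?_, ?_, s2⟩⟩
    · rcases le_total (X z0 u v) 0 with h | h
      · rw [min_eq_left h] at s3
        linarith
      · rw [min_eq_right h] at s3
        linarith
    · rcases le_total (X z0 u v) 0 with h | h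
      · rw [max_eq_right h] at s4
        linarith
      · rw [max_eq_left h] at s4
        linarith
  -- outer sites are joined to the hull
  have hou : ∀ s, s ∈ Ou T (N + 2) Lb ↔ s ∈ T ∧ (X z0 u s ≤ xj K a b 1 ∨
      xj K a b (N + 1) < X z0 u s ∨ b / 2 ≤ Y z0 u s ∨ Y z0 u s < -(b / 2)) := by
    intro s
    unfold Ou
    rw [Set.mem_setOf_eq, outer_iff hb hN1]
  have hcon : ∀ s ∈ Ou T (N + 2) Lb, ∃ i : ℤ, Pth T (Ou T (N + 2) Lb) s (w i) := by
    rintro s ⟨hs, j, hj, hl⟩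
    rcases lcases hj with rfl | ⟨j1, j2⟩ | rfl | rfl
    · obtain ⟨i, hp⟩ := F1 s hs hl
      exact ⟨i, hp.mono fun v hv => ⟨hv.1, 0, hj, hv.2⟩⟩
    · obtain ⟨l1, l2, l3⟩ := (labB j1 j2).1 hl
      have m1 := xj_mono (K := K) (a := a) hb j1
      have m2 := xj_mono (K := K) (a := a) hb (show j + 1 ≤ N + 1 by omega)
      obtain ⟨x, y, hxy, hp⟩ := wb s hs (xin s (by linarith) (by linarith)) l3
      obtain ⟨i, rfl⟩ := onh hxy
      exact ⟨i, hp.mono fun v hv => (hou v).2 ⟨hv.1, Or.inr (Or.inr (Or.inr hv.2.1))⟩⟩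
    · obtain ⟨i, hp⟩ := F2 s hs hl
      exact ⟨i, hp.mono fun v hv => ⟨hv.1, N + 1, hj, hv.2⟩⟩
    · obtain ⟨l1, l2, l3⟩ := labT.1 hl
      obtain ⟨x, y, hxy, hp⟩ := wt s hs (xin s l1 l2) l3
      obtain ⟨i, rfl⟩ := onh hxy
      exact ⟨i, hp.mono fun v hv => (hou v).2 ⟨hv.1, Or.inr (Or.inr (Or.inl hv.2.1))⟩⟩
  obtain ⟨hpg, hout⟩ := assign (S := T) (n := n) (m := N + 2) (w := w) (p := p) (Lb := Lb) hgp hcyc
    (fun j hj => hH.mono j (by omega)) hH.last
    (fun i j hi hj s h1 h2 => uniq hb hN1 hi hj h1 h2)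
    (fun j hj => hH.lab j (by omega)) hH.labl hcon
  -- the pockets
  have pl : ∀ s ∈ Po T w (N + 2) Lb, ∃ l t, Loc z0 u a b D0 K N l t s := by
    rintro s ⟨⟨hs, j, hj, hl⟩, hno⟩
    rcases lcases hj with rfl | ⟨j1, j2⟩ | rfl | rfl
    · exact absurd (F1 s hs hl) (hno 0 hj)
    · obtain ⟨l1, l2, l3⟩ := (labB j1 j2).1 hl
      by_cases g1 : xj K a b j + 10 * D0 < X z0 u s
      · by_cases g2 : X z0 u s + 10 * D0 ≤ xj K a b (j + 1)
        · exact absurd (F3 s hs j j1 j2 hl g1 g2) (hno j hj)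
        · push Not at g2
          refine ⟨j + 1, false, by omega, by omega, ?_, fun h => by simp at h, fun _ => l3⟩
          rw [abs_le]
          constructor <;> linarith
      · push Not at g1
        refine ⟨j, false, j1, by omega, ?_, fun h => by simp at h, fun _ => l3⟩
        rw [abs_le]
        constructor <;> linarith
    · exact absurd (F2 s hs hl) (hno _ hj)
    · obtain ⟨l1, l2, l3⟩ := labT.1 hl
      by_cases g1 : xj K a b 1 + 10 * D0 < X z0 u s
      · by_cases g2 : X z0 u s + 10 * D0 ≤ xj K a b (N + 1)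
        · exact absurd (F4 s hs hl g1 g2) (hno _ hj)
        · push Not at g2
          refine ⟨N + 1, true, by omega, le_rfl, ?_, fun _ => l3, fun h => by simp at h⟩
          rw [abs_le]
          constructor <;> linarith
      · push Not at g1
        refine ⟨1, true, le_rfl, by omega, ?_, fun _ => l3, fun h => by simp at h⟩
        rw [abs_le]
        constructor <;> linarith
  have edX : ∀ {x y : ℂ}, Adj T x y → |X z0 u x - X z0 u y| ≤ 5 * D0 := fun h =>
    (H.X_diff _ _).trans (edge5 H.dns h)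
  have edY : ∀ {x y : ℂ}, Adj T x y → |Y z0 u x - Y z0 u y| ≤ 5 * D0 := fun h =>
    (H.Y_diff _ _).trans (edge5 H.dns h)
  have pstep : ∀ {l l' : ℕ} {t t' : Bool} {s s' : ℂ}, Adj T s s' →
      Loc z0 u a b D0 K N l t s → Loc z0 u a b D0 K N l' t' s' → l = l' ∧ t = t' := by
    rintro l l' t t' s s' hss ⟨a1, a2, a3, a4, a5⟩ ⟨b1, b2, b3, b4, b5⟩
    have e1 := edX hss
    have e2 := edY hss
    rw [abs_le] at e1 e2 a3 b3
    constructor
    · rcases lt_trichotomy l l' with h | h | h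
      · have := xj_lt (K := K) (a := a) hb h
        exfalso
        linarith
      · exact h
      · have := xj_lt (K := K) (a := a) hb h
        exfalso
        linarith
    · cases t <;> cases t'
      · rfl
      · have q1 := a5 rfl
        have q2 := b4 rfl
        exfalso
        linarith
      · have q1 := a4 rfl
        have q2 := b5 rfl
        exfalso
        linarith
      · rfl
  have ppath : ∀ {l : ℕ} {t : Bool} {s v : ℂ}, Pth T (Po T w (N + 2) Lb) s v →
      Loc z0 u a b D0 K N l t s → Loc z0 u a b D0 K N l t v := by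
    intro l t s v hp hl
    refine hp.ind (P := fun s => Loc z0 u a b D0 K N l t s) hl ?_
    intro x y hx hy hxy hlx
    obtain ⟨l', t', h'⟩ := pl y hy
    obtain ⟨rfl, rfl⟩ := pstep hxy hlx h'
    exact h'
  have prk : ∀ s ∈ Po T w (N + 2) Lb, ∀ j, Rk T w (N + 2) Lb s j → ∃ l t v y,
      Loc z0 u a b D0 K N l t s ∧ Loc z0 u a b D0 K N l t v ∧ Adj T v y ∧ Lb j y := by
    rintro s hs j ⟨v, y, q1, q2, q3⟩
    obtain ⟨l, t, hl⟩ := pl s hs
    exact ⟨l, t, v, y, hl, ppath q1 hl, q2, (mn_mem q3).2⟩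
  refine ⟨hpg, hN, fun s hs => ?_, ?_, ?_, ?_, ?_⟩
  · rw [hout s hs, outer_iff hb hN1]
  · -- left
    intro s hs
    rcases mem_Ak.1 hs with h | ⟨h1, h2, -⟩
    · have := lab0.1 (mn_mem h).2
      linarith
    · obtain ⟨l, t, v, y, ⟨a1, a2, a3, -⟩, ⟨-, -, b3, -⟩, q2, q3⟩ := prk s h1 0 h2
      have e1 := edX q2
      have q4 := lab0.1 q3
      rw [abs_le] at e1 a3 b3
      rcases Nat.eq_or_lt_of_le a1 with h | h
      · rw [← h] at a3
        linarith
      · have := xj_lt (K := K) (a := a) hb h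
        linarith
  · intro s hs
    rcases mem_Ak.1 hs with h | ⟨h1, h2, -⟩
    · have := labR.1 (mn_mem h).2
      linarith
    · obtain ⟨l, t, v, y, ⟨a1, a2, a3, -⟩, ⟨-, -, b3, -⟩, q2, q3⟩ := prk s h1 (N + 1) h2
      have e1 := edX q2
      have q4 := labR.1 q3
      rw [abs_le] at e1 a3 b3
      rcases Nat.eq_or_lt_of_le a2 with h | h
      · rw [h] at a3
        linarith
      · have := xj_lt (K := K) (a := a) hb h
        linarith
  · intro s hs
    rcases mem_Ak.1 hs with h | ⟨h1, h2, -⟩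
    · exact (labT.1 (mn_mem h).2).2.2
    · obtain ⟨l, t, v, y, ⟨-, -, -, a4, -⟩, ⟨-, -, -, -, b5⟩, q2, q3⟩ := prk s h1 (N + 2) h2
      have e1 := edY q2
      have q4 := (labT.1 q3).2.2
      rw [abs_le] at e1
      cases t
      · have := b5 rfl
        exfalso
        linarith
      · exact a4 rfl
  · intro j j1 j2 s hs
    rcases mem_Ak.1 hs with h | ⟨h1, h2, -⟩
    · obtain ⟨g1, g2, g3⟩ := (labB j1 j2).1 (mn_mem h).2
      exact ⟨by linarith, by linarith, g3⟩
    · obtain ⟨l, t, v, y, ⟨-, -, a3, -, a5⟩, ⟨-, -, b3, b4, -⟩, q2, q3⟩ := prk s h1 j h2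
      have e1 := edX q2
      have e2 := edY q2
      obtain ⟨g1, g2, g3⟩ := (labB j1 j2).1 q3
      rw [abs_le] at e1 e2 a3 b3
      have ht : t = false := by
        cases t
        · rfl
        · have := b4 rfl
          exfalso
          linarith
      have hl : l = j ∨ l = j + 1 := by
        rcases Nat.lt_or_ge l j with h | h
        · have := xj_lt (K := K) (a := a) hb h
          exfalso
          linarith
        · rcases Nat.lt_or_ge (j + 1) l with h' | h'
          · have := xj_lt (K := K) (a := a) hb h'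
            exfalso
            linarith
          · omega
      have hs1 := xj_succ (a := a) (b := b) K j
      refine ⟨?_, ?_, a5 ht⟩
      · rcases hl with rfl | rfl <;> linarith
      · rcases hl with rfl | rfl <;> linarith

end geo

/-- `c1` -/
theorem small (hk : 1 ≤ k) (ha : 0 < a) (hb : 0 < b) (hab : a ≤ k * b) (hd : 0 < d) (hK : 0 < K)
    (h : d ≤ 1 / (20480000 * (1 + k) ^ 2 * (MM K : ℝ) ^ 2) * b) :
    100 * (1 + k) * d ≤ b ∧ 200 * Real.sqrt (RR k a b * d) ≤ hh K b := by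
  have hM := MM3 hK
  have hpos : (0 : ℝ) < 20480000 * (1 + k) ^ 2 * (MM K : ℝ) ^ 2 := by positivity
  have h1 : d * (20480000 * (1 + k) ^ 2 * (MM K : ℝ) ^ 2) ≤ b := by
    rw [one_div, mul_comm, ← div_eq_mul_inv] at h
    rwa [le_div_iff₀ hpos] at h
  constructor
  · have h2 : 1 ≤ (MM K : ℝ) ^ 2 := by nlinarith
    have h3 : (1 + k) ≤ (1 + k) ^ 2 := by nlinarith
    have h4 : d * (100 * (1 + k)) ≤ d * (20480000 * (1 + k) ^ 2 * (MM K : ℝ) ^ 2) := by
      apply mul_le_mul_of_nonneg_left _ hd.le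
      nlinarith
    linarith
  · have h2 : RR k a b ≤ 8 * (1 + k) ^ 2 * b := by
      unfold RR
      have : a + b ≤ (1 + k) * b := by linarith
      nlinarith [mul_le_mul_of_nonneg_left this (show (0 : ℝ) ≤ 8 * (1 + k) by linarith)]
    have h3 : RR k a b * d ≤ 8 * (1 + k) ^ 2 * b * d := mul_le_mul_of_nonneg_right h2 hd.le
    have h5 : Real.sqrt (RR k a b * d) ≤ hh K b / 200 := by
      apply Real.sqrt_le_iff.2
      refine ⟨by have := hh_pos (b := b) K hb; positivity, ?_⟩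
      unfold hh
      have h6 : (b / (8 * (MM K : ℝ)) / 200) ^ 2 = b ^ 2 / (2560000 * (MM K : ℝ) ^ 2) := by
        field_simp
        norm_num
      rw [h6]
      refine h3.trans ?_
      rw [le_div_iff₀ (by positivity)]
      nlinarith
    linarith

/-- **GEO3 from the walks** -/
theorem geo3_of
    (wb : ∀ (S : Finset ℂ) (z0 u : ℂ) (a b k d : ℝ), SH S z0 u a b k d →
      400 * Real.sqrt (RR k a b * d) ≤ b → WB S z0 u a b k d)
    (wt : ∀ (S : Finset ℂ) (z0 u : ℂ) (a b k d : ℝ), SH S z0 u a b k d →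
      400 * Real.sqrt (RR k a b * d) ≤ b → WT S z0 u a b k d) : GEO3 := by
  intro k hk K hK
  obtain ⟨c1, hc1, h⟩ := HULx838.hul k hk K hK
  have hM := MM3 hK
  refine ⟨min c1 (1 / (20480000 * (1 + k) ^ 2 * (MM K : ℝ) ^ 2)), lt_min hc1 (by positivity), ?_⟩
  intro S z0 u a b d hu ha hb hab hba hld hd
  obtain ⟨N, hN⟩ := nok_ex hK ha hb hab
  have hd1 : d ≤ c1 * b := hd.trans (mul_le_mul_of_nonneg_right (min_le_left _ _) hb.le)
  have hd2 : d ≤ 1 / (20480000 * (1 + k) ^ 2 * (MM K : ℝ) ^ 2) * b :=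
    hd.trans (mul_le_mul_of_nonneg_right (min_le_right _ _) hb.le)
  obtain ⟨s1, s2⟩ := small hk ha hb hab hld.dpos hK hd2
  have H : SH S z0 u a b k d := ⟨hk, hu, ha, hb, hab, hba, hld, s1⟩
  obtain ⟨n, w, p, hH⟩ := h S z0 u a b d N hu ha hb hab hba hld hd1 hN
  have h4 : 400 * Real.sqrt (RR k a b * d) ≤ b := by
    have := hh_le (b := b) hK hb
    have := hh_pos (b := b) K hb
    linarith
  exact ⟨n, w, N, p, _, geo H hK hN s2 hH (wb S z0 u a b k d H h4) (wt S z0 u a b k d H h4)⟩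

end Crest.Agent.R143.RE5x723
end
end

-- ▼ part R143/EPG_930
section

/-!
# Row 143, RSW without E3, leaf T4 (helper930)

* `Pg.qd` : the quads of a polygon, `fre_qk`
* `epg : EPQ → EPG`
-/

set_option autoImplicit false
set_option linter.unusedSectionVars false

noncomputable section

open scoped Classical

namespace Crest.Agent.R143.EPGx930

open Set
open Crest.Agent.R143.B0x346 Crest.Agent.R143.DelGx806 Crest.Agent.R143.DelRx806
open Crest.Agent.R143.Famx930 Crest.Agent.R143.Halfx930 Crest.Agent.R143.RE0x723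
open Crest.Agent.R143.JColx54 Crest.Agent.R143.Crsx117
open Crest.Agent.R143.Circx63 Crest.Agent.R143.Scalx63 Crest.Agent.R143.SSbx930
open Crest.Agent.R143.RB0x838 (LDns Mesh Cross)
open Crest.Agent.R143.RB2x54 (Vt)
open Crest.Agent.R143.Harx315 (pr)
open Crest.Agent.R143.Locx922 (norm_tri)

/-! ### the quads of a polygon -/

section Pg

variable {S : Finset ℂ} {n : ℕ} {w : ℤ → ℂ} {m : ℕ} {p : ℕ → ℤ} {A : ℕ → Finset ℂ}

theorem mem_un {i l : ℕ} {v : ℂ} : v ∈ un A i l ↔ ∃ j, i ≤ j ∧ j < l ∧ v ∈ A j := by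
  unfold un
  rw [Finset.mem_biUnion]
  constructor
  · rintro ⟨j, h1, h2⟩
    rw [Finset.mem_Ico] at h1
    exact ⟨j, h1.1, h1.2, h2⟩
  · rintro ⟨j, h1, h2, h3⟩
    exact ⟨j, Finset.mem_Ico.2 ⟨h1, h2⟩, h3⟩

theorem pth_mono {V V' : Set ℂ} (h : V ⊆ V') {x y : ℂ} (hp : Pth S V x y) : Pth S V' x y :=
  hp.mono h

theorem pth_trans {V : Set ℂ} {x y z : ℂ} (h : Pth S V x y) (h' : Pth S V y z) : Pth S V x z :=
  h.trans h'

theorem pth_symm {V : Set ℂ} {x y : ℂ} (h : Pth S V x y) : Pth S V y x := h.symm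

theorem pth_adj {V : Set ℂ} {x y : ℂ} (hx : x ∈ V) (hy : y ∈ V) (h : Adj S x y) : Pth S V x y :=
  Pth.single hx h hy

theorem mono_lt (P : Pg S n w m p A) {i j : ℕ} (hij : i < j) (hj : j ≤ m) : p i < p j := by
  induction j with
  | zero => omega
  | succ j ih =>
    have h1 := P.mono j (by omega)
    rcases Nat.lt_succ_iff_lt_or_eq.1 hij with h | h
    · exact (ih h (by omega)).trans h1
    · rw [h]; exact h1

theorem mono_le (P : Pg S n w m p A) {i j : ℕ} (hij : i ≤ j) (hj : j ≤ m) : p i ≤ p j := by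
  rcases hij.eq_or_lt with h | h
  · rw [h]
  · exact (mono_lt P h hj).le

/-- the position in the arcs -/
theorem find (_P : Pg S n w m p A) {i l : ℕ} (hil : i ≤ l) (hl : l ≤ m) {k : ℤ} (h1 : p i < k)
    (h2 : k ≤ p l) : ∃ j, i ≤ j ∧ j < l ∧ p j < k ∧ k ≤ p (j + 1) := by
  induction l with
  | zero =>
    have : i = 0 := by omega
    subst this
    omega
  | succ l ih =>
    rcases le_or_gt k (p l) with h | h
    · rcases Nat.lt_or_ge l i with h3 | h3
      · have : i = l + 1 := by omega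
        subst this
        omega
      · obtain ⟨j, a1, a2, a3, a4⟩ := ih h3 (by omega) h
        exact ⟨j, a1, by omega, a3, a4⟩
    · rcases Nat.lt_or_ge l i with h3 | h3
      · have : i = l + 1 := by omega
        subst this
        omega
      · exact ⟨l, h3, by omega, h, h2⟩

theorem adj_hull {a b : ℂ} (h : hullE S a b) : Adj S a b := Or.inl h.1

/-- a site of every class at the end of its arc -/
theorem last_mem (P : Pg S n w m p A) {j : ℕ} (hj : j < m) : w (p (j + 1)) ∈ A j :=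
  P.arc j hj _ (P.mono j hj) le_rfl

theorem first_mem (P : Pg S n w m p A) {j : ℕ} (hj : j ≤ m) : w (p j + 1) ∈ A j := by
  rcases hj.eq_or_lt with h | h
  · rw [h]
    exact P.arcl _ (by omega) (by have := P.last; omega)
  · have := P.mono j h
    exact P.arc j h _ (by omega) (by omega)

/-- consecutive classes are connected -/
theorem un_con (P : Pg S n w m p A) {i l : ℕ} (hl : l ≤ m + 1) :
    ∀ x ∈ un A i l, ∀ y ∈ un A i l, Pth S (un A i l : Set ℂ) x y := by
  -- every site is joined to the first site of the class `i`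
  have key : ∀ j, i ≤ j → j < l → ∀ x ∈ A j, Pth S (un A i l : Set ℂ) (w (p i + 1)) x := by
    intro j
    induction j with
    | zero =>
      intro h1 h2 x hx
      have h0 : i = 0 := by omega
      have hsub : ((A 0 : Finset ℂ) : Set ℂ) ⊆ (un A i l : Set ℂ) := fun v hv =>
        Finset.mem_coe.2 (mem_un.2 ⟨0, by omega, h2, Finset.mem_coe.1 hv⟩)
      rw [h0] at hsub ⊢
      exact pth_mono hsub (P.con 0 (by omega) _ (first_mem P (by omega)) _ hx)
    | succ j ih =>
      intro h1 h2 x hx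
      have hsub : ∀ q, i ≤ q → q < l → ((A q : Finset ℂ) : Set ℂ) ⊆ (un A i l : Set ℂ) :=
        fun q hq hq' v hv => Finset.mem_coe.2 (mem_un.2 ⟨q, hq, hq', Finset.mem_coe.1 hv⟩)
      rcases Nat.lt_or_ge j i with h3 | h3
      · have h0 : i = j + 1 := by omega
        have hs := hsub (j + 1) h1 h2
        rw [h0] at hs ⊢
        exact pth_mono hs (P.con (j + 1) (by omega) _ (first_mem P (by omega)) _ hx)
      · have a1 := ih h3 (by omega) _ (last_mem P (j := j) (by omega))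
        have a2 : Pth S (un A i l : Set ℂ) (w (p (j + 1))) (w (p (j + 1) + 1)) :=
          pth_adj (hsub j h3 (by omega) (Finset.mem_coe.2 (last_mem P (by omega))))
            (hsub (j + 1) h1 h2 (Finset.mem_coe.2 (first_mem P (by omega))))
            (adj_hull (P.cyc.edge _))
        have a3 : Pth S (un A i l : Set ℂ) (w (p (j + 1) + 1)) x :=
          pth_mono (hsub (j + 1) h1 h2)
            (P.con (j + 1) (by omega) _ (first_mem P (by omega)) _ hx)
        exact pth_trans a1 (pth_trans a2 a3)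
  intro x hx y hy
  obtain ⟨j, a1, a2, a3⟩ := mem_un.1 hx
  obtain ⟨j', b1, b2, b3⟩ := mem_un.1 hy
  exact pth_trans (pth_symm (key j a1 a2 x a3)) (key j' b1 b2 y b3)

theorem z4 (i : ZMod 4) : i = 0 ∨ i = 1 ∨ i = 2 ∨ i = 3 := by revert i; decide


/-- **the quads of a polygon** -/
theorem qd (P : Pg S n w m p A) {i j l : ℕ} (h0 : 0 < i) (h1 : i < j) (h2 : j < l) (h3 : l ≤ m) :
    Qd S n w (p 0) (p i) (p j) (p l) (qk A m i j l) where
  gp := P.gp
  m4 := ⟨P.cyc, mono_lt P h0 (by omega), mono_lt P h1 (by omega), mono_lt P h2 h3, by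
    have := mono_le P h3 le_rfl
    have := P.last
    omega⟩
  sub := by
    have key : ∀ i l, l ≤ m + 1 → un A i l ⊆ S := by
      intro i l hl v hv
      obtain ⟨q, -, a2, a3⟩ := mem_un.1 hv
      exact P.sub q (by omega) a3
    intro c
    rcases z4 c with rfl | rfl | rfl | rfl
    · exact key _ _ (by omega)
    · exact key _ _ (by omega)
    · exact key _ _ (by omega)
    · exact key _ _ (by omega)
  disj := by
    have key : ∀ i l i' l', l ≤ m + 1 → l' ≤ m + 1 → l ≤ i' → Disjoint (un A i l) (un A i' l') := by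
      intro i l i' l' hl hl' hli
      rw [Finset.disjoint_left]
      intro v hv hv'
      obtain ⟨q, a1, a2, a3⟩ := mem_un.1 hv
      obtain ⟨q', b1, b2, b3⟩ := mem_un.1 hv'
      exact Finset.disjoint_left.1 (P.disj q q' (by omega) (by omega) (by omega)) a3 b3
    intro c c' hcc
    rcases z4 c with rfl | rfl | rfl | rfl <;> rcases z4 c' with rfl | rfl | rfl | rfl <;>
      first
      | exact absurd rfl hcc
      | exact key _ _ _ _ (by omega) (by omega) (by omega)
      | exact (key _ _ _ _ (by omega) (by omega) (by omega)).symm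
  con := by
    intro c
    rcases z4 c with rfl | rfl | rfl | rfl
    · exact un_con P (by omega)
    · exact un_con P (by omega)
    · exact un_con P (by omega)
    · exact un_con P (by omega)
  a0 k ha hb := by
    obtain ⟨q, a1, a2, a3, a4⟩ := find P (Nat.zero_le _) (by omega) ha hb
    exact mem_un.2 ⟨q, a1, a2, P.arc q (by omega) k a3 a4⟩
  a1 k ha hb := by
    obtain ⟨q, a1, a2, a3, a4⟩ := find P h1.le (by omega) ha hb
    exact mem_un.2 ⟨q, a1, a2, P.arc q (by omega) k a3 a4⟩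
  a2 k ha hb := by
    obtain ⟨q, a1, a2, a3, a4⟩ := find P h2.le (by omega) ha hb
    exact mem_un.2 ⟨q, a1, a2, P.arc q (by omega) k a3 a4⟩
  a3 k ha hb := by
    rcases le_or_gt k (p m) with h | h
    · obtain ⟨q, a1, a2, a3, a4⟩ := find P h3 le_rfl ha h
      exact mem_un.2 ⟨q, a1, by omega, P.arc q a2 k a3 a4⟩
    · exact mem_un.2 ⟨m, by omega, by omega, P.arcl k h hb⟩

/-- the free sites -/
theorem fre_qk {i j l : ℕ} (h1 : i ≤ j) (h2 : j ≤ l) (h3 : l ≤ m + 1) :
    fre S (qk A m i j l) = inr S A m := by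
  ext v
  unfold fre inr
  rw [Finset.mem_filter, Finset.mem_sdiff]
  refine and_congr_right fun _ => ⟨fun h hv => ?_, fun h c hc => ?_⟩
  · obtain ⟨q, -, a2, a3⟩ := mem_un.1 hv
    rcases Nat.lt_or_ge q i with g | g
    · exact h 0 (mem_un.2 ⟨q, by omega, g, a3⟩)
    rcases Nat.lt_or_ge q j with g' | g'
    · exact h 1 (mem_un.2 ⟨q, g, g', a3⟩)
    rcases Nat.lt_or_ge q l with g'' | g''
    · exact h 2 (mem_un.2 ⟨q, g', g'', a3⟩)
    · exact h 3 (mem_un.2 ⟨q, g'', a2, a3⟩)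
  · apply h
    have key : ∀ i' l', l' ≤ m + 1 → v ∈ un A i' l' → v ∈ un A 0 (m + 1) := by
      intro i' l' hl' hv
      obtain ⟨q, -, a2, a3⟩ := mem_un.1 hv
      exact mem_un.2 ⟨q, by omega, by omega, a3⟩
    rcases z4 c with rfl | rfl | rfl | rfl
    · exact key _ _ (by omega) hc
    · exact key _ _ (by omega) hc
    · exact key _ _ (by omega) hc
    · exact key _ _ (by omega) hc

end Pg

/-! ### the arcs -/

section Geo

variable {S : Finset ℂ} {z0 u : ℂ} {a b k d : ℝ} {K n N : ℕ} {w : ℤ → ℂ} {p : ℕ → ℤ}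
  {A : ℕ → Finset ℂ}

/-- the centre of the arcs -/
def ctr (z0 u : ℂ) (K : ℕ) (a b : ℝ) (i : ℕ) : ℂ :=
  z0 + u * (((xj K a b i : ℝ) : ℂ) + ((-(b / 2) : ℝ) : ℂ) * Complex.I)

theorem u_exp (hu : ‖u‖ = 1) : Complex.exp ((Complex.arg u : ℂ) * Complex.I) = u := by
  have := Complex.norm_mul_exp_arg_mul_I u
  rwa [hu, Complex.ofReal_one, one_mul] at this

/-- points of the arcs in the frame -/
theorem arc_pt (H : SH S z0 u a b k d) {i : ℕ} {ρ : ℝ} {y : ℂ}
    (hy : y ∈ arc (ctr z0 u K a b i) (Complex.arg u - Real.pi / 6) (Complex.arg u + 7 * Real.pi / 6) ρ) :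
    ∃ θ : ℝ, -(Real.pi / 6) ≤ θ ∧ θ ≤ 7 * Real.pi / 6 ∧
      X z0 u y = xj K a b i + ρ * Real.cos θ ∧ Y z0 u y = -(b / 2) + ρ * Real.sin θ := by
  obtain ⟨α, ⟨h1, h2⟩, rfl⟩ := hy
  refine ⟨α - Complex.arg u, by linarith, by linarith, ?_⟩
  have e : ((ctr z0 u K a b i + (ρ : ℂ) * Complex.exp ((α : ℂ) * Complex.I)) - z0) / u =
      (((xj K a b i : ℝ) : ℂ) + ((-(b / 2) : ℝ) : ℂ) * Complex.I) +
        (ρ : ℂ) * Complex.exp (((α - Complex.arg u : ℝ) : ℂ) * Complex.I) := by
    have h3 : Complex.exp ((α : ℂ) * Complex.I) =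
        u * Complex.exp (((α - Complex.arg u : ℝ) : ℂ) * Complex.I) := by
      calc Complex.exp ((α : ℂ) * Complex.I)
          = Complex.exp ((Complex.arg u : ℂ) * Complex.I) *
            Complex.exp (((α - Complex.arg u : ℝ) : ℂ) * Complex.I) := by
            rw [← Complex.exp_add]
            congr 1
            push_cast
            ring
        _ = u * Complex.exp (((α - Complex.arg u : ℝ) : ℂ) * Complex.I) := by rw [u_exp H.u1]
    rw [h3]
    unfold ctr
    have hu := H.u0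
    field_simp
    ring
  unfold X Y
  simp only
  rw [e]
  constructor
  · rw [Complex.add_re, Complex.add_re, Complex.ofReal_re, Complex.re_ofReal_mul, Complex.I_re,
      Complex.re_ofReal_mul, Complex.exp_ofReal_mul_I_re]
    ring
  · rw [Complex.add_im, Complex.add_im, Complex.ofReal_im, Complex.im_ofReal_mul, Complex.I_im,
      Complex.im_ofReal_mul, Complex.exp_ofReal_mul_I_im]
    ring

/-- every angle in the range gives a point -/
theorem pt_arc (H : SH S z0 u a b k d) (i : ℕ) (ρ : ℝ) {θ : ℝ} (h1 : -(Real.pi / 6) ≤ θ)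
    (h2 : θ ≤ 7 * Real.pi / 6) :
    ∃ y ∈ arc (ctr z0 u K a b i) (Complex.arg u - Real.pi / 6) (Complex.arg u + 7 * Real.pi / 6) ρ,
      X z0 u y = xj K a b i + ρ * Real.cos θ ∧ Y z0 u y = -(b / 2) + ρ * Real.sin θ := by
  refine ⟨_, ⟨Complex.arg u + θ, ⟨by linarith, by linarith⟩, rfl⟩, ?_⟩
  have e : ((ctr z0 u K a b i + (ρ : ℂ) * Complex.exp (((Complex.arg u + θ : ℝ) : ℂ) * Complex.I)) -
      z0) / u = (((xj K a b i : ℝ) : ℂ) + ((-(b / 2) : ℝ) : ℂ) * Complex.I) +
        (ρ : ℂ) * Complex.exp ((θ : ℂ) * Complex.I) := by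
    have h3 : Complex.exp (((Complex.arg u + θ : ℝ) : ℂ) * Complex.I) =
        u * Complex.exp ((θ : ℂ) * Complex.I) := by
      calc Complex.exp (((Complex.arg u + θ : ℝ) : ℂ) * Complex.I)
          = Complex.exp ((Complex.arg u : ℂ) * Complex.I) *
            Complex.exp ((θ : ℂ) * Complex.I) := by
            rw [← Complex.exp_add]
            congr 1
            push_cast
            ring
        _ = u * Complex.exp ((θ : ℂ) * Complex.I) := by rw [u_exp H.u1]
    rw [h3]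
    unfold ctr
    have hu := H.u0
    field_simp
    ring
  unfold X Y
  simp only
  rw [e]
  constructor
  · rw [Complex.add_re, Complex.add_re, Complex.ofReal_re, Complex.re_ofReal_mul, Complex.I_re,
      Complex.re_ofReal_mul, Complex.exp_ofReal_mul_I_re]
    ring
  · rw [Complex.add_im, Complex.add_im, Complex.ofReal_im, Complex.im_ofReal_mul, Complex.I_im,
      Complex.im_ofReal_mul, Complex.exp_ofReal_mul_I_im]
    ring

theorem sin_ge {θ : ℝ} (h1 : -(Real.pi / 6) ≤ θ) (h2 : θ ≤ 7 * Real.pi / 6) :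
    -(1 / 2) ≤ Real.sin θ := by
  have hpi := Real.pi_pos
  have h6 : Real.sin (-(Real.pi / 6)) = -(1 / 2) := by
    rw [Real.sin_neg, Real.sin_pi_div_six]
  rcases le_total θ (Real.pi / 2) with h | h
  · rw [← h6]
    exact Real.sin_le_sin_of_le_of_le_pi_div_two (by linarith) h h1
  · rw [← h6, ← Real.sin_pi_sub θ]
    exact Real.sin_le_sin_of_le_of_le_pi_div_two (by linarith) (by linarith) (by linarith)

theorem hh_pos (hb : 0 < b) : 0 < hh K b := by
  unfold hh MM
  positivity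

theorem hh_K (hb : 0 < b) : (4 : ℝ) ^ K * hh K b < b / 8 := by
  unfold hh MM
  push_cast
  rw [mul_div_assoc', div_lt_div_iff₀ (by positivity) (by norm_num)]
  nlinarith [pow_pos (show (0 : ℝ) < 4 by norm_num) K]

theorem xj_mono {i j : ℕ} (hb : 0 < b) (h : i ≤ j) : xj K a b i ≤ xj K a b j := by
  unfold xj
  have h1 : (i : ℝ) ≤ j := by exact_mod_cast h
  have := hh_pos (K := K) hb
  nlinarith

theorem xj_succ (i : ℕ) : xj K a b (i + 1) = xj K a b i + hh K b := by
  unfold xj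
  push_cast
  ring

/-- the arcs are deep -/
theorem arc_deep (H : SH S z0 u a b k d) (G : Geo S z0 u a b k K n w N p A) {i : ℕ} (hi : 1 ≤ i)
    (hiN : i ≤ N) {ρ : ℝ} (hρ0 : 0 ≤ ρ) (hρ : ρ ≤ b / 8) {y : ℂ}
    (hy : y ∈ arc (ctr z0 u K a b i) (Complex.arg u - Real.pi / 6) (Complex.arg u + 7 * Real.pi / 6) ρ) :
    ‖y - cc z0 u k a b‖ ≤ RR k a b - 4 * d := by
  obtain ⟨θ, h1, h2, hX, hY⟩ := arc_pt H hy
  have ha := H.ha
  have hb := H.hb
  have hs := sin_ge h1 h2
  have hs1 := Real.sin_le_one θ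
  have hc1 := Real.cos_le_one θ
  have hc2 := Real.neg_one_le_cos θ
  have x1 : xj K a b 1 ≤ xj K a b i := xj_mono hb hi
  have x2 : xj K a b i ≤ xj K a b (N + 1) := xj_mono hb (by omega)
  have x3 : xj K a b 1 = -(a + b / 4) := by unfold xj; push_cast; ring
  have x4 := G.nok.xr
  apply H.deep
  · rw [hX, abs_le]
    constructor <;> nlinarith
  · rw [hY]; nlinarith
  · rw [hY]; nlinarith

/-- the classes of the corners -/
theorem arc_cls (H : SH S z0 u a b k d) (G : Geo S z0 u a b k K n w N p A)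
    (hdh : 100 * d ≤ hh K b) {i : ℕ} (hi : 1 ≤ i)
    (hiN : i ≤ N) {ρ : ℝ} (hρ : 2 * hh K b ≤ ρ) (hρ' : ρ ≤ b / 8) {y v : ℂ}
    (hy : y ∈ arc (ctr z0 u K a b i) (Complex.arg u - Real.pi / 6) (Complex.arg u + 7 * Real.pi / 6) ρ)
    (hv : ‖v - y‖ < 2 * d) {j : ℕ} (hj : j ≤ N + 2) (hvj : v ∈ A j) : j < i ∨ i < j ∧ j < N + 2 := by
  obtain ⟨θ, h1, h2, hX, hY⟩ := arc_pt H hy
  have ha := H.ha
  have hb := H.hb
  have hd := H.dp
  have hdb := H.d_b
  have hh0 := hh_pos (K := K) hb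
  have hXd := abs_le.1 (H.X_diff v y)
  have hYd := abs_le.1 (H.Y_diff v y)
  have hs := sin_ge h1 h2
  have hs1 := Real.sin_le_one θ
  rcases lt_trichotomy j i with h | h | h
  · exact Or.inl h
  · exfalso
    subst h
    obtain ⟨g1, g2, g3⟩ := G.loc j hi hiN v hvj
    rw [xj_succ] at g2
    have hρ0 : 0 < ρ := by linarith
    have k1 : ρ * Real.sin θ < 2 * d := by linarith
    have k2 : Real.sin θ ≤ 1 / 2 := by
      by_contra hcon
      push Not at hcon
      nlinarith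
    have k3 : Real.sin θ ^ 2 ≤ 1 / 4 := by
      have : |Real.sin θ| ≤ 1 / 2 := abs_le.2 ⟨by linarith, k2⟩
      have := pow_le_pow_left₀ (abs_nonneg _) this 2
      rw [sq_abs] at this
      norm_num at this ⊢
      exact this
    have k4 := Real.sin_sq_add_cos_sq θ
    have k5 : (ρ * Real.cos θ) ^ 2 ≥ 3 / 4 * ρ ^ 2 := by
      rw [mul_pow]
      nlinarith [sq_nonneg ρ]
    have k6 : |ρ * Real.cos θ| ≤ 12 / 10 * hh K b := by
      rw [abs_le]
      constructor <;> linarith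
    have k7 := pow_le_pow_left₀ (abs_nonneg _) k6 2
    rw [sq_abs] at k7
    nlinarith
  · refine Or.inr ⟨h, ?_⟩
    rcases Nat.lt_or_ge j (N + 2) with g | g
    · exact g
    · exfalso
      have : j = N + 2 := by omega
      subst this
      have g1 := G.locT v hvj
      have : ρ * Real.sin θ ≤ ρ := by nlinarith
      linarith

theorem cos_76 : Real.cos (7 * Real.pi / 6) = -(Real.sqrt 3 / 2) ∧
    Real.sin (7 * Real.pi / 6) = -(1 / 2) := by
  have e : 7 * Real.pi / 6 = Real.pi / 6 + Real.pi := by ring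
  rw [e, Real.cos_add_pi, Real.sin_add_pi, Real.cos_pi_div_six, Real.sin_pi_div_six]
  exact ⟨rfl, rfl⟩

theorem sqrt3 : 17 / 10 ≤ Real.sqrt 3 := by
  apply Real.le_sqrt_of_sq_le
  norm_num

/-- the left end -/
theorem arc_left (H : SH S z0 u a b k d) (G : Geo S z0 u a b k K n w N p A)
    (hdh : 100 * d ≤ hh K b) {i : ℕ} (hi : 1 ≤ i)
    (hiN : i ≤ N) {ρ : ℝ} (hρ : 2 * hh K b ≤ ρ) (hρ' : ρ ≤ b / 8) :
    ∃ t ∈ delT (SS S z0 u k a b), (cT t ∩ arc (ctr z0 u K a b i) (Complex.arg u - Real.pi / 6)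
      (Complex.arg u + 7 * Real.pi / 6) ρ).Nonempty ∧ ∃ v, Vt t v ∧ v ∈ un A 0 i := by
  have ha := H.ha
  have hb := H.hb
  have hd := H.dp
  have hh0 := hh_pos (K := K) hb
  have hpi := Real.pi_pos
  obtain ⟨y, hy, hX, hY⟩ := pt_arc H (K := K) i ρ (θ := 7 * Real.pi / 6) (by linarith) le_rfl
  rw [cos_76.1] at hX
  rw [cos_76.2] at hY
  have hdeep := arc_deep H G hi hiN (by linarith) hρ' hy
  obtain ⟨t, ht, hyt⟩ := H.cover (p := y) (by linarith)
  have hvt := H.vt ht hyt (by linarith) (v := t.1) (Or.inl rfl)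
  have hXd := abs_le.1 (H.X_diff t.1 y)
  have hYd := abs_le.1 (H.Y_diff t.1 y)
  have h3 := sqrt3
  refine ⟨t, ht, ⟨y, hyt, hy⟩, t.1, Or.inl rfl, ?_⟩
  obtain ⟨j, hj, hvj⟩ := (G.outer t.1 hvt.2).2 (Or.inr (Or.inr (Or.inr (by linarith))))
  rcases arc_cls H G hdh hi hiN hρ hρ' hy hvt.1 hj hvj with h | ⟨h, h'⟩
  · exact mem_un.2 ⟨j, Nat.zero_le _, h, hvj⟩
  · exfalso
    have k1 : X z0 u t.1 ≤ xj K a b i - 16 / 10 * hh K b := by nlinarith
    rcases Nat.lt_or_ge j (N + 1) with g | g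
    · obtain ⟨g1, -, -⟩ := G.loc j (by omega) (by omega) _ hvj
      have := xj_mono (K := K) (a := a) hb h.le
      linarith
    · have : j = N + 1 := by omega
      subst this
      have g1 := G.locN _ hvj
      have := xj_mono (K := K) (a := a) hb h.le
      linarith

/-- the right end -/
theorem arc_right (H : SH S z0 u a b k d) (G : Geo S z0 u a b k K n w N p A)
    (hdh : 100 * d ≤ hh K b) {i : ℕ} (hi : 1 ≤ i)
    (hiN : i ≤ N) {ρ : ℝ} (hρ : 2 * hh K b ≤ ρ) (hρ' : ρ ≤ b / 8) :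
    ∃ t ∈ delT (SS S z0 u k a b), (cT t ∩ arc (ctr z0 u K a b i) (Complex.arg u - Real.pi / 6)
      (Complex.arg u + 7 * Real.pi / 6) ρ).Nonempty ∧ ∃ v, Vt t v ∧ v ∈ un A (i + 1) (N + 2) := by
  have ha := H.ha
  have hb := H.hb
  have hd := H.dp
  have hh0 := hh_pos (K := K) hb
  have hpi := Real.pi_pos
  obtain ⟨y, hy, hX, hY⟩ := pt_arc H (K := K) i ρ (θ := -(Real.pi / 6)) le_rfl (by linarith)
  rw [Real.cos_neg, Real.cos_pi_div_six] at hX
  rw [Real.sin_neg, Real.sin_pi_div_six] at hY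
  have hdeep := arc_deep H G hi hiN (by linarith) hρ' hy
  obtain ⟨t, ht, hyt⟩ := H.cover (p := y) (by linarith)
  have hvt := H.vt ht hyt (by linarith) (v := t.1) (Or.inl rfl)
  have hXd := abs_le.1 (H.X_diff t.1 y)
  have hYd := abs_le.1 (H.Y_diff t.1 y)
  have h3 := sqrt3
  refine ⟨t, ht, ⟨y, hyt, hy⟩, t.1, Or.inl rfl, ?_⟩
  obtain ⟨j, hj, hvj⟩ := (G.outer t.1 hvt.2).2 (Or.inr (Or.inr (Or.inr (by linarith))))
  rcases arc_cls H G hdh hi hiN hρ hρ' hy hvt.1 hj hvj with h | ⟨h, h'⟩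
  · exfalso
    have k1 : xj K a b i + 16 / 10 * hh K b ≤ X z0 u t.1 := by nlinarith
    rcases Nat.eq_zero_or_pos j with g | g
    · subst g
      have g1 := G.loc0 _ hvj
      have := xj_mono (K := K) (a := a) hb hi
      linarith
    · obtain ⟨-, g2, -⟩ := G.loc j (by omega) (by omega) _ hvj
      have := xj_mono (K := K) (a := a) hb (show j + 1 ≤ i by omega)
      linarith
  · exact mem_un.2 ⟨j, by omega, h', hvj⟩

/-- the balls around the centre are deep -/
theorem ctr_deep (H : SH S z0 u a b k d) (G : Geo S z0 u a b k K n w N p A) {i : ℕ} (hi : 1 ≤ i)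
    (hiN : i ≤ N) : ‖ctr z0 u K a b i - cc z0 u k a b‖ + b / 8 ≤ RR k a b - 2 * d := by
  have hk := H.k1
  have ha := H.ha
  have hb := H.hb
  have hR := H.Rb
  have hd := H.dp
  have hsm := H.sm
  have hdb := H.d_b
  have x1 : xj K a b 1 ≤ xj K a b i := xj_mono hb hi
  have x2 : xj K a b i ≤ xj K a b (N + 1) := xj_mono hb (by omega)
  have x3 : xj K a b 1 = -(a + b / 4) := by unfold xj; push_cast; ring
  have x4 := G.nok.xr
  have hXc : X z0 u (ctr z0 u K a b i) = xj K a b i := by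
    unfold X ctr
    rw [add_sub_cancel_left, mul_div_cancel_left₀ _ H.u0, Complex.add_re, Complex.ofReal_re,
      Complex.re_ofReal_mul, Complex.I_re]
    ring
  have hYc : Y z0 u (ctr z0 u K a b i) = -(b / 2) := by
    unfold Y ctr
    rw [add_sub_cancel_left, mul_div_cancel_left₀ _ H.u0, Complex.add_im, Complex.ofReal_im,
      Complex.im_ofReal_mul, Complex.I_im]
    ring
  have key : ‖ctr z0 u K a b i - cc z0 u k a b‖ ≤ RR k a b - b / 8 - 2 * d := by
    rw [← abs_of_nonneg (norm_nonneg (ctr z0 u K a b i - cc z0 u k a b)),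
      ← abs_of_nonneg (show 0 ≤ RR k a b - b / 8 - 2 * d by linarith), ← sq_le_sq, H.norm_sq, hXc,
      hYc]
    have h1 : xj K a b i ^ 2 ≤ (a + b) ^ 2 := by
      rw [sq_le_sq, abs_of_nonneg (show 0 ≤ a + b by linarith), abs_le]
      constructor <;> linarith
    have hRe : RR k a b = 8 * ((1 + k) * (a + b)) := by unfold RR; ring
    have h3 : a + b ≤ (1 + k) * b := by linarith [H.ab]
    have h4 : (a + b) * (a + b) ≤ (1 + k) * (a + b) * b := by nlinarith
    have h5 : d * RR k a b * 100 ≤ 8 * (b * (a + b)) := by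
      rw [hRe]; nlinarith
    have h6 : b * b ≤ b * (a + b) := by nlinarith
    have h7 : b * (a + b) ≤ (a + b) * (a + b) := by nlinarith
    have h8 : RR k a b * b = 8 * ((1 + k) * (a + b) * b) := by rw [hRe]; ring
    nlinarith
  linarith

end Geo

/-- **T4** -/
theorem epg (hE : EPQ) : EPG := by
  intro k C4 hk hC4
  obtain ⟨K, hK⟩ := exists_nat_ge (96 * C4 + 1)
  have hK0 : 0 < K := by
    rcases Nat.eq_zero_or_pos K with h | h
    · subst h; norm_num at hK; linarith
    · exact h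
  have hMp : (0 : ℝ) < MM K := by unfold MM; push_cast; positivity
  refine ⟨K, hK0, 1 / (800 * MM K * (1 + k)), by positivity, 1 / (4 * MM K), by positivity, ?_, ?_⟩
  · rw [div_le_one (by positivity)]
    unfold MM
    push_cast
    have : (0 : ℝ) < 4 ^ K := by positivity
    linarith
  intro S z0 u a b d hu ha hb hab hba hL hd hM n w N p A G i hi hiN
  have hdp := hL.dpos
  have hM1 : (1 : ℝ) ≤ MM K := by
    unfold MM
    push_cast
    have : (0 : ℝ) < 4 ^ K := by positivity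
    linarith
  have hdd : 800 * MM K * (1 + k) * d ≤ b := by
    rw [one_div, inv_mul_eq_div, le_div_iff₀ (by positivity)] at hd
    linarith
  have H : SH S z0 u a b k d := ⟨hk, hu, ha, hb, hab, hba, hL, by nlinarith [mul_pos (show (0 : ℝ) < 1 + k by linarith) hdp]⟩
  have hdh : 100 * d ≤ hh K b := by
    unfold hh
    rw [le_div_iff₀ (by positivity)]
    have : 0 ≤ 800 * (MM K : ℝ) * d := by positivity
    nlinarith
  have hh0 := hh_pos (K := K) hb
  have hhK := hh_K (K := K) hb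
  have h4 : (4 : ℝ) ≤ 4 ^ K := by
    calc (4 : ℝ) = 4 ^ 1 := by norm_num
      _ ≤ 4 ^ K := pow_le_pow_right₀ (by norm_num) hK0
  have hQ := qd G.pg (i := i) (j := i + 1) (l := N + 2) (by omega) (by omega) (by omega) le_rfl
  have hfre : fre (SS S z0 u k a b) (qk A (N + 2) i (i + 1) (N + 2)) =
      inr (SS S z0 u k a b) A (N + 2) := fre_qk (by omega) (by omega) (by omega)
  rw [← hfre]
  have hr2 : 2 * (2 * hh K b) ≤ 4 ^ K * hh K b := by nlinarith
  refine hE _ n w _ _ _ _ _ hQ (ctr z0 u K a b i) (Complex.arg u - Real.pi / 6)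
    (Complex.arg u + 7 * Real.pi / 6) (2 * hh K b) (4 ^ K * hh K b) (4 ^ K * hh K b) C4
    (by positivity) hr2 le_rfl ?_ ?_ ?_ ?_ ?_ ?_
  · have e : 4 ^ K * hh K b / (2 * hh K b) = 4 ^ K / 2 := by
      field_simp
    rw [e, Real.log_div (by positivity) (by norm_num), Real.log_pow]
    have h5 : Real.log 4 = 2 * Real.log 2 := by
      rw [show (4 : ℝ) = 2 ^ 2 by norm_num, Real.log_pow]
      push_cast
      ring
    have h6 := Real.log_two_gt_d9
    have h7 := Real.log_two_lt_d9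
    rw [h5]
    nlinarith
  · intro ρ hρ y hy
    have := arc_deep H G hi hiN (by linarith [hρ.1]) (by linarith [hρ.2]) hy
    exact H.cover (by linarith)
  · rintro ρ hρ t ht ⟨y, hyt, hy⟩ v hv
    have hdeep := arc_deep H G hi hiN (by linarith [hρ.1]) (by linarith [hρ.2]) hy
    obtain ⟨h1, h2⟩ := H.vt ht hyt (by linarith) hv
    by_cases hc : ∃ j, j ≤ N + 2 ∧ v ∈ A j
    · obtain ⟨j, hj, hvj⟩ := hc
      rcases arc_cls H G hdh hi hiN hρ.1 (by linarith [hρ.2]) hy h1 hj hvj with h | ⟨h, h'⟩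
      · exact Or.inl (mem_un.2 ⟨j, Nat.zero_le _, h, hvj⟩)
      · exact Or.inr (Or.inl (mem_un.2 ⟨j, by omega, h', hvj⟩))
    · refine Or.inr (Or.inr ?_)
      rw [hfre]
      unfold inr
      rw [Finset.mem_sdiff]
      refine ⟨h2, fun hv' => ?_⟩
      obtain ⟨j, -, a2, a3⟩ := mem_un.1 hv'
      exact hc ⟨j, by omega, a3⟩
  · intro ρ hρ
    exact arc_left H G hdh hi hiN hρ.1 (by linarith [hρ.2])
  · intro ρ hρ
    exact arc_right H G hdh hi hiN hρ.1 (by linarith [hρ.2])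
  · intro b' hb'
    have hc2 : 1 / (4 * (MM K : ℝ)) * b = 2 * hh K b := by
      unfold hh
      field_simp
      ring
    apply H.mesh (hM b' (by rw [hc2]; exact hb'.1) (by linarith [hb'.2]))
    · have := ctr_deep H G hi hiN
      linarith [hb'.2]
    · linarith [hb'.1]

end Crest.Agent.R143.EPGx930
end
end

-- ▼ part R143/Qd4_54

/-!
# Row 143 (S0194): RSW without E3, assembly T5 (helper54)

* `PgQ` : the quads of a polygon, `fre_qk`
* `comb` : if every bottom segment is cut off from the top by a black chain, there is a black chain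
  from the left to the right class
* `prob` : Harris
* `cross_of` : such a chain contains a crossing of the rectangle
* `rbm_of` : `EPG → GEO3 → RBm`
-/

set_option autoImplicit false

noncomputable section

open scoped Classical

namespace Crest.Agent.R143.Qd4x54

open Set
open Crest.Agent.R143.B0x346 Crest.Agent.R143.DelGx806 Crest.Agent.R143.DelRx806
  Crest.Agent.R143.Crsx117
open Crest.Agent.R143.Harx315 (pr Up harris_prod_up pr_mono pr_congr)
open Crest.Agent.R143.RE0x723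
open Crest.Agent.R143.JColx54 (Adj)
open Crest.Agent.R143.Circx63 (cT)
open Crest.Agent.R143.ToolWx838 (prs prs_nil prs_one prs_cons)
open Crest.Agent.R143.Blkx838 (DE)
open Crest.Agent.R143.RB0x838 (LDns Mesh Cross)

variable {S : Finset ℂ} {n : ℕ} {w : ℤ → ℂ} {m : ℕ} {p : ℕ → ℤ} {A : ℕ → Finset ℂ}

/-! ### quads of a polygon -/

theorem mem_un {i l : ℕ} {v : ℂ} : v ∈ un A i l ↔ ∃ j, i ≤ j ∧ j < l ∧ v ∈ A j := by
  unfold un
  simp only [Finset.mem_biUnion, Finset.mem_Ico]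
  constructor
  · rintro ⟨j, ⟨h1, h2⟩, h3⟩; exact ⟨j, h1, h2, h3⟩
  · rintro ⟨j, h1, h2, h3⟩; exact ⟨j, ⟨h1, h2⟩, h3⟩

theorem qk0 (m i j l : ℕ) : qk A m i j l 0 = un A 0 i := by unfold qk; rw [if_pos rfl]
theorem qk1 (m i j l : ℕ) : qk A m i j l 1 = un A i j := by
  unfold qk; rw [if_neg (by decide), if_pos rfl]
theorem qk2 (m i j l : ℕ) : qk A m i j l 2 = un A j l := by
  unfold qk; rw [if_neg (by decide), if_neg (by decide), if_pos rfl]
theorem qk3 (m i j l : ℕ) : qk A m i j l 3 = un A l (m + 1) := by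
  unfold qk; rw [if_neg (by decide), if_neg (by decide), if_neg (by decide)]

theorem mono' (P : Pg S n w m p A) {i j : ℕ} (hij : i ≤ j) (hj : j ≤ m) : p i ≤ p j := by
  induction j, hij using Nat.le_induction with
  | base => exact le_rfl
  | succ j h ih => exact (ih (by omega)).trans (P.mono j (by omega)).le

theorem smono (P : Pg S n w m p A) {i j : ℕ} (hij : i < j) (hj : j ≤ m) : p i < p j :=
  lt_of_lt_of_le (P.mono i (by omega)) (mono' P (by omega) hj)

/-- sites of an arc -/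
theorem arc_un (P : Pg S n w m p A) {i l : ℕ} (hil : i ≤ l) (hl : l ≤ m) {k : ℤ}
    (h1 : p i < k) (h2 : k ≤ p l) : w k ∈ un A i l := by
  induction l, hil using Nat.le_induction with
  | base => omega
  | succ l h ih =>
    rcases le_or_gt k (p l) with h3 | h3
    · obtain ⟨j, g1, g2, g3⟩ := mem_un.1 (ih (by omega) h3)
      exact mem_un.2 ⟨j, g1, by omega, g3⟩
    · exact mem_un.2 ⟨l, h, by omega, P.arc l (by omega) k h3 h2⟩

theorem arc_last (P : Pg S n w m p A) {l : ℕ} (hl : l ≤ m) {k : ℤ}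
    (h1 : p l < k) (h2 : k ≤ p 0 + n) : w k ∈ un A l (m + 1) := by
  rcases le_or_gt k (p m) with h3 | h3
  · obtain ⟨j, g1, g2, g3⟩ := mem_un.1 (arc_un P hl le_rfl h1 h3)
    exact mem_un.2 ⟨j, g1, by omega, g3⟩
  · exact mem_un.2 ⟨m, hl, by omega, P.arcl k h3 h2⟩

/-- the edge between two consecutive classes -/
theorem link (P : Pg S n w m p A) {j : ℕ} (hj : j < m) :
    ∃ x ∈ A j, ∃ y ∈ A (j + 1), Adj S x y := by
  refine ⟨w (p (j + 1)), P.arc j hj _ (P.mono j hj) le_rfl, w (p (j + 1) + 1), ?_,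
    Crs6x117.adj_of_hull (P.cyc.edge _)⟩
  rcases Nat.lt_or_ge (j + 1) m with h | h
  · exact P.arc (j + 1) h _ (by omega) (by have := P.mono (j + 1) h; omega)
  · have e : j + 1 = m := by omega
    rw [e]
    have h1 : p m < p 0 + n := P.last
    exact P.arcl _ (by omega) (by omega)

/-- a union of consecutive classes is connected -/
theorem con_un (P : Pg S n w m p A) {i l : ℕ} (hl : l ≤ m + 1) :
    ∀ x ∈ un A i l, ∀ y ∈ un A i l, Pth S (un A i l : Set ℂ) x y := by
  have base : ∀ j, i ≤ j → j < l → ∀ x ∈ A j, ∀ y ∈ A j, Pth S (un A i l : Set ℂ) x y := by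
    intro j h1 h2 x hx y hy
    refine Pth.mono ?_ (P.con j (by omega) x hx y hy)
    intro v hv
    exact Finset.mem_coe.2 (mem_un.2 ⟨j, h1, h2, Finset.mem_coe.1 hv⟩)
  have up : ∀ j j', i ≤ j → j ≤ j' → j' < l → ∀ x ∈ A j, ∀ y ∈ A j',
      Pth S (un A i l : Set ℂ) x y := by
    intro j j' h1 h2
    induction j', h2 using Nat.le_induction with
    | base => intro h3 x hx y hy; exact base j h1 h3 x hx y hy
    | succ j' h2 ih =>
      intro h3 x hx y hy
      obtain ⟨a, ha, b, hb, hab⟩ := link P (j := j') (by omega)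
      have h4 := ih (by omega) x hx a ha
      have h5 := base (j' + 1) (by omega) h3 b hb y hy
      exact (h4.tail hab h5.1).trans h5
  intro x hx y hy
  obtain ⟨j, g1, g2, g3⟩ := mem_un.1 hx
  obtain ⟨j', g1', g2', g3'⟩ := mem_un.1 hy
  rcases le_total j j' with h | h
  · exact up j j' g1 h g2' x g3 y g3'
  · exact (up j' j g1' h g2 y g3' x g3).symm

theorem disj_un (P : Pg S n w m p A) {i l i' l' : ℕ} (_hl : l ≤ m + 1) (hl' : l' ≤ m + 1)
    (h : l ≤ i') : Disjoint (un A i l) (un A i' l') := by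
  rw [Finset.disjoint_left]
  intro v hv hv'
  obtain ⟨j, g1, g2, g3⟩ := mem_un.1 hv
  obtain ⟨j', g1', g2', g3'⟩ := mem_un.1 hv'
  exact Finset.disjoint_left.1 (P.disj j j' (by omega) (by omega) (by omega)) g3 g3'

/-- **the quads of a polygon** -/
theorem PgQ (P : Pg S n w m p A) {i j l : ℕ} (h0 : 0 < i) (h1 : i < j) (h2 : j < l) (h3 : l ≤ m) :
    Qd S n w (p 0) (p i) (p j) (p l) (qk A m i j l) where
  gp := P.gp
  m4 :=
    { cyc := P.cyc
      h01 := smono P h0 (by omega)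
      h12 := smono P h1 (by omega)
      h23 := smono P h2 (by omega)
      h30 := lt_of_le_of_lt (mono' P h3 le_rfl) P.last }
  sub := by
    intro c v hv
    have key : ∀ i l, l ≤ m + 1 → v ∈ un A i l → v ∈ S := by
      intro i l hl h
      obtain ⟨j, g1, g2, g3⟩ := mem_un.1 h
      exact P.sub j (by omega) g3
    rcases Qd3x54.z4 c with rfl | rfl | rfl | rfl
    · rw [qk0] at hv; exact key _ _ (by omega) hv
    · rw [qk1] at hv; exact key _ _ (by omega) hv
    · rw [qk2] at hv; exact key _ _ (by omega) hv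
    · rw [qk3] at hv; exact key _ _ (by omega) hv
  disj := by
    intro c c' hc
    have d01 : Disjoint (un A 0 i) (un A i j) := disj_un P (by omega) (by omega) le_rfl
    have d02 : Disjoint (un A 0 i) (un A j l) := disj_un P (by omega) (by omega) h1.le
    have d03 : Disjoint (un A 0 i) (un A l (m + 1)) := disj_un P (by omega) (by omega) (by omega)
    have d12 : Disjoint (un A i j) (un A j l) := disj_un P (by omega) (by omega) le_rfl
    have d13 : Disjoint (un A i j) (un A l (m + 1)) := disj_un P (by omega) (by omega) h2.le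
    have d23 : Disjoint (un A j l) (un A l (m + 1)) := disj_un P (by omega) (by omega) le_rfl
    rcases Qd3x54.z4 c with rfl | rfl | rfl | rfl <;> rcases Qd3x54.z4 c' with rfl | rfl | rfl | rfl
    all_goals first
      | exact absurd rfl hc
      | (simp only [qk0, qk1, qk2, qk3]
         first
          | exact d01 | exact d02 | exact d03 | exact d12 | exact d13 | exact d23
          | exact d01.symm | exact d02.symm | exact d03.symm | exact d12.symm | exact d13.symm
          | exact d23.symm)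
  con := by
    intro c
    rcases Qd3x54.z4 c with rfl | rfl | rfl | rfl
    · rw [qk0]; exact con_un P (by omega)
    · rw [qk1]; exact con_un P (by omega)
    · rw [qk2]; exact con_un P (by omega)
    · rw [qk3]; exact con_un P (by omega)
  a0 := by
    intro k g1 g2
    rw [qk0]
    exact arc_un P (by omega) (by omega) g1 g2
  a1 := by
    intro k g1 g2
    rw [qk1]
    exact arc_un P (by omega) (by omega) g1 g2
  a2 := by
    intro k g1 g2
    rw [qk2]
    exact arc_un P (by omega) (by omega) g1 g2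
  a3 := by
    intro k g1 g2
    rw [qk3]
    exact arc_last P h3 g1 g2

theorem fre_qk {i j l : ℕ} (h1 : i ≤ j) (h2 : j ≤ l) (h3 : l ≤ m) :
    fre S (qk A m i j l) = inr S A m := by
  ext v
  unfold fre inr
  rw [Finset.mem_filter, Finset.mem_sdiff]
  refine and_congr_right fun _ => ?_
  constructor
  · intro h hv
    obtain ⟨c, g1, g2, g3⟩ := mem_un.1 hv
    have a0 := h 0
    have a1 := h 1
    have a2 := h 2
    have a3 := h 3
    rw [qk0, mem_un] at a0
    rw [qk1, mem_un] at a1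
    rw [qk2, mem_un] at a2
    rw [qk3, mem_un] at a3
    by_cases c1 : c < i
    · exact a0 ⟨c, g1, c1, g3⟩
    by_cases c2 : c < j
    · exact a1 ⟨c, by omega, c2, g3⟩
    by_cases c3 : c < l
    · exact a2 ⟨c, by omega, c3, g3⟩
    · exact a3 ⟨c, by omega, g2, g3⟩
  · intro h c hv
    apply h
    have key : ∀ i l, l ≤ m + 1 → v ∈ un A i l → v ∈ un A 0 (m + 1) := by
      intro i l hl h
      obtain ⟨j, g1, g2, g3⟩ := mem_un.1 h
      exact mem_un.2 ⟨j, Nat.zero_le _, by omega, g3⟩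
    rcases Qd3x54.z4 c with rfl | rfl | rfl | rfl
    · rw [qk0] at hv; exact key _ _ (by omega) hv
    · rw [qk1] at hv; exact key _ _ (by omega) hv
    · rw [qk2] at hv; exact key _ _ (by omega) hv
    · rw [qk3] at hv; exact key _ _ (by omega) hv

/-! ### combination of the cuts -/

/-- last exit: a path from a site of `Q` to a site off `Q` -/
theorem last_exit {V : Set ℂ} {Q : ℂ → Prop} {x y : ℂ} (h : Pth S V x y) (h0 : Q x)
    (h1 : ¬ Q y) : ∃ u v, u ∈ V ∧ Q u ∧ Adj S u v ∧ Pth S {w | w ∈ V ∧ ¬ Q w} v y := by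
  obtain ⟨u, v, g1, g2, g3, g4⟩ := Pth.exit (Q := fun w => ¬ Q w) h.symm h1 (not_not.2 h0)
  exact ⟨v, u, g3, not_not.1 g4, g2.symm, g1.symm⟩

theorem comb {N : ℕ} (P : Pg S n w (N + 2) p A) (hN : 1 ≤ N) {T : Finset ℂ}
    (hT : T ⊆ inr S A (N + 2))
    (h : ∀ i, 1 ≤ i → i ≤ N → Crq S (qk A (N + 2) i (i + 1) (N + 2)) 0 T) :
    Crq S (qk A (N + 2) 1 (N + 1) (N + 2)) 0 T := by
  have hQ := PgQ P (i := 1) (j := N + 1) (l := N + 2) (by omega) (by omega) (by omega) le_rfl
  have hf := fre_qk (S := S) (A := A) (m := N + 2) (i := 1) (j := N + 1) (l := N + 2) (by omega)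
    (by omega) le_rfl
  rw [Qd3x54.xorq hQ (by rw [hf]; exact hT), hf]
  rintro ⟨x, hx, y, hy, hxy⟩
  have e3 : (1 : ZMod 4) + 2 = 3 := by decide
  rw [e3, qk1, qk3] at hxy
  rw [qk1] at hx
  rw [e3, qk3] at hy
  have hdis := disj_un P (i := 1) (l := N + 1) (i' := N + 2) (l' := N + 2 + 1) (by omega) le_rfl
    (by omega)
  have hyn : y ∉ un A 1 (N + 1) := fun h' => Finset.disjoint_left.1 hdis h' hy
  obtain ⟨u, v, g1, g2, g3, g4⟩ := last_exit (Q := fun v => v ∈ un A 1 (N + 1)) hxy hx hyn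
  obtain ⟨i, hi1, hi2, hi3⟩ := mem_un.1 g2
  have hQi := PgQ P (i := i) (j := i + 1) (l := N + 2) (by omega) (by omega) (by omega) le_rfl
  have hfi := fre_qk (S := S) (A := A) (m := N + 2) (i := i) (j := i + 1) (l := N + 2) (by omega)
    (by omega) le_rfl
  have hi := h i hi1 (by omega)
  rw [Qd3x54.xorq hQi (by rw [hfi]; exact hT), hfi] at hi
  apply hi
  have hu : u ∈ un A i (i + 1) := mem_un.2 ⟨i, le_rfl, by omega, hi3⟩
  refine ⟨u, by rw [qk1]; exact hu, y, by rw [e3, qk3]; exact hy, ?_⟩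
  rw [e3, qk1, qk3]
  have hsub : {w | w ∈ {v | v ∈ inr S A (N + 2) \ T ∨ v ∈ un A 1 (N + 1) ∨
      v ∈ un A (N + 2) (N + 2 + 1)} ∧ ¬ w ∈ un A 1 (N + 1)} ⊆
      {v | v ∈ inr S A (N + 2) \ T ∨ v ∈ un A i (i + 1) ∨ v ∈ un A (N + 2) (N + 2 + 1)} := by
    rintro z ⟨h1 | h1 | h1, h2⟩
    · exact Or.inl h1
    · exact absurd h1 h2
    · exact Or.inr (Or.inr h1)
  have h5 := Pth.mono hsub g4
  exact (Pth.single (Or.inr (Or.inl hu)) g3 h5.1).trans h5

theorem crq_up (V : Finset ℂ) (B : ZMod 4 → Finset ℂ) (c : ZMod 4) : Up V (Crq S B c) := by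
  rintro T T' h1 - ⟨x, hx, y, hy, h⟩
  refine ⟨x, hx, y, hy, Pth.mono ?_ h⟩
  rintro v (hv | hv | hv)
  · exact Or.inl (h1 hv)
  · exact Or.inr (Or.inl hv)
  · exact Or.inr (Or.inr hv)

/-- **Harris** -/
theorem prob {N : ℕ} (P : Pg S n w (N + 2) p A) (hN : 1 ≤ N) (h : EPk S A N) :
    (1 / 3 : ℝ) ^ N ≤ pr (inr S A (N + 2)) (Crq S (qk A (N + 2) 1 (N + 1) (N + 2)) 0) := by
  have h1 := harris_prod_up (V := inr S A (N + 2)) (Finset.Icc 1 N)
    (A := fun i => Crq S (qk A (N + 2) i (i + 1) (N + 2)) 0) fun i _ => crq_up _ _ _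
  have h2 : (1 / 3 : ℝ) ^ N ≤ ∏ i ∈ Finset.Icc 1 N, pr (inr S A (N + 2))
      (Crq S (qk A (N + 2) i (i + 1) (N + 2)) 0) := by
    have h3 : ∏ i ∈ Finset.Icc 1 N, (1 / 3 : ℝ) = (1 / 3 : ℝ) ^ N := by
      rw [Finset.prod_const, Nat.card_Icc, Nat.add_sub_cancel]
    rw [← h3]
    refine Finset.prod_le_prod (fun i _ => by norm_num) fun i hi => ?_
    rw [Finset.mem_Icc] at hi
    exact h i hi.1 hi.2
  refine h2.trans (h1.trans (pr_mono fun T hT h4 => ?_))
  exact comb P hN hT fun i hi1 hi2 => h4 i (Finset.mem_Icc.2 ⟨hi1, hi2⟩)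

/-! ### the crossing of the rectangle -/

/-- a chain as a list -/
theorem list_of {S' : Finset ℂ} {V : Set ℂ} {x y : ℂ} (h : Pth S' V x y)
    (hDE : ∀ a b, a ∈ V → b ∈ V → Adj S' a b → DE S b a) :
    ∃ (l : List ℂ) (ne : l ≠ []), (∀ p ∈ prs l, DE S p.1 p.2) ∧ (∀ s ∈ l, s ∈ V) ∧
      l.head ne = y ∧ l.getLast ne = x := by
  obtain ⟨hx, h⟩ := h
  induction h with
  | refl => exact ⟨[x], by simp, by simp, by simpa using hx, rfl, rfl⟩
  | @tail b c hb hbc ih =>
    obtain ⟨l, ne, h1, h2, h3, h4⟩ := ih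
    cases l with
    | nil => exact absurd rfl ne
    | cons e l =>
      simp only [List.head_cons] at h3
      subst h3
      refine ⟨c :: e :: l, by simp, ?_, ?_, rfl, ?_⟩
      · intro q hq
        rw [prs_cons, List.mem_cons] at hq
        rcases hq with rfl | hq
        · exact hDE e c (h2 e (by simp)) hbc.2 hbc.1
        · exact h1 q hq
      · intro q hq
        rw [List.mem_cons] at hq
        rcases hq with rfl | hq
        · exact hbc.2
        · exact h2 q hq
      · rw [List.getLast_cons (List.cons_ne_nil _ _)]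
        exact h4

variable {z0 u : ℂ} {a b k d : ℝ} {K N : ℕ}

theorem adj_tri {S' : Finset ℂ} {x y : ℂ} (h : Adj S' x y) :
    ∃ t ∈ delT S', x ∈ cT t ∧ y ∈ cT t ∧ RB2x54.Vt t x ∧ RB2x54.Vt t y ∧
      (t ∈ delT S → DE S x y) := by
  rcases h with ⟨c, hc⟩ | ⟨c, hc⟩
  · obtain ⟨o, hT⟩ := mem_delT_iff.1 hc
    exact ⟨(x, y, c), hc, Circx63.seg_sub_cT hT.pos (left_mem_segment ℝ x y),
      Circx63.seg_sub_cT hT.pos (right_mem_segment ℝ x y), Or.inl rfl, Or.inr (Or.inl rfl),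
      fun h => Or.inl ⟨c, h⟩⟩
  · obtain ⟨o, hT⟩ := mem_delT_iff.1 hc
    exact ⟨(y, x, c), hc, Circx63.seg_sub_cT hT.pos (right_mem_segment ℝ y x),
      Circx63.seg_sub_cT hT.pos (left_mem_segment ℝ y x), Or.inr (Or.inl rfl), Or.inl rfl,
      fun h => Or.inr ⟨c, h⟩⟩

theorem hh_le (hb : 0 < b) (K : ℕ) : 0 < hh K b ∧ hh K b ≤ b / 16 := by
  have h1 : (2 : ℝ) ≤ (MM K : ℝ) := by
    have : 2 ≤ MM K := by
      unfold MM
      exact Nat.le_add_left 2 _
    exact_mod_cast this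
  unfold hh
  refine ⟨by positivity, ?_⟩
  apply div_le_div_of_nonneg_left hb.le (by norm_num)
  linarith

theorem cross_of (H : SSbx930.SH S z0 u a b k d) (hsm : 200 * (1 + k) ^ 3 * d ≤ b)
    (G : Geo S z0 u a b k K n w N p A) {T : Finset ℂ}
    (hT : T ⊆ inr (SS S z0 u k a b) A (N + 2))
    (h : Crq (SS S z0 u k a b) (qk A (N + 2) 1 (N + 1) (N + 2)) 0 T) :
    ∃ l, Cross S z0 u a b T l := by
  have ha := H.ha
  have hb := H.hb
  have hk := H.k1
  have hd := H.dp
  have hdb := H.d_b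
  obtain ⟨hh0, hh1⟩ := hh_le (K := K) hb
  have hx1 : xj K a b 1 = -(a + b / 4) := HULx838.xj_one K
  have hxl := G.nok.xl
  have hxr := G.nok.xr
  -- inner sites
  have hin : ∀ s ∈ T, |X z0 u s| ≤ a + b / 2 ∧ |Y z0 u s| ≤ b / 2 := by
    intro s hs
    have h1 := hT hs
    unfold inr at h1
    rw [Finset.mem_sdiff] at h1
    have h2 := (G.outer s h1.1).not.1 (by
      rintro ⟨j, g1, g2⟩
      exact h1.2 (mem_un.2 ⟨j, Nat.zero_le _, by omega, g2⟩))
    push Not at h2
    obtain ⟨g1, g2, g3, g4⟩ := h2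
    refine ⟨abs_le.2 ⟨by linarith, by linarith⟩, abs_le.2 ⟨g4, g3.le⟩⟩
  have hdeep : ∀ s ∈ T, ‖s - cc z0 u k a b‖ ≤ RR k a b - 2 * d := by
    intro s hs
    obtain ⟨g1, g2⟩ := hin s hs
    rw [abs_le] at g2
    have := H.deep (s := s) (by linarith) (by linarith) (by linarith)
    linarith
  -- edges at inner sites
  have hedge : ∀ x ∈ T, ∀ y, Adj (SS S z0 u k a b) x y → ‖x - y‖ < 2 * d ∧ DE S x y := by
    intro x hx y hxy
    obtain ⟨t, ht, h1, h2, h3, h4, h5⟩ := adj_tri (S := S) hxy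
    have h6 := H.vt ht h1 (hdeep x hx) h4
    refine ⟨by rw [norm_sub_rev]; exact h6.1, h5 ((H.del_iff h1 (hdeep x hx)).1 ht)⟩
  -- long edges
  have hlong : ∀ x y, Adj (SS S z0 u k a b) x y → ‖x - y‖ ≤ a := by
    intro x y hxy
    obtain ⟨t, ht, h1, h2, h3, h4, -⟩ := adj_tri (S := S) hxy
    have h6 : ‖x - y‖ ≤ 5 * Real.sqrt (RR k a b * d) := by
      obtain ⟨c, hc | hc⟩ : ∃ c, (x, y, c) ∈ delT (SS S z0 u k a b) ∨
          (y, x, c) ∈ delT (SS S z0 u k a b) := exists_or.2 hxy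
      · obtain ⟨o, hT⟩ := mem_delT_iff.1 hc
        exact Ex2x922.tri_near H.dns hc (Circx63.seg_sub_cT hT.pos (right_mem_segment ℝ x y))
      · obtain ⟨o, hT⟩ := mem_delT_iff.1 hc
        rw [norm_sub_rev]
        exact Ex2x922.tri_near H.dns hc (Circx63.seg_sub_cT hT.pos (right_mem_segment ℝ y x))
    refine h6.trans ?_
    have h7 : Real.sqrt (RR k a b * d) ≤ a / 5 := by
      rw [Real.sqrt_le_left (by positivity)]
      unfold RR
      have h8 : b ≤ k * a := H.ba
      have h9 : (1 + k) * (a + b) ≤ (1 + k) ^ 2 * a := by nlinarith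
      have h10 : 8 * (1 + k) * (a + b) * d ≤ 8 * ((1 + k) ^ 2 * a) * d := by
        apply mul_le_mul_of_nonneg_right _ hd.le
        linarith
      have h11 : 200 * (1 + k) ^ 2 * d ≤ a := by
        have h12 : (1 + k) * (200 * (1 + k) ^ 2 * d) ≤ (1 + k) * a := by nlinarith
        exact le_of_mul_le_mul_left h12 (by linarith)
      nlinarith
    linarith
  -- the path
  have e2 : (0 : ZMod 4) + 2 = 2 := by decide
  obtain ⟨x, hx, y, hy, hxy⟩ := h
  rw [e2] at hy
  rw [e2, qk0, qk2] at hxy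
  rw [qk0] at hx
  rw [qk2] at hy
  have m0 : ∀ v, v ∈ un A 0 1 → v ∈ A 0 := by
    intro v hv
    obtain ⟨j, g1, g2, g3⟩ := mem_un.1 hv
    have : j = 0 := by omega
    rwa [this] at g3
  have m2 : ∀ v, v ∈ un A (N + 1) (N + 2) → v ∈ A (N + 1) := by
    intro v hv
    obtain ⟨j, g1, g2, g3⟩ := mem_un.1 hv
    have : j = N + 1 := by omega
    rwa [this] at g3
  have hne : ∀ v, v ∈ A 0 → v ∉ A (N + 1) := fun v hv hv' =>
    Finset.disjoint_left.1 (G.pg.disj 0 (N + 1) (by omega) (by omega) (by omega)) hv hv'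
  obtain ⟨q, r, g1, g2, g3, g4⟩ := Pth.exit (Q := fun v => v ∉ A (N + 1)) hxy (hne x (m0 x hx))
    (not_not.2 (m2 y hy))
  have g4' : r ∈ A (N + 1) := not_not.1 g4
  -- the last site before the right class is in `T`
  have hqV := g1.snd
  have hqT : q ∈ T := by
    rcases hqV.1 with h1 | h1 | h1
    · exact h1
    · exfalso
      have h2 := G.loc0 q (m0 q h1)
      have h3 := G.locN r g4'
      have h4 := hlong q r g2
      have h5 := H.X_diff (z0 := z0) r q
      rw [abs_le] at h5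
      rw [norm_sub_rev] at h4
      rw [hx1] at h2
      linarith [h5.1, h5.2]
    · exact absurd (m2 q h1) hqV.2
  have g1' := g1.symm
  have hqn : ¬ q ∈ A 0 := by
    intro h1
    have h2 := G.loc0 q h1
    have h3 := (hin q hqT)
    have h4 := hT hqT
    unfold inr at h4
    rw [Finset.mem_sdiff] at h4
    exact h4.2 (mem_un.2 ⟨0, le_rfl, by omega, h1⟩)
  obtain ⟨q', r', f1, f2, f3, f4⟩ := Pth.exit (Q := fun v => v ∉ A 0) g1' hqn
    (not_not.2 (m0 x hx))
  have f4' : r' ∈ A 0 := not_not.1 f4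
  have hsub : {w | w ∈ {w | w ∈ {v | v ∈ T ∨ v ∈ un A 0 1 ∨ v ∈ un A (N + 1) (N + 2)} ∧
      w ∉ A (N + 1)} ∧ w ∉ A 0} ⊆ (T : Set ℂ) := by
    rintro z ⟨⟨h1 | h1 | h1, h2⟩, h3⟩
    · exact h1
    · exact absurd (m0 z h1) h3
    · exact absurd (m2 z h1) h2
  have f5 := Pth.mono hsub f1
  have hq'T : q' ∈ T := f5.snd
  obtain ⟨l, ne, l1, l2, l3, l4⟩ := list_of (S := S) f5 fun a b ha hb hab =>
    (hedge b hb a hab.symm).2
  refine ⟨l, ⟨ne, l1, fun s hs => l2 s hs, ?_, ?_, ?_, ?_⟩⟩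
  · intro s hs
    have := (hin s (l2 s hs)).2
    unfold Y at this
    linarith
  · intro s hs
    have := (hin s (l2 s hs)).1
    unfold X at this
    linarith
  · rw [l3]
    have h1 := (hedge q' hq'T r' f2).1
    have h2 := G.loc0 r' f4'
    have h3 := H.X_diff (z0 := z0) q' r'
    rw [abs_le] at h3
    rw [hx1] at h2
    show X z0 u q' ≤ -a
    linarith [h3.1, h3.2]
  · rw [l4]
    have h1 := (hedge q hqT r g2).1
    have h2 := G.locN r g4'
    have h3 := H.X_diff (z0 := z0) q r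
    rw [abs_le] at h3
    show a ≤ X z0 u q
    linarith [h3.1, h3.2]

/-! ### assembly -/

theorem inr_sub (A : ℕ → Finset ℂ) (m : ℕ) : inr (SS S z0 u k a b) A m ⊆ S := by
  intro v hv
  unfold inr at hv
  rw [Finset.mem_sdiff] at hv
  exact (SSbx930.mem_SS.1 hv.1).1

/-- **T5** -/
theorem rbm_of (hG : GEO3) (hE : EPG) : RBmx838.RBm := by
  intro k hk C4 hC4
  obtain ⟨K, hK, c1, hc1, c2, hc2, hc2', E⟩ := hE k C4 hk hC4
  obtain ⟨c3, hc3, G⟩ := hG k hk K hK
  have hk1 : 0 < 200 * (1 + k) ^ 3 := by positivity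
  refine ⟨(1 / 3) ^ ⌈8 * (MM K : ℝ) * (2 * k + 1) + 1⌉₊, min (min c1 c3) (1 / (200 * (1 + k) ^ 3)),
    c2, 20 * (1 + k), by positivity, lt_min (lt_min hc1 hc3) (by positivity), hc2, hc2',
    by positivity, ?_⟩
  intro S z0 u a b d hu ha hb hab hba hD hM hd
  have hd1 : d ≤ c1 * b := hd.trans (mul_le_mul_of_nonneg_right
    ((min_le_left _ _).trans (min_le_left _ _)) hb.le)
  have hd3 : d ≤ c3 * b := hd.trans (mul_le_mul_of_nonneg_right
    ((min_le_left _ _).trans (min_le_right _ _)) hb.le)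
  have hd4 : 200 * (1 + k) ^ 3 * d ≤ b := by
    have h1 : d ≤ 1 / (200 * (1 + k) ^ 3) * b := hd.trans (mul_le_mul_of_nonneg_right
      (min_le_right _ _) hb.le)
    rw [one_div, inv_mul_eq_div, le_div_iff₀ hk1] at h1
    linarith
  have hdp := hD.dpos
  have hsm : 100 * (1 + k) * d ≤ b := by
    refine le_trans ?_ hd4
    apply mul_le_mul_of_nonneg_right _ hdp.le
    nlinarith [sq_nonneg (1 + k), sq_nonneg k]
  obtain ⟨n, w, N, p, A, g⟩ := G S z0 u a b d hu ha hb hab hba hD hd3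
  have h1 := E S z0 u a b d hu ha hb hab hba hD hd1 (fun r h2 h3 => hM r h2 h3) n w N p A g
  have H : SSbx930.SH S z0 u a b k d := ⟨hk, hu, ha, hb, hab, hba, hD, hsm⟩
  have hN : 1 ≤ N := by
    have h0 := g.nok.MN
    have h00 : 2 ≤ MM K := by
      unfold MM
      exact Nat.le_add_left 2 _
    omega
  refine ⟨inr (SS S z0 u k a b) A (N + 2), inr_sub A (N + 2), ?_⟩
  have h2 := prob g.pg hN h1
  refine le_trans ?_ (h2.trans (pr_mono fun T hT h3 => cross_of H hd4 g hT h3))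
  refine pow_le_pow_of_le_one (by norm_num) (by norm_num) ?_
  exact_mod_cast (g.nok.Nle.trans (Nat.le_ceil _))

end Crest.Agent.R143.Qd4x54
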