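import Crest.Agent.R143.Stab_930
import Crest.Agent.R143.CNT_930
import Crest.Agent.R143.Cont7_920

-- ▼ part R143/Stab2_930
section

/-!
# Row 143 (S0194): STAB with the one-arm bound (helper930)

* `bde_pow` : `P(BdE S V m d ρ √(ρ D) D) ≤ C (ρ / D) ^ c`
* `mk_of` : the structure `Mk` from agreement outside of `B(m k, ρ)`
* `stabU` : `‖TS S A z - TU S P e L z‖ ≤ C b (ρ / D) ^ c`
-/

set_option autoImplicit false

noncomputable section

open scoped Classical

namespace Crest.Agent.R143.Stab2x930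

open Crest.Agent.R143.B0x346 Crest.Agent.R143.DelGx806 Crest.Agent.R143.DelRx806
  Crest.Agent.R143.JColx54 Crest.Agent.R143.K33x877
  Crest.Agent.R143.NetUx346 Crest.Agent.R143.NetVx346 Crest.Agent.R143.Harx315
  Crest.Agent.R143.Stabx930
open Crest.Agent.R143.D3Fx802 (CArm)
open Crest.Agent.R143.ArmPx930 (adj_small ldns_mono mesh_mono arm)
open Crest.Agent.R143.RB0x838 (LDns Mesh)

variable {S V T : Finset ℂ} {A B : ZMod 3 → Set ℂ} {i : ZMod 3} {m : ZMod 3 → ℂ}
  {d ρ η D : ℝ}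


/-- environment at the marks -/
structure EnvM (S : Finset ℂ) (m : ZMod 3 → ℂ) (C4 c1 c2 K d ρ D : ℝ) : Prop where
  ld : ∀ k, LDns S (m k) (K * D) d
  mesh : ∀ k, ∀ b, c2 * ρ ≤ b → b ≤ D → Mesh S (m k) (K * D) b C4
  dr : d ≤ c1 * ρ
  rpos : 0 < ρ
  rD : 100 * ρ ≤ D

/-- **the arm event at the marks** -/
theorem bde_pow : ∀ C4 : ℝ, 0 ≤ C4 → ∃ C c c1 c2 K : ℝ, 0 < C ∧ 0 < c ∧ 0 < c1 ∧ c1 ≤ 1 ∧
    0 < c2 ∧ c2 ≤ 1 ∧ 2 ≤ K ∧ ∀ (S : Finset ℂ) (m : ZMod 3 → ℂ) (d ρ D : ℝ),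
    EnvM S m C4 c1 c2 K d ρ D → ∀ V ⊆ S,
    pr V (BdE S V m d ρ (Real.sqrt (ρ * D)) D) ≤ C * (ρ / D) ^ c := by
  intro C4 hC4
  obtain ⟨C, c, c1, c2, K, hC, hc, hc1, hc2, hc2', hK, H⟩ := arm C4 hC4
  refine ⟨12 * C * 4 ^ c, c / 2, min c1 1, c2, max K 2, by positivity, by positivity,
    lt_min hc1 one_pos, min_le_right _ _, hc2, hc2', le_max_right _ _, ?_⟩
  intro S m d ρ D E V hV
  have hρ := E.rpos
  have hrD := E.rD
  have hD : 0 < D := by linarith
  have hdp := (E.ld 0).dpos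
  have hd1 : d ≤ c1 * ρ := E.dr.trans (mul_le_mul_of_nonneg_right (min_le_left _ _) hρ.le)
  have hd2 : d ≤ ρ := by
    have := E.dr.trans (mul_le_mul_of_nonneg_right (min_le_right c1 1) hρ.le)
    linarith
  set η : ℝ := Real.sqrt (ρ * D) with hη
  have hηη : η * η = ρ * D := Real.mul_self_sqrt (by positivity)
  have hη0 : 0 < η := Real.sqrt_pos.2 (by positivity)
  have h10 : 10 * ρ ≤ η := by
    rw [hη]
    apply Real.le_sqrt_of_sq_le
    nlinarith
  have h10' : 10 * η ≤ D := by nlinarith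
  have hKK : K * D ≤ max K 2 * D := mul_le_mul_of_nonneg_right (le_max_left _ _) hD.le
  set s : ℝ := ρ / D with hs
  have hs0 : 0 < s := by positivity
  have hq1 : ρ / η = Real.sqrt s := by
    rw [hs, Real.sqrt_div hρ.le, hη, Real.sqrt_mul hρ.le, div_mul_eq_div_div]
    congr 1
    exact Real.div_sqrt
  have hq2 : η / D = Real.sqrt s := by
    rw [hs, Real.sqrt_div hρ.le, hη, Real.sqrt_mul hρ.le]
    rw [div_eq_div_iff hD.ne' (Real.sqrt_pos.2 hD).ne', mul_assoc, Real.mul_self_sqrt hD.le]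
  have hpow : (4 * Real.sqrt s) ^ c = 4 ^ c * s ^ (c / 2) := by
    rw [Real.mul_rpow (by norm_num) (Real.sqrt_nonneg _), Real.sqrt_eq_rpow, ← Real.rpow_mul hs0.le]
    congr 2
    ring
  have key : ∀ (k : ZMod 3) (r R : ℝ), ρ ≤ r → r ≤ R → R ≤ D → r / R ≤ 4 * Real.sqrt s →
      pr V (fun T => CArm S T (m k) r R) ≤ C * (4 ^ c * s ^ (c / 2)) := by
    intro k r R h1 h2 h3 h4
    have hr : 0 < r := by linarith
    have hR : 0 < R := by linarith
    have hKR : K * R ≤ max K 2 * D :=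
      (mul_le_mul_of_nonneg_left h3 (by linarith)).trans hKK
    refine (H S (m k) d r R hr h2 (ldns_mono (E.ld k) hKR) ?_ ?_ V hV).trans ?_
    · intro b hb1 hb2
      refine mesh_mono (E.mesh k b ?_ (hb2.trans h3)) hKR
      exact (mul_le_mul_of_nonneg_left h1 hc2.le).trans hb1
    · exact hd1.trans (mul_le_mul_of_nonneg_left h1 hc1.le)
    · rw [← hpow]
      refine mul_le_mul_of_nonneg_left ?_ hC.le
      exact Real.rpow_le_rpow (by positivity) h4 hc.le
  have p1 : ∀ k, pr V (fun T => CArm S T (m k) (ρ + 2 * d) (η - 2 * d)) ≤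
      C * (4 ^ c * s ^ (c / 2)) := by
    intro k
    refine key k _ _ (by linarith) (by linarith) (by linarith) ?_
    rw [← hq1, div_le_iff₀ (by linarith), mul_comm (4 * (ρ / η))]
    rw [show (η - 2 * d) * (4 * (ρ / η)) = 4 * ρ * ((η - 2 * d) / η) by field_simp]
    have : 3 / 4 ≤ (η - 2 * d) / η := by
      rw [div_le_div_iff₀ (by norm_num) hη0]
      linarith
    nlinarith
  have p2 : ∀ k, pr V (fun T => CArm S T (m k) (η + 2 * d) (D - 2 * d)) ≤
      C * (4 ^ c * s ^ (c / 2)) := by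
    intro k
    refine key k _ _ (by linarith) (by linarith) (by linarith) ?_
    rw [← hq2, div_le_iff₀ (by linarith), mul_comm (4 * (η / D))]
    rw [show (D - 2 * d) * (4 * (η / D)) = 4 * η * ((D - 2 * d) / D) by field_simp]
    have : 3 / 4 ≤ (D - 2 * d) / D := by
      rw [div_le_div_iff₀ (by norm_num) hD]
      linarith
    nlinarith
  refine (pr_bdE p1 p2).trans (le_of_eq ?_)
  ring

/-- the structure `Mk` -/
theorem mk_of {C4 c1 c2 K : ℝ} (hK : 2 ≤ K) (hc1 : c1 ≤ 1) (E : EnvM S m C4 c1 c2 K d ρ D)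
    (dA : ∀ j, ∀ x ∈ A j, x ∉ V) (dB : ∀ j, ∀ x ∈ B j, x ∉ V)
    (lab : ∀ x, Nxt S V x → (∀ k, ρ < ‖x - m k‖) → ∀ j, (x ∈ A j ↔ x ∈ B j))
    (opp : ∀ k, ∃ e, ∀ x, Nxt S V x → (x ∈ A e ∨ x ∈ B e) → D < ‖x - m k‖) :
    Mk S V A B m d ρ (Real.sqrt (ρ * D)) D := by
  have hρ := E.rpos
  have hrD := E.rD
  have hD : 0 < D := by linarith
  have hdp := (E.ld 0).dpos
  have hd2 : d ≤ ρ := by
    have := E.dr
    nlinarith
  have hηη : Real.sqrt (ρ * D) * Real.sqrt (ρ * D) = ρ * D := Real.mul_self_sqrt (by positivity)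
  have hη0 : 0 < Real.sqrt (ρ * D) := Real.sqrt_pos.2 (by positivity)
  have h10 : 10 * ρ ≤ Real.sqrt (ρ * D) := by
    apply Real.le_sqrt_of_sq_le
    nlinarith
  have h10' : 10 * Real.sqrt (ρ * D) ≤ D := by nlinarith
  refine ⟨dA, dB, hdp.le, by linarith, by linarith, ?_, lab, opp⟩
  intro k u v huv hu
  refine (adj_small (E.ld k) huv ?_).le
  nlinarith


end Crest.Agent.R143.Stab2x930
end
end

-- ▼ part R143/R10_930

/-!
# Row 143 (S0194), box R10 / VIS: the final comparison inequality (helper930)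

`A ⊆ A'` proper nets (`A` the giants of `U_K` or of the slit net, `A'` the classes of the polygon,
`ff S A' = V`), `B` position labels next to `V` which agree with `A'` off the marks.

* `cont_hv` : `P(η < |hit of A - hit of A'|) ≤ C (d / η) ^ (c / 3)` (pr form of 920's static CONT)
* `r10_pr` : the same for the hit of `A` and the value `zV` of the position labels `B`
* `r10_TS` : `‖TS S A z - TV S V B z‖ ≤ 9 (η + 2 b P(η < ..))`
-/

set_option autoImplicit false

noncomputable section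

open scoped Classical

namespace Crest.Agent.R143.R10x930

open Crest.Agent.R143.Harx315
open Crest.Agent.R143.D3Fx802 (CArm)
open Crest.Agent.R143.B0x346 Crest.Agent.R143.DelGx806
open Crest.Agent.R143.K33x877 Crest.Agent.R143.Freshx920 Crest.Agent.R143.Cont2x920
  Crest.Agent.R143.Cont3x920 Crest.Agent.R143.Cont4x920 Crest.Agent.R143.Cont5x920
  Crest.Agent.R143.Cont7x920
open Crest.Agent.R143.Cont6x920 (ArmV)
open Crest.Agent.R143.NetUx346 Crest.Agent.R143.NetVx346 Crest.Agent.R143.Stabx930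
open Crest.Agent.R143.XW1x315 (ex ex_ind ex_dep)

variable {S V : Finset ℂ} {A A' B : ZMod 3 → Set ℂ} {i : ZMod 3} {Rg : Set ℂ} {d D C c η : ℝ}
  {z : ℂ → ℂ}

theorem ff_sub (hs : ∀ l, A l ⊆ A' l) : ff S A' ⊆ ff S A := by
  intro w hw
  rw [mem_ff] at hw ⊢
  exact ⟨hw.1, fun l hl => hw.2 l (hs l hl)⟩

/-- **pr form of static CONT** -/
theorem cont_hv (hS : GP (S : Set ℂ)) (hX : Hex S A) (hX' : Hex S A') (hs : ∀ l, A l ⊆ A' l)
    (hVR : ∀ w ∈ fr S A, w ∈ Rg) (hd : 0 < d) (hη : d ≤ η) (hηD : η ≤ D)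
    (hA : ArmV S (ff S A) Rg d D C c) (hC : 1 ≤ C) (hc : 0 ≤ c)
    (hD : DetsS S (ff S A) A A' (OP S) Rg d D) (i : ZMod 3) :
    pr (ff S A) (fun β => η < ‖hv S A i (β : Set ℂ) -
      hv S A' i ((β ∩ ff S A' : Finset ℂ) : Set ℂ)‖) ≤
      8 * (C * 16 ^ c) * (d / η) ^ (c / 3) := by
  have hη0 : 0 < η := hd.trans_le hη
  have p4 : (0 : ℝ) < 16 ^ c := Real.rpow_pos_of_pos (by norm_num) _
  set x : ℝ := (η / d) ^ (1 / 3 : ℝ) with hx
  have hr : 0 < η / d := by positivity
  have hx0 : 0 < x := Real.rpow_pos_of_pos hr _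
  have hx3 : x ^ 3 = η / d := by
    rw [hx, ← Real.rpow_natCast, ← Real.rpow_mul hr.le]
    norm_num
  have hxc : (d / η) ^ (c / 3) = (1 / x) ^ c := by
    have e1 : d / η = (1 / x) ^ (3 : ℕ) := by
      rw [one_div, inv_pow, hx3, inv_div]
    rw [e1, ← Real.rpow_natCast, ← Real.rpow_mul (by positivity)]
    congr 1
    push_cast
    ring
  rw [hxc]
  by_cases h8 : 8 ≤ x
  · have hη3 : d * x ^ 3 = η := by rw [hx3]; field_simp
    have s1 : 8 * d ≤ d * x := by nlinarith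
    have s2 : 8 * (d * x) ≤ d * x ^ 2 := by
      have : d * x ^ 2 = (d * x) * x := by ring
      rw [this]
      nlinarith [mul_pos hd hx0]
    have s3 : 8 * (d * x ^ 2) ≤ η := by
      rw [← hη3]
      have : d * x ^ 3 = (d * x ^ 2) * x := by ring
      rw [this]
      have := mul_pos hd (pow_pos hx0 2)
      nlinarith
    obtain ⟨p0, p1, hdet⟩ := hD i (d * x) (d * x ^ 2) η s1 s2 s3 hηD
    have hVfr : fr S A' ⊆ (ff S A : Set ℂ) := by
      intro w hw
      exact Finset.mem_coe.2 (ff_sub hs (mem_ff.2 hw))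
    have hVR' : ∀ w ∈ ff S A, w ∈ Rg := fun w hw => hVR w (mem_ff.1 hw)
    have key := cont_pr hVfr (ex_of_hex (i := i) hS hX') (un_of_hex (i := i) hS hX') hdet
      (bdsS hA hVR' hC hc hd s1 s2 s3 hηD p0) (bdsS hA hVR' hC hc hd s1 s2 s3 hηD p1)
    refine (pr_mono ?_).trans (key.trans ?_)
    · intro β hβ hlt
      have hβ' : β ∩ ff S A' ⊆ ff S A' := Finset.inter_subset_right
      obtain ⟨⟨u, b, v⟩, h1, -⟩ := hX i β hβ
      obtain ⟨⟨u', b', v'⟩, h1', -⟩ := hX' i (β ∩ ff S A') hβ'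
      have e1 := hv_eq hX hβ h1
      have e1' := hv_eq hX' hβ' h1'
      rw [e1, e1'] at hlt
      obtain ⟨g1, g2⟩ := (hitO_hit hS).1 h1
      obtain ⟨g3, g4⟩ := (hitO_hit hS).1 h1'
      refine ⟨b', v', u', b, v, u, hit_congr (fun w hw => ?_) g3, g4, g1, g2, hlt⟩
      rw [Finset.coe_inter]
      exact ⟨fun h => h.1, fun h => ⟨h, Finset.mem_coe.2 (mem_ff.2 hw)⟩⟩
    · simp only [Matrix.cons_val_zero, Matrix.cons_val_one, Matrix.cons_val]
      have r1 : d / (d * x) = 1 / x := by field_simp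
      have r2 : d * x / (d * x ^ 2) = 1 / x := by field_simp
      have r3 : d * x ^ 2 / η = 1 / x := by rw [← hη3]; field_simp
      have r4 : (d / η) ^ c ≤ (1 / x) ^ c := by
        refine Real.rpow_le_rpow (by positivity) ?_ hc
        rw [← hη3, div_le_div_iff₀ (by positivity) hx0]
        have e : d * x ^ 3 = d * x * x ^ 2 := by ring
        have e' : (1 : ℝ) ≤ x ^ 2 := by nlinarith
        rw [one_mul, e]
        exact le_mul_of_one_le_right (by positivity) e'
      rw [r1, r2, r3]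
      have h0 : 0 ≤ C * 16 ^ c := by positivity
      have := mul_le_mul_of_nonneg_left r4 h0
      nlinarith
  · push Not at h8
    refine pr_le_one.trans ?_
    have e1 : (1 / 8 : ℝ) ≤ 1 / x := one_div_le_one_div_of_le hx0 h8.le
    have e2 : (1 / 8 : ℝ) ^ c ≤ (1 / x) ^ c := Real.rpow_le_rpow (by norm_num) e1 hc
    have e3 : (16 : ℝ) ^ c * (1 / 8) ^ c = 2 ^ c := by
      rw [← Real.mul_rpow (by norm_num) (by norm_num)]
      norm_num
    have e4 : (1 : ℝ) ≤ 2 ^ c := Real.one_le_rpow (by norm_num) hc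
    have e5 : 8 * (C * 16 ^ c) * (1 / 8 : ℝ) ^ c ≤ 8 * (C * 16 ^ c) * (1 / x) ^ c :=
      mul_le_mul_of_nonneg_left e2 (by positivity)
    have e6 : 8 * (C * 16 ^ c) * (1 / 8 : ℝ) ^ c = 8 * C * 2 ^ c := by
      rw [← e3]; ring
    nlinarith

/-- probability of an event of the colours in a subset -/
theorem pr_dep {V W : Finset ℂ} (hW : W ⊆ V) (P : Finset ℂ → Prop) :
    pr V (fun β => P (β ∩ W)) = pr W P := by
  have h1 := ex_ind (V := V) fun β => P (β ∩ W)
  have h2 := ex_ind (V := W) P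
  rw [← h1, ← h2, ex_dep (V := V) (W := W) (f := fun β => if P (β ∩ W) then 1 else 0) hW]
  · refine XW1x315.ex_congr fun β hβ => ?_
    rw [Finset.inter_eq_left.2 hβ]
  · intro β _
    rw [Finset.inter_assoc, Finset.inter_self]

variable {m : ZMod 3 → ℂ} {d' ρ η0 D0 : ℝ}

/-- **the hit of `A` and the value of the position labels** -/
theorem r10_pr (hS : GP (S : Set ℂ)) (hX : Hex S A) (hX' : Hex S A') (nr : NR S A')
    (hs : ∀ l, A l ⊆ A' l)
    (hVR : ∀ w ∈ fr S A, w ∈ Rg) (hd : 0 < d) (hη : d ≤ η) (hηD : η ≤ D)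
    (hA : ArmV S (ff S A) Rg d D C c) (hC : 1 ≤ C) (hc : 0 ≤ c)
    (hD : DetsS S (ff S A) A A' (OP S) Rg d D)
    (H : Mk S (ff S A') A' B m d' ρ η0 D0) (i : ZMod 3) :
    pr (ff S A) (fun β => η < ‖hv S A i (β : Set ℂ) -
      zV S (ff S A') B i ((β ∩ ff S A' : Finset ℂ) : Set ℂ) (fun x => x)‖) ≤
      8 * (C * 16 ^ c) * (d / η) ^ (c / 3) +
        pr (ff S A') (BdE S (ff S A') m d' ρ η0 D0) := by
  have h1 := cont_hv hS hX hX' hs hVR hd hη hηD hA hC hc hD i
  have h2 := pr_dep (V := ff S A) (W := ff S A') (ff_sub hs) (BdE S (ff S A') m d' ρ η0 D0)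
  refine le_trans (pr_mono fun β hβ hlt => ?_) (pr_or_le.trans (add_le_add h1 h2.le))
  by_cases hb : BdE S (ff S A') m d' ρ η0 D0 (β ∩ ff S A')
  · exact Or.inr hb
  · left
    rw [zV_hv hS H hX' nr Finset.inter_subset_right hb] at hlt
    exact hlt

/-- means from the probability of a distance -/
theorem exC_near {V W : Finset ℂ} (hW : W ⊆ V) {f g : Finset ℂ → ℂ} {b : ℝ} (hη : 0 ≤ η)
    (hf : ∀ T ⊆ V, ‖f T‖ ≤ b) (hg : ∀ T ⊆ W, ‖g T‖ ≤ b) :
    ‖exC V f - exC W g‖ ≤ η + 2 * b * pr V (fun T => η < ‖f T - g (T ∩ W)‖) := by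
  have hb : 0 ≤ b := (norm_nonneg _).trans (hg ∅ (Finset.empty_subset _))
  have e0 : exC W g = exC V fun T => g (T ∩ W) := by
    have hre : (exC W g).re = (exC V fun T => g (T ∩ W)).re := by
      have := ex_dep (V := V) (W := W) (f := fun T => (g (T ∩ W)).re) hW
        (fun β _ => by rw [Finset.inter_assoc, Finset.inter_self])
      unfold ex at this
      unfold exC
      rw [← Complex.ofReal_ofNat, ← Complex.ofReal_pow, ← Complex.ofReal_pow,
        Complex.div_ofReal_re, Complex.div_ofReal_re, Complex.re_sum, Complex.re_sum, this]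
      congr 1
      refine Finset.sum_congr rfl fun T hT => ?_
      show (g T).re = (g (T ∩ W)).re
      rw [Finset.inter_eq_left.2 (Finset.mem_powerset.1 hT)]
    have him : (exC W g).im = (exC V fun T => g (T ∩ W)).im := by
      have := ex_dep (V := V) (W := W) (f := fun T => (g (T ∩ W)).im) hW
        (fun β _ => by rw [Finset.inter_assoc, Finset.inter_self])
      unfold ex at this
      unfold exC
      rw [← Complex.ofReal_ofNat, ← Complex.ofReal_pow, ← Complex.ofReal_pow,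
        Complex.div_ofReal_im, Complex.div_ofReal_im, Complex.im_sum, Complex.im_sum, this]
      congr 1
      refine Finset.sum_congr rfl fun T hT => ?_
      show (g T).im = (g (T ∩ W)).im
      rw [Finset.inter_eq_left.2 (Finset.mem_powerset.1 hT)]
    exact Complex.ext hre him
  rw [e0, ← exC_sub]
  refine (norm_exC_le _ _).trans ?_
  have e1 : pr V (fun T => η < ‖f T - g (T ∩ W)‖) =
      (∑ T ∈ V.powerset, if η < ‖f T - g (T ∩ W)‖ then (1 : ℝ) else 0) / 2 ^ V.card := by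
    unfold pr nb fl
    congr 1
    rw [Finset.sum_ite, Finset.sum_const_zero, add_zero, Finset.sum_const, nsmul_eq_mul, mul_one]
  have e2 : η = (∑ _T ∈ V.powerset, η) / 2 ^ V.card := by
    rw [Finset.sum_const, Finset.card_powerset, nsmul_eq_mul]
    push_cast
    field_simp
  rw [e1]
  conv_rhs => rw [e2]
  rw [← mul_div_assoc, ← add_div]
  refine div_le_div_of_nonneg_right ?_ (by positivity)
  rw [Finset.mul_sum, ← Finset.sum_add_distrib]
  refine Finset.sum_le_sum fun T hT => ?_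
  have hT' := Finset.mem_powerset.1 hT
  split_ifs with h
  · have h1 := hf T hT'
    have h2 := hg (T ∩ W) Finset.inter_subset_right
    have h3 := norm_sub_le (f T) (g (T ∩ W))
    linarith
  · push Not at h
    linarith


end Crest.Agent.R143.R10x930
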