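import Crest.Agent.R143.Tent1_359
import Crest.Agent.R158.Sp6_896
import Crest.Agent.R143.TentA_951

-- ▼ part R143/Tent2_359
section

/-!
# Row 143 (S0194), block D, TENT, file 2 (helper359): refinement of configurations

* `vref_at`, `lcv_vref`, `rcv_vref` : the fine boundary edges
* `refCfg` : refinement of a configuration (mod `RefCyc`, `RefCon`)
-/

set_option autoImplicit false

namespace Crest.Agent.R143.Tentx359

open Crest.Agent.R158.Sp896

theorem vref_at {h : ℕ} (v : ℕ → V) (a s : ℕ) (hs : s ≤ 2 * h + 1) :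
    vref h v ((2 * h + 1) * a + s) =
      ((2 * h + 1) * (v a).1 + s * ((v (a + 1)).1 - (v a).1),
       (2 * h + 1) * (v a).2 + s * ((v (a + 1)).2 - (v a).2)) := by
  rcases Nat.lt_or_ge s (2 * h + 1) with h0 | h0
  · have e1 : ((2 * h + 1) * a + s) / (2 * h + 1) = a := by
      rw [Nat.mul_add_div (by omega), Nat.div_eq_of_lt h0, Nat.add_zero]
    have e2 : ((2 * h + 1) * a + s) % (2 * h + 1) = s := by
      rw [Nat.mul_add_mod, Nat.mod_eq_of_lt h0]
    unfold vref
    rw [e1, e2]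
  · have h1 : s = 2 * h + 1 := by omega
    subst h1
    have e0 : (2 * h + 1) * a + (2 * h + 1) = (2 * h + 1) * (a + 1) + 0 := by ring
    have e1 : ((2 * h + 1) * (a + 1) + 0) / (2 * h + 1) = a + 1 := by
      rw [Nat.mul_add_div (by omega), Nat.zero_div, Nat.add_zero]
    have e2 : ((2 * h + 1) * (a + 1) + 0) % (2 * h + 1) = 0 := by
      rw [Nat.mul_add_mod, Nat.zero_mod]
    rw [e0]
    unfold vref
    rw [e1, e2]
    ext
    · simp only; push_cast; ring
    · simp only; push_cast; ring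

/-- the fine boundary edges: inner and outer cells -/
theorem cells_vref {h : ℕ} {v : ℕ → V} (a s : ℕ) (hs : s ≤ 2 * h) (hA : Adj (v a) (v (a + 1))) :
    lcv (vref h v) ((2 * h + 1) * a + s) =
      ((cenc h (lcv v a)).1 + h * ((rcv v a).1 - (lcv v a).1) + (s - h) * ((v (a + 1)).1 - (v a).1),
       (cenc h (lcv v a)).2 + h * ((rcv v a).2 - (lcv v a).2) + (s - h) * ((v (a + 1)).2 - (v a).2))
    ∧ rcv (vref h v) ((2 * h + 1) * a + s) =
      ((cenc h (rcv v a)).1 + h * ((lcv v a).1 - (rcv v a).1) + (s - h) * ((v (a + 1)).1 - (v a).1),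
       (cenc h (rcv v a)).2 + h * ((lcv v a).2 - (rcv v a).2) +
        (s - h) * ((v (a + 1)).2 - (v a).2)) := by
  have e0 : (2 * h + 1) * a + s + 1 = (2 * h + 1) * a + (s + 1) := by ring
  unfold lcv rcv
  rw [e0, vref_at v a s (by omega), vref_at v a (s + 1) (by omega)]
  generalize v a = p at *
  generalize v (a + 1) = p' at *
  obtain ⟨x, y⟩ := p
  obtain ⟨x', y'⟩ := p'
  unfold lc rc cenc
  rcases hA with ⟨e1, e2⟩ | ⟨e1, e2⟩ | ⟨e1, e2⟩ | ⟨e1, e2⟩ <;> simp only at e1 e2 <;>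
    simp only [e1, e2] <;> push_cast
  · have a1 : (x + (x + 1) - (y - y) - 1) / 2 = x := by omega
    have a2 : (y + y + (x + 1 - x) - 1) / 2 = y := by omega
    have a3 : (x + (x + 1) + (y - y) - 1) / 2 = x := by omega
    have a4 : (y + y - (x + 1 - x) - 1) / 2 = y - 1 := by omega
    rw [a1, a2, a3, a4]
    refine ⟨Prod.ext ?_ ?_, Prod.ext ?_ ?_⟩ <;> simp only <;> ring_nf <;> omega
  · have a1 : (x + (x - 1) - (y - y) - 1) / 2 = x - 1 := by omega
    have a2 : (y + y + (x - 1 - x) - 1) / 2 = y - 1 := by omega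
    have a3 : (x + (x - 1) + (y - y) - 1) / 2 = x - 1 := by omega
    have a4 : (y + y - (x - 1 - x) - 1) / 2 = y := by omega
    rw [a1, a2, a3, a4]
    refine ⟨Prod.ext ?_ ?_, Prod.ext ?_ ?_⟩ <;> simp only <;> ring_nf <;> omega
  · have a1 : (x + x - (y + 1 - y) - 1) / 2 = x - 1 := by omega
    have a2 : (y + (y + 1) + (x - x) - 1) / 2 = y := by omega
    have a3 : (x + x + (y + 1 - y) - 1) / 2 = x := by omega
    have a4 : (y + (y + 1) - (x - x) - 1) / 2 = y := by omega
    rw [a1, a2, a3, a4]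
    refine ⟨Prod.ext ?_ ?_, Prod.ext ?_ ?_⟩ <;> simp only <;> ring_nf <;> omega
  · have a1 : (x + x - (y - 1 - y) - 1) / 2 = x := by omega
    have a2 : (y + (y - 1) + (x - x) - 1) / 2 = y - 1 := by omega
    have a3 : (x + x + (y - 1 - y) - 1) / 2 = x - 1 := by omega
    have a4 : (y + (y - 1) - (x - x) - 1) / 2 = y - 1 := by omega
    rw [a1, a2, a3, a4]
    refine ⟨Prod.ext ?_ ?_, Prod.ext ?_ ?_⟩ <;> simp only <;> ring_nf <;> omega

section cfg

variable {F : Set V} {L : ℕ} {v : ℕ → V} {m : ℕ → ℕ} {c : V} {M : ℤ} {n : ℕ} {U : ℕ → ℕ → V}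

theorem blk_box {h : ℕ} {q f : V} {c : V} {M : ℤ} (hb : Blk h q f) (h1 : |q.1 - c.1| < M)
    (h2 : |q.2 - c.2| < M) :
    |f.1 - (cenc h c).1| < (2 * h + 1) * M ∧ |f.2 - (cenc h c).2| < (2 * h + 1) * M := by
  obtain ⟨b1, b2, b3, b4⟩ := hb
  rw [abs_lt] at h1 h2
  rw [abs_lt, abs_lt]
  unfold cenc
  simp only
  have hk : (0 : ℤ) ≤ 2 * h + 1 := by positivity
  have a1 : (2 * (h : ℤ) + 1) * (q.1 - c.1) ≤ (2 * h + 1) * (M - 1) :=
    mul_le_mul_of_nonneg_left (by omega) hk
  have a2 : (2 * (h : ℤ) + 1) * (-(M - 1)) ≤ (2 * h + 1) * (q.1 - c.1) :=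
    mul_le_mul_of_nonneg_left (by omega) hk
  have a3 : (2 * (h : ℤ) + 1) * (q.2 - c.2) ≤ (2 * h + 1) * (M - 1) :=
    mul_le_mul_of_nonneg_left (by omega) hk
  have a4 : (2 * (h : ℤ) + 1) * (-(M - 1)) ≤ (2 * h + 1) * (q.2 - c.2) :=
    mul_le_mul_of_nonneg_left (by omega) hk
  refine ⟨⟨?_, ?_⟩, ⟨?_, ?_⟩⟩ <;> nlinarith

theorem conv_abs {k s : ℤ} {u u' M : ℤ} (h1 : |u| ≤ M) (h2 : |u'| ≤ M) (h0 : 0 ≤ s) (h3 : s ≤ k) :
    |k * u + s * (u' - u)| ≤ k * M := by
  rw [abs_le] at h1 h2 ⊢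
  constructor <;> nlinarith

/-- the fine tentacle stays in the box -/
theorem CL_box {h : ℕ} {W : ℕ → V} {c : V} {M : ℤ} {j0 : ℕ}
    (hW : ∀ j ≤ j0, |(W j).1 - c.1| ≤ M ∧ |(W j).2 - c.2| ≤ M) {j : ℕ}
    (hj : j ≤ (2 * h + 1) * j0) :
    |(CL h W j).1 - (cenc h c).1| ≤ (2 * h + 1) * M ∧
      |(CL h W j).2 - (cenc h c).2| ≤ (2 * h + 1) * M := by
  have hd := Nat.div_add_mod j (2 * h + 1)
  have hm := Nat.mod_lt j (show 0 < 2 * h + 1 by omega)
  set a := j / (2 * h + 1) with ha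
  set s := j % (2 * h + 1) with hs
  have haj : a ≤ j0 := by
    rw [ha]; exact Nat.div_le_of_le_mul hj
  have e : CL h W j = ((cenc h (W a)).1 + s * ((W (a + 1)).1 - (W a).1),
    (cenc h (W a)).2 + s * ((W (a + 1)).2 - (W a).2)) := rfl
  rw [e]
  unfold cenc
  simp only
  rcases Nat.eq_zero_or_pos s with h0 | h0
  · rw [h0]
    have hM := hW a haj
    have hk : (0 : ℤ) ≤ 2 * h + 1 := by positivity
    have r1 : (2 * (h : ℤ) + 1) * (W a).1 + h + (0 : ℕ) * ((W (a + 1)).1 - (W a).1) -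
        ((2 * h + 1) * c.1 + h) = (2 * h + 1) * ((W a).1 - c.1) := by push_cast; ring
    have r2 : (2 * (h : ℤ) + 1) * (W a).2 + h + (0 : ℕ) * ((W (a + 1)).2 - (W a).2) -
        ((2 * h + 1) * c.2 + h) = (2 * h + 1) * ((W a).2 - c.2) := by push_cast; ring
    rw [r1, r2, abs_mul, abs_mul, abs_of_nonneg hk]
    exact ⟨mul_le_mul_of_nonneg_left hM.1 hk, mul_le_mul_of_nonneg_left hM.2 hk⟩
  · have haj' : a + 1 ≤ j0 := by
      have h1 : (2 * h + 1) * a < (2 * h + 1) * j0 := by omega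
      have := Nat.lt_of_mul_lt_mul_left h1
      omega
    have h1 := hW a haj
    have h2 := hW (a + 1) haj'
    have hs0 : (0 : ℤ) ≤ s := by positivity
    have hs1 : (s : ℤ) ≤ 2 * h + 1 := by exact_mod_cast hm.le
    have r1 : (2 * (h : ℤ) + 1) * (W a).1 + h + s * ((W (a + 1)).1 - (W a).1) -
        ((2 * h + 1) * c.1 + h) =
        (2 * h + 1) * ((W a).1 - c.1) + s * (((W (a + 1)).1 - c.1) - ((W a).1 - c.1)) := by ring
    have r2 : (2 * (h : ℤ) + 1) * (W a).2 + h + s * ((W (a + 1)).2 - (W a).2) -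
        ((2 * h + 1) * c.2 + h) =
        (2 * h + 1) * ((W a).2 - c.2) + s * (((W (a + 1)).2 - c.2) - ((W a).2 - c.2)) := by ring
    rw [r1, r2]
    exact ⟨conv_abs h1.1 h2.1 hs0 hs1, conv_abs h1.2 h2.2 hs0 hs1⟩

/-- injectivity inside one arm -/
theorem arm_inj {h : ℕ} {q w : V} (hw : Adj q w) {s s' : ℕ} (he : arm h q w s = arm h q w s') :
    s = s' := by
  unfold arm at he
  rw [Prod.ext_iff] at he
  simp only at he
  rcases hw with ⟨e1, e2⟩ | ⟨e1, e2⟩ | ⟨e1, e2⟩ | ⟨e1, e2⟩ <;> simp only [e1, e2] at he <;>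
    ring_nf at he <;> omega

/-- two arms of the same cell meet in the centre -/
theorem arm_two_eq {h : ℕ} {q w w' : V} (hw : Adj q w) (hw' : Adj q w') (hne : w ≠ w') {s s' : ℕ}
    (he : arm h q w s = arm h q w' s') : s = 0 ∧ s' = 0 := by
  unfold arm at he
  rw [Prod.ext_iff] at he
  simp only at he
  have hne' : ¬ (w.1 = w'.1 ∧ w.2 = w'.2) := fun hh => hne (Prod.ext hh.1 hh.2)
  rcases hw with ⟨e1, e2⟩ | ⟨e1, e2⟩ | ⟨e1, e2⟩ | ⟨e1, e2⟩ <;>
    rcases hw' with ⟨e3, e4⟩ | ⟨e3, e4⟩ | ⟨e3, e4⟩ | ⟨e3, e4⟩ <;>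
    simp only [e1, e2, e3, e4] at he hne' <;> ring_nf at he <;>
    first | omega | simp at hne'

/-- the fine tentacles are simple and disjoint -/
theorem Cfg.uref_inj (C : Cfg F L v m c M n U) (h : ℕ) {i : ℕ} (hi : i < n) {i' : ℕ} (hi' : i' < n)
    {j j' : ℕ} (he : Uref h U i (j + 1) = Uref h U i' (j' + 1)) : i = i' ∧ j = j' := by
  obtain ⟨a, s, hs, hA⟩ := uref_cases h U i j
  obtain ⟨a', s', hs', hA'⟩ := uref_cases h U i' j'
  have hb : Blk h (U i' (a' + 1)) (Uref h U i' (j' + 1)) := by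
    rcases hA' with ⟨e, -⟩ | ⟨e, -⟩
    · exact e ▸ arm_blk (C.step i' hi' (a' + 1)) hs'
    · exact e ▸ arm_blk (C.step i' hi' a').symm hs'
  have hb0 : Blk h (U i (a + 1)) (Uref h U i (j + 1)) := by
    rcases hA with ⟨e, -⟩ | ⟨e, -⟩
    · exact e ▸ arm_blk (C.step i hi (a + 1)) hs
    · exact e ▸ arm_blk (C.step i hi a).symm hs
  rw [he] at hb0
  obtain ⟨e1, e2⟩ := C.inj i hi i' hi' a a' (blk_unique hb0 hb)
  subst e1; subst e2
  refine ⟨rfl, ?_⟩
  rcases hA with ⟨e, hn⟩ | ⟨e, hn, hp⟩ <;> rcases hA' with ⟨e', hn'⟩ | ⟨e', hn', hp'⟩ <;>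
    rw [e, e'] at he
  · have := arm_inj (C.step _ hi _) he
    omega
  · have := arm_two_eq (C.step _ hi _) (C.step _ hi _).symm (C.pn_ne hi _) he
    omega
  · have := arm_two_eq (C.step _ hi _).symm (C.step _ hi _) (C.pn_ne hi _).symm he
    omega
  · have := arm_inj (C.step _ hi _).symm he
    omega

theorem CL_step {h : ℕ} {W : ℕ → V} (hW : ∀ j, Adj (W j) (W (j + 1))) (j : ℕ) :
    Adj (CL h W j) (CL h W (j + 1)) := by
  have hd := Nat.div_add_mod j (2 * h + 1)
  have hm := Nat.mod_lt j (show 0 < 2 * h + 1 by omega)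
  set a := j / (2 * h + 1) with ha
  set s := j % (2 * h + 1) with hs
  have e : CL h W j = ((cenc h (W a)).1 + s * ((W (a + 1)).1 - (W a).1),
    (cenc h (W a)).2 + s * ((W (a + 1)).2 - (W a).2)) := rfl
  have e' : CL h W (j + 1) = ((cenc h (W a)).1 + (s + 1 : ℕ) * ((W (a + 1)).1 - (W a).1),
      (cenc h (W a)).2 + (s + 1 : ℕ) * ((W (a + 1)).2 - (W a).2)) := by
    rw [← hd]
    rcases Nat.lt_or_ge (s + 1) (2 * h + 1) with h0 | h0
    · have e1 : ((2 * h + 1) * a + s + 1) / (2 * h + 1) = a := by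
        rw [Nat.add_assoc, Nat.mul_add_div (by omega), Nat.div_eq_of_lt h0, Nat.add_zero]
      have e2 : ((2 * h + 1) * a + s + 1) % (2 * h + 1) = s + 1 := by
        rw [Nat.add_assoc, Nat.mul_add_mod, Nat.mod_eq_of_lt h0]
      unfold CL
      rw [e1, e2]
    · have h1 : s = 2 * h := by omega
      have e0 : (2 * h + 1) * a + s + 1 = (2 * h + 1) * (a + 1) + 0 := by rw [h1]; ring
      rw [e0, CL_add W (a + 1) 0 (by omega)]
      rw [h1]
      unfold cenc
      ext
      · simp only; push_cast; ring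
      · simp only; push_cast; ring
  rw [e, e']
  have h2 := hW a
  unfold Adj at h2 ⊢
  simp only
  push_cast
  have r1 : ((s : ℤ) + 1) * ((W (a + 1)).1 - (W a).1) =
      s * ((W (a + 1)).1 - (W a).1) + ((W (a + 1)).1 - (W a).1) := by ring
  have r2 : ((s : ℤ) + 1) * ((W (a + 1)).2 - (W a).2) =
      s * ((W (a + 1)).2 - (W a).2) + ((W (a + 1)).2 - (W a).2) := by ring
  rw [r1, r2]
  omega

/-- **refinement of a configuration** -/
theorem refCfg (hA1 : RefCyc) (hA2 : RefCon) : RefCfg := by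
  intro h F L v m c M n U C
  have hbox : ∀ q ∈ ref h F, |q.1 - (cenc h c).1| < (2 * h + 1) * M ∧
      |q.2 - (cenc h c).2| < (2 * h + 1) * M := by
    intro q hq
    obtain ⟨q0, hq0, hb⟩ := mem_ref.1 hq
    exact blk_box hb (C.box q0 hq0).1 (C.box q0 hq0).2
  have hmul : ∀ a b : ℕ, a < b → (2 * h + 1) * a + h < (2 * h + 1) * b + h := fun a b hab =>
    Nat.add_lt_add_right (Nat.mul_lt_mul_of_pos_left hab (by omega)) _
  refine ⟨?_, hA2 h F C.con, ?_, hA1 h F L v C.cyc, hmul _ _ C.m01, hmul _ _ C.m12, hmul _ _ C.m23,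
    ?_, hbox, C.n4, ?_, ?_, ?_, ?_, ?_, ?_⟩
  · set N := (2 * (h : ℤ) + 1) * M with hN
    refine Set.Finite.subset ((Set.finite_Icc ((cenc h c).1 - N) ((cenc h c).1 + N)).prod
      (Set.finite_Icc ((cenc h c).2 - N) ((cenc h c).2 + N))) ?_
    intro q hq
    have := hbox q hq
    rw [abs_lt, abs_lt] at this
    exact ⟨⟨by linarith [this.1.1], by linarith [this.1.2]⟩,
      ⟨by linarith [this.2.1], by linarith [this.2.2]⟩⟩
  · intro q hq q' hq'
    have := hA2 h Fᶜ C.con' q hq q' hq'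
    rwa [ref_compl] at this
  · have h1 : (2 * h + 1) * (m 3 + 1) ≤ (2 * h + 1) * L := Nat.mul_le_mul_left _ C.m3L
    unfold mref
    rw [Nat.mul_add] at h1
    omega
  · intro i hi
    unfold Uref mref
    rw [Nat.zero_add, (cells_vref (m i) h (by omega) (C.cyc.step (m i))).1]
    have := CL_add (h := h) (U i) 0 h le_rfl
    rw [Nat.mul_zero, Nat.zero_add] at this
    rw [this, C.start0 i hi, C.start1 i hi]
    ext
    · simp only; ring
    · simp only; ring
  · intro i hi
    have h1 := CL_step (h := h) (C.step i hi) h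
    unfold Uref mref
    rw [Nat.add_comm 1 h, (cells_vref (m i) h (by omega) (C.cyc.step (m i))).2]
    rcases Nat.eq_zero_or_pos h with h0 | h0
    · subst h0
      have := CL_add (h := 0) (U i) 1 0 le_rfl
      simp only [Nat.mul_zero, Nat.zero_add, Nat.one_mul, Nat.add_zero] at this
      rw [show (0 + 1 : ℕ) = 1 from rfl, this, C.start1 i hi]
      ext
      · simp
      · simp
    · have := CL_sub (h := h) (U i) 0 h le_rfl
      have e : (2 * h + 1) * (0 + 1) - h = h + 1 := by omega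
      rw [e] at this
      rw [this, C.start0 i hi, Nat.zero_add, C.start1 i hi]
      ext
      · simp only; ring
      · simp only; ring
  · intro i hi j hf
    obtain ⟨a, w, s, hs, hw, hadj, he, hb⟩ := C.uref_blk hi h j
    exact C.out i hi a ((blk_mem hb).1 hf)
  · intro i hi j
    unfold Uref
    have := CL_step (h := h) (C.step i hi) (j + h)
    rwa [show j + h + 1 = j + 1 + h by ring] at this
  · intro i hi i' hi' j j' he
    exact C.uref_inj h hi hi' he
  · intro i hi
    obtain ⟨j0, h0, h1, h2⟩ := C.ray i hi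
    have e0 : (2 * h + 1) * j0 = (2 * h + 1) * j0 - h + h := by
      have : (2 * h + 1) * j0 ≥ 2 * h + 1 := Nat.le_mul_of_pos_right _ h0
      omega
    refine ⟨(2 * h + 1) * j0 - h, ?_, ?_, ?_⟩
    · have : (2 * h + 1) * j0 ≥ 2 * h + 1 := Nat.le_mul_of_pos_right _ h0
      omega
    · intro j hj
      exact CL_box h1 (by omega)
    · intro j
      unfold Uref
      have e1 : (2 * h + 1) * j0 - h + j + h = (2 * h + 1) * j0 + j := by omega
      rw [e1]
      have hd := Nat.div_add_mod j (2 * h + 1)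
      have hm := Nat.mod_lt j (show 0 < 2 * h + 1 by omega)
      have e2 : ((2 * h + 1) * j0 + j) / (2 * h + 1) = j0 + j / (2 * h + 1) :=
        Nat.mul_add_div (by omega) _ _
      have e3 : ((2 * h + 1) * j0 + j) % (2 * h + 1) = j % (2 * h + 1) := Nat.mul_add_mod _ _ _
      unfold CL
      rw [e2, e3, Nat.add_assoc, h2, h2]
      have hj : (j : ℤ) = (2 * h + 1) * (j / (2 * h + 1) : ℕ) + (j % (2 * h + 1) : ℕ) := by
        exact_mod_cast hd.symm
      unfold cenc
      ext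
      · simp only
        rw [hj]
        push_cast
        ring
      · simp only
        rw [hj]
        push_cast
        ring

end cfg

end Crest.Agent.R143.Tentx359
end

-- ▼ part R143/Tent3_359
section

/-!
# Row 143 (S0194), block D, TENT, file 3 (helper359): the collar of `F`

* `turn_cases` : cells around a vertex of a walk
* `Cyc.next` : the walk is determined by the vertex
* `collarArc` : the outer cells of consecutive fine boundary edges are connected (mod `RefCyc`,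
  `RefCon`)
-/

set_option autoImplicit false

namespace Crest.Agent.R143.Tentx359

open Crest.Agent.R158.Sp896

theorem cRefl (S : Set V) (q : V) : Con S q q := Relation.ReflTransGen.refl

theorem cOne {S : Set V} {q q' : V} (h : Adj q q') (hq : q' ∈ S) : Con S q q' :=
  Relation.ReflTransGen.single ⟨h, hq⟩

/-- cells around the middle vertex of a walk `p0 p1 p2` without reversal -/
theorem turn_cases {p0 p1 p2 : V} (h01 : Adj p0 p1) (h12 : Adj p1 p2) (hne : p2 ≠ p0) :
    rc p0 p1 = rc p1 p2 ∨ Adj (rc p0 p1) (rc p1 p2) ∨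
    ∃ g : V, Adj (rc p0 p1) g ∧ Adj g (rc p1 p2) ∧
      lc p1 (2 * p1.1 - p2.1, 2 * p1.2 - p2.2) = g ∧
      rc p1 (2 * p1.1 - p2.1, 2 * p1.2 - p2.2) = rc p0 p1 ∧
      ((rc p0 p1).1 = g.1 ∧ (rc p0 p1).2 = (lc p0 p1).2 ∧ (rc p1 p2).1 = (lc p0 p1).1 ∧
        (rc p1 p2).2 = g.2 ∨
       (rc p0 p1).2 = g.2 ∧ (rc p0 p1).1 = (lc p0 p1).1 ∧ (rc p1 p2).2 = (lc p0 p1).2 ∧
        (rc p1 p2).1 = g.1) ∧
      ((lc p0 p1).1 = g.1 + 1 ∨ (lc p0 p1).1 = g.1 - 1) ∧
      ((lc p0 p1).2 = g.2 + 1 ∨ (lc p0 p1).2 = g.2 - 1) := by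
  have hne' : ¬ (p2.1 = p0.1 ∧ p2.2 = p0.2) := fun hh => hne (Prod.ext hh.1 hh.2)
  obtain ⟨x0, y0⟩ := p0
  obtain ⟨x1, y1⟩ := p1
  obtain ⟨x2, y2⟩ := p2
  simp only [rc, lc, Adj, Prod.ext_iff, Prod.exists] at *
  rcases h01 with ⟨e1, e2⟩ | ⟨e1, e2⟩ | ⟨e1, e2⟩ | ⟨e1, e2⟩ <;>
    rcases h12 with ⟨e3, e4⟩ | ⟨e3, e4⟩ | ⟨e3, e4⟩ | ⟨e3, e4⟩
  · right; left; omega
  · omega
  · right; right
    refine ⟨x1, y1 - 1, ?_, ?_, ?_, ?_, ?_, ?_, ?_⟩ <;> omega
  · left; omega
  · omega
  · right; left; omega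
  · left; omega
  · right; right
    refine ⟨x1 - 1, y1, ?_, ?_, ?_, ?_, ?_, ?_, ?_⟩ <;> omega
  · left; omega
  · right; right
    refine ⟨x1, y1, ?_, ?_, ?_, ?_, ?_, ?_, ?_⟩ <;> omega
  · right; left; omega
  · omega
  · right; right
    refine ⟨x1 - 1, y1 - 1, ?_, ?_, ?_, ?_, ?_, ?_, ?_⟩ <;> omega
  · left; omega
  · omega
  · right; left; omega

section cyc

variable {F : Set V} {L : ℕ} {v : ℕ → V}

theorem Cyc.idx (h : Cyc F L v) {i j : ℕ} (he : v i = v j) : i % L = j % L := by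
  have hL : 0 < L := by have := h.four_le; omega
  exact h.inj _ (Nat.mod_lt _ hL) _ (Nat.mod_lt _ hL) (by rw [h.mod, h.mod]; exact he)

theorem Cyc.next (h : Cyc F L v) {i j : ℕ} (he : v i = v j) (k : ℕ) : v (i + k) = v (j + k) := by
  have h1 := Cyc.idx h he
  rw [← h.mod (i + k), ← h.mod (j + k), Nat.add_mod, h1, ← Nat.add_mod]

theorem Cyc.ne2 (h : Cyc F L v) (i : ℕ) : v (i + 2) ≠ v i := by
  intro he
  have h1 := Cyc.idx h he
  have h2 := h.four_le
  have h3 := (Nat.ModEq.add_left_cancel' i (show i + 2 ≡ i + 0 [MOD L] from h1))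
  have h4 := (Nat.modEq_zero_iff_dvd.1 h3)
  have := Nat.le_of_dvd (by norm_num) h4
  omega

end cyc

section cfg

variable {F : Set V} {L : ℕ} {v : ℕ → V} {m : ℕ → ℕ} {c : V} {M : ℤ} {n : ℕ} {U : ℕ → ℕ → V}

theorem uref_zero (h : ℕ) (U : ℕ → ℕ → V) (i : ℕ) :
    (Uref h U i 0).1 = (Uref h U i 1).1 + ((U i 0).1 - (U i 1).1) ∧
    (Uref h U i 0).2 = (Uref h U i 1).2 + ((U i 0).2 - (U i 1).2) := by
  have h1 := CL_add (h := h) (U i) 0 h le_rfl
  rw [Nat.mul_zero, Nat.zero_add] at h1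
  have h2 := CL_sub (h := h) (U i) 0 h le_rfl
  have e : (2 * h + 1) * (0 + 1) - h = 1 + h := by omega
  rw [e] at h2
  unfold Uref
  rw [Nat.zero_add, h1, h2]
  unfold cenc
  constructor
  · simp only; ring
  · simp only; ring

/-- the marked fine inner cell -/
theorem Cfg.uref_zero_mem (C : Cfg F L v m c M n U) (h : ℕ) {i : ℕ} (hi : i < n) :
    Uref h U i 0 ∈ ref h F := by
  have h1 := CL_add (h := h) (U i) 0 h le_rfl
  rw [Nat.mul_zero, Nat.zero_add] at h1
  have h2 : Uref h U i 0 = arm h (U i 0) (U i 1) h := by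
    unfold Uref arm
    rw [Nat.zero_add, h1]
  rw [h2, blk_mem (arm_blk (C.step i hi 0) le_rfl), C.start0 i hi]
  exact C.cyc.left (m i)


/-- outer cells of two consecutive fine boundary edges -/
theorem Cfg.collar_step (C : Cfg F L v m c M n U) {h : ℕ} (hh : 1 ≤ h)
    (hC : Cyc (ref h F) ((2 * h + 1) * L) (vref h v)) {x : ℕ}
    (h1 : rcv (vref h v) x ∉ body (ref h F) (Uref h U) n)
    (h2 : rcv (vref h v) (x + 1) ∉ body (ref h F) (Uref h U) n) :
    Con (body (ref h F) (Uref h U) n)ᶜ (rcv (vref h v) x) (rcv (vref h v) (x + 1)) := by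
  have hA := turn_cases (hC.step x) (hC.step (x + 1)) (Cyc.ne2 hC x)
  have e1 : rc (vref h v x) (vref h v (x + 1)) = rcv (vref h v) x := rfl
  have e2 : rc (vref h v (x + 1)) (vref h v (x + 1 + 1)) = rcv (vref h v) (x + 1) := rfl
  have e3 : lc (vref h v x) (vref h v (x + 1)) = lcv (vref h v) x := rfl
  rw [e1, e2, e3] at hA
  rcases hA with hA | hA | ⟨g, g1, g2, g3, g4, g5, g6, g7⟩
  · rw [hA]
    exact cRefl _ _
  · exact cOne hA h2
  · have hgF : g ∉ ref h F := by
      intro hg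
      set p3 : V := (2 * (vref h v (x + 1)).1 - (vref h v (x + 1 + 1)).1,
        2 * (vref h v (x + 1)).2 - (vref h v (x + 1 + 1)).2) with hp3
      have hadj : Adj (vref h v (x + 1)) p3 := by
        have := hC.step (x + 1)
        unfold Adj at this ⊢
        rw [hp3]
        simp only
        omega
      obtain ⟨i, -, hi1, hi2⟩ := hC.all _ p3 hadj (by rw [g3]; exact hg)
        (by rw [g4]; exact fun hh => h1 (Or.inl hh))
      have h5 := Cyc.next hC hi1 1
      rw [hi2] at h5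
      have h6 := hC.step (x + 1)
      have h7 : p3.1 = (vref h v (x + 1 + 1)).1 ∧ p3.2 = (vref h v (x + 1 + 1)).2 := by
        rw [h5]; exact ⟨rfl, rfl⟩
      rw [hp3] at h7
      simp only at h7
      unfold Adj at h6
      omega
    have hgB : g ∉ body (ref h F) (Uref h U) n := by
      rintro (hg | ⟨i, hi, j, hg⟩)
      · exact hgF hg
      · have hlF : lcv (vref h v) x ∈ ref h F := hC.left x
        obtain ⟨hj, hdot⟩ := C.clean_F hh hi (j := j) hlF
          (by rw [← hg, abs_le]; omega) (by rw [← hg, abs_le]; omega)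
        subst hj
        rw [Nat.zero_add] at hg
        rw [← hg] at hdot
        obtain ⟨z1, z2⟩ := uref_zero h U i
        rw [← hg] at z1 z2
        have hz := C.uref_zero_mem h hi
        have hB : rcv (vref h v) x ∉ ref h F := fun hh => h1 (Or.inl hh)
        have hD : rcv (vref h v) (x + 1) ∉ ref h F := fun hh => h2 (Or.inl hh)
        have hst := (C.step i hi 0)
        rw [Nat.zero_add] at hst
        have key : Uref h U i 0 = rcv (vref h v) x ∨ Uref h U i 0 = rcv (vref h v) (x + 1) := by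
          rw [Prod.ext_iff, Prod.ext_iff, z1, z2]
          unfold Adj at hst
          clear z1 z2
          rcases hst with ⟨s1, s2⟩ | ⟨s1, s2⟩ | ⟨s1, s2⟩ | ⟨s1, s2⟩ <;>
            rcases g6 with g6 | g6 <;> rcases g7 with g7 | g7 <;>
            rw [s1, s2, g6, g7] at hdot <;> rw [s1, s2] <;> ring_nf at hdot <;>
            omega
        rcases key with key | key
        · exact hB (key ▸ hz)
        · exact hD (key ▸ hz)
    exact (cOne g1 hgB).trans (cOne g2 h2)

/-- **(B3)** -/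
theorem collarArc (hA1 : RefCyc) : CollarArc := by
  intro h hh F L v m c M n U C a b hab hx
  have hC := hA1 h F L v C.cyc
  obtain ⟨d, rfl⟩ := Nat.exists_eq_add_of_le hab
  induction d with
  | zero => exact cRefl _ _
  | succ d ih =>
    have h1 := ih (by omega) fun x h1 h2 => hx x h1 (by omega)
    exact h1.trans (C.collar_step hh hC (hx _ (by omega) (by omega)) (hx _ (by omega) (by omega)))

end cfg

end Crest.Agent.R143.Tentx359
end

-- ▼ part R143/Tent4_359
section

/-!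
# Row 143 (S0194), block D, TENT, file 4 (helper359): the sides of the tentacles

* `side h q w t` : cell of the side of the block `q` towards the adjacent cell `w`
* `around` : the corners of a block are connected along the free sides
* `collarTent`
-/

set_option autoImplicit false

namespace Crest.Agent.R143.Tentx359

open Crest.Agent.R158.Sp896

/-- cell of the side of the block `q` towards `w`, at the tangential offset `t` -/
def side (h : ℕ) (q w : V) (t : ℤ) : V :=
  ((cenc h q).1 + h * (w.1 - q.1) - t * (w.2 - q.2), (cenc h q).2 + h * (w.2 - q.2) + t * (w.1 - q.1))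

/-- cell of the block `q` with offset `(x, y)` -/
def pos (h : ℕ) (q : V) (x y : ℤ) : V := ((cenc h q).1 + x, (cenc h q).2 + y)

theorem pos_blk {h : ℕ} {q : V} {x y : ℤ} (hx : |x| ≤ h) (hy : |y| ≤ h) : Blk h q (pos h q x y) := by
  rw [abs_le] at hx hy
  unfold Blk pos cenc
  simp only
  refine ⟨?_, ?_, ?_, ?_⟩ <;> linarith

theorem blk_pos {h : ℕ} {q f : V} (hb : Blk h q f) : ∃ x y : ℤ, |x| ≤ h ∧ |y| ≤ h ∧ f = pos h q x y := by
  obtain ⟨b1, b2, b3, b4⟩ := hb
  refine ⟨f.1 - (cenc h q).1, f.2 - (cenc h q).2, ?_, ?_, ?_⟩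
  · rw [abs_le]; unfold cenc; simp only; constructor <;> linarith
  · rw [abs_le]; unfold cenc; simp only; constructor <;> linarith
  · unfold pos; ext <;> simp

theorem line_aux {S : Set V} {p : V} {d : V} (hd : Adj (0, 0) d) (n : ℕ) :
    ∀ t : ℤ, (∀ r, t ≤ r → r ≤ t + n → ((p.1 + r * d.1, p.2 + r * d.2) : V) ∈ S) →
    Con S (p.1 + t * d.1, p.2 + t * d.2) (p.1 + (t + n) * d.1, p.2 + (t + n) * d.2) := by
  induction n with
  | zero => intro t _; simpa using cRefl _ _
  | succ n ih =>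
    intro t ht
    refine (ih t fun r h1 h2 => ht r h1 (by push_cast; omega)).trans (cOne ?_ ?_)
    · unfold Adj at hd ⊢
      simp only at hd ⊢
      push_cast
      rcases hd with ⟨e1, e2⟩ | ⟨e1, e2⟩ | ⟨e1, e2⟩ | ⟨e1, e2⟩ <;> rw [e1, e2] <;> ring_nf <;> simp
    · have := ht (t + (n + 1 : ℕ)) (by push_cast; omega) le_rfl
      simpa using this

theorem line_aux' {S : Set V} {p : V} {d : V} (hd : Adj (0, 0) d) (n : ℕ) :
    ∀ t : ℤ, (∀ r, t - n ≤ r → r ≤ t → ((p.1 + r * d.1, p.2 + r * d.2) : V) ∈ S) →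
    Con S (p.1 + t * d.1, p.2 + t * d.2) (p.1 + (t - n) * d.1, p.2 + (t - n) * d.2) := by
  induction n with
  | zero => intro t _; simpa using cRefl _ _
  | succ n ih =>
    intro t ht
    refine (ih t fun r h1 h2 => ht r (by push_cast at *; omega) h2).trans (cOne ?_ ?_)
    · unfold Adj at hd ⊢
      simp only at hd ⊢
      push_cast
      rcases hd with ⟨e1, e2⟩ | ⟨e1, e2⟩ | ⟨e1, e2⟩ | ⟨e1, e2⟩ <;> rw [e1, e2] <;> ring_nf <;> simp
    · have := ht (t - (n + 1 : ℕ)) le_rfl (by push_cast; omega)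
      simpa using this

/-- connection along a straight line -/
theorem line_con {S : Set V} {p : V} {d : V} (hd : Adj (0, 0) d) {t t' : ℤ}
    (h : ∀ r, min t t' ≤ r → r ≤ max t t' → ((p.1 + r * d.1, p.2 + r * d.2) : V) ∈ S) :
    Con S (p.1 + t * d.1, p.2 + t * d.2) (p.1 + t' * d.1, p.2 + t' * d.2) := by
  rcases le_total t t' with h1 | h1
  · obtain ⟨n, hn⟩ := Int.eq_ofNat_of_zero_le (sub_nonneg.2 h1)
    have e : t' = t + n := by omega
    subst e
    refine line_aux hd n t fun r h2 h3 => h r ?_ ?_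
    · rw [min_eq_left h1]; exact h2
    · rw [max_eq_right h1]; exact h3
  · obtain ⟨n, hn⟩ := Int.eq_ofNat_of_zero_le (sub_nonneg.2 h1)
    have e : t' = t - n := by omega
    subst e
    refine line_aux' hd n t fun r h2 h3 => h r ?_ ?_
    · rw [min_eq_right h1]; exact h2
    · rw [max_eq_left h1]; exact h3

/-- connection along a side -/
theorem side_con {S : Set V} {h : ℕ} {q w : V} (hw : Adj q w) {t t' : ℤ}
    (hS : ∀ r, min t t' ≤ r → r ≤ max t t' → side h q w r ∈ S) :
    Con S (side h q w t) (side h q w t') := by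
  have hd : Adj (0, 0) ((-(w.2 - q.2), w.1 - q.1) : V) := by
    unfold Adj at hw ⊢
    simp only
    omega
  have key : ∀ r : ℤ, side h q w r = (((cenc h q).1 + h * (w.1 - q.1)) + r * (-(w.2 - q.2)),
      ((cenc h q).2 + h * (w.2 - q.2)) + r * (w.1 - q.1)) := by
    intro r
    unfold side
    ext
    · simp only; ring
    · simp only
  have := line_con (S := S) (p := ((cenc h q).1 + h * (w.1 - q.1), (cenc h q).2 + h * (w.2 - q.2)))
    hd (t := t) (t' := t') (fun r h1 h2 => by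
      have := hS r h1 h2
      rw [key] at this
      exact this)
  rw [key, key]
  exact this

/-- the fine cells on the two sides of a coarse edge are adjacent -/
theorem side_adj {h : ℕ} {q w : V} (hw : Adj q w) (t : ℤ) : Adj (side h q w t) (side h w q (-t)) := by
  unfold side cenc
  unfold Adj at hw ⊢
  simp only
  rcases hw with ⟨e1, e2⟩ | ⟨e1, e2⟩ | ⟨e1, e2⟩ | ⟨e1, e2⟩ <;> rw [e1, e2] <;> ring_nf <;> simp

theorem side_pos (h : ℕ) (q w : V) (t : ℤ) :
    side h q w t = pos h q (h * (w.1 - q.1) - t * (w.2 - q.2)) (h * (w.2 - q.2) + t * (w.1 - q.1)) := by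
  unfold side pos
  ext
  · simp only; ring
  · simp only; ring

/-! ### walking around a block -/

/-- the next neighbour of `q` after `w`, clockwise -/
def cw (q w : V) : V := (q.1 + (w.2 - q.2), q.2 - (w.1 - q.1))

theorem cw_adj {q w : V} (hw : Adj q w) : Adj q (cw q w) := by
  unfold Adj cw at *
  simp only
  omega

theorem turn_id (h : ℕ) (q w : V) : side h q w (-h) = side h q (cw q w) h := by
  unfold side cw
  ext
  · simp only; ring
  · simp only; ring

theorem cw4 (q w : V) : cw q (cw q (cw q (cw q w))) = w := by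
  unfold cw
  ext
  · simp only; ring
  · simp only; ring

theorem cw_cases {q w r : V} (hw : Adj q w) (hr : Adj q r) (hne : r ≠ w) :
    r = cw q w ∨ r = cw q (cw q w) ∨ r = cw q (cw q (cw q w)) := by
  have hne' : ¬ (r.1 = w.1 ∧ r.2 = w.2) := fun hh => hne (Prod.ext hh.1 hh.2)
  unfold cw
  simp only [Prod.ext_iff]
  unfold Adj at hw hr
  omega

theorem cw_ne {q w : V} (hw : Adj q w) : cw q w ≠ w ∧ cw q (cw q w) ≠ w ∧
    cw q (cw q (cw q w)) ≠ w := by
  unfold cw
  simp only [ne_eq, Prod.ext_iff]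
  unfold Adj at hw
  omega

/-- connection along a whole side -/
theorem side_full {S : Set V} {h : ℕ} {q w : V} (hw : Adj q w)
    (hS : ∀ t : ℤ, |t| ≤ h → side h q w t ∈ S) :
    Con S (side h q w h) (side h q w (-h)) ∧ Con S (side h q w (-h)) (side h q w h) := by
  constructor
  · refine side_con hw fun r h1 h2 => hS r ?_
    rw [abs_le]
    constructor
    · exact (le_min (by linarith [(Nat.cast_nonneg h : (0:ℤ) ≤ h)]) le_rfl).trans h1
    · exact h2.trans (max_le le_rfl (by linarith [(Nat.cast_nonneg h : (0:ℤ) ≤ h)]))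
  · refine side_con hw fun r h1 h2 => hS r ?_
    rw [abs_le]
    constructor
    · exact (le_min le_rfl (by linarith [(Nat.cast_nonneg h : (0:ℤ) ≤ h)])).trans h1
    · exact h2.trans (max_le (by linarith [(Nat.cast_nonneg h : (0:ℤ) ≤ h)]) le_rfl)

section around

variable {S : Set V} {h : ℕ} {q p r : V}

/-- left turn around the block -/
theorem around_left (hp : Adj q p) (hr : Adj q r) (hne : r ≠ p)
    (hS : ∀ w, Adj q w → w ≠ p → w ≠ r → ∀ t : ℤ, |t| ≤ h → side h q w t ∈ S) :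
    Con S (side h q p (-h)) (side h q r h) := by
  have n1 := cw_ne hp
  have n2 := cw_ne (cw_adj hp)
  rw [turn_id]
  rcases cw_cases hp hr hne with e | e | e
  · rw [e]; exact cRefl _ _
  · have h1 := (side_full (cw_adj hp) (hS _ (cw_adj hp) n1.1 (by rw [e]; exact n2.1.symm))).1
    rw [turn_id, ← e] at h1
    exact h1
  · have h1 := (side_full (cw_adj hp) (hS _ (cw_adj hp) n1.1 (by rw [e]; exact n2.2.1.symm))).1
    have h2 := (side_full (cw_adj (cw_adj hp)) (hS _ (cw_adj (cw_adj hp)) n1.2.1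
      (by rw [e]; exact (cw_ne (cw_adj (cw_adj hp))).1.symm))).1
    rw [turn_id] at h1 h2
    rw [← e] at h2
    exact h1.trans h2

/-- right turn around the block -/
theorem around_right (hp : Adj q p) (hr : Adj q r) (hne : r ≠ p)
    (hS : ∀ w, Adj q w → w ≠ p → w ≠ r → ∀ t : ℤ, |t| ≤ h → side h q w t ∈ S) :
    Con S (side h q p h) (side h q r (-h)) := by
  have n1 := cw_ne hp
  have n2 := cw_ne (cw_adj hp)
  have n3 := cw_ne (cw_adj (cw_adj hp))
  have e4 : side h q p h = side h q (cw q (cw q (cw q p))) (-h) := by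
    rw [turn_id, cw4]
  rw [e4]
  have a3 := cw_adj (cw_adj (cw_adj hp))
  have a2 := cw_adj (cw_adj hp)
  rcases cw_cases hp hr hne with e | e | e
  · have h1 := (side_full a3 (hS _ a3 n1.2.2 (by rw [e]; exact n2.2.1))).2
    have h2 := (side_full a2 (hS _ a2 n1.2.1 (by rw [e]; exact n2.1))).2
    rw [← turn_id] at h1 h2
    rw [e]
    exact h1.trans h2
  · have h1 := (side_full a3 (hS _ a3 n1.2.2 (by rw [e]; exact n3.1))).2
    rw [← turn_id] at h1
    rw [e]
    exact h1
  · rw [e]; exact cRefl _ _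

/-- every corner is connected to the left or to the right entrance corner -/
theorem corner_conn (hp : Adj q p) (hr : Adj q r) (hne : r ≠ p)
    (hS : ∀ w, Adj q w → w ≠ p → w ≠ r → ∀ t : ℤ, |t| ≤ h → side h q w t ∈ S) {w : V}
    (hw : Adj q w) :
    Con S (side h q p (-h)) (side h q w h) ∨ Con S (side h q p h) (side h q w h) := by
  by_cases h1 : w = p
  · subst h1; exact Or.inr (cRefl _ _)
  by_cases h2 : w = r
  · subst h2; exact Or.inl (around_left hp hr hne hS)
  have n1 := cw_ne hp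
  have n2 := cw_ne (cw_adj hp)
  have n3 := cw_ne (cw_adj (cw_adj hp))
  have a3 := cw_adj (cw_adj (cw_adj hp))
  have a2 := cw_adj (cw_adj hp)
  have e4 : side h q p h = side h q (cw q (cw q (cw q p))) (-h) := by
    rw [turn_id, cw4]
  rcases cw_cases hp hw h1 with e | e | e
  · left
    rw [turn_id, e]
    exact cRefl _ _
  · by_cases h3 : r = cw q p
    · right
      have k1 := (side_full a3 (hS _ a3 n1.2.2 (by rw [h3]; exact n2.2.1))).2
      have k2 := (side_full a2 (hS _ a2 n1.2.1 (by rw [h3]; exact n2.1))).2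
      rw [← turn_id] at k1
      rw [e4, e]
      exact k1.trans k2
    · left
      have k1 := (side_full (cw_adj hp) (hS _ (cw_adj hp) n1.1 (Ne.symm h3))).1
      rw [turn_id (w := cw q p)] at k1
      rw [turn_id, e]
      exact k1
  · right
    have k1 := (side_full hw (hS _ hw h1 h2)).2
    rw [e4, ← e]
    exact k1

end around

section cfg

variable {F : Set V} {L : ℕ} {v : ℕ → V} {m : ℕ → ℕ} {c : V} {M : ℤ} {n : ℕ} {U : ℕ → ℕ → V}

/-- a body cell in the block of a cell outside `F` lies on an arm -/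
theorem Cfg.in_arm (C : Cfg F L v m c M n U) {h : ℕ} {q f : V} (hq : q ∉ F) (hb : Blk h q f)
    (hf : f ∈ body (ref h F) (Uref h U) n) : ∃ i < n, ∃ a, q = U i (a + 1) ∧ ∃ w s, s ≤ h ∧
      (w = U i (a + 2) ∨ w = U i a) ∧ Adj q w ∧ f = arm h q w s := by
  rcases hf with hf | ⟨i, hi, j, hj⟩
  · exact absurd ((blk_mem hb).1 hf) hq
  · obtain ⟨a, w, s, hs, hw, hadj, he, hb'⟩ := C.uref_blk hi h j
    rw [← hj] at hb' he
    have e := blk_unique hb hb'
    refine ⟨i, hi, a, e, w, s, hs, hw, e ▸ hadj, ?_⟩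
    rw [e]
    exact he

/-- off-axis cells are free -/
theorem Cfg.off_free (C : Cfg F L v m c M n U) {h : ℕ} {q : V} (hq : q ∉ F) {x y : ℤ}
    (hx : |x| ≤ h) (hy : |y| ≤ h) (hx0 : x ≠ 0) (hy0 : y ≠ 0) :
    pos h q x y ∉ body (ref h F) (Uref h U) n := by
  intro hf
  obtain ⟨i, hi, a, e, w, s, hs, hw, hadj, he⟩ := C.in_arm hq (pos_blk hx hy) hf
  unfold pos arm at he
  rw [Prod.ext_iff] at he
  simp only at he
  unfold Adj at hadj
  rcases hadj with ⟨e1, e2⟩ | ⟨e1, e2⟩ | ⟨e1, e2⟩ | ⟨e1, e2⟩ <;> simp only [e1, e2] at he <;>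
    ring_nf at he <;> omega

/-- free arms -/
theorem Cfg.arm_free (C : Cfg F L v m c M n U) {h : ℕ} {q w : V} (hq : q ∉ F) (hw : Adj q w)
    (hfr : ∀ i < n, ∀ a, q = U i (a + 1) → w ≠ U i (a + 2) ∧ w ≠ U i a) {s : ℕ} (hs : s ≤ h)
    (hs0 : 0 < s) : arm h q w s ∉ body (ref h F) (Uref h U) n := by
  intro hf
  obtain ⟨i, hi, a, e, w', s', hs', hw', hadj, he⟩ := C.in_arm hq (arm_blk hw hs) hf
  by_cases hww : w = w'
  · rcases hw' with h1 | h1
    · exact (hfr i hi a e).1 (hww.trans h1)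
    · exact (hfr i hi a e).2 (hww.trans h1)
  · have := arm_two_eq hw hadj hww he
    omega

theorem side_zero (h : ℕ) (q w : V) : side h q w 0 = arm h q w h := by
  unfold side arm
  ext
  · simp only; ring
  · simp only; ring

theorem Cfg.side_free' (C : Cfg F L v m c M n U) {h : ℕ} {q w : V} (hq : q ∉ F) (hw : Adj q w)
    {t : ℤ} (ht : |t| ≤ h) (ht0 : t ≠ 0) : side h q w t ∉ body (ref h F) (Uref h U) n := by
  have hh : (1 : ℤ) ≤ h := by
    rw [abs_le] at ht; omega
  rw [side_pos]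
  rw [abs_le] at ht
  unfold Adj at hw
  rcases hw with ⟨e1, e2⟩ | ⟨e1, e2⟩ | ⟨e1, e2⟩ | ⟨e1, e2⟩ <;> simp only [e1, e2] <;>
    refine C.off_free hq ?_ ?_ ?_ ?_ <;> ring_nf <;> first | omega | (rw [abs_le]; omega)

theorem Cfg.side_free (C : Cfg F L v m c M n U) {h : ℕ} (hh : 1 ≤ h) {q w : V} (hq : q ∉ F)
    (hw : Adj q w) (hfr : ∀ i < n, ∀ a, q = U i (a + 1) → w ≠ U i (a + 2) ∧ w ≠ U i a) {t : ℤ}
    (ht : |t| ≤ h) : side h q w t ∉ body (ref h F) (Uref h U) n := by
  by_cases ht0 : t = 0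
  · subst ht0
    rw [side_zero]
    exact C.arm_free hq hw hfr le_rfl hh
  · exact C.side_free' hq hw ht ht0

end cfg

end Crest.Agent.R143.Tentx359
end

-- ▼ part R143/Tent5_359
section

/-!
# Row 143 (S0194), block D, TENT, file 5 (helper359): the collars of the tentacles

* `Cfg.left_chain`, `Cfg.right_chain` : the two sides of a tentacle
* `refCfg'`, `collarArc'`, `collarTent`
-/

set_option autoImplicit false

namespace Crest.Agent.R143.Tentx359

open Crest.Agent.R158.Sp896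

section cfg

variable {F : Set V} {L : ℕ} {v : ℕ → V} {m : ℕ → ℕ} {c : V} {M : ℤ} {n : ℕ} {U : ℕ → ℕ → V}

/-- the sides of the block of a path cell without arms are free -/
theorem Cfg.sides (C : Cfg F L v m c M n U) {h : ℕ} (hh : 1 ≤ h) {i : ℕ} (hi : i < n) (a : ℕ) :
    ∀ w, Adj (U i (a + 1)) w → w ≠ U i a → w ≠ U i (a + 2) → ∀ t : ℤ, |t| ≤ h →
      side h (U i (a + 1)) w t ∈ (body (ref h F) (Uref h U) n)ᶜ := by
  intro w hw h1 h2 t ht
  refine C.side_free hh (C.out i hi a) hw ?_ ht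
  intro i' hi' a' he
  obtain ⟨e1, e2⟩ := C.inj i hi i' hi' a a' he
  subst e1; subst e2
  exact ⟨h2, h1⟩

/-- left chain -/
theorem Cfg.left_chain (C : Cfg F L v m c M n U) {h : ℕ} (hh : 1 ≤ h) {i : ℕ} (hi : i < n) (a : ℕ) :
    Con (body (ref h F) (Uref h U) n)ᶜ (side h (U i 1) (U i 0) (-h))
      (side h (U i (a + 1)) (U i a) (-h)) := by
  induction a with
  | zero => exact cRefl _ _
  | succ a ih =>
    have h1 := around_left (h := h) (S := (body (ref h F) (Uref h U) n)ᶜ) (C.step i hi a).symm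
      (C.step i hi (a + 1)) (C.pn_ne hi a) (C.sides hh hi a)
    refine (ih.trans h1).trans (cOne (side_adj (C.step i hi (a + 1)) _) ?_)
    refine C.side_free' (C.out i hi (a + 1)) (C.step i hi (a + 1)).symm ?_ (by omega)
    rw [abs_neg, abs_of_nonneg (by positivity)]

/-- right chain -/
theorem Cfg.right_chain (C : Cfg F L v m c M n U) {h : ℕ} (hh : 1 ≤ h) {i : ℕ} (hi : i < n) (a : ℕ) :
    Con (body (ref h F) (Uref h U) n)ᶜ (side h (U i 1) (U i 0) h)
      (side h (U i (a + 1)) (U i a) h) := by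
  induction a with
  | zero => exact cRefl _ _
  | succ a ih =>
    have h1 := around_right (h := h) (S := (body (ref h F) (Uref h U) n)ᶜ) (C.step i hi a).symm
      (C.step i hi (a + 1)) (C.pn_ne hi a) (C.sides hh hi a)
    have h2 := side_adj (h := h) (C.step i hi (a + 1)) (-h)
    rw [neg_neg] at h2
    refine (ih.trans h1).trans (cOne h2 ?_)
    refine C.side_free' (C.out i hi (a + 1)) (C.step i hi (a + 1)).symm ?_ (by omega)
    rw [abs_of_nonneg (by positivity)]

/-- outer cells of the fine edges of a marked edge -/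
theorem Cfg.rcv_mark (C : Cfg F L v m c M n U) {h : ℕ} {i : ℕ} (hi : i < n) (s : ℕ)
    (hs : s ≤ 2 * h) : rcv (vref h v) ((2 * h + 1) * m i + s) = side h (U i 1) (U i 0) (h - s) := by
  rw [(cells_vref (m i) s hs (C.cyc.step (m i))).2, C.start0 i hi, C.start1 i hi]
  unfold side
  have hA := C.cyc.step (m i)
  unfold lcv rcv lc rc
  generalize v (m i) = p at *
  generalize v (m i + 1) = p' at *
  obtain ⟨x, y⟩ := p
  obtain ⟨x', y'⟩ := p'
  unfold Adj at hA
  rcases hA with ⟨e1, e2⟩ | ⟨e1, e2⟩ | ⟨e1, e2⟩ | ⟨e1, e2⟩ <;> simp only at e1 e2 <;>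
    simp only [e1, e2]
  · have a1 : (x + (x + 1) - (y - y) - 1) / 2 = x := by omega
    have a2 : (y + y + (x + 1 - x) - 1) / 2 = y := by omega
    have a3 : (x + (x + 1) + (y - y) - 1) / 2 = x := by omega
    have a4 : (y + y - (x + 1 - x) - 1) / 2 = y - 1 := by omega
    rw [a1, a2, a3, a4]
    refine Prod.ext ?_ ?_ <;> simp only <;> ring
  · have a1 : (x + (x - 1) - (y - y) - 1) / 2 = x - 1 := by omega
    have a2 : (y + y + (x - 1 - x) - 1) / 2 = y - 1 := by omega
    have a3 : (x + (x - 1) + (y - y) - 1) / 2 = x - 1 := by omega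
    have a4 : (y + y - (x - 1 - x) - 1) / 2 = y := by omega
    rw [a1, a2, a3, a4]
    refine Prod.ext ?_ ?_ <;> simp only <;> ring
  · have a1 : (x + x - (y + 1 - y) - 1) / 2 = x - 1 := by omega
    have a2 : (y + (y + 1) + (x - x) - 1) / 2 = y := by omega
    have a3 : (x + x + (y + 1 - y) - 1) / 2 = x := by omega
    have a4 : (y + (y + 1) - (x - x) - 1) / 2 = y := by omega
    rw [a1, a2, a3, a4]
    refine Prod.ext ?_ ?_ <;> simp only <;> ring
  · have a1 : (x + x - (y - 1 - y) - 1) / 2 = x := by omega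
    have a2 : (y + (y - 1) + (x - x) - 1) / 2 = y - 1 := by omega
    have a3 : (x + x + (y - 1 - y) - 1) / 2 = x - 1 := by omega
    have a4 : (y + (y - 1) - (x - x) - 1) / 2 = y - 1 := by omega
    rw [a1, a2, a3, a4]
    refine Prod.ext ?_ ?_ <;> simp only <;> ring

/-- start of the left side -/
theorem Cfg.left_start (C : Cfg F L v m c M n U) {h : ℕ} (hh : 1 ≤ h) {i : ℕ} (hi : i < n) :
    Con (body (ref h F) (Uref h U) n)ᶜ (rcv (vref h v) (mref h m i + 1))
      (side h (U i 1) (U i 0) (-h)) := by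
  unfold mref
  rw [Nat.add_assoc, C.rcv_mark hi (h + 1) (by omega)]
  have e : (h : ℤ) - (h + 1 : ℕ) = -1 := by push_cast; ring
  rw [e]
  refine side_con (C.step i hi 0).symm fun r h1 h2 => ?_
  have h3 : r ≤ -1 := h2.trans (max_le le_rfl (by omega))
  have h4 : -(h : ℤ) ≤ r := (le_min (by omega) le_rfl).trans h1
  exact C.side_free' (C.out i hi 0) (C.step i hi 0).symm (by rw [abs_le]; omega) (by omega)

/-- start of the right side -/
theorem Cfg.right_start (C : Cfg F L v m c M n U) {h : ℕ} (hh : 1 ≤ h) {i : ℕ} (hi : i < n) :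
    Con (body (ref h F) (Uref h U) n)ᶜ (rcv (vref h v) (mref h m i - 1))
      (side h (U i 1) (U i 0) h) := by
  unfold mref
  have e0 : (2 * h + 1) * m i + h - 1 = (2 * h + 1) * m i + (h - 1) := by omega
  rw [e0, C.rcv_mark hi (h - 1) (by omega)]
  have e : (h : ℤ) - (h - 1 : ℕ) = 1 := by rw [Nat.cast_sub hh]; push_cast; ring
  rw [e]
  refine side_con (C.step i hi 0).symm fun r h1 h2 => ?_
  have h3 : 1 ≤ r := (le_min le_rfl (by omega)).trans h1
  have h4 : r ≤ (h : ℤ) := h2.trans (max_le (by omega) le_rfl)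
  exact C.side_free' (C.out i hi 0) (C.step i hi 0).symm (by rw [abs_le]; omega) (by omega)

/-- a free cell of a block is connected to a corner -/
theorem Cfg.to_corner (C : Cfg F L v m c M n U) {h : ℕ} (hh : 1 ≤ h) {i : ℕ} (hi : i < n) (a : ℕ)
    {f : V} (hb : Blk h (U i (a + 1)) f) (hf : f ∉ body (ref h F) (Uref h U) n) :
    ∃ w, Adj (U i (a + 1)) w ∧
      Con (body (ref h F) (Uref h U) n)ᶜ f (side h (U i (a + 1)) w h) := by
  obtain ⟨x, y, hx, hy, rfl⟩ := blk_pos hb
  set q := U i (a + 1) with hq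
  have hqF : q ∉ F := C.out i hi a
  have hx' := abs_le.1 hx
  have hy' := abs_le.1 hy
  -- the cells of the arm
  have harm : ∀ w, Adj q w → ∀ s : ℕ, s ≤ h → pos h q x y = arm h q w s →
      Con (body (ref h F) (Uref h U) n)ᶜ (pos h q x y) (side h q w h) := by
    intro w hw s hs he
    have hw1 : w ≠ U i (a + 2) ∧ w ≠ U i a := by
      constructor
      · rintro rfl
        refine hf (Or.inr ⟨i, hi, _, he.trans (arm_plus h U i a s hs)⟩)
      · rintro rfl
        refine hf (Or.inr ⟨i, hi, _, he.trans (arm_minus h U i a s hs)⟩)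
    have hs0 : 0 < s := by
      rcases Nat.eq_zero_or_pos s with h0 | h0
      · exfalso
        subst h0
        refine hf (Or.inr ⟨i, hi, _, he.trans (Eq.trans ?_ (arm_plus h U i a 0 (by omega)))⟩)
        unfold arm
        simp
        rfl
      · exact h0
    have hfr : ∀ i' < n, ∀ a', q = U i' (a' + 1) → w ≠ U i' (a' + 2) ∧ w ≠ U i' a' := by
      intro i' hi' a' he'
      obtain ⟨e1, e2⟩ := C.inj i hi i' hi' a a' he'
      subst e1; subst e2
      exact hw1
    have hd : Adj (0, 0) ((w.1 - q.1, w.2 - q.2) : V) := by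
      unfold Adj at hw ⊢
      simp only
      omega
    have h1 := line_con (S := (body (ref h F) (Uref h U) n)ᶜ) (p := cenc h q) hd
      (t := s) (t' := h) (fun r h1 h2 => by
        have h3 : (s : ℤ) ≤ r := (le_min le_rfl (by exact_mod_cast hs)).trans h1
        have h4 : r ≤ (h : ℤ) := h2.trans (max_le (by exact_mod_cast hs) le_rfl)
        obtain ⟨r', hr'⟩ := Int.eq_ofNat_of_zero_le (show 0 ≤ r by omega)
        subst hr'
        exact C.arm_free hqF hw hfr (s := r') (by exact_mod_cast h4) (by omega))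
    have e1 : ((cenc h q).1 + (s : ℤ) * ((w.1 - q.1, w.2 - q.2) : V).1,
        (cenc h q).2 + (s : ℤ) * ((w.1 - q.1, w.2 - q.2) : V).2) = pos h q x y := he.symm
    have e2 : ((cenc h q).1 + (h : ℤ) * ((w.1 - q.1, w.2 - q.2) : V).1,
        (cenc h q).2 + (h : ℤ) * ((w.1 - q.1, w.2 - q.2) : V).2) = side h q w 0 :=
      (side_zero h q w).symm
    rw [e1, e2] at h1
    refine h1.trans (side_con hw fun r h1 h2 => ?_)
    have h3 : 0 ≤ r := (le_min le_rfl (by positivity)).trans h1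
    have h4 : r ≤ (h : ℤ) := h2.trans (max_le (by positivity) le_rfl)
    exact C.side_free hh hqF hw hfr (by rw [abs_le]; omega)
  by_cases hx0 : x = 0
  · by_cases hy0 : 0 ≤ y
    · obtain ⟨s, hs⟩ := Int.eq_ofNat_of_zero_le hy0
      refine ⟨(q.1, q.2 + 1), by unfold Adj; simp, harm _ (by unfold Adj; simp) s (by omega) ?_⟩
      unfold pos arm
      ext <;> simp [hx0, hs]
    · obtain ⟨s, hs⟩ := Int.eq_ofNat_of_zero_le (show 0 ≤ -y by omega)
      refine ⟨(q.1, q.2 - 1), by unfold Adj; simp, harm _ (by unfold Adj; simp) s (by omega) ?_⟩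
      unfold pos arm
      ext
      · simp [hx0]
      · simp only; ring_nf; omega
  by_cases hy0 : y = 0
  · by_cases hx1 : 0 ≤ x
    · obtain ⟨s, hs⟩ := Int.eq_ofNat_of_zero_le hx1
      refine ⟨(q.1 + 1, q.2), by unfold Adj; simp, harm _ (by unfold Adj; simp) s (by omega) ?_⟩
      unfold pos arm
      ext <;> simp [hy0, hs]
    · obtain ⟨s, hs⟩ := Int.eq_ofNat_of_zero_le (show 0 ≤ -x by omega)
      refine ⟨(q.1 - 1, q.2), by unfold Adj; simp, harm _ (by unfold Adj; simp) s (by omega) ?_⟩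
      unfold pos arm
      ext
      · simp only; ring_nf; omega
      · simp [hy0]
  -- off the axes
  have hgo : ∀ X Y : ℤ, (X = h ∨ X = -h) → (Y = h ∨ Y = -h) → (0 < x ↔ 0 < X) → (0 < y ↔ 0 < Y) →
      Con (body (ref h F) (Uref h U) n)ᶜ (pos h q x y) (pos h q X Y) := by
    intro X Y hX hY hxX hyY
    have h1 := line_con (S := (body (ref h F) (Uref h U) n)ᶜ) (p := pos h q 0 y) (d := (1, 0))
      (by unfold Adj; simp) (t := x) (t' := X) (fun r h1 h2 => by
        have h3 : ((pos h q 0 y).1 + r * ((1, 0) : V).1, (pos h q 0 y).2 + r * ((1, 0) : V).2) =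
            pos h q r y := by
          unfold pos; ext <;> simp
        rw [h3]
        have h4 : min x X ≤ r := h1
        have h5 : r ≤ max x X := h2
        rw [min_le_iff] at h4
        rw [le_max_iff] at h5
        exact C.off_free hqF (by rw [abs_le]; omega) hy (by omega) hy0)
    have h2 := line_con (S := (body (ref h F) (Uref h U) n)ᶜ) (p := pos h q X 0) (d := (0, 1))
      (by unfold Adj; simp) (t := y) (t' := Y) (fun r h1 h2 => by
        have h3 : ((pos h q X 0).1 + r * ((0, 1) : V).1, (pos h q X 0).2 + r * ((0, 1) : V).2) =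
            pos h q X r := by
          unfold pos; ext <;> simp
        rw [h3]
        have h4 : min y Y ≤ r := h1
        have h5 : r ≤ max y Y := h2
        rw [min_le_iff] at h4
        rw [le_max_iff] at h5
        exact C.off_free hqF (by rw [abs_le]; omega) (by rw [abs_le]; omega) (by omega) (by omega))
    have e1 : ((pos h q 0 y).1 + x * ((1, 0) : V).1, (pos h q 0 y).2 + x * ((1, 0) : V).2) =
        pos h q x y := by
      unfold pos; ext <;> simp
    have e2 : ((pos h q 0 y).1 + X * ((1, 0) : V).1, (pos h q 0 y).2 + X * ((1, 0) : V).2) =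
        pos h q X y := by
      unfold pos; ext <;> simp
    have e3 : ((pos h q X 0).1 + y * ((0, 1) : V).1, (pos h q X 0).2 + y * ((0, 1) : V).2) =
        pos h q X y := by
      unfold pos; ext <;> simp
    have e4 : ((pos h q X 0).1 + Y * ((0, 1) : V).1, (pos h q X 0).2 + Y * ((0, 1) : V).2) =
        pos h q X Y := by
      unfold pos; ext <;> simp
    rw [e1, e2] at h1
    rw [e3, e4] at h2
    exact h1.trans h2
  rcases lt_or_ge 0 x with hx1 | hx1 <;> rcases lt_or_ge 0 y with hy1 | hy1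
  · refine ⟨(q.1 + 1, q.2), by unfold Adj; simp, ?_⟩
    have := hgo h h (Or.inl rfl) (Or.inl rfl) (by omega) (by omega)
    rw [side_pos]
    simpa using this
  · refine ⟨(q.1, q.2 - 1), by unfold Adj; simp, ?_⟩
    have := hgo h (-h) (Or.inl rfl) (Or.inr rfl) (by omega) (by omega)
    rw [side_pos]
    simpa using this
  · refine ⟨(q.1, q.2 + 1), by unfold Adj; simp, ?_⟩
    have := hgo (-h) h (Or.inr rfl) (Or.inl rfl) (by omega) (by omega)
    rw [side_pos]
    simpa using this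
  · refine ⟨(q.1 - 1, q.2), by unfold Adj; simp, ?_⟩
    have := hgo (-h) (-h) (Or.inr rfl) (Or.inr rfl) (by omega) (by omega)
    rw [side_pos]
    simpa using this

/-- a complement cell next to a fine tentacle cell is in its block -/
theorem Cfg.nb_blk (C : Cfg F L v m c M n U) {h : ℕ} (hh : 1 ≤ h) {i : ℕ} (hi : i < n) {j : ℕ}
    {q : V} (hq : Adj (Uref h U i (j + 1)) q) (hqB : q ∉ body (ref h F) (Uref h U) n) :
    ∃ a, Blk h (U i (a + 1)) q := by
  obtain ⟨a, s, hs, hA⟩ := uref_cases h U i j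
  refine ⟨a, ?_⟩
  obtain ⟨q', hq'⟩ : ∃ q', Blk h q' q := ⟨_, blk_iff.2 rfl⟩
  by_cases hne : q' = U i (a + 1)
  · exact hne ▸ hq'
  exfalso
  have h1 : |(Uref h U i (j + 1)).1 - q.1| ≤ 1 := by
    unfold Adj at hq; rw [abs_le]; omega
  have h2 : |(Uref h U i (j + 1)).2 - q.2| ≤ 1 := by
    unfold Adj at hq; rw [abs_le]; omega
  rcases hA with ⟨e, hn⟩ | ⟨e, hn, hp⟩
  · -- next cell
    have hst := C.step i hi (a + 1)
    have hq0 := hq
    rw [e] at h1 h2 hq
    obtain ⟨-, g2, g3⟩ := arm_adj hh hst hs hq' hne h1 h2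
    apply hqB
    refine Or.inr ⟨i, hi, j + 1, ?_⟩
    have e1 : Uref h U i (j + 1 + 1) = CL h (U i) ((2 * h + 1) * (a + 1) + (h + 1)) := by
      unfold Uref
      congr 1
      omega
    have e2 : (2 * h + 1) * (a + 1) + (h + 1) = (2 * h + 1) * (a + 1 + 1) - h := by
      have : (2 * h + 1) * (a + 1 + 1) = (2 * h + 1) * (a + 1) + (2 * h + 1) := by ring
      omega
    rw [e1, e2, CL_sub (U i) (a + 1) h le_rfl]
    unfold arm cenc at g3 hq
    unfold cenc
    unfold Adj at hst hq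
    rw [g2] at g3 hq
    have hst' : ((U i (a + 1 + 1)).1 = (U i (a + 1)).1 + 1 ∧ (U i (a + 1 + 1)).2 = (U i (a + 1)).2) ∨
      ((U i (a + 1 + 1)).1 = (U i (a + 1)).1 - 1 ∧ (U i (a + 1 + 1)).2 = (U i (a + 1)).2) ∨
      ((U i (a + 1 + 1)).1 = (U i (a + 1)).1 ∧ (U i (a + 1 + 1)).2 = (U i (a + 1)).2 + 1) ∨
      ((U i (a + 1 + 1)).1 = (U i (a + 1)).1 ∧ (U i (a + 1 + 1)).2 = (U i (a + 1)).2 - 1) := hst
    have e3 : U i (a + 2) = U i (a + 1 + 1) := rfl
    rw [e3] at g3 hq
    rcases hst' with ⟨s1, s2⟩ | ⟨s1, s2⟩ | ⟨s1, s2⟩ | ⟨s1, s2⟩ <;> simp only [s1, s2] at g3 hq ⊢ <;>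
      (refine Prod.ext ?_ ?_ <;> simp only <;> ring_nf at g3 hq ⊢ <;> omega)
  · -- previous cell
    have hst := (C.step i hi a).symm
    rw [e] at h1 h2 hq
    obtain ⟨-, g2, g3⟩ := arm_adj hh hst hs hq' hne h1 h2
    apply hqB
    have e1 : q = Uref h U i j := by
      have e1 : Uref h U i j = CL h (U i) ((2 * h + 1) * a + h) := by
        unfold Uref
        congr 1
        have : (2 * h + 1) * (a + 1) = (2 * h + 1) * a + (2 * h + 1) := by ring
        omega
      rw [e1, CL_add (U i) a h le_rfl]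
      unfold arm cenc at g3 hq
      unfold cenc
      unfold Adj at hst hq
      rw [g2] at g3 hq
      rcases hst with ⟨s1, s2⟩ | ⟨s1, s2⟩ | ⟨s1, s2⟩ | ⟨s1, s2⟩ <;>
        simp only [s1, s2] at g3 hq ⊢ <;>
        (refine Prod.ext ?_ ?_ <;> simp only <;> ring_nf at g3 hq ⊢ <;> omega)
    rcases Nat.eq_zero_or_pos j with h0 | h0
    · subst h0
      rw [e1]
      exact Or.inl (C.uref_zero_mem h hi)
    · obtain ⟨j', rfl⟩ : ∃ j', j = j' + 1 := ⟨j - 1, by omega⟩
      exact Or.inr ⟨i, hi, j', e1⟩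

end cfg

end Crest.Agent.R143.Tentx359
end

-- ▼ part R143/Tent6_359

/-!
# Row 143 (S0194), block D, TENT, file 6 (helper359): collars of the tentacles, far region

* `refCfg'`, `collarArc'`, `clean'`, `collarTent` : the Props of Tent0 without hypotheses
* `Cfg.far` : outside the box the body consists of the rays
* `Cfg.far_free`, `Cfg.far_x`, `Cfg.far_t` : moves in the far region
-/

set_option autoImplicit false

namespace Crest.Agent.R143.Tentx359

open Crest.Agent.R158.Sp896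

theorem refCfg' : RefCfg := refCfg TentAx951.refCyc TentAx951.refCon

theorem collarArc' : CollarArc := collarArc TentAx951.refCyc


/-- point of the far region in the frame of the ray `i` -/
def fp (c : V) (i : ℕ) (x t : ℤ) : V :=
  (c.1 + x * (dir i).1 - t * (dir i).2, c.2 + x * (dir i).2 + t * (dir i).1)

theorem dir_cases {i : ℕ} (hi : i < 4) : (i = 0 ∧ dir i = (1, 0)) ∨ (i = 1 ∧ dir i = (0, 1)) ∨
    (i = 2 ∧ dir i = (-1, 0)) ∨ (i = 3 ∧ dir i = (0, -1)) := by
  interval_cases i <;> simp [dir]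

section cfg

variable {F : Set V} {L : ℕ} {v : ℕ → V} {m : ℕ → ℕ} {c : V} {M : ℤ} {n : ℕ} {U : ℕ → ℕ → V}

theorem Cfg.M_pos (C : Cfg F L v m c M n U) : 0 < M := by
  have h1 := (C.box _ (C.cyc.left 0)).1
  exact lt_of_le_of_lt (abs_nonneg _) h1

/-- outside the box the body consists of the rays -/
theorem Cfg.far (C : Cfg F L v m c M n U) {f : V} (hf : f ∈ body F U n)
    (hfar : M < |f.1 - c.1| ∨ M < |f.2 - c.2|) :
    ∃ i < n, ∃ r : ℤ, M < r ∧ f = (c.1 + r * (dir i).1, c.2 + r * (dir i).2) := by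
  rcases hf with hf | ⟨i, hi, j, hj⟩
  · have := C.box f hf
    omega
  · obtain ⟨j0, h0, h1, h2⟩ := C.ray i hi
    by_cases hle : j + 1 ≤ j0
    · have := h1 (j + 1) hle
      rw [← hj] at this
      omega
    · obtain ⟨j', hj'⟩ : ∃ j', j + 1 = j0 + (j' + 1) := ⟨j - j0, by omega⟩
      refine ⟨i, hi, M + (j' + 1 : ℕ), by push_cast; omega, ?_⟩
      rw [hj, hj']
      exact h2 (j' + 1)

/-- the rays are in the body -/
theorem Cfg.ray_mem (C : Cfg F L v m c M n U) {i : ℕ} (hi : i < n) {r : ℤ} (hr : M ≤ r) :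
    ((c.1 + r * (dir i).1, c.2 + r * (dir i).2) : V) ∈ body F U n := by
  obtain ⟨j0, h0, h1, h2⟩ := C.ray i hi
  obtain ⟨j, hj⟩ := Int.eq_ofNat_of_zero_le (sub_nonneg.2 hr)
  refine Or.inr ⟨i, hi, j0 - 1 + j, ?_⟩
  have e : j0 - 1 + j + 1 = j0 + j := by omega
  rw [e, h2 j]
  have : r = M + j := by omega
  rw [this]

/-- cells next to the rays in the far region are free -/
theorem Cfg.far_free (C : Cfg F L v m c M n U) {i : ℕ} (hi : i < 4) {x t : ℤ} (hx : M < x)
    (ht : t ≠ 0) : fp c i x t ∉ body F U n := by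
  intro hf
  have hM := C.M_pos
  have hn := C.n4
  have hfar : M < |(fp c i x t).1 - c.1| ∨ M < |(fp c i x t).2 - c.2| := by
    unfold fp
    rcases dir_cases hi with ⟨-, e⟩ | ⟨-, e⟩ | ⟨-, e⟩ | ⟨-, e⟩ <;> rw [e] <;> simp only
    · left; rw [lt_abs]; omega
    · right; rw [lt_abs]; omega
    · left; rw [lt_abs]; omega
    · right; rw [lt_abs]; omega
  obtain ⟨i', hi', r, hr, he⟩ := C.far hf hfar
  unfold fp at he
  rw [Prod.ext_iff] at he
  simp only at he
  rcases dir_cases hi with ⟨-, e⟩ | ⟨-, e⟩ | ⟨-, e⟩ | ⟨-, e⟩ <;>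
    rcases dir_cases (show i' < 4 by omega) with ⟨-, e'⟩ | ⟨-, e'⟩ | ⟨-, e'⟩ | ⟨-, e'⟩ <;>
    rw [e, e'] at he <;> simp only at he <;> omega

/-- moves parallel to the ray -/
theorem Cfg.far_x (C : Cfg F L v m c M n U) {i : ℕ} (hi : i < 4) {x x' t : ℤ} (hx : M < x)
    (hx' : M < x') (ht : t ≠ 0) : Con (body F U n)ᶜ (fp c i x t) (fp c i x' t) := by
  have hd : Adj (0, 0) (dir i) := by
    rcases dir_cases hi with ⟨-, e⟩ | ⟨-, e⟩ | ⟨-, e⟩ | ⟨-, e⟩ <;> rw [e] <;> unfold Adj <;> simp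
  have key : ∀ r : ℤ, fp c i r t = ((fp c i 0 t).1 + r * (dir i).1, (fp c i 0 t).2 + r * (dir i).2) := by
    intro r; unfold fp; ext <;> simp only <;> ring
  rw [key x, key x']
  refine line_con (p := fp c i 0 t) hd fun r h1 h2 => ?_
  rw [← key r]
  rw [min_le_iff] at h1
  exact C.far_free hi (by omega) ht

/-- moves orthogonal to the ray -/
theorem Cfg.far_t (C : Cfg F L v m c M n U) {i : ℕ} (hi : i < 4) {x t t' : ℤ} (hx : M < x)
    (ht : (0 < t ∧ 0 < t') ∨ (t < 0 ∧ t' < 0)) :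
    Con (body F U n)ᶜ (fp c i x t) (fp c i x t') := by
  have hd : Adj (0, 0) ((-(dir i).2, (dir i).1) : V) := by
    rcases dir_cases hi with ⟨-, e⟩ | ⟨-, e⟩ | ⟨-, e⟩ | ⟨-, e⟩ <;> rw [e] <;> unfold Adj <;> simp
  have key : ∀ r : ℤ, fp c i x r =
      ((fp c i x 0).1 + r * ((-(dir i).2, (dir i).1) : V).1,
        (fp c i x 0).2 + r * ((-(dir i).2, (dir i).1) : V).2) := by
    intro r; unfold fp; ext <;> simp only <;> ring
  rw [key t, key t']
  refine line_con (p := fp c i x 0) hd fun r h1 h2 => ?_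
  rw [← key r]
  rw [min_le_iff] at h1
  rw [le_max_iff] at h2
  exact C.far_free hi hx (by omega)

/-- entrance corners of the far blocks -/
theorem Cfg.ray_corner (C : Cfg F L v m c M n U) (h : ℕ) {i : ℕ} (hi : i < n) :
    ∃ a, side h (U i (a + 1)) (U i a) (-h) = fp (cenc h c) i ((2 * h + 1) * M + (h + 1)) h ∧
      side h (U i (a + 1)) (U i a) h = fp (cenc h c) i ((2 * h + 1) * M + (h + 1)) (-h) := by
  obtain ⟨j0, h0, h1, h2⟩ := C.ray i hi
  have e1 := h2 1
  have e0 := h2 0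
  rw [Nat.add_zero] at e0
  refine ⟨j0, ?_, ?_⟩ <;> rw [e1, e0] <;> unfold side fp cenc <;>
    refine Prod.ext ?_ ?_ <;> simp only <;> push_cast <;> ring

/-- **(B4)** -/
theorem collarTent : CollarTent := by
  intro h hh F L v m c M n U C i hi
  have C' := refCfg' h F L v m c M n U C
  have hi4 : i < 4 := lt_of_lt_of_le hi C.n4
  have hh' : (1 : ℤ) ≤ h := by exact_mod_cast hh
  obtain ⟨a, ha1, ha2⟩ := C.ray_corner h hi
  have hL := C.left_start hh hi
  have hR := C.right_start hh hi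
  refine ⟨?_, ?_, ?_⟩
  · intro r hr
    have k1 := (hL.trans (C.left_chain hh hi a))
    rw [ha1] at k1
    have k2 := C'.far_x hi4 (x := (2 * h + 1) * M + (h + 1)) (x' := r) (t := h) (by omega) hr
      (by omega)
    have k3 := C'.far_t hi4 (x := r) (t := h) (t' := 1) hr (by omega)
    have e : fp (cenc h c) i r 1 = ((cenc h c).1 + r * (dir i).1 + (rot (dir i)).1,
        (cenc h c).2 + r * (dir i).2 + (rot (dir i)).2) := by
      unfold fp rot; ext <;> simp only <;> ring
    rw [e] at k3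
    exact (k1.trans k2).trans k3
  · intro r hr
    have k1 := (hR.trans (C.right_chain hh hi a))
    rw [ha2] at k1
    have k2 := C'.far_x hi4 (x := (2 * h + 1) * M + (h + 1)) (x' := r) (t := -h) (by omega) hr
      (by omega)
    have k3 := C'.far_t hi4 (x := r) (t := -h) (t' := -1) hr (by omega)
    have e : fp (cenc h c) i r (-1) = ((cenc h c).1 + r * (dir i).1 - (rot (dir i)).1,
        (cenc h c).2 + r * (dir i).2 - (rot (dir i)).2) := by
      unfold fp rot; ext <;> simp only <;> ring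
    rw [e] at k3
    exact (k1.trans k2).trans k3
  · intro j q hq hqB
    obtain ⟨b, hb⟩ := C.nb_blk hh hi hq hqB
    obtain ⟨w, hw, hcon⟩ := C.to_corner hh hi b hb hqB
    have hcon' : Con (body (ref h F) (Uref h U) n)ᶜ (side h (U i (b + 1)) w h) q := by
      exact Crest.Agent.R158.Sp896.Con.symm hcon hqB
    rcases corner_conn (h := h) (S := (body (ref h F) (Uref h U) n)ᶜ) (C.step i hi b).symm
      (C.step i hi (b + 1)) (C.pn_ne hi b) (C.sides hh hi b) hw with h1 | h1
    · exact Or.inl (((hL.trans (C.left_chain hh hi b)).trans h1).trans hcon')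
    · exact Or.inr (((hR.trans (C.right_chain hh hi b)).trans h1).trans hcon')

end cfg

end Crest.Agent.R143.Tentx359
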