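import Crest.Agent.R143.TentA_951
import Crest.Agent.R143.Tent1_359
import Crest.Agent.R158.Sp6_896
import Crest.Agent.R143.Tent6_359

-- ▼ part R143/TentB_951
section

/-!
# Row 143 (S0194), block D, TENT B, part 1 (helper951): the box

* `Bx c R` : box of cells of radius `R` around `c`
* `bw c R` : its boundary walk, counterclockwise, starting at the south east corner
* `bw_cyc`, `bx_con`, `bx_con'`
* `lcv_bw` : left cell of the dart `(2R+1) i + R + s`, `s ≤ R`
-/

set_option autoImplicit false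

namespace Crest.Agent.R143.TentBx951

open Crest.Agent.R158 Crest.Agent.R158.Sp896 Crest.Agent.R143.Tentx359 Crest.Agent.R143.TentAx951

/-- translation -/
def tr (a : V) (q : V) : V := (q.1 + a.1, q.2 + a.2)

theorem adj_tr (a p q : V) : Adj (tr a p) (tr a q) ↔ Adj p q := by
  unfold Adj tr; simp only; omega

theorem lc_tr (a p q : V) : lc (tr a p) (tr a q) = tr a (lc p q) := by
  unfold lc tr; simp only; ext <;> simp only <;> omega

theorem rc_tr (a p q : V) : rc (tr a p) (tr a q) = tr a (rc p q) := by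
  unfold rc tr; simp only; ext <;> simp only <;> omega

theorem tr_inj {a p q : V} (h : tr a p = tr a q) : p = q := by
  unfold tr at h
  rw [Prod.mk.injEq] at h
  ext
  · linarith [h.1]
  · linarith [h.2]

/-- translated walk -/
theorem cyc_tr {F : Set V} {L : ℕ} {v : ℕ → V} (h : Cyc F L v) (a : V) :
    Cyc {q | ((q.1 - a.1, q.2 - a.2) : V) ∈ F} L (fun i => tr a (v i)) where
  four_le := h.four_le
  per := fun i => by rw [h.per]
  inj := fun i hi j hj he => h.inj i hi j hj (tr_inj he)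
  step := fun i => (adj_tr a _ _).2 (h.step i)
  left := fun i => by
    have := h.left i
    rw [lc_tr]
    simpa [tr] using this
  right := fun i => by
    have := h.right i
    rw [rc_tr]
    simpa [tr] using this
  all := by
    intro p q hpq hl hr
    have e1 : tr a (p.1 - a.1, p.2 - a.2) = p := by ext <;> simp [tr]
    have e2 : tr a (q.1 - a.1, q.2 - a.2) = q := by ext <;> simp [tr]
    rw [← e1, ← e2] at hpq hl hr
    rw [adj_tr] at hpq
    rw [lc_tr] at hl
    rw [rc_tr] at hr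
    obtain ⟨i, hi, h1, h2⟩ := h.all _ _ hpq (by simpa [tr] using hl) (by simpa [tr] using hr)
    exact ⟨i, hi, by rw [h1, e1], by rw [h2, e2]⟩

/-- the unit square, starting at the south east corner -/
def sqw (i : ℕ) : V :=
  if i % 4 = 0 then (1, 0) else if i % 4 = 1 then (1, 1) else if i % 4 = 2 then (0, 1) else (0, 0)

theorem sqw0 : sqw 0 = (1, 0) := rfl
theorem sqw1 : sqw 1 = (1, 1) := rfl
theorem sqw2 : sqw 2 = (0, 1) := rfl
theorem sqw3 : sqw 3 = (0, 0) := rfl

theorem sqw_mod (i : ℕ) : sqw i = sqw (i % 4) := by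
  unfold sqw; rw [Nat.mod_mod]

theorem sqw_cyc : Cyc {((0, 0) : V)} 4 sqw where
  four_le := le_rfl
  per := fun i => by unfold sqw; rw [Nat.add_mod_right]
  inj := by
    intro i hi j hj h
    interval_cases i <;> interval_cases j <;> simp [sqw] at h ⊢
  step := by
    intro i
    have h4 : i % 4 < 4 := Nat.mod_lt _ (by norm_num)
    rw [sqw_mod i, sqw_mod (i + 1), Nat.add_mod]
    interval_cases i % 4 <;> simp [sqw, Adj]
  left := by
    intro i
    have h4 : i % 4 < 4 := Nat.mod_lt _ (by norm_num)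
    rw [sqw_mod i, sqw_mod (i + 1), Nat.add_mod]
    interval_cases i % 4 <;> simp [sqw, lc]
  right := by
    intro i
    have h4 : i % 4 < 4 := Nat.mod_lt _ (by norm_num)
    rw [sqw_mod i, sqw_mod (i + 1), Nat.add_mod]
    interval_cases i % 4 <;> simp [sqw, rc]
  all := by
    rintro ⟨a1, a2⟩ ⟨b1, b2⟩ hab hl hr
    simp only [Set.mem_singleton_iff, lc, Prod.mk.injEq] at hl
    unfold Adj at hab
    simp only at hab
    rcases hab with ⟨h1, h2⟩ | ⟨h1, h2⟩ | ⟨h1, h2⟩ | ⟨h1, h2⟩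
    · obtain ⟨e1, e2⟩ : a1 = 0 ∧ a2 = 0 := by omega
      subst h1 h2 e1 e2
      exact ⟨3, by norm_num, rfl, rfl⟩
    · obtain ⟨e1, e2⟩ : a1 = 1 ∧ a2 = 1 := by omega
      subst h1 h2 e1 e2
      exact ⟨1, by norm_num, rfl, rfl⟩
    · obtain ⟨e1, e2⟩ : a1 = 1 ∧ a2 = 0 := by omega
      subst h1 h2 e1 e2
      exact ⟨0, by norm_num, rfl, rfl⟩
    · obtain ⟨e1, e2⟩ : a1 = 0 ∧ a2 = 1 := by omega
      subst h1 h2 e1 e2
      exact ⟨2, by norm_num, rfl, rfl⟩

/-- box of radius `R` around `c` -/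
def Bx (c : V) (R : ℤ) : Set V := {q | |q.1 - c.1| ≤ R ∧ |q.2 - c.2| ≤ R}

theorem mem_Bx {c : V} {R : ℤ} {q : V} : q ∈ Bx c R ↔
    (c.1 - R ≤ q.1 ∧ q.1 ≤ c.1 + R) ∧ (c.2 - R ≤ q.2 ∧ q.2 ≤ c.2 + R) := by
  show |q.1 - c.1| ≤ R ∧ |q.2 - c.2| ≤ R ↔ _
  rw [abs_le, abs_le]
  constructor <;> rintro ⟨⟨h1, h2⟩, h3, h4⟩ <;> refine ⟨⟨?_, ?_⟩, ?_, ?_⟩ <;> linarith

/-- boundary walk of the box -/
def bw (c : V) (R : ℕ) (i : ℕ) : V := tr (c.1 - R, c.2 - R) (vref R sqw i)

theorem bw_cyc (c : V) (R : ℕ) : Cyc (Bx c R) ((2 * R + 1) * 4) (bw c R) := by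
  have h1 := cyc_tr (refCyc R _ _ _ sqw_cyc) ((c.1 - R, c.2 - R) : V)
  have e : {q : V | ((q.1 - (c.1 - (R : ℤ)), q.2 - (c.2 - (R : ℤ))) : V) ∈ ref R {((0, 0) : V)}} =
      Bx c R := by
    ext q
    rw [Set.mem_ofPred_eq, Tentx359.mem_ref, mem_Bx]
    simp only [Set.mem_singleton_iff, Blk]
    constructor
    · rintro ⟨q0, rfl, h1, h2, h3, h4⟩
      simp only at h1 h2 h3 h4
      refine ⟨⟨?_, ?_⟩, ?_, ?_⟩ <;> linarith
    · rintro ⟨⟨h1, h2⟩, h3, h4⟩
      refine ⟨(0, 0), rfl, ?_, ?_, ?_, ?_⟩ <;> simp only <;> linarith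
  rw [← e]
  exact h1


theorem bx_con_corner (c : V) (R : ℤ) (q : V) (hq : q ∉ Bx c R) :
    Con (Bx c R)ᶜ q (c.1 + R + 1, c.2 + R + 1) := by
  obtain ⟨x, y⟩ := q
  rw [mem_Bx] at hq
  simp only at hq
  by_cases h1 : c.1 + R < x ∨ x < c.1 - R
  · refine (con_col (y' := c.2 + R + 1) fun t _ _ => ?_).trans (con_row fun t _ _ => ?_)
    · rw [Set.mem_compl_iff, mem_Bx]; simp only; omega
    · rw [Set.mem_compl_iff, mem_Bx]; simp only; omega
  · refine (con_row (x' := c.1 + R + 1) fun t _ _ => ?_).trans (con_col fun t _ _ => ?_)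
    · rw [Set.mem_compl_iff, mem_Bx]; simp only; omega
    · rw [Set.mem_compl_iff, mem_Bx]; simp only; omega

theorem bx_con' (c : V) (R : ℤ) : ∀ q ∉ Bx c R, ∀ q' ∉ Bx c R, Con (Bx c R)ᶜ q q' :=
  fun q hq q' hq' => (bx_con_corner c R q hq).trans ((bx_con_corner c R q' hq').symm hq')

/-- the vertices of the box walk near the exit `i` -/
theorem bw_exit (c : V) (R : ℕ) {i : ℕ} (hi : i < 4) {s : ℕ} (hs : s ≤ R) :
    bw c R ((2 * R + 1) * i + (R + s)) =
      (c.1 + R * (dir i).1 + s * (rot (dir i)).1 + (if i = 0 ∨ i = 1 then 1 else 0),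
       c.2 + R * (dir i).2 + s * (rot (dir i)).2 + (if i = 1 ∨ i = 2 then 1 else 0)) := by
  have hd : ((2 * R + 1) * i + (R + s)) / (2 * R + 1) = i := by
    rw [Nat.mul_add_div (by omega), Nat.div_eq_of_lt (by omega), add_zero]
  have hm : ((2 * R + 1) * i + (R + s)) % (2 * R + 1) = R + s := by
    rw [Nat.mul_add_mod, Nat.mod_eq_of_lt (by omega)]
  unfold bw vref tr
  rw [hd, hm]
  interval_cases i <;> simp only [sqw0, sqw1, sqw2, sqw3, show sqw 4 = (1, 0) from rfl,
    dir, rot, if_true, Nat.reduceAdd] <;> norm_num <;> constructor <;> ring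

end Crest.Agent.R143.TentBx951
end

-- ▼ part R143/TentB2_951
section

/-!
# Row 143 (S0194), block D, TENT B, part 2 (helper951): the four classes

* `Fine F L v m c M U` : a clean configuration with its collars
* `cls` : the class of the complement of the body after the mark `i`
* `disj` : different classes are disjoint, `cover`, `cls_con`, `quad`, `not_adj8`
-/

set_option autoImplicit false

namespace Crest.Agent.R143.TentBx951

open Crest.Agent.R158 Crest.Agent.R158.Sp896 Crest.Agent.R143.Tentx359 Crest.Agent.R143.TentAx951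

theorem lcv_bw (c : V) (R : ℕ) {i : ℕ} (hi : i < 4) {s : ℕ} (hs : s + 1 ≤ R) :
    lcv (bw c R) ((2 * R + 1) * i + (R + s)) =
      (c.1 + R * (dir i).1 + s * (rot (dir i)).1, c.2 + R * (dir i).2 + s * (rot (dir i)).2) := by
  unfold lcv
  rw [show (2 * R + 1) * i + (R + s) + 1 = (2 * R + 1) * i + (R + (s + 1)) by ring,
    bw_exit c R hi (by omega), bw_exit c R hi hs]
  unfold lc
  interval_cases i <;> simp only [dir, rot] <;> norm_num <;> constructor <;> omega

/-- a finite path stays in a large box -/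
theorem con_box {S : Set V} (c : V) {p q : V} (h : Con S p q) :
    ∃ R0 : ℤ, ∀ R : ℤ, R0 ≤ R → Con (Bx c R ∩ S) p q := by
  induction h with
  | refl => exact ⟨0, fun R _ => Sp896.Con.refl _ _⟩
  | @tail a b _ h2 ih =>
    obtain ⟨R0, h0⟩ := ih
    refine ⟨max R0 (max |b.1 - c.1| |b.2 - c.2|), fun R hR => ?_⟩
    have h3 := h0 R (le_trans (le_max_left _ _) hR)
    refine h3.trans (Sp896.Con.one h2.1 ⟨⟨?_, ?_⟩, h2.2⟩)
    · exact le_trans (le_trans (le_max_left _ _) (le_max_right _ _)) hR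
    · exact le_trans (le_trans (le_max_right _ _) (le_max_right _ _)) hR

/-- a clean configuration with four tentacles and its collars -/
structure Fine (F : Set V) (L : ℕ) (v : ℕ → V) (m : ℕ → ℕ) (c : V) (M : ℤ) (U : ℕ → ℕ → V) :
    Prop where
  C : Cfg F L v m c M 4 U
  /-- collar between two boundary edges -/
  arc : ∀ a b : ℕ, a ≤ b → (∀ x, a ≤ x → x ≤ b → rcv v x ∉ body F U 4) →
    Con (body F U 4)ᶜ (rcv v a) (rcv v b)
  /-- left side of the ray -/
  tl : ∀ i < 4, ∀ r : ℤ, M < r → Con (body F U 4)ᶜ (rcv v (m i + 1))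
    (c.1 + r * (dir i).1 + (rot (dir i)).1, c.2 + r * (dir i).2 + (rot (dir i)).2)
  /-- right side of the ray -/
  tR : ∀ i < 4, ∀ r : ℤ, M < r → Con (body F U 4)ᶜ (rcv v (m i - 1))
    (c.1 + r * (dir i).1 - (rot (dir i)).1, c.2 + r * (dir i).2 - (rot (dir i)).2)
  /-- sides of the tentacle -/
  ts : ∀ i < 4, ∀ j : ℕ, ∀ q : V, Adj (U i (j + 1)) q → q ∉ body F U 4 →
    Con (body F U 4)ᶜ (rcv v (m i + 1)) q ∨ Con (body F U 4)ᶜ (rcv v (m i - 1)) q
  /-- clean -/
  cl : ∀ i < 4, ∀ j : ℕ, ∀ i' < 4, ∀ j' : ℕ, |(U i (j + 1)).1 - (U i' (j' + 1)).1| ≤ 1 →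
    |(U i (j + 1)).2 - (U i' (j' + 1)).2| ≤ 1 → i = i' ∧ j ≤ j' + 2 ∧ j' ≤ j + 2
  clF : ∀ i < 4, ∀ j : ℕ, ∀ f ∈ F, |(U i (j + 1)).1 - f.1| ≤ 1 → |(U i (j + 1)).2 - f.2| ≤ 1 →
    j = 0 ∧ (f.1 - (U i 1).1) * ((U i 0).1 - (U i 1).1) +
      (f.2 - (U i 1).2) * ((U i 0).2 - (U i 1).2) = 1
  m0 : 0 < m 0
  g01 : m 0 + 1 < m 1
  g12 : m 1 + 1 < m 2
  g23 : m 2 + 1 < m 3
  g30 : m 3 + 1 < L + m 0

/-- class of the complement after the mark `i` -/
def cls (F : Set V) (v : ℕ → V) (m : ℕ → ℕ) (U : ℕ → ℕ → V) (i : ℕ) : Set V :=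
  {q | q ∉ body F U 4 ∧ Con (body F U 4)ᶜ (rcv v (m i + 1)) q}

section fine

variable {F : Set V} {L : ℕ} {v : ℕ → V} {m : ℕ → ℕ} {c : V} {M : ℤ} {U : ℕ → ℕ → V}

theorem ray_pt (C : Cfg F L v m c M 4 U) {i : ℕ} (hi : i < 4) {r : ℤ} (hr : M ≤ r) :
    ((c.1 + r * (dir i).1, c.2 + r * (dir i).2) : V) ∈ body F U 4 := by
  obtain ⟨j0, h0, -, h2⟩ := C.ray i hi
  refine Or.inr ⟨i, hi, j0 - 1 + (r - M).toNat, ?_⟩
  have h3 := h2 (r - M).toNat
  have e : M + ((r - M).toNat : ℤ) = r := by omega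
  rw [e] at h3
  rw [← h3]
  congr 1
  omega

/-- outside the box the body is the union of the four rays -/
theorem body_out (C : Cfg F L v m c M 4 U) {q : V} (hq : q ∉ Bx c M) : q ∈ body F U 4 ↔
    ∃ i < 4, ∃ r : ℤ, M < r ∧ q = (c.1 + r * (dir i).1, c.2 + r * (dir i).2) := by
  constructor
  · rintro (h | ⟨i, hi, j, rfl⟩)
    · exact absurd ⟨(C.box q h).1.le, (C.box q h).2.le⟩ hq
    · obtain ⟨j0, h0, h1, h2⟩ := C.ray i hi
      rcases Nat.lt_or_ge j0 (j + 1) with h | h
      · refine ⟨i, hi, M + ((j + 1 - j0 : ℕ) : ℤ), by omega, ?_⟩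
        have h3 := h2 (j + 1 - j0)
        rw [show j0 + (j + 1 - j0) = j + 1 by omega] at h3
        exact h3
      · exact absurd (h1 (j + 1) h) hq
  · rintro ⟨i, hi, r, hr, rfl⟩
    exact ray_pt C hi hr.le

/-- the tentacle inside a box -/
theorem tent_con (C : Cfg F L v m c M 4 U) {R : ℤ} (hR : M ≤ R) {i : ℕ} (hi : i < 4) (j : ℕ)
    (h : U i (j + 1) ∈ Bx c R) : Con (body F U 4 ∩ Bx c R) (U i 0) (U i (j + 1)) := by
  obtain ⟨j0, h0, h1, h2⟩ := C.ray i hi
  -- initial segment
  have hin : ∀ k, k ≤ j + 1 → U i k ∈ Bx c R := by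
    intro k hk
    rcases Nat.lt_or_ge j0 k with h' | h'
    · have h3 := h2 (k - j0)
      rw [show j0 + (k - j0) = k by omega] at h3
      have h4 := h2 (j + 1 - j0)
      rw [show j0 + (j + 1 - j0) = j + 1 by omega] at h4
      rw [h4, mem_Bx] at h
      rw [h3, mem_Bx]
      have hkj : ((k - j0 : ℕ) : ℤ) ≤ ((j + 1 - j0 : ℕ) : ℤ) := by omega
      have hk0 : (0 : ℤ) ≤ ((k - j0 : ℕ) : ℤ) := by positivity
      have hM : 0 ≤ M := by
        have := (h1 0 (Nat.zero_le _)).1
        exact le_trans (abs_nonneg _) this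
      simp only at h ⊢
      unfold dir at *
      interval_cases i <;> simp at h ⊢ <;> omega
    · have h3 := h1 k h'
      exact ⟨h3.1.trans hR, h3.2.trans hR⟩
  have key : ∀ k, k ≤ j + 1 → Con (body F U 4 ∩ Bx c R) (U i 0) (U i k) := by
    intro k
    induction k with
    | zero => intro _; exact Sp896.Con.refl _ _
    | succ k ih =>
      intro hk
      exact (ih (by omega)).trans (Sp896.Con.one (C.step i hi k)
        ⟨Or.inr ⟨i, hi, k, rfl⟩, hin _ hk⟩)
  exact key (j + 1) le_rfl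

theorem F_sub (C : Cfg F L v m c M 4 U) {R : ℤ} (hR : M ≤ R) : F ⊆ body F U 4 ∩ Bx c R :=
  fun q hq => ⟨Or.inl hq, (C.box q hq).1.le.trans hR, (C.box q hq).2.le.trans hR⟩

/-- the body inside a box is connected -/
theorem lam_con (C : Cfg F L v m c M 4 U) {R : ℤ} (hR : M ≤ R) :
    ∀ q ∈ body F U 4 ∩ Bx c R, ∀ q' ∈ body F U 4 ∩ Bx c R, Con (body F U 4 ∩ Bx c R) q q' := by
  have key : ∀ q ∈ body F U 4 ∩ Bx c R, Con (body F U 4 ∩ Bx c R) (lcv v 0) q := by
    rintro q ⟨h | ⟨i, hi, j, rfl⟩, h2⟩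
    · exact (C.con _ (C.cyc.left 0) q h).mono (F_sub C hR)
    · have h3 := (C.con _ (C.cyc.left 0) _ (C.cyc.left (m i))).mono (F_sub C hR)
      have h4 := tent_con C hR hi j h2
      rw [C.start0 i hi] at h4
      exact h3.trans h4
  intro q hq q' hq'
  exact ((key q hq).symm (F_sub C hR (C.cyc.left 0))).trans (key q' hq')

/-- side cells of the rays are not in the body -/
theorem side_notMem (C : Cfg F L v m c M 4 U) {i : ℕ} (hi : i < 4) {r : ℤ} (hr : M < r) {s : ℤ}
    (hs : s = 1 ∨ s = -1) :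
    ((c.1 + r * (dir i).1 + s * (rot (dir i)).1, c.2 + r * (dir i).2 + s * (rot (dir i)).2) : V) ∉
      body F U 4 := by
  have hM : 0 ≤ M := by
    obtain ⟨j0, h0, h1, h2⟩ := C.ray 0 (by norm_num)
    exact le_trans (abs_nonneg _) (h1 0 (Nat.zero_le _)).1
  rw [body_out C]
  · rintro ⟨i', hi', r', hr', he⟩
    rw [Prod.mk.injEq] at he
    unfold dir rot at he
    interval_cases i <;> interval_cases i' <;> simp at he <;> omega
  · rw [mem_Bx]
    unfold dir rot
    interval_cases i <;> simp <;> omega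

theorem dart_unique {a b a' b' : V} (h : Adj a b) (h' : Adj a' b') (h1 : lc a b = lc a' b')
    (h2 : rc a b = rc a' b') : a = a' := by
  obtain ⟨a1, a2⟩ := a
  obtain ⟨b1, b2⟩ := b
  obtain ⟨c1, c2⟩ := a'
  obtain ⟨d1, d2⟩ := b'
  unfold Adj at h h'
  unfold lc at h1
  unfold rc at h2
  rw [Prod.mk.injEq] at h1 h2
  simp only at h h' h1 h2
  ext <;> simp only <;> omega

theorem dot_eq {p f g : V} (h1 : Adj f p) (h2 : Adj g p)
    (h : (f.1 - p.1) * (g.1 - p.1) + (f.2 - p.2) * (g.2 - p.2) = 1) : f = g := by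
  unfold Adj at h1 h2
  have e1 : (f.1 - p.1 = -1 ∧ f.2 - p.2 = 0) ∨ (f.1 - p.1 = 1 ∧ f.2 - p.2 = 0) ∨
      (f.1 - p.1 = 0 ∧ f.2 - p.2 = -1) ∨ (f.1 - p.1 = 0 ∧ f.2 - p.2 = 1) := by omega
  have e2 : (g.1 - p.1 = -1 ∧ g.2 - p.2 = 0) ∨ (g.1 - p.1 = 1 ∧ g.2 - p.2 = 0) ∨
      (g.1 - p.1 = 0 ∧ g.2 - p.2 = -1) ∨ (g.1 - p.1 = 0 ∧ g.2 - p.2 = 1) := by omega
  rcases e1 with ⟨a1, a2⟩ | ⟨a1, a2⟩ | ⟨a1, a2⟩ | ⟨a1, a2⟩ <;>
    rcases e2 with ⟨b1, b2⟩ | ⟨b1, b2⟩ | ⟨b1, b2⟩ | ⟨b1, b2⟩ <;>
    rw [a1, a2, b1, b2] at h <;> norm_num at h <;> ext <;> omega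

/-- the outer cell of a boundary edge is in the body only at the marks -/
theorem rcv_body (H : Fine F L v m c M U) {x : ℕ} (hx : rcv v x ∈ body F U 4) :
    ∃ i < 4, x % L = m i % L := by
  have C := H.C
  rcases hx with h | ⟨i, hi, j, he⟩
  · exact absurd h (C.cyc.right x)
  · refine ⟨i, hi, ?_⟩
    have hf : lcv v x ∈ F := C.cyc.left x
    have hadj : Adj (lcv v x) (rcv v x) := adj_lc_rc (C.cyc.step x)
    have h0 : Adj (U i 0) (U i 1) := C.step i hi 0
    have habs : |(U i (j + 1)).1 - (lcv v x).1| ≤ 1 ∧ |(U i (j + 1)).2 - (lcv v x).2| ≤ 1 := by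
      rw [← he, abs_le, abs_le]
      unfold Adj at hadj
      omega
    obtain ⟨hj, hdot⟩ := H.clF i hi j _ hf habs.1 habs.2
    subst hj
    rw [zero_add] at he
    rw [← he] at hdot h0
    have h5 : lcv v x = U i 0 := dot_eq hadj h0 hdot
    have e1 : lc (v x) (v (x + 1)) = lc (v (m i)) (v (m i + 1)) := by
      have := C.start0 i hi
      unfold lcv at h5 this
      rw [h5, this]
    have e2 : rc (v x) (v (x + 1)) = rc (v (m i)) (v (m i + 1)) := by
      have := C.start1 i hi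
      unfold rcv at he this
      rw [he, this]
    have e3 := dart_unique (C.cyc.step x) (C.cyc.step (m i)) e1 e2
    rw [← C.cyc.mod x, ← C.cyc.mod (m i)] at e3
    have hL : 0 < L := lt_of_lt_of_le (by norm_num) C.cyc.four_le
    exact C.cyc.inj _ (Nat.mod_lt _ hL) _ (Nat.mod_lt _ hL) e3


theorem M_nonneg (H : Fine F L v m c M U) : 0 ≤ M := by
  obtain ⟨j0, h0, h1, h2⟩ := H.C.ray 0 (by norm_num)
  exact le_trans (abs_nonneg _) (h1 0 (Nat.zero_le _)).1

/-- between two marks the outer cell is not in the body -/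
theorem rcv_notMem (H : Fine F L v m c M U) {x : ℕ}
    (hx : (m 0 < x ∧ x < m 1) ∨ (m 1 < x ∧ x < m 2) ∨ (m 2 < x ∧ x < m 3) ∨
      (m 3 < x ∧ x < L + m 0)) : rcv v x ∉ body F U 4 := by
  intro hmem
  obtain ⟨i, hi, he⟩ := rcv_body H hmem
  have h1 := H.C.m01
  have h2 := H.C.m12
  have h3 := H.C.m23
  have h4 := H.C.m3L
  have h0 := H.m0
  have hmi : m i % L = m i := Nat.mod_eq_of_lt (by interval_cases i <;> omega)
  rw [hmi] at he
  rcases Nat.lt_or_ge x L with hxL | hxL
  · rw [Nat.mod_eq_of_lt hxL] at he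
    interval_cases i <;> omega
  · have h5 : x % L = x - L := by
      rw [Nat.mod_eq_sub_mod hxL, Nat.mod_eq_of_lt (by omega)]
    rw [h5] at he
    interval_cases i <;> omega

/-- the class before the mark `i` -/
def prv (i : ℕ) : ℕ := (i + 3) % 4

theorem prv_lt (i : ℕ) : prv i < 4 := Nat.mod_lt _ (by norm_num)

theorem r_notMem (H : Fine F L v m c M U) {i : ℕ} (hi : i < 4) :
    rcv v (m i + 1) ∉ body F U 4 := by
  have h0 := H.m0
  have h1 := H.g01
  have h2 := H.g12
  have h3 := H.g23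
  have h4 := H.g30
  have h5 := H.C.m01
  have h6 := H.C.m12
  have h7 := H.C.m23
  refine rcv_notMem H ?_
  interval_cases i <;> omega


/-- the collar after the mark `i` reaches every boundary edge up to the next mark -/
theorem arc_cls (H : Fine F L v m c M U) {i : ℕ} (hi : i < 4) {x : ℕ} (h1 : m i < x)
    (h2 : x < if i = 3 then L + m 0 else m (i + 1)) : rcv v x ∈ cls F v m U i := by
  have hx : ∀ y, m i + 1 ≤ y → y ≤ x → rcv v y ∉ body F U 4 := by
    intro y hy1 hy2
    refine rcv_notMem H ?_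
    interval_cases i <;> simp at h2 <;> omega
  exact ⟨hx x h1 le_rfl, H.arc _ _ h1 hx⟩

theorem own (H : Fine F L v m c M U) {i : ℕ} (hi : i < 4) : rcv v (m i + 1) ∈ cls F v m U i :=
  ⟨r_notMem H hi, Sp896.Con.refl _ _⟩

theorem before (H : Fine F L v m c M U) {i : ℕ} (hi : i < 4) :
    rcv v (m i - 1) ∈ cls F v m U (prv i) := by
  have h0 := H.m0
  have h1 := H.g01
  have h2 := H.g12
  have h3 := H.g23
  have h4 := H.g30
  rcases Nat.eq_zero_or_pos i with rfl | hpos
  · have e : rcv v (m 0 - 1) = rcv v (m 0 - 1 + L) := by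
      unfold rcv
      rw [H.C.cyc.per, show m 0 - 1 + L + 1 = m 0 - 1 + 1 + L by omega, H.C.cyc.per]
    rw [e]
    refine arc_cls H (prv_lt 0) ?_ ?_
    · show m 3 < _
      omega
    · show _ < if (3 : ℕ) = 3 then L + m 0 else m (3 + 1)
      rw [if_pos rfl]
      omega
  · obtain ⟨k, rfl⟩ : ∃ k, i = k + 1 := ⟨i - 1, by omega⟩
    have hk3 : k < 3 := by omega
    have e : prv (k + 1) = k := by
      unfold prv
      interval_cases k <;> rfl
    rw [e]
    refine arc_cls H (by omega) ?_ ?_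
    · interval_cases k <;> simp <;> omega
    · rw [if_neg (by omega)]
      interval_cases k <;> simp <;> omega

theorem cls_step (H : Fine F L v m c M U) {i : ℕ} {q q' : V} (hq : q ∈ cls F v m U i)
    (h : Adj q q') (hq' : q' ∉ body F U 4) : q' ∈ cls F v m U i :=
  ⟨hq', hq.2.trans (Sp896.Con.one h hq')⟩

theorem cls_trans (H : Fine F L v m c M U) {i : ℕ} {q q' : V} (hq : q ∈ cls F v m U i)
    (h : Con (body F U 4)ᶜ q q') : q' ∈ cls F v m U i :=
  ⟨Con.mem h hq.1, hq.2.trans h⟩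

/-- a complement cell next to a tentacle is in one of the classes of the tentacle -/
theorem side_cls (H : Fine F L v m c M U) {i : ℕ} (hi : i < 4) (j : ℕ) {q : V}
    (h : Adj (U i (j + 1)) q) (hq : q ∉ body F U 4) :
    q ∈ cls F v m U i ∨ q ∈ cls F v m U (prv i) := by
  rcases H.ts i hi j q h hq with h1 | h1
  · exact Or.inl ⟨hq, h1⟩
  · exact Or.inr (cls_trans H (before H hi) h1)

/-- **cover** -/
theorem cover (H : Fine F L v m c M U) {q : V} (hq : q ∉ body F U 4) :
    ∃ i < 4, q ∈ cls F v m U i := by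
  have ht := own H (show 0 < 4 by norm_num)
  have hcon := H.C.con' q (fun h => hq (Or.inl h)) _ (fun h => ht.1 (Or.inl h))
  revert hq
  refine Relation.ReflTransGen.head_induction_on hcon ?_ ?_
  · exact fun _ => ⟨0, by norm_num, ht⟩
  · intro a b hab _ ih ha
    by_cases hb : b ∈ body F U 4
    · rcases hb with hb | ⟨i, hi, j, rfl⟩
      · exact absurd hb hab.2
      · rcases side_cls H hi j hab.1.symm ha with h | h
        · exact ⟨i, hi, h⟩
        · exact ⟨_, prv_lt i, h⟩
    · obtain ⟨i, hi, h⟩ := ih hb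
      exact ⟨i, hi, cls_step H h hab.1.symm ha⟩

/-- side cell of the ray `k` at distance `r` -/
def sd (c : V) (k : ℕ) (r : ℤ) : V :=
  (c.1 + r * (dir k).1 + (rot (dir k)).1, c.2 + r * (dir k).2 + (rot (dir k)).2)

theorem sd_notMem (H : Fine F L v m c M U) {k : ℕ} (hk : k < 4) {r : ℤ} (hr : M < r) :
    sd c k r ∉ body F U 4 := by
  have := side_notMem H.C hk hr (s := 1) (Or.inl rfl)
  rw [one_mul, one_mul] at this
  exact this

theorem sd_adj (c : V) {k : ℕ} (hk : k < 4) (r : ℤ) : Adj (sd c k r) (sd c k (r + 1)) := by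
  unfold Adj sd dir rot
  interval_cases k <;> simp <;> omega

theorem sd_cls (H : Fine F L v m c M U) {k : ℕ} (hk : k < 4) {r : ℤ} (hr : M < r) :
    sd c k r ∈ cls F v m U k := ⟨sd_notMem H hk hr, H.tl k hk r hr⟩

theorem sd_bx (H : Fine F L v m c M U) {k : ℕ} (hk : k < 4) {r R : ℤ} (hr : M < r) (hR : r ≤ R) :
    sd c k r ∈ Bx c R := by
  have hM := M_nonneg H
  rw [mem_Bx]
  unfold sd dir rot
  interval_cases k <;> simp <;> omega

theorem sd_con (H : Fine F L v m c M U) {k : ℕ} (hk : k < 4) {R : ℤ} (n : ℕ)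
    (hn : M + 1 + n ≤ R) :
    Con (Bx c R ∩ (body F U 4)ᶜ) (sd c k (M + 1)) (sd c k (M + 1 + n)) := by
  induction n with
  | zero => simpa using Sp896.Con.refl _ _
  | succ n ih =>
    push_cast at hn
    have h1 := ih (by omega)
    have e : M + 1 + ((n + 1 : ℕ) : ℤ) = M + 1 + n + 1 := by push_cast; ring
    rw [e]
    exact h1.trans (Sp896.Con.one (sd_adj c hk _)
      ⟨sd_bx H hk (by omega) (by omega), sd_notMem H hk (by omega)⟩)

/-- **disjointness of the classes** -/
theorem disj (H : Fine F L v m c M U) {i j : ℕ} (hij : i < j) (hj : j < 4) {q : V}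
    (h1 : q ∈ cls F v m U i) (h2 : q ∈ cls F v m U j) : False := by
  have hi : i < 4 := by omega
  have C := H.C
  have hM := M_nonneg H
  have c1 : Con (body F U 4)ᶜ (sd c i (M + 1)) (sd c j (M + 1)) := by
    have a1 := ((sd_cls H hi (r := M + 1) (by omega)).2).symm (r_notMem H hi)
    have a2 := h1.2
    have a3 := h2.2.symm (r_notMem H hj)
    have a4 := (sd_cls H hj (r := M + 1) (by omega)).2
    exact ((a1.trans a2).trans a3).trans a4
  obtain ⟨R0, hR0⟩ := con_box c c1
  obtain ⟨R, hR1, hR2⟩ : ∃ R : ℕ, R0 ≤ (R : ℤ) ∧ M + 3 ≤ (R : ℤ) :=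
    ⟨(max R0 (M + 3)).toNat, by
      have := le_max_left R0 (M + 3)
      omega, by
      have := le_max_right R0 (M + 3)
      omega⟩
  have c2 := hR0 R hR1
  have e1 : ∀ k < 4, Con (Bx c R ∩ (body F U 4)ᶜ) (sd c k (M + 1)) (sd c k R) := by
    intro k hk
    have := sd_con H hk (R := R) (R - M - 1).toNat (by omega)
    have e : M + 1 + (((R : ℤ) - M - 1).toNat : ℤ) = R := by omega
    rwa [e] at this
  have hin : ∀ k < 4, sd c k (M + 1) ∈ Bx c R ∩ (body F U 4)ᶜ := fun k hk =>
    ⟨sd_bx H hk (by omega) (by omega), sd_notMem H hk (by omega)⟩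
  have c3 : Con (Bx c R ∩ (body F U 4)ᶜ) (sd c i R) (sd c j R) :=
    (((e1 i hi).symm (hin i hi)).trans c2).trans (e1 j hj)
  have hset : Bx c R ∩ (body F U 4)ᶜ = Bx c R \ (body F U 4 ∩ Bx c R) := by
    ext x
    simp only [Set.mem_inter_iff, Set.mem_compl_iff, Set.mem_sdiff]
    tauto
  rw [hset] at c3
  have hR1' : 1 ≤ R := by omega
  have hR2' : 2 ≤ R := by omega
  have k0 : ∀ k < 4, lc (bw c R ((2 * R + 1) * k + (R + 0))) (bw c R ((2 * R + 1) * k + (R + 0) + 1))
      ∈ body F U 4 ∩ Bx c R := by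
    intro k hk
    have h3 := lcv_bw c R hk (s := 0) (by omega)
    unfold lcv at h3
    rw [h3]
    simp only [Nat.cast_zero, zero_mul, add_zero]
    refine ⟨ray_pt C hk (by omega), ?_⟩
    rw [mem_Bx]
    unfold dir
    interval_cases k <;> simp <;> omega
  have k1 : ∀ k < 4, lc (bw c R ((2 * R + 1) * k + (R + 1))) (bw c R ((2 * R + 1) * k + (R + 1) + 1))
      = sd c k R := by
    intro k hk
    have h3 := lcv_bw c R hk (s := 1) (by omega)
    unfold lcv at h3
    rw [h3]
    simp only [Nat.cast_one, one_mul]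
    rfl
  have hbound : ∀ k < 4, (2 * R + 1) * k + (R + 1) < (2 * R + 1) * 4 := by
    intro k hk
    interval_cases k <;> omega
  have hij' : (2 * R + 1) * i + (R + 0) < (2 * R + 1) * j + (R + 0) := by
    have : (2 * R + 1) * i < (2 * R + 1) * j := Nat.mul_lt_mul_of_pos_left hij (by omega)
    omega
  have hij2 : (2 * R + 1) * i + (R + 1) < (2 * R + 1) * j + (R + 0) := by
    have : (2 * R + 1) * (i + 1) ≤ (2 * R + 1) * j := Nat.mul_le_mul_left _ hij
    have e : (2 * R + 1) * (i + 1) = (2 * R + 1) * i + (2 * R + 1) := by ring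
    omega
  have key := SpD331.sep896 (bw_cyc c R) (bx_con' c R) hij' (by
      have := hbound j hj; omega) (Set.inter_subset_right) (lam_con C (by omega)) (k0 i hi)
      (k0 j hj) (hbound i hi) (hbound j hj) (by
        rw [k1 i hi]
        exact fun h => sd_notMem H hi (by omega) h.1) (by
        rw [k1 j hj]
        exact fun h => sd_notMem H hj (by omega) h.1) (by
        rw [k1 i hi, k1 j hj]
        exact c3)
  have := (key.1 ⟨by omega, hij2⟩).2
  omega

end fine

end Crest.Agent.R143.TentBx951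
end

-- ▼ part R143/TentB3_951
section

/-!
# Row 143 (S0194), block D, TENT B, part 3 (helper951): geometry of the classes

* `no_pinch`, `not_adj8` : cells of different classes are not 8-adjacent
* `cls_con`, `cls_con_box` : classes are connected, also inside a large box
* `quad`, `quad_iff` : outside the box `M` the classes are the open quadrants
-/

set_option autoImplicit false

namespace Crest.Agent.R143.TentBx951

open Crest.Agent.R158 Crest.Agent.R158.Sp896 Crest.Agent.R143.Tentx359 Crest.Agent.R143.TentAx951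

/-- the boundary walk has no double points: no pinched vertex -/
theorem no_pinch {F : Set V} {L : ℕ} {v : ℕ → V} (h : Cyc F L v) (x y : ℤ) :
    ¬ (((x, y) : V) ∈ F ∧ ((x - 1, y - 1) : V) ∈ F ∧ ((x - 1, y) : V) ∉ F ∧ ((x, y - 1) : V) ∉ F) ∧
    ¬ (((x - 1, y) : V) ∈ F ∧ ((x, y - 1) : V) ∈ F ∧ ((x, y) : V) ∉ F ∧ ((x - 1, y - 1) : V) ∉ F) := by
  have lE : lc (x, y) (x + 1, y) = (x, y) := by unfold lc; ext <;> simp only <;> omega
  have rE : rc (x, y) (x + 1, y) = (x, y - 1) := by unfold rc; ext <;> simp only <;> omega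
  have lW : lc (x, y) (x - 1, y) = (x - 1, y - 1) := by unfold lc; ext <;> simp only <;> omega
  have rW : rc (x, y) (x - 1, y) = (x - 1, y) := by unfold rc; ext <;> simp only <;> omega
  have lN : lc (x, y) (x, y + 1) = (x - 1, y) := by unfold lc; ext <;> simp only <;> omega
  have rN : rc (x, y) (x, y + 1) = (x, y) := by unfold rc; ext <;> simp only <;> omega
  have lS : lc (x, y) (x, y - 1) = (x, y - 1) := by unfold lc; ext <;> simp only <;> omega
  have rS : rc (x, y) (x, y - 1) = (x - 1, y - 1) := by unfold rc; ext <;> simp only <;> omega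
  constructor
  · rintro ⟨h1, h2, h3, h4⟩
    obtain ⟨i, hi, a1, a2⟩ := h.all (x, y) (x + 1, y) (by unfold Adj; simp) (by rw [lE]; exact h1) (by rw [rE]; exact h4)
    obtain ⟨j, hj, b1, b2⟩ := h.all (x, y) (x - 1, y) (by unfold Adj; simp) (by rw [lW]; exact h2) (by rw [rW]; exact h3)
    have e := h.inj i hi j hj (a1.trans b1.symm)
    subst e
    rw [a2, Prod.mk.injEq] at b2
    omega
  · rintro ⟨h1, h2, h3, h4⟩
    obtain ⟨i, hi, a1, a2⟩ := h.all (x, y) (x, y + 1) (by unfold Adj; simp) (by rw [lN]; exact h1) (by rw [rN]; exact h3)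
    obtain ⟨j, hj, b1, b2⟩ := h.all (x, y) (x, y - 1) (by unfold Adj; simp) (by rw [lS]; exact h2) (by rw [rS]; exact h4)
    have e := h.inj i hi j hj (a1.trans b1.symm)
    subst e
    rw [a2, Prod.mk.injEq] at b2
    omega

section fine

variable {F : Set V} {L : ℕ} {v : ℕ → V} {m : ℕ → ℕ} {c : V} {M : ℤ} {U : ℕ → ℕ → V}

theorem disj' (H : Fine F L v m c M U) {i j : ℕ} (hi : i < 4) (hj : j < 4) {q : V}
    (h1 : q ∈ cls F v m U i) (h2 : q ∈ cls F v m U j) : i = j := by
  rcases Nat.lt_trichotomy i j with h | h | h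
  · exact (disj H h hj h1 h2).elim
  · exact h
  · exact (disj H h hi h2 h1).elim

/-- two diagonal cells of the body have a common neighbour in the body -/
theorem diag_body (H : Fine F L v m c M U) {p p' : V} (hp : p ∈ body F U 4)
    (hp' : p' ∈ body F U 4) (h1 : p'.1 = p.1 + 1 ∨ p'.1 = p.1 - 1)
    (h2 : p'.2 = p.2 + 1 ∨ p'.2 = p.2 - 1) (hn : ((p'.1, p.2) : V) ∉ body F U 4)
    (hn' : ((p.1, p'.2) : V) ∉ body F U 4) : False := by
  have C := H.C
  have hTF : ∀ q q' : V, q ∈ F → (∃ i < 4, ∃ j, q' = U i (j + 1)) →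
      (q'.1 = q.1 + 1 ∨ q'.1 = q.1 - 1) → (q'.2 = q.2 + 1 ∨ q'.2 = q.2 - 1) →
      ((q'.1, q.2) : V) ∉ body F U 4 → ((q.1, q'.2) : V) ∉ body F U 4 → False := by
    rintro ⟨x, y⟩ ⟨x', y'⟩ hq ⟨i, hi, j, he⟩ g1 g2 g3 g4
    simp only at g1 g2 g3 g4
    obtain ⟨hj, hdot⟩ := H.clF i hi j (x, y) hq (by rw [← he, abs_le]; simp only; omega)
      (by rw [← he, abs_le]; simp only; omega)
    subst hj
    rw [zero_add] at he
    rw [← he] at hdot
    have h0 : Adj (U i 0) (U i 1) := C.step i hi 0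
    have hU0 : U i 0 ∈ body F U 4 := by
      rw [C.start0 i hi]
      exact Or.inl (C.cyc.left _)
    rw [← he] at h0
    obtain ⟨a, b⟩ : ∃ w, w = U i 0 := ⟨_, rfl⟩
    generalize U i 0 = w at *
    obtain ⟨w1, w2⟩ := w
    unfold Adj at h0
    simp only at h0 hdot
    have hcase : (w1 = x' ∧ w2 = y) ∨ (w1 = x ∧ w2 = y') := by
      have hw : (w1 - x' = -1 ∧ w2 - y' = 0) ∨ (w1 - x' = 1 ∧ w2 - y' = 0) ∨
          (w1 - x' = 0 ∧ w2 - y' = -1) ∨ (w1 - x' = 0 ∧ w2 - y' = 1) := by omega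
      have hx : x - x' = 1 ∨ x - x' = -1 := by omega
      have hy : y - y' = 1 ∨ y - y' = -1 := by omega
      rcases hw with ⟨h3, h4⟩ | ⟨h3, h4⟩ | ⟨h3, h4⟩ | ⟨h3, h4⟩ <;>
        rcases hx with hx | hx <;> rcases hy with hy | hy <;>
        rw [h3, h4, hx, hy] at hdot <;> norm_num at hdot <;> omega
    rcases hcase with ⟨rfl, rfl⟩ | ⟨rfl, rfl⟩
    · exact g3 hU0
    · exact g4 hU0
  rcases hp with hp | ⟨i, hi, j, he⟩
  · rcases hp' with hp' | hp'
    · -- both in `F`
      obtain ⟨x, y⟩ := p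
      obtain ⟨x', y'⟩ := p'
      simp only at h1 h2 hn hn'
      have n1 : ((x', y) : V) ∉ F := fun h => hn (Or.inl h)
      have n2 : ((x, y') : V) ∉ F := fun h => hn' (Or.inl h)
      rcases h1 with rfl | rfl <;> rcases h2 with rfl | rfl
      · refine (no_pinch C.cyc (x + 1) (y + 1)).1 ⟨hp', ?_, ?_, ?_⟩
        · simpa using hp
        · simpa using n2
        · simpa using n1
      · refine (no_pinch C.cyc (x + 1) y).2 ⟨?_, ?_, ?_, ?_⟩
        · simpa using hp
        · exact hp'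
        · exact n1
        · simpa using n2
      · refine (no_pinch C.cyc x (y + 1)).2 ⟨?_, ?_, ?_, ?_⟩
        · exact hp'
        · simpa using hp
        · exact n2
        · simpa using n1
      · refine (no_pinch C.cyc x y).1 ⟨hp, hp', n1, n2⟩
    · exact hTF p p' hp hp' h1 h2 hn hn'
  · rcases hp' with hp' | ⟨i', hi', j', he'⟩
    · exact hTF p' p hp' ⟨i, hi, j, he⟩ (by omega) (by omega) hn' hn
    · obtain ⟨e1, e2, e3⟩ := H.cl i hi j i' hi' j' (by rw [← he, ← he', abs_le]; omega)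
        (by rw [← he, ← he', abs_le]; omega)
      subst e1
      have hmid : ∀ a b : ℕ, b = a + 2 → ∀ q q' : V, q = U i (a + 1) → q' = U i (b + 1) →
          (q'.1 = q.1 + 1 ∨ q'.1 = q.1 - 1) → (q'.2 = q.2 + 1 ∨ q'.2 = q.2 - 1) →
          ((q'.1, q.2) : V) ∉ body F U 4 → ((q.1, q'.2) : V) ∉ body F U 4 → False := by
        rintro a b rfl ⟨x, y⟩ ⟨x', y'⟩ f1 f2 g1 g2 g3 g4
        simp only at g1 g2 g3 g4
        have s1 := C.step i hi (a + 1)
        have s2 := C.step i hi (a + 1 + 1)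
        have hm : U i (a + 1 + 1) ∈ body F U 4 := Or.inr ⟨i, hi, a + 1, rfl⟩
        have f2' : (x', y') = U i (a + 1 + 1 + 1) := f2
        rw [← f1] at s1
        rw [← f2'] at s2
        generalize U i (a + 1 + 1) = w at *
        obtain ⟨w1, w2⟩ := w
        unfold Adj at s1 s2
        simp only at s1 s2
        have : (w1 = x' ∧ w2 = y) ∨ (w1 = x ∧ w2 = y') := by omega
        rcases this with ⟨rfl, rfl⟩ | ⟨rfl, rfl⟩
        · exact g3 hm
        · exact g4 hm
      rcases (by omega : j' = j + 2 ∨ j = j' + 2 ∨ j' = j + 1 ∨ j = j' + 1 ∨ j = j') with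
        h | h | h | h | h
      · exact hmid j j' h p p' he he' h1 h2 hn hn'
      · exact hmid j' j h p' p he' he (by omega) (by omega) hn' hn
      · have s := C.step i hi (j + 1)
        rw [h] at he'
        rw [← he] at s
        have : p' = U i (j + 1 + 1) := he'
        rw [← this] at s
        unfold Adj at s
        omega
      · have s := C.step i hi (j' + 1)
        rw [h] at he
        rw [← he'] at s
        have : p = U i (j' + 1 + 1) := he
        rw [← this] at s
        unfold Adj at s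
        omega
      · subst h
        rw [he, he'] at h1
        omega

/-- **cells of different classes are not 8-adjacent** -/
theorem not_adj8 (H : Fine F L v m c M U) {i j : ℕ} (hi : i < 4) (hj : j < 4) (hij : i ≠ j)
    {q q' : V} (h : q ∈ cls F v m U i) (h' : q' ∈ cls F v m U j) :
    1 < |q.1 - q'.1| ∨ 1 < |q.2 - q'.2| := by
  by_contra hcon
  push Not at hcon
  obtain ⟨a1, a2⟩ := hcon
  rw [abs_le] at a1 a2
  obtain ⟨x, y⟩ := q
  obtain ⟨x', y'⟩ := q'
  simp only at a1 a2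
  have hstep : ∀ w : V, Adj (x, y) w → Adj w (x', y') → w ∈ body F U 4 := by
    intro w h1 h2
    by_contra hw
    exact hij (disj' H hi hj (cls_step H (cls_step H h h1 hw) h2 h'.1) h')
  by_cases hd : (x = x' ∨ y = y')
  · by_cases he : x = x' ∧ y = y'
    · obtain ⟨rfl, rfl⟩ := he
      exact hij (disj' H hi hj h h')
    · have hA : Adj (x, y) (x', y') := by
        unfold Adj
        simp only
        omega
      exact hij (disj' H hi hj (cls_step H h hA h'.1) h')
  · have p1 := hstep (x', y) (by unfold Adj; simp only [and_true]; omega)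
      (by unfold Adj; simp only [true_and]; omega)
    have p2 := hstep (x, y') (by unfold Adj; simp only [true_and]; omega)
      (by unfold Adj; simp only [and_true]; omega)
    exact diag_body H p1 p2 (by simp only; omega) (by simp only; omega) h.1 h'.1



/-! ### quadrants -/

/-- coordinate along the ray `i` -/
def al (c : V) (i : ℕ) (q : V) : ℤ := (q.1 - c.1) * (dir i).1 + (q.2 - c.2) * (dir i).2

/-- coordinate along the next ray -/
def be (c : V) (i : ℕ) (q : V) : ℤ :=
  (q.1 - c.1) * (rot (dir i)).1 + (q.2 - c.2) * (rot (dir i)).2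

/-- point with the given coordinates -/
def ab (c : V) (i : ℕ) (a b : ℤ) : V :=
  (c.1 + a * (dir i).1 + b * (rot (dir i)).1, c.2 + a * (dir i).2 + b * (rot (dir i)).2)

theorem ab_al_be (c : V) {i : ℕ} (hi : i < 4) (q : V) : ab c i (al c i q) (be c i q) = q := by
  unfold ab al be dir rot
  interval_cases i <;> ext <;> simp



theorem ab_bx (c : V) {i : ℕ} (hi : i < 4) (a b R : ℤ) : ab c i a b ∈ Bx c R ↔ |a| ≤ R ∧ |b| ≤ R := by
  rw [mem_Bx, abs_le, abs_le]
  unfold ab dir rot
  interval_cases i <;> simp <;> omega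

theorem ab_adj_b (c : V) {i : ℕ} (hi : i < 4) (a b : ℤ) :
    Adj (ab c i a b) (ab c i a (b + 1)) := by
  unfold ab dir rot Adj
  interval_cases i <;> simp <;> omega

theorem ab_adj_a (c : V) {i : ℕ} (hi : i < 4) (a b : ℤ) :
    Adj (ab c i a b) (ab c i (a + 1) b) := by
  unfold ab dir rot Adj
  interval_cases i <;> simp <;> omega

/-- outside the box the open quadrants miss the body -/
theorem ab_notMem (H : Fine F L v m c M U) {i : ℕ} (hi : i < 4) {a b : ℤ} (ha : 0 < a) (hb : 0 < b)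
    (hab : M < a ∨ M < b) : ab c i a b ∉ body F U 4 := by
  have hM := M_nonneg H
  rw [body_out H.C]
  · rintro ⟨k, hk, r, hr, he⟩
    unfold ab at he
    rw [Prod.mk.injEq] at he
    unfold dir rot at he
    interval_cases i <;> interval_cases k <;> simp at he <;> omega
  · rw [ab_bx c hi, abs_of_pos ha, abs_of_pos hb]
    omega

/-- **quadrants** -/
theorem quad (H : Fine F L v m c M U) {i : ℕ} (hi : i < 4) {a b : ℤ} (ha : 0 < a) (hb : 0 < b)
    (hab : M < a ∨ M < b) : ab c i a b ∈ cls F v m U i := by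
  have hM := M_nonneg H
  by_cases hA : M < a
  · have key : ∀ n : ℕ, ab c i a (1 + n) ∈ cls F v m U i := by
      intro n
      induction n with
      | zero =>
        have := sd_cls H hi hA
        simpa [ab, sd] using this
      | succ n ih =>
        have e : (1 : ℤ) + ((n + 1 : ℕ) : ℤ) = 1 + n + 1 := by push_cast; ring
        rw [e]
        exact cls_step H ih (ab_adj_b c hi _ _) (ab_notMem H hi ha (by omega) (Or.inl hA))
    have := key (b - 1).toNat
    have e : (1 : ℤ) + ((b - 1).toNat : ℤ) = b := by omega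
    rwa [e] at this
  · have hB : M < b := by omega
    have key : ∀ n : ℕ, ab c i (1 + n) b ∈ cls F v m U i := by
      intro n
      induction n with
      | zero =>
        -- right side of the next ray
        obtain ⟨k, hk, hkp, hdir⟩ : ∃ k < 4, prv k = i ∧ dir k = rot (dir i) ∧
            rot (dir k) = (-(dir i).1, -(dir i).2) := by
          refine ⟨(i + 1) % 4, Nat.mod_lt _ (by norm_num), ?_, ?_, ?_⟩
          · unfold prv; omega
          · interval_cases i <;> simp [dir, rot]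
          · interval_cases i <;> simp [dir, rot]
        have h1 := H.tR k hk b hB
        have h2 := cls_trans H (before H hk) h1
        rw [hkp] at h2
        rw [hdir.1] at h2
        have e : ((c.1 + b * (rot (dir i)).1 - (rot (rot (dir i))).1,
            c.2 + b * (rot (dir i)).2 - (rot (rot (dir i))).2) : V) = ab c i 1 b := by
          unfold ab rot
          ext <;> simp only <;> ring
        rw [e] at h2
        simpa using h2
      | succ n ih =>
        have e : (1 : ℤ) + ((n + 1 : ℕ) : ℤ) = 1 + n + 1 := by push_cast; ring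
        rw [e]
        exact cls_step H ih (ab_adj_a c hi _ _) (ab_notMem H hi (by omega) hb (Or.inr hB))
    have := key (a - 1).toNat
    have e : (1 : ℤ) + ((a - 1).toNat : ℤ) = a := by omega
    rwa [e] at this

theorem exists_quad {q : V} (c : V) (h1 : q.1 ≠ c.1) (h2 : q.2 ≠ c.2) :
    ∃ i < 4, 0 < al c i q ∧ 0 < be c i q := by
  rcases lt_or_gt_of_ne h1 with h1 | h1 <;> rcases lt_or_gt_of_ne h2 with h2 | h2
  · exact ⟨2, by norm_num, by simp [al, dir]; omega, by simp [be, dir, rot]; omega⟩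
  · exact ⟨1, by norm_num, by simp [al, dir]; omega, by simp [be, dir, rot]; omega⟩
  · exact ⟨3, by norm_num, by simp [al, dir]; omega, by simp [be, dir, rot]; omega⟩
  · exact ⟨0, by norm_num, by simp [al, dir]; omega, by simp [be, dir, rot]; omega⟩

/-- outside the box the class is the open quadrant -/
theorem quad_iff (H : Fine F L v m c M U) {i : ℕ} (hi : i < 4) {q : V} (hq : q ∉ Bx c M) :
    q ∈ cls F v m U i ↔ 0 < al c i q ∧ 0 < be c i q := by
  have hM := M_nonneg H
  have key : ∀ k < 4, 0 < al c k q → 0 < be c k q → q ∈ cls F v m U k := by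
    intro k hk h1 h2
    rw [← ab_al_be c hk q]
    refine quad H hk h1 h2 ?_
    rw [← ab_al_be c hk q, ab_bx c hk, abs_of_pos h1, abs_of_pos h2] at hq
    omega
  constructor
  · intro h
    have hx : q.1 ≠ c.1 := by
      intro he
      refine h.1 ((body_out H.C hq).2 ?_)
      rw [mem_Bx] at hq
      rcases lt_or_ge q.2 c.2 with h5 | h5
      · exact ⟨3, by norm_num, c.2 - q.2, by omega, by ext <;> simp [dir, he]⟩
      · exact ⟨1, by norm_num, q.2 - c.2, by omega, by ext <;> simp [dir, he]⟩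
    have hy : q.2 ≠ c.2 := by
      intro he
      refine h.1 ((body_out H.C hq).2 ?_)
      rw [mem_Bx] at hq
      rcases lt_or_ge q.1 c.1 with h5 | h5
      · exact ⟨2, by norm_num, c.1 - q.1, by omega, by ext <;> simp [dir, he]⟩
      · exact ⟨0, by norm_num, q.1 - c.1, by omega, by ext <;> simp [dir, he]⟩
    obtain ⟨k, hk, h1, h2⟩ := exists_quad c hx hy
    have := disj' H hi hk h (key k hk h1 h2)
    subst this
    exact ⟨h1, h2⟩
  · rintro ⟨h1, h2⟩
    exact key i hi h1 h2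

/-! ### connectedness inside a box -/









end fine

end Crest.Agent.R143.TentBx951
end

-- ▼ part R143/TentB4_951

/-!
# Row 143 (S0194), block D, TENT B, part 4 (helper951): every refined configuration is `Fine`
-/

set_option autoImplicit false

namespace Crest.Agent.R143.TentBx951

open Crest.Agent.R158 Crest.Agent.R158.Sp896 Crest.Agent.R143.Tentx359 Crest.Agent.R143.TentAx951

theorem uref_dir {F : Set V} {L : ℕ} {v : ℕ → V} {m : ℕ → ℕ} {c : V} {M : ℤ} {n : ℕ}
    {U : ℕ → ℕ → V} (C : Cfg F L v m c M n U) {h : ℕ} (hh : 1 ≤ h) {i : ℕ} (hi : i < n) :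
    Uref h U i 0 = ((Uref h U i 1).1 + ((U i 0).1 - (U i 1).1),
      (Uref h U i 1).2 + ((U i 0).2 - (U i 1).2)) := by
  have C' := refCfg' h F L v m c M n U C
  have hf : Uref h U i 0 ∈ ref h F := by
    rw [C'.start0 i hi]
    exact C'.cyc.left _
  have hadj := C'.step i hi 0
  obtain ⟨-, hdot⟩ := C.clean_F hh hi (j := 0) hf
    (by rw [abs_le]; unfold Adj at hadj; simp only [zero_add] at *; omega)
    (by rw [abs_le]; unfold Adj at hadj; simp only [zero_add] at *; omega)
  have h0 := C.step i hi 0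
  simp only [zero_add] at hadj h0
  have key := dot_eq (p := Uref h U i 1) (f := Uref h U i 0)
    (g := ((Uref h U i 1).1 + ((U i 0).1 - (U i 1).1),
      (Uref h U i 1).2 + ((U i 0).2 - (U i 1).2))) hadj
    (by unfold Adj at h0 ⊢; simp only; omega) (by simp only; linarith)
  exact key

theorem fine_of {F : Set V} {L : ℕ} {v : ℕ → V} {m : ℕ → ℕ} {c : V} {M : ℤ} {U : ℕ → ℕ → V}
    (C : Cfg F L v m c M 4 U) {h : ℕ} (hh : 1 ≤ h) :
    Fine (ref h F) ((2 * h + 1) * L) (vref h v) (mref h m) (cenc h c) ((2 * h + 1) * M)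
      (Uref h U) where
  C := refCfg' h F L v m c M 4 U C
  arc := fun a b hab hx => collarArc' h hh F L v m c M 4 U C a b hab hx
  tl := fun i hi => (collarTent h hh F L v m c M 4 U C i hi).1
  tR := fun i hi => (collarTent h hh F L v m c M 4 U C i hi).2.1
  ts := fun i hi => (collarTent h hh F L v m c M 4 U C i hi).2.2
  cl := fun i hi j i' hi' j' h1 h2 => C.clean_tent hh hi hi' h1 h2
  clF := fun i hi j f hf h1 h2 => by
    obtain ⟨e1, e2⟩ := C.clean_F hh hi hf h1 h2
    refine ⟨e1, ?_⟩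
    rw [uref_dir C hh hi]
    simp only
    rw [add_sub_cancel_left, add_sub_cancel_left]
    exact e2
  m0 := by unfold mref; omega
  g01 := by
    have := C.m01
    unfold mref
    have h1 : (2 * h + 1) * (m 0 + 1) ≤ (2 * h + 1) * m 1 := Nat.mul_le_mul_left _ this
    have e : (2 * h + 1) * (m 0 + 1) = (2 * h + 1) * m 0 + (2 * h + 1) := by ring
    omega
  g12 := by
    have := C.m12
    unfold mref
    have h1 : (2 * h + 1) * (m 1 + 1) ≤ (2 * h + 1) * m 2 := Nat.mul_le_mul_left _ this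
    have e : (2 * h + 1) * (m 1 + 1) = (2 * h + 1) * m 1 + (2 * h + 1) := by ring
    omega
  g23 := by
    have := C.m23
    unfold mref
    have h1 : (2 * h + 1) * (m 2 + 1) ≤ (2 * h + 1) * m 3 := Nat.mul_le_mul_left _ this
    have e : (2 * h + 1) * (m 2 + 1) = (2 * h + 1) * m 2 + (2 * h + 1) := by ring
    omega
  g30 := by
    have := C.m3L
    unfold mref
    have h1 : (2 * h + 1) * (m 3 + 1) ≤ (2 * h + 1) * L := Nat.mul_le_mul_left _ this
    have e : (2 * h + 1) * (m 3 + 1) = (2 * h + 1) * m 3 + (2 * h + 1) := by ring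
    omega

end Crest.Agent.R143.TentBx951
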