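import Crest.Agent.R143.Tent7_359
import Crest.Agent.R143.Ten_416
import Crest.Agent.R143.TentB4_951
import Crest.Agent.R143.Cd0_806
import Crest.Agent.R143.TentM_951
import Crest.Agent.R143.Cd4_806

-- ▼ part R143/Tent8_359
section

/-!
# Row 143 (S0194), block D, TENT, file 8 (helper359): adding a tentacle, existence

* `Cfg.add` : adding a tentacle
* `rcv_side`, `Cfg.rcv_body` : fine outer cells, those in the body are the marked ones
* `exCfg : ExCfg`
-/

set_option autoImplicit false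

namespace Crest.Agent.R143.Tentx359

open Crest.Agent.R158.Sp896

/-- the new tentacle -/
def newU (v : ℕ → V) (m : ℕ → ℕ) (c : V) (M : ℤ) (n : ℕ) (U : ℕ → ℕ → V) (N : ℕ) (f : ℕ → V)
    (i j : ℕ) : V :=
  if i = n then
    (if j = 0 then lcv v (m n) else if j ≤ N + 1 then f (j - 1) else
      (c.1 + (M + (j - (N + 1) : ℕ)) * (dir n).1, c.2 + (M + (j - (N + 1) : ℕ)) * (dir n).2))
  else U i j

section cfg

variable {F : Set V} {L : ℕ} {v : ℕ → V} {m : ℕ → ℕ} {c : V} {M : ℤ} {n : ℕ} {U : ℕ → ℕ → V}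


/-- **adding a tentacle** -/
theorem Cfg.add (C : Cfg F L v m c M n U) (hn : n < 4) (hm : rcv v (m n) ∉ body F U n)
    (hcon : Con (body F U n)ᶜ (rcv v (m n))
      (c.1 + (M + 1) * (dir n).1, c.2 + (M + 1) * (dir n).2)) :
    ∃ U', Cfg F L v m c (M + 1) (n + 1) U' := by
  have hM := C.M_pos
  -- the path
  have hq0 : rcv v (m n) ∈ Box c (M + 1) := by
    have h1 := C.box _ (C.cyc.left (m n))
    have h2 := adj_lc_rc (C.cyc.step (m n))
    have h3 : Adj (lcv v (m n)) (rcv v (m n)) := h2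
    have h4 : |(lcv v (m n)).1 - c.1| < M ∧ |(lcv v (m n)).2 - c.2| < M := h1
    unfold Box
    rw [Set.mem_ofPred_eq, abs_le, abs_le]
    rw [abs_lt, abs_lt] at h4
    unfold Adj at h3
    omega
  have hT : ((c.1 + (M + 1) * (dir n).1, c.2 + (M + 1) * (dir n).2) : V) ∈ Box c (M + 1) := by
    unfold Box
    rw [Set.mem_ofPred_eq, abs_le, abs_le]
    rcases dir_cases hn with ⟨-, e⟩ | ⟨-, e⟩ | ⟨-, e⟩ | ⟨-, e⟩ <;> rw [e] <;> simp only <;> omega
  have hcon' := C.clamp_con (R := M + 1) (by omega) hq0 hT hcon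
  obtain ⟨N, f, ⟨f0, fN, fa, fS⟩, finj⟩ := exists_simple
    (S := (body F U n)ᶜ ∩ Box c (M + 1)) ⟨hm, hq0⟩ hcon'
  refine ⟨newU v m c (M + 1) n U N f, ?_⟩
  set W := newU v m c (M + 1) n U N f with hW
  have hold : ∀ i < n, ∀ j, W i j = U i j := by
    intro i hi j
    rw [hW]; unfold newU; rw [if_neg (by omega)]
  have hn0 : W n 0 = lcv v (m n) := by
    rw [hW]; unfold newU; rw [if_pos rfl, if_pos rfl]
  have hnf : ∀ j ≤ N, W n (j + 1) = f j := by
    intro j hj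
    rw [hW]; unfold newU
    rw [if_pos rfl, if_neg (by omega), if_pos (by omega), Nat.add_sub_cancel]
  have hnr : ∀ j : ℕ, W n (N + 1 + j) =
      (c.1 + (M + 1 + j) * (dir n).1, c.2 + (M + 1 + j) * (dir n).2) := by
    intro j
    rcases Nat.eq_zero_or_pos j with h0 | h0
    · subst h0
      rw [Nat.add_zero, hnf N le_rfl, fN]
      ext <;> simp
    · rw [hW]; unfold newU
      rw [if_pos rfl, if_neg (by omega), if_neg (by omega)]
      have : N + 1 + j - (N + 1) = j := by omega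
      rw [this]
  have hnr' : ∀ j, N < j → ∃ r : ℤ, M + 1 < r ∧ r = M + 1 + (j - N : ℕ) ∧
      W n (j + 1) = (c.1 + r * (dir n).1, c.2 + r * (dir n).2) := by
    intro j hj
    refine ⟨M + 1 + (j - N : ℕ), by omega, rfl, ?_⟩
    have e : j + 1 = N + 1 + (j - N) := by omega
    rw [e, hnr (j - N)]
  have hrayfar : ∀ r : ℤ, M + 1 < r → ∀ P : V, P = (c.1 + r * (dir n).1, c.2 + r * (dir n).2) →
      M + 1 < |P.1 - c.1| ∨ M + 1 < |P.2 - c.2| := by
    intro r hr P hP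
    rw [hP]
    rcases dir_cases hn with ⟨-, e⟩ | ⟨-, e⟩ | ⟨-, e⟩ | ⟨-, e⟩ <;> rw [e] <;> simp only [lt_abs] <;>
      omega
  have hnB : ∀ j, W n (j + 1) ∉ body F U n := by
    intro j
    rcases Nat.lt_or_ge N j with h1 | h1
    · obtain ⟨r, hr, -, he⟩ := hnr' j h1
      intro hb
      have hf := hrayfar r hr _ he
      obtain ⟨i, hi, r', hr', he'⟩ := C.far hb (by omega)
      rw [he] at he'
      rw [Prod.ext_iff] at he'
      simp only at he'
      rcases dir_cases hn with ⟨a1, e⟩ | ⟨a1, e⟩ | ⟨a1, e⟩ | ⟨a1, e⟩ <;>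
        rcases dir_cases (show i < 4 by omega) with ⟨b1, e'⟩ | ⟨b1, e'⟩ | ⟨b1, e'⟩ | ⟨b1, e'⟩ <;>
        rw [e, e'] at he' <;> simp only at he' <;> omega
    · rw [hnf j h1]
      exact (fS j h1).1
  refine ⟨C.fin, C.con, C.con', C.cyc, C.m01, C.m12, C.m23, C.m3L, ?_, hn, ?_, ?_, ?_, ?_, ?_, ?_⟩
  · intro q hq
    have := C.box q hq
    omega
  · intro i hi
    rcases Nat.lt_or_ge i n with h1 | h1
    · rw [hold i h1]; exact C.start0 i h1
    · have : i = n := by omega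
      subst this
      exact hn0
  · intro i hi
    rcases Nat.lt_or_ge i n with h1 | h1
    · rw [hold i h1]; exact C.start1 i h1
    · have : i = n := by omega
      subst this
      rw [show (1 : ℕ) = 0 + 1 from rfl, hnf 0 (by omega), f0]
  · intro i hi j
    rcases Nat.lt_or_ge i n with h1 | h1
    · rw [hold i h1]; exact C.out i h1 j
    · have : i = n := by omega
      subst this
      exact fun hh => hnB j (Or.inl hh)
  · intro i hi j
    rcases Nat.lt_or_ge i n with h1 | h1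
    · rw [hold i h1, hold i h1]; exact C.step i h1 j
    · have : i = n := by omega
      subst this
      rcases Nat.eq_zero_or_pos j with h2 | h2
      · subst h2
        rw [hn0, hnf 0 (by omega), f0]
        exact adj_lc_rc (C.cyc.step (m i))
      · obtain ⟨j', rfl⟩ : ∃ j', j = j' + 1 := ⟨j - 1, by omega⟩
        rcases Nat.lt_or_ge j' N with h3 | h3
        · rw [hnf j' (by omega), hnf (j' + 1) (by omega)]
          exact fa j' h3
        · have e1 : j' + 1 = N + 1 + (j' - N) := by omega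
          have e2 : j' + 1 + 1 = N + 1 + (j' - N + 1) := by omega
          rw [e2, e1, hnr, hnr]
          unfold Adj
          push_cast
          rcases dir_cases hn with ⟨-, e⟩ | ⟨-, e⟩ | ⟨-, e⟩ | ⟨-, e⟩ <;> rw [e] <;> simp only <;>
            omega
  · have key : ∀ i < n + 1, ∀ i' < n + 1, ∀ j j', W i (j + 1) = W i' (j' + 1) →
        i = n → i' < n → False := by
      intro i hi i' hi' j j' he h1 h2
      subst h1
      refine hnB j ?_
      rw [he, hold i' h2]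
      exact Or.inr ⟨i', h2, j', rfl⟩
    intro i hi i' hi' j j' he
    rcases Nat.lt_or_ge i n with h1 | h1
    · rcases Nat.lt_or_ge i' n with h2 | h2
      · rw [hold i h1, hold i' h2] at he
        exact C.inj i h1 i' h2 j j' he
      · exact absurd (key i' hi' i hi j' j he.symm (by omega) h1) id
    · rcases Nat.lt_or_ge i' n with h2 | h2
      · exact absurd (key i hi i' hi' j j' he (by omega) h2) id
      · have e1 : i = n := by omega
        have e2 : i' = n := by omega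
        subst e1
        subst e2
        refine ⟨rfl, ?_⟩
        rcases Nat.lt_or_ge N j with h3 | h3
        · obtain ⟨r, hr, hr2, hre⟩ := hnr' j h3
          rcases Nat.lt_or_ge N j' with h4 | h4
          · obtain ⟨r', hr', hr2', hre'⟩ := hnr' j' h4
            rw [hre, hre', Prod.ext_iff] at he
            simp only at he
            have : r = r' := by
              rcases dir_cases hn with ⟨-, e⟩ | ⟨-, e⟩ | ⟨-, e⟩ | ⟨-, e⟩ <;> rw [e] at he <;>
                simp only at he <;> omega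
            omega
          · exfalso
            have h5 := hrayfar r hr _ hre
            rw [he, hnf j' h4] at h5
            have h6 := (fS j' h4).2
            unfold Box at h6
            rw [Set.mem_ofPred_eq] at h6
            omega
        · rcases Nat.lt_or_ge N j' with h4 | h4
          · exfalso
            obtain ⟨r', hr', hr2', hre'⟩ := hnr' j' h4
            have h5 := hrayfar r' hr' _ hre'
            rw [← he, hnf j h3] at h5
            have h6 := (fS j h3).2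
            unfold Box at h6
            rw [Set.mem_ofPred_eq] at h6
            omega
          · rw [hnf j h3, hnf j' h4] at he
            exact finj j h3 j' h4 he
  · intro i hi
    rcases Nat.lt_or_ge i n with h1 | h1
    · obtain ⟨j0, k0, k1, k2⟩ := C.ray i h1
      refine ⟨j0 + 1, by omega, ?_, ?_⟩
      · intro j hj
        rw [hold i h1]
        rcases Nat.lt_or_ge j0 j with h2 | h2
        · have e : j = j0 + 1 := by omega
          rw [e, k2 1]
          rcases dir_cases (show i < 4 by omega) with ⟨-, e⟩ | ⟨-, e⟩ | ⟨-, e⟩ | ⟨-, e⟩ <;> rw [e] <;>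
            simp only [abs_le] <;> push_cast <;> omega
        · have := k1 j h2
          omega
      · intro j
        rw [hold i h1, show j0 + 1 + j = j0 + (1 + j) by omega, k2 (1 + j)]
        push_cast
        ext <;> simp only <;> ring
    · have e1 : i = n := by omega
      subst e1
      refine ⟨N + 1, by omega, ?_, ?_⟩
      · intro j hj
        rcases Nat.eq_zero_or_pos j with h2 | h2
        · subst h2
          rw [hn0]
          have := C.box _ (C.cyc.left (m i))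
          have h4 : |(lcv v (m i)).1 - c.1| < M ∧ |(lcv v (m i)).2 - c.2| < M := this
          omega
        · obtain ⟨j', rfl⟩ : ∃ j', j = j' + 1 := ⟨j - 1, by omega⟩
          rw [hnf j' (by omega)]
          exact (fS j' (by omega)).2
      · intro j
        exact hnr j

/-! ### fine outer cells -/

theorem rcv_side {h : ℕ} (v : ℕ → V) (a s : ℕ) (hs : s ≤ 2 * h) (hA : Adj (v a) (v (a + 1))) :
    rcv (vref h v) ((2 * h + 1) * a + s) = side h (rcv v a) (lcv v a) (h - s) := by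
  rw [(cells_vref a s hs hA).2]
  unfold side
  unfold lcv rcv lc rc
  generalize v a = p at *
  generalize v (a + 1) = p' at *
  obtain ⟨x, y⟩ := p
  obtain ⟨x', y'⟩ := p'
  unfold Adj at hA
  rcases hA with ⟨e1, e2⟩ | ⟨e1, e2⟩ | ⟨e1, e2⟩ | ⟨e1, e2⟩ <;> simp only at e1 e2 <;>
    simp only [e1, e2]
  · have a1 : (x + (x + 1) - (y - y) - 1) / 2 = x := by omega
    have a2 : (y + y + (x + 1 - x) - 1) / 2 = y := by omega
    have a3 : (x + (x + 1) + (y - y) - 1) / 2 = x := by omega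
    have a4 : (y + y - (x + 1 - x) - 1) / 2 = y - 1 := by omega
    rw [a1, a2, a3, a4]
    refine Prod.ext ?_ ?_ <;> simp only <;> ring
  · have a1 : (x + (x - 1) - (y - y) - 1) / 2 = x - 1 := by omega
    have a2 : (y + y + (x - 1 - x) - 1) / 2 = y - 1 := by omega
    have a3 : (x + (x - 1) + (y - y) - 1) / 2 = x - 1 := by omega
    have a4 : (y + y - (x - 1 - x) - 1) / 2 = y := by omega
    rw [a1, a2, a3, a4]
    refine Prod.ext ?_ ?_ <;> simp only <;> ring
  · have a1 : (x + x - (y + 1 - y) - 1) / 2 = x - 1 := by omega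
    have a2 : (y + (y + 1) + (x - x) - 1) / 2 = y := by omega
    have a3 : (x + x + (y + 1 - y) - 1) / 2 = x := by omega
    have a4 : (y + (y + 1) - (x - x) - 1) / 2 = y := by omega
    rw [a1, a2, a3, a4]
    refine Prod.ext ?_ ?_ <;> simp only <;> ring
  · have a1 : (x + x - (y - 1 - y) - 1) / 2 = x := by omega
    have a2 : (y + (y - 1) + (x - x) - 1) / 2 = y - 1 := by omega
    have a3 : (x + x + (y - 1 - y) - 1) / 2 = x - 1 := by omega
    have a4 : (y + (y - 1) - (x - x) - 1) / 2 = y - 1 := by omega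
    rw [a1, a2, a3, a4]
    refine Prod.ext ?_ ?_ <;> simp only <;> ring

set_option linter.unusedVariables false in
/-- a unit step is determined by its left and right cells -/
theorem dart_unique {a b a' b' : V} (h : Adj a b) (h' : Adj a' b') (hl : lc a b = lc a' b')
    (hr : rc a b = rc a' b') : a = a' := by
  unfold Adj at h h'
  unfold lc at hl
  unfold rc at hr
  rw [Prod.ext_iff] at hl hr ⊢
  simp only at hl hr
  omega

/-- the fine outer cells in the body are those of the marks -/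
theorem Cfg.rcv_body (C : Cfg F L v m c M n U) {h : ℕ} (hh : 1 ≤ h) {x : ℕ}
    (hx : rcv (vref h v) x ∈ body (ref h F) (Uref h U) n) :
    ∃ i < n, x % ((2 * h + 1) * L) = mref h m i := by
  have hd := Nat.div_add_mod x (2 * h + 1)
  have hm := Nat.mod_lt x (show 0 < 2 * h + 1 by omega)
  set a := x / (2 * h + 1) with ha
  set s := x % (2 * h + 1) with hs
  have hA := C.cyc.step a
  rw [← hd, rcv_side v a s (by omega) hA] at hx
  have hadj : Adj (rcv v a) (lcv v a) := (adj_lc_rc hA).symm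
  have hq : rcv v a ∉ F := C.cyc.right a
  have hlF : lcv v a ∈ F := C.cyc.left a
  by_cases hs0 : (h : ℤ) - s = 0
  · by_contra hcon
    push Not at hcon
    refine C.side_free hh hq hadj ?_ (t := (h : ℤ) - s) (by rw [hs0]; simp) hx
    intro i hi b he
    refine ⟨fun hw => C.out i hi (b + 1) (hw ▸ hlF), fun hw => ?_⟩
    rcases Nat.eq_zero_or_pos b with h0 | h0
    · subst h0
      refine hcon i hi ?_
      rw [C.start0 i hi] at hw
      rw [C.start1 i hi] at he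
      have h1 := dart_unique hA (C.cyc.step (m i)) hw he
      have h2 := Cyc.idx C.cyc h1
      have hmi : m i < L := by
        have := C.m01; have := C.m12; have := C.m23; have := C.m3L
        have := C.n4
        have h4 : i = 0 ∨ i = 1 ∨ i = 2 ∨ i = 3 := by omega
        rcases h4 with rfl | rfl | rfl | rfl <;> omega
      rw [Nat.mod_eq_of_lt hmi] at h2
      have hs1 : s = h := by omega
      rw [← hd, hs1]
      have hd2 := Nat.div_add_mod a L
      rw [h2] at hd2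
      rw [← hd2]
      unfold mref
      have e : (2 * h + 1) * (L * (a / L) + m i) + h =
          ((2 * h + 1) * m i + h) + (2 * h + 1) * L * (a / L) := by ring
      rw [e, Nat.add_mul_mod_self_left, Nat.mod_eq_of_lt]
      have h3 : (2 * h + 1) * (m i + 1) ≤ (2 * h + 1) * L := Nat.mul_le_mul_left _ hmi
      rw [Nat.mul_add] at h3
      omega
    · obtain ⟨b', rfl⟩ : ∃ b', b = b' + 1 := ⟨b - 1, by omega⟩
      exact C.out i hi b' (hw ▸ hlF)
  · exact absurd hx (C.side_free' hq hadj (by rw [abs_le]; omega) hs0)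

theorem Cfg.m_lt (C : Cfg F L v m c M n U) {i j : ℕ} (hij : i < j) (hj : j < 4) : m i < m j := by
  have := C.m01; have := C.m12; have := C.m23
  have h4 : j = 1 ∨ j = 2 ∨ j = 3 := by omega
  rcases h4 with rfl | rfl | rfl
  · have : i = 0 := by omega
    subst this; omega
  · have : i = 0 ∨ i = 1 := by omega
    rcases this with rfl | rfl <;> omega
  · have : i = 0 ∨ i = 1 ∨ i = 2 := by omega
    rcases this with rfl | rfl | rfl <;> omega

theorem Cfg.m_ltL (C : Cfg F L v m c M n U) {i : ℕ} (hi : i < 4) : m i < L := by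
  have := C.m01; have := C.m12; have := C.m23; have := C.m3L
  have h4 : i = 0 ∨ i = 1 ∨ i = 2 ∨ i = 3 := by omega
  rcases h4 with rfl | rfl | rfl | rfl <;> omega

/-- **the next tentacle after refinement** -/
theorem Cfg.next (C : Cfg F L v m c M n U) (hn : 1 ≤ n) (hn4 : n < 4) :
    ∃ M' U', Cfg (ref 1 F) (3 * L) (vref 1 v) (mref 1 m) (cenc 1 c) M' (n + 1) U' := by
  have C' : Cfg (ref 1 F) ((2 * 1 + 1) * L) (vref 1 v) (mref 1 m) (cenc 1 c)
      ((2 * (1 : ℕ) + 1) * M) n (Uref 1 U) := refCfg' 1 F L v m c M n U C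
  obtain ⟨p, rfl⟩ : ∃ p, n = p + 1 := ⟨n - 1, by omega⟩
  have hM' := C'.M_pos
  have hlt : mref 1 m p < mref 1 m (p + 1) := C'.m_lt (by omega) hn4
  have hltL : mref 1 m (p + 1) < (2 * 1 + 1) * L := C'.m_ltL hn4
  -- the fine outer cells between the marks are free
  have hfree : ∀ x, mref 1 m p + 1 ≤ x → x ≤ mref 1 m (p + 1) →
      rcv (vref 1 v) x ∉ body (ref 1 F) (Uref 1 U) (p + 1) := by
    intro x h1 h2 hx
    obtain ⟨i, hi, he⟩ := C.rcv_body (h := 1) le_rfl hx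
    rw [Nat.mod_eq_of_lt (by omega)] at he
    rcases Nat.lt_or_ge i p with h3 | h3
    · have := C'.m_lt h3 (by omega)
      omega
    · have : i = p := by omega
      subst this
      omega
  have h1 := collarArc' 1 le_rfl F L v m c M (p + 1) U C (mref 1 m p + 1) (mref 1 m (p + 1))
    (by omega) hfree
  have h2 := (collarTent 1 le_rfl F L v m c M (p + 1) U C p (by omega)).1
    ((2 * (1 : ℕ) + 1) * M + 1) (by omega)
  set B := body (ref 1 F) (Uref 1 U) (p + 1) with hB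
  set R : ℤ := (2 * (1 : ℕ) + 1) * M + 1 with hR
  have e1 : (((cenc 1 c).1 + R * (dir p).1 + (rot (dir p)).1,
      (cenc 1 c).2 + R * (dir p).2 + (rot (dir p)).2) : V) = fp (cenc 1 c) p R 1 := by
    unfold fp rot; ext <;> simp only <;> ring
  rw [e1] at h2
  have h3 : Con Bᶜ (fp (cenc 1 c) p R 1) (fp (cenc 1 c) p R R) :=
    C'.far_t (by omega) (by omega) (by omega)
  have e2 : fp (cenc 1 c) p R R = fp (cenc 1 c) (p + 1) R (-R) := by
    unfold fp
    have h4 : p = 0 ∨ p = 1 ∨ p = 2 := by omega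
    rcases h4 with rfl | rfl | rfl <;> simp [dir] <;> ring
  have h4 : Con Bᶜ (fp (cenc 1 c) (p + 1) R (-R)) (fp (cenc 1 c) (p + 1) R (-1)) :=
    C'.far_t (by omega) (by omega) (by omega)
  have hT : fp (cenc 1 c) (p + 1) R 0 ∉ B := by
    intro hb
    have hfar : (2 * (1 : ℕ) + 1) * M < |(fp (cenc 1 c) (p + 1) R 0).1 - (cenc 1 c).1| ∨
        (2 * (1 : ℕ) + 1) * M < |(fp (cenc 1 c) (p + 1) R 0).2 - (cenc 1 c).2| := by
      unfold fp
      rcases dir_cases hn4 with ⟨-, e⟩ | ⟨-, e⟩ | ⟨-, e⟩ | ⟨-, e⟩ <;> rw [e] <;>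
        simp only [lt_abs] <;> omega
    obtain ⟨i, hi, r, hr, he⟩ := C'.far hb hfar
    unfold fp at he
    rw [Prod.ext_iff] at he
    simp only at he
    rcases dir_cases hn4 with ⟨a1, e⟩ | ⟨a1, e⟩ | ⟨a1, e⟩ | ⟨a1, e⟩ <;>
      rcases dir_cases (show i < 4 by omega) with ⟨b1, e'⟩ | ⟨b1, e'⟩ | ⟨b1, e'⟩ | ⟨b1, e'⟩ <;>
      rw [e, e'] at he <;> simp only at he <;> omega
  have h5 : Con Bᶜ (fp (cenc 1 c) (p + 1) R (-1)) (fp (cenc 1 c) (p + 1) R 0) := by
    refine cOne ?_ hT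
    unfold fp Adj
    rcases dir_cases hn4 with ⟨-, e⟩ | ⟨-, e⟩ | ⟨-, e⟩ | ⟨-, e⟩ <;> rw [e] <;> simp only <;> omega
  rw [e2] at h3
  have hm : rcv (vref 1 v) (mref 1 m (p + 1)) ∉ B := hfree _ (by omega) le_rfl
  have h1' := Crest.Agent.R158.Sp896.Con.symm h1 (hfree _ le_rfl (by omega))
  have hall := (((h1'.trans h2).trans h3).trans h4).trans h5
  have e3 : fp (cenc 1 c) (p + 1) R 0 =
      ((cenc 1 c).1 + ((2 * (1 : ℕ) + 1) * M + 1) * (dir (p + 1)).1,
        (cenc 1 c).2 + ((2 * (1 : ℕ) + 1) * M + 1) * (dir (p + 1)).2) := by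
    unfold fp; ext <;> simp only <;> ring
  rw [e3] at hall
  obtain ⟨U', hU'⟩ := C'.add hn4 hm hall
  exact ⟨_, U', hU'⟩

end cfg

/-- **(B5)** existence of the four tentacles -/
theorem exCfg : ExCfg := by
  intro F L v m hfin hcon hcon' hcyc h01 h12 h23 h3L
  obtain ⟨M0, hM0⟩ := Crest.Agent.R158.Sp896.exists_box hfin
  have C0 : Cfg F L v m (0, 0) (M0 + 1) 0 (fun _ _ => (0, 0)) := by
    refine ⟨hfin, hcon, hcon', hcyc, h01, h12, h23, h3L, ?_, by omega, ?_, ?_, ?_, ?_, ?_, ?_⟩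
    · intro q hq
      have := hM0 q hq
      simp only [sub_zero]
      omega
    all_goals (intro i hi; exact absurd hi (by omega))
  have hb0 : body F (fun _ _ => ((0, 0) : V)) 0 = F := by
    ext q
    unfold body
    simp
  have hr0 : rcv v (m 0) ∉ F := hcyc.right (m 0)
  have hT : (((0 : ℤ) + (M0 + 1 + 1) * (dir 0).1, (0 : ℤ) + (M0 + 1 + 1) * (dir 0).2) : V) ∉ F := by
    intro hb
    have h1 := (hM0 _ hb).1
    simp only [dir, if_true] at h1
    have h2 := abs_le.1 h1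
    omega
  obtain ⟨U1, C1⟩ := C0.add (by omega) (by rw [hb0]; exact hr0)
    (by rw [hb0]; exact hcon' _ hr0 _ hT)
  obtain ⟨M2, U2, C2⟩ := C1.next (by omega) (by omega)
  obtain ⟨M3, U3, C3⟩ := C2.next (by omega) (by omega)
  obtain ⟨M4, U4, C4⟩ := C3.next (by omega) (by omega)
  exact ⟨_, _, _, C4⟩

end Crest.Agent.R143.Tentx359
end

-- ▼ part R143/TentD_359
section

/-!
# Row 143 (S0194), block D, TENT, geometric part: definitions (helper359)

Fine level: mesh `σ`, `Fine F L v m c M U`.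
* `CC σ F v m c M U` : the configuration, `BB σ U c M k` : tentacle `k` with its cone
* `aa`, `bb` : coordinates in the frame of the tentacle `k`; `mem_sq`, `mem_cone`
* `ref_ref`, `vref_vref`, `Pg_ref`, `exFine` : refinement of the coarse polygon by `81 = 2 * 40 + 1`
-/

set_option autoImplicit false

noncomputable section

namespace Crest.Agent.R143.TentDx359

open Set Metric
open Crest.Agent.R158 Crest.Agent.R158.Sp896 Crest.Agent.R158.Tj656 Crest.Agent.R158.Tg331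
open Crest.Agent.R143.Tentx359 Crest.Agent.R143.TentAx951 Crest.Agent.R143.TentBx951
open Crest.Agent.R143.Tenx416

/-! ### definitions -/

/-- radius of the big disc -/
def LL (σ : ℝ) (M : ℤ) : ℝ := 16 * σ * (M + 2)

/-- direction of the tentacle `k` -/
def qq (k : ZMod 4) : ℂ := Complex.I ^ k.val

/-- closed cone of the tentacle `k` -/
def cone (σ : ℝ) (c : V) (M : ℤ) (k : ZMod 4) : Set ℂ :=
  {z | LL σ M / 2 ≤ ‖z - cen σ c‖ ∧
    ∃ t : ℝ, 0 ≤ t ∧ ‖z - (cen σ c + t * qq k)‖ ≤ σ / LL σ M * ‖z - cen σ c‖}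

/-- union of the cells of the tentacle `k` -/
def TT (σ : ℝ) (U : ℕ → ℕ → V) (k : ZMod 4) : Set ℂ := {z | ∃ j, z ∈ sq σ (U k.val (j + 1))}

/-- tentacle with its cone -/
def BB (σ : ℝ) (U : ℕ → ℕ → V) (c : V) (M : ℤ) (k : ZMod 4) : Set ℂ := TT σ U k ∪ cone σ c M k

/-- region after the tentacle `i` -/
def RR (σ : ℝ) (F : Set V) (v : ℕ → V) (m : ℕ → ℕ) (c : V) (M : ℤ) (U : ℕ → ℕ → V)
    (i : ZMod 4) : Set ℂ := Om σ (cls F v m U i.val) \ ⋃ k, cone σ c M k

/-- the configuration -/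
def CC (σ : ℝ) (F : Set V) (v : ℕ → V) (m : ℕ → ℕ) (c : V) (M : ℤ) (U : ℕ → ℕ → V) :
    Cfgx416.Cfg 4 where
  c := cen σ c
  L := LL σ M
  R := RR σ F v m c M U
  q := qq

/-- coordinate along the tentacle `k` -/
def aa (σ : ℝ) (c : V) (k : ZMod 4) (z : ℂ) : ℝ :=
  (z.re - (cen σ c).re) * (dir k.val).1 + (z.im - (cen σ c).im) * (dir k.val).2

/-- coordinate to the left of the tentacle `k` -/
def bb (σ : ℝ) (c : V) (k : ZMod 4) (z : ℂ) : ℝ :=
  (z.re - (cen σ c).re) * (rot (dir k.val)).1 + (z.im - (cen σ c).im) * (rot (dir k.val)).2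

/-! ### the frame -/

theorem val_lt (k : ZMod 4) : k.val < 4 := ZMod.val_lt k

theorem k_cases (k : ZMod 4) : (k = 0 ∧ k.val = 0) ∨ (k = 1 ∧ k.val = 1) ∨ (k = 2 ∧ k.val = 2) ∨
    (k = 3 ∧ k.val = 3) := by
  fin_cases k
  · exact Or.inl ⟨rfl, rfl⟩
  · exact Or.inr (Or.inl ⟨rfl, rfl⟩)
  · exact Or.inr (Or.inr (Or.inl ⟨rfl, rfl⟩))
  · exact Or.inr (Or.inr (Or.inr ⟨rfl, rfl⟩))

theorem prv_val (k : ZMod 4) : (k - 1).val = prv k.val := by
  fin_cases k <;> rfl

theorem qq_re (k : ZMod 4) : (qq k).re = (dir k.val).1 := by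
  unfold qq dir
  rcases k_cases k with ⟨-, h⟩ | ⟨-, h⟩ | ⟨-, h⟩ | ⟨-, h⟩ <;> rw [h]
  · simp
  · simp
  · simp
  · simp [pow_succ]

theorem qq_im (k : ZMod 4) : (qq k).im = (dir k.val).2 := by
  unfold qq dir
  rcases k_cases k with ⟨-, h⟩ | ⟨-, h⟩ | ⟨-, h⟩ | ⟨-, h⟩ <;> rw [h]
  · simp
  · simp
  · simp
  · simp [pow_succ]

theorem qq_norm (k : ZMod 4) : ‖qq k‖ = 1 := by
  unfold qq
  rw [norm_pow, Complex.norm_I, one_pow]

/-- squared distance to the axis point -/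
theorem sq_axis (σ : ℝ) (c : V) (k : ZMod 4) (z : ℂ) (t : ℝ) :
    ‖z - (cen σ c + t * qq k)‖ ^ 2 = (aa σ c k z - t) ^ 2 + bb σ c k z ^ 2 := by
  rw [← Complex.normSq_eq_norm_sq, Complex.normSq_apply]
  simp only [Complex.sub_re, Complex.sub_im, Complex.add_re, Complex.add_im, Complex.re_ofReal_mul,
    Complex.im_ofReal_mul, qq_re, qq_im]
  unfold aa bb dir rot
  rcases k_cases k with ⟨-, h⟩ | ⟨-, h⟩ | ⟨-, h⟩ | ⟨-, h⟩ <;> rw [h] <;> simp <;> ring

theorem norm_sq (σ : ℝ) (c : V) (k : ZMod 4) (z : ℂ) :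
    ‖z - cen σ c‖ ^ 2 = aa σ c k z ^ 2 + bb σ c k z ^ 2 := by
  have := sq_axis σ c k z 0
  simpa using this



theorem le_add (σ : ℝ) (c : V) (k : ZMod 4) (z : ℂ) :
    ‖z - cen σ c‖ ≤ |aa σ c k z| + |bb σ c k z| := by
  apply le_of_sq_le_sq _ (by positivity)
  rw [norm_sq σ c k z, ← sq_abs (aa σ c k z), ← sq_abs (bb σ c k z)]
  nlinarith [abs_nonneg (aa σ c k z), abs_nonneg (bb σ c k z)]

theorem continuous_aa (σ : ℝ) (c : V) (k : ZMod 4) : Continuous (aa σ c k) := by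
  unfold aa
  fun_prop

theorem continuous_bb (σ : ℝ) (c : V) (k : ZMod 4) : Continuous (bb σ c k) := by
  unfold bb
  fun_prop

/-- the coordinates are 1-Lipschitz -/
theorem aa_lip (σ : ℝ) (c : V) (k : ZMod 4) (z w : ℂ) :
    |aa σ c k z - aa σ c k w| ≤ dist z w := by
  have h1 : |(z - w).re| ≤ ‖z - w‖ := Complex.abs_re_le_norm _
  have h2 : |(z - w).im| ≤ ‖z - w‖ := Complex.abs_im_le_norm _
  rw [Complex.sub_re] at h1
  rw [Complex.sub_im] at h2
  rw [dist_eq_norm]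
  rw [abs_le] at h1 h2 ⊢
  unfold aa dir
  rcases k_cases k with ⟨-, h⟩ | ⟨-, h⟩ | ⟨-, h⟩ | ⟨-, h⟩ <;> rw [h] <;> simp <;>
    constructor <;> linarith [h1.1, h1.2, h2.1, h2.2]


/-- cells in the frame -/
theorem mem_sq {σ : ℝ} (c : V) (k : ZMod 4) {z : ℂ} {q : V} : z ∈ sq σ q ↔
    |aa σ c k z - σ * al c k.val q| ≤ σ / 2 ∧ |bb σ c k z - σ * be c k.val q| ≤ σ / 2 := by
  rw [abs_le, abs_le]
  unfold aa bb al be rot dir cen
  show (σ * q.1 ≤ z.re ∧ z.re ≤ σ * (q.1 + 1) ∧ σ * q.2 ≤ z.im ∧ z.im ≤ σ * (q.2 + 1)) ↔ _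
  constructor
  · rintro ⟨h1, h2, h3, h4⟩
    rcases k_cases k with ⟨-, h⟩ | ⟨-, h⟩ | ⟨-, h⟩ | ⟨-, h⟩ <;> rw [h] <;> push_cast <;> norm_num <;>
      refine ⟨⟨?_, ?_⟩, ?_, ?_⟩ <;> nlinarith
  · intro g
    rcases k_cases k with ⟨-, h⟩ | ⟨-, h⟩ | ⟨-, h⟩ | ⟨-, h⟩ <;> rw [h] at g <;>
      push_cast at g <;> norm_num at g <;> obtain ⟨⟨h1, h2⟩, h3, h4⟩ := g <;>
      refine ⟨?_, ?_, ?_, ?_⟩ <;> nlinarith

/-! ### the cone in the frame -/

section cone

variable {σ : ℝ} {c : V} {M : ℤ}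

theorem LL_pos (hσ : 0 < σ) (hM : 0 ≤ M) : 0 < LL σ M := by
  unfold LL
  have : (0 : ℝ) ≤ M := by exact_mod_cast hM
  positivity

theorem LL_ge (hσ : 0 < σ) (hM : 0 ≤ M) : 16 * σ ≤ LL σ M := by
  unfold LL
  have : (0 : ℝ) ≤ M := by exact_mod_cast hM
  nlinarith [mul_nonneg hσ.le this]

theorem ratio (hσ : 0 < σ) (hM : 0 ≤ M) : σ / LL σ M ≤ 1 / 16 := by
  rw [div_le_div_iff₀ (LL_pos hσ hM) (by norm_num)]
  linarith [LL_ge hσ hM]

theorem ratio_pos (hσ : 0 < σ) (hM : 0 ≤ M) : 0 < σ / LL σ M := div_pos hσ (LL_pos hσ hM)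



/-- distance to the ray -/
theorem ray_iff (hσ : 0 < σ) (hM : 0 ≤ M) (k : ZMod 4) {z : ℂ} (hz : 0 < ‖z - cen σ c‖) :
    (∃ t : ℝ, 0 ≤ t ∧ ‖z - (cen σ c + t * qq k)‖ ≤ σ / LL σ M * ‖z - cen σ c‖) ↔
      0 < aa σ c k z ∧ |bb σ c k z| ≤ σ / LL σ M * ‖z - cen σ c‖ := by
  have hr := ratio hσ hM
  have hr0 := ratio_pos hσ hM
  have hw : 0 < σ / LL σ M * ‖z - cen σ c‖ := mul_pos hr0 hz
  have hw2 : σ / LL σ M * ‖z - cen σ c‖ < ‖z - cen σ c‖ := by nlinarith
  constructor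
  · rintro ⟨t, ht, h⟩
    have h1 := sq_axis σ c k z t
    have h2 : ‖z - (cen σ c + t * qq k)‖ ^ 2 ≤ (σ / LL σ M * ‖z - cen σ c‖) ^ 2 :=
      pow_le_pow_left₀ (norm_nonneg _) h 2
    constructor
    · by_contra hneg
      push Not at hneg
      have h3 := norm_sq σ c k z
      have h4 : (σ / LL σ M * ‖z - cen σ c‖) ^ 2 < ‖z - cen σ c‖ ^ 2 :=
        pow_lt_pow_left₀ hw2 hw.le (by norm_num)
      nlinarith
    · apply abs_le_of_sq_le_sq _ hw.le
      nlinarith [sq_nonneg (aa σ c k z - t)]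
  · rintro ⟨h1, h2⟩
    refine ⟨aa σ c k z, h1.le, ?_⟩
    apply le_of_sq_le_sq _ hw.le
    rw [sq_axis, sub_self, ← sq_abs (bb σ c k z)]
    have := pow_le_pow_left₀ (abs_nonneg _) h2 2
    simpa using this

/-- **the cone in the frame** -/
theorem mem_cone (hσ : 0 < σ) (hM : 0 ≤ M) (k : ZMod 4) {z : ℂ} : z ∈ cone σ c M k ↔
    LL σ M / 2 ≤ ‖z - cen σ c‖ ∧ 0 < aa σ c k z ∧
      |bb σ c k z| ≤ σ / LL σ M * ‖z - cen σ c‖ := by
  show (_ ∧ _) ↔ _
  have hL := LL_pos hσ hM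
  constructor
  · rintro ⟨h1, h2⟩
    exact ⟨h1, (ray_iff hσ hM k (by linarith)).1 h2⟩
  · rintro ⟨h1, h2⟩
    exact ⟨h1, (ray_iff hσ hM k (by linarith)).2 h2⟩

theorem mem_cone' (hσ : 0 < σ) (hM : 0 ≤ M) (k : ZMod 4) {z : ℂ} : z ∈ cone σ c M k ↔
    LL σ M / 2 ≤ ‖z - cen σ c‖ ∧ 0 ≤ aa σ c k z ∧
      |bb σ c k z| ≤ σ / LL σ M * ‖z - cen σ c‖ := by
  rw [mem_cone hσ hM]
  have hL := LL_pos hσ hM
  refine ⟨fun h => ⟨h.1, h.2.1.le, h.2.2⟩, fun h => ⟨h.1, ?_, h.2.2⟩⟩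
  obtain ⟨h1, h2, h3⟩ := h
  rcases h2.lt_or_eq with h4 | h4
  · exact h4
  · exfalso
    have h5 := le_add σ c k z
    rw [← h4, abs_zero, zero_add] at h5
    have h6 := ratio hσ hM
    have h7 : 0 < ‖z - cen σ c‖ := by linarith
    nlinarith

theorem isClosed_cone (hσ : 0 < σ) (hM : 0 ≤ M) (k : ZMod 4) : IsClosed (cone σ c M k) := by
  have e : cone σ c M k = {z | LL σ M / 2 ≤ ‖z - cen σ c‖} ∩ ({z | 0 ≤ aa σ c k z} ∩
      {z | |bb σ c k z| ≤ σ / LL σ M * ‖z - cen σ c‖}) := by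
    ext z
    rw [mem_cone' hσ hM]
    rfl
  rw [e]
  refine (isClosed_le continuous_const (by fun_prop)).inter
    ((isClosed_le continuous_const (continuous_aa σ c k)).inter
      (isClosed_le (continuous_bb σ c k).abs (by fun_prop)))

/-- lower bound of the coordinate along the cone -/
theorem cone_aa (hσ : 0 < σ) (hM : 0 ≤ M) (k : ZMod 4) {z : ℂ} (h : z ∈ cone σ c M k) :
    15 / 16 * ‖z - cen σ c‖ ≤ aa σ c k z := by
  rw [mem_cone hσ hM] at h
  have h1 := le_add σ c k z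
  rw [abs_of_pos h.2.1] at h1
  have h2 := mul_le_mul_of_nonneg_right (ratio hσ hM) (norm_nonneg (z - cen σ c))
  linarith [h.2.2]

end cone

/-! ### cells and points -/

/-- cells of near points -/
theorem near_cells {σ : ℝ} {q q' : V} {z w : ℂ} (h : z ∈ sq σ q) (h' : w ∈ sq σ q')
    (hd : dist z w < σ) : |q.1 - q'.1| ≤ 1 ∧ |q.2 - q'.2| ≤ 1 := by
  have hσ : 0 < σ := lt_of_le_of_lt dist_nonneg hd
  obtain ⟨h1, h2, h3, h4⟩ := h
  obtain ⟨k1, k2, k3, k4⟩ := h'
  have r1 : |(z - w).re| ≤ ‖z - w‖ := Complex.abs_re_le_norm _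
  have r2 : |(z - w).im| ≤ ‖z - w‖ := Complex.abs_im_le_norm _
  rw [dist_eq_norm] at hd
  rw [Complex.sub_re, abs_le] at r1
  rw [Complex.sub_im, abs_le] at r2
  have e1 : (q.1 : ℝ) < q'.1 + 2 := by
    have : σ * (q.1 : ℝ) < σ * (q'.1 + 2) := by linarith
    exact lt_of_mul_lt_mul_left this hσ.le
  have e2 : (q'.1 : ℝ) < q.1 + 2 := by
    have : σ * (q'.1 : ℝ) < σ * (q.1 + 2) := by linarith
    exact lt_of_mul_lt_mul_left this hσ.le
  have e3 : (q.2 : ℝ) < q'.2 + 2 := by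
    have : σ * (q.2 : ℝ) < σ * (q'.2 + 2) := by linarith
    exact lt_of_mul_lt_mul_left this hσ.le
  have e4 : (q'.2 : ℝ) < q.2 + 2 := by
    have : σ * (q'.2 : ℝ) < σ * (q.2 + 2) := by linarith
    exact lt_of_mul_lt_mul_left this hσ.le
  have f1 : q.1 < q'.1 + 2 := by exact_mod_cast e1
  have f2 : q'.1 < q.1 + 2 := by exact_mod_cast e2
  have f3 : q.2 < q'.2 + 2 := by exact_mod_cast e3
  have f4 : q'.2 < q.2 + 2 := by exact_mod_cast e4
  rw [abs_le, abs_le]
  omega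

/-- unions of closed cells are closed -/
theorem isClosed_cells {σ : ℝ} (hσ : 0 < σ) (S : Set V) : IsClosed {z | ∃ q ∈ S, z ∈ sq σ q} := by
  have e : {z | ∃ q ∈ S, z ∈ sq σ q} = (Om σ Sᶜ)ᶜ := by
    ext z
    rw [mem_compl_iff, mem_om hσ]
    push Not
    simp only [mem_compl_iff, not_not, Set.mem_ofPred_eq]
    exact ⟨fun ⟨q, h1, h2⟩ => ⟨q, h2, h1⟩, fun ⟨q, h1, h2⟩ => ⟨q, h2, h1⟩⟩
  rw [e]
  exact (om_open σ _).isClosed_compl

theorem mem_Pg {s : ℝ} {F : Set V} {z : ℂ} : z ∈ Pg s F ↔ ∃ q ∈ F, z ∈ sq s q := by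
  unfold Pg
  simp only [mem_iUnion, exists_prop]

theorem isClosed_TT {σ : ℝ} (hσ : 0 < σ) (U : ℕ → ℕ → V) (k : ZMod 4) : IsClosed (TT σ U k) := by
  have e : TT σ U k = {z | ∃ q ∈ {q : V | ∃ j, q = U k.val (j + 1)}, z ∈ sq σ q} := by
    ext z
    constructor
    · rintro ⟨j, h⟩
      exact ⟨_, ⟨j, rfl⟩, h⟩
    · rintro ⟨q, ⟨j, rfl⟩, h⟩
      exact ⟨j, h⟩
  rw [e]
  exact isClosed_cells hσ _

theorem isClosed_BB {σ : ℝ} (hσ : 0 < σ) (U : ℕ → ℕ → V) (c : V) {M : ℤ} (hM : 0 ≤ M)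
    (k : ZMod 4) : IsClosed (BB σ U c M k) :=
  (isClosed_TT hσ U k).union (isClosed_cone hσ hM k)

/-! ### the body -/

section fine

variable {F : Set V} {L : ℕ} {v : ℕ → V} {m : ℕ → ℕ} {c : V} {M : ℤ} {U : ℕ → ℕ → V} {σ : ℝ}

/-- a point with all its cells outside the body is in exactly one open class -/
theorem mem_Om_cls (H : Fine F L v m c M U) (hσ : 0 < σ) {z : ℂ}
    (hz : ∀ q, z ∈ sq σ q → q ∉ body F U 4) : ∃ i : ZMod 4, z ∈ Om σ (cls F v m U i.val) := by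
  obtain ⟨i, hi, h⟩ := cover H (hz _ (mem_cellOf hσ z))
  have ev : ((i : ZMod 4)).val = i := ZMod.val_natCast_of_lt hi
  refine ⟨(i : ZMod 4), ?_⟩
  rw [ev, mem_om hσ]
  intro q hq
  obtain ⟨j, hj, h'⟩ := cover H (hz q hq)
  by_cases hij : i = j
  · rw [hij]; exact h'
  · exfalso
    have h1 := not_adj8 H hi hj hij h h'
    have h2 := common_cases hσ (mem_cellOf hσ z) hq
    omega

theorem Om_cls_body (hσ : 0 < σ) {i : ℕ} {z : ℂ} (h : z ∈ Om σ (cls F v m U i)) {q : V}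
    (hq : z ∈ sq σ q) : q ∉ body F U 4 := ((mem_om hσ).1 h q hq).1


/-- a cell of the body belongs to the polygon or to a tentacle -/
theorem body_cases {z : ℂ} {q : V} (hq : q ∈ body F U 4) (hz : z ∈ sq σ q) :
    z ∈ Pg σ F ∨ ∃ k, z ∈ TT σ U k := by
  rcases hq with h | ⟨i, hi, j, rfl⟩
  · exact Or.inl (mem_Pg.2 ⟨q, h, hz⟩)
  · refine Or.inr ⟨(i : ZMod 4), j, ?_⟩
    rw [ZMod.val_natCast_of_lt hi]
    exact hz

/-- **trichotomy** -/
theorem tri (H : Fine F L v m c M U) (hσ : 0 < σ) (z : ℂ) :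
    z ∈ Pg σ F ∨ (∃ k, z ∈ BB σ U c M k) ∨ ∃ i, z ∈ RR σ F v m c M U i := by
  by_cases hz : ∀ q, z ∈ sq σ q → q ∉ body F U 4
  · by_cases hc : ∃ k, z ∈ cone σ c M k
    · obtain ⟨k, hk⟩ := hc
      exact Or.inr (Or.inl ⟨k, Or.inr hk⟩)
    · obtain ⟨i, hi⟩ := mem_Om_cls H hσ hz
      refine Or.inr (Or.inr ⟨i, hi, ?_⟩)
      rw [mem_iUnion]
      exact hc
  · push Not at hz
    obtain ⟨q, h1, h2⟩ := hz
    rcases body_cases h2 h1 with h | ⟨k, h⟩
    · exact Or.inl h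
    · exact Or.inr (Or.inl ⟨k, Or.inl h⟩)

theorem RR_Pg (hσ : 0 < σ) {i : ZMod 4} {z : ℂ} (h : z ∈ RR σ F v m c M U i) : z ∉ Pg σ F := by
  rw [mem_Pg]
  rintro ⟨q, hq, hz⟩
  exact Om_cls_body hσ h.1 hz (Or.inl hq)

theorem RR_BB (hσ : 0 < σ) {i k : ZMod 4} {z : ℂ} (h : z ∈ RR σ F v m c M U i) :
    z ∉ BB σ U c M k := by
  rintro (⟨j, hj⟩ | hk)
  · exact Om_cls_body hσ h.1 hj (Or.inr ⟨k.val, val_lt k, j, rfl⟩)
  · exact h.2 (mem_iUnion.2 ⟨k, hk⟩)

/-- **field `body`**, fine level -/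
theorem body_eq (H : Fine F L v m c M U) (hσ : 0 < σ) :
    (CC σ F v m c M U).outᶜ = Pg σ F ∪ ⋃ k, BB σ U c M k := by
  ext z
  rw [mem_compl_iff, mem_union, mem_iUnion]
  have hout : z ∈ (CC σ F v m c M U).out ↔ ∃ i, z ∈ RR σ F v m c M U i := mem_iUnion
  rw [hout]
  constructor
  · intro h
    rcases tri H hσ z with h1 | h1 | h1
    · exact Or.inl h1
    · exact Or.inr h1
    · exact absurd h1 h
  · rintro (h | ⟨k, h⟩) ⟨i, hi⟩
    · exact RR_Pg hσ hi h
    · exact RR_BB hσ hi h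

end fine

/-! ### refinement of the coarse polygon -/

theorem sq_sub {h : ℕ} {q f : V} (hb : Blk h q f) {s : ℝ} (hs : 0 < s) :
    sq (s / (2 * h + 1)) f ⊆ sq s q := by
  obtain ⟨b1, b2, b3, b4⟩ := hb
  have hk : (0 : ℝ) < 2 * h + 1 := by positivity
  have e : s = s / (2 * h + 1) * (2 * h + 1) := by field_simp
  have hσ : 0 < s / (2 * h + 1) := div_pos hs hk
  generalize s / (2 * h + 1) = σ at *
  subst e
  have c1 : ((2 * h + 1) * q.1 : ℝ) ≤ f.1 := by exact_mod_cast b1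
  have c2 : (f.1 : ℝ) ≤ (2 * h + 1) * q.1 + 2 * h := by exact_mod_cast b2
  have c3 : ((2 * h + 1) * q.2 : ℝ) ≤ f.2 := by exact_mod_cast b3
  have c4 : (f.2 : ℝ) ≤ (2 * h + 1) * q.2 + 2 * h := by exact_mod_cast b4
  rintro z ⟨h1, h2, h3, h4⟩
  have d1 := mul_le_mul_of_nonneg_left c1 hσ.le
  have d2 := mul_le_mul_of_nonneg_left c2 hσ.le
  have d3 := mul_le_mul_of_nonneg_left c3 hσ.le
  have d4 := mul_le_mul_of_nonneg_left c4 hσ.le
  refine ⟨?_, ?_, ?_, ?_⟩ <;> nlinarith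

theorem exists_sub_aux {σ x : ℝ} (hσ : 0 < σ) {h : ℕ} {a : ℤ} (h1 : σ * (2 * h + 1) * a ≤ x)
    (h2 : x ≤ σ * (2 * h + 1) * (a + 1)) : ∃ f : ℤ, (2 * h + 1) * a ≤ f ∧
      f ≤ (2 * h + 1) * a + 2 * h ∧ σ * f ≤ x ∧ x ≤ σ * (f + 1) := by
  rcases lt_or_ge (⌊x / σ⌋) ((2 * h + 1) * a + 2 * h) with hf | hf
  · refine ⟨⌊x / σ⌋, ?_, hf.le, ?_, ?_⟩
    · rw [Int.le_floor]
      push_cast
      rw [le_div_iff₀ hσ]
      linarith
    · have := Int.floor_le (x / σ)
      rw [le_div_iff₀ hσ] at this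
      linarith
    · have := (Int.lt_floor_add_one (x / σ)).le
      rw [div_le_iff₀ hσ] at this
      linarith
  · refine ⟨(2 * h + 1) * a + 2 * h, by omega, le_rfl, ?_, ?_⟩
    · rw [Int.le_floor, le_div_iff₀ hσ] at hf
      push_cast at hf ⊢
      linarith
    · push_cast
      nlinarith

theorem exists_sub {h : ℕ} {q : V} {s : ℝ} (hs : 0 < s) {z : ℂ} (hz : z ∈ sq s q) :
    ∃ f, Blk h q f ∧ z ∈ sq (s / (2 * h + 1)) f := by
  have hk : (0 : ℝ) < 2 * h + 1 := by positivity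
  have e : s = s / (2 * h + 1) * (2 * h + 1) := by field_simp
  have hσ : 0 < s / (2 * h + 1) := div_pos hs hk
  generalize s / (2 * h + 1) = σ at *
  subst e
  obtain ⟨h1, h2, h3, h4⟩ := hz
  obtain ⟨x, x1, x2, x3, x4⟩ := exists_sub_aux hσ h1 h2
  obtain ⟨y, y1, y2, y3, y4⟩ := exists_sub_aux hσ h3 h4
  exact ⟨(x, y), ⟨x1, x2, y1, y2⟩, x3, x4, y3, y4⟩

theorem Pg_ref (h : ℕ) (F : Set V) {s : ℝ} (hs : 0 < s) :
    Pg (s / (2 * h + 1)) (ref h F) = Pg s F := by
  ext z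
  rw [mem_Pg, mem_Pg]
  constructor
  · rintro ⟨f, hf, hz⟩
    obtain ⟨q, hq, hb⟩ := Tentx359.mem_ref.1 hf
    exact ⟨q, hq, sq_sub hb hs hz⟩
  · rintro ⟨q, hq, hz⟩
    obtain ⟨f, hb, hzf⟩ := exists_sub (h := h) hs hz
    exact ⟨f, (blk_mem hb).2 hq, hzf⟩

/-! ### composition of refinements -/

theorem ref_ref (h g : ℕ) (F : Set V) : ref h (ref g F) = ref (2 * h * g + h + g) F := by
  ext f
  show (f.1 / (2 * h + 1) / (2 * g + 1), f.2 / (2 * h + 1) / (2 * g + 1)) ∈ F ↔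
    (f.1 / (2 * ((2 * h * g + h + g : ℕ) : ℤ) + 1), f.2 / (2 * ((2 * h * g + h + g : ℕ) : ℤ) + 1)) ∈ F
  have e : (2 * ((2 * h * g + h + g : ℕ) : ℤ) + 1) = (2 * h + 1) * (2 * g + 1) := by
    push_cast; ring
  rw [e, Int.ediv_ediv_of_nonneg (by positivity), Int.ediv_ediv_of_nonneg (by positivity)]

theorem mref_mref (h g : ℕ) (m : ℕ → ℕ) : mref h (mref g m) = mref (2 * h * g + h + g) m := by
  funext i
  unfold mref
  ring

theorem vref_vref (h g : ℕ) (v : ℕ → V) : vref h (vref g v) = vref (2 * h * g + h + g) v := by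
  funext i
  obtain ⟨j, r, hr, rfl⟩ : ∃ j r, r < 2 * h + 1 ∧ i = (2 * h + 1) * j + r :=
    ⟨i / (2 * h + 1), i % (2 * h + 1), Nat.mod_lt _ (by omega), (Nat.div_add_mod _ _).symm⟩
  obtain ⟨k, t, ht, rfl⟩ : ∃ k t, t < 2 * g + 1 ∧ j = (2 * g + 1) * k + t :=
    ⟨j / (2 * g + 1), j % (2 * g + 1), Nat.mod_lt _ (by omega), (Nat.div_add_mod _ _).symm⟩
  rw [vref_at (vref g v) _ r (by omega), show (2 * g + 1) * k + t + 1 = (2 * g + 1) * k + (t + 1) by
    ring, vref_at v k t (by omega), vref_at v k (t + 1) (by omega)]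
  have e : (2 * h + 1) * ((2 * g + 1) * k + t) + r =
      (2 * (2 * h * g + h + g) + 1) * k + ((2 * h + 1) * t + r) := by ring
  have hle : (2 * h + 1) * t + r ≤ 2 * (2 * h * g + h + g) + 1 := by
    have : (2 * h + 1) * t ≤ (2 * h + 1) * (2 * g) := Nat.mul_le_mul_left _ (by omega)
    have e2 : (2 * h + 1) * (2 * g) = 2 * (2 * h * g + g) := by ring
    omega
  rw [e, vref_at v k _ hle]
  ext
  · simp only; push_cast; ring
  · simp only; push_cast; ring

/-- **data of the construction**: after refinement by `81` -/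
theorem exFine (F : Set V) (L : ℕ) (v : ℕ → V) (m : ℕ → ℕ) (hF : F.Finite)
    (h1 : ∀ q ∈ F, ∀ q' ∈ F, Con F q q') (h2 : ∀ q ∉ F, ∀ q' ∉ F, Con Fᶜ q q') (h3 : Cyc F L v)
    (m01 : m 0 < m 1) (m12 : m 1 < m 2) (m23 : m 2 < m 3) (m3L : m 3 < L) :
    ∃ (c : V) (M : ℤ) (U : ℕ → ℕ → V),
      Fine (ref 40 F) (81 * L) (vref 40 v) (mref 40 m) c M U := by
  obtain ⟨c, M, U, C⟩ := exCfg F L v m hF h1 h2 h3 m01 m12 m23 m3L
  have H := fine_of C (h := 1) le_rfl
  rw [ref_ref, ref_ref, ref_ref, vref_vref, vref_vref, vref_vref, mref_mref, mref_mref, mref_mref]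
    at H
  have e : (2 * 1 + 1) * (3 * (3 * (3 * L))) = 81 * L := by ring
  rw [e] at H
  exact ⟨_, _, _, H⟩

end Crest.Agent.R143.TentDx359
end
end

-- ▼ part R143/TentL_359
section

/-!
# Row 143 (S0194), block D, TENT, geometric part: fields `tt`, `tr`, `mth` (helper359)
-/

set_option autoImplicit false

noncomputable section

namespace Crest.Agent.R143.TentDx359

open Set Metric
open Crest.Agent.R158 Crest.Agent.R158.Sp896 Crest.Agent.R158.Tj656 Crest.Agent.R158.Tg331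
open Crest.Agent.R143.Tentx359 Crest.Agent.R143.TentAx951 Crest.Agent.R143.TentBx951
open Crest.Agent.R143.Tenx416

section fine

variable {F : Set V} {L : ℕ} {v : ℕ → V} {m : ℕ → ℕ} {c : V} {M : ℤ} {U : ℕ → ℕ → V} {σ : ℝ}

theorem aa_other (σ : ℝ) (c : V) {j k : ZMod 4} (h : j ≠ k) (z : ℂ) :
    aa σ c k z ≤ |bb σ c j z| ∨ aa σ c k z = -aa σ c j z := by
  unfold aa bb dir rot
  rcases k_cases k with ⟨e, h1⟩ | ⟨e, h1⟩ | ⟨e, h1⟩ | ⟨e, h1⟩ <;>
    rcases k_cases j with ⟨e', h2⟩ | ⟨e', h2⟩ | ⟨e', h2⟩ | ⟨e', h2⟩ <;>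
    first
    | exact absurd (e'.trans e.symm) h
    | (rw [h1, h2]; right; simp; done)
    | (rw [h1, h2]; left; simp
       linarith [le_abs_self (z.re - (cen σ c).re), le_abs_self ((cen σ c).re - z.re),
        neg_le_abs (z.re - (cen σ c).re), neg_le_abs ((cen σ c).re - z.re),
        le_abs_self (z.im - (cen σ c).im), le_abs_self ((cen σ c).im - z.im),
        neg_le_abs (z.im - (cen σ c).im), neg_le_abs ((cen σ c).im - z.im)])

theorem al_ray (c : V) {j k : ZMod 4} (h : j ≠ k) {r : ℤ} (hr : 0 ≤ r) :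
    al c k.val (c.1 + r * (dir j.val).1, c.2 + r * (dir j.val).2) ≤ 0 := by
  unfold al dir
  rcases k_cases k with ⟨e, h1⟩ | ⟨e, h1⟩ | ⟨e, h1⟩ | ⟨e, h1⟩ <;>
    rcases k_cases j with ⟨e', h2⟩ | ⟨e', h2⟩ | ⟨e', h2⟩ | ⟨e', h2⟩ <;>
    first
    | exact absurd (e'.trans e.symm) h
    | (rw [h1, h2]; simp; done)
    | (rw [h1, h2]; simp; omega)

/-- a point in a cell of the box is near the centre -/
theorem box_norm (hσ : 0 < σ) {q : V} (hq : q ∈ Bx c M) {z : ℂ} (hz : z ∈ sq σ q) :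
    ‖z - cen σ c‖ ≤ σ * (2 * M + 1) := by
  have h1 := (mem_sq c 0).1 hz
  have h2 := le_add σ c 0 z
  rw [← ab_al_be c (val_lt 0) q, ab_bx c (val_lt 0)] at hq
  have h3 : |((al c (0 : ZMod 4).val q : ℤ) : ℝ)| ≤ M := by exact_mod_cast hq.1
  have h4 : |((be c (0 : ZMod 4).val q : ℤ) : ℝ)| ≤ M := by exact_mod_cast hq.2
  have h5 : |aa σ c 0 z| ≤ σ * M + σ / 2 := by
    have : |aa σ c 0 z| ≤ |aa σ c 0 z - σ * al c (0 : ZMod 4).val q| +
        |σ * al c (0 : ZMod 4).val q| := by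
      have := abs_add_le (aa σ c 0 z - σ * al c (0 : ZMod 4).val q) (σ * al c (0 : ZMod 4).val q)
      simpa using this
    rw [abs_mul, abs_of_pos hσ] at this
    nlinarith [h1.1]
  have h6 : |bb σ c 0 z| ≤ σ * M + σ / 2 := by
    have : |bb σ c 0 z| ≤ |bb σ c 0 z - σ * be c (0 : ZMod 4).val q| +
        |σ * be c (0 : ZMod 4).val q| := by
      have := abs_add_le (bb σ c 0 z - σ * be c (0 : ZMod 4).val q) (σ * be c (0 : ZMod 4).val q)
      simpa using this
    rw [abs_mul, abs_of_pos hσ] at this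
    nlinarith [h1.2]
  linarith

theorem box_norm' (hσ : 0 < σ) (hM : 0 ≤ M) {q : V} (hq : q ∈ Bx c M) {z : ℂ}
    (hz : z ∈ sq σ q) : ‖z - cen σ c‖ ≤ LL σ M / 4 := by
  have := box_norm hσ hq hz
  unfold LL
  have hM' : (0 : ℝ) ≤ M := by exact_mod_cast hM
  nlinarith

/-- the polygon is near the centre -/
theorem Pg_norm (H : Fine F L v m c M U) (hσ : 0 < σ) {z : ℂ} (hz : z ∈ Pg σ F) :
    ‖z - cen σ c‖ ≤ LL σ M / 4 := by
  obtain ⟨q, hq, hzq⟩ := mem_Pg.1 hz
  exact box_norm' hσ (M_nonneg H) ⟨(H.C.box q hq).1.le, (H.C.box q hq).2.le⟩ hzq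

/-- a tentacle cell is in the box or on the ray -/
theorem tent_cases (H : Fine F L v m c M U) {i : ℕ} (hi : i < 4) (j : ℕ) :
    U i (j + 1) ∈ Bx c M ∨ ∃ r : ℤ, M < r ∧
      U i (j + 1) = (c.1 + r * (dir i).1, c.2 + r * (dir i).2) := by
  obtain ⟨j0, h0, h1, h2⟩ := H.C.ray i hi
  rcases Nat.lt_or_ge j0 (j + 1) with h | h
  · right
    refine ⟨M + ((j + 1 - j0 : ℕ) : ℤ), by omega, ?_⟩
    have h3 := h2 (j + 1 - j0)
    rw [show j0 + (j + 1 - j0) = j + 1 by omega] at h3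
    exact h3
  · exact Or.inl (h1 (j + 1) h)

/-- other tentacles are not in the direction `k` -/
theorem tent_aa (H : Fine F L v m c M U) (hσ : 0 < σ) {j k : ZMod 4} (hjk : j ≠ k) {y : ℂ}
    (hy : y ∈ BB σ U c M j) : ‖y - cen σ c‖ ≤ LL σ M / 4 ∨
      aa σ c k y ≤ σ / 2 + 1 / 16 * ‖y - cen σ c‖ := by
  have hM := M_nonneg H
  rcases hy with ⟨i, hi⟩ | hy
  · rcases tent_cases H (val_lt j) i with h | ⟨r, hr, he⟩
    · exact Or.inl (box_norm' hσ hM h hi)
    · right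
      rw [he] at hi
      have h1 := ((mem_sq c k).1 hi).1
      have h2 := al_ray c hjk (r := r) (by omega)
      have h3 : ((al c k.val (c.1 + r * (dir j.val).1, c.2 + r * (dir j.val).2) : ℤ) : ℝ) ≤ 0 := by
        exact_mod_cast h2
      rw [abs_le] at h1
      have := norm_nonneg (y - cen σ c)
      nlinarith [h1.2]
  · right
    have h1 := (mem_cone hσ hM j).1 hy
    have h2 := mul_le_mul_of_nonneg_right (ratio hσ hM) (norm_nonneg (y - cen σ c))
    rcases aa_other σ c hjk y with h3 | h3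
    · linarith [h1.2.2]
    · have := norm_nonneg (y - cen σ c)
      linarith [h1.2.1]

theorem tt_cone (H : Fine F L v m c M U) (hσ : 0 < σ) {j k : ZMod 4} (hjk : j ≠ k) {y w : ℂ}
    (hy : y ∈ BB σ U c M j) (hw : w ∈ cone σ c M k) : σ / 4 ≤ dist y w := by
  by_contra hlt
  push Not at hlt
  have hM := M_nonneg H
  have hL := LL_ge hσ hM
  have h1 := cone_aa hσ hM k hw
  have h2 := hw.1
  have h3 := aa_lip σ c k y w
  rw [abs_le] at h3
  have h4 : ‖y - cen σ c‖ ≤ ‖w - cen σ c‖ + dist y w := by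
    rw [dist_eq_norm]
    have := norm_add_le (w - cen σ c) (y - w)
    simpa using this
  have h5 : ‖w - cen σ c‖ ≤ ‖y - cen σ c‖ + dist y w := by
    rw [dist_comm, dist_eq_norm]
    have := norm_add_le (y - cen σ c) (w - y)
    simpa using this
  rcases tent_aa H hσ hjk hy with h | h
  · linarith
  · linarith [h3.1]

/-- **field `tt`** -/
theorem tt (H : Fine F L v m c M U) (hσ : 0 < σ) {j k : ZMod 4} (hjk : j ≠ k) {y w : ℂ}
    (hy : y ∈ BB σ U c M j) (hw : w ∈ BB σ U c M k) : σ / 4 ≤ dist y w := by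
  rcases hw with hw | hw
  · rcases hy with hy | hy
    · obtain ⟨a, ha⟩ := hy
      obtain ⟨b, hb⟩ := hw
      by_contra hlt
      push Not at hlt
      obtain ⟨e1, e2⟩ := near_cells ha hb (by linarith)
      obtain ⟨e, -⟩ := H.cl _ (val_lt j) a _ (val_lt k) b e1 e2
      exact hjk (ZMod.val_injective 4 e)
    · rw [dist_comm]
      exact tt_cone H hσ hjk.symm (Or.inl hw) hy
  · exact tt_cone H hσ hjk hy hw

/-- complement cells 8-adjacent to a tentacle -/
theorem diag_cls (H : Fine F L v m c M U) {i : ℕ} (hi : i < 4) (j : ℕ) {q : V}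
    (hq : q ∉ body F U 4) (h1 : |(U i (j + 1)).1 - q.1| ≤ 1) (h2 : |(U i (j + 1)).2 - q.2| ≤ 1) :
    q ∈ cls F v m U i ∨ q ∈ cls F v m U (prv i) := by
  have hu : U i (j + 1) ∈ body F U 4 := Or.inr ⟨i, hi, j, rfl⟩
  by_cases hadj : Adj (U i (j + 1)) q
  · exact side_cls H hi j hadj hq
  have hne : U i (j + 1) ≠ q := fun h => hq (h ▸ hu)
  rw [abs_le] at h1 h2
  -- diagonal
  have hd : ((U i (j + 1)).1 = q.1 + 1 ∨ (U i (j + 1)).1 = q.1 - 1) ∧
      ((U i (j + 1)).2 = q.2 + 1 ∨ (U i (j + 1)).2 = q.2 - 1) := by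
    have hne' : ¬ ((U i (j + 1)).1 = q.1 ∧ (U i (j + 1)).2 = q.2) := fun h => hne (Prod.ext h.1 h.2)
    unfold Adj at hadj
    omega
  have key : ∀ p : V, Adj (U i (j + 1)) p → Adj p q →
      (q ∈ cls F v m U i ∨ q ∈ cls F v m U (prv i)) ∨ p ∈ F := by
    intro p hp hpq
    by_cases hpb : p ∈ body F U 4
    · rcases hpb with h | ⟨i', hi', j', rfl⟩
      · exact Or.inr h
      · left
        obtain ⟨e, -⟩ := H.cl i hi j i' hi' j' (by unfold Adj at hp; rw [abs_le]; omega)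
          (by unfold Adj at hp; rw [abs_le]; omega)
        subst e
        exact side_cls H hi j' hpq hq
    · left
      rcases side_cls H hi j hp hpb with h | h
      · exact Or.inl (cls_step H h hpq hq)
      · exact Or.inr (cls_step H h hpq hq)
  rcases key (q.1, (U i (j + 1)).2) (by unfold Adj; simp only [and_true]; omega)
    (by unfold Adj; simp only [true_and]; omega) with h | hF1
  · exact h
  rcases key ((U i (j + 1)).1, q.2) (by unfold Adj; simp only [true_and]; omega)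
    (by unfold Adj; simp only [and_true]; omega) with h | hF2
  · exact h
  exfalso
  obtain ⟨e0, d1⟩ := H.clF i hi j _ hF1 (by rw [abs_le]; simp only; omega)
    (by simp)
  obtain ⟨-, d2⟩ := H.clF i hi j _ hF2 (by simp)
    (by rw [abs_le]; simp only; omega)
  subst e0
  have h0 : Adj (U i 0) (U i 1) := H.C.step i hi 0
  simp only [zero_add, sub_self, zero_mul, add_zero] at d1 d2 hd
  generalize U i 0 = a at *
  generalize U i 1 = b at *
  unfold Adj at h0
  have hx : a.1 - b.1 = 0 ∨ a.2 - b.2 = 0 := by omega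
  rcases hx with hx | hx
  · rw [hx, mul_zero] at d1
    exact absurd d1 (by norm_num)
  · rw [hx, mul_zero] at d2
    exact absurd d2 (by norm_num)

theorem cls_dir {i k : ZMod 4} {q : V} (h1 : 0 < al c i.val q) (h2 : 0 < be c i.val q)
    (h3 : 0 < al c k.val q) : i = k - 1 ∨ i = k := by
  unfold al be dir rot at *
  rcases k_cases k with ⟨e, g1⟩ | ⟨e, g1⟩ | ⟨e, g1⟩ | ⟨e, g1⟩ <;>
    rcases k_cases i with ⟨e', g2⟩ | ⟨e', g2⟩ | ⟨e', g2⟩ | ⟨e', g2⟩ <;>
    rw [g1] at h3 <;> rw [g2] at h1 h2 <;> subst e <;> subst e' <;>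
    first
    | (right; rfl)
    | (left; rfl)
    | (exfalso; simp at h1 h2 h3; omega)

/-- **field `tr`** -/
theorem tr (H : Fine F L v m c M U) (hσ : 0 < σ) {k : ZMod 4} {y : ℂ} (hy : y ∈ BB σ U c M k)
    {w : ℂ} (hd : dist w y < σ / 4) : w ∈ BB σ U c M k ∨ w ∈ Pg σ F ∨
      w ∈ RR σ F v m c M U (k - 1) ∨ w ∈ RR σ F v m c M U k := by
  have hM := M_nonneg H
  rcases tri H hσ w with h | ⟨k', h⟩ | ⟨i, h⟩
  · exact Or.inr (Or.inl h)
  · by_cases e : k' = k
    · rw [e] at h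
      exact Or.inl h
    · exact absurd hd (not_lt.2 (tt H hσ e h hy))
  · have hq := (mem_om hσ).1 h.1 _ (mem_cellOf hσ w)
    have key : i = k - 1 ∨ i = k := by
      rcases hy with ⟨j, hj⟩ | hy
      · obtain ⟨e1, e2⟩ := near_cells hj (mem_cellOf hσ w) (by rw [dist_comm]; linarith)
        rcases diag_cls H (val_lt k) j hq.1 e1 e2 with h' | h'
        · exact Or.inr (ZMod.val_injective 4 (disj' H (val_lt i) (val_lt k) hq h'))
        · refine Or.inl (ZMod.val_injective 4 ?_)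
          rw [prv_val]
          exact disj' H (val_lt i) (prv_lt _) hq h'
      · have hL := LL_ge hσ hM
        have h1 := cone_aa hσ hM k hy
        have h2 := hy.1
        have h3 := aa_lip σ c k w y
        rw [abs_le] at h3
        have h4 : ‖y - cen σ c‖ ≤ ‖w - cen σ c‖ + dist w y := by
          rw [dist_comm, dist_eq_norm]
          have := norm_add_le (w - cen σ c) (y - w)
          simpa using this
        have hc := ((mem_sq c k).1 (mem_cellOf hσ w)).1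
        rw [abs_le] at hc
        have hal : (0 : ℝ) < al c k.val (cellOf σ w) := by
          have : 0 < σ * (al c k.val (cellOf σ w) : ℝ) := by linarith [h3.1, hc.2]
          exact (mul_pos_iff_of_pos_left hσ).1 this
        have hal' : 0 < al c k.val (cellOf σ w) := by exact_mod_cast hal
        have hbx : cellOf σ w ∉ Bx c M := by
          intro hin
          have := box_norm' hσ hM hin (mem_cellOf hσ w)
          linarith
        rw [quad_iff H (val_lt i) hbx] at hq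
        exact cls_dir hq.1 hq.2 hal'
    rcases key with e | e
    · rw [e] at h
      exact Or.inr (Or.inr (Or.inl h))
    · rw [e] at h
      exact Or.inr (Or.inr (Or.inr h))

end fine

/-! ### the mouths -/

/-- the segment between two adjacent cells crosses the common side -/
theorem seg_cross {s : ℝ} {p q : V} (h : Adj p q) {w x : ℂ} (hw : w ∈ sq s q) (hx : x ∈ sq s p) :
    ∃ z ∈ segment ℝ w x, z ∈ sq s p ∧ z ∈ sq s q := by
  obtain ⟨a1, a2, a3, a4⟩ := hw
  obtain ⟨b1, b2, b3, b4⟩ := hx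
  have conv : ∀ {a b r t : ℝ}, 0 ≤ t → t ≤ 1 → r ≤ a → r ≤ b → r ≤ a + t * (b - a) := by
    intro a b r t h0 h1 h2 h3
    nlinarith
  have conv' : ∀ {a b r t : ℝ}, 0 ≤ t → t ≤ 1 → a ≤ r → b ≤ r → a + t * (b - a) ≤ r := by
    intro a b r t h0 h1 h2 h3
    nlinarith
  -- crossing parameter of a linear function
  have ivt : ∀ a b r : ℝ, (a ≤ r ∧ r ≤ b) ∨ (b ≤ r ∧ r ≤ a) →
      ∃ t : ℝ, 0 ≤ t ∧ t ≤ 1 ∧ a + t * (b - a) = r := by
    intro a b r hr
    have hc : ContinuousOn (fun t : ℝ => a + t * (b - a)) (Icc 0 1) := by fun_prop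
    rcases hr with hr | hr
    · have := intermediate_value_Icc (zero_le_one' ℝ) hc (by simpa using hr : r ∈ Icc _ _)
      obtain ⟨t, ht, he⟩ := this
      exact ⟨t, ht.1, ht.2, he⟩
    · have := intermediate_value_Icc' (zero_le_one' ℝ) hc (by simpa using hr : r ∈ Icc _ _)
      obtain ⟨t, ht, he⟩ := this
      exact ⟨t, ht.1, ht.2, he⟩
  have seg : ∀ t : ℝ, 0 ≤ t → t ≤ 1 → w + (t : ℂ) * (x - w) ∈ segment ℝ w x := by
    intro t h0 h1
    rw [segment_eq_image']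
    exact ⟨t, ⟨h0, h1⟩, by simp [Complex.real_smul]⟩
  unfold Adj at h
  rcases h with ⟨e1, e2⟩ | ⟨e1, e2⟩ | ⟨e1, e2⟩ | ⟨e1, e2⟩ <;> rw [e1] at a1 a2 <;>
    rw [e2] at a3 a4 <;> push_cast at a1 a2 a3 a4
  · obtain ⟨t, h0, h1, he⟩ := ivt w.re x.re (s * (p.1 + 1)) (Or.inr ⟨b2, a1⟩)
    refine ⟨_, seg t h0 h1, ?_, ?_⟩
    · refine ⟨?_, ?_, ?_, ?_⟩ <;> simp only [lin_re, lin_im]
      · exact conv h0 h1 (by linarith) b1
      · exact he.le
      · exact conv h0 h1 a3 b3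
      · exact conv' h0 h1 a4 b4
    · refine ⟨?_, ?_, ?_, ?_⟩ <;> simp only [lin_re, lin_im, e1, e2] <;> push_cast
      · exact he.ge
      · exact conv' h0 h1 a2 (by linarith)
      · exact conv h0 h1 a3 b3
      · exact conv' h0 h1 a4 b4
  · obtain ⟨t, h0, h1, he⟩ := ivt w.re x.re (s * p.1) (Or.inl ⟨by linarith, b1⟩)
    refine ⟨_, seg t h0 h1, ?_, ?_⟩
    · refine ⟨?_, ?_, ?_, ?_⟩ <;> simp only [lin_re, lin_im]
      · exact he.ge
      · exact conv' h0 h1 (by linarith) b2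
      · exact conv h0 h1 a3 b3
      · exact conv' h0 h1 a4 b4
    · refine ⟨?_, ?_, ?_, ?_⟩ <;> simp only [lin_re, lin_im, e1, e2] <;> push_cast
      · exact conv h0 h1 a1 (by linarith)
      · rw [he]; linarith
      · exact conv h0 h1 a3 b3
      · exact conv' h0 h1 a4 b4
  · obtain ⟨t, h0, h1, he⟩ := ivt w.im x.im (s * (p.2 + 1)) (Or.inr ⟨b4, a3⟩)
    refine ⟨_, seg t h0 h1, ?_, ?_⟩
    · refine ⟨?_, ?_, ?_, ?_⟩ <;> simp only [lin_re, lin_im]
      · exact conv h0 h1 a1 b1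
      · exact conv' h0 h1 a2 b2
      · exact conv h0 h1 (by linarith) b3
      · exact he.le
    · refine ⟨?_, ?_, ?_, ?_⟩ <;> simp only [lin_re, lin_im, e1, e2] <;> push_cast
      · exact conv h0 h1 a1 b1
      · exact conv' h0 h1 a2 b2
      · exact he.ge
      · exact conv' h0 h1 a4 (by linarith)
  · obtain ⟨t, h0, h1, he⟩ := ivt w.im x.im (s * p.2) (Or.inl ⟨by linarith, b3⟩)
    refine ⟨_, seg t h0 h1, ?_, ?_⟩
    · refine ⟨?_, ?_, ?_, ?_⟩ <;> simp only [lin_re, lin_im]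
      · exact conv h0 h1 a1 b1
      · exact conv' h0 h1 a2 b2
      · exact he.ge
      · exact conv' h0 h1 (by linarith) b4
    · refine ⟨?_, ?_, ?_, ?_⟩ <;> simp only [lin_re, lin_im, e1, e2] <;> push_cast
      · exact conv h0 h1 a1 b1
      · exact conv' h0 h1 a2 b2
      · exact conv h0 h1 a3 (by linarith)
      · rw [he]; linarith

section coarse

variable {F : Set V} {L : ℕ} {v : ℕ → V} {m : ℕ → ℕ} {c : V} {M : ℤ} {U : ℕ → ℕ → V} {s : ℝ}

/-- cells of the polygon next to the first cell of the tentacle are in the coarse inner cell, the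
first cell of the tentacle is in the coarse outer cell -/
theorem mouth_cells (hv : Cyc F L v)
    (H : Fine (ref 40 F) (81 * L) (vref 40 v) (mref 40 m) c M U) {i : ℕ} (hi : i < 4) {j : ℕ}
    {f : V} (hf : f ∈ ref 40 F) (h1 : |(U i (j + 1)).1 - f.1| ≤ 1)
    (h2 : |(U i (j + 1)).2 - f.2| ≤ 1) :
    Blk 40 (lcv v (m i)) f ∧ Blk 40 (rcv v (m i)) (U i (j + 1)) := by
  obtain ⟨e0, hdot⟩ := H.clF i hi j f hf h1 h2
  subst e0
  have g0 := H.C.start0 i hi
  have g1 := H.C.start1 i hi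
  have hA := hv.step (m i)
  obtain ⟨c1, c2⟩ := cells_vref (h := 40) (m i) 40 (by norm_num) hA
  have em : mref 40 m i = (2 * 40 + 1) * m i + 40 := rfl
  rw [em, c1] at g0
  rw [em, c2] at g1
  have hadj : Adj (lcv v (m i)) (rcv v (m i)) := adj_lc_rc hA
  rw [zero_add] at h1 h2 ⊢
  rw [g1] at h1 h2 hdot ⊢
  rw [g0] at hdot
  generalize lcv v (m i) = p at *
  generalize rcv v (m i) = q at *
  obtain ⟨p1, p2⟩ := p
  obtain ⟨q1, q2⟩ := q
  obtain ⟨f1, f2⟩ := f
  unfold Adj at hadj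
  unfold Blk cenc at *
  simp only at *
  rw [abs_le] at h1 h2
  push_cast at *
  rcases hadj with ⟨a1, a2⟩ | ⟨a1, a2⟩ | ⟨a1, a2⟩ | ⟨a1, a2⟩ <;> subst a1 <;> subst a2 <;>
    simp only [sub_self, mul_zero, zero_mul, add_zero] at * <;> ring_nf at * <;> omega

/-- **field `mth`** -/
theorem mth (hs : 0 < s) (hv : Cyc F L v)
    (H : Fine (ref 40 F) (81 * L) (vref 40 v) (mref 40 m) c M U) {k : ZMod 4} {w x : ℂ}
    (hw : w ∈ BB (s / 81) U c M k) (hx : x ∈ Pg s F) (hd : dist w x < s / 81 / 4) :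
    ∃ z ∈ ed s (v (m k.val)) (v (m k.val + 1)), dist z w < s / 81 / 4 ∧ dist z x < s / 81 / 4 := by
  have hσ : 0 < s / 81 := by positivity
  have hM := M_nonneg H
  have e81 : s / (2 * ((40 : ℕ) : ℝ) + 1) = s / 81 := by norm_num
  have hPg : Pg (s / 81) (ref 40 F) = Pg s F := by
    rw [← e81]
    exact Pg_ref 40 F hs
  rw [← hPg] at hx
  rcases hw with ⟨j, hj⟩ | hw
  · obtain ⟨f, hf, hxf⟩ := mem_Pg.1 hx
    obtain ⟨h1, h2⟩ := near_cells hj hxf (by linarith)
    obtain ⟨b1, b2⟩ := mouth_cells hv H (val_lt k) hf h1 h2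
    have hx' : x ∈ sq s (lcv v (m k.val)) := by
      refine sq_sub b1 hs ?_
      rw [e81]
      exact hxf
    have hw' : w ∈ sq s (rcv v (m k.val)) := by
      refine sq_sub b2 hs ?_
      rw [e81]
      exact hj
    have hA := hv.step (m k.val)
    obtain ⟨z, hz, hz1, hz2⟩ := seg_cross (adj_lc_rc hA) hw' hx'
    refine ⟨z, (mem_ed_iff hs hA).2 ⟨hz1, hz2⟩, ?_, ?_⟩
    · rw [dist_comm]
      have := dist_add_dist_of_mem_segment hz
      have := dist_nonneg (x := z) (y := x)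
      linarith
    · have := dist_add_dist_of_mem_segment hz
      have := dist_nonneg (x := w) (y := z)
      linarith
  · exfalso
    have h1 := Pg_norm H hσ hx
    have h2 := hw.1
    have h3 := LL_ge hσ hM
    have h4 : ‖w - cen (s / 81) c‖ ≤ ‖x - cen (s / 81) c‖ + dist w x := by
      rw [dist_eq_norm]
      have := norm_add_le (x - cen (s / 81) c) (w - x)
      simpa using this
    linarith

end coarse

/-- **field `tc`** -/
theorem tc {F : Set V} {v : ℕ → V} {m : ℕ → ℕ} {c : V} {M : ℤ} {U : ℕ → ℕ → V} {σ : ℝ}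
    (k : ZMod 4) : (CC σ F v m c M U).cone σ k ⊆ BB σ U c M k :=
  fun _ h => Or.inr ⟨h.1.le, h.2⟩

end Crest.Agent.R143.TentDx359
end
end

-- ▼ part R143/Cells_951
section

/-!
# Row 143 (S0194), block D, TENT B, part 5 (helper951): the Prop `CELLS` of Cd0_806
-/

set_option autoImplicit false

namespace Crest.Agent.R143.TentBx951

open Crest.Agent.R158 Crest.Agent.R158.Sp896 Crest.Agent.R143.Tentx359 Crest.Agent.R143.TentAx951
open Crest.Agent.R143

theorem val_prv (k : ZMod 4) : (k - 1).val = prv k.val := by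
  fin_cases k <;> rfl

theorem val_eq_three {i : ZMod 4} : i.val = 3 ↔ i = 3 := by
  constructor
  · intro h
    exact ZMod.val_injective 4 h
  · rintro rfl
    rfl

theorem cellDom {F : Set V} {L : ℕ} {v : ℕ → V} {m : ℕ → ℕ} {c : V} {M : ℤ} {U : ℕ → ℕ → V}
    (H : Fine F L v m c M U) : Cdx806.CellDom F L v m c M U :=
    { cfg := H.C
      tt := fun i hi i' hi' j j' hn => (H.cl i hi j i' hi' j' hn.1 hn.2).1
      tF := fun i hi j f hf hn => H.clF i hi j f hf hn.1 hn.2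
      cov := fun q hq => by
        obtain ⟨i, hi, h1⟩ := cover H hq
        refine ⟨((i : ℕ) : ZMod 4), ?_⟩
        have e : ((i : ℕ) : ZMod 4).val = i := ZMod.val_cast_of_lt hi
        show q ∉ _ ∧ _
        rw [e]
        exact h1
      sep := fun i j q hq q' hq' hn => by
        by_contra hij
        have hne : i.val ≠ j.val := fun e => hij (ZMod.val_injective 4 e)
        have := not_adj8 H (ZMod.val_lt i) (ZMod.val_lt j) hne hq hq'
        obtain ⟨h1, h2⟩ := hn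
        omega
      arc := fun i x h1 h2 => by
        refine arc_cls H (ZMod.val_lt i) h1 ?_
        unfold Tenx416.nx at h2
        by_cases hi : i = 3
        · rw [if_pos hi] at h2
          rw [if_pos (val_eq_three.2 hi)]
          omega
        · rw [if_neg hi] at h2
          rw [if_neg (fun h => hi (val_eq_three.1 h))]
          exact h2
      quad := fun i a b ha hb hab => by
        have h1 := quad H (ZMod.val_lt i) ha hb (lt_max_iff.1 hab)
        have e : ab c i.val a b = fp c i.val a b := by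
          unfold ab fp rot
          ext
          · simp only; ring
          · simp only
        rw [e] at h1
        exact h1
      tside := fun k j q hq hqB => by
        rcases side_cls H (ZMod.val_lt k) j hq hqB with h1 | h1
        · exact Or.inl h1
        · refine Or.inr ?_
          show q ∉ _ ∧ _
          rw [val_prv]
          exact h1 }

/-- **CELLS** -/
theorem cells : Cdx806.CELLS := by
  intro h hh F L v m c M U C
  exact cellDom (fine_of C hh)

end Crest.Agent.R143.TentBx951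
end

-- ▼ part R143/TentN_951
section

/-!
# Row 143 (S0194), block D, TENT N (helper951): fields `nb`, `side`, `near` of `Ten` (Ten_416)

Coarse polygon `F0, N0, v0, m0` (mesh `(2 h + 1) σ`), fine data `CellDom (ref h F0) ..` (mesh `σ`).
`C : Cfg 4` is only used through
* `hR  : C.R i ⊆ Om σ (cl i)`
* `hR' : dist z C.c < C.L / 2 → z ∈ Om σ (cl i) → z ∈ C.R i`
* `hbd : Pg ⊆ closedBall C.c (C.L / 4)`, `hL : 16 σ ≤ C.L`
-/

set_option autoImplicit false

noncomputable section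

namespace Crest.Agent.R143.TentNx951

open Set
open Crest.Agent.R158 Crest.Agent.R158.Sp896 Crest.Agent.R143.Tentx359 Crest.Agent.R143.TentAx951
open Crest.Agent.R143.TentBx951 Crest.Agent.R143.TentMx951 Crest.Agent.R143.Cdx806
open Crest.Agent.R158.Tj656 (cen Om mem_om)
open Crest.Agent.R143.Tenx416 (nx OnS Pg)

section cd

variable {F : Set V} {L : ℕ} {v : ℕ → V} {m : ℕ → ℕ} {c : V} {M : ℤ} {U : ℕ → ℕ → V}

theorem n8_refl (q : V) : N8 q q := by unfold N8; simp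

theorem n8_symm {p q : V} (h : N8 p q) : N8 q p := by
  unfold N8 at *
  rw [abs_sub_comm q.1, abs_sub_comm q.2]
  exact h

theorem adj_n8 {p q : V} (h : Sp896.Adj p q) : N8 p q := by
  unfold N8 Sp896.Adj at *
  rw [abs_le, abs_le]
  omega

theorem cl_notMem {i : ZMod 4} {q : V} (h : q ∈ cl F v m U i) : q ∉ body F U 4 := h.1

/-- a boundary edge whose outer cell is in the class `i` belongs to the open side `i` -/
theorem dart_arc (D : CellDom F L v m c M U) {i : ZMod 4} {f g : V} (hf : f ∈ F)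
    (hg : g ∈ cl F v m U i) (hfg : Sp896.Adj f g) :
    ∃ y, m i.val < y ∧ y < nx L m i ∧ lcv v y = f ∧ rcv v y = g := by
  have C := D.cfg
  have hgF : g ∉ F := fun h => cl_notMem hg (Or.inl h)
  obtain ⟨p, q, hpq, h1, h2⟩ := exists_dart hfg
  obtain ⟨j, hj, e1, e2⟩ := C.cyc.all p q hpq (h1 ▸ hf) (h2 ▸ hgF)
  have hl : lcv v j = f := by unfold lcv; rw [e1, e2, h1]
  have hr : rcv v j = g := by unfold rcv; rw [e1, e2, h2]
  have hmark : ∀ k < 4, j ≠ m k := by
    rintro k hk rfl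
    refine cl_notMem hg ?_
    rw [← hr, ← C.start1 k hk]
    exact Or.inr ⟨k, hk, 0, rfl⟩
  have n0 := hmark 0 (by norm_num)
  have n1 := hmark 1 (by norm_num)
  have n2 := hmark 2 (by norm_num)
  have n3 := hmark 3 (by norm_num)
  have a1 := C.m01
  have a2 := C.m12
  have a3 := C.m23
  have a4 := C.m3L
  have key : ∀ (k : ZMod 4) (y : ℕ), (y = j ∨ y = j + L) → m k.val < y → y < nx L m k →
      ∃ y, m i.val < y ∧ y < nx L m i ∧ lcv v y = f ∧ rcv v y = g := by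
    intro k y hy h3 h4
    have hy1 : v y = v j ∧ v (y + 1) = v (j + 1) := by
      rcases hy with rfl | rfl
      · exact ⟨rfl, rfl⟩
      · refine ⟨C.cyc.per j, ?_⟩
        rw [show j + L + 1 = j + 1 + L by ring]
        exact C.cyc.per (j + 1)
    have hl' : lcv v y = f := by rw [← hl]; unfold lcv; rw [hy1.1, hy1.2]
    have hr' : rcv v y = g := by rw [← hr]; unfold rcv; rw [hy1.1, hy1.2]
    have hk := D.arc k y h3 h4
    rw [hr'] at hk
    have e := D.sep k i g hk g hg (n8_refl g)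
    subst e
    exact ⟨y, h3, h4, hl', hr'⟩
  rcases Nat.lt_or_ge j (m 0) with h | h
  · refine key 3 (j + L) (Or.inr rfl) ?_ ?_
    · show m 3 < j + L
      omega
    · show j + L < if (3 : ZMod 4) = 3 then m 0 + L else _
      rw [if_pos rfl]
      omega
  rcases Nat.lt_or_ge j (m 1) with h' | h'
  · refine key 0 j (Or.inl rfl) ?_ ?_
    · show m 0 < j
      omega
    · show j < if (0 : ZMod 4) = 3 then m 0 + L else m (0 + 1)
      rw [if_neg (by decide)]
      exact h'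
  rcases Nat.lt_or_ge j (m 2) with h'' | h''
  · refine key 1 j (Or.inl rfl) ?_ ?_
    · show m 1 < j
      omega
    · show j < if (1 : ZMod 4) = 3 then m 0 + L else m (1 + 1)
      rw [if_neg (by decide)]
      exact h''
  rcases Nat.lt_or_ge j (m 3) with h3 | h3
  · refine key 2 j (Or.inl rfl) ?_ ?_
    · show m 2 < j
      omega
    · show j < if (2 : ZMod 4) = 3 then m 0 + L else m (2 + 1)
      rw [if_neg (by decide)]
      exact h3
  · refine key 3 j (Or.inl rfl) ?_ ?_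
    · show m 3 < j
      omega
    · show j < if (3 : ZMod 4) = 3 then m 0 + L else _
      rw [if_pos rfl]
      omega

theorem free_cl (D : CellDom F L v m c M U) {i : ZMod 4} {p g : V} (hg : g ∈ cl F v m U i)
    (hp : p ∉ body F U 4) (h : N8 p g) : p ∈ cl F v m U i := by
  obtain ⟨j, hj⟩ := D.cov p hp
  have e := D.sep j i p hj g hg h
  subst e
  exact hj

/-- a point between -/
def btw (a b c : ℝ) : Prop := (a ≤ b ∧ b ≤ c) ∨ (c ≤ b ∧ b ≤ a)

theorem dist_btw {x p w : ℂ} (h1 : btw x.re p.re w.re) (h2 : btw x.im p.im w.im) :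
    dist p x ≤ dist w x := by
  rw [dist_eq_norm, dist_eq_norm, Complex.norm_def, Complex.norm_def]
  apply Real.sqrt_le_sqrt
  rw [Complex.normSq_apply, Complex.normSq_apply]
  simp only [Complex.sub_re, Complex.sub_im]
  unfold btw at h1 h2
  have k1 : (p.re - x.re) * (p.re - x.re) ≤ (w.re - x.re) * (w.re - x.re) := by
    rcases h1 with ⟨a, b⟩ | ⟨a, b⟩ <;> nlinarith
  have k2 : (p.im - x.im) * (p.im - x.im) ≤ (w.im - x.im) * (w.im - x.im) := by
    rcases h2 with ⟨a, b⟩ | ⟨a, b⟩ <;> nlinarith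
  linarith

theorem cross1 {σ a b : ℝ} (hσ : 0 < σ) {i j : ℤ} (hij : |i - j| ≤ 1) (h1 : σ * i ≤ a)
    (h2 : a ≤ σ * (i + 1)) (h3 : σ * j ≤ b) (h4 : b ≤ σ * (j + 1)) :
    ∃ y, btw a y b ∧ (σ * i ≤ y ∧ y ≤ σ * (i + 1)) ∧ (σ * j ≤ y ∧ y ≤ σ * (j + 1)) := by
  rw [abs_le] at hij
  rcases (by omega : j = i + 1 ∨ j = i - 1 ∨ j = i) with rfl | rfl | rfl
  · push_cast at h3 h4 ⊢
    refine ⟨σ * (i + 1), Or.inl ⟨h2, h3⟩, ⟨by nlinarith, le_rfl⟩, le_rfl, by nlinarith⟩
  · push_cast at h3 h4 ⊢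
    refine ⟨σ * i, Or.inr ⟨by linarith, h1⟩, ⟨le_rfl, by nlinarith⟩, by nlinarith, by linarith⟩
  · refine ⟨a, ?_, ⟨h1, h2⟩, h1, h2⟩
    rcases le_total a b with h | h
    · exact Or.inl ⟨le_rfl, h⟩
    · exact Or.inr ⟨h, le_rfl⟩

/-- between two points of neighbouring cells there is a point of all four cells of the block -/
theorem cross8 {σ : ℝ} (hσ : 0 < σ) {f g : V} (h : N8 f g) {x w : ℂ} (hx : x ∈ sq σ f)
    (hw : w ∈ sq σ g) : ∃ z, z ∈ sq σ f ∧ z ∈ sq σ g ∧ z ∈ sq σ (g.1, f.2) ∧ z ∈ sq σ (f.1, g.2) ∧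
      dist z x ≤ dist w x := by
  rw [mem_sq] at hx hw
  obtain ⟨y1, a1, a2, a3⟩ := cross1 hσ h.1 hx.1 hx.2.1 hw.1 hw.2.1
  obtain ⟨y2, b1, b2, b3⟩ := cross1 hσ h.2 hx.2.2.1 hx.2.2.2 hw.2.2.1 hw.2.2.2
  exact ⟨⟨y1, y2⟩, ⟨a2.1, a2.2, b2.1, b2.2⟩, ⟨a3.1, a3.2, b3.1, b3.2⟩, ⟨a3.1, a3.2, b2.1, b2.2⟩,
    ⟨a2.1, a2.2, b3.1, b3.2⟩, dist_btw a1 b1⟩

/-- **local form of `nb`** -/
theorem touch (D : CellDom F L v m c M U) {σ : ℝ} (hσ : 0 < σ) {i : ZMod 4} {f g : V} (hf : f ∈ F)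
    (hg : g ∈ cl F v m U i) (hfg : N8 f g) {x w : ℂ} (hx : x ∈ sq σ f) (hw : w ∈ sq σ g) :
    ∃ y, m i.val < y ∧ y < nx L m i ∧ ∃ z ∈ ed σ (v y) (v (y + 1)), dist z x ≤ dist w x := by
  have C := D.cfg
  have hgF : g ∉ F := fun h => cl_notMem hg (Or.inl h)
  obtain ⟨z, z1, z2, z3, z4, z5⟩ := cross8 hσ hfg hx hw
  have fin : ∀ f' g' : V, f' ∈ F → g' ∈ cl F v m U i → Sp896.Adj f' g' → z ∈ sq σ f' →
      z ∈ sq σ g' → ∃ y, m i.val < y ∧ y < nx L m i ∧ ∃ z ∈ ed σ (v y) (v (y + 1)),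
        dist z x ≤ dist w x := by
    intro f' g' k1 k2 k3 k4 k5
    obtain ⟨y, h1, h2, h3, h4⟩ := dart_arc D k1 k2 k3
    refine ⟨y, h1, h2, z, ?_, z5⟩
    rw [Tg331.mem_ed_iff hσ (C.cyc.step y)]
    unfold lcv at h3
    unfold rcv at h4
    rw [h3, h4]
    exact ⟨k4, k5⟩
  obtain ⟨f1, f2⟩ := f
  obtain ⟨g1, g2⟩ := g
  have hfg' := hfg
  unfold N8 at hfg'
  rw [abs_le, abs_le] at hfg'
  simp only at hfg' z3 z4
  by_cases e1 : f1 = g1
  · subst e1
    have hne : f2 ≠ g2 := fun h => hgF (h ▸ hf)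
    exact fin _ _ hf hg (by unfold Sp896.Adj; simp only [true_and]; omega) z1 z2
  by_cases e2 : f2 = g2
  · subst e2
    exact fin _ _ hf hg (by unfold Sp896.Adj; simp only [and_true]; omega) z1 z2
  have A1 : Sp896.Adj (f1, f2) (g1, f2) := by unfold Sp896.Adj; simp only [and_true]; omega
  have A2 : Sp896.Adj (f1, f2) (f1, g2) := by unfold Sp896.Adj; simp only [true_and]; omega
  have A3 : Sp896.Adj (g1, f2) (g1, g2) := by unfold Sp896.Adj; simp only [true_and]; omega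
  have A4 : Sp896.Adj (f1, g2) (g1, g2) := by unfold Sp896.Adj; simp only [and_true]; omega
  by_cases p1 : ((g1, f2) : V) ∈ F
  · exact fin _ _ p1 hg A3 z3 z2
  by_cases p2 : ((f1, g2) : V) ∈ F
  · exact fin _ _ p2 hg A4 z4 z2
  by_cases q1 : ((g1, f2) : V) ∈ body F U 4
  · by_cases q2 : ((f1, g2) : V) ∈ body F U 4
    · exfalso
      rcases q1 with q1 | ⟨k, hk, j, hj⟩
      · exact p1 q1
      rcases q2 with q2 | ⟨k', hk', j', hj'⟩
      · exact p2 q2
      have t1 := (D.tF k hk j _ hf (hj ▸ n8_symm (adj_n8 A1))).1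
      have t2 := (D.tF k' hk' j' _ hf (hj' ▸ n8_symm (adj_n8 A2))).1
      subst t1 t2
      have hn : N8 ((g1, f2) : V) (f1, g2) := by
        unfold N8
        rw [abs_le, abs_le]
        simp only
        omega
      rw [hj, hj'] at hn
      have e := D.tt k hk k' hk' 0 0 hn
      subst e
      rw [← hj', Prod.mk.injEq] at hj
      exact e1 hj.1.symm
    · exact fin _ _ hf (free_cl D hg q2 (adj_n8 A4)) A2 z1 z4
  · exact fin _ _ hf (free_cl D hg q1 (adj_n8 A3)) A1 z1 z3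

end cd

/-! ### the fields -/

section fields

variable {F0 : Set V} {N0 : ℕ} {v0 : ℕ → V} {m0 : ℕ → ℕ} {h : ℕ} {c : V} {M : ℤ} {U : ℕ → ℕ → V}
  {σ : ℝ}

/-- the coarse edge of a fine edge of the side `i` is on the closed side `i` -/
theorem coarse_on {i : ZMod 4} {y : ℕ} (h1 : mref h m0 i.val < y)
    (h2 : y < nx ((2 * h + 1) * N0) (mref h m0) i) : OnS N0 m0 i (y / (2 * h + 1)) := by
  have hk : 0 < 2 * h + 1 := by omega
  unfold OnS nx at *
  unfold mref at *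
  constructor
  · rw [Nat.le_div_iff_mul_le hk, mul_comm]
    omega
  · rw [Nat.div_le_iff_le_mul_add_pred hk]
    by_cases hi : i = 3
    · rw [if_pos hi] at h2 ⊢
      rw [mul_add]
      omega
    · rw [if_neg hi] at h2 ⊢
      omega

theorem pg_fine (hσ : 0 < σ) : Pg ((2 * h + 1) * σ) F0 = ⋃ f ∈ ref h F0, sq σ f := pg_ref hσ h F0

theorem cellOf_mem' (hσ : 0 < σ) (z : ℂ) : ∃ g : V, z ∈ sq σ g := ⟨_, mem_cellOf hσ z⟩

/-- **nb** -/
theorem nb (D : CellDom (ref h F0) ((2 * h + 1) * N0) (vref h v0) (mref h m0) c M U)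
    (hσ : 0 < σ) {κ : ℝ} (hκ : κ ≤ σ) {i : ZMod 4} {w : ℂ}
    (hw : w ∈ Om σ (cl (ref h F0) (vref h v0) (mref h m0) U i)) {x : ℂ}
    (hx : x ∈ Pg ((2 * h + 1) * σ) F0) (hd : dist w x < κ) :
    ∃ k, OnS N0 m0 i k ∧ ∃ z ∈ ed ((2 * h + 1) * σ) (v0 k) (v0 (k + 1)), dist z x < κ := by
  rw [pg_fine hσ, mem_iUnion₂] at hx
  obtain ⟨f, hf, hxf⟩ := hx
  obtain ⟨g, hg⟩ := cellOf_mem' hσ w
  have hgc := (mem_om hσ).1 hw g hg
  have hn := near8 hσ hg hxf (lt_of_lt_of_le hd hκ)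
  obtain ⟨y, h1, h2, z, hz, hdz⟩ := touch D hσ hf hgc (n8_symm hn) hxf hg
  refine ⟨y / (2 * h + 1), coarse_on h1 h2, z, ?_, lt_of_le_of_lt hdz hd⟩
  have e : (2 * h + 1) * (y / (2 * h + 1)) + y % (2 * h + 1) = y := Nat.div_add_mod _ _
  refine ed_fine (v := v0) (h := h) (σ := σ) (y / (2 * h + 1)) (y % (2 * h + 1))
    (Nat.lt_succ_iff.1 (Nat.mod_lt _ (by omega))) ?_
  rw [e]
  exact hz

/-- fine edges of an open coarse edge of the side `i` -/
theorem fine_on {i : ZMod 4} {k r : ℕ} (hr : r ≤ 2 * h) (h1 : m0 i.val < k) (h2 : k < nx N0 m0 i) :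
    mref h m0 i.val < (2 * h + 1) * k + r ∧
      (2 * h + 1) * k + r < nx ((2 * h + 1) * N0) (mref h m0) i := by
  unfold nx at *
  unfold mref at *
  have e1 : (2 * h + 1) * (m0 i.val + 1) ≤ (2 * h + 1) * k := Nat.mul_le_mul_left _ h1
  rw [mul_add] at e1
  constructor
  · omega
  · by_cases hi : i = 3
    · rw [if_pos hi] at h2 ⊢
      have e2 : (2 * h + 1) * (k + 1) ≤ (2 * h + 1) * (m0 0 + N0) := Nat.mul_le_mul_left _ h2
      rw [mul_add, mul_add] at e2
      omega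
    · rw [if_neg hi] at h2 ⊢
      have e2 : (2 * h + 1) * (k + 1) ≤ (2 * h + 1) * (m0 (i.val + 1)) := Nat.mul_le_mul_left _ h2
      rw [mul_add] at e2
      omega

/-- the middle of the coarse marked edge is in the first cell of the tentacle -/
theorem mid_mem (D : CellDom (ref h F0) ((2 * h + 1) * N0) (vref h v0) (mref h m0) c M U)
    (hσ : 0 < σ) {k : ℕ} (hk : k < 4) :
    (⟨(2 * h + 1) * σ * (((v0 (m0 k)).1 + (v0 (m0 k + 1)).1) / 2),
      (2 * h + 1) * σ * (((v0 (m0 k)).2 + (v0 (m0 k + 1)).2) / 2)⟩ : ℂ) ∈ sq σ (U k 1) := by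
  rw [D.cfg.start1 k hk]
  have hz : (⟨(2 * h + 1) * σ * (((v0 (m0 k)).1 + (v0 (m0 k + 1)).1) / 2),
      (2 * h + 1) * σ * (((v0 (m0 k)).2 + (v0 (m0 k + 1)).2) / 2)⟩ : ℂ) ∈
      ed σ (vref h v0 (mref h m0 k)) (vref h v0 (mref h m0 k + 1)) := by
    unfold mref
    rw [mem_ed, show (2 * h + 1) * m0 k + h + 1 = (2 * h + 1) * m0 k + (h + 1) by ring,
      vref_at v0 (m0 k) h (by omega), vref_at v0 (m0 k) (h + 1) (by omega)]
    refine ⟨1 / 2, by norm_num, by norm_num, ?_, ?_⟩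
    · simp only; push_cast; ring
    · simp only; push_cast; ring
  exact ed_sub_rc hσ (D.cfg.cyc.step _) hz

/-- a point of a coarse edge which is not marked is far from the first cells of the tentacles -/
theorem far_mouth (D : CellDom (ref h F0) ((2 * h + 1) * N0) (vref h v0) (mref h m0) c M U)
    (hc : Cyc F0 N0 v0) (hh : 2 ≤ h) (hσ : 0 < σ) {k a : ℕ} (hk : k < 4)
    (hne : a % N0 ≠ m0 k % N0) {z w : ℂ}
    (hz : z ∈ ed ((2 * h + 1) * σ) (v0 a) (v0 (a + 1))) (hw : w ∈ sq σ (U k 1))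
    (hd : dist w z < σ) : False := by
  have hh' : (2 : ℝ) ≤ h := by exact_mod_cast hh
  have hs : 0 < (2 * h + 1) * σ := by positivity
  have hN : 0 < N0 := lt_of_lt_of_le (by norm_num) hc.four_le
  have hm := mid_mem D hσ hk
  set p : ℂ := ⟨(2 * h + 1) * σ * (((v0 (m0 k)).1 + (v0 (m0 k + 1)).1) / 2),
      (2 * h + 1) * σ * (((v0 (m0 k)).2 + (v0 (m0 k + 1)).2) / 2)⟩ with hp
  have hfar := mid_far hs (hc.step (m0 k)) (hc.step a) ⟨?_, ?_⟩ hz (w := p) ⟨rfl, rfl⟩
  · obtain ⟨d1, d2⟩ := re_im_lt hd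
    rw [mem_sq] at hw hm
    rw [abs_lt] at d1 d2
    have b : σ * 2 ≤ (2 * h + 1) * σ / 2 := by nlinarith
    have c1 : |z.re - p.re| < σ * 2 := by
      rw [abs_lt]
      constructor <;> linarith [hw.1, hw.2.1, hm.1, hm.2.1, d1.1, d1.2]
    have c2 : |z.im - p.im| < σ * 2 := by
      rw [abs_lt]
      constructor <;> linarith [hw.2.2.1, hw.2.2.2, hm.2.2.1, hm.2.2.2, d2.1, d2.2]
    rcases hfar with hf | hf
    · linarith
    · linarith
  · rintro ⟨e1, -⟩
    rw [← hc.mod a, ← hc.mod (m0 k)] at e1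
    exact hne (hc.inj _ (Nat.mod_lt _ hN) _ (Nat.mod_lt _ hN) e1)
  · rintro ⟨e1, e2⟩
    have r1 := hc.right a
    rw [e1, e2, (Bl802.adj_rev (hc.step (m0 k))).2] at r1
    exact r1 (hc.left (m0 k))

/-- indices strictly between two consecutive marks are not marks -/
theorem not_mark (h01 : m0 0 < m0 1) (h12 : m0 1 < m0 2) (h23 : m0 2 < m0 3) (h3 : m0 3 < N0)
    {i : ZMod 4} {a k : ℕ} (hk : k < 4) (h1 : m0 i.val < a) (h2 : a < nx N0 m0 i) :
    a % N0 ≠ m0 k % N0 := by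
  have hmk : m0 k % N0 = m0 k := Nat.mod_eq_of_lt (by interval_cases k <;> omega)
  rw [hmk]
  have h4 : (m0 0 < a ∧ a < m0 1) ∨ (m0 1 < a ∧ a < m0 2) ∨ (m0 2 < a ∧ a < m0 3) ∨
      (m0 3 < a ∧ a < m0 0 + N0) := by
    fin_cases i
    · exact Or.inl ⟨h1, h2⟩
    · exact Or.inr (Or.inl ⟨h1, h2⟩)
    · exact Or.inr (Or.inr (Or.inl ⟨h1, h2⟩))
    · exact Or.inr (Or.inr (Or.inr ⟨h1, h2⟩))
  have h5 : a % N0 = a ∨ (N0 ≤ a ∧ a % N0 = a - N0) := by
    rcases Nat.lt_or_ge a N0 with ha | ha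
    · exact Or.inl (Nat.mod_eq_of_lt ha)
    · refine Or.inr ⟨ha, ?_⟩
      rw [Nat.mod_eq_sub_mod ha, Nat.mod_eq_of_lt (by omega)]
  have h6 : m0 k = m0 0 ∨ m0 k = m0 1 ∨ m0 k = m0 2 ∨ m0 k = m0 3 := by
    interval_cases k
    · exact Or.inl rfl
    · exact Or.inr (Or.inl rfl)
    · exact Or.inr (Or.inr (Or.inl rfl))
    · exact Or.inr (Or.inr (Or.inr rfl))
  omega

/-- **side** -/
theorem side (D : CellDom (ref h F0) ((2 * h + 1) * N0) (vref h v0) (mref h m0) c M U)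
    (hc : Cyc F0 N0 v0) (h01 : m0 0 < m0 1) (h12 : m0 1 < m0 2) (h23 : m0 2 < m0 3)
    (h3 : m0 3 < N0) (hh : 2 ≤ h) (hσ : 0 < σ) {κ : ℝ} (hκ : κ ≤ σ) {i : ZMod 4} {a : ℕ}
    (h1 : m0 i.val < a) (h2 : a < nx N0 m0 i) {z : ℂ}
    (hz : z ∈ ed ((2 * h + 1) * σ) (v0 a) (v0 (a + 1))) {w : ℂ} (hw : dist w z < κ) :
    w ∈ Pg ((2 * h + 1) * σ) F0 ∨
      w ∈ Om σ (cl (ref h F0) (vref h v0) (mref h m0) U i) := by
  by_cases hP : w ∈ Pg ((2 * h + 1) * σ) F0
  · exact Or.inl hP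
  refine Or.inr ((mem_om hσ).2 fun g hg => ?_)
  have hwσ : dist w z < σ := lt_of_lt_of_le hw hκ
  obtain ⟨r, hr, hzr⟩ := ed_split a hz
  obtain ⟨f1, f2⟩ := fine_on hr h1 h2
  have harc := D.arc i _ f1 f2
  have hgF : g ∉ ref h F0 := by
    intro hgF
    apply hP
    rw [pg_fine hσ, mem_iUnion₂]
    exact ⟨g, hgF, hg⟩
  have n1 := near8 hσ hg (ed_sub_rc hσ (D.cfg.cyc.step _) hzr) hwσ
  have n2 := near8 hσ hg (ed_sub_lc hσ (D.cfg.cyc.step _) hzr) hwσ
  by_cases hgB : g ∈ body (ref h F0) U 4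
  · exfalso
    rcases hgB with hgB | ⟨k, hk, j, rfl⟩
    · exact hgF hgB
    · have hj := (D.tF k hk j _ (D.cfg.cyc.left _) n2).1
      subst hj
      exact far_mouth D hc hh hσ hk (not_mark h01 h12 h23 h3 hk h1 h2) hz hg hwσ
  · exact free_cl D harc hgB n1

/-- **near** -/
theorem near_ (D : CellDom (ref h F0) ((2 * h + 1) * N0) (vref h v0) (mref h m0) c M U)
    (hc : Cyc F0 N0 v0) (h01 : m0 0 < m0 1) (h12 : m0 1 < m0 2) (h23 : m0 2 < m0 3)
    (h3 : m0 3 < N0) (hh : 1 ≤ h) (hσ : 0 < σ) {i : ZMod 4} {a : ℕ} (ha : OnS N0 m0 i a) {z : ℂ}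
    (hz : z ∈ ed ((2 * h + 1) * σ) (v0 a) (v0 (a + 1))) :
    ∃ w ∈ Om σ (cl (ref h F0) (vref h v0) (mref h m0) U i), dist w z < 3 * ((2 * h + 1) * σ) ∧
      ∃ e ∈ Pg ((2 * h + 1) * σ) F0, dist w e ≤ 2 * σ := by
  have hh' : (1 : ℝ) ≤ h := by exact_mod_cast hh
  have hs : 0 < (2 * h + 1) * σ := by positivity
  obtain ⟨a1, a2⟩ := ha
  obtain ⟨r, hr, f1, f2⟩ : ∃ r ≤ 2 * h, mref h m0 i.val < (2 * h + 1) * a + r ∧
      (2 * h + 1) * a + r < nx ((2 * h + 1) * N0) (mref h m0) i := by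
    by_cases e1 : m0 i.val < a
    · by_cases e2 : a < nx N0 m0 i
      · obtain ⟨f1, f2⟩ := fine_on (h := h) (r := h) (by omega) e1 e2
        exact ⟨h, by omega, f1, f2⟩
      · have e3 : a = nx N0 m0 i := by omega
        refine ⟨h - 1, by omega, ?_, ?_⟩
        · have e4 : (2 * h + 1) * (m0 i.val + 1) ≤ (2 * h + 1) * a := Nat.mul_le_mul_left _ e1
          rw [mul_add] at e4
          unfold mref
          omega
        · rw [e3]
          unfold nx mref
          by_cases hi : i = 3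
          · rw [if_pos hi, if_pos hi, mul_add]
            omega
          · rw [if_neg hi, if_neg hi]
            omega
    · have e3 : a = m0 i.val := by omega
      refine ⟨h + 1, by omega, ?_, ?_⟩
      · rw [e3]; unfold mref; omega
      · rw [e3]
        unfold nx mref
        by_cases hi : i = 3
        · subst hi
          rw [if_pos rfl]
          have e4 : m0 (3 : ZMod 4).val = m0 3 := rfl
          rw [e4]
          have e5 : (2 * h + 1) * (m0 3 + 1) ≤ (2 * h + 1) * N0 := Nat.mul_le_mul_left _ h3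
          rw [mul_add] at e5
          omega
        · rw [if_neg hi]
          have e4 : m0 i.val < m0 (i.val + 1) := by
            have hi3 : i.val < 3 := by
              have := ZMod.val_lt i
              by_contra hcon
              exact hi (val_eq_three.1 (by omega))
            generalize i.val = j at *
            interval_cases j <;> omega
          have e5 : (2 * h + 1) * (m0 i.val + 1) ≤ (2 * h + 1) * m0 (i.val + 1) :=
            Nat.mul_le_mul_left _ e4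
          rw [mul_add] at e5
          omega
  have harc := D.arc i _ f1 f2
  have hstep := D.cfg.cyc.step ((2 * h + 1) * a + r)
  set x := (2 * h + 1) * a + r with hx
  have he1 : pt σ (vref h v0 x) ∈ ed σ (vref h v0 x) (vref h v0 (x + 1)) := left_mem_segment _ _ _
  have he2 := ed_sub_rc hσ hstep he1
  have he3 : pt σ (vref h v0 x) ∈ ed ((2 * h + 1) * σ) (v0 a) (v0 (a + 1)) :=
    ed_fine a r hr he1
  have he4 := ed_sub_lc hs (hc.step a) he3
  have hz4 := ed_sub_lc hs (hc.step a) hz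
  have hw2 : dist (cen σ (rcv (vref h v0) x)) (pt σ (vref h v0 x)) ≤ 2 * σ := by
    rw [dist_eq_norm]
    exact sq_dist (Tg331.so_sub σ _ (Tg331.ce_so hσ _)) he2
  refine ⟨cen σ (rcv (vref h v0) x), Tg331.ce_mem hσ harc, ?_, pt σ (vref h v0 x), ?_, hw2⟩
  · have d2 : dist (pt σ (vref h v0 x)) z ≤ 2 * ((2 * h + 1) * σ) := by
      rw [dist_eq_norm]
      exact sq_dist he4 hz4
    have d3 := dist_triangle (cen σ (rcv (vref h v0) x)) (pt σ (vref h v0 x)) z
    nlinarith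
  · unfold Pg
    rw [mem_iUnion₂]
    exact ⟨_, hc.left a, he4⟩

end fields

end Crest.Agent.R143.TentNx951
end
end

-- ▼ part R143/TentP_951
section

/-!
# Row 143 (S0194), block D, TENT P (helper951): field `mouth` of `Ten` (Ten_416)

`P` = chain of segments between the centres of consecutive cells of the tentacle, from the inner
cell of the marked edge up to distance `3 / 4 LL` on the ray.
-/

set_option autoImplicit false

noncomputable section

namespace Crest.Agent.R143.TentPx951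

open Set
open Crest.Agent.R158 Crest.Agent.R158.Sp896 Crest.Agent.R143.Tentx359 Crest.Agent.R143.TentAx951
open Crest.Agent.R143.TentBx951 Crest.Agent.R143.TentMx951 Crest.Agent.R143.Cdx806
open Crest.Agent.R143.TentNx951 Crest.Agent.R143.TentDx359
open Crest.Agent.R158.Tj656 (cen Om mem_om)
open Crest.Agent.R143.Tenx416 (nx OnS Pg)

/-- chain of segments -/
def chn (σ : ℝ) (U : ℕ → V) (n : ℕ) : Set ℂ :=
  ⋃ j ∈ Iio n, segment ℝ (cen σ (U j)) (cen σ (U (j + 1)))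

theorem mem_chn {σ : ℝ} {U : ℕ → V} {n : ℕ} {z : ℂ} :
    z ∈ chn σ U n ↔ ∃ j < n, z ∈ segment ℝ (cen σ (U j)) (cen σ (U (j + 1))) := by
  unfold chn
  simp only [mem_iUnion, mem_Iio, exists_prop]

theorem chn_con (σ : ℝ) (U : ℕ → V) (n : ℕ) : IsPreconnected (chn σ U n) := by
  unfold chn
  refine IsPreconnected.biUnion_of_chain ordConnected_Iio
    (fun j _ => (convex_segment _ _).isPreconnected) fun j _ _ => ?_
  exact ⟨cen σ (U (j + 1)), right_mem_segment _ _ _, left_mem_segment _ _ _⟩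

section

variable {F : Set V} {L : ℕ} {v : ℕ → V} {m : ℕ → ℕ} {c : V} {M : ℤ} {U : ℕ → ℕ → V} {σ : ℝ}

/-- a cell near the chain is a cell of the chain -/
theorem chn_cells (C : Tentx359.Cfg F L v m c M 4 U) (hσ : 0 < σ) {k : ℕ} (hk : k < 4) {n : ℕ}
    {z w : ℂ} (hz : z ∈ chn σ (U k) n) (hw : dist w z < σ / 2) {g : V} (hg : w ∈ sq σ g) :
    ∃ j, g = U k j := by
  rw [mem_chn] at hz
  obtain ⟨j, -, hz⟩ := hz
  rcases seg_cells hσ (C.step k hk j) hz hw hg with e | e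
  · exact ⟨j, e⟩
  · exact ⟨j + 1, e⟩

theorem cell0_F (C : Tentx359.Cfg F L v m c M 4 U) {k : ℕ} (hk : k < 4) : U k 0 ∈ F := by
  rw [C.start0 k hk]
  exact C.cyc.left _

theorem cell_body (C : Tentx359.Cfg F L v m c M 4 U) {k : ℕ} (hk : k < 4) (j : ℕ) :
    U k j ∈ body F U 4 := by
  rcases j with _ | j
  · exact Or.inl (cell0_F C hk)
  · exact Or.inr ⟨k, hk, j, rfl⟩

theorem cell_F (C : Tentx359.Cfg F L v m c M 4 U) {k : ℕ} (hk : k < 4) {j : ℕ} (h : U k j ∈ F) :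
    j = 0 := by
  rcases j with _ | j
  · rfl
  · exact absurd h (C.out k hk j)

theorem cen_norm (hσ : 0 < σ) {R : ℤ} {q : V} (h1 : |q.1 - c.1| ≤ R) (h2 : |q.2 - c.2| ≤ R) :
    ‖cen σ q - cen σ c‖ ≤ 2 * σ * R := by
  have k1 : |(q.1 : ℝ) - c.1| ≤ R := by exact_mod_cast h1
  have k2 : |(q.2 : ℝ) - c.2| ≤ R := by exact_mod_cast h2
  refine (Complex.norm_le_abs_re_add_abs_im _).trans ?_
  simp only [Complex.sub_re, Complex.sub_im, cen]
  rw [show σ * ((q.1 : ℝ) + 1 / 2) - σ * (c.1 + 1 / 2) = σ * (q.1 - c.1) by ring,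
    show σ * ((q.2 : ℝ) + 1 / 2) - σ * (c.2 + 1 / 2) = σ * (q.2 - c.2) by ring,
    abs_mul, abs_mul, abs_of_pos hσ]
  nlinarith

theorem cen_ray (σ : ℝ) (c : V) (k : ZMod 4) (r : ℤ) :
    cen σ ((c.1 + r * (dir k.val).1, c.2 + r * (dir k.val).2) : V) =
      cen σ c + ((σ * r : ℝ) : ℂ) * qq k := by
  apply Complex.ext
  · rw [Complex.add_re, Complex.re_ofReal_mul, qq_re]
    simp only [cen]
    push_cast
    ring
  · rw [Complex.add_im, Complex.im_ofReal_mul, qq_im]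
    simp only [cen]
    push_cast
    ring

end

section fields

variable {F0 : Set V} {N0 : ℕ} {v0 : ℕ → V} {m0 : ℕ → ℕ} {h : ℕ} {c : V} {M : ℤ} {U : ℕ → ℕ → V}
  {σ : ℝ}

/-- the first cell is in the block of the inner cell of the coarse marked edge -/
theorem first_blk (hc : Cyc F0 N0 v0) (a : ℕ) :
    lcv (vref h v0) ((2 * h + 1) * a + h) ∈ ref h {lcv v0 a} := by
  have hL : 0 < 2 * h + 1 := by omega
  have e := (Bl802.sv_cells hc hL (k := a) (r := h) (by omega)).2.1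
  show (_, _) = lcv v0 a
  rw [vref_eq, mul_comm (2 * h + 1) a]
  unfold lcv
  rw [← e]
  push_cast
  rfl

/-- **mouth** -/
theorem mouth (H : Fine (ref h F0) ((2 * h + 1) * N0) (vref h v0) (mref h m0) c M U)
    (hc : Cyc F0 N0 v0) (hσ : 0 < σ) {κ : ℝ} (hκ : κ ≤ σ / 2) (k : ZMod 4) :
    ∃ P : Set ℂ, IsPreconnected P ∧ P ⊆ BB σ U c M k ∪ Pg ((2 * h + 1) * σ) F0 ∧
    P ⊆ Metric.closedBall (cen σ c) (3 / 4 * LL σ M) ∧
    cen σ c + ((3 / 4 * LL σ M : ℝ) : ℂ) * qq k ∈ P ∧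
    P ∩ Pg ((2 * h + 1) * σ) F0 ⊆
      sq ((2 * h + 1) * σ) (lc (v0 (m0 k.val)) (v0 (m0 k.val + 1))) ∧
    (∃ y ∈ P, y ∈ interior (sq ((2 * h + 1) * σ) (lc (v0 (m0 k.val)) (v0 (m0 k.val + 1))))) ∧
    ∀ y ∈ P, Disjoint (Metric.ball y κ)
      (⋃ i, RR σ (ref h F0) (vref h v0) (mref h m0) c M U i) := by
  have C := H.C
  have hk := TentDx359.val_lt k
  have hM : 0 ≤ M := M_nonneg H
  have hM' : (0 : ℝ) ≤ M := by exact_mod_cast hM
  have hPg : Pg ((2 * h + 1) * σ) F0 = ⋃ f ∈ ref h F0, sq σ f := pg_fine hσ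
  have hblk : U k.val 0 ∈ ref h {lcv v0 (m0 k.val)} := by
    rw [C.start0 _ hk]
    exact first_blk hc _
  have hsub : sq σ (U k.val 0) ⊆ sq ((2 * h + 1) * σ) (lc (v0 (m0 k.val)) (v0 (m0 k.val + 1))) := by
    intro z hz
    rw [sq_ref hσ h, mem_iUnion₂]
    exact ⟨_, hblk, hz⟩
  obtain ⟨j0, hj0, hbx, hray⟩ := C.ray _ hk
  have hn : ((11 * M + 24).toNat : ℤ) = 11 * M + 24 := Int.toNat_of_nonneg (by omega)
  set n := (11 * M + 24).toNat with hndef
  have hn' : ((n : ℕ) : ℝ) = 11 * M + 24 := by exact_mod_cast hn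
  have hball : ∀ j ≤ j0 + n, cen σ (U k.val j) ∈ Metric.closedBall (cen σ c) (3 / 4 * LL σ M) := by
    intro j hj
    rw [Metric.mem_closedBall, dist_eq_norm]
    unfold LL
    rcases Nat.lt_or_ge j j0 with h1 | h1
    · obtain ⟨b1, b2⟩ := hbx j h1.le
      have := cen_norm hσ b1 b2
      nlinarith
    · obtain ⟨i, rfl⟩ := Nat.exists_eq_add_of_le h1
      have hi : (i : ℝ) ≤ 11 * M + 24 := by
        rw [← hn']
        exact_mod_cast (by omega : i ≤ n)
      rw [hray i]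
      rw [cen_ray σ c k (M + i), add_sub_cancel_left, norm_mul, qq_norm, mul_one,
        Complex.norm_real, Real.norm_eq_abs]
      push_cast
      rw [abs_of_nonneg (by positivity)]
      nlinarith
  refine ⟨chn σ (U k.val) (j0 + n), chn_con _ _ _, ?_, ?_, ?_, ?_, ?_, ?_⟩
  · intro z hz
    obtain ⟨j, hj⟩ := chn_cells C hσ hk hz (w := z) (by rw [dist_self]; linarith) (mem_cellOf hσ z)
    have hz' : z ∈ sq σ (U k.val j) := hj ▸ mem_cellOf hσ z
    rcases j with _ | j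
    · right
      rw [hPg, mem_iUnion₂]
      exact ⟨_, cell0_F C hk, hz'⟩
    · exact Or.inl (Or.inl ⟨j, hz'⟩)
  · intro z hz
    rw [mem_chn] at hz
    obtain ⟨j, hj, hz⟩ := hz
    exact (convex_closedBall _ _).segment_subset (hball j (by omega)) (hball (j + 1) (by omega)) hz
  · rw [mem_chn]
    refine ⟨j0 + n - 1, by omega, ?_⟩
    have e1 : j0 + n - 1 + 1 = j0 + n := by omega
    rw [e1]
    have e2 : cen σ c + ((3 / 4 * LL σ M : ℝ) : ℂ) * qq k = cen σ (U k.val (j0 + n)) := by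
      rw [hray n, cen_ray σ c k (M + n)]
      have e3 : (3 / 4 * LL σ M : ℝ) = σ * ((M + n : ℤ) : ℝ) := by
        unfold LL
        push_cast
        rw [hn']
        ring
      rw [e3]
    rw [e2]
    exact right_mem_segment _ _ _
  · rintro z ⟨hz, hzP⟩
    rw [hPg, mem_iUnion₂] at hzP
    obtain ⟨f, hf, hzf⟩ := hzP
    obtain ⟨j, hj⟩ := chn_cells C hσ hk hz (w := z) (by rw [dist_self]; linarith) hzf
    subst hj
    have := cell_F C hk hf
    subst this
    exact hsub hzf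
  · refine ⟨cen σ (U k.val 0), ?_, ?_⟩
    · rw [mem_chn]
      exact ⟨0, by omega, left_mem_segment _ _ _⟩
    · refine mem_interior.2 ⟨Tg331.so σ (U k.val 0), (Tg331.so_sub σ _).trans hsub, ?_,
        Tg331.ce_so hσ _⟩
      have e : Tg331.so σ (U k.val 0) = {z : ℂ | σ * (U k.val 0).1 < z.re} ∩
          ({z | z.re < σ * ((U k.val 0).1 + 1)} ∩ ({z | σ * (U k.val 0).2 < z.im} ∩
            {z | z.im < σ * ((U k.val 0).2 + 1)})) := rfl
      rw [e]
      exact (isOpen_lt continuous_const Complex.continuous_re).inter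
        ((isOpen_lt Complex.continuous_re continuous_const).inter
          ((isOpen_lt continuous_const Complex.continuous_im).inter
            (isOpen_lt Complex.continuous_im continuous_const)))
  · intro y hy
    rw [Set.disjoint_left]
    intro w hw hwR
    rw [mem_iUnion] at hwR
    obtain ⟨i, hwR⟩ := hwR
    rw [Metric.mem_ball] at hw
    obtain ⟨j, hj⟩ := chn_cells C hσ hk hy (lt_of_lt_of_le hw hκ) (mem_cellOf hσ w)
    have h1 := Om_cls_body hσ hwR.1 (mem_cellOf hσ w)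
    rw [hj] at h1
    exact h1 (cell_body C hk j)

theorem pg_norm (H : Fine (ref h F0) ((2 * h + 1) * N0) (vref h v0) (mref h m0) c M U)
    (hσ : 0 < σ) {z : ℂ} (hz : z ∈ Pg ((2 * h + 1) * σ) F0) : ‖z - cen σ c‖ ≤ LL σ M / 4 := by
  rw [pg_fine hσ, mem_iUnion₂] at hz
  obtain ⟨f, hf, hz⟩ := hz
  obtain ⟨b1, b2⟩ := H.C.box f hf
  rw [abs_lt] at b1 b2
  have k1 : ((f.1 : ℝ) - c.1) ≤ M - 1 := by exact_mod_cast (by omega : f.1 - c.1 ≤ M - 1)
  have k2 : ((f.2 : ℝ) - c.2) ≤ M - 1 := by exact_mod_cast (by omega : f.2 - c.2 ≤ M - 1)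
  have k3 : -(M - 1 : ℝ) ≤ ((f.1 : ℝ) - c.1) := by
    exact_mod_cast (by omega : -(M - 1) ≤ f.1 - c.1)
  have k4 : -(M - 1 : ℝ) ≤ ((f.2 : ℝ) - c.2) := by
    exact_mod_cast (by omega : -(M - 1) ≤ f.2 - c.2)
  obtain ⟨z1, z2, z3, z4⟩ := hz
  have r1 : |z.re - (cen σ c).re| ≤ σ * M := by
    simp only [cen]
    rw [abs_le]
    constructor <;> nlinarith
  have r2 : |z.im - (cen σ c).im| ≤ σ * M := by
    simp only [cen]
    rw [abs_le]
    constructor <;> nlinarith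
  refine (Complex.norm_le_abs_re_add_abs_im _).trans ?_
  rw [Complex.sub_re, Complex.sub_im]
  unfold LL
  nlinarith

/-- points near the polygon are in no cone -/
theorem not_cone (H : Fine (ref h F0) ((2 * h + 1) * N0) (vref h v0) (mref h m0) c M U)
    (hσ : 0 < σ) {z w : ℂ} (hz : z ∈ Pg ((2 * h + 1) * σ) F0) (hw : dist w z ≤ 2 * σ) :
    w ∉ ⋃ k, cone σ c M k := by
  rw [mem_iUnion]
  rintro ⟨k, hk, -⟩
  have h1 := pg_norm H hσ hz
  have h2 := LL_ge hσ (M_nonneg H)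
  rw [dist_eq_norm] at hw
  have h3 := norm_add_le (w - z) (z - cen σ c)
  rw [sub_add_sub_cancel] at h3
  linarith

end fields

/-! ### the fields of `Ten`, literal, for `CC` of TentD_359, `σ = s / 81`, `κ = σ / 4` -/

section final

variable {F : Set V} {L : ℕ} {v : ℕ → V} {m : ℕ → ℕ} {c : V} {M : ℤ} {U : ℕ → ℕ → V} {s : ℝ}

theorem e81 (s : ℝ) : (2 * ((40 : ℕ) : ℝ) + 1) * (s / 81) = s := by
  push_cast
  ring

/-- field `nb` -/
theorem f_nb (H : Fine (ref 40 F) (81 * L) (vref 40 v) (mref 40 m) c M U) (hs : 0 < s) :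
    ∀ x ∈ Pg s F, ∀ i, ∀ w ∈ (CC (s / 81) (ref 40 F) (vref 40 v) (mref 40 m) c M U).R i,
      dist w x < s / 81 / 4 → ∃ k, OnS L m i k ∧ ∃ z ∈ ed s (v k) (v (k + 1)),
        dist z x < s / 81 / 4 := by
  intro x hx i w hw hd
  have hσ : 0 < s / 81 := by positivity
  have := TentNx951.nb (h := 40) (N0 := L) (F0 := F) (v0 := v) (m0 := m) (σ := s / 81)
    (TentBx951.cellDom H) hσ (κ := s / 81 / 4) (by linarith) (i := i) (w := w) hw.1 (x := x)
    (by rw [e81]; exact hx) hd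
  rw [e81] at this
  exact this

/-- field `side` -/
theorem f_side (H : Fine (ref 40 F) (81 * L) (vref 40 v) (mref 40 m) c M U) (hs : 0 < s)
    (hc : Cyc F L v) (m01 : m 0 < m 1) (m12 : m 1 < m 2) (m23 : m 2 < m 3) (m3L : m 3 < L) :
    ∀ (i : ZMod 4) (k : ℕ), m i.val < k → k < nx L m i → ∀ z ∈ ed s (v k) (v (k + 1)),
      Metric.ball z (s / 81 / 4) ⊆
        Pg s F ∪ (CC (s / 81) (ref 40 F) (vref 40 v) (mref 40 m) c M U).R i := by
  intro i k h1 h2 z hz w hw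
  have hσ : 0 < s / 81 := by positivity
  rw [Metric.mem_ball] at hw
  have hzP : z ∈ Pg s F := by
    unfold Pg
    rw [mem_iUnion₂]
    exact ⟨_, hc.left k, ed_sub_lc hs (hc.step k) hz⟩
  rcases TentNx951.side (h := 40) (N0 := L) (F0 := F) (v0 := v) (m0 := m) (σ := s / 81)
    (TentBx951.cellDom H) hc m01 m12 m23 m3L (by norm_num) hσ (κ := s / 81 / 4) (by linarith) h1 h2
    (z := z) (by rw [e81]; exact hz) hw with h3 | h3
  · rw [e81] at h3
    exact Or.inl h3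
  · refine Or.inr ⟨h3, ?_⟩
    exact not_cone (h := 40) (N0 := L) (v0 := v) (m0 := m) H hσ (z := z) (by rw [e81]; exact hzP)
      (by linarith)

/-- field `near` -/
theorem f_near (H : Fine (ref 40 F) (81 * L) (vref 40 v) (mref 40 m) c M U) (hs : 0 < s)
    (hc : Cyc F L v) (m01 : m 0 < m 1) (m12 : m 1 < m 2) (m23 : m 2 < m 3) (m3L : m 3 < L) :
    ∀ (i : ZMod 4) (k : ℕ), OnS L m i k → ∀ z ∈ ed s (v k) (v (k + 1)),
      ∃ w ∈ (CC (s / 81) (ref 40 F) (vref 40 v) (mref 40 m) c M U).R i, dist w z < 3 * s := by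
  intro i k h1 z hz
  have hσ : 0 < s / 81 := by positivity
  obtain ⟨w, h3, h4, e, h5, h6⟩ := TentNx951.near_ (h := 40) (N0 := L) (F0 := F) (v0 := v)
    (m0 := m) (σ := s / 81) (TentBx951.cellDom H) hc m01 m12 m23 m3L (by norm_num) hσ h1 (z := z)
    (by rw [e81]; exact hz)
  rw [e81] at h4
  exact ⟨w, ⟨h3, not_cone (h := 40) (N0 := L) (v0 := v) (m0 := m) H hσ h5 h6⟩, h4⟩

/-- field `mouth` -/
theorem f_mouth (H : Fine (ref 40 F) (81 * L) (vref 40 v) (mref 40 m) c M U) (hs : 0 < s)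
    (hc : Cyc F L v) : ∀ k : ZMod 4, ∃ P : Set ℂ, IsPreconnected P ∧
      P ⊆ BB (s / 81) U c M k ∪ Pg s F ∧
      P ⊆ Metric.closedBall (CC (s / 81) (ref 40 F) (vref 40 v) (mref 40 m) c M U).c
        (3 / 4 * (CC (s / 81) (ref 40 F) (vref 40 v) (mref 40 m) c M U).L) ∧
      (CC (s / 81) (ref 40 F) (vref 40 v) (mref 40 m) c M U).c +
        ((3 / 4 * (CC (s / 81) (ref 40 F) (vref 40 v) (mref 40 m) c M U).L : ℝ) : ℂ) *
          (CC (s / 81) (ref 40 F) (vref 40 v) (mref 40 m) c M U).q k ∈ P ∧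
      P ∩ Pg s F ⊆ sq s (lc (v (m k.val)) (v (m k.val + 1))) ∧
      (∃ y ∈ P, y ∈ interior (sq s (lc (v (m k.val)) (v (m k.val + 1))))) ∧
      ∀ y ∈ P, Disjoint (Metric.ball y (s / 81 / 4))
        (CC (s / 81) (ref 40 F) (vref 40 v) (mref 40 m) c M U).out := by
  intro k
  have hσ : 0 < s / 81 := by positivity
  have := mouth (h := 40) (N0 := L) (F0 := F) (v0 := v) (m0 := m) (σ := s / 81) H hc hσ
    (κ := s / 81 / 4) (by linarith) k
  rw [e81] at this
  exact this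

end final

end Crest.Agent.R143.TentPx951
end
end

-- ▼ part R143/TentE_359

/-!
# Row 143 (S0194), block D, TENT: assembly (helper359)
-/

set_option autoImplicit false

noncomputable section

namespace Crest.Agent.R143.TentDx359

open Set Metric
open Crest.Agent.R158 Crest.Agent.R158.Sp896 Crest.Agent.R158.Tj656 Crest.Agent.R158.Tg331
open Crest.Agent.R143.Tentx359 Crest.Agent.R143.TentAx951 Crest.Agent.R143.TentBx951
open Crest.Agent.R143.Tenx416

/-! ### the configuration of 806 -/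

theorem aa_fa (σ : ℝ) (c : V) (k : ZMod 4) (z : ℂ) : aa σ c k z = Cdx806.fa (cen σ c) k z := by
  unfold aa dir
  rcases k_cases k with ⟨e, h⟩ | ⟨e, h⟩ | ⟨e, h⟩ | ⟨e, h⟩ <;> rw [h] <;> subst e
  · rw [Cdx806.fa0]; simp
  · rw [Cdx806.fa1]; simp
  · rw [Cdx806.fa2]; simp
  · rw [Cdx806.fa3]; simp

theorem bb_fa (σ : ℝ) (c : V) (k : ZMod 4) (z : ℂ) :
    bb σ c k z = Cdx806.fa (cen σ c) (k + 1) z := by
  unfold bb rot dir
  rcases k_cases k with ⟨e, h⟩ | ⟨e, h⟩ | ⟨e, h⟩ | ⟨e, h⟩ <;> rw [h] <;> subst e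
  · rw [show (0 : ZMod 4) + 1 = 1 from rfl, Cdx806.fa1]; simp
  · rw [show (1 : ZMod 4) + 1 = 2 from rfl, Cdx806.fa2]; simp
  · rw [show (2 : ZMod 4) + 1 = 3 from rfl, Cdx806.fa3]; simp
  · rw [show (3 : ZMod 4) + 1 = 0 from rfl, Cdx806.fa0]; simp

theorem qq_qd (k : ZMod 4) : qq k = Cdx806.qd k := by
  unfold qq
  rcases k_cases k with ⟨e, h⟩ | ⟨e, h⟩ | ⟨e, h⟩ | ⟨e, h⟩ <;> rw [h] <;> subst e
  · rw [Cdx806.qd0]; simp
  · rw [Cdx806.qd1]; simp
  · rw [Cdx806.qd2]; simp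
  · rw [Cdx806.qd3]; simp [pow_succ]

theorem cone_Cn {σ : ℝ} {c : V} {M : ℤ} (hσ : 0 < σ) (hM : 0 ≤ M) (k : ZMod 4) :
    cone σ c M k = Cdx806.Cn σ c M k := by
  ext z
  rw [mem_cone' hσ hM, aa_fa, bb_fa]
  rfl

theorem CC_eq {σ : ℝ} {c : V} {M : ℤ} (hσ : 0 < σ) (hM : 0 ≤ M) (F : Set V) (v : ℕ → V)
    (m : ℕ → ℕ) (U : ℕ → ℕ → V) : CC σ F v m c M U = Cdx806.cfgC σ F v m c M U := by
  unfold CC Cdx806.cfgC
  have e1 : RR σ F v m c M U = Cdx806.Rg σ F v m c M U := by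
    funext i
    unfold RR Cdx806.Rg
    have e2 : (⋃ k, cone σ c M k) = ⋃ k, Cdx806.Cn σ c M k :=
      iUnion_congr fun k => cone_Cn hσ hM k
    rw [e2]
    rfl
  have e3 : qq = Cdx806.qd := funext qq_qd
  rw [e1, e3]
  rfl

theorem CC_ok {F : Set V} {L : ℕ} {v : ℕ → V} {m : ℕ → ℕ} {c : V} {M : ℤ} {U : ℕ → ℕ → V} {σ : ℝ}
    (H : Fine F L v m c M U) (hσ : 0 < σ) : (CC σ F v m c M U).OK σ := by
  rw [CC_eq hσ (M_nonneg H)]
  exact Cdx806.CellDom.ok (TentBx951.cellDom H) hσ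

/-! ### assembly -/


end Crest.Agent.R143.TentDx359
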