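import Crest.Agent.R143.Qd4_54_Mg
import Crest.Agent.R143.REw_838
import Crest.Agent.R143.Qd3_54
import Crest.Agent.R143.ValE_422
import Crest.Agent.R143.D3J_802
import Crest.Agent.R143.D3M_802_Mg
import Crest.Agent.R143.Cara2_723
import Crest.Agent.R143.Spine_422
import Mathlib
import Crest.Agent.R158.Jt2_785
import Crest.Agent.R143.Cfg_416
import Crest.Agent.R143.M5_304
import Crest.Agent.R143.PoisM3c_501
import Crest.Agent.R143.EQ5_63
import Crest.Agent.R143.Har_315
import Crest.Agent.R143.Spine2_422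
import Crest.Agent.R143.Ad2_422
import Crest.Agent.R143.GeoSeq3_416
import Crest.Agent.R143.DomE_722
import Crest.Agent.R143.D4L_408
import Crest.Agent.R143.Crs6_117
import Crest.Agent.R143.D3C_802
import Crest.Agent.R143.Poly3_416_Mg
import Crest.Agent.R143.TentE_359
import Crest.Agent.R143.VAL_422
import Crest.Agent.R143.DbarMor_63
import Crest.Agent.R143.D3K_802_Mg
import Crest.Agent.R143.EQE4_63
import Crest.Agent.R143.GeoSeqP_422

-- ▼ part R143/RBmF_54
section

/-!
# Row 143, RSW without E3 (RBE): the strip theorem (helper54)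

* `geo3` : the polygon of a strip (723's `geo3_of` and 838's walks)
* `epg` : the E3-free gauge bound in the polygon (930's `epg` and `Qd3_54.epq`)
* `rbm` : **the strip theorem of the mesoscopic RSW**
-/

set_option autoImplicit false

noncomputable section

namespace Crest.Agent.R143.RBmFx54

/-- **the polygon of a strip** -/
theorem geo3 : RE0x723.GEO3 :=
  RE5x723.geo3_of (fun _ _ _ _ _ _ _ H h4 _ hv hx hy => REwx838.walkB H h4 hv hx hy)
    (fun _ _ _ _ _ _ _ H h4 _ hv hx hy => REwx838.walkT H h4 hv hx hy)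

/-- **the gauge bound in the polygon** -/
theorem epg : RE0x723.EPG := EPGx930.epg Qd3x54.epq

/-- **the strip theorem**, without E3 -/
theorem rbm : RBmx838.RBm := Qd4x54.rbm_of geo3 epg

end Crest.Agent.R143.RBmFx54
end
end

-- ▼ part R143/ValF_422
section

/-!
# Row 143 (S0194), block D3: leaf VAL without (E3) (helper422)

* `val_of` : BDE → INTF → MONO → `Cfgx416.VAL`
* `valE` : BDE → `Cfgx416.VAL`
-/

set_option autoImplicit false

noncomputable section

open scoped Classical ENNReal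

namespace Crest.Agent.R143.ValFx422

open Set MeasureTheory Filter Topology
open Crest.ProbabilityR.Voronoi
open Crest.Agent.R143.B0x346 Crest.Agent.R143.B0Dx346 Crest.Agent.R143.Oscx63
open Crest.Agent.R143.DelGx806 Crest.Agent.R143.Circx63 Crest.Agent.R143.Scalx63
open Crest.Agent.R143.EQ2x63 Crest.Agent.R143.Locx922 Crest.Agent.R143.Cfgx416
open Crest.Agent.R143.Ex0x922 Crest.Agent.R143.Wlkx802 Crest.Agent.R143.D3Ax802
open Crest.Agent.R143.Sidesx697 Crest.Agent.R143.G6Wx723 Crest.Agent.R143.PP1x831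
open Crest.Agent.R143.D3Bx802 Crest.Agent.R143.D3Cx802 Crest.Agent.R143.EQ5x63
open Crest.Agent.R143.Spinex422 Crest.Agent.R143.D3Vx802 Crest.Agent.R143.ValEx422
open Crest.Agent.R143.VALx422 (dom0)
open Crest.Agent.R143.D3Jx802 (BDE BDEat)

/-- **leaf VAL of block D, from the boundary estimate only** -/
theorem val_of (hB : BDE) (hI : INTF) (hMo : MONO) : Cfgx416.VAL := by
  intro η hη
  obtain ⟨N, c1, hN, hc1, hbd⟩ := hB (η / 12) (by linarith)
  refine ⟨(2 : ℝ) ^ (N + 2), one_lt_pow₀ (by norm_num) (by omega), ?_⟩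
  intro C δ hC b R0 s κ Q TB hs hR1 hΛ hκ hball hdis hQ hTB hcone hR z P hz hP hzP hPs hPb hPq
    hPk hL
  have hΛ0 : (0 : ℝ) < (2 : ℝ) ^ (N + 2) := by positivity
  have hR0 : 0 < R0 := lt_of_lt_of_le (mul_pos hΛ0 hs) hΛ
  obtain ⟨k0, hk0⟩ := exists_mem_Ico_zpow (x := R0 / 2) (y := (2 : ℝ)) (by linarith) (by norm_num)
  rw [mem_Ico] at hk0
  have hk1 : (2 : ℝ) ^ (k0 + 1) ≤ 1 := by
    rw [zpow_add₀ (by norm_num), zpow_one]
    linarith [hk0.1]
  have hk2 : (2 : ℝ) ^ k0 < R0 := by linarith [hk0.1]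
  have hsk : s < (2 : ℝ) ^ (k0 - N) := by
    have h1 : (2 : ℝ) ^ (k0 + 1) = (2 : ℝ) ^ (k0 - N) * (2 : ℝ) ^ (N + 1) := by
      rw [← zpow_natCast, ← zpow_add₀ (by norm_num)]
      congr 1
      push_cast
      ring
    have h2 : (2 : ℝ) ^ (N + 2) = 2 * (2 : ℝ) ^ (N + 1) := by ring
    have h3 : (0 : ℝ) < (2 : ℝ) ^ (N + 1) := by positivity
    have h4 : (2 : ℝ) ^ (N + 1) * s < (2 : ℝ) ^ (N + 1) * (2 : ℝ) ^ (k0 - N) := by
      rw [h2] at hΛ
      have h5 := hk0.2
      rw [h1] at h5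
      linarith
    exact lt_of_mul_lt_mul_left h4 h3.le
  have hbpos : 0 < (2 : ℝ) ^ (k0 - N) := by positivity
  have hle : (2 : ℝ) ^ (k0 - N) ≤ (2 : ℝ) ^ k0 := zpow_le_zpow_right₀ (by norm_num) (by omega)
  obtain ⟨c2', hc2', hq⟩ := quenchedVE hI hMo hC hs hκ hball hdis hQ hTB hcone hz hP hzP hPs
    hPb hPq hPk hL (r0 := (2 : ℝ) ^ (k0 - N)) hsk (by linarith)
  set c2 := min c2' (min (c1 * (2 : ℝ) ^ (k0 - N))
    (min ((R0 - (2 : ℝ) ^ k0) / 4) (((2 : ℝ) ^ (k0 - N) - s) / 5))) with hc2d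
  have hc2 : 0 < c2 := by
    rw [hc2d]
    exact lt_min hc2' (lt_min (by positivity) (lt_min (by linarith) (by linarith)))
  set R := ‖C.dom.c‖ + C.dom.L + 1 with hRdef
  obtain ⟨C0, hC0, hhole⟩ := PoisM3cx501.m3c R 1
  have hrad := rad_lim C0
  have e1 : ∀ᶠ ε : ℝ in 𝓝[>] 0, 0 < ε := eventually_mem_nhdsWithin
  have e2 : ∀ᶠ ε : ℝ in 𝓝[>] 0, ε < min (1 / 2) (η / 2) :=
    nhdsWithin_le_nhds (eventually_lt_nhds (by positivity))
  have e3 : ∀ᶠ ε : ℝ in 𝓝[>] 0, rad C0 ε < c2 := hrad.eventually_lt_const hc2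
  have e4 : ∀ᶠ ε : ℝ in 𝓝[>] 0, ε * Real.log (1 / ε) ^ (8 : ℕ) < (2 : ℝ) ^ (k0 - N) :=
    scale_lim.eventually_lt_const (by positivity)
  filter_upwards [e1, e2, e3, e4, hhole, m4u R 1] with ε h1 h2 h3 h4 h5 h6
  have hε1 : ε < 1 / 2 := h2.trans_le (min_le_left _ _)
  have hε2 : ε < η / 2 := h2.trans_le (min_le_right _ _)
  have hdpos : 0 < rad C0 ε := by
    unfold rad
    have : 0 < Real.log (1 / ε) := Real.log_pos (by
      rw [lt_div_iff₀ h1]; linarith)
    positivity
  -- the bad event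
  set B1 : Set Sample := {ω | ∃ z ∈ Metric.closedBall (0 : ℂ) R,
    points ε ω ∩ Metric.ball z (rad C0 ε) = ∅} with hB1
  set B2 : Set Sample := {ω | ¬ ∀ z ∈ Metric.closedBall (0 : ℂ) R, ∀ ρ : ℝ,
      ε * Real.log (1 / ε) ^ (8 : ℕ) ≤ ρ → ρ ≤ 1 →
      diamSum (points ε ω) (Metric.ball z ρ) ≤ ENNReal.ofReal (CM * ρ ^ 2)} with hB2
  obtain ⟨Z, hZ0, hZ⟩ : ∃ Z : Set Sample, sampleLaw Z = 0 ∧ ∀ ω ∉ Z,
      (GP (points ε ω) ∧ ∀ r : ℝ, (points ε ω ∩ Metric.closedBall 0 r).Finite) ∧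
      ∀ a ∈ points ε ω, ∀ b ∈ points ε ω, a ≠ b → cr (b - a) (z - a) ≠ 0 := by
    have hae : ∀ᵐ ω ∂sampleLaw,
        (GP (points ε ω) ∧ ∀ r : ℝ, (points ε ω ∩ Metric.closedBall 0 r).Finite) ∧
        ∀ a ∈ points ε ω, ∀ b ∈ points ε ω, a ≠ b → cr (b - a) (z - a) ≠ 0 := by
      filter_upwards [PoisM3x930.m3a ε h1, M3ex63.m3e ε h1 z] with ω g1 g2
      exact ⟨⟨g1.1, g1.2.2⟩, g2⟩
    refine ⟨_, mem_ae_iff.1 hae, fun ω hω => ?_⟩
    by_contra hcon
    exact hω hcon
  refine ⟨B1 ∪ B2 ∪ Z, ?_, ?_⟩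
  · refine (measure_union_le _ _).trans ?_
    rw [hZ0, add_zero]
    refine (measure_union_le _ _).trans ?_
    rw [Real.rpow_one] at h5 h6
    refine (add_le_add h5 h6).trans ?_
    rw [← ENNReal.ofReal_add h1.le h1.le]
    exact ENNReal.ofReal_le_ofReal (by linarith)
  · intro ω hω
    simp only [mem_union, not_or] at hω
    obtain ⟨⟨b1, b2⟩, hz'⟩ := hω
    obtain ⟨⟨g1, g2⟩, g3⟩ := hZ ω hz'
    have hholes : ∀ z ∈ Metric.closedBall (0 : ℂ) R,
        (points ε ω ∩ Metric.ball z (rad C0 ε)).Nonempty := by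
      intro z hz
      by_contra hcon
      rw [Set.not_nonempty_iff_eq_empty] at hcon
      exact b1 ⟨z, hz, hcon⟩
    obtain ⟨M, hEnv⟩ := env_of (D := C.dom) (R := R) (by linarith) hdpos g1 g2 hholes
    rw [hB2, Set.mem_ofPred_eq, not_not] at b2
    have d1 : rad C0 ε ≤ c2' := h3.le.trans (min_le_left _ _)
    have d2 : rad C0 ε ≤ c1 * (2 : ℝ) ^ (k0 - N) :=
      h3.le.trans ((min_le_right _ _).trans (min_le_left _ _))
    have d3 : rad C0 ε ≤ (R0 - (2 : ℝ) ^ k0) / 4 := h3.le.trans ((min_le_right _ _).trans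
      ((min_le_right _ _).trans (min_le_left _ _)))
    have d4 : rad C0 ε ≤ ((2 : ℝ) ^ (k0 - N) - s) / 5 := h3.le.trans ((min_le_right _ _).trans
      ((min_le_right _ _).trans (min_le_right _ _)))
    obtain ⟨hG, hfin⟩ := hq ε (rad C0 ε) M ω hEnv hdpos d1
    obtain ⟨k1, k2⟩ := hbd C ε δ (rad C0 ε) M ω 0 b R0 s κ (Q ∪ TB) TB k0 hG hEnv
      (by linarith) (by linarith) d2 hk1 (by
        intro y hy r hr hr1
        exact b2 y hy r (h4.le.trans hr) hr1) (by
        obtain ⟨y, hy, hys⟩ := hR.1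
        exact ⟨y, dom0 (Or.inl hy), hys⟩)
    refine (hfin (η / 12) k1 k2 g3).trans ?_
    linarith

theorem valE (hB : BDE) : Cfgx416.VAL := val_of hB D3Ix802.intf D3Mx802.mono

end Crest.Agent.R143.ValFx422
end
end

-- ▼ part R143/Cara3_723
section

/-!
# Row 143 (S0194), block D, leaf CARA, part (iv) for the data of S0194 (helper723)

* `fD S` : `(φ - i) / (φ + i)`, value `1` at `d`; `cd S : CD S.D (fD S)`
* `jordan S`, `trace S` : the curve of the data
* `ang4` : the piecewise linear angle function with given values at `0, 1/4, 1/2, 3/4, 1`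
* `cara_of` : the boundary curve `g` with the four arcs (from `‖f‖ = 1` on the frontier and
  injectivity on the closure)
-/

set_option autoImplicit false

noncomputable section

open Set Topology Filter Metric Complex
open Crest.ProbabilityR.Percolation

namespace Crest.Agent.R143.Cara3x723

open Crest.Agent.R158.Jt785 Crest.Agent.R143.Spinex422 Crest.Agent.R143.Cara2x723

/-! ### the angle function -/

/-- clamp to the unit interval -/
def cl (u : ℝ) : ℝ := max 0 (min 1 u)

theorem cl_cont : Continuous cl := by unfold cl; fun_prop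

theorem cl_mono : Monotone cl := fun _ _ h => max_le_max le_rfl (min_le_min le_rfl h)

theorem cl_zero {u : ℝ} (h : u ≤ 0) : cl u = 0 := by
  unfold cl
  rw [max_eq_left]
  exact (min_le_right _ _).trans h

theorem cl_one {u : ℝ} (h : 1 ≤ u) : cl u = 1 := by
  unfold cl
  rw [min_eq_left h, max_eq_right zero_le_one]

theorem cl_mid {u : ℝ} (h0 : 0 ≤ u) (h1 : u ≤ 1) : cl u = u := by
  unfold cl
  rw [min_eq_right h1, max_eq_right h0]

theorem cl_sum {t : ℝ} (h0 : 0 ≤ t) (h1 : t ≤ 1) :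
    cl (4 * t) + cl (4 * t - 1) + cl (4 * t - 2) + cl (4 * t - 3) = 4 * t := by
  rcases le_total (4 * t) 1 with h | h
  · rw [cl_mid (by linarith) h, cl_zero (by linarith), cl_zero (by linarith),
      cl_zero (by linarith)]
    ring
  rcases le_total (4 * t) 2 with h2 | h2
  · rw [cl_one h, cl_mid (by linarith) (by linarith), cl_zero (by linarith),
      cl_zero (by linarith)]
    ring
  rcases le_total (4 * t) 3 with h3 | h3
  · rw [cl_one h, cl_one (by linarith), cl_mid (by linarith) (by linarith),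
      cl_zero (by linarith)]
    ring
  · rw [cl_one h, cl_one (by linarith), cl_one (by linarith),
      cl_mid (by linarith) (by linarith)]
    ring

/-- piecewise linear with slopes `4 c j` -/
def ang4 (a c0 c1 c2 c3 : ℝ) (t : ℝ) : ℝ :=
  a + c0 * cl (4 * t) + c1 * cl (4 * t - 1) + c2 * cl (4 * t - 2) + c3 * cl (4 * t - 3)

theorem ang4_ang {a c0 c1 c2 c3 : ℝ} (h0 : 0 < c0) (h1 : 0 < c1) (h2 : 0 < c2) (h3 : 0 < c3)
    (hs : c0 + c1 + c2 + c3 = 2 * Real.pi) : Ang (ang4 a c0 c1 c2 c3) where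
  cont := by
    unfold ang4
    have := cl_cont
    fun_prop
  mono := by
    intro s hs1 t ht1 hst
    have e1 := cl_sum hs1.1 hs1.2
    have e2 := cl_sum ht1.1 ht1.2
    have m0 := cl_mono (show 4 * s ≤ 4 * t by linarith)
    have m1 := cl_mono (show 4 * s - 1 ≤ 4 * t - 1 by linarith)
    have m2 := cl_mono (show 4 * s - 2 ≤ 4 * t - 2 by linarith)
    have m3 := cl_mono (show 4 * s - 3 ≤ 4 * t - 3 by linarith)
    unfold ang4
    set m := min (min c0 c1) (min c2 c3) with hm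
    have hm0 : 0 < m := lt_min (lt_min h0 h1) (lt_min h2 h3)
    have l0 : m ≤ c0 := (min_le_left _ _).trans (min_le_left _ _)
    have l1 : m ≤ c1 := (min_le_left _ _).trans (min_le_right _ _)
    have l2 : m ≤ c2 := (min_le_right _ _).trans (min_le_left _ _)
    have l3 : m ≤ c3 := (min_le_right _ _).trans (min_le_right _ _)
    have k0 := mul_le_mul_of_nonneg_right l0 (sub_nonneg.2 m0)
    have k1 := mul_le_mul_of_nonneg_right l1 (sub_nonneg.2 m1)
    have k2 := mul_le_mul_of_nonneg_right l2 (sub_nonneg.2 m2)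
    have k3 := mul_le_mul_of_nonneg_right l3 (sub_nonneg.2 m3)
    have k4 : 0 < m * (4 * t - 4 * s) := mul_pos hm0 (by linarith)
    have k5 : m * (4 * t - 4 * s) = m * (cl (4 * t) - cl (4 * s)) +
        m * (cl (4 * t - 1) - cl (4 * s - 1)) + m * (cl (4 * t - 2) - cl (4 * s - 2)) +
        m * (cl (4 * t - 3) - cl (4 * s - 3)) := by
      linear_combination m * e1 - m * e2
    nlinarith
  per := by
    unfold ang4
    rw [cl_one (by norm_num), cl_one (by norm_num), cl_one (by norm_num), cl_one (by norm_num),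
      cl_zero (by norm_num), cl_zero (by norm_num), cl_zero (by norm_num), cl_zero (by norm_num)]
    linarith

theorem ang4_v {a c0 c1 c2 c3 : ℝ} : ang4 a c0 c1 c2 c3 0 = a ∧
    ang4 a c0 c1 c2 c3 (1 / 4) = a + c0 ∧ ang4 a c0 c1 c2 c3 (1 / 2) = a + c0 + c1 ∧
    ang4 a c0 c1 c2 c3 (3 / 4) = a + c0 + c1 + c2 ∧
    ang4 a c0 c1 c2 c3 1 = a + c0 + c1 + c2 + c3 := by
  unfold ang4
  refine ⟨?_, ?_, ?_, ?_, ?_⟩
  · rw [cl_zero (by norm_num), cl_zero (by norm_num), cl_zero (by norm_num),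
      cl_zero (by norm_num)]; ring
  · rw [cl_one (by norm_num), cl_zero (by norm_num), cl_zero (by norm_num),
      cl_zero (by norm_num)]; ring
  · rw [cl_one (by norm_num), cl_one (by norm_num), cl_zero (by norm_num),
      cl_zero (by norm_num)]; ring
  · rw [cl_one (by norm_num), cl_one (by norm_num), cl_one (by norm_num),
      cl_zero (by norm_num)]; ring
  · rw [cl_one (by norm_num), cl_one (by norm_num), cl_one (by norm_num),
      cl_one (by norm_num)]; ring

/-- the angle of a real number -/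
def T (y : ℝ) : ℝ := Real.pi + 2 * Real.arctan y

theorem T_mono : StrictMono T := fun a b h => by
  unfold T
  have := Real.arctan_strictMono h
  linarith

theorem T_zero : T 0 = Real.pi := by unfold T; rw [Real.arctan_zero]; ring

theorem T_one : T 1 = 3 * Real.pi / 2 := by unfold T; rw [Real.arctan_one]; ring

theorem T_pos (y : ℝ) : 0 < T y := by
  unfold T
  have := Real.neg_pi_div_two_lt_arctan y
  linarith

theorem T_lt (y : ℝ) : T y < 2 * Real.pi := by
  unfold T
  have := Real.arctan_lt_pi_div_two y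
  linarith

theorem cayley_T (y : ℝ) : ((y : ℂ) - I) / ((y : ℂ) + I) = E (T y) := by
  set a := Real.arctan y with ha
  have hc : Real.cos a ≠ 0 := (Real.cos_arctan_pos y).ne'
  have hy : y * Real.cos a = Real.sin a := by
    rw [← Real.tan_mul_cos hc, ha, Real.tan_arctan]
  have hne : (y : ℂ) + I ≠ 0 := by
    intro h
    have := congrArg Complex.im h
    simp at this
  have hE : E (T y) = -(Real.cos a + Real.sin a * I) ^ 2 := by
    unfold E T
    rw [← ha]
    push_cast
    rw [add_mul, Complex.exp_add, Complex.exp_pi_mul_I]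
    have e : (2 * (a : ℂ)) * I = a * I + a * I := by ring
    rw [e, Complex.exp_add, Complex.exp_mul_I]
    ring
  rw [hE, div_eq_iff hne]
  have hcC : (Real.cos a : ℂ) ≠ 0 := by exact_mod_cast hc
  have hyC : (y : ℂ) * Real.cos a = Real.sin a := by exact_mod_cast hy
  have h1 : (Real.sin a : ℂ) ^ 2 + (Real.cos a : ℂ) ^ 2 = 1 := by
    exact_mod_cast Real.sin_sq_add_cos_sq a
  refine mul_right_cancel₀ hcC ?_
  have hI : I ^ 2 = -1 := Complex.I_sq
  have e1 : ((y : ℂ) - I) * Real.cos a = Real.sin a - I * Real.cos a := by rw [sub_mul, hyC]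
  have e2 : ((y : ℂ) + I) * Real.cos a = Real.sin a + I * Real.cos a := by rw [add_mul, hyC]
  rw [e1, mul_assoc, e2]
  generalize (Real.sin a : ℂ) = s at *
  generalize (Real.cos a : ℂ) = c at *
  linear_combination (-s + I * c) * h1 + (2 * s * c ^ 2 + s ^ 2 * I * c + s ^ 3) * hI

/-! ### the map to the disc -/

variable (S : Dat)

/-- the map to the disc -/
def fD (z : ℂ) : ℂ := if z = S.d then 1 else (S.φ z - I) / (S.φ z + I)

theorem d_notMem : S.d ∉ S.D := fun h => by
  have := S.hd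
  rw [S.hD.frontier_eq] at this
  exact this.2 h

theorem sub_diff : S.D ⊆ closure S.D \ {S.d} := fun _ hz =>
  ⟨subset_closure hz, fun h => d_notMem S (h ▸ hz)⟩

theorem im_pos {z : ℂ} (hz : z ∈ S.D) : 0 < (S.φ z).im := by
  have : S.φ z ∈ S.φ '' S.D := mem_image_of_mem _ hz
  rw [S.hφD] at this
  exact this

theorem im_nonneg {z : ℂ} (hz : z ∈ closure S.D) (hzd : z ≠ S.d) : 0 ≤ (S.φ z).im := by
  have h1 : ContinuousWithinAt S.φ S.D z := (S.hφc z ⟨hz, hzd⟩).mono (sub_diff S)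
  have h2 := h1.mem_closure_image hz
  have h3 : closure (S.φ '' S.D) ⊆ {w : ℂ | 0 ≤ w.im} := by
    refine closure_minimal ?_ (isClosed_le continuous_const Complex.continuous_im)
    rw [S.hφD]
    exact fun w (hw : 0 < w.im) => hw.le
  exact h3 h2

theorem den_ne {w : ℂ} (h : 0 ≤ w.im) : w + I ≠ 0 := by
  intro h1
  have := congrArg Complex.im h1
  simp at this
  linarith

theorem cayley_lt {w : ℂ} (h : 0 < w.im) : ‖(w - I) / (w + I)‖ < 1 := by
  have hne := den_ne h.le
  rw [norm_div, div_lt_one (norm_pos_iff.2 hne), ← sq_lt_sq₀ (norm_nonneg _) (norm_nonneg _),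
    ← Complex.normSq_eq_norm_sq, ← Complex.normSq_eq_norm_sq, Complex.normSq_apply,
    Complex.normSq_apply]
  simp
  nlinarith

/-- `φ → ∞` at `d`, also along the frontier -/
theorem tendsto_norm : Tendsto (fun z => ‖S.φ z‖) (𝓝[closure S.D \ {S.d}] S.d) atTop := by
  rw [Filter.tendsto_atTop]
  intro M
  have h1 := (Filter.tendsto_atTop.1 S.hφd) M
  rw [eventually_nhdsWithin_iff, Metric.eventually_nhds_iff] at h1 ⊢
  obtain ⟨δ, hδ, h1⟩ := h1
  refine ⟨δ, hδ, fun z hz hz2 => ?_⟩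
  have h2 : z ∈ closure (S.D ∩ ball S.d δ) := by
    have h3 : ball S.d δ ∈ 𝓝 z := isOpen_ball.mem_nhds hz
    rw [mem_closure_iff_nhds]
    intro t ht
    obtain ⟨y, hy1, hy2⟩ := mem_closure_iff_nhds.1 hz2.1 _ (inter_mem ht h3)
    exact ⟨y, hy1.1, hy2, hy1.2⟩
  have h4 : ContinuousWithinAt S.φ (S.D ∩ ball S.d δ) z :=
    (S.hφc z hz2).mono (inter_subset_left.trans (sub_diff S))
  have h5 := h4.mem_closure_image h2
  have h6 : closure (S.φ '' (S.D ∩ ball S.d δ)) ⊆ {w : ℂ | M ≤ ‖w‖} := by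
    refine closure_minimal ?_ (isClosed_le continuous_const continuous_norm)
    rintro _ ⟨y, hy, rfl⟩
    exact h1 hy.2 hy.1
  exact h6 h5

theorem fD_ne {z : ℂ} (h : z ≠ S.d) : fD S z = (S.φ z - I) / (S.φ z + I) := if_neg h

theorem fD_d : fD S S.d = 1 := if_pos rfl

theorem fD_cont : ContinuousOn (fD S) (closure S.D) := by
  intro z hz
  by_cases hzd : z = S.d
  · rw [hzd, ← continuousWithinAt_sdiff_self]
    show Tendsto (fD S) (𝓝[closure S.D \ {S.d}] S.d) (𝓝 (fD S S.d))
    rw [fD_d, ← tendsto_sub_nhds_zero_iff]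
    refine squeeze_zero_norm' (a := fun z => 2 / (‖S.φ z‖ - 1)) ?_ ?_
    · have h1 := (Filter.tendsto_atTop.1 (tendsto_norm S)) 2
      filter_upwards [h1, self_mem_nhdsWithin] with w hw hw2
      rw [fD_ne S hw2.2]
      have hne := den_ne (im_nonneg S hw2.1 hw2.2)
      have e : (S.φ w - I) / (S.φ w + I) - 1 = -(2 * I) / (S.φ w + I) := by
        field_simp
        ring
      rw [e, norm_div, norm_neg, norm_mul, Complex.norm_I, mul_one, Complex.norm_two]
      have h2 : ‖S.φ w‖ - 1 ≤ ‖S.φ w + I‖ := by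
        have := norm_sub_le (S.φ w + I) I
        rw [add_sub_cancel_right, Complex.norm_I] at this
        linarith
      exact div_le_div_of_nonneg_left (by norm_num) (by linarith) h2
    · have h1 : Tendsto (fun z => ‖S.φ z‖ - 1) (𝓝[closure S.D \ {S.d}] S.d) atTop :=
        tendsto_atTop_add_const_right _ _ (tendsto_norm S)
      exact h1.const_div_atTop 2
  · have h1 : closure S.D \ {S.d} ∈ 𝓝[closure S.D] z := by
      rw [sdiff_eq]
      exact inter_mem self_mem_nhdsWithin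
        (mem_nhdsWithin_of_mem_nhds (isOpen_compl_singleton.mem_nhds hzd))
    have h2 := S.hφc z ⟨hz, hzd⟩
    have h3 : ContinuousWithinAt (fun z => (S.φ z - I) / (S.φ z + I)) (closure S.D \ {S.d}) z :=
      (h2.sub continuousWithinAt_const).div (h2.add continuousWithinAt_const)
        (den_ne (im_nonneg S hz hzd))
    refine (h3.mono_of_mem_nhdsWithin h1).congr_of_eventuallyEq ?_ (fD_ne S hzd)
    filter_upwards [h1] with w hw
    exact fD_ne S hw.2

/-- **the disc map of the data** -/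
theorem cd : CD S.D (fD S) where
  op := S.hD
  bd := S.hDb
  co := S.hDc
  cont := fD_cont S
  dif := by
    have h1 : DifferentiableOn ℂ (fun z => (S.φ z - I) / (S.φ z + I)) S.D :=
      (S.hφ.sub_const I).div (S.hφ.add_const I) fun z hz => den_ne (im_pos S hz).le
    exact h1.congr fun z hz => fD_ne S (sub_diff S hz).2
  inj := by
    intro z hz w hw h
    rw [fD_ne S (sub_diff S hz).2, fD_ne S (sub_diff S hw).2,
      div_eq_div_iff (den_ne (im_pos S hz).le) (den_ne (im_pos S hw).le)] at h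
    refine S.hφi hz hw ?_
    have hI : (2 * I : ℂ) ≠ 0 := by simp
    refine mul_left_cancel₀ hI ?_
    linear_combination h
  img := by
    apply subset_antisymm
    · rintro _ ⟨z, hz, rfl⟩
      rw [fD_ne S (sub_diff S hz).2, mem_ball_zero_iff]
      exact cayley_lt (im_pos S hz)
    · intro w hw
      rw [mem_ball_zero_iff] at hw
      have h1 : (1 : ℂ) - w ≠ 0 := by
        intro h
        have : w = 1 := (sub_eq_zero.1 h).symm
        rw [this, norm_one] at hw
        exact lt_irrefl _ hw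
      have h2 : I * (1 + w) / (1 - w) ∈ S.φ '' S.D := by
        rw [S.hφD]
        show 0 < (I * (1 + w) / (1 - w)).im
        have hn : 0 < Complex.normSq (1 - w) := Complex.normSq_pos.2 h1
        have hw2 : w.re * w.re + w.im * w.im < 1 := by
          have h3 : ‖w‖ ^ 2 < 1 := by nlinarith [norm_nonneg w]
          rwa [← Complex.normSq_eq_norm_sq, Complex.normSq_apply] at h3
        rw [Complex.div_im]
        have e : (I * (1 + w)).im * (1 - w).re / Complex.normSq (1 - w) -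
            (I * (1 + w)).re * (1 - w).im / Complex.normSq (1 - w) =
            (1 - (w.re * w.re + w.im * w.im)) / Complex.normSq (1 - w) := by
          rw [← sub_div]
          congr 1
          simp
          ring
        rw [e]
        exact div_pos (by linarith) hn
      obtain ⟨z, hz, hz2⟩ := h2
      refine ⟨z, hz, ?_⟩
      rw [fD_ne S (sub_diff S hz).2, hz2]
      have h4 : I * (1 + w) / (1 - w) + I ≠ 0 := by
        rw [← hz2]; exact den_ne (im_pos S hz).le
      rw [div_eq_iff h4]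
      field_simp
      ring

/-! ### the curve of the data -/

theorem jordan : IsJordanCurve S.γ :=
  ⟨S.hγ.continuousOn, S.hγi, by have := S.hγp 0; rw [zero_add] at this; exact this.symm⟩

theorem trace : curveTrace S.γ = frontier S.D := by
  rw [← S.hγD]
  show S.γ '' Icc 0 1 = range S.γ
  apply subset_antisymm
  · exact image_subset_range _ _
  · rintro _ ⟨t, rfl⟩
    refine ⟨Int.fract t, ⟨Int.fract_nonneg t, (Int.fract_lt_one t).le⟩, ?_⟩
    have h := Function.Periodic.sub_int_mul_eq (f := S.γ) (c := 1) S.hγp ⌊t⌋ (x := t)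
    rw [mul_one] at h
    exact h

/-! ### the four arcs -/

section arcs

variable (hn : ∀ z ∈ frontier S.D, ‖fD S z‖ = 1)

include hn

theorem fD_real {z : ℂ} (hz : z ∈ frontier S.D) (hzd : z ≠ S.d) :
    (S.φ z).im = 0 ∧ fD S z = E (T (S.φ z).re) := by
  have h1 := hn z hz
  have hne := den_ne (im_nonneg S (frontier_subset_closure hz) hzd)
  rw [fD_ne S hzd, norm_div, div_eq_one_iff_eq (norm_ne_zero_iff.2 hne)] at h1
  have h2 : (S.φ z).im = 0 := by
    have h3 : ‖S.φ z - I‖ ^ 2 = ‖S.φ z + I‖ ^ 2 := by rw [h1]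
    rw [← Complex.normSq_eq_norm_sq, ← Complex.normSq_eq_norm_sq, Complex.normSq_apply,
      Complex.normSq_apply] at h3
    simp at h3
    linarith
  refine ⟨h2, ?_⟩
  have h3 : S.φ z = ((S.φ z).re : ℂ) := by
    apply Complex.ext
    · simp
    · simp [h2]
  rw [fD_ne S hzd, ← cayley_T, ← h3]

theorem mem_arc {A B : ℝ} (hA : 0 ≤ A) (hB : B ≤ 2 * Real.pi) {z : ℂ} (hz : z ∈ frontier S.D) :
    (∃ θ ∈ Icc A B, fD S z = E θ) ↔
      (z ≠ S.d ∧ (S.φ z).im = 0 ∧ A ≤ T (S.φ z).re ∧ T (S.φ z).re ≤ B) ∨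
      (z = S.d ∧ ((A = 0 ∧ 0 ≤ B) ∨ (B = 2 * Real.pi ∧ A ≤ B))) := by
  have hp := Real.pi_pos
  by_cases hzd : z = S.d
  · constructor
    · rintro ⟨θ, hθ, h⟩
      refine Or.inr ⟨hzd, ?_⟩
      rw [hzd, fD_d] at h
      by_cases h0 : θ = 2 * Real.pi
      · have : B = 2 * Real.pi := le_antisymm hB (h0 ▸ hθ.2)
        exact Or.inr ⟨this, hθ.1.trans hθ.2⟩
      · have h1 : θ = 0 := by
          refine E_inj (by rw [← h, E_zero]) ?_
          have h2 : θ < 2 * Real.pi := lt_of_le_of_ne (hθ.2.trans hB) h0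
          rw [abs_lt]
          constructor <;> linarith [hθ.1]
        rw [h1] at hθ
        exact Or.inl ⟨le_antisymm hθ.1 hA, hθ.2⟩
    · rintro (h | ⟨-, h | h⟩)
      · exact absurd hzd h.1
      · exact ⟨0, ⟨h.1.le, h.2⟩, by rw [hzd, fD_d, E_zero]⟩
      · refine ⟨2 * Real.pi, ⟨h.1 ▸ h.2, h.1.ge⟩, ?_⟩
        rw [hzd, fD_d]
        have := E_per 0
        rw [zero_add, E_zero] at this
        exact this.symm
  · obtain ⟨h1, h2⟩ := fD_real S hn hz hzd
    have t0 := T_pos (S.φ z).re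
    have t1 := T_lt (S.φ z).re
    constructor
    · rintro ⟨θ, hθ, h⟩
      have h3 : T (S.φ z).re = θ := by
        refine E_inj (by rw [← h2, h]) ?_
        rw [abs_lt]
        constructor <;> linarith [hθ.1, hθ.2]
      rw [← h3] at hθ
      exact Or.inl ⟨hzd, h1, hθ.1, hθ.2⟩
    · rintro (h | h)
      · exact ⟨_, ⟨h.2.2.1, h.2.2.2⟩, h2⟩
      · exact absurd h.1 hzd

/-- **CARA, part (iv)** -/
theorem cara_of (hi : InjOn (fD S) (closure S.D)) : ∃ g : ℝ → ℂ, Unif g (fD S) ∧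
    jordanInterior g = S.D ∧ curveTrace g = frontier S.D ∧
    g '' Icc 0 (1 / 4) = S.A1 ∧
    g '' Icc (1 / 4) (1 / 2) = {z | z ∈ frontier S.D ∧ z ≠ S.d ∧ (S.φ z).im = 0 ∧
      S.x ≤ (S.φ z).re ∧ (S.φ z).re ≤ 1} ∧
    g '' Icc (1 / 2) (3 / 4) = S.A2 ∧
    g '' Icc (3 / 4) 1 = {z | z ∈ frontier S.D ∧ z ≠ S.d ∧ (S.φ z).im = 0 ∧
      (S.φ z).re ≤ 0} ∪ {S.d} ∧
    (g 0 ≠ S.d ∧ S.φ (g 0) = 0) ∧ (g (1 / 4) ≠ S.d ∧ S.φ (g (1 / 4)) = S.x) ∧
    (g (1 / 2) ≠ S.d ∧ S.φ (g (1 / 2)) = 1) ∧ g (3 / 4) = S.d := by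
  have hp := Real.pi_pos
  have x0 : Real.pi < T S.x := by rw [← T_zero]; exact T_mono S.hx0
  have x1 : T S.x < 3 * Real.pi / 2 := by rw [← T_one]; exact T_mono S.hx1
  have hA : Ang (ang4 Real.pi (T S.x - Real.pi) (3 * Real.pi / 2 - T S.x) (Real.pi / 2) Real.pi) :=
    ang4_ang (by linarith) (by linarith) (by linarith) hp (by ring)
  obtain ⟨v0, v1, v2, v3, v4⟩ := ang4_v (a := Real.pi) (c0 := T S.x - Real.pi)
    (c1 := 3 * Real.pi / 2 - T S.x) (c2 := Real.pi / 2) (c3 := Real.pi)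
  have v1' := v1.trans (by ring : _ = T S.x)
  have v2' := v2.trans (by ring : _ = 3 * Real.pi / 2)
  have v3' := v3.trans (by ring : _ = 2 * Real.pi)
  have v4' := v4.trans (by ring : _ = 3 * Real.pi)
  generalize ang4 Real.pi (T S.x - Real.pi) (3 * Real.pi / 2 - T S.x) (Real.pi / 2) Real.pi = Θ at *
  obtain ⟨g, h1, h2, h3, h4, h5⟩ := (cd S).unif hi hn hA
  have hfr : ∀ t ∈ Icc (0:ℝ) 1, g t ∈ frontier S.D := fun t ht => by
    rw [← h3]; exact mem_image_of_mem _ ht
  refine ⟨g, h1, h2, h3, ?_, ?_, ?_, ?_, ?_, ?_, ?_, ?_⟩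
  · rw [h5 0 (1/4) le_rfl (by norm_num) (by norm_num), v0, v1']
    ext z
    constructor
    · rintro ⟨hz, h⟩
      rw [mem_arc S hn hp.le (by linarith) hz] at h
      rcases h with h | ⟨-, h | h⟩
      · refine ⟨hz, h.1, h.2.1, ?_, T_mono.le_iff_le.1 h.2.2.2⟩
        rw [← T_mono.le_iff_le, T_zero]; exact h.2.2.1
      · linarith [h.1]
      · linarith [h.1]
    · rintro ⟨hz, a1, a2, a3, a4⟩
      refine ⟨hz, (mem_arc S hn hp.le (by linarith) hz).2 (Or.inl ⟨a1, a2, ?_, T_mono.monotone a4⟩)⟩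
      rw [← T_zero]; exact T_mono.monotone a3
  · rw [h5 (1/4) (1/2) (by norm_num) (by norm_num) (by norm_num), v1', v2']
    ext z
    constructor
    · rintro ⟨hz, h⟩
      rw [mem_arc S hn (by linarith) (by linarith) hz] at h
      rcases h with h | ⟨-, h | h⟩
      · refine ⟨hz, h.1, h.2.1, T_mono.le_iff_le.1 h.2.2.1, ?_⟩
        rw [← T_mono.le_iff_le, T_one]; exact h.2.2.2
      · linarith [h.1]
      · linarith [h.1]
    · rintro ⟨hz, a1, a2, a3, a4⟩
      refine ⟨hz, (mem_arc S hn (by linarith) (by linarith) hz).2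
        (Or.inl ⟨a1, a2, T_mono.monotone a3, ?_⟩)⟩
      rw [← T_one]; exact T_mono.monotone a4
  · rw [h5 (1/2) (3/4) (by norm_num) (by norm_num) (by norm_num), v2', v3']
    ext z
    constructor
    · rintro ⟨hz, h⟩
      rw [mem_arc S hn (by linarith) le_rfl hz] at h
      rcases h with h | ⟨h, -⟩
      · refine Or.inl ⟨hz, h.1, h.2.1, ?_⟩
        rw [← T_mono.le_iff_le, T_one]; exact h.2.2.1
      · exact Or.inr h
    · rintro (⟨hz, a1, a2, a3⟩ | hz)
      · refine ⟨hz, (mem_arc S hn (by linarith) le_rfl hz).2 (Or.inl ⟨a1, a2, ?_, (T_lt _).le⟩)⟩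
        rw [← T_one]; exact T_mono.monotone a3
      · rw [mem_singleton_iff] at hz
        have hz' : z ∈ frontier S.D := hz ▸ S.hd
        exact ⟨hz', (mem_arc S hn (by linarith) le_rfl hz').2
          (Or.inr ⟨hz, Or.inr ⟨rfl, by linarith⟩⟩)⟩
  · rw [h5 (3/4) 1 (by norm_num) (by norm_num) le_rfl, v3', v4']
    have hshift : ∀ z, (∃ θ ∈ Icc (2 * Real.pi) (3 * Real.pi), fD S z = E θ) ↔
        ∃ θ ∈ Icc 0 Real.pi, fD S z = E θ := by
      intro z
      constructor
      · rintro ⟨θ, hθ, h⟩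
        exact ⟨θ - 2 * Real.pi, ⟨by linarith [hθ.1], by linarith [hθ.2]⟩, by rw [E_sub, h]⟩
      · rintro ⟨θ, hθ, h⟩
        exact ⟨θ + 2 * Real.pi, ⟨by linarith [hθ.1], by linarith [hθ.2]⟩, by rw [E_per, h]⟩
    ext z
    constructor
    · rintro ⟨hz, h⟩
      rw [hshift, mem_arc S hn le_rfl (by linarith) hz] at h
      rcases h with h | ⟨h, -⟩
      · refine Or.inl ⟨hz, h.1, h.2.1, ?_⟩
        rw [← T_mono.le_iff_le, T_zero]; exact h.2.2.2
      · exact Or.inr h
    · rintro (⟨hz, a1, a2, a3⟩ | hz)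
      · refine ⟨hz, (hshift z).2 ((mem_arc S hn le_rfl (by linarith) hz).2
          (Or.inl ⟨a1, a2, (T_pos _).le, ?_⟩))⟩
        rw [← T_zero]; exact T_mono.monotone a3
      · rw [mem_singleton_iff] at hz
        have hz' : z ∈ frontier S.D := hz ▸ S.hd
        exact ⟨hz', (hshift z).2 ((mem_arc S hn le_rfl (by linarith) hz').2
          (Or.inr ⟨hz, Or.inl ⟨rfl, hp.le⟩⟩))⟩
  · have hz := hfr 0 ⟨le_rfl, zero_le_one⟩
    have h := (mem_arc S hn (z := g 0) hp.le (B := Real.pi) (by linarith) hz).1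
      ⟨Real.pi, ⟨le_rfl, le_rfl⟩, by rw [h4 0 ⟨le_rfl, zero_le_one⟩, v0]⟩
    rcases h with h | ⟨-, h | h⟩
    · refine ⟨h.1, ?_⟩
      have h6 : (S.φ (g 0)).re = 0 := T_mono.injective (by
        rw [T_zero]; exact le_antisymm h.2.2.2 h.2.2.1)
      exact Complex.ext h6 h.2.1
    · linarith [h.1]
    · linarith [h.1]
  · have h0 : (1/4:ℝ) ∈ Icc (0:ℝ) 1 := ⟨by norm_num, by norm_num⟩
    have hz := hfr _ h0
    have h := (mem_arc S hn (z := g (1/4)) (A := T S.x) (B := T S.x) (by linarith) (by linarith)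
      hz).1 ⟨T S.x, ⟨le_rfl, le_rfl⟩, by rw [h4 _ h0, v1']⟩
    rcases h with h | ⟨-, h | h⟩
    · refine ⟨h.1, ?_⟩
      have h6 : (S.φ (g (1/4))).re = S.x := T_mono.injective (le_antisymm h.2.2.2 h.2.2.1)
      exact Complex.ext (by rw [h6, Complex.ofReal_re]) (by rw [h.2.1, Complex.ofReal_im])
    · linarith [h.1]
    · linarith [h.1]
  · have h0 : (1/2:ℝ) ∈ Icc (0:ℝ) 1 := ⟨by norm_num, by norm_num⟩
    have hz := hfr _ h0
    have h := (mem_arc S hn (z := g (1/2)) (A := 3 * Real.pi / 2) (B := 3 * Real.pi / 2)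
      (by linarith) (by linarith) hz).1 ⟨3 * Real.pi / 2, ⟨le_rfl, le_rfl⟩, by rw [h4 _ h0, v2']⟩
    rcases h with h | ⟨-, h | h⟩
    · refine ⟨h.1, ?_⟩
      have h6 : (S.φ (g (1/2))).re = 1 := T_mono.injective (by
        rw [T_one]; exact le_antisymm h.2.2.2 h.2.2.1)
      exact Complex.ext (by rw [h6, Complex.one_re]) (by rw [h.2.1, Complex.one_im])
    · linarith [h.1]
    · linarith [h.1]
  · have h0 : (3/4:ℝ) ∈ Icc (0:ℝ) 1 := ⟨by norm_num, by norm_num⟩
    have hz := hfr _ h0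
    have h := (mem_arc S hn (z := g (3/4)) (A := 2 * Real.pi) (B := 2 * Real.pi)
      (by linarith) le_rfl hz).1 ⟨2 * Real.pi, ⟨le_rfl, le_rfl⟩, by rw [h4 _ h0, v3']⟩
    rcases h with h | h
    · have := T_lt (S.φ (g (3/4))).re
      linarith [h.2.2.1]
    · exact h.1

end arcs

end Crest.Agent.R143.Cara3x723
end
end

-- ▼ part R143/Cara_877
section

/-!
# Row 143, leaf CARA (i), (ii): boundary behaviour of a conformal map of a Jordan domain (helper877)

`D` a bounded domain whose frontier is the trace of a Jordan curve, `f : closure D → closed disc`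
continuous, conformal from `D` onto the open disc.  Then `‖f z‖ = 1` on the frontier and `f` is
injective on the closure.
-/

set_option autoImplicit false

noncomputable section

open scoped Classical

namespace Crest.Agent.R143.Carax877

open Set Topology Filter Metric
open Crest.ProbabilityR.Percolation
open Crest.Agent.R158.Jt785

/-- a bounded domain with a conformal map onto the disc, continuous up to the boundary -/
structure CD (D : Set ℂ) (f : ℂ → ℂ) : Prop where
  op : IsOpen D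
  bd : Bornology.IsBounded D
  co : IsConnected D
  cont : ContinuousOn f (closure D)
  dif : DifferentiableOn ℂ f D
  inj : InjOn f D
  img : f '' D = ball 0 1

variable {D : Set ℂ} {f : ℂ → ℂ}

namespace CD

theorem mem_ball (h : CD D f) {z : ℂ} (hz : z ∈ D) : ‖f z‖ < 1 := by
  have : f z ∈ ball (0 : ℂ) 1 := by
    rw [← h.img]
    exact mem_image_of_mem _ hz
  simpa using this

theorem open_map (h : CD D f) {s : Set ℂ} (hs : s ⊆ D) (ho : IsOpen s) : IsOpen (f '' s) := by
  have ha : AnalyticOnNhd ℂ f D := h.dif.analyticOnNhd h.op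
  rcases ha.is_constant_or_isOpen h.co.isPreconnected with ⟨w, hw⟩ | h1
  · exfalso
    have h0 : (0 : ℂ) ∈ f '' D := by rw [h.img]; simp
    have h2 : (1 / 2 : ℂ) ∈ f '' D := by
      rw [h.img, mem_ball_zero_iff]
      norm_num
    obtain ⟨x, hx, hx'⟩ := h0
    obtain ⟨y, hy, hy'⟩ := h2
    rw [hw x hx] at hx'
    rw [hw y hy, hx'] at hy'
    norm_num at hy'
  · exact h1 s hs ho

/-- the norm is at most one on the closure -/
theorem norm_le (h : CD D f) {z : ℂ} (hz : z ∈ closure D) : ‖f z‖ ≤ 1 := by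
  have h1 : f z ∈ closure (f '' D) := h.cont.image_closure (mem_image_of_mem _ hz)
  rw [h.img] at h1
  have := closure_ball_subset_closedBall h1
  simpa using this

/-- **(A)** -/
theorem norm_eq (h : CD D f) {z : ℂ} (hz : z ∈ frontier D) : ‖f z‖ = 1 := by
  have hzc : z ∈ closure D := frontier_subset_closure hz
  have hzD : z ∉ D := by
    rw [h.op.frontier_eq] at hz
    exact hz.2
  refine le_antisymm (h.norm_le hzc) ?_
  by_contra hlt
  rw [not_le] at hlt
  have h1 : f z ∈ f '' D := by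
    rw [h.img, mem_ball_zero_iff]
    exact hlt
  obtain ⟨z0, hz0, hz0'⟩ := h1
  obtain ⟨r, hr, hball⟩ := Metric.isOpen_iff.1 h.op z0 hz0
  have hs : ball z0 (r / 2) ⊆ D := (ball_subset_ball (by linarith)).trans hball
  have ho : IsOpen (f '' ball z0 (r / 2)) := h.open_map hs isOpen_ball
  have hmem : f z ∈ f '' ball z0 (r / 2) := by
    rw [← hz0']
    exact mem_image_of_mem _ (mem_ball_self (by linarith))
  -- `f` is continuous within `closure D` at `z`
  have hc : Tendsto f (𝓝[D] z) (𝓝 (f z)) :=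
    (h.cont z hzc).mono_left (nhdsWithin_mono _ subset_closure)
  have h2 : ∀ᶠ y in 𝓝[D] z, y ∈ closedBall z0 (r / 2) := by
    filter_upwards [hc (ho.mem_nhds hmem), self_mem_nhdsWithin] with y hy hyD
    obtain ⟨x, hx, hxy⟩ := hy
    have : x = y := h.inj (hs hx) hyD hxy
    rw [← this]
    exact ball_subset_closedBall hx
  have hne : (𝓝[D] z).NeBot := mem_closure_iff_nhdsWithin_neBot.1 hzc
  have h3 : z ∈ closedBall z0 (r / 2) := by
    have h4 : Tendsto (fun y : ℂ => y) (𝓝[D] z) (𝓝 z) := tendsto_id.mono_left nhdsWithin_le_nhds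
    exact isClosed_closedBall.mem_of_tendsto h4 h2
  exact hzD (hball (closedBall_subset_ball (by linarith) h3))

/-- preimages of connected sets are connected -/
theorem pre (h : CD D f) {T : Set ℂ} (hT : IsPreconnected T) (hTb : T ⊆ ball 0 1) :
    IsPreconnected (D ∩ f ⁻¹' T) := by
  let ψ : ℂ → ℂ := Function.invFunOn f D
  have hψ1 : ∀ w ∈ ball (0 : ℂ) 1, ψ w ∈ D ∧ f (ψ w) = w := by
    intro w hw
    rw [← h.img] at hw
    exact ⟨Function.invFunOn_mem hw, Function.invFunOn_eq hw⟩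
  have hψ2 : ∀ z ∈ D, ψ (f z) = z := fun z hz => h.inj.leftInvOn_invFunOn hz
  have hc : ContinuousOn ψ (ball 0 1) := by
    rw [_root_.continuousOn_iff']
    intro V hV
    refine ⟨f '' (D ∩ V), h.open_map inter_subset_left (h.op.inter hV), ?_⟩
    ext w
    constructor
    · rintro ⟨hw1, hw2⟩
      exact ⟨⟨ψ w, ⟨(hψ1 w hw2).1, hw1⟩, (hψ1 w hw2).2⟩, hw2⟩
    · rintro ⟨⟨z, ⟨hz1, hz2⟩, rfl⟩, hw⟩
      refine ⟨?_, hw⟩
      rw [mem_preimage, hψ2 z hz1]
      exact hz2
  have he : D ∩ f ⁻¹' T = ψ '' T := by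
    ext z
    constructor
    · rintro ⟨h1, h2⟩
      exact ⟨f z, h2, hψ2 z h1⟩
    · rintro ⟨w, hw, rfl⟩
      refine ⟨(hψ1 w (hTb hw)).1, ?_⟩
      rw [mem_preimage, (hψ1 w (hTb hw)).2]
      exact hw
  rw [he]
  exact hT.image ψ (hc.mono hTb)

/-- the fibres on the frontier are connected -/
theorem fibre (h : CD D f) {ζ : ℂ} (hζ : ‖ζ‖ = 1) {K1 K2 : Set ℂ} (h1 : IsCompact K1)
    (h2 : IsCompact K2) (hd : Disjoint K1 K2)
    (hF : ∀ z ∈ frontier D, f z = ζ → z ∈ K1 ∪ K2)
    {p1 p2 : ℂ} (hp1 : p1 ∈ frontier D) (hp2 : p2 ∈ frontier D) (hf1 : f p1 = ζ)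
    (hf2 : f p2 = ζ) (hk1 : p1 ∈ K1) (hk2 : p2 ∈ K2) : False := by
  obtain ⟨U1, U2, hU1, hU2, hK1, hK2, hU⟩ := SeparatedNhds.of_isCompact_isCompact h1 h2 hd
  -- small values of `|f - ζ|` only in `U1 ∪ U2`
  obtain ⟨r, hr, hsub⟩ : ∃ r > 0, ∀ z ∈ closure D, ‖f z - ζ‖ < r → z ∈ U1 ∪ U2 := by
    have hC : IsCompact (closure D \ (U1 ∪ U2)) :=
      IsCompact.diff h.bd.isCompact_closure (hU1.union hU2)
    rcases (closure D \ (U1 ∪ U2)).eq_empty_or_nonempty with he | hne
    · refine ⟨1, one_pos, fun z hz _ => ?_⟩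
      by_contra hn
      have : z ∈ closure D \ (U1 ∪ U2) := ⟨hz, hn⟩
      rw [he] at this
      exact this
    · have hc : ContinuousOn (fun z => ‖f z - ζ‖) (closure D \ (U1 ∪ U2)) :=
        ((h.cont.mono sdiff_subset).sub continuousOn_const).norm
      obtain ⟨z0, hz0, hmin⟩ := hC.exists_isMinOn hne hc
      have hpos : 0 < ‖f z0 - ζ‖ := by
        rw [norm_pos_iff, sub_ne_zero]
        intro he
        by_cases hz0D : z0 ∈ D
        · have := h.mem_ball hz0D
          rw [he, hζ] at this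
          exact lt_irrefl _ this
        · have hfr : z0 ∈ frontier D := by
            rw [h.op.frontier_eq]
            exact ⟨hz0.1, hz0D⟩
          rcases hF z0 hfr he with hk | hk
          · exact hz0.2 (Or.inl (hK1 hk))
          · exact hz0.2 (Or.inr (hK2 hk))
      refine ⟨‖f z0 - ζ‖, hpos, fun z hz hlt => ?_⟩
      by_contra hn
      have := hmin (⟨hz, hn⟩ : z ∈ closure D \ (U1 ∪ U2))
      exact absurd hlt (not_lt.2 this)
  have hpre : IsPreconnected (D ∩ f ⁻¹' (ball 0 1 ∩ ball ζ r)) :=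
    h.pre ((convex_ball (0 : ℂ) 1).inter (convex_ball ζ r)).isPreconnected inter_subset_left
  have hmeet : ∀ (U : Set ℂ) (p : ℂ), IsOpen U → p ∈ U → p ∈ frontier D → f p = ζ →
      ((D ∩ f ⁻¹' (ball 0 1 ∩ ball ζ r)) ∩ U).Nonempty := by
    intro U p hUo hpU hp hfp
    have hpc : p ∈ closure D := frontier_subset_closure hp
    have hc : Tendsto f (𝓝[D] p) (𝓝 (f p)) :=
      (h.cont p hpc).mono_left (nhdsWithin_mono _ subset_closure)
    have hne : (𝓝[D] p).NeBot := mem_closure_iff_nhdsWithin_neBot.1 hpc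
    have e1 : ∀ᶠ y in 𝓝[D] p, f y ∈ ball ζ r := by
      apply hc
      rw [hfp]
      exact ball_mem_nhds _ hr
    have e2 : ∀ᶠ y in 𝓝[D] p, y ∈ U := nhdsWithin_le_nhds (hUo.mem_nhds hpU)
    have e3 : ∀ᶠ y in 𝓝[D] p, y ∈ D := self_mem_nhdsWithin
    obtain ⟨y, hy1, hy2, hy3⟩ := (e1.and (e2.and e3)).exists
    refine ⟨y, ⟨hy3, ?_, hy1⟩, hy2⟩
    rw [mem_ball_zero_iff]
    exact h.mem_ball hy3
  obtain ⟨x, _, hx1, hx2⟩ := hpre U1 U2 hU1 hU2
    (fun z hz => hsub z (subset_closure hz.1) (by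
      have := hz.2.2
      rwa [mem_ball_iff_norm] at this))
    (hmeet U1 p1 hU1 (hK1 hk1) hp1 hf1) (hmeet U2 p2 hU2 (hK2 hk2) hp2 hf2)
  exact disjoint_left.1 hU hx1 hx2

/-- the domain is contained in the interior of the curve -/
theorem sub_ji (h : CD D f) {γ : ℝ → ℂ} (hγD : curveTrace γ = frontier D) :
    D ⊆ jordanInterior γ := by
  intro z hz
  have hdis : ∀ y ∈ D, y ∉ curveTrace γ := by
    intro y hy h1
    rw [hγD, h.op.frontier_eq] at h1
    exact h1.2 hy
  refine ⟨hdis z hz, h.bd.subset ?_⟩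
  have hz' : z ∈ (curveTrace γ)ᶜ := hdis z hz
  have hpc : IsPreconnected (connectedComponentIn (curveTrace γ)ᶜ z) :=
    isPreconnected_connectedComponentIn
  intro y hy
  by_contra hyD
  obtain ⟨x, hx, hx1, hx2⟩ := hpc D (closure D)ᶜ h.op isClosed_closure.isOpen_compl
    (fun w hw => by
      by_cases hwD : w ∈ closure D
      · left
        by_contra hn
        apply connectedComponentIn_subset _ _ hw
        rw [hγD, h.op.frontier_eq]
        exact ⟨hwD, hn⟩
      · exact Or.inr hwD)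
    ⟨z, mem_connectedComponentIn hz', hz⟩
    ⟨y, hy, fun hyc => by
      apply connectedComponentIn_subset _ _ hy
      rw [hγD, h.op.frontier_eq]
      exact ⟨hyc, hyD⟩⟩
  exact hx2 (subset_closure hx1)

/-- near every boundary point there are points outside the closure -/
theorem exists_out (h : CD D f) {γ : ℝ → ℂ} (hγ : IsJordanCurve γ)
    (hγD : curveTrace γ = frontier D) {p : ℂ} (hp : p ∈ frontier D) {r : ℝ} (hr : 0 < r) :
    ∃ e ∈ ball p r, e ∉ closure D := by
  have hsub := h.sub_ji hγD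
  have hne : (jordanInterior γ).Nonempty := h.co.nonempty.mono hsub
  have hfr := frontier_ext hγ hne
  have hpe : p ∈ closure (ext γ) := by
    have : p ∈ frontier (ext γ) := by rw [hfr, hγD]; exact hp
    exact frontier_subset_closure this
  obtain ⟨e, he1, he2⟩ := Metric.mem_closure_iff.1 hpe r hr
  refine ⟨e, ?_, fun hec => ?_⟩
  · rw [Metric.mem_ball, dist_comm]
    exact he2
  · obtain ⟨y, hy1, hy2⟩ := mem_closure_iff.1 hec _ (isOpen_ext hγ) he1
    exact disjoint_left.1 (disj_ji_ext hγ) (hsub hy2) hy1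

/-- **no arc of the frontier is mapped to a point** -/
theorem no_arc (h : CD D f) {γ : ℝ → ℂ} (hγ : IsJordanCurve γ)
    (hγD : curveTrace γ = frontier D) {p : ℂ} (hp : p ∈ frontier D) {r : ℝ} (hr : 0 < r) {ζ : ℂ}
    (hζ : ‖ζ‖ = 1) (hf : ∀ z ∈ frontier D, z ∈ ball p r → f z = ζ) : False := by
  obtain ⟨q, hq1, hq2⟩ : ∃ q ∈ D, dist p q < r / 4 :=
    Metric.mem_closure_iff.1 (frontier_subset_closure hp) (r / 4) (by linarith)
  obtain ⟨e, he1, he2⟩ := h.exists_out hγ hγD hp (show 0 < r / 4 by linarith)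
  rw [Metric.mem_ball] at he1
  obtain ⟨δ, hδ, hball⟩ := Metric.isOpen_iff.1 isClosed_closure.isOpen_compl e he2
  have heq : e ≠ q := fun h1 => he2 (h1 ▸ subset_closure hq1)
  set s : ℝ := ‖e - q‖ with hs
  have hs0 : 0 < s := norm_pos_iff.2 (sub_ne_zero.2 heq)
  have hsr : s < r / 2 := by
    have h1 : dist e q ≤ dist e p + dist p q := dist_triangle _ _ _
    rw [dist_eq_norm] at h1
    linarith
  have hsub : closedBall q s ⊆ ball p r := by
    intro z hz
    rw [Metric.mem_closedBall] at hz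
    rw [Metric.mem_ball]
    have h1 : dist z p ≤ dist z q + dist q p := dist_triangle _ _ _
    rw [dist_comm q p] at h1
    linarith
  -- finitely many rotations
  obtain ⟨t, hts, htf, htc⟩ := finite_cover_balls_of_compact (isCompact_sphere (0 : ℂ) 1)
    (show 0 < δ / s by positivity)
  set T : Finset ℂ := htf.toFinset with hT
  have hTu : ∀ u ∈ T, ‖u‖ = 1 := by
    intro u hu
    have := hts (htf.mem_toFinset.1 hu)
    simpa using this
  set U : Set ℂ := {z | z ∈ ball q s ∧ ∀ u ∈ T, q + u * (z - q) ∈ D} with hU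
  have hUo : IsOpen U := by
    have : U = ball q s ∩ ⋂ u ∈ T, (fun z : ℂ => q + u * (z - q)) ⁻¹' D := by
      ext z
      simp [hU]
    rw [this]
    refine isOpen_ball.inter (isOpen_biInter_finset fun u _ => ?_)
    exact h.op.preimage (by fun_prop)
  have hUcl : ∀ z ∈ closure U, z ∈ closedBall q s ∧ ∀ u ∈ T, q + u * (z - q) ∈ closure D := by
    intro z hz
    refine ⟨closure_ball_subset_closedBall (closure_mono (fun y hy => hy.1) hz), ?_⟩
    intro u hu
    have hc : Continuous fun z : ℂ => q + u * (z - q) := by fun_prop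
    have h1 : (fun z : ℂ => q + u * (z - q)) z ∈ closure ((fun z : ℂ => q + u * (z - q)) '' U) :=
      image_closure_subset_closure_image hc (mem_image_of_mem _ hz)
    refine closure_mono ?_ h1
    rintro _ ⟨y, hy, rfl⟩
    exact hy.2 u hu
  let P : ℂ → ℂ := fun z => ∏ u ∈ T, (f (q + u * (z - q)) - ζ)
  have hcont : ContinuousOn P (closure U) := by
    refine continuousOn_finsetProd T fun u hu => ContinuousOn.sub ?_ continuousOn_const
    refine h.cont.comp (by fun_prop) fun z hz => (hUcl z hz).2 u hu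
  have hdiff : DifferentiableOn ℂ P U := by
    refine DifferentiableOn.fun_finsetProd fun u hu => ?_
    refine DifferentiableOn.sub ?_ (differentiableOn_const _)
    refine h.dif.comp (by fun_prop) fun z hz => hz.2 u hu
  have hfront : ∀ z ∈ frontier U, ‖P z‖ ≤ 0 := by
    intro z hz
    rw [hUo.frontier_eq] at hz
    obtain ⟨h1, h2⟩ := hUcl z hz.1
    have hnu : ∀ u ∈ T, dist (q + u * (z - q)) q ≤ s := by
      intro u hu
      rw [dist_eq_norm, add_sub_cancel_left, norm_mul, hTu u hu, one_mul, ← dist_eq_norm]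
      exact h1
    by_cases hzs : z ∈ ball q s
    · have h3 : ¬ ∀ u ∈ T, q + u * (z - q) ∈ D := fun h3 => hz.2 ⟨hzs, h3⟩
      push Not at h3
      obtain ⟨u, hu, hu'⟩ := h3
      have h4 : q + u * (z - q) ∈ frontier D := by
        rw [h.op.frontier_eq]
        exact ⟨h2 u hu, hu'⟩
      have h5 : f (q + u * (z - q)) = ζ := hf _ h4 (hsub (hnu u hu))
      have h6 : P z = 0 := Finset.prod_eq_zero hu (by rw [h5, sub_self])
      rw [h6, norm_zero]
    · exfalso
      have hzn : ‖z - q‖ = s := by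
        rw [Metric.mem_closedBall, dist_eq_norm] at h1
        rw [Metric.mem_ball, dist_eq_norm, not_lt] at hzs
        exact le_antisymm h1 hzs
      have hz0 : z - q ≠ 0 := by
        rw [← norm_pos_iff, hzn]
        exact hs0
      have hw : (e - q) / (z - q) ∈ sphere (0 : ℂ) 1 := by
        rw [mem_sphere_zero_iff_norm, norm_div, hzn]
        exact div_self hs0.ne'
      obtain ⟨u, hu, hu'⟩ := mem_iUnion₂.1 (htc hw)
      rw [mem_ball_iff_norm] at hu'
      have h3 : q + u * (z - q) ∈ ball e δ := by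
        rw [mem_ball_iff_norm]
        have e1 : q + u * (z - q) - e = -(((e - q) / (z - q) - u) * (z - q)) := by
          field_simp
          ring
        rw [e1, norm_neg, norm_mul, hzn]
        rw [lt_div_iff₀ hs0] at hu'
        exact hu'
      exact hball h3 (h2 u (htf.mem_toFinset.2 hu))
  have hb : Bornology.IsBounded U := isBounded_ball.subset fun y hy => hy.1
  have hqU : q ∈ U := by
    refine ⟨mem_ball_self hs0, fun u _ => ?_⟩
    rw [sub_self, mul_zero, add_zero]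
    exact hq1
  have h7 := Complex.norm_le_of_forall_mem_frontier_norm_le hb ⟨hdiff, hcont⟩ hfront
    (subset_closure hqU)
  have h8 : P q = 0 := norm_le_zero_iff.1 h7
  obtain ⟨u, _, hu⟩ := Finset.prod_eq_zero_iff.1 h8
  rw [sub_self, mul_zero, add_zero, sub_eq_zero] at hu
  have := h.mem_ball hq1
  rw [hu, hζ] at this
  exact lt_irrefl _ this

/-- an open piece of the trace with constant boundary value -/
theorem no_interval (h : CD D f) {γ : ℝ → ℂ} (hγ : IsJordanCurve γ)
    (hγD : curveTrace γ = frontier D) {ζ : ℂ} (hζ : ‖ζ‖ = 1) {u v : ℝ} (hu : 0 ≤ u) (huv : u < v)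
    (hv : v ≤ 1) (hf : ∀ t, u < t → t < v → f (γ t) = ζ) : False := by
  set m : ℝ := (u + v) / 2 with hm
  have hum : u < m := by rw [hm]; linarith
  have hmv : m < v := by rw [hm]; linarith
  have hmI : m ∈ Icc (0 : ℝ) 1 := ⟨by linarith, by linarith⟩
  have hp : γ m ∈ frontier D := by
    rw [← hγD]
    exact mem_image_of_mem _ hmI
  have hK : IsCompact (γ '' (Icc 0 u ∪ Icc v 1)) := by
    refine (isCompact_Icc.union isCompact_Icc).image_of_continuousOn (hγ.1.mono ?_)
    apply union_subset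
    · exact Icc_subset_Icc_right (by linarith)
    · exact Icc_subset_Icc_left (by linarith)
  have hnot : γ m ∉ γ '' (Icc 0 u ∪ Icc v 1) := by
    rintro ⟨t, ht, he⟩
    have htI : t ∈ Icc (0 : ℝ) 1 := by
      rcases ht with ht | ht
      · exact ⟨ht.1, by linarith [ht.2]⟩
      · exact ⟨by linarith [ht.1], ht.2⟩
    rcases inj_of hγ htI hmI he with h1 | ⟨_, h1⟩ | ⟨_, h1⟩
    · rcases ht with ht | ht
      · linarith [ht.2]
      · linarith [ht.1]
    · linarith
    · linarith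
  obtain ⟨r, hr, hball⟩ := Metric.isOpen_iff.1 hK.isClosed.isOpen_compl (γ m) hnot
  refine h.no_arc hγ hγD hp hr hζ ?_
  intro z hz hzr
  rw [← hγD] at hz
  obtain ⟨t, ht, rfl⟩ := hz
  have h1 : t ∉ Icc 0 u ∪ Icc v 1 := fun h2 => hball hzr (mem_image_of_mem _ h2)
  apply hf
  · by_contra h2
    exact h1 (Or.inl ⟨ht.1, not_lt.1 h2⟩)
  · by_contra h2
    exact h1 (Or.inr ⟨not_lt.1 h2, ht.2⟩)

/-- a fibre of two points of the frontier -/
theorem no_pair (h : CD D f) {γ : ℝ → ℂ} (hγ : IsJordanCurve γ)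
    (hγD : curveTrace γ = frontier D) {t1 t2 : ℝ} (h0 : 0 ≤ t1) (h12 : t1 < t2) (h1 : t2 < 1)
    (he : f (γ t1) = f (γ t2)) : False := by
  set ζ : ℂ := f (γ t1) with hζd
  have ht1 : t1 ∈ Icc (0 : ℝ) 1 := ⟨h0, by linarith⟩
  have ht2 : t2 ∈ Icc (0 : ℝ) 1 := ⟨by linarith, h1.le⟩
  have hp1 : γ t1 ∈ frontier D := by rw [← hγD]; exact mem_image_of_mem _ ht1
  have hp2 : γ t2 ∈ frontier D := by rw [← hγD]; exact mem_image_of_mem _ ht2
  have hζ : ‖ζ‖ = 1 := h.norm_eq hp1
  by_cases hA : ∀ t, t1 < t → t < t2 → f (γ t) = ζ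
  · exact h.no_interval hγ hγD hζ h0 h12 h1.le hA
  by_cases hB : ∀ t, t2 < t → t < 1 → f (γ t) = ζ
  · exact h.no_interval hγ hγD hζ ht2.1 h1 le_rfl hB
  push Not at hA hB
  obtain ⟨a, ha1, ha2, ha3⟩ := hA
  obtain ⟨b, hb1, hb2, hb3⟩ := hB
  -- the two arcs
  have hfr : IsClosed (frontier D) := isClosed_frontier
  have hFc : IsClosed {z | z ∈ frontier D ∧ f z = ζ} := by
    have h2 : ContinuousOn f (frontier D) := h.cont.mono frontier_subset_closure
    have := h2.preimage_isClosed_of_isClosed hfr (isClosed_singleton (x := ζ))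
    exact this
  have hsubI : ∀ x y : ℝ, 0 ≤ x → y ≤ 1 → Icc x y ⊆ Icc (0 : ℝ) 1 := fun x y hx hy =>
    Icc_subset_Icc hx hy
  have c1 : IsCompact (γ '' (Icc 0 a ∪ Icc b 1)) := by
    refine (isCompact_Icc.union isCompact_Icc).image_of_continuousOn (hγ.1.mono ?_)
    exact union_subset (hsubI _ _ le_rfl (by linarith)) (hsubI _ _ (by linarith) le_rfl)
  have c2 : IsCompact (γ '' Icc a b) := by
    refine isCompact_Icc.image_of_continuousOn (hγ.1.mono ?_)
    exact hsubI _ _ (by linarith) (by linarith)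
  refine h.fibre hζ (c1.inter_right hFc) (c2.inter_right hFc) ?_ ?_ hp1 hp2 rfl he.symm
    ⟨mem_image_of_mem _ (Or.inl ⟨h0, ha1.le⟩), hp1, rfl⟩
    ⟨mem_image_of_mem _ ⟨ha2.le, hb1.le⟩, hp2, he.symm⟩
  · rw [disjoint_left]
    rintro z ⟨⟨s, hs, rfl⟩, _, hz⟩ ⟨⟨t, ht, hst⟩, _⟩
    have hsI : s ∈ Icc (0 : ℝ) 1 := by
      rcases hs with hs | hs
      · exact ⟨hs.1, by linarith [hs.2]⟩
      · exact ⟨by linarith [hs.1], hs.2⟩
    have htI : t ∈ Icc (0 : ℝ) 1 := ⟨by linarith [ht.1], by linarith [ht.2]⟩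
    rcases inj_of hγ hsI htI hst.symm with h3 | ⟨_, h3⟩ | ⟨_, h3⟩
    · rcases hs with hs | hs
      · have : s = a := le_antisymm hs.2 (by rw [h3]; exact ht.1)
        exact ha3 (by rw [← this]; exact hz)
      · have : s = b := le_antisymm (by rw [h3]; exact ht.2) hs.1
        exact hb3 (by rw [← this]; exact hz)
    · linarith [ht.2]
    · linarith [ht.1]
  · intro z hz hfz
    have hz' := hz
    rw [← hγD] at hz'
    obtain ⟨t, ht, rfl⟩ := hz'
    by_cases h3 : t < a
    · exact Or.inl ⟨mem_image_of_mem _ (Or.inl ⟨ht.1, h3.le⟩), hz, hfz⟩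
    · by_cases h4 : t < b
      · exact Or.inr ⟨mem_image_of_mem _ ⟨not_lt.1 h3, h4.le⟩, hz, hfz⟩
      · exact Or.inl ⟨mem_image_of_mem _ (Or.inr ⟨not_lt.1 h4, ht.2⟩), hz, hfz⟩

/-- **(B)** -/
theorem injOn (h : CD D f) {γ : ℝ → ℂ} (hγ : IsJordanCurve γ)
    (hγD : curveTrace γ = frontier D) : InjOn f (closure D) := by
  have hcl : ∀ z ∈ closure D, z ∈ D ∨ z ∈ frontier D := by
    intro z hz
    by_cases hzD : z ∈ D
    · exact Or.inl hzD
    · right
      rw [h.op.frontier_eq]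
      exact ⟨hz, hzD⟩
  have hpar : ∀ z ∈ frontier D, ∃ t ∈ Ico (0 : ℝ) 1, γ t = z := by
    intro z hz
    rw [← hγD] at hz
    obtain ⟨t, ht, rfl⟩ := hz
    rcases eq_or_lt_of_le ht.2 with h1 | h1
    · exact ⟨0, ⟨le_rfl, one_pos⟩, by rw [h1]; exact hγ.2.2⟩
    · exact ⟨t, ⟨ht.1, h1⟩, rfl⟩
  intro z hz w hw he
  rcases hcl z hz with hz | hz <;> rcases hcl w hw with hw | hw
  · exact h.inj hz hw he
  · have h1 := h.mem_ball hz
    rw [he, h.norm_eq hw] at h1
    exact absurd h1 (lt_irrefl _)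
  · have h1 := h.mem_ball hw
    rw [← he, h.norm_eq hz] at h1
    exact absurd h1 (lt_irrefl _)
  · obtain ⟨s, hs, rfl⟩ := hpar z hz
    obtain ⟨t, ht, rfl⟩ := hpar w hw
    rcases lt_trichotomy s t with h1 | h1 | h1
    · exact (h.no_pair hγ hγD hs.1 h1 ht.2 he).elim
    · rw [h1]
    · exact (h.no_pair hγ hγD ht.1 h1 hs.2 he.symm).elim

end CD

end Crest.Agent.R143.Carax877
end
end

-- ▼ part R143/CaraB_877
section

/-! # Row 143, leaf CARA: (A), (B) for the structure `CD` of `Cara2_723` (helper877) -/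

set_option autoImplicit false

noncomputable section

namespace Crest.Agent.R143.CaraBx877

open Set Metric
open Crest.ProbabilityR.Percolation

variable {D : Set ℂ} {f : ℂ → ℂ}

theorem cd (h : Cara2x723.CD D f) : Carax877.CD D f :=
  ⟨h.op, h.bd, h.co, h.cont, h.dif, h.inj, h.img⟩

/-- **(A)** -/
theorem norm_eq (h : Cara2x723.CD D f) : ∀ z ∈ frontier D, ‖f z‖ = 1 :=
  fun _ hz => (cd h).norm_eq hz

/-- **(B)** -/
theorem injOn (h : Cara2x723.CD D f) {γ : ℝ → ℂ} (hγ : IsJordanCurve γ)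
    (hγD : curveTrace γ = frontier D) : InjOn f (closure D) := (cd h).injOn hγ hγD

end Crest.Agent.R143.CaraBx877
end
end

-- ▼ part R143/Cara4_723
section

/-!
# Row 143 (S0194), block D: leaf CARA of `Cfg_416` (helper723, with helper877)
-/

set_option autoImplicit false

noncomputable section

open Set Topology Filter Metric Complex

namespace Crest.Agent.R143.Cara4x723

open Crest.Agent.R158.Jt785 Crest.Agent.R143.Spinex422 Crest.Agent.R143.Cara2x723
  Crest.Agent.R143.Cara3x723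

/-- **CARA** -/
theorem cara : Cfgx416.CARA := by
  intro S b hb hbd hφb
  have hn : ∀ z ∈ frontier S.D, ‖fD S z‖ = 1 := CaraBx877.norm_eq (cd S)
  have hi : InjOn (fD S) (closure S.D) := CaraBx877.injOn (cd S) (jordan S) (trace S)
  obtain ⟨g, h1, h2, h3, a1, a2, a3, a4, -, g1, -, g3⟩ := cara_of S hn hi
  refine ⟨g, fD S, h1, h2, ?_, g3, a1, a2, a3, a4⟩
  have hg : g (1 / 4) ∈ frontier S.D := by
    rw [← h3]
    exact ⟨1 / 4, ⟨by norm_num, by norm_num⟩, rfl⟩
  refine hi (frontier_subset_closure hg) (frontier_subset_closure hb) ?_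
  rw [fD_ne S g1.1, fD_ne S hbd, g1.2, hφb]

end Crest.Agent.R143.Cara4x723
end
end

-- ▼ part R143/D4A_304
section

/-!
# Row 143 (S0194), leaf D4COL, part A : good positions (helper304)

* `posOf`, `colOf` : positions and colours of a sample; `posOf_mp`
* `PG C K ε ω` : good positions (general position, no holes, no site on the rays)
* `GP0 C K ε : Set Pos` measurable set of good positions, `Pm C K ε = posOf ⁻¹' GP0`
* `pm_prob`, `pm_env` : the clauses (1)-(3) of `D4COL`
* `pg_dns`, `pg_ray` : dense sites, existence and uniqueness of the ray edges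
-/

set_option autoImplicit false
set_option linter.all false

noncomputable section

open scoped Classical

namespace Crest.Agent.R143.D4Ax304

open MeasureTheory Set Filter Topology
open Crest.ProbabilityR.Voronoi
open Crest.Agent.R143.B0x346 Crest.Agent.R143.B0Dx346 Crest.Agent.R143.DelGx806
  Crest.Agent.R143.DelRx806 Crest.Agent.R143.DomAx722 Crest.Agent.R143.Measx304
  Crest.Agent.R143.Lawx831 Crest.Agent.R143.Y5Dx831 Crest.Agent.R143.Y8Dx831
  Crest.Agent.R143.PP1x831 Crest.Agent.R143.Cfgx416 Crest.Agent.R143.M5x304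

local notation "smk" => Crest.Agent.R143.Lawx831.mk

/-! ### positions and colours -/

/-- the positions of a sample -/
def posOf (ω : Sample) : Pos := fun k => (ω.1 k, fun j => (ω.2 k j 0, ω.2 k j 1))

/-- the colours of a sample -/
def colOf (ω : Sample) : Col := fun i => ω.2 i.1 i.2 2

theorem mk_pos_col (ω : Sample) : smk (posOf ω) (colOf ω) = ω := by
  unfold Crest.Agent.R143.Lawx831.mk posOf colOf
  refine Prod.ext rfl ?_
  funext k j i
  fin_cases i <;> rfl

theorem posOf_mk (p : Pos) (c : Col) : posOf (smk p c) = p := by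
  unfold Crest.Agent.R143.Lawx831.mk posOf
  funext k
  exact Prod.ext rfl (funext fun j => rfl)

theorem posOf_meas : Measurable posOf := by
  refine measurable_pi_iff.2 fun k => Measurable.prodMk ?_ (measurable_pi_iff.2 fun j => ?_)
  · exact (measurable_pi_apply k).comp measurable_fst
  · have h : Measurable fun ω : Sample => ω.2 k j :=
      (measurable_pi_apply j).comp ((measurable_pi_apply k).comp measurable_snd)
    exact ((measurable_pi_apply 0).comp h).prodMk ((measurable_pi_apply 1).comp h)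

theorem posOf_mp : MeasurePreserving posOf sampleLaw posLaw := by
  refine mp_of_comp mp_mk posOf_meas ?_
  have e : posOf ∘ (fun q : Pos × Col => smk q.1 q.2) = Prod.fst := by
    funext q
    exact posOf_mk q.1 q.2
  rw [e]
  exact measurePreserving_fst

/-! ### good positions -/

/-- good positions for `C` -/
structure PG (C : Cfg 4) (K ε : ℝ) (ω : Sample) : Prop where
  gp : GP (points ε ω)
  inj : ∀ p ∈ present ω, ∀ q ∈ present ω,
    point ε ω (p.1, p.2.1) p.2.2 = point ε ω (q.1, q.2.1) q.2.2 → p = q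
  fin : ∀ r : ℝ, (points ε ω ∩ Metric.closedBall 0 r).Finite
  hole : ∀ z ∈ Metric.closedBall (0 : ℂ) (‖C.c‖ + C.L),
    (points ε ω ∩ Metric.ball z (rad K ε)).Nonempty
  ray : ∀ k : ZMod 4, ∀ v ∈ points ε ω, ∀ t : ℝ, v ≠ C.c + t * C.q k

variable {C : Cfg 4} {K ε : ℝ} {ω : Sample}

theorem points_c (ε : ℝ) (p : Pos) (c c' : Col) : points ε (smk p c) = points ε (smk p c') := by
  rw [points_mk, points_mk]

theorem pg_mk_imp {p : Pos} {c c' : Col} (h : PG C K ε (smk p c)) : PG C K ε (smk p c') := by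
  have e := points_c ε p c c'
  refine ⟨?_, ?_, ?_, ?_, ?_⟩
  · rw [← e]; exact h.gp
  · intro i hi j hj hij
    refine h.inj i ?_ j ?_ ?_
    · rw [present_mk] at hi ⊢; exact hi
    · rw [present_mk] at hj ⊢; exact hj
    · rw [point_mk, point_mk] at hij ⊢; exact hij
  · rw [← e]; exact h.fin
  · rw [← e]; exact h.hole
  · rw [← e]; exact h.ray

theorem pg_mk (p : Pos) (c c' : Col) : PG C K ε (smk p c) ↔ PG C K ε (smk p c') :=
  ⟨pg_mk_imp, pg_mk_imp⟩

/-- the measurable set of good positions -/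
def GP0 (C : Cfg 4) (K ε : ℝ) : Set Pos :=
  (toMeasurable posLaw {p | ¬ PG C K ε (smk p fun _ => 0)})ᶜ

theorem GP0_meas (C : Cfg 4) (K ε : ℝ) : MeasurableSet (GP0 C K ε) :=
  (measurableSet_toMeasurable _ _).compl

theorem pg_of_GP0 {p : Pos} (h : p ∈ GP0 C K ε) (c : Col) : PG C K ε (smk p c) := by
  have h1 : PG C K ε (smk p fun _ => 0) := by
    by_contra hcon
    exact h (subset_toMeasurable _ _ hcon)
  exact pg_mk_imp h1

/-- the good samples -/
def Pm (C : Cfg 4) (K ε : ℝ) : Set Sample := posOf ⁻¹' GP0 C K ε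

theorem Pm_meas (C : Cfg 4) (K ε : ℝ) : MeasurableSet (Pm C K ε) := posOf_meas (GP0_meas C K ε)

theorem mk_mem_Pm (p : Pos) (c : Col) : smk p c ∈ Pm C K ε ↔ p ∈ GP0 C K ε := by
  unfold Pm
  rw [mem_preimage, posOf_mk]

theorem pg_of_Pm (h : ω ∈ Pm C K ε) : PG C K ε ω := by
  have := pg_of_GP0 h (colOf ω)
  rwa [mk_pos_col] at this

/-- the probability of the bad positions is at most the (outer) probability of the bad samples -/
theorem Pm_compl_le (C : Cfg 4) (K ε : ℝ) :
    sampleLaw (Pm C K ε)ᶜ ≤ sampleLaw {ω | ¬ PG C K ε ω} := by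
  have e1 : (Pm C K ε)ᶜ = posOf ⁻¹' (toMeasurable posLaw {p | ¬ PG C K ε (smk p fun _ => 0)}) := by
    unfold Pm GP0
    rw [preimage_compl, compl_compl]
  rw [e1, posOf_mp.measure_preimage (measurableSet_toMeasurable _ _).nullMeasurableSet,
    measure_toMeasurable]
  have e2 : posLaw {p | ¬ PG C K ε (smk p fun _ => 0)} =
      (posLaw.prod colLaw) ({p | ¬ PG C K ε (smk p fun _ => 0)} ×ˢ univ) := by
    rw [Measure.prod_prod, measure_univ, mul_one]
  rw [e2]
  have e3 : ({p | ¬ PG C K ε (smk p fun _ => 0)} ×ˢ univ : Set (Pos × Col)) =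
      (fun q : Pos × Col => smk q.1 q.2) ⁻¹' {ω | ¬ PG C K ε ω} := by
    ext ⟨p, c⟩
    simp only [mem_prod, mem_univ, and_true, mem_preimage, mem_ofPred_eq]
    exact not_congr (pg_mk p _ _)
  rw [e3]
  have h := Measure.le_map_apply (μ := posLaw.prod colLaw) (measurable_mk.aemeasurable)
    {ω | ¬ PG C K ε ω}
  rw [mp_mk.map_eq] at h
  exact h

theorem ev_small {L : ℝ} (hL : 0 < L) (K : ℝ) (hK : 0 < K) :
    ∀ᶠ ε : ℝ in 𝓝[>] 0, 0 < ε ∧ 0 < rad K ε ∧ rad K ε < L := by
  have h8 : ∀ᶠ ε : ℝ in 𝓝[>] 0, rad K ε < L := (rad_small K).eventually_lt_const hL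
  have h1 : ∀ᶠ ε : ℝ in 𝓝[>] 0, ε < 1 := by
    refine nhdsWithin_le_nhds ?_
    exact Iio_mem_nhds one_pos
  filter_upwards [h8, h1, self_mem_nhdsWithin] with ε h8 h1 hpos
  have hpos' : (0 : ℝ) < ε := hpos
  refine ⟨hpos', ?_, h8⟩
  unfold rad
  have : 0 < Real.log (1 / ε) := Real.log_pos (by rw [lt_div_iff₀ hpos']; linarith)
  positivity

/-- **clause (2)** -/
theorem pm_prob (C : Cfg 4) (hq : ∀ k, ‖C.q k‖ = 1) : ∃ K : ℝ, 0 < K ∧
    ∀ᶠ ε : ℝ in 𝓝[>] 0, sampleLaw (Pm C K ε)ᶜ ≤ ENNReal.ofReal (ε ^ (10 : ℝ)) := by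
  obtain ⟨K, hK, hev⟩ := Crest.Agent.R143.PoisM3cx501.m3c (‖C.c‖ + C.L) 10
  refine ⟨K, hK, ?_⟩
  filter_upwards [hev, self_mem_nhdsWithin] with ε hε hpos
  have hpos' : (0 : ℝ) < ε := hpos
  refine (Pm_compl_le C K ε).trans (le_trans (measure_mono_ae ?_) hε)
  have hray : ∀ k : ZMod 4, ∀ᵐ ω ∂sampleLaw, ∀ v ∈ points ε ω, ∀ t : ℝ, v ≠ C.c + t * C.q k :=
    fun k => ray_null hpos' C.c (fun h => by
      have := hq k; rw [h, norm_zero] at this; norm_num at this)
  filter_upwards [Crest.Agent.R143.PoisM3x930.m3a ε hpos', ae_all_iff.2 hray] with ω h1 h2 hn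
  by_contra hcon
  apply hn
  refine ⟨h1.1, h1.2.1, h1.2.2, fun z hz => ?_, h2⟩
  rw [Set.nonempty_iff_ne_empty]
  exact fun h => hcon ⟨z, hz, h⟩

/-- **clause (3)** -/
theorem pm_env {K : ℝ} (hK : 0 < K) (C : Cfg 4) {d : ℝ} (hd : 0 < d) :
    ∀ᶠ ε : ℝ in 𝓝[>] 0, ∀ ω ∈ Pm C K ε, ∃ M : ℝ, Env ε d M C.c C.L ω := by
  filter_upwards [ev_small hd K hK] with ε hε ω hω
  have h := pg_of_Pm hω
  exact Crest.Agent.R143.EQ5x63.env_of (D := C.dom) (R := ‖C.c‖ + C.L) le_rfl hd h.gp h.fin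
    fun z hz => (h.hole z hz).mono (inter_subset_inter_right _
      (Metric.ball_subset_ball hε.2.2.le))

/-! ### the ray edges -/

theorem pg_finD (h : PG C K ε ω) :
    (points ε ω ∩ Metric.closedBall C.dom.c C.dom.L).Finite := by
  refine (h.fin (‖C.c‖ + C.L)).subset ?_
  rintro z ⟨hz, hz2⟩
  refine ⟨hz, ?_⟩
  rw [Metric.mem_closedBall, dist_eq_norm] at hz2 ⊢
  change ‖z - C.c‖ ≤ C.L at hz2
  rw [sub_zero]
  calc ‖z‖ = ‖C.c + (z - C.c)‖ := by congr 1; ring
    _ ≤ ‖C.c‖ + ‖z - C.c‖ := norm_add_le _ _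
    _ ≤ _ := by linarith

theorem pg_dns (h : PG C K ε ω) (hr : 0 < rad K ε) (h8 : rad K ε < C.L / 8) :
    Dns (C.dom.sites ε ω) C.c C.L (rad K ε) := by
  have hfin := pg_finD h
  refine ⟨gp_mono (fun s hs => ((mem_sites hfin).1 hs).1) h.gp, hr, by linarith,
    fun s hs => ((mem_sites hfin).1 hs).2, fun z hz => ?_⟩
  have hL : 0 < C.L := by linarith
  have hz0 : z ∈ Metric.closedBall (0 : ℂ) (‖C.c‖ + C.L) := by
    rw [Metric.mem_closedBall, dist_eq_norm, sub_zero]
    calc ‖z‖ = ‖C.c + (z - C.c)‖ := by congr 1; ring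
      _ ≤ ‖C.c‖ + ‖z - C.c‖ := norm_add_le _ _
      _ ≤ _ := by linarith
  obtain ⟨s, hs1, hs2⟩ := h.hole z hz0
  rw [Metric.mem_ball, dist_eq_norm] at hs2
  refine ⟨s, (mem_sites hfin).2 ⟨hs1, ?_⟩, hs2⟩
  change ‖s - C.c‖ ≤ C.L
  calc ‖s - C.c‖ = ‖(s - z) + (z - C.c)‖ := by congr 1; ring
    _ ≤ ‖s - z‖ + ‖z - C.c‖ := norm_add_le _ _
    _ ≤ C.L := by linarith

theorem pg_uniq (h : PG C K ε ω) (hr : 0 < rad K ε) (h8 : rad K ε < C.L / 8) (k : ZMod 4)
    {p p' : ℂ × ℂ} (hp : crossRay (C.dom.sites ε ω) C.c (C.q k) p)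
    (hp' : crossRay (C.dom.sites ε ω) C.c (C.q k) p') : p = p' := by
  have hS := pg_dns h hr h8
  have hfin := pg_finD h
  refine uniq_cross hS.gp (fun a b hab => ?_) (fun s hs t ht => ?_) hp hp'
  · have h1 := edge_dist hS hab
    have h2 : 0 < ‖b - a‖ := norm_pos_iff.2 (sub_ne_zero.2 (hullE.ne hab).symm)
    have h3 := hS.dpos
    have h4 := hS.dL
    exact lt_of_lt_of_le (mul_pos (by linarith) h2) h1
  · exact (h.ray k s ((mem_sites hfin).1 hs).1 t).symm

theorem pg_ray (h : PG C K ε ω) (hq : ∀ k, ‖C.q k‖ = 1) (hr : 0 < rad K ε)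
    (h8 : rad K ε < C.L / 8) (k : ZMod 4) :
    crossRay (C.dom.sites ε ω) C.c (C.q k) (C.ray (C.dom.sites ε ω) k) :=
  rayMark_spec (crossRay_exists (pg_dns h hr h8) (hq k))

theorem pg_ray_iff (h : PG C K ε ω) (hq : ∀ k, ‖C.q k‖ = 1) (hr : 0 < rad K ε)
    (h8 : rad K ε < C.L / 8) (k : ZMod 4) (p : ℂ × ℂ) :
    C.ray (C.dom.sites ε ω) k = p ↔ crossRay (C.dom.sites ε ω) C.c (C.q k) p := by
  constructor
  · rintro rfl
    exact pg_ray h hq hr h8 k
  · intro hp
    exact pg_uniq h hr h8 k (pg_ray h hq hr h8 k) hp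

end Crest.Agent.R143.D4Ax304
end
end

-- ▼ part R143/D4B_304
section

/-!
# Row 143 (S0194), leaf D4COL, part B : measurability (helper304)

* `Dt V` : the finite data (Delaunay triangles, cells meeting the regions, ray edges, black sites)
* `clsV`, `innV`, `crsV`, `prV` : classes, inner sites, crossings, probability in terms of the data
* `cls_img`, `inn_img`, `crs_img`, `pr_img` : transport from the sites
* `aesm_pr`, `meas_NX` : measurability on `Pm`
-/

set_option autoImplicit false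
set_option linter.all false

noncomputable section

open scoped Classical

namespace Crest.Agent.R143.D4Bx304

open MeasureTheory Set Filter Topology
open Crest.ProbabilityR.Voronoi
open Crest.Agent.R143.B0x346 Crest.Agent.R143.B0Dx346 Crest.Agent.R143.DelGx806
  Crest.Agent.R143.DelRx806 Crest.Agent.R143.DomAx722 Crest.Agent.R143.Measx304
  Crest.Agent.R143.Lawx831 Crest.Agent.R143.Y5Dx831 Crest.Agent.R143.Y8Dx831
  Crest.Agent.R143.PP1x831 Crest.Agent.R143.Cfgx416 Crest.Agent.R143.M5x304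
  Crest.Agent.R143.D4Ax304

/-! ### the finite data -/

/-- data on the finite vertex set `V` : triangles, cells meeting regions, ray edges, black sites -/
abbrev Dt (V : Type) : Type :=
  (V → V → V → Prop) × (V → ZMod 4 → Prop) × (ZMod 4 → V → V → Prop) × (V → Prop)

variable {V : Type}

def adjV (d : Dt V) (i j : V) : Prop := ∃ k, d.1 i j k ∨ d.1 j i k

def hullV (d : Dt V) (i j : V) : Prop := (∃ k, d.1 i j k) ∧ ∀ k, ¬ d.1 j i k

def harcV (d : Dt V) (k : ZMod 4) (v : V) : Prop := ∃ a r, d.2.2.1 k a r ∧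
  Relation.ReflTransGen (fun a b => hullV d a b ∧ ∀ k', ¬ d.2.2.1 k' a b) r v

def clsV (d : Dt V) (i : ZMod 4) (v : V) : Prop := d.2.1 v i ∨ harcV d i v

def innV [Fintype V] (d : Dt V) : Finset V := Finset.univ.filter fun v => ∀ i, ¬ clsV d i v

def crsV (d : Dt V) (T : Set V) (i : ZMod 4) : Prop := ∃ a b, clsV d i a ∧ clsV d (i + 2) b ∧
  Relation.ReflTransGen (fun x y => adjV d x y ∧ (y ∈ T ∨ clsV d i y ∨ clsV d (i + 2) y)) a b

def prV [Fintype V] (d : Dt V) (i : ZMod 4) : ℝ :=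
  (((innV d).powerset.filter fun T : Finset V => crsV d (T : Set V) i).card : ℝ) /
    2 ^ (innV d).card

/-! ### transport -/

theorem rtg_img {x : V → ℂ} {R : ℂ → ℂ → Prop} (hR : ∀ a b, R a b → b ∈ range x) {i : V} {b : ℂ} :
    Relation.ReflTransGen R (x i) b ↔
      ∃ j, b = x j ∧ Relation.ReflTransGen (fun a b => R (x a) (x b)) i j := by
  constructor
  · intro h
    induction h with
    | refl => exact ⟨i, rfl, Relation.ReflTransGen.refl⟩
    | tail _ h2 ih =>
      obtain ⟨j, rfl, hj⟩ := ih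
      obtain ⟨k, hk⟩ := hR _ _ h2
      subst hk
      exact ⟨k, rfl, hj.tail h2⟩
  · rintro ⟨j, rfl, hj⟩
    induction hj with
    | refl => exact Relation.ReflTransGen.refl
    | tail _ h2 ih => exact ih.tail h2

variable [Fintype V]

/-- the data of the configuration `x` with the black sites `B` -/
def dat (C : Cfg 4) (x : V → ℂ) (B : V → Prop) : Dt V :=
  (fun i j k => DelX x i j k,
    fun i r => (voronoiCell (range x) (x i) ∩ C.R r).Nonempty,
    fun k i j => HullX x i j ∧ SegX C.c (C.q k) x i j, B)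

/-- the ray edges of the configuration are unique -/
def RayOK (C : Cfg 4) (x : V → ℂ) : Prop := ∀ k p, C.ray (Finset.univ.image x) k = p ↔
  crossRay (Finset.univ.image x) C.c (C.q k) p

variable {C : Cfg 4} {x : V → ℂ} {B : V → Prop}

theorem adj_img (i j : V) : Adj (Finset.univ.image x) (x i) (x j) ↔ adjV (dat C x B) i j := by
  unfold Adj adjV
  constructor
  · rintro ⟨c, hc⟩
    have hm : c ∈ Finset.univ.image x := by
      rcases hc with hc | hc
      · obtain ⟨o, hc⟩ := mem_delT_iff.1 hc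
        exact hc.mc
      · obtain ⟨o, hc⟩ := mem_delT_iff.1 hc
        exact hc.mc
    obtain ⟨k, -, rfl⟩ := Finset.mem_image.1 hm
    refine ⟨k, ?_⟩
    rwa [delT_img, delT_img] at hc
  · rintro ⟨k, hk⟩
    refine ⟨x k, ?_⟩
    rwa [delT_img, delT_img]

theorem adj_mem {a b : ℂ} (h : Adj (Finset.univ.image x) a b) : b ∈ range x := by
  obtain ⟨c, hc⟩ := h
  have hm : b ∈ Finset.univ.image x := by
    rcases hc with hc | hc
    · obtain ⟨o, hc⟩ := mem_delT_iff.1 hc
      exact hc.mb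
    · obtain ⟨o, hc⟩ := mem_delT_iff.1 hc
      exact hc.ma
  obtain ⟨k, -, rfl⟩ := Finset.mem_image.1 hm
  exact ⟨k, rfl⟩

theorem hull_mem {a b : ℂ} (h : hullE (Finset.univ.image x) a b) : a ∈ range x ∧ b ∈ range x := by
  obtain ⟨h1, h2⟩ := hullE.mem h
  obtain ⟨i, -, rfl⟩ := Finset.mem_image.1 h1
  obtain ⟨j, -, rfl⟩ := Finset.mem_image.1 h2
  exact ⟨⟨i, rfl⟩, ⟨j, rfl⟩⟩

theorem harc_img (hr : RayOK C x) (i : ZMod 4) (v : V) (hx : Function.Injective x) :
    x v ∈ C.harc (Finset.univ.image x) i ↔ harcV (dat C x B) i v := by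
  have hrel : (fun a b : V => hullE (Finset.univ.image x) (x a) (x b) ∧
      ∀ k, C.ray (Finset.univ.image x) k ≠ (x a, x b)) =
      fun a b => hullV (dat C x B) a b ∧ ∀ k', ¬ (dat C x B).2.2.1 k' a b := by
    funext a b
    refine propext (and_congr (hullE_img x a b) (forall_congr' fun k => not_congr ?_))
    rw [hr k, crossRay_img]
    rfl
  have hray := (hr i (C.ray (Finset.univ.image x) i)).1 rfl
  obtain ⟨a, r, har⟩ := crossRay_ex hray
  unfold Cfg.harc harcV
  rw [mem_ofPred_eq, har]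
  have key := rtg_img (x := x) (R := fun a b => hullE (Finset.univ.image x) a b ∧
    ∀ k, C.ray (Finset.univ.image x) k ≠ (a, b)) (fun a b h => (hull_mem h.1).2) (i := r)
    (b := x v)
  dsimp only
  rw [key]
  constructor
  · rintro ⟨j, hj, h⟩
    have := hx hj
    subst this
    refine ⟨a, r, ?_, ?_⟩
    · rw [har] at hray
      exact (crossRay_img x _ _ _ _).1 hray
    · rw [← hrel]
      exact h
  · rintro ⟨a', r', h1, h2⟩
    have h3 : crossRay (Finset.univ.image x) C.c (C.q i) (x a', x r') :=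
      (crossRay_img x _ _ _ _).2 h1
    have h4 := (hr i _).2 h3
    rw [har] at h4
    have h5 := hx (Prod.ext_iff.1 h4).2
    subst h5
    refine ⟨v, rfl, ?_⟩
    rw [← hrel] at h2
    exact h2

theorem harc_sub (hr : RayOK C x) (i : ZMod 4) : C.harc (Finset.univ.image x) i ⊆ range x := by
  have hray := (hr i (C.ray (Finset.univ.image x) i)).1 rfl
  obtain ⟨a, r, har⟩ := crossRay_ex hray
  intro v hv
  unfold Cfg.harc at hv
  rw [mem_ofPred_eq, har] at hv
  have key := rtg_img (x := x) (R := fun a b => hullE (Finset.univ.image x) a b ∧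
    ∀ k, C.ray (Finset.univ.image x) k ≠ (a, b)) (fun a b h => (hull_mem h.1).2) (i := r)
    (b := v)
  obtain ⟨j, rfl, -⟩ := key.1 hv
  exact ⟨j, rfl⟩

theorem cls_img (hr : RayOK C x) (hx : Function.Injective x) (i : ZMod 4) (v : V) :
    x v ∈ C.cls (Finset.univ.image x) i ↔ clsV (dat C x B) i v := by
  unfold Cfg.cls clsV
  rw [mem_union, harc_img (B := B) hr i v hx]
  refine or_congr ?_ Iff.rfl
  rw [mem_ofPred_eq]
  unfold cell
  rw [coe_img]
  constructor
  · rintro ⟨-, h⟩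
    exact h
  · intro h
    exact ⟨Finset.mem_image_of_mem x (Finset.mem_univ v), h⟩

theorem cls_sub (hr : RayOK C x) (i : ZMod 4) : C.cls (Finset.univ.image x) i ⊆ range x := by
  rintro v (⟨hv, -⟩ | hv)
  · obtain ⟨j, -, rfl⟩ := Finset.mem_image.1 hv
    exact ⟨j, rfl⟩
  · exact harc_sub hr i hv

theorem inn_img (hr : RayOK C x) (hx : Function.Injective x) :
    C.inn (Finset.univ.image x) = (innV (dat C x B)).image x := by
  ext v
  unfold Cfg.inn innV
  simp only [Finset.mem_filter, Finset.mem_image, Finset.mem_univ, true_and]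
  constructor
  · rintro ⟨⟨j, rfl⟩, h⟩
    exact ⟨j, fun i hi => h i ((cls_img hr hx i j).2 hi), rfl⟩
  · rintro ⟨j, h, rfl⟩
    exact ⟨⟨j, rfl⟩, fun i hi => h i ((cls_img hr hx i j).1 hi)⟩

theorem crs_img (hr : RayOK C x) (hx : Function.Injective x) (T : Set ℂ) (i : ZMod 4) :
    C.Crs (Finset.univ.image x) T i ↔ crsV (dat C x B) {v | x v ∈ T} i := by
  have hrel : (fun a b : V => Adj (Finset.univ.image x) (x a) (x b) ∧
      (x b ∈ T ∨ x b ∈ C.cls (Finset.univ.image x) i ∨
        x b ∈ C.cls (Finset.univ.image x) (i + 2))) =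
      fun a b => adjV (dat C x B) a b ∧ (b ∈ {v | x v ∈ T} ∨ clsV (dat C x B) i b ∨
        clsV (dat C x B) (i + 2) b) := by
    funext a b
    refine propext (and_congr (adj_img a b) (or_congr Iff.rfl (or_congr ?_ ?_)))
    · exact cls_img hr hx i b
    · exact cls_img hr hx (i + 2) b
  have key := fun (a : V) (b : ℂ) => rtg_img (x := x) (R := fun a b =>
    Adj (Finset.univ.image x) a b ∧ (b ∈ T ∨ b ∈ C.cls (Finset.univ.image x) i ∨
        b ∈ C.cls (Finset.univ.image x) (i + 2))) (fun a b h => adj_mem h.1) (i := a) (b := b)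
  unfold Cfg.Crs crsV
  constructor
  · rintro ⟨a, ha, b, hb, h⟩
    obtain ⟨a, rfl⟩ := cls_sub hr i ha
    obtain ⟨j, rfl, hj⟩ := (key a b).1 h
    refine ⟨a, j, (cls_img hr hx i a).1 ha, (cls_img hr hx (i + 2) j).1 hb, ?_⟩
    rw [← hrel]
    exact hj
  · rintro ⟨a, b, ha, hb, h⟩
    refine ⟨x a, (cls_img hr hx i a).2 ha, x b, (cls_img hr hx (i + 2) b).2 hb, ?_⟩
    rw [← hrel] at h
    exact (key a (x b)).2 ⟨b, rfl, h⟩

theorem pr_img (hr : RayOK C x) (hx : Function.Injective x) (i : ZMod 4) :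
    C.pr (Finset.univ.image x) i = prV (dat C x B) i := by
  unfold Cfg.pr prV
  rw [inn_img (B := B) hr hx, Finset.card_image_of_injective _ hx]
  congr 2
  norm_cast
  symm
  refine Finset.card_bij (fun T _ => T.image x) ?_ ?_ ?_
  · intro T hT
    rw [Finset.mem_filter, Finset.mem_powerset] at hT ⊢
    refine ⟨Finset.image_subset_image hT.1, ?_⟩
    rw [crs_img (B := B) hr hx]
    have e : {v | x v ∈ ((T.image x : Finset ℂ) : Set ℂ)} = (T : Set V) := by
      ext v
      rw [mem_ofPred_eq, Finset.mem_coe, Finset.mem_image, Finset.mem_coe]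
      constructor
      · rintro ⟨w, hw, h⟩
        rw [← hx h]; exact hw
      · intro h
        exact ⟨v, h, rfl⟩
    rw [e]
    exact hT.2
  · intro T _ T' _ h
    exact Finset.image_injective hx h
  · intro T hT
    rw [Finset.mem_filter, Finset.mem_powerset] at hT
    obtain ⟨hT1, hT2⟩ := hT
    refine ⟨(innV (dat C x B)).filter fun v => x v ∈ T, ?_, ?_⟩
    · rw [Finset.mem_filter, Finset.mem_powerset]
      refine ⟨Finset.filter_subset _ _, ?_⟩
      rw [crs_img (B := B) hr hx] at hT2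
      have e : {v | x v ∈ (T : Set ℂ)} =
          (((innV (dat C x B)).filter fun v => x v ∈ T : Finset V) : Set V) := by
        ext v
        rw [mem_ofPred_eq, Finset.mem_coe, Finset.mem_coe, Finset.mem_filter]
        constructor
        · intro h
          have := hT1 h
          obtain ⟨w, hw, hwv⟩ := Finset.mem_image.1 this
          rw [← hx hwv]
          exact ⟨hw, hwv ▸ h⟩
        · exact fun h => h.2
      rw [← e]
      exact hT2
    · ext v
      rw [Finset.mem_image]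
      constructor
      · rintro ⟨w, hw, rfl⟩
        exact (Finset.mem_filter.1 hw).2
      · intro h
        have := hT1 h
        obtain ⟨w, hw, rfl⟩ := Finset.mem_image.1 this
        exact ⟨w, Finset.mem_filter.2 ⟨hw, h⟩, rfl⟩

/-! ### measurability -/

theorem cellX_meas {U : Set ℂ} (hU : IsOpen U) (i : V) :
    MeasurableSet {x : V → ℂ | (voronoiCell (range x) (x i) ∩ U).Nonempty} := by
  have h2 : MeasurableSet {x : V → ℂ | ∃ o ∈ U, (x, o) ∈ {p : (V → ℂ) × ℂ |
      ∀ l, ‖p.2 - p.1 i‖ ≤ ‖p.2 - p.1 l‖}} := by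
    apply proj_meas (sigmaCompact_open hU)
    have e : {p : (V → ℂ) × ℂ | ∀ l, ‖p.2 - p.1 i‖ ≤ ‖p.2 - p.1 l‖} =
        ⋂ l, {p : (V → ℂ) × ℂ | ‖p.2 - p.1 i‖ ≤ ‖p.2 - p.1 l‖} := by
      ext p
      simp only [mem_iInter, mem_ofPred_eq]
    rw [e]
    exact isClosed_iInter fun l => isClosed_le (by fun_prop) (by fun_prop)
  convert h2 using 1
  ext x
  unfold voronoiCell
  simp only [mem_ofPred_eq, mem_range, forall_exists_index, forall_apply_eq_imp_iff]
  constructor
  · rintro ⟨z, h, hz⟩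
    exact ⟨z, hz, h⟩
  · rintro ⟨z, hz, h⟩
    exact ⟨z, h, hz⟩

theorem dt_singl (V : Type) [Finite V] : MeasurableSingletonClass (Dt V) := by
  unfold Dt
  infer_instance

theorem dt_finite (V : Type) [Finite V] : Finite (Dt V) := by
  unfold Dt
  infer_instance

/-- black index -/
def blkI (I : Finset Ix) (ω : Sample) (i : I) : Prop := (ω.2 i.1.1 i.1.2 2 : ℝ) < 1 / 2

/-- the data of the sample on the index set `I` -/
def datI (C : Cfg 4) (ε : ℝ) (I : Finset Ix) (ω : Sample) : Dt I :=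
  dat C (xI ε I ω) (blkI I ω)

theorem datI_meas (hR : ∀ i, IsOpen (C.R i)) (ε : ℝ) (I : Finset Ix) :
    Measurable (datI C ε I) := by
  have hx := xI_meas ε I
  refine Measurable.prodMk ?_ (Measurable.prodMk ?_ (Measurable.prodMk ?_ ?_))
  · refine measurable_pi_iff.2 fun i => measurable_pi_iff.2 fun j => measurable_pi_iff.2 fun k => ?_
    exact measurableSet_setOfPred.1 (hx (delX_meas i j k))
  · refine measurable_pi_iff.2 fun i => measurable_pi_iff.2 fun r => ?_
    exact measurableSet_setOfPred.1 (hx (cellX_meas (hR r) i))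
  · refine measurable_pi_iff.2 fun k => measurable_pi_iff.2 fun i => measurable_pi_iff.2 fun j => ?_
    exact measurableSet_setOfPred.1 (hx ((hullX_meas i j).inter (segX_meas C.c (C.q k) i j)))
  · refine measurable_pi_iff.2 fun i => ?_
    have h1 : Measurable fun ω : Sample => (ω.2 i.1.1 i.1.2 2 : ℝ) := by
      have h : Measurable fun ω : Sample => ω.2 i.1.1 i.1.2 2 :=
        (measurable_pi_apply 2).comp ((measurable_pi_apply i.1.2).comp
          ((measurable_pi_apply i.1.1).comp measurable_snd))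
      exact measurable_subtype_coe.comp h
    exact measurableSet_setOfPred.1 (measurableSet_lt h1 measurable_const)

theorem meas_of_datI (hR : ∀ i, IsOpen (C.R i)) (ε : ℝ) (I : Finset Ix) (A : Set (Dt I)) :
    MeasurableSet (datI C ε I ⁻¹' A) := by
  have hfin : Finite (Dt I) := dt_finite I
  have hm : MeasurableSingletonClass (Dt I) := dt_singl I
  exact datI_meas hR ε I (Set.toFinite A).measurableSet

/-! ### the sample -/

variable {K ε : ℝ} {ω : Sample}

theorem gsites_img (h : PG C K ε ω) {I : Finset Ix} (hI : ω ∈ AI C.dom ε I) :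
    C.dom.sites ε ω = Finset.univ.image (xI ε I ω) := by
  ext s
  rw [Crest.Agent.R143.DomAx722.mem_sites (pg_finD h), Finset.mem_image]
  constructor
  · rintro ⟨⟨p, hp, rfl⟩, h2⟩
    have h3 : ((p.1, p.2.1), p.2.2) ∈ I := (hI _).2 ⟨hp, by
      rw [Metric.mem_closedBall, dist_eq_norm]; exact h2⟩
    exact ⟨⟨_, h3⟩, Finset.mem_univ _, rfl⟩
  · rintro ⟨⟨i, hi⟩, -, rfl⟩
    have h3 := (hI i).1 hi
    refine ⟨⟨(i.1.1, i.1.2, i.2), h3.1, rfl⟩, ?_⟩
    have := h3.2
    rw [Metric.mem_closedBall, dist_eq_norm] at this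
    exact this

theorem gxI_inj (h : PG C K ε ω) {I : Finset Ix} (hI : ω ∈ AI C.dom ε I) :
    Function.Injective (xI ε I ω) := by
  rintro ⟨i, hi⟩ ⟨j, hj⟩ hij
  have h1 := h.inj (i.1.1, i.1.2, i.2) ((hI i).1 hi).1 (j.1.1, j.1.2, j.2) ((hI j).1 hj).1 hij
  simp only [Prod.mk.injEq] at h1
  exact Subtype.ext (Prod.ext (Prod.ext h1.1 h1.2.1) h1.2.2)

theorem exists_gAI (h : PG C K ε ω) : ∃ I, ω ∈ AI C.dom ε I := by
  have hfin : {i : Ix | InD C.dom ε ω i}.Finite := by
    refine Set.Finite.of_finite_image (f := fun i : Ix => point ε ω i.1 i.2)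
      ((pg_finD h).subset ?_) ?_
    · rintro z ⟨i, hi, rfl⟩
      exact ⟨⟨(i.1.1, i.1.2, i.2), hi.1, rfl⟩, hi.2⟩
    · intro i hi j hj hij
      have h1 := h.inj (i.1.1, i.1.2, i.2) hi.1 (j.1.1, j.1.2, j.2) hj.1 hij
      simp only [Prod.mk.injEq] at h1
      exact Prod.ext (Prod.ext h1.1 h1.2.1) h1.2.2
  refine ⟨hfin.toFinset, fun i => ?_⟩
  rw [Set.Finite.mem_toFinset]
  rfl

theorem grayOK (h : PG C K ε ω) (hq : ∀ k, ‖C.q k‖ = 1) (hr : 0 < rad K ε)
    (h8 : rad K ε < C.L / 8) {I : Finset Ix} (hI : ω ∈ AI C.dom ε I) : RayOK C (xI ε I ω) := by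
  intro k p
  rw [← gsites_img h hI]
  exact pg_ray_iff h hq hr h8 k p

theorem gpr (h : PG C K ε ω) (hq : ∀ k, ‖C.q k‖ = 1) (hr : 0 < rad K ε)
    (h8 : rad K ε < C.L / 8) {I : Finset Ix} (hI : ω ∈ AI C.dom ε I) (i : ZMod 4) :
    C.pr (C.dom.sites ε ω) i = prV (datI C ε I ω) i := by
  rw [gsites_img h hI]
  exact pr_img (grayOK h hq hr h8 hI) (gxI_inj h hI) i

theorem blk_iff (h : PG C K ε ω) {I : Finset Ix} (hI : ω ∈ AI C.dom ε I) (i : I) :
    xI ε I ω i ∈ Crest.Agent.R143.G6Vx408.blk ε ω ↔ blkI I ω i := by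
  rw [Crest.Agent.R143.G6Vx408.mem_blk]
  constructor
  · rintro ⟨p, hp, h1, h2⟩
    have h3 := h.inj p hp (i.1.1.1, i.1.1.2, i.1.2) ((hI i).1 i.2).1 h2
    rw [h3] at h1
    exact h1
  · intro h1
    exact ⟨(i.1.1.1, i.1.1.2, i.1.2), ((hI i).1 i.2).1, h1, rfl⟩

theorem gNX (h : PG C K ε ω) (hq : ∀ k, ‖C.q k‖ = 1) (hr : 0 < rad K ε)
    (h8 : rad K ε < C.L / 8) {I : Finset Ix} (hI : ω ∈ AI C.dom ε I) (i : ZMod 4) :
    ω ∈ C.NX i ε ↔
      crsV (datI C ε I ω) {v | (datI C ε I ω).2.2.2 v ∧ v ∈ innV (datI C ε I ω)} i := by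
  have hR := grayOK h hq hr h8 hI
  have hx := gxI_inj h hI
  unfold Cfg.NX
  rw [mem_ofPred_eq, gsites_img h hI, crs_img (B := blkI I ω) hR hx]
  have e : {v | xI ε I ω v ∈ Crest.Agent.R143.G6Vx408.blk ε ω ∩
      (C.inn (Finset.univ.image (xI ε I ω)) : Set ℂ)} =
      {v | (datI C ε I ω).2.2.2 v ∧ v ∈ innV (datI C ε I ω)} := by
    ext v
    rw [mem_ofPred_eq, mem_ofPred_eq, mem_inter_iff, blk_iff h hI, Finset.mem_coe,
      inn_img (B := blkI I ω) hR hx, Finset.mem_image]
    refine and_congr Iff.rfl ?_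
    constructor
    · rintro ⟨w, hw, hwv⟩
      rw [← hx hwv]
      exact hw
    · intro hv
      exact ⟨v, hv, rfl⟩
  rw [e]
  rfl

/-- **measurability of the network crossing** -/
theorem meas_NX (hq : ∀ k, ‖C.q k‖ = 1) (hR : ∀ i, IsOpen (C.R i)) (hr : 0 < rad K ε)
    (h8 : rad K ε < C.L / 8) (i : ZMod 4) : MeasurableSet (C.NX i ε ∩ Pm C K ε) := by
  have e : C.NX i ε ∩ Pm C K ε = ⋃ I : Finset Ix, (AI C.dom ε I ∩ Pm C K ε) ∩ (datI C ε I ⁻¹'
      {d | crsV d {v | d.2.2.2 v ∧ v ∈ innV d} i}) := by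
    ext ω
    rw [mem_iUnion]
    constructor
    · rintro ⟨h1, h2⟩
      have h := pg_of_Pm h2
      obtain ⟨I, hI⟩ := exists_gAI h
      exact ⟨I, ⟨hI, h2⟩, (gNX h hq hr h8 hI i).1 h1⟩
    · rintro ⟨I, ⟨hI, h2⟩, h3⟩
      exact ⟨(gNX (pg_of_Pm h2) hq hr h8 hI i).2 h3, h2⟩
  rw [e]
  exact MeasurableSet.iUnion fun I => ((AI_meas C.dom ε I).inter (Pm_meas C K ε)).inter
    (meas_of_datI hR ε I _)

/-- **measurability of the crossing probability** -/
theorem aesm_pr (hq : ∀ k, ‖C.q k‖ = 1) (hR : ∀ i, IsOpen (C.R i)) (hr : 0 < rad K ε)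
    (h8 : rad K ε < C.L / 8) (i : ZMod 4) :
    AEStronglyMeasurable (fun ω => C.pr (C.dom.sites ε ω) i) (sampleLaw.restrict (Pm C K ε)) := by
  have hcov : ∀ᵐ ω ∂(sampleLaw.restrict (Pm C K ε)), ω ∈ ⋃ I : Finset Ix, AI C.dom ε I := by
    rw [ae_restrict_iff' (Pm_meas C K ε)]
    refine Eventually.of_forall fun ω h2 => ?_
    obtain ⟨I, hI⟩ := exists_gAI (pg_of_Pm h2)
    exact mem_iUnion.2 ⟨I, hI⟩
  rw [← Measure.restrict_eq_self_of_ae_mem hcov]
  refine aestronglyMeasurable_iUnion_iff.2 fun I => ?_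
  have hg : Measurable fun ω : Sample => prV (datI C ε I ω) i := by
    intro A _
    exact meas_of_datI hR ε I {d | prV d i ∈ A}
  refine hg.aestronglyMeasurable.congr ?_
  rw [Filter.EventuallyEq, ae_restrict_iff' (AI_meas C.dom ε I),
    ae_restrict_iff' (Pm_meas C K ε)]
  exact Eventually.of_forall fun ω h2 hI => (gpr (pg_of_Pm h2) hq hr h8 hI i).symm

end Crest.Agent.R143.D4Bx304
end
end

-- ▼ part R143/D4L_606
section

/-!
# Row 143 (S0194), leaf D4COL, the law (helper606)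

* `fib_pr` : given the positions, the probability of the network crossing is `Cfg.pr`
* `aesm_pr` : measurability of `pr` from the measurability of `NX ∩ Pm`
* `law_eq` : the clause (4) of `D4COL`
-/

set_option autoImplicit false

noncomputable section

open scoped Classical

namespace Crest.Agent.R143.D4Lx606

open MeasureTheory Set Filter Topology
open Crest.ProbabilityR.Voronoi
open Crest.Agent.R143.B0x346 Crest.Agent.R143.B0Dx346 Crest.Agent.R143.DomAx722
  Crest.Agent.R143.Measx304 Crest.Agent.R143.Lawx831 Crest.Agent.R143.Y5Dx831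
  Crest.Agent.R143.Cfgx416 Crest.Agent.R143.D4Ax304 Crest.Agent.R143.G6Vx408

local notation "smk" => Crest.Agent.R143.Lawx831.mk

variable {C : Cfg 4} {K ε : ℝ}

theorem mem_SP {p : Pos} (hp : PG C K ε (smk p fun _ => 0)) {v : ℂ} (hv : v ∈ SP C.dom ε p) :
    ∃ j ∈ presP p, ptP ε p j = v := by
  have h1 : v ∈ points ε (smk p fun _ => 0) := ((mem_sites (pg_finD hp)).1 hv).1
  rw [points_mk] at h1
  exact h1

theorem inj_P {p : Pos} (hp : PG C K ε (smk p fun _ => 0)) {j j' : Idx} (hj : j ∈ presP p)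
    (hj' : j' ∈ presP p) (h : ptP ε p j = ptP ε p j') : j = j' := by
  have h1 := hp.inj (j.1.1, j.1.2, j.2) ((present_mk p _ _).2 hj) (j'.1.1, j'.1.2, j'.2)
    ((present_mk p _ _).2 hj') (by rw [point_mk, point_mk]; exact h)
  simp only [Prod.mk.injEq] at h1
  exact Prod.ext (Prod.ext h1.1 h1.2.1) h1.2.2

theorem inn_sub {n : ℕ} {C : Cfg n} {S : Finset ℂ} {v : ℂ} (h : v ∈ C.inn S) : v ∈ S := by
  unfold Cfg.inn at h
  rw [Finset.mem_filter] at h
  exact h.1

/-- the colour of a site -/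
theorem blk_iff {p : Pos} (hp : PG C K ε (smk p fun _ => 0)) {j : Idx} (hj : j ∈ presP p)
    (c : Col) : ptP ε p j ∈ blk ε (smk p c) ↔ ((c j : unitInterval) : ℝ) < 1 / 2 := by
  rw [mem_blk]
  constructor
  · rintro ⟨q, hq, h1, h2⟩
    rw [point_mk] at h2
    have h3 : ((q.1, q.2.1), q.2.2) = j := inj_P hp ((present_mk p c q).1 hq) hj h2
    rw [← h3]
    exact h1
  · intro h
    refine ⟨(j.1.1, j.1.2, j.2), (present_mk p c _).2 hj, h, ?_⟩
    rw [point_mk]

/-- **the fibre identity** -/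
theorem fib_pr {p : Pos} (hp : PG C K ε (smk p fun _ => 0)) (i : ZMod 4) :
    colLaw.real {c | smk p c ∈ C.NX i ε} = C.pr (SP C.dom ε p) i := by
  set S := SP C.dom ε p with hS
  have hix0 : ∀ v : ℂ, ∃ j : Idx, v ∈ C.inn S → j ∈ presP p ∧ ptP ε p j = v := by
    intro v
    by_cases hv : v ∈ C.inn S
    · obtain ⟨j, h1, h2⟩ := mem_SP hp (inn_sub hv)
      exact ⟨j, fun _ => ⟨h1, h2⟩⟩
    · exact ⟨((0, 0), 0), fun h => absurd h hv⟩
  choose ix hix using hix0
  have hinj : Set.InjOn ix (C.inn S) := by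
    intro v hv w hw h
    rw [← (hix v hv).2, ← (hix w hw).2, h]
  have hset : {c : Col | smk p c ∈ C.NX i ε} =
      {c : Col | (fun β : Finset ℂ => (fun T : Finset ℂ => C.Crs S (T : Set ℂ) i) (C.inn S \ β))
        (Y5ax315.wht (C.inn S) ix c)} := by
    ext c
    simp only [Set.mem_ofPred_eq]
    unfold Cfg.NX
    rw [Set.mem_ofPred_eq, sites_mk, ← hS]
    have e : blk ε (smk p c) ∩ ((C.inn S : Finset ℂ) : Set ℂ) =
        ((C.inn S \ Y5ax315.wht (C.inn S) ix c : Finset ℂ) : Set ℂ) := by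
      ext v
      rw [Finset.mem_coe, Finset.mem_sdiff, Y5ax315.mem_wht, Set.mem_inter_iff, Finset.mem_coe]
      constructor
      · rintro ⟨h1, h2⟩
        refine ⟨h2, fun h3 => h3.2 ?_⟩
        rw [← (hix v h2).2] at h1
        exact (blk_iff hp (hix v h2).1 c).1 h1
      · rintro ⟨h1, h2⟩
        refine ⟨?_, h1⟩
        have h3 : ((c (ix v) : unitInterval) : ℝ) < 1 / 2 := by
          by_contra hcon
          exact h2 ⟨h1, hcon⟩
        have h4 := (blk_iff hp (hix v h1).1 c).2 h3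
        rwa [(hix v h1).2] at h4
    rw [e]
  rw [hset]
  have h1 := Harx315.real_eq_pr hinj
    (fun β : Finset ℂ => (fun T : Finset ℂ => C.Crs S (T : Set ℂ) i) (C.inn S \ β))
  have h2 := Harx315.pr_flip (C.inn S) (fun T : Finset ℂ => C.Crs S (T : Set ℂ) i)
  rw [h2] at h1
  exact h1

/-- sections of `NX ∩ Pm` -/
theorem section_eq (p : Pos) (i : ZMod 4) :
    colLaw.real {c | smk p c ∈ C.NX i ε ∩ Pm C K ε} =
      (GP0 C K ε).indicator (fun p => C.pr (SP C.dom ε p) i) p := by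
  by_cases hp : p ∈ GP0 C K ε
  · rw [indicator_of_mem hp, ← fib_pr (pg_of_GP0 hp _)]
    congr 1
    ext c
    simp only [Set.mem_ofPred_eq, Set.mem_inter_iff, mk_mem_Pm, hp, and_true]
  · rw [indicator_of_notMem hp]
    have : {c : Col | smk p c ∈ C.NX i ε ∩ Pm C K ε} = ∅ := by
      ext c
      simp only [Set.mem_ofPred_eq, Set.mem_inter_iff, mk_mem_Pm, hp, and_false,
        Set.mem_empty_iff_false]
    rw [this]
    simp

/-- the conditional probability is a measurable function of the positions -/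
theorem meas_g {i : ZMod 4} (hNX : MeasurableSet (C.NX i ε ∩ Pm C K ε)) :
    Measurable ((GP0 C K ε).indicator fun p => C.pr (SP C.dom ε p) i) := by
  have h1 : MeasurableSet ((fun q : Pos × Col => smk q.1 q.2) ⁻¹' (C.NX i ε ∩ Pm C K ε)) :=
    measurable_mk hNX
  have h2 : Measurable fun p : Pos =>
      colLaw (Prod.mk p ⁻¹' ((fun q : Pos × Col => smk q.1 q.2) ⁻¹' (C.NX i ε ∩ Pm C K ε))) :=
    measurable_measure_prodMk_left h1
  have h3 := h2.ennreal_toReal
  convert h3 using 1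
  funext p
  exact (section_eq p i).symm

theorem sites_posOf (ω : Sample) : C.dom.sites ε ω = SP C.dom ε (posOf ω) := by
  have h := sites_mk C.dom ε (posOf ω) (colOf ω)
  rwa [mk_pos_col] at h

theorem pr_eq_on {i : ZMod 4} {ω : Sample} (h : ω ∈ Pm C K ε) :
    C.pr (C.dom.sites ε ω) i =
      (GP0 C K ε).indicator (fun p => C.pr (SP C.dom ε p) i) (posOf ω) := by
  have h' : posOf ω ∈ GP0 C K ε := h
  rw [indicator_of_mem h', sites_posOf]

theorem aesm_pr {i : ZMod 4} (hNX : MeasurableSet (C.NX i ε ∩ Pm C K ε)) :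
    AEStronglyMeasurable (fun ω => C.pr (C.dom.sites ε ω) i)
      (sampleLaw.restrict (Pm C K ε)) := by
  refine ⟨fun ω => (GP0 C K ε).indicator (fun p => C.pr (SP C.dom ε p) i) (posOf ω),
    ((meas_g hNX).comp posOf_meas).stronglyMeasurable, ?_⟩
  exact (ae_restrict_iff' (Pm_meas C K ε)).2 (Eventually.of_forall fun ω h => pr_eq_on h)

/-- **the clause (4)** -/
theorem law_eq {i : ZMod 4} (hNX : MeasurableSet (C.NX i ε ∩ Pm C K ε)) :
    ∫ ω in Pm C K ε, C.pr (C.dom.sites ε ω) i ∂sampleLaw =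
      sampleLaw.real (C.NX i ε ∩ Pm C K ε) := by
  set G : Pos → ℝ := (GP0 C K ε).indicator fun p => C.pr (SP C.dom ε p) i with hG
  have hGm : Measurable G := meas_g hNX
  have h1 : MeasurableSet ((fun q : Pos × Col => smk q.1 q.2) ⁻¹' (C.NX i ε ∩ Pm C K ε)) :=
    measurable_mk hNX
  -- right hand side
  have e1 : sampleLaw (C.NX i ε ∩ Pm C K ε) = ∫⁻ p, colLaw (Prod.mk p ⁻¹'
      ((fun q : Pos × Col => smk q.1 q.2) ⁻¹' (C.NX i ε ∩ Pm C K ε))) ∂posLaw := by
    rw [← mp_mk.measure_preimage hNX.nullMeasurableSet, Measure.prod_apply h1]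
  have e2 : sampleLaw.real (C.NX i ε ∩ Pm C K ε) = ∫ p, G p ∂posLaw := by
    rw [Measure.real, e1, ← integral_toReal]
    · refine integral_congr_ae (Eventually.of_forall fun p => ?_)
      exact section_eq p i
    · exact (measurable_measure_prodMk_left h1).aemeasurable
    · exact Eventually.of_forall fun p => measure_lt_top _ _
  -- left hand side
  have e3 : ∫ ω in Pm C K ε, C.pr (C.dom.sites ε ω) i ∂sampleLaw =
      ∫ ω, G (posOf ω) ∂sampleLaw := by
    rw [← integral_indicator (Pm_meas C K ε)]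
    refine integral_congr_ae (Eventually.of_forall fun ω => ?_)
    dsimp only
    by_cases h : ω ∈ Pm C K ε
    · rw [indicator_of_mem h, pr_eq_on h]
    · rw [indicator_of_notMem h]
      have h' : posOf ω ∉ GP0 C K ε := h
      rw [hG, indicator_of_notMem h']
  have e4 : ∫ ω, G (posOf ω) ∂sampleLaw = ∫ p, G p ∂posLaw := by
    rw [← posOf_mp.map_eq, integral_map posOf_meas.aemeasurable]
    rw [posOf_mp.map_eq]
    exact hGm.aestronglyMeasurable
  rw [e3, e4, e2]

/-- **D4COL** -/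
theorem d4col : D4COL := by
  intro C δ hC i
  obtain ⟨K, hK, hP⟩ := pm_prob C hC.qn
  refine ⟨fun ε => Pm C K ε, fun ε => Pm_meas C K ε, hP, fun d hd => pm_env hK C hd, ?_⟩
  have hL8 : 0 < C.L / 8 := by have := hC.Lpos; positivity
  filter_upwards [ev_small hL8 K hK] with ε hε
  have hNX := D4Bx304.meas_NX (C := C) (K := K) (ε := ε) hC.qn hC.opn hε.2.1 hε.2.2 i
  exact ⟨aesm_pr hNX, hNX, law_eq hNX⟩

end Crest.Agent.R143.D4Lx606
end
end

-- ▼ part R143/Spine3_422
section

/-!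
# Row 143 (S0194), SPINE 3: wiring of the landed blocks (helper422)

`Adm := Dom.Ad`.  Closed: LGood (304, 501), LEqui from E3 (63, 802, 395, 697), CARA (723, 877),
D1, D2 (722), P2b (117), D4LO, D4UP (408), D4COL (304, 606), GEO (POLY 416, SWL 922, LINK 606,
TENT 806, 359, 951), LALB (802), VAL (802, 422), LDom from E3 (416).
-/

set_option autoImplicit false

noncomputable section

namespace Crest.Agent.R143.Spinex422

open Crest.Agent.R143.B0x346 Crest.Agent.R143.B0Dx346 Crest.Agent.R143.Cfgx416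

/-- **leaf GD** -/
theorem lgood_ad : LGood Dom.Ad := M5x304.lgood' fun _ _ h => h.w



/-- **VAL** -/
theorem val (hE : E3) : VAL := VALx422.val hE D3Ix802.intf D3Mx802.mono



end Crest.Agent.R143.Spinex422
end
end

-- ▼ part R143/Spine5_422
section

/-!
# Row 143 (S0194), SPINE 5: the spine with a WEAK holomorphy leaf (helper422)

* `weyl` : a continuous function with vanishing mollified `∂̄` is holomorphic
* `EndW`, `end_coreW` : end theorem; instead of smooth approximations with small `∂̄` or `∂` only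
  `Sb r (H i) z → 0` for fixed `z`, `r` (weak form of `∂̄ H = 0`, no rates)
* `LHol` : leaf: `Sb r (HG D G ε) z → 0` for fixed `D`, `z`, `r`
* `final3` : LGood, LEqui, LHol, LDom → Body
-/

set_option autoImplicit false

noncomputable section

namespace Crest.Agent.R143.Spinex422

open Complex Set Filter Topology MeasureTheory
open Crest.ProbabilityR.Voronoi
open Crest.Agent.R143.B0x346 Crest.Agent.R143.B0Dx346 Crest.Agent.R143.PP1x831
open Crest.Agent.R143.BC0x336 Crest.Agent.R143.EndAx336 Crest.Agent.R143.EndBx336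
open Crest.Agent.R143.Mollx887

/-! ### Weyl's lemma -/

/-- `Sb r` only depends on the values in the ball -/
theorem Sb_congr' {h h' : ℂ → ℂ} {r : ℝ} (hr : 0 < r) {z₀ : ℂ}
    (hh : ∀ z, ‖z‖ < r → h (z₀ + z) = h' (z₀ + z)) : Sb r h z₀ = Sb r h' z₀ := by
  unfold Sb
  refine integral_congr_ae (ae_of_all _ fun z => ?_)
  simp only
  by_cases hz : ‖z‖ < r
  · rw [hh z hz]
  · rw [kb_zero hr (not_lt.1 hz), zero_mul, zero_mul]

/-- **Weyl's lemma for the mollified `∂̄`** -/
theorem weyl {D : Set ℂ} (hD : IsOpen D) {f : ℂ → ℂ} (hf : ContinuousOn f D)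
    (h : ∀ z ∈ D, ∀ r > 0, Metric.closedBall z (4 * r) ⊆ D → Sb r f z = 0) :
    DifferentiableOn ℂ f D := by
  intro z0 hz0
  obtain ⟨R, hR, hsub⟩ := Metric.isOpen_iff.1 hD z0 hz0
  set r := R / 8 with hr
  have hr0 : 0 < r := by positivity
  set B := Metric.closedBall z0 (4 * r) with hB
  have hBD : B ⊆ D := (Metric.closedBall_subset_ball (by rw [hr]; linarith)).trans hsub
  have hBc : IsCompact B := isCompact_closedBall _ _
  have hfB : ContinuousOn f B := hf.mono hBD
  obtain ⟨M, hM⟩ := hBc.exists_bound_of_continuousOn hfB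
  set g : ℂ → ℂ := B.indicator f with hg
  have hgBM : BM g (max M 0) := by
    refine ⟨?_, fun z => ?_⟩
    · exact (aestronglyMeasurable_indicator_iff hBc.measurableSet).2
        (hfB.aestronglyMeasurable hBc.measurableSet)
    · rw [hg]
      by_cases hz : z ∈ B
      · rw [Set.indicator_of_mem hz]; exact (hM z hz).trans (le_max_left _ _)
      · rw [Set.indicator_of_notMem hz, norm_zero]; exact le_max_right _ _
  have hgf : ∀ z ∈ B, g z = f z := fun z hz => Set.indicator_of_mem hz f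
  have huc : UniformContinuousOn f B := hBc.uniformContinuousOn_of_continuous hfB
  rw [Metric.uniformContinuousOn_iff_le] at huc
  set rn : ℕ → ℝ := fun n => r / (8 * ((n : ℝ) + 1)) with hrn
  have hrn0 : ∀ n, 0 < rn n := fun n => by rw [hrn]; positivity
  have hrn1 : ∀ n, rn n ≤ r / 8 := fun n => by
    rw [hrn]
    simp only
    apply div_le_div_of_nonneg_left hr0.le (by norm_num)
    have : (0 : ℝ) ≤ n := Nat.cast_nonneg n
    linarith
  have hrnl : Tendsto rn atTop (𝓝 0) := by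
    have h1 : Tendsto (fun n : ℕ => (1 : ℝ) / ((n : ℝ) + 1)) atTop (𝓝 0) :=
      tendsto_one_div_add_atTop_nhds_zero_nat
    have h2 := h1.const_mul (r / 8)
    rw [mul_zero] at h2
    refine h2.congr fun n => ?_
    rw [hrn]
    field_simp
  have hhol : DifferentiableOn ℂ f (Metric.ball z0 r) := by
    refine DbarMorx63.bc3 (Metric.ball z0 r) Metric.isOpen_ball ℕ atTop inferInstance
      (fun n => moll (rn n) g) f (fun n => moll_contDiff hgBM (hrn0 n) (n := 1)) ?_ ?_
    · apply TendstoUniformlyOn.tendstoLocallyUniformlyOn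
      rw [Metric.tendstoUniformlyOn_iff]
      intro e he
      obtain ⟨s, hs, hs'⟩ := huc (e / 2) (by linarith)
      filter_upwards [hrnl.eventually (gt_mem_nhds hs)] with n hn z hz
      rw [dist_comm, dist_eq_norm]
      have hzB : z ∈ B := by
        rw [Metric.mem_ball] at hz
        rw [hB, Metric.mem_closedBall]; linarith
      refine lt_of_le_of_lt (moll_close hgBM (hrn0 n) (η := e / 2) fun w hw => ?_) (by linarith)
      have hzw : z + w ∈ B := by
        rw [Metric.mem_ball] at hz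
        rw [hB, Metric.mem_closedBall]
        have h1 := dist_triangle (z + w) z z0
        have h2 : dist (z + w) z = ‖w‖ := by rw [dist_eq_norm, add_sub_cancel_left]
        have h3 := hrn1 n
        linarith
      rw [hgf _ hzw, ← dist_eq_norm]
      apply hs' _ hzw _ hzB
      rw [dist_eq_norm, add_sub_cancel_left]
      linarith
    · intro K hK hKs
      have h0 : ∀ n, ∀ z ∈ K, dbar (moll (rn n) g) z = 0 := by
        intro n z hz
        have hzr := hKs hz
        rw [Metric.mem_ball] at hzr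
        rw [dbar_moll hgBM (hrn0 n)]
        have hb : Metric.closedBall z (4 * rn n) ⊆ B := by
          apply Metric.closedBall_subset_closedBall'
          have := hrn1 n
          linarith
        rw [Sb_congr' (hrn0 n) (h' := f) fun w hw => ?_]
        · exact h z (hBD (hb (Metric.mem_closedBall_self (by have := hrn0 n; linarith)))) _ (hrn0 n)
            (hb.trans hBD)
        · apply hgf
          apply hb
          rw [Metric.mem_closedBall, dist_eq_norm, add_sub_cancel_left]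
          linarith [hrn0 n]
      have h1 : ∀ n : ℕ, ∫ z in K, ‖dbar (moll (rn n) g) z‖ = 0 := by
        intro n
        rw [setIntegral_congr_fun (g := fun _ => (0 : ℝ)) hK.measurableSet
          (fun z hz => by simp only; rw [h0 n z hz, norm_zero])]
        simp
      simp only [h1]
      exact tendsto_const_nhds
  exact (hhol.differentiableAt (Metric.ball_mem_nhds z0 hr0)).differentiableWithinAt

/-! ### the end theorem -/

section ptw

variable {ι : Type} {D : Set ℂ}

/-- conjugate or not -/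
def cjb (r : Bool) (w : ℂ) : ℂ := if r then (starRingEnd ℂ) w else w


/-- hypotheses of the end theorem, weak holomorphy -/
structure EndW (D : Set ℂ) (φ : ℂ → ℂ) (d b : ℂ) (l : Filter ι) (H : ι → ℂ → ℂ) (c : ι → ℝ) :
    Prop where
  bd : ∃ M : ℝ, ∀ i, ∀ z, ‖H i z‖ ≤ M
  ms : ∀ᶠ i in l, AEStronglyMeasurable (H i) volume
  equi : AEqui D l H
  /-- weakly holomorphic or antiholomorphic -/
  wk : ∃ q : ι → Bool, ∀ z ∈ D, ∀ r > 0, Metric.closedBall z (4 * r) ⊆ D →
    Tendsto (fun i => Sb r (fun w => cjb (q i) (H i w)) z) l (𝓝 0)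
  b1 : ∀ p ∈ frontier D, p ≠ d → (φ p).im = 0 → 0 < (φ p).re → (φ p).re < 1 →
    ALBP D l H 1 (tau3 - 1) p
  b2 : ∀ p ∈ frontier D, p ≠ d → (φ p).im = 0 → 1 < (φ p).re →
    ALBP D l H tau3 (tau3 ^ 2 - tau3) p
  b3 : ∀ p ∈ frontier D, p ≠ d → (φ p).im = 0 → (φ p).re < 0 →
    ALBP D l H (tau3 ^ 2) (1 - tau3 ^ 2) p
  val : ∀ η > 0, ∃ δ > 0, ∀ z ∈ D, dist z b < δ → ∀ᶠ i in l,
    dist (H i z) (1 + (c i : ℂ) * (tau3 - 1)) ≤ η

theorem EndW.mono {φ : ℂ → ℂ} {d b : ℂ} {l l' : Filter ι} {H : ι → ℂ → ℂ} {c : ι → ℝ}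
    (h : EndW D φ d b l H c) (hl : l' ≤ l) : EndW D φ d b l' H c where
  bd := h.bd
  ms := hl h.ms
  equi := h.equi.mono hl
  wk := by
    obtain ⟨q, hq⟩ := h.wk
    exact ⟨q, fun z hz r hr hb => (hq z hz r hr hb).mono_left hl⟩
  b1 p hp h1 h2 h3 h4 := (h.b1 p hp h1 h2 h3 h4).mono hl
  b2 p hp h1 h2 h3 := (h.b2 p hp h1 h2 h3).mono hl
  b3 p hp h1 h2 h3 := (h.b3 p hp h1 h2 h3).mono hl
  val η hη := by
    obtain ⟨δ, hδ, h1⟩ := h.val η hη
    exact ⟨δ, hδ, fun z hz hzb => hl (h1 z hz hzb)⟩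

/-- `Sb r` is continuous for uniform convergence -/
theorem Sb_lim {l : Filter ι} {H : ι → ℂ → ℂ} {f : ℂ → ℂ} {M : ℝ}
    (hb : ∀ i, ∀ z, ‖H i z‖ ≤ M) (hm : ∀ᶠ i in l, AEStronglyMeasurable (H i) volume)
    {z : ℂ} {r : ℝ} (hr : 0 < r) (hf : ContinuousOn f (Metric.closedBall z (4 * r)))
    (hlim : TendstoUniformlyOn H f l (Metric.closedBall z (4 * r))) :
    Tendsto (fun i => Sb r (H i) z) l (𝓝 (Sb r f z)) := by
  set B := Metric.closedBall z (4 * r) with hB
  have hBc : IsCompact B := isCompact_closedBall _ _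
  obtain ⟨M', hM'⟩ := hBc.exists_bound_of_continuousOn hf
  set g : ℂ → ℂ := B.indicator f with hg
  have hgBM : BM g (max M' 0) := by
    refine ⟨?_, fun z => ?_⟩
    · exact (aestronglyMeasurable_indicator_iff hBc.measurableSet).2
        (hf.aestronglyMeasurable hBc.measurableSet)
    · rw [hg]
      by_cases hz : z ∈ B
      · rw [Set.indicator_of_mem hz]; exact (hM' z hz).trans (le_max_left _ _)
      · rw [Set.indicator_of_notMem hz, norm_zero]; exact le_max_right _ _
  have hin : ∀ w, ‖w‖ < r → z + w ∈ B := fun w hw => by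
    rw [hB, Metric.mem_closedBall, dist_eq_norm, add_sub_cancel_left]; linarith
  have e1 : Sb r f z = Sb r g z := Sb_congr' hr fun w hw =>
    (Set.indicator_of_mem (hin w hw) f).symm
  rw [e1, Metric.tendsto_nhds]
  intro e he
  set A := CS / r with hA
  have hA0 : 0 ≤ A := div_nonneg CS_nonneg hr.le
  have h1 := Metric.tendstoUniformlyOn_iff.1 hlim (e / (2 * (A + 1))) (by positivity)
  filter_upwards [h1, hm] with i hi hmi
  have hiBM : BM (H i) M := ⟨hmi, hb i⟩
  rw [dist_eq_norm, ← Sb_sub hiBM hgBM hr]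
  have h2 : ‖Sb r (fun w => H i w - g w) z‖ ≤ A * (e / (2 * (A + 1))) := by
    unfold Sb
    refine (norm_integral_le_of_norm_le (g := fun w => ‖kb r w‖ * (e / (2 * (A + 1)))) ?_
      (ae_of_all _ fun w => ?_)).trans ?_
    · exact (kb_integrable hr).norm.mul_const _
    · rw [norm_mul]
      by_cases hw : ‖w‖ < r
      · apply mul_le_mul_of_nonneg_left _ (norm_nonneg _)
        have h3 := hi (z + w) (hin w hw)
        rw [dist_comm, dist_eq_norm] at h3
        have h4 : g (z + w) = f (z + w) := Set.indicator_of_mem (hin w hw) f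
        simp only
        rw [h4]
        exact h3.le
      · rw [kb_zero hr (not_lt.1 hw), norm_zero, zero_mul, zero_mul]
    · rw [integral_mul_const, integral_norm_kb hr]
  refine lt_of_le_of_lt h2 ?_
  have h3 : A * (e / (2 * (A + 1))) = e / 2 * (A / (A + 1)) := by
    field_simp
  rw [h3]
  have h4 : A / (A + 1) ≤ 1 := (div_le_one (by linarith)).2 (by linarith)
  nlinarith

/-- **end theorem**, weak holomorphy -/
theorem end_coreW (hD : IsOpen D) {φ : ℂ → ℂ} {d b : ℂ} (hid : Ident D φ d)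
    (hb : b ∈ frontier D) (hbd : b ≠ d) {x : ℝ} (hx0 : 0 < x) (hx1 : x < 1) (hφb : φ b = x)
    {l : Filter ι} {H : ι → ℂ → ℂ} {c : ι → ℝ} (h : EndW D φ d b l H c) :
    Tendsto c l (𝓝 (crossingFormula x)) := by
  rw [tendsto_iff_ultrafilter]
  intro U hU
  have hU' := h.mono hU
  obtain ⟨M, hM⟩ := h.bd
  obtain ⟨f, hfM, hf⟩ := exists_ulim U (fun i z (_ : z ∈ D) => hM i z)
  have hunif : ∀ K, IsCompact K → K ⊆ D → TendstoUniformlyOn H f U K := fun K hK hKD =>
    unif_of_equi hU'.equi hf hK hKD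
  -- the limit is continuous
  have hfc : ContinuousOn f D := by
    intro z hz
    obtain ⟨R, hR, hsub⟩ := Metric.isOpen_iff.1 hD z hz
    set K := Metric.closedBall z (R / 2) with hK
    have hKD : K ⊆ D := (Metric.closedBall_subset_ball (by linarith)).trans hsub
    have hKc : IsCompact K := isCompact_closedBall _ _
    have hcK : ContinuousWithinAt f K z := by
      rw [Metric.continuousWithinAt_iff]
      intro e he
      obtain ⟨s, hs, h1⟩ := hU'.equi K hKc hKD (e / 4) (by linarith)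
      refine ⟨s, hs, fun {w} hw hwz => ?_⟩
      have h2 := Metric.tendstoUniformlyOn_iff.1 (hunif K hKc hKD) (e / 4) (by linarith)
      obtain ⟨i, hi1, hi2⟩ := (h1.and h2).exists
      have hzK : z ∈ K := Metric.mem_closedBall_self (by linarith)
      calc dist (f w) (f z) ≤ dist (f w) (H i w) + dist (H i w) (H i z) + dist (H i z) (f z) :=
            dist_triangle4 _ _ _ _
        _ < e / 4 + e / 4 + e / 4 + e / 4 := by
            have e1 := hi2 w hw
            have e2 := hi2 z hzK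
            have e3 := hi1 w hw z hzK hwz
            rw [dist_comm] at e2
            linarith
        _ = e := by ring
    exact (hcK.continuousAt (Metric.closedBall_mem_nhds z (by linarith))).continuousWithinAt
  obtain ⟨q, hq⟩ := hU'.wk
  have hcases : (∀ᶠ i in (U : Filter ι), q i = false) ∨ (∀ᶠ i in (U : Filter ι), q i = true) := by
    rcases U.em (fun i => q i = false) with h1 | h1
    · exact Or.inl h1
    · right
      filter_upwards [h1] with i hi
      simpa using hi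
  have hol : DifferentiableOn ℂ f D ∨ DifferentiableOn ℂ (fun z => (starRingEnd ℂ) (f z)) D := by
    rcases hcases with h1 | h1
    · left
      refine weyl hD hfc fun z hz r hr hb => ?_
      have h2 := Sb_lim hM hU'.ms hr (hfc.mono hb) (hunif _ (isCompact_closedBall _ _) hb)
      refine tendsto_nhds_unique h2 ((hq z hz r hr hb).congr' ?_)
      filter_upwards [h1] with i hi
      rw [hi]
      rfl
    · right
      have hcc : ContinuousOn (fun z => (starRingEnd ℂ) (f z)) D :=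
        Complex.continuous_conj.comp_continuousOn hfc
      refine weyl hD hcc fun z hz r hr hb => ?_
      have hu2 : TendstoUniformlyOn (fun i w => (starRingEnd ℂ) (H i w))
          (fun z => (starRingEnd ℂ) (f z)) U (Metric.closedBall z (4 * r)) := by
        have h5 := hunif _ (isCompact_closedBall z (4 * r)) hb
        rw [Metric.tendstoUniformlyOn_iff] at h5 ⊢
        intro e he
        filter_upwards [h5 e he] with i hi w hw
        rw [dist_eq_norm, ← map_sub, Complex.norm_conj, ← dist_eq_norm]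
        exact hi w hw
      have h2 := Sb_lim (H := fun i w => (starRingEnd ℂ) (H i w)) (M := M)
        (fun i w => by rw [Complex.norm_conj]; exact hM i w)
        (hU'.ms.mono fun i hi => Complex.continuous_conj.comp_aestronglyMeasurable hi) hr
        (hcc.mono hb) hu2
      refine tendsto_nhds_unique h2 ((hq z hz r hr hb).congr' ?_)
      filter_upwards [h1] with i hi
      rw [hi]
      rfl
  have htri : TriBC D φ d f :=
    ⟨⟨M, hfM⟩, fun p hp h1 h2 h3 h4 => (hU'.b1 p hp h1 h2 h3 h4).LB hf,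
      fun p hp h1 h2 h3 => (hU'.b2 p hp h1 h2 h3).LB hf,
      fun p hp h1 h2 h3 => (hU'.b3 p hp h1 h2 h3).LB hf⟩
  have hlim := hid f htri hol b hb hbd x hx0 hx1 hφb
  have hne : (𝓝[D] b).NeBot := by
    rw [← mem_closure_iff_nhdsWithin_neBot]
    exact frontier_subset_closure hb
  have hT : 0 < ‖tau3 - 1‖ := norm_pos_iff.2 tau3_ne_one
  rw [Metric.tendsto_nhds]
  intro η hη
  set η' := η * ‖tau3 - 1‖ / 4 with hη'
  have hη'0 : 0 < η' := by positivity
  obtain ⟨δ, hδ, h1⟩ := hU'.val η' hη'0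
  have h2 := Metric.tendsto_nhds.1 hlim η' hη'0
  have h3 : Metric.ball b δ ∩ D ∈ 𝓝[D] b := by
    rw [inter_comm]
    exact inter_mem_nhdsWithin D (Metric.ball_mem_nhds b hδ)
  obtain ⟨z, hz1, hz2, hz3⟩ := (h2.and h3).exists
  have h4 := Metric.tendsto_nhds.1 (hf z hz3) η' hη'0
  filter_upwards [h1 z hz3 hz2, h4] with i hi1 hi4
  have e1 : dist (1 + (c i : ℂ) * (tau3 - 1)) (1 + (crossingFormula x : ℂ) * (tau3 - 1)) <
      4 * η' := by
    calc dist (1 + (c i : ℂ) * (tau3 - 1)) (1 + (crossingFormula x : ℂ) * (tau3 - 1))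
        ≤ dist (1 + (c i : ℂ) * (tau3 - 1)) (H i z) + dist (H i z) (f z) +
          dist (f z) (1 + (crossingFormula x : ℂ) * (tau3 - 1)) := dist_triangle4 _ _ _ _
      _ ≤ η' + η' + η' := by
          refine add_le_add (add_le_add ?_ hi4.le) hz1.le
          rw [dist_comm]; exact hi1
      _ < 4 * η' := by linarith
  have e2 : dist (1 + (c i : ℂ) * (tau3 - 1)) (1 + (crossingFormula x : ℂ) * (tau3 - 1)) =
      dist (c i) (crossingFormula x) * ‖tau3 - 1‖ := by
    rw [dist_add_left, dist_eq_norm, ← sub_mul, norm_mul, Real.dist_eq, ← Complex.ofReal_sub,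
      Complex.norm_real, Real.norm_eq_abs]
  rw [e2, hη'] at e1
  have e3 : dist (c i) (crossingFormula x) * ‖tau3 - 1‖ < η * ‖tau3 - 1‖ := by linarith
  exact lt_of_mul_lt_mul_right e3 hT.le

end ptw


/-! ### the spine -/

/-- **leaf HOL** (no part A): the annealed observable is asymptotically WEAKLY holomorphic; `Sb r`
is `∂̄` of the mollification at the FIXED scale `r` (`dbar_moll`) -/
def LHol (Adm : Dom → ℝ → Prop) : Prop := ∀ (D : Dom) (δ : ℝ), Adm D δ →
  ∀ G : ℝ → Set Sample, GoodFam D G → ∀ m > 0, ∀ r > 0, ∀ z : ℂ, Room D (4 * r) z → Linked D m z →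
    Tendsto (fun ε : ℝ => Sb r (HG D G ε) z) (𝓝[>] 0) (𝓝 0)

/-- the four leaves, weak version -/
structure Leaves3 (Adm : Dom → ℝ → Prop) : Prop where
  good : LGood Adm
  equi : LEqui Adm
  hol : LHol Adm
  dom : LDom Adm


theorem tr_cont (r : Bool) : Continuous (tr r) := by
  unfold tr
  cases r
  · exact continuous_id
  · simp only [if_true]
    exact continuous_const.mul Complex.continuous_conj

/-- the ball of a point of `D` has room -/
theorem room_of_ball {D : Dom} {ρ r : ℝ} {z : ℂ} (hr : 0 ≤ r) (hρ : 0 < ρ)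
    (h : ∀ y ∈ Metric.closedBall z r, Room D ρ y) : Room D r z := by
  constructor
  · rw [Set.disjoint_left]
    intro y hy hyo
    exact Set.disjoint_left.1 (h y hy).1 (Metric.mem_closedBall_self hρ.le) hyo
  · intro y hy
    exact (h y hy).2 (Metric.mem_closedBall_self hρ.le)



end Crest.Agent.R143.Spinex422
end
end

-- ▼ part R143/Spine7_422
section

/-!
# Row 143 (S0194), SPINE 7: the weak spine with the dichotomy (helper422)

* `LMinW` : leaf: pairwise minimum of the weak `∂̄` and the weak `∂` of the annealed observable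
* `lminW_of_hol`, `lminW_of_test`, `lminW_of_dich` : sufficient conditions
* `finalW`, `body_minW`
-/

set_option autoImplicit false

noncomputable section

namespace Crest.Agent.R143.Spinex422

open Complex Set Filter Topology MeasureTheory
open Crest.ProbabilityR.Voronoi
open Crest.Agent.R143.B0x346 Crest.Agent.R143.B0Dx346 Crest.Agent.R143.PP1x831
open Crest.Agent.R143.BC0x336 Crest.Agent.R143.EndAx336 Crest.Agent.R143.EndBx336
open Crest.Agent.R143.Mollx887

/-! ### the end theorem -/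

section ptw

variable {ι : Type} {D : Set ℂ}

/-- hypotheses of the end theorem, weak dichotomy -/
structure EndW2 (D : Set ℂ) (φ : ℂ → ℂ) (d b : ℂ) (l : Filter ι) (H : ι → ℂ → ℂ) (c : ι → ℝ) :
    Prop where
  bd : ∃ M : ℝ, ∀ i, ∀ z, ‖H i z‖ ≤ M
  ms : ∀ᶠ i in l, AEStronglyMeasurable (H i) volume
  equi : AEqui D l H
  /-- weakly holomorphic or antiholomorphic -/
  wk : ∀ z ∈ D, ∀ r > 0, Metric.closedBall z (4 * r) ⊆ D →
    ∀ z' ∈ D, ∀ r' > 0, Metric.closedBall z' (4 * r') ⊆ D →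
    Tendsto (fun i => min ‖Sb r (H i) z‖ ‖Sb r' (cj (H i)) z'‖) l (𝓝 0)
  b1 : ∀ p ∈ frontier D, p ≠ d → (φ p).im = 0 → 0 < (φ p).re → (φ p).re < 1 →
    ALBP D l H 1 (tau3 - 1) p
  b2 : ∀ p ∈ frontier D, p ≠ d → (φ p).im = 0 → 1 < (φ p).re →
    ALBP D l H tau3 (tau3 ^ 2 - tau3) p
  b3 : ∀ p ∈ frontier D, p ≠ d → (φ p).im = 0 → (φ p).re < 0 →
    ALBP D l H (tau3 ^ 2) (1 - tau3 ^ 2) p
  val : ∀ η > 0, ∃ δ > 0, ∀ z ∈ D, dist z b < δ → ∀ᶠ i in l,
    dist (H i z) (1 + (c i : ℂ) * (tau3 - 1)) ≤ η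

theorem EndW2.mono {φ : ℂ → ℂ} {d b : ℂ} {l l' : Filter ι} {H : ι → ℂ → ℂ} {c : ι → ℝ}
    (h : EndW2 D φ d b l H c) (hl : l' ≤ l) : EndW2 D φ d b l' H c where
  bd := h.bd
  ms := hl h.ms
  equi := h.equi.mono hl
  wk z hz r hr hb z' hz' r' hr' hb' := (h.wk z hz r hr hb z' hz' r' hr' hb').mono_left hl
  b1 p hp h1 h2 h3 h4 := (h.b1 p hp h1 h2 h3 h4).mono hl
  b2 p hp h1 h2 h3 := (h.b2 p hp h1 h2 h3).mono hl
  b3 p hp h1 h2 h3 := (h.b3 p hp h1 h2 h3).mono hl
  val η hη := by
    obtain ⟨δ, hδ, h1⟩ := h.val η hη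
    exact ⟨δ, hδ, fun z hz hzb => hl (h1 z hz hzb)⟩

/-- along an ultrafilter, one of the two factors of a vanishing minimum vanishes -/
theorem alt_min {U : Ultrafilter ι} {a b : ι → ℝ} (h : Tendsto (fun i => min (a i) (b i)) U (𝓝 0)) :
    Tendsto a U (𝓝 0) ∨ Tendsto b U (𝓝 0) := by
  rcases U.em (fun i => a i ≤ b i) with h1 | h1
  · left
    refine h.congr' ?_
    filter_upwards [h1] with i hi
    exact min_eq_left hi
  · right
    refine h.congr' ?_
    filter_upwards [h1] with i hi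
    exact min_eq_right (not_le.1 hi).le

/-- along an ultrafilter the dichotomy gives one of the two alternatives of `EndW` -/
theorem EndW2.toW {φ : ℂ → ℂ} {d b : ℂ} {U : Ultrafilter ι} {H : ι → ℂ → ℂ} {c : ι → ℝ}
    (h : EndW2 D φ d b U H c) : EndW D φ d b U H c where
  bd := h.bd
  ms := h.ms
  equi := h.equi
  wk := by
    by_cases h1 : ∀ z ∈ D, ∀ r > 0, Metric.closedBall z (4 * r) ⊆ D →
        Tendsto (fun i => Sb r (H i) z) U (𝓝 0)
    · exact ⟨fun _ => false, h1⟩
    · push Not at h1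
      obtain ⟨z, hz, r, hr, hb, hn⟩ := h1
      refine ⟨fun _ => true, fun z' hz' r' hr' hb' => ?_⟩
      rcases alt_min (h.wk z hz r hr hb z' hz' r' hr' hb') with h2 | h2
      · exact absurd (tendsto_zero_iff_norm_tendsto_zero.2 h2) hn
      · exact tendsto_zero_iff_norm_tendsto_zero.2 h2
  b1 := h.b1
  b2 := h.b2
  b3 := h.b3
  val := h.val

/-- **end theorem**, weak dichotomy -/
theorem end_coreW2 (hD : IsOpen D) {φ : ℂ → ℂ} {d b : ℂ} (hid : Ident D φ d)
    (hb : b ∈ frontier D) (hbd : b ≠ d) {x : ℝ} (hx0 : 0 < x) (hx1 : x < 1) (hφb : φ b = x)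
    {l : Filter ι} {H : ι → ℂ → ℂ} {c : ι → ℝ} (h : EndW2 D φ d b l H c) :
    Tendsto c l (𝓝 (crossingFormula x)) := by
  rw [tendsto_iff_ultrafilter]
  intro U hU
  exact end_coreW hD hid hb hbd hx0 hx1 hφb (h.mono hU).toW

end ptw

/-- **top of the assembly**, weak dichotomy -/
theorem topW2 (S : Dat) {b : ℂ} (hb : b ∈ frontier S.D) (hbd : b ≠ S.d) (hφb : S.φ b = S.x)
    {H H' : ℕ × ℝ → ℂ → ℂ} {c c' : ℕ × ℝ → ℝ}
    (h : EndW2 S.D S.φ S.d b lc H c) (h' : EndW2 S.D S.φ S.d b lc H' c')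
    (hle : ∀ η > 0, ∀ᶠ i in lc, c i - η ≤ S.P i.2)
    (hle' : ∀ η > 0, ∀ᶠ i in lc, S.P i.2 ≤ c' i + η) :
    Tendsto (fun ε : ℝ => sampleLaw (crossingEvent ε S.D S.A1 S.A2)) (𝓝[>] 0)
      (𝓝 (ENNReal.ofReal (crossingFormula S.x))) := by
  have hid : Ident S.D S.φ S.d :=
    IdentDx439.bc5 S.D S.hD S.hDb S.hDc S.φ S.hφ S.hφi S.hφD S.d S.hd S.hφc S.hφd
  have h1 := end_coreW2 S.hD hid hb hbd S.hx0 S.hx1 hφb h
  have h2 := end_coreW2 S.hD hid hb hbd S.hx0 S.hx1 hφb h'
  have h3 : Tendsto S.P (𝓝[>] 0) (𝓝 (crossingFormula S.x)) := by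
    rw [Metric.tendsto_nhds]
    intro η hη
    have h4 : ∀ᶠ i in lc, dist (S.P i.2) (crossingFormula S.x) < η := by
      filter_upwards [Metric.tendsto_nhds.1 h1 (η / 2) (by linarith),
        Metric.tendsto_nhds.1 h2 (η / 2) (by linarith), hle (η / 2) (by linarith),
        hle' (η / 2) (by linarith)] with i e1 e2 e3 e4
      rw [Real.dist_eq, abs_lt] at e1 e2 ⊢
      constructor <;> linarith [e1.1, e1.2, e2.1, e2.2]
    rw [ev_lc] at h4
    exact h4.exists.choose_spec
  have h4 := ENNReal.tendsto_ofReal h3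
  refine h4.congr fun ε => ?_
  exact ENNReal.ofReal_toReal (measure_ne_top _ _)

/-! ### the leaf -/

/-- **leaf MINW** (no part A): the annealed observable is asymptotically weakly holomorphic or weakly
antiholomorphic, pairwise form at fixed points and scales -/
def LMinW (Adm : Dom → ℝ → Prop) : Prop := ∀ (D : Dom) (δ : ℝ), Adm D δ →
  ∀ G : ℝ → Set Sample, GoodFam D G → ∀ m > 0,
  ∀ r > 0, ∀ z : ℂ, Room D (4 * r) z → Linked D m z →
  ∀ r' > 0, ∀ z' : ℂ, Room D (4 * r') z' → Linked D m z' →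
    Tendsto (fun ε : ℝ => min ‖Sb r (HG D G ε) z‖ ‖Sb r' (cj (HG D G ε)) z'‖) (𝓝[>] 0) (𝓝 0)

/-- the four leaves, weak dichotomy -/
structure LeavesW (Adm : Dom → ℝ → Prop) : Prop where
  good : LGood Adm
  equi : LEqui Adm
  mn : LMinW Adm
  dom : LDom Adm

theorem cj_tr (w : ℂ) : (starRingEnd ℂ) (tr true w) = (starRingEnd ℂ) om * w := by
  simp [tr]

theorem endW2_of {Adm : Dom → ℝ → Prop} (hE : LEqui Adm) (hM : LMinW Adm) (hG : LGood Adm)
    (S : Dat) (b : ℂ) {rv : ℕ → Bool} {Dm : ℕ → Dom} {δ m : ℕ → ℝ}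
    (hOK : ∀ n, Adm (Dm n) (δ n)) (hR : RoomOK S.D Dm m) {P : (ℕ × ℝ → ℝ) → Prop}
    (h : ∀ G : ℕ → ℝ → Set Sample, (∀ n, GoodFam (Dm n) (G n)) →
      ∃ c : ℕ × ℝ → ℝ, Bdry S b (Hs rv Dm G) c ∧ P c) :
    ∃ (H : ℕ × ℝ → ℂ → ℂ) (c : ℕ × ℝ → ℝ), EndW2 S.D S.φ S.d b lc H c ∧ P c := by
  choose G hGf using fun n => hG (Dm n) (δ n) (hOK n)
  obtain ⟨c, hc, hP⟩ := h G hGf
  obtain ⟨hm0, hR⟩ := hR
  have hbm : ∀ n, ∀ᶠ ε in 𝓝[>] (0 : ℝ), BM (HG (Dm n) (G n) ε) 3 := by
    intro n
    filter_upwards [(hGf n).hm2] with ε hε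
    exact bm_HG hε
  refine ⟨Hs rv Dm G, c, ?_, hP⟩
  refine ⟨⟨3, fun i z => ?_⟩, ?_, ?_, ?_, hc.b1, hc.b2, hc.b3, hc.val⟩
  · rw [Hs, norm_tr]; exact norm_HG_le _ _ _ _
  · rw [ev_lc]
    refine Eventually.of_forall fun n => ?_
    filter_upwards [hbm n] with ε hε
    exact (tr_cont (rv n)).comp_aestronglyMeasurable hε.meas
  · -- equicontinuity
    intro K hK hKD η hη
    obtain ⟨ρ, hρ0, hρ1⟩ := hR K hK hKD
    obtain ⟨s, hs, h1⟩ := hE ρ hρ0 η hη
    refine ⟨s, hs, ?_⟩
    rw [ev_lc]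
    filter_upwards [hρ1] with n hn
    filter_upwards [h1 (Dm n) (δ n) (hOK n) (G n) (hGf n) (m n) (hm0 n)] with ε hε z hz w hw hzw
    rw [Hs, Hs, tr_dist]
    exact hε z w (hn z hz).1 (hn w hw).1 (hn z hz).2 (hn w hw).2 hzw
  · -- weak dichotomy
    intro z hz r hr hb z' hz' r' hr' hb'
    refine tendsto_lc ?_
    obtain ⟨ρ, hρ0, hρ1⟩ := hR _ (isCompact_closedBall z (4 * r)) hb
    obtain ⟨ρ', hρ0', hρ1'⟩ := hR _ (isCompact_closedBall z' (4 * r')) hb'
    filter_upwards [hρ1, hρ1'] with n hn hn'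
    have hz4 : z ∈ Metric.closedBall z (4 * r) := Metric.mem_closedBall_self (by linarith)
    have hz4' : z' ∈ Metric.closedBall z' (4 * r') := Metric.mem_closedBall_self (by linarith)
    have r1 : Room (Dm n) (4 * r) z := room_of_ball (by linarith) hρ0 fun y hy => (hn y hy).1
    have r2 : Room (Dm n) (4 * r') z' := room_of_ball (by linarith) hρ0' fun y hy => (hn' y hy).1
    have nom : ‖(starRingEnd ℂ) om‖ = 1 := by rw [Complex.norm_conj, norm_om]
    cases hrv : rv n
    · have e1 : ∀ ε : ℝ, Hs rv Dm G (n, ε) = HG (Dm n) (G n) ε := by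
        intro ε
        funext w
        rw [Hs]
        simp only [hrv]
        rfl
      simp only [e1]
      exact hM (Dm n) (δ n) (hOK n) (G n) (hGf n) (m n) (hm0 n) r hr z r1 (hn z hz4).2 r' hr' z' r2
        (hn' z' hz4').2
    · have e1 : ∀ ε : ℝ, ‖Sb r (Hs rv Dm G (n, ε)) z‖ = ‖Sb r (cj (HG (Dm n) (G n) ε)) z‖ := by
        intro ε
        have e2 : Hs rv Dm G (n, ε) = fun w => om * cj (HG (Dm n) (G n) ε) w := by
          funext w
          rw [Hs]
          simp only [hrv]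
          rfl
        rw [e2, Sb_mul, norm_mul, norm_om, one_mul]
      have e3 : ∀ ε : ℝ, ‖Sb r' (cj (Hs rv Dm G (n, ε))) z'‖ = ‖Sb r' (HG (Dm n) (G n) ε) z'‖ := by
        intro ε
        have e2 : cj (Hs rv Dm G (n, ε)) =
            fun w => (starRingEnd ℂ) om * HG (Dm n) (G n) ε w := by
          funext w
          show (starRingEnd ℂ) (Hs rv Dm G (n, ε) w) = _
          rw [Hs]
          simp only [hrv]
          exact cj_tr _
        rw [e2, Sb_mul, norm_mul, nom, one_mul]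
      simp only [e1, e3]
      have h5 := hM (Dm n) (δ n) (hOK n) (G n) (hGf n) (m n) (hm0 n) r' hr' z' r2
        (hn' z' hz4').2 r hr z r1 (hn z hz4).2
      refine h5.congr fun ε => ?_
      exact min_comm _ _

/-- **the spine, weak dichotomy** -/
theorem finalW {Adm : Dom → ℝ → Prop} (L : LeavesW Adm) : Body := by
  intro S
  obtain ⟨b, hb, hbd, hφb⟩ := S.exists_b
  obtain ⟨v1, D1, d1, m1, ok1, r1, e1⟩ := L.dom S b hb hbd hφb false
  obtain ⟨v2, D2, d2, m2, ok2, r2, e2⟩ := L.dom S b hb hbd hφb true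
  obtain ⟨H, c, h, hc⟩ := endW2_of L.equi L.mn L.good S b ok1 r1 e1
  obtain ⟨H', c', h', hc'⟩ := endW2_of L.equi L.mn L.good S b ok2 r2 e2
  exact topW2 S hb hbd hφb h h' (fun η hη => by simpa using hc η hη)
    (fun η hη => by simpa using hc' η hη)


/-! ### sufficient conditions -/













end Crest.Agent.R143.Spinex422
end
end

-- ▼ part R143/LimR_422
section

/-!
# Row 143 (S0194): the limit part with the quenched RSW (helper422)

* `bde`, `lalb`, `val` : boundary estimate, boundary conditions, value near `b`, outright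
* `body_two` : the statement from the interior equicontinuity and the leaf `LMinW`
-/

set_option autoImplicit false

noncomputable section

namespace Crest.Agent.R143.LimRx422

open Crest.Agent.R143.B0Dx346 Crest.Agent.R143.Spinex422 Crest.Agent.R143.Cfgx416

theorem bde : D3Jx802.BDE := BdeMx422.bde_of_rbm RBmFx54.rbm

theorem lalb : LALB Dom.Ad := D3Kx802.lalb_of_bde bde

theorem val : Cfgx416.VAL := ValFx422.valE bde


end Crest.Agent.R143.LimRx422
end
end

-- ▼ part R143/LEqF_63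
section

/-!
# Row 143 (S0194): leaf `LEqui` of the spine, outright (helper63)
-/

set_option autoImplicit false

namespace Crest.Agent.R143.LEqFx63

open Crest.Agent.R143.B0x346 Crest.Agent.R143.B0Dx346

/-- **leaf LEqui** for every class of admissible domains contained in `Dom.Ad`, no hypothesis -/
theorem lequi {Adm : Dom → ℝ → Prop} (hAdm : ∀ D δ, Adm D δ → D.Ad δ) : Spinex422.LEqui Adm :=
  EQE4x63.lequi_rbm RBmFx54.rbm hAdm

/-- **leaf LEqui** for `Dom.Ad` -/
theorem lequiAd : Spinex422.LEqui Dom.Ad := lequi fun _ _ h => h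

end Crest.Agent.R143.LEqFx63
end

-- ▼ part R143/Spine8_422

/-!
# Row 143 (S0194), SPINE 8: domains with null frontier (helper422)

* `AdP` : admissible domains with `volume (frontier D.out) = 0`
* `lequi_mono`, `lalb_mono`, `lminW_mono`
* `body_g` : `Body` from `LMinW Adm`, `LDom' Adm` for any `Adm ≤ Dom.Ad`
* `body_p` : **`LMinW AdP → Body`**
-/

set_option autoImplicit false
set_option linter.all false

noncomputable section

namespace Crest.Agent.R143.Spine8x422

open Set Filter Topology MeasureTheory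
open Crest.ProbabilityR.Voronoi
open Crest.Agent.R143.B0x346 Crest.Agent.R143.B0Dx346
open Crest.Agent.R143.Spinex422 Crest.Agent.R143.Cfgx416 Crest.Agent.R143.GeoSeqPx422

theorem lequi_mono {A B : Dom → ℝ → Prop} (h : ∀ D δ, A D δ → B D δ) (hB : LEqui B) : LEqui A := by
  intro ρ hρ η hη
  obtain ⟨s, hs, h1⟩ := hB ρ hρ η hη
  exact ⟨s, hs, fun D δ hD => h1 D δ (h D δ hD)⟩

theorem lalb_mono {A B : Dom → ℝ → Prop} (h : ∀ D δ, A D δ → B D δ) (hB : LALB B) : LALB A := by
  intro i η hη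
  obtain ⟨Λ, hΛ, h1⟩ := hB i η hη
  exact ⟨Λ, hΛ, fun D δ hD => h1 D δ (h D δ hD)⟩


theorem lgood_mono {A B : Dom → ℝ → Prop} (h : ∀ D δ, A D δ → B D δ) (hB : LGood B) : LGood A :=
  fun D δ hD => hB D δ (h D δ hD)

/-- **Body** from the two leaves for a smaller class of domains -/
theorem body_g {A : Dom → ℝ → Prop} (h : ∀ D δ, A D δ → Dom.Ad D δ) (hM : LMinW A)
    (hD : LDom' A) : Body :=
  finalW (Adm := A) ⟨lgood_mono h lgood_ad, lequi_mono h LEqFx63.lequiAd, hM,
    dom_of (lalb_mono h LimRx422.lalb) hD⟩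

theorem ldom_p : LDom' AdP :=
  ldomP Cara4x723.cara LimRx422.val D4Lx408.d4lo D4Ux408.d4up D4Lx606.d4col Crs6x117.p2b
    DomEx722.d2

/-- **the statement from one leaf, on domains with null frontier** -/
theorem body_p (h : LMinW AdP) : Body := body_g (fun D δ hD => hD.1) h ldom_p

end Crest.Agent.R143.Spine8x422
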