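import Crest.Agent.R143.Sep3_686
import Crest.Agent.R143.Ext_358
import Crest.Agent.R143.RcT_422
import Crest.Agent.R143.TileR1_228

-- ▼ part R143/LocC_776
section

/-!
# Row 143 (S0194), RIG, LOCX of note 3970 (R-f), combinatorial half (helper776)

* `Ch R N` : chains inside `N`; `Crs R N In W Out` : a chain from `In` to `Out` through `W`
* `crs_of` : a chain from `In` to `Out` crosses one of the two separators `WL`, `WR`
* `ext_or` : a cell of `Ext` is in `Ext'` (off the window `T`) or is joined to `T` by bad cells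
* **`locx`** : no crossing of the two separators inside the bad cells: the cells of `Ext` off the
  enlarged window are in `Ext'`; `locx_bd` : the same for the boundary cells
-/

set_option autoImplicit false

noncomputable section

open scoped Classical

namespace Crest.Agent.R143.LocCx776

open Crest.Agent.R143.B0x346 Crest.Agent.R143.DelGx806 Crest.Agent.R143.DelRx806
open Crest.Agent.R143.Blkx838 (DE)
open Crest.Agent.R143.Neckx921 (Lk)
open Crest.Agent.R143.Frame1x395 Crest.Agent.R143.Frame2x395 Crest.Agent.R143.Frame3x395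
  Crest.Agent.R143.Frame4x395 Crest.Agent.R143.Frame8x395 Crest.Agent.R143.Frame9x395
  Crest.Agent.R143.Frame10x395 Crest.Agent.R143.Frame11x395
open Crest.Agent.R143.Frame5x395 (sd mem_sd th th_spec)
open Crest.Agent.R143.Extx358 (Ad Ext Bd)
open Crest.Agent.R143.Sepx686 (AdjC adj_inner)

/-! ### chains with two separators -/

section ring

variable {α : Type} {R : α → α → Prop} {In W WL WR Out N N' : Set α}

/-- a chain inside `N` -/
def Ch (R : α → α → Prop) (N : Set α) : α → α → Prop :=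
  Relation.ReflTransGen fun a b => R a b ∧ a ∈ N ∧ b ∈ N

theorem Ch.mono (h : N ⊆ N') {a b : α} (hc : Ch R N a b) : Ch R N' a b :=
  Relation.ReflTransGen.mono (fun _ _ g => ⟨g.1, h g.2.1, h g.2.2⟩) _ _ hc




end ring

/-! ### cells -/

section cells

variable {D C : Type} {M : CMap D C} {H Z Z' T Cor : Set C}

/-- the bad cells: in `Ext`, in the corridor, not in `Ext'` -/
def Nn (M : CMap D C) (H Z Z' T Cor : Set C) : Set C :=
  {c | Ext M H Z c ∧ c ∈ Cor ∧ ¬ Ext M H (Z' ∪ T) c}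

/-- **a cell of `Ext` is in `Ext'` or joined to the window by bad cells** -/
theorem ext_or (hZ : Z' ⊆ Z) (hT : T ⊆ Cor)
    (top : ∀ c, Ext M H Z c → c ∉ Cor → Ext M H (Z' ∪ T) c) {c : C} (h : Ext M H Z c) :
    Ext M H (Z' ∪ T) c ∨ ∃ t ∈ T, t ∈ Nn M H Z Z' T Cor ∧ c ∈ Nn M H Z Z' T Cor ∧
      Ch (Ad M) (Nn M H Z Z' T Cor) t c := by
  have hw : ∀ c, Ext M H Z c → c ∈ T → c ∈ Nn M H Z Z' T Cor := fun c h1 h2 =>
    ⟨h1, hT h2, fun h3 => h3.off (Or.inr h2)⟩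
  induction h with
  | @hull c h1 h2 =>
    by_cases hc : c ∈ T
    · have := hw c (Ext.hull h1 h2) hc
      exact Or.inr ⟨c, hc, this, this, .refl⟩
    · exact Or.inl (Ext.hull h1 fun h3 => h3.elim (fun h4 => h2 (hZ h4)) hc)
  | @step c c' h1 h2 h3 ih =>
    have h4 := Ext.step h1 h2 h3
    by_cases hc : c' ∈ T
    · have := hw c' h4 hc
      exact Or.inr ⟨c', hc, this, this, .refl⟩
    by_cases h5 : Ext M H (Z' ∪ T) c'
    · exact Or.inl h5
    rcases ih with ih | ⟨t, ht, g1, g2, g3⟩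
    · exact Or.inl (Ext.step ih h2 fun h6 => h6.elim (fun h7 => h3 (hZ h7)) hc)
    · have h6 : c' ∈ Cor := by
        by_contra h7
        exact h5 (top c' h4 h7)
      have h7 : c' ∈ Nn M H Z Z' T Cor := ⟨h4, h6, h5⟩
      exact Or.inr ⟨t, ht, g1, h7, g3.tail ⟨h2, g2, h7⟩⟩

end cells

/-! ### sites -/

section sites

variable {S : Finset ℂ} {hS : GP (S : Set ℂ)} {H Z Z' T : Set (Quot (hullE S))} {U : Set ℂ}

/-- the cell of a site -/
abbrev mk (S : Finset ℂ) (s : ℂ) : Quot (hullE S) := Quot.mk (hullE S) s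


/-- the bad sites -/
def Ns (hS : GP (S : Set ℂ)) (H Z Z' T : Set (Quot (hullE S))) (U : Set ℂ) : Set ℂ :=
  {s | s ∈ S ∧ s ∈ U ∧ Ext (cm0 hS) H Z (mk S s) ∧ ¬ Ext (cm0 hS) H (Z' ∪ T) (mk S s)}

theorem ad_de {u v : ℂ} (hu : ¬ OnHull S u) (hv : ¬ OnHull S v)
    (h : Ad (cm0 hS) (mk S u) (mk S v)) : DE S u v := by
  obtain ⟨d, -, h1, h2⟩ := h
  obtain ⟨w, hw, h3⟩ := adj_inner hS hu ⟨d, Or.inl ⟨h1, h2⟩⟩
  rwa [← quot_inner hS hv h3]


variable {In WL WR Out : Set ℂ}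


end sites


end Crest.Agent.R143.LocCx776
end
end

-- ▼ part R143/LocP_776
section

/-!
# Row 143 (S0194), RIG, LOCX: the closed curtain (helper776)

* **`no_pass`** : a closed chain `M ++ R` of Delaunay edges; `M` crosses the wall (an axis segment
  `{Y = 0, x0 ≤ X ≤ x1}`) from below to above, `R` does not meet it; `Ci`, `Co` : connected sets off the
  chain which contain the left / the right end of the wall. No chain of sites off the closed chain joins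
  a site of `Ci` to a site of `Co`.
* `lists` : the same with links (`Lk`) instead of lists
-/

set_option autoImplicit false

noncomputable section

open scoped Classical

namespace Crest.Agent.R143.LocPx776

open Crest.Agent.R143.B0x346 Crest.Agent.R143.DelGx806 Crest.Agent.R143.DelRx806
open Crest.Agent.R143.ToolWx838 Crest.Agent.R143.Blkx838 Crest.Agent.R143.ToolW2x838
open Crest.Agent.R143.ToolW3x838 Crest.Agent.R143.Gatex838 Crest.Agent.R143.Neckx921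
open Crest.Agent.R143.Circ4x838 Crest.Agent.R143.Idxx927
open Crest.Agent.R143.Sepx686 (asum_lk lk_to_list)

variable {S : Finset ℂ} {z0 e : ℂ}

/-- the point `x` of the axis of the frame -/
def ax (z0 e : ℂ) (x : ℝ) : ℂ := z0 + e * (x : ℂ)

theorem wl_ax (z0 e : ℂ) (x : ℝ) : wl z0 (e * Complex.I) (-x) = ax z0 e x := by
  unfold wl ax
  have : e * Complex.I * (((-x : ℝ) : ℂ) * Complex.I) = e * (x : ℂ) * (-(Complex.I * Complex.I)) := by
    push_cast
    ring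
  rw [this, Complex.I_mul_I]
  ring

theorem XY_rot (z0 e s : ℂ) : X z0 (e * Complex.I) s = Y z0 e s ∧
    Y z0 (e * Complex.I) s = -X z0 e s := by
  unfold X Y
  have : (s - z0) / (e * Complex.I) = -(Complex.I * ((s - z0) / e)) := by
    rw [← div_div, Complex.div_I]
    ring
  rw [this]
  constructor
  · simp
  · simp

/-- **the closed curtain** -/
theorem no_pass (hS : GP (S : Set ℂ)) (he : e ≠ 0) {M R : List ℂ} {a b : ℂ}
    (hM0 : M.head? = some a) (hM1 : M.getLast? = some b) (hR0 : R.head? = some b)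
    (hR1 : R.getLast? = some a) (dM : ∀ p ∈ prs M, DE S p.1 p.2) (dR : ∀ p ∈ prs R, DE S p.1 p.2)
    {x0 x1 : ℝ} (h01 : x0 ≤ x1) (hMx : ∀ s ∈ M, x0 < X z0 e s ∧ X z0 e s < x1)
    (ha : Y z0 e a < 0) (hb : 0 < Y z0 e b)
    (hRw : ∀ p ∈ prs R, ∀ x, x0 ≤ x → x ≤ x1 → ax z0 e x ∉ segment ℝ p.1 p.2)
    {Ci Co : Set ℂ} (hCi : IsPreconnected Ci) (hCo : IsPreconnected Co)
    (hi : ax z0 e x0 ∈ Ci) (ho : ax z0 e x1 ∈ Co)
    (oi : ∀ w ∈ Ci, ∀ p, p ∈ prs M ∨ p ∈ prs R → w ∉ segment ℝ p.1 p.2)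
    (oo : ∀ w ∈ Co, ∀ p, p ∈ prs M ∨ p ∈ prs R → w ∉ segment ℝ p.1 p.2)
    {A : Set ℂ} (hA : ∀ s ∈ A, s ∉ M ∧ s ∉ R) {t c : ℂ} (ht : t ∈ Ci) (hc : c ∈ Co)
    (hch : Lk S A t c) : False := by
  have hMn : M ≠ [] := by rintro rfl; simp at hM0
  have hcl : (cat M R).head? = (cat M R).getLast? := by
    rw [cat_head hMn, cat_last hM1 hR0, hM0, hR1]
  have hl : Loop S (cat M R) := ⟨hcl, fun p hp => by
    rw [prs_cat hM1 hR0, List.mem_append] at hp
    rcases hp with hp | hp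
    · exact dM p hp
    · exact dR p hp⟩
  have hoff : ∀ (C : Set ℂ), (∀ w ∈ C, ∀ p, p ∈ prs M ∨ p ∈ prs R → w ∉ segment ℝ p.1 p.2) →
      ∀ w ∈ C, ∀ p ∈ prs (cat M R), w ∉ segment ℝ p.1 p.2 := by
    intro C h w hw p hp
    rw [prs_cat hM1 hR0, List.mem_append] at hp
    exact h w hw p hp
  have h1 : asum t (cat M R) = asum c (cat M R) :=
    asum_lk hS hl (fun s hs hsl => (mem_cat hsl).elim (hA s hs).1 (hA s hs).2) hch
  have h2 : asum t (cat M R) = asum (ax z0 e x0) (cat M R) :=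
    asum_const hcl hCi (hoff Ci oi) ht hi
  have h3 : asum c (cat M R) = asum (ax z0 e x1) (cat M R) :=
    asum_const hcl hCo (hoff Co oo) hc ho
  have hI : e * Complex.I ≠ 0 := mul_ne_zero he Complex.I_ne_zero
  have h4 := wall_jump (z0 := z0) hI (M := M) (R := R) (a := a) (b := b) (y0 := -x1) (y1 := -x0)
    (by linarith) hM0 hM1 hR0 hR1
    (by
      intro s hs
      rw [(XY_rot z0 e s).2]
      have := hMx s hs
      constructor <;> linarith)
    (by rw [(XY_rot z0 e a).1]; exact ha) (by rw [(XY_rot z0 e b).1]; exact hb)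
    (by
      intro p hp t h5 h6
      have := hRw p hp (-t) (by linarith) (by linarith)
      rwa [← wl_ax, neg_neg] at this)
  rw [wl_ax, wl_ax, ← asum_cat hM1 hR0, ← asum_cat hM1 hR0] at h4
  have := Real.pi_pos
  linarith

/-- lists of a link, with the bounds on its edges -/
theorem to_list {A : Set ℂ} {u v : ℂ} (h : Lk S A u v) :
    ∃ q : List ℂ, q.head? = some u ∧ q.getLast? = some v ∧ (∀ s ∈ q, s ∈ A) ∧
      ∀ p ∈ prs q, DE S p.1 p.2 ∧ p.1 ∈ A ∧ p.2 ∈ A := by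
  obtain ⟨q, hq, h1, h2, h3, h4⟩ := lk_to_list h
  refine ⟨q, by rw [List.head?_eq_some_head hq, h3], by rw [List.getLast?_eq_some_getLast hq, h4], h2,
    fun p hp => ?_⟩
  have m := mem_of_prs hp
  exact ⟨h1 p hp, h2 _ m.1, h2 _ m.2⟩

/-- a link from a list -/
theorem cat_link {A B : Set ℂ} {q r : List ℂ} {u v w : ℂ} (hq0 : q.head? = some u)
    (hq1 : q.getLast? = some v) (hr0 : r.head? = some v) (hr1 : r.getLast? = some w)
    (hq : ∀ s ∈ q, s ∈ A) (hr : ∀ s ∈ r, s ∈ B) :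
    (cat q r).head? = some u ∧ (cat q r).getLast? = some w ∧ (∀ s ∈ cat q r, s ∈ A ∪ B) ∧
      prs (cat q r) = prs q ++ prs r := by
  have hqn : q ≠ [] := by rintro rfl; simp at hq0
  refine ⟨by rw [cat_head hqn, hq0], by rw [cat_last hq1 hr0, hr1], fun s hs => ?_,
    prs_cat hq1 hr0⟩
  rcases mem_cat hs with h | h
  · exact Or.inl (hq s h)
  · exact Or.inr (hr s h)

/-- **the closed curtain, link form**: `VR` from `a` (below) to `b` (above) at the right separator, `VF`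
from `b` to `b'` (far), `VL` from `b'` to `a'` at the left separator, `VK` from `a'` to `a` (inner) -/
theorem no_passL (hS : GP (S : Set ℂ)) (he : e ≠ 0) {VR VF VL VK : Set ℂ} {a b a' b' : ℂ}
    (lR : Lk S VR a b) (lF : Lk S VF b b') (lL : Lk S VL b' a') (lK : Lk S VK a' a)
    {x0 x1 : ℝ} (h01 : x0 ≤ x1) (hRx : ∀ s ∈ VR, x0 < X z0 e s ∧ X z0 e s < x1)
    (ha : Y z0 e a < 0) (hb : 0 < Y z0 e b)
    (hw : ∀ u v, DE S u v → ((u ∈ VF ∧ v ∈ VF) ∨ (u ∈ VL ∧ v ∈ VL) ∨ (u ∈ VK ∧ v ∈ VK)) →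
      ∀ x, x0 ≤ x → x ≤ x1 → ax z0 e x ∉ segment ℝ u v)
    {Ci Co : Set ℂ} (hCi : IsPreconnected Ci) (hCo : IsPreconnected Co)
    (hi : ax z0 e x0 ∈ Ci) (ho : ax z0 e x1 ∈ Co)
    (hC : ∀ w, w ∈ Ci ∨ w ∈ Co → ∀ u v, DE S u v → ((u ∈ VR ∧ v ∈ VR) ∨ (u ∈ VF ∧ v ∈ VF) ∨
      (u ∈ VL ∧ v ∈ VL) ∨ (u ∈ VK ∧ v ∈ VK)) → w ∉ segment ℝ u v)
    {A : Set ℂ} (hA : ∀ s ∈ A, s ∉ VR ∧ s ∉ VF ∧ s ∉ VL ∧ s ∉ VK) {t c : ℂ} (ht : t ∈ Ci)
    (hc : c ∈ Co) (hch : Lk S A t c) : False := by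
  obtain ⟨M, m0, m1, m2, m3⟩ := to_list lR
  obtain ⟨F, f0, f1, f2, f3⟩ := to_list lF
  obtain ⟨L, l0, l1, l2, l3⟩ := to_list lL
  obtain ⟨K, k0, k1, k2, k3⟩ := to_list lK
  obtain ⟨g0, g1, g2, g3⟩ := cat_link f0 f1 l0 l1 f2 l2
  obtain ⟨r0, r1, r2, r3⟩ := cat_link g0 g1 k0 k1 g2 k2
  have hR : ∀ p ∈ prs (cat (cat F L) K), DE S p.1 p.2 ∧ ((p.1 ∈ VF ∧ p.2 ∈ VF) ∨
      (p.1 ∈ VL ∧ p.2 ∈ VL) ∨ (p.1 ∈ VK ∧ p.2 ∈ VK)) := by
    intro p hp
    rw [r3, g3, List.mem_append, List.mem_append] at hp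
    rcases hp with (hp | hp) | hp
    · exact ⟨(f3 p hp).1, Or.inl (f3 p hp).2⟩
    · exact ⟨(l3 p hp).1, Or.inr (Or.inl (l3 p hp).2)⟩
    · exact ⟨(k3 p hp).1, Or.inr (Or.inr (k3 p hp).2)⟩
  have hall : ∀ w, w ∈ Ci ∨ w ∈ Co → ∀ p, p ∈ prs M ∨ p ∈ prs (cat (cat F L) K) →
      w ∉ segment ℝ p.1 p.2 := by
    intro w hw' p hp
    rcases hp with hp | hp
    · exact hC w hw' p.1 p.2 (m3 p hp).1 (Or.inl (m3 p hp).2)
    · exact hC w hw' p.1 p.2 (hR p hp).1 (Or.inr (hR p hp).2)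
  refine no_pass hS he m0 m1 r0 r1 (fun p hp => (m3 p hp).1) (fun p hp => (hR p hp).1) h01
    (fun s hs => hRx s (m2 s hs)) ha hb (fun p hp x h1 h2 => hw p.1 p.2 (hR p hp).1 (hR p hp).2 x h1 h2)
    hCi hCo hi ho (fun w hw' => hall w (Or.inl hw')) (fun w hw' => hall w (Or.inr hw')) ?_ ht hc hch
    (A := A)
  intro s hs
  obtain ⟨h1, h2, h3, h4⟩ := hA s hs
  refine ⟨fun h => h1 (m2 s h), fun h => ?_⟩
  rcases r2 s h with (h | h) | h
  · exact h2 h
  · exact h3 h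
  · exact h4 h

end Crest.Agent.R143.LocPx776
end
end

-- ▼ part R143/LocD_776
section

/-!
# Row 143 (S0194), RIG, LOCX: cells, `rc0` form (helper776)

`M = rc0 hS`, `H = Hc hS`; `Z' ⊆ Z` blocking cells, `T` = cells of the window.

* `Ns hS Z Z' T` : the bad sites (inner sites, cell in `Ext Z`, not in `Ext (Z' ∪ T)`)
* **`bad_chain`** : a cell of `Ext Z` is in `Ext (Z' ∪ T)` or it is joined by bad sites to a site of the
  window
* `Cur` : a closed curtain (776's `no_passL`); **`Cur.loc`** : the cells of the sites of `Co` which are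
  in `Ext Z` are in `Ext (Z' ∪ T)`, if every site of the curtain is in `Z`, or not in `Ext Z`, or in
  `Ext (Z' ∪ T)`; `Cur.loc_bd` : boundary form
* `ext_lk` : linked sites off `Z' ∪ T`: both in `Ext` or none; `ext_hull` : a site on the hull
-/

set_option autoImplicit false

noncomputable section

open scoped Classical

namespace Crest.Agent.R143.LocDx776

open Crest.Agent.R143.B0x346 Crest.Agent.R143.DelGx806 Crest.Agent.R143.DelRx806
open Crest.Agent.R143.Blkx838 (DE)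
open Crest.Agent.R143.Neckx921 (Lk)
open Crest.Agent.R143.ToolW2x838 Crest.Agent.R143.ToolW3x838 Crest.Agent.R143.Gatex838
open Crest.Agent.R143.Frame1x395 Crest.Agent.R143.Frame2x395 Crest.Agent.R143.Frame3x395
  Crest.Agent.R143.Frame4x395 Crest.Agent.R143.Frame8x395 Crest.Agent.R143.Frame9x395
  Crest.Agent.R143.Frame10x395 Crest.Agent.R143.Frame11x395
open Crest.Agent.R143.Extx358 (Ad Ext Bd)
open Crest.Agent.R143.Sepx686 (AdjC adj_inner)
open Crest.Agent.R143.FinCx811 (Cs rc0 cs rcol cell_mem cs_inj cs_surj)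
open Crest.Agent.R143.RcTx422 (Hc RC ad_adjc exists_Hc)
open Crest.Agent.R143.LocCx776 (Ch Nn ext_or)
open Crest.Agent.R143.LocPx776 (ax no_passL)

variable {S : Finset ℂ} {hS : GP (S : Set ℂ)} {Z Z' T : Set (Cs hS)}

/-- the bad sites -/
def Ns (hS : GP (S : Set ℂ)) (Z Z' T : Set (Cs hS)) : Set ℂ :=
  {s | s ∈ S ∧ ¬ OnHull S s ∧ ∃ c : Cs hS, c.1 = Quot.mk (hullE S) s ∧ Ext (rc0 hS) (Hc hS) Z c ∧
    ¬ Ext (rc0 hS) (Hc hS) (Z' ∪ T) c}

/-- a cell which is not the hull cell is the cell of an inner site -/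
theorem site_of {c : Cs hS} (h : c ∉ Hc hS) : ∃ s ∈ S, ¬ OnHull S s ∧ c.1 = Quot.mk (hullE S) s := by
  obtain ⟨_, ⟨d, rfl⟩⟩ := c
  refine ⟨d.1.1, (Sepx686.dart_mem d).1, fun hh => h ⟨d.1.1, hh, rfl⟩, rfl⟩

theorem ad_de {u v : ℂ} (hu : ¬ OnHull S u) (hv : ¬ OnHull S v) {a b : Cs hS} (ha : a.1 = Quot.mk (hullE S) u)
    (hb : b.1 = Quot.mk (hullE S) v) (h : Ad (rc0 hS) a b) : DE S u v := by
  have h1 := ad_adjc h
  rw [ha, hb] at h1
  obtain ⟨w, hw, h3⟩ := adj_inner hS hu h1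
  rwa [← quot_inner hS hv h3]

/-- **bad chain** -/
theorem bad_chain (hZ : Z' ⊆ Z) (hT : ∀ c ∈ T, c ∉ Hc hS) {c : Cs hS}
    (h : Ext (rc0 hS) (Hc hS) Z c) : Ext (rc0 hS) (Hc hS) (Z' ∪ T) c ∨
      ∃ t s, (∃ ct ∈ T, ct.1 = Quot.mk (hullE S) t) ∧ ¬ OnHull S t ∧ ¬ OnHull S s ∧ c.1 = Quot.mk (hullE S) s ∧
        Lk S (Ns hS Z Z' T) t s := by
  rcases ext_or hZ (Cor := {c | c ∉ Hc hS}) hT (fun c h1 h2 => by
      have h3 : c ∈ Hc hS := by simpa using h2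
      exact Ext.hull h3 fun h4 => h4.elim (fun h5 => h1.off (hZ h5)) fun h5 => hT c h5 h3) h
    with h1 | ⟨t, ht, g1, g2, g3⟩
  · exact Or.inl h1
  right
  obtain ⟨t', ht', hth, et⟩ := site_of (hT t ht)
  have g1' : t' ∈ Ns hS Z Z' T := ⟨ht', hth, t, et, g1.1, g1.2.2⟩
  have key : ∃ s, ¬ OnHull S s ∧ c.1 = Quot.mk (hullE S) s ∧ s ∈ Ns hS Z Z' T ∧
      Relation.ReflTransGen (fun u v => DE S u v ∧ u ∈ Ns hS Z Z' T ∧ v ∈ Ns hS Z Z' T) t' s := by
    clear g2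
    induction g3 with
    | refl => exact ⟨t', hth, et, g1', .refl⟩
    | @tail b c _ hs ih =>
      obtain ⟨s, k1, k2, k3, k4⟩ := ih (by
        rcases hs with ⟨-, hb, -⟩
        exact hb.1)
      obtain ⟨had, -, hc⟩ := hs
      obtain ⟨s', m1, m2, m3⟩ := site_of hc.2.1
      have m4 : s' ∈ Ns hS Z Z' T := ⟨m1, m2, c, m3, hc.1, hc.2.2⟩
      exact ⟨s', m2, m3, m4, k4.tail ⟨ad_de k1 m2 k2 m3 had, k3, m4⟩⟩
  obtain ⟨s, k1, k2, k3, k4⟩ := key
  exact ⟨t', s, ⟨t, ht, et⟩, hth, k1, k2, ⟨g1', k3⟩, k4⟩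

/-! ### the closed curtain -/

/-- **a closed curtain** -/
structure Cur (S : Finset ℂ) (z0 e : ℂ) (x0 x1 : ℝ) (VR VF VL VK Ci Co : Set ℂ) (a b b' a' : ℂ) :
    Prop where
  he : e ≠ 0
  lR : Lk S VR a b
  lF : Lk S VF b b'
  lL : Lk S VL b' a'
  lK : Lk S VK a' a
  h01 : x0 ≤ x1
  hRx : ∀ s ∈ VR, x0 < X z0 e s ∧ X z0 e s < x1
  ha : Y z0 e a < 0
  hb : 0 < Y z0 e b
  hw : ∀ u v, DE S u v → ((u ∈ VF ∧ v ∈ VF) ∨ (u ∈ VL ∧ v ∈ VL) ∨ (u ∈ VK ∧ v ∈ VK)) →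
    ∀ x, x0 ≤ x → x ≤ x1 → ax z0 e x ∉ segment ℝ u v
  hCi : IsPreconnected Ci
  hCo : IsPreconnected Co
  hi : ax z0 e x0 ∈ Ci
  ho : ax z0 e x1 ∈ Co
  hC : ∀ w, w ∈ Ci ∨ w ∈ Co → ∀ u v, DE S u v → ((u ∈ VR ∧ v ∈ VR) ∨ (u ∈ VF ∧ v ∈ VF) ∨
    (u ∈ VL ∧ v ∈ VL) ∨ (u ∈ VK ∧ v ∈ VK)) → w ∉ segment ℝ u v

variable {z0 e : ℂ} {x0 x1 : ℝ} {VR VF VL VK Ci Co : Set ℂ} {a b b' a' : ℂ}

/-- the site `s` is not bad -/
def Ok (hS : GP (S : Set ℂ)) (Z Z' T : Set (Cs hS)) (s : ℂ) : Prop :=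
  ∀ c : Cs hS, c.1 = Quot.mk (hullE S) s → c ∈ Z ∨ ¬ Ext (rc0 hS) (Hc hS) Z c ∨
    Ext (rc0 hS) (Hc hS) (Z' ∪ T) c

theorem Ok.not {s : ℂ} (h : Ok hS Z Z' T s) : s ∉ Ns hS Z Z' T := by
  rintro ⟨-, -, c, e, h1, h2⟩
  rcases h c e with h3 | h3 | h3
  · exact h1.off h3
  · exact h3 h1
  · exact h2 h3

/-- **LOCX from a closed curtain** -/
theorem Cur.loc (K : Cur S z0 e x0 x1 VR VF VL VK Ci Co a b b' a') (hZ : Z' ⊆ Z)
    (hT : ∀ c ∈ T, ∃ t ∈ S, ¬ OnHull S t ∧ t ∈ Ci ∧ c.1 = Quot.mk (hullE S) t)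
    (hV : ∀ s, s ∈ VR ∨ s ∈ VF ∨ s ∈ VL ∨ s ∈ VK → Ok hS Z Z' T s) {c : Cs hS}
    (hc : (∃ s, s ∈ Co ∧ c.1 = Quot.mk (hullE S) s) ∨ c ∈ Hc hS) (h : Ext (rc0 hS) (Hc hS) Z c) :
    Ext (rc0 hS) (Hc hS) (Z' ∪ T) c := by
  have hT' : ∀ c ∈ T, c ∉ Hc hS := by
    rintro c hc ⟨w, hw, e'⟩
    obtain ⟨t, -, h2, -, e2⟩ := hT c hc
    rw [e2] at e'
    exact h2 (quot_inner hS h2 e' ▸ hw)
  rcases bad_chain hZ hT' h with h1 | ⟨t, s, ⟨ct, h2, h3⟩, h4, h5, h6, h7⟩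
  · exact h1
  exfalso
  obtain ⟨t', -, k2, k3, k4⟩ := hT ct h2
  have e1 : t = t' := (quot_inner hS h4 (h3.symm.trans k4)).symm
  rcases hc with ⟨s', h8, h9⟩ | ⟨w, hw, h9⟩
  · have e2 : s = s' := (quot_inner hS h5 (h6.symm.trans h9)).symm
    refine no_passL hS K.he K.lR K.lF K.lL K.lK K.h01 K.hRx K.ha K.hb K.hw K.hCi K.hCo K.hi K.ho
      K.hC (A := Ns hS Z Z' T) ?_ (e1 ▸ k3 : t ∈ Ci) (e2 ▸ h8 : s ∈ Co) h7
    intro u hu
    exact ⟨fun h => (hV u (Or.inl h)).not hu, fun h => (hV u (Or.inr (Or.inl h))).not hu,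
      fun h => (hV u (Or.inr (Or.inr (Or.inl h)))).not hu,
      fun h => (hV u (Or.inr (Or.inr (Or.inr h)))).not hu⟩
  · have e2 : w = s := quot_inner hS h5 (h6.symm.trans h9)
    exact h5 (e2 ▸ hw)

/-- **boundary form** -/
theorem Cur.loc_bd (K : Cur S z0 e x0 x1 VR VF VL VK Ci Co a b b' a') (hZ : Z' ⊆ Z)
    (hT : ∀ c ∈ T, ∃ t ∈ S, ¬ OnHull S t ∧ t ∈ Ci ∧ c.1 = Quot.mk (hullE S) t)
    (hV : ∀ s, s ∈ VR ∨ s ∈ VF ∨ s ∈ VL ∨ s ∈ VK → Ok hS Z Z' T s) {c : Cs hS} {s : ℂ}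
    (hs : c.1 = Quot.mk (hullE S) s) (hsi : ¬ OnHull S s) (hn : ∀ u, DE S s u → u ∈ Co ∨ OnHull S u)
    (h : c ∈ Bd (rc0 hS) (Hc hS) Z) :
    ∃ e, Ext (rc0 hS) (Hc hS) (Z' ∪ T) e ∧ Ad (rc0 hS) e c := by
  obtain ⟨-, e, h2, h3⟩ := h
  refine ⟨e, K.loc hZ hT hV ?_ h2, h3⟩
  by_cases he : e ∈ Hc hS
  · exact Or.inr he
  obtain ⟨u, h4, h5, h6⟩ := site_of he
  rcases hn u (ad_de hsi h5 hs h6 h3.symm) with h7 | h7
  · exact Or.inl ⟨u, h7, h6⟩
  · exact absurd h7 h5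

/-! ### sites linked to the hull -/


/-- **sites linked off `Y` to a site of `Ext` are in `Ext`** -/
theorem ext_lk {Y : Set (Cs hS)} {A : Set ℂ}
    (hA : ∀ s ∈ A, ∀ c : Cs hS, c.1 = Quot.mk (hullE S) s → c ∉ Y) {u v : ℂ} (h : Lk S A u v)
    (hu : ∀ c : Cs hS, c.1 = Quot.mk (hullE S) u → Ext (rc0 hS) (Hc hS) Y c) {c : Cs hS} (e : c.1 = Quot.mk (hullE S) v) :
    Ext (rc0 hS) (Hc hS) Y c := by
  obtain ⟨⟨huA, -⟩, h⟩ := h
  have h3 : 3 ≤ S.card := by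
    obtain ⟨_, ⟨d, rfl⟩⟩ := c
    exact RcTx422.dart3 hS d
  have hmem : ∀ v : {v // v ∈ S}, (cs hS h3 v).1 = Quot.mk (hullE S) v.1 := fun v => rfl
  induction h generalizing c with
  | refl => exact hu c e
  | @tail b d _ h1 ih =>
    obtain ⟨h2, hb, hd⟩ := h1
    have m := RcTx422.de_mem h2
    have hE := ih (c := cs hS h3 ⟨b, m.1⟩) rfl
    have e2 : c = cs hS h3 ⟨d, m.2⟩ := Subtype.ext e
    rcases RcTx422.step_rc (hS := hS) h3 (u := ⟨b, m.1⟩) (w := ⟨d, m.2⟩) h2 with h4 | h4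
    · rw [e2, ← h4]; exact hE
    · rw [e2]; exact Ext.step hE h4 (hA d hd _ rfl)

end Crest.Agent.R143.LocDx776
end
end

-- ▼ part R143/TilU_496

/-!
# Row 143 (S0194), CORE-C, Q2, LOCX: tiles as connected sets, axis of a straight stretch (helper496)

For 776. `P : FPath M W`, regions `RR A B h W a`.
* `arm_convex`, `rr_pre`, `gate_mem` : a tile is preconnected, the gate point is in both tiles
* `tiles_pre` : the union of consecutive tiles is preconnected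
* `thick`, `X_lip`, `Y_lip` : the `t`-neighbourhood of a tile is in the tile with `A + t`, `B + t`
* `sep`, `sep'` : two tiles with a common point (points at distance `< g`) are equal or neighbours
* `ax` : the axis of the gate `k`; `ge_str`, `cen_str`, `ax_mem` (general straight stretch)
* `ax_m2`, `ax_m3`, `ax_1`, `ax_2` : the axis in the tiles `k - 2`, `k - 3`, `k + 1`, `k + 2`
* `cin_pre`, `cout_pre` : tiles and a piece of the axis are preconnected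
-/

set_option autoImplicit false

noncomputable section

open scoped Classical

namespace Crest.Agent.R143.TilUx496

open Crest.Agent.R143.Gatex838 (X Y)
open Crest.Agent.R143.TileRx228

variable {A B h g t : ℝ} {M : ℕ} {W : ℤ → ℤ × ℤ} {a b k i : ℤ} {c u w z : ℂ}

/-! ### arms -/

theorem X_comb (c e u v : ℂ) {r s : ℝ} (h : r + s = 1) :
    X c e (r • u + s • v) = r * X c e u + s * X c e v := by
  have h1 : r • u + s • v - c = (r : ℂ) * (u - c) + (s : ℂ) * (v - c) := by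
    have : (r : ℂ) + s = 1 := by exact_mod_cast h
    simp only [Complex.real_smul]
    linear_combination c * this
  unfold X
  rw [h1, add_div, mul_div_assoc, mul_div_assoc, Complex.add_re, Complex.re_ofReal_mul,
    Complex.re_ofReal_mul]

theorem Y_comb (c e u v : ℂ) {r s : ℝ} (h : r + s = 1) :
    Y c e (r • u + s • v) = r * Y c e u + s * Y c e v := by
  have h1 : r • u + s • v - c = (r : ℂ) * (u - c) + (s : ℂ) * (v - c) := by
    have : (r : ℂ) + s = 1 := by exact_mod_cast h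
    simp only [Complex.real_smul]
    linear_combination c * this
  unfold Y
  rw [h1, add_div, mul_div_assoc, mul_div_assoc, Complex.add_im, Complex.im_ofReal_mul,
    Complex.im_ofReal_mul]

theorem cv_lt {r s x y d : ℝ} (hr : 0 ≤ r) (hs : 0 ≤ s) (hrs : r + s = 1) (hx : x < d)
    (hy : y < d) : r * x + s * y < d := by
  rcases eq_or_lt_of_le hr with h | h
  · subst h
    rw [zero_add] at hrs
    subst hrs
    linarith
  · have h1 : r * x < r * d := mul_lt_mul_of_pos_left hx h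
    have h2 : s * y ≤ s * d := mul_le_mul_of_nonneg_left hy.le hs
    have h3 : r * d + s * d = d := by rw [← add_mul, hrs, one_mul]
    linarith

theorem cv_gt {r s x y d : ℝ} (hr : 0 ≤ r) (hs : 0 ≤ s) (hrs : r + s = 1) (hx : d < x)
    (hy : d < y) : d < r * x + s * y := by
  have := cv_lt (x := -x) (y := -y) (d := -d) hr hs hrs (by linarith) (by linarith)
  linarith

theorem arm_convex (A B : ℝ) (c u : ℂ) : Convex ℝ (Arm A B c u) := by
  intro x hx y hy r s hr hs hrs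
  obtain ⟨⟨h1, h2⟩, h3⟩ := hx
  obtain ⟨⟨h4, h5⟩, h6⟩ := hy
  rw [abs_lt] at h3 h6
  refine ⟨⟨?_, ?_⟩, abs_lt.2 ⟨?_, ?_⟩⟩
  · rw [X_comb _ _ _ _ hrs]; exact cv_gt hr hs hrs h1 h4
  · rw [X_comb _ _ _ _ hrs]; exact cv_lt hr hs hrs h2 h5
  · rw [Y_comb _ _ _ _ hrs]; exact cv_gt hr hs hrs h3.1 h6.1
  · rw [Y_comb _ _ _ _ hrs]; exact cv_lt hr hs hrs h3.2 h6.2

theorem cen_arm (hA : 0 < A) (hB : 0 < B) (c u : ℂ) : c ∈ Arm A B c u := by
  have h1 : X c u c = 0 := by simp [X]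
  have h2 : Y c u c = 0 := by simp [Y]
  refine ⟨⟨?_, ?_⟩, ?_⟩
  · rw [h1]; linarith
  · rw [h1]; exact hB
  · rw [h2, abs_zero]; exact hA

theorem cen_RR (hA : 0 < A) (hB : 0 < B) (h : ℝ) (W : ℤ → ℤ × ℤ) (a : ℤ) :
    cen h W a ∈ RR A B h W a := Or.inl (cen_arm hA hB _ _)

/-- (1) **a tile is preconnected** -/
theorem rr_pre (hA : 0 < A) (hB : 0 < B) (h : ℝ) (W : ℤ → ℤ × ℤ) (a : ℤ) :
    IsPreconnected (RR A B h W a) :=
  IsPreconnected.union (cen h W a) (cen_arm hA hB _ _) (cen_arm hA hB _ _)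
    (arm_convex _ _ _ _).isPreconnected (arm_convex _ _ _ _).isPreconnected

/-- (1) **the gate point is in both tiles** -/
theorem gate_mem (P : FPath M W) (hA : 0 < A) (hB' : h / 2 < B) (hB : B ≤ h) (a : ℤ) :
    gz h W (a + 1) ∈ RR A B h W a ∧ gz h W (a + 1) ∈ RR A B h W (a + 1) := by
  have h1 : X (gz h W (a + 1)) (ge W (a + 1)) (gz h W (a + 1)) = 0 := by simp [X]
  have h2 : Y (gz h W (a + 1)) (ge W (a + 1)) (gz h W (a + 1)) = 0 := by simp [Y]
  refine ⟨win_left P hA hB ?_ ?_, win_right P hA hB ?_ ?_⟩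
  · rw [h1, abs_zero]; linarith
  · rw [h2, abs_zero]; exact hA
  · rw [h1, abs_zero]; linarith
  · rw [h2, abs_zero]; exact hA

/-- (2) **consecutive tiles** -/
theorem tiles_pre (P : FPath M W) (hA : 0 < A) (hB0 : 0 < B) (hB' : h / 2 < B) (hB : B ≤ h)
    (hab : a ≤ b) : IsPreconnected (⋃ j ∈ Set.Icc a b, RR A B h W j) := by
  induction b, hab using Int.leInduction with
  | base =>
    rw [Set.Icc_self]
    simp only [Set.mem_singleton_iff, Set.iUnion_iUnion_eq_left]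
    exact rr_pre hA hB0 h W a
  | succ b hab ih =>
    have e : (⋃ j ∈ Set.Icc a (b + 1), RR A B h W j) =
        (⋃ j ∈ Set.Icc a b, RR A B h W j) ∪ RR A B h W (b + 1) := by
      ext s
      simp only [Set.mem_iUnion, Set.mem_Icc, Set.mem_union, exists_prop]
      constructor
      · rintro ⟨j, ⟨h1, h2⟩, h3⟩
        rcases eq_or_lt_of_le h2 with h4 | h4
        · exact Or.inr (h4 ▸ h3)
        · exact Or.inl ⟨j, ⟨h1, by omega⟩, h3⟩
      · rintro (⟨j, ⟨h1, h2⟩, h3⟩ | h3)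
        · exact ⟨j, ⟨h1, by omega⟩, h3⟩
        · exact ⟨b + 1, ⟨by omega, le_rfl⟩, h3⟩
    rw [e]
    obtain ⟨h1, h2⟩ := gate_mem P hA hB' hB b
    refine IsPreconnected.union (gz h W (b + 1)) ?_ h2 ih (rr_pre hA hB0 h W (b + 1))
    simp only [Set.mem_iUnion, Set.mem_Icc, exists_prop]
    exact ⟨b, ⟨hab, le_rfl⟩, h1⟩

/-! ### thickening, separation -/

theorem X_lip (c : ℂ) {e : ℂ} (he : ‖e‖ = 1) (u w : ℂ) : |X c e u - X c e w| ≤ ‖u - w‖ := by
  have : X c e u - X c e w = ((u - w) / e).re := by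
    unfold X
    rw [← Complex.sub_re, ← sub_div]
    congr 2
    ring
  rw [this]
  refine (Complex.abs_re_le_norm _).trans ?_
  rw [norm_div, he, div_one]

theorem Y_lip (c : ℂ) {e : ℂ} (he : ‖e‖ = 1) (u w : ℂ) : |Y c e u - Y c e w| ≤ ‖u - w‖ := by
  have : Y c e u - Y c e w = ((u - w) / e).im := by
    unfold Y
    rw [← Complex.sub_im, ← sub_div]
    congr 2
    ring
  rw [this]
  refine (Complex.abs_im_le_norm _).trans ?_
  rw [norm_div, he, div_one]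

theorem arm_thick {e : ℂ} (he : ‖e‖ = 1) (hw : w ∈ Arm A B c e) (hu : ‖u - w‖ ≤ t) :
    u ∈ Arm (A + t) (B + t) c e := by
  obtain ⟨⟨h1, h2⟩, h3⟩ := hw
  have h4 := abs_le.1 ((X_lip c he u w).trans hu)
  have h5 := abs_le.1 ((Y_lip c he u w).trans hu)
  rw [abs_lt] at h3
  exact ⟨⟨by linarith [h4.1], by linarith [h4.2]⟩,
    abs_lt.2 ⟨by linarith [h5.1, h3.1], by linarith [h5.2, h3.2]⟩⟩

/-- (3) **thickening** -/
theorem thick (P : FPath M W) (hw : w ∈ RR A B h W a) (hu : ‖u - w‖ ≤ t) :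
    u ∈ RR (A + t) (B + t) h W a := by
  rcases hw with hw | hw
  · exact Or.inl (arm_thick (norm_cz (P.step' a)) hw hu)
  · exact Or.inr (arm_thick (norm_cz (P.step a)) hw hu)

/-- (4) **tiles with a common point** -/
theorem sep (P : FPath M W) (hA : 0 < A) (hAB : A ≤ B) (hh : A + B < h) (ha : z ∈ RR A B h W a)
    (hb : z ∈ RR A B h W b) :
    (M : ℤ) ∣ b - a ∨ (M : ℤ) ∣ b - (a + 1) ∨ (M : ℤ) ∣ b - (a - 1) := by
  by_contra hc
  push Not at hc
  exact Set.disjoint_left.1 (disj P hA hAB hh hc.1 hc.2.1 hc.2.2) ha hb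


/-! ### the axis -/

/-- point of the axis of the gate `k` with the coordinate `x` -/
def ax (h : ℝ) (W : ℤ → ℤ × ℤ) (k : ℤ) (x : ℝ) : ℂ := gz h W k + ge W k * x

theorem ge_norm (P : FPath M W) (k : ℤ) : ‖ge W k‖ = 1 := norm_cz (U4_ge P k)

theorem ge_ne (P : FPath M W) (k : ℤ) : ge W k ≠ 0 := cz_ne (U4_ge P k)

theorem X_ax (P : FPath M W) (h : ℝ) (k : ℤ) (x : ℝ) : X (gz h W k) (ge W k) (ax h W k x) = x := by
  unfold X ax
  rw [add_sub_cancel_left, mul_div_cancel_left₀ _ (ge_ne P k), Complex.ofReal_re]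

theorem Y_ax (P : FPath M W) (h : ℝ) (k : ℤ) (x : ℝ) : Y (gz h W k) (ge W k) (ax h W k x) = 0 := by
  unfold Y ax
  rw [add_sub_cancel_left, mul_div_cancel_left₀ _ (ge_ne P k), Complex.ofReal_im]



/-- a piece of the axis is preconnected -/
theorem ax_pre (h : ℝ) (W : ℤ → ℤ × ℤ) (k : ℤ) (x y : ℝ) :
    IsPreconnected {z | ∃ r, x ≤ r ∧ r ≤ y ∧ z = ax h W k r} := by
  have e : {z | ∃ r, x ≤ r ∧ r ≤ y ∧ z = ax h W k r} = ax h W k '' Set.Icc x y := by
    ext z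
    simp only [Set.mem_ofPred_eq, Set.mem_image, Set.mem_Icc]
    constructor
    · rintro ⟨r, h1, h2, rfl⟩
      exact ⟨r, ⟨h1, h2⟩, rfl⟩
    · rintro ⟨r, ⟨h1, h2⟩, rfl⟩
      exact ⟨r, h1, h2, rfl⟩
  rw [e]
  refine isPreconnected_Icc.image _ (Continuous.continuousOn ?_)
  unfold ax
  fun_prop

/-- directions on a straight stretch -/
theorem ge_str (hs : ∀ j, a ≤ j → j < b → ge W (j + 1) = ge W j) (h1 : a ≤ i) (h2 : i ≤ b) :
    ge W i = ge W a := by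
  induction i, h1 using Int.leInduction with
  | base => rfl
  | succ i h1 ih => rw [hs i h1 (by omega), ih (by omega)]

theorem ge_str' (hs : ∀ j, a ≤ j → j < b → ge W (j + 1) = ge W j) (h1 : a ≤ i) (h2 : i ≤ b)
    (h3 : a ≤ k) (h4 : k ≤ b) : ge W i = ge W k := by
  rw [ge_str hs h1 h2, ge_str hs h3 h4]

theorem cen_succ (h : ℝ) (W : ℤ → ℤ × ℤ) (i : ℤ) :
    cen h W i = cen h W (i - 1) + h * ge W i := by
  unfold cen ge
  rw [cz_sub]
  ring

theorem cen_gz (h : ℝ) (W : ℤ → ℤ × ℤ) (k : ℤ) :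
    cen h W k = gz h W k + ge W k * ((h / 2 : ℝ) : ℂ) := by
  unfold cen gz ge
  rw [cz_sub]
  push_cast
  ring

/-- vertices on a straight stretch (gates `a … b` have the same direction) -/
theorem cen_str (hs : ∀ j, a ≤ j → j < b → ge W (j + 1) = ge W j) (h3 : a ≤ k) (h4 : k ≤ b)
    (h1 : a - 1 ≤ i) (h2 : i ≤ b) (h : ℝ) :
    cen h W i = gz h W k + ge W k * ((h * (i - k) + h / 2 : ℝ) : ℂ) := by
  rcases le_total k i with hk | hk
  · induction i, hk using Int.leInduction with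
    | base =>
      rw [cen_gz h W k]
      congr 3
      ring
    | succ i hk ih =>
      rw [cen_succ h W (i + 1), add_sub_cancel_right, ih (by omega) (by omega),
        ge_str' hs (i := i + 1) (k := k) (by omega) h2 h3 h4]
      push_cast
      ring
  · induction i, hk using Int.leInductionDown with
    | base =>
      rw [cen_gz h W k]
      congr 3
      ring
    | pred i hk ih =>
      have e := cen_succ h W i
      rw [ih (by omega) (by omega), ge_str' hs (i := i) (k := k) (by omega) (by omega) h3 h4] at e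
      have e' : cen h W (i - 1) = gz h W k + ge W k * ((h * (i - k) + h / 2 : ℝ) : ℂ)
          - h * ge W k := by
        rw [e]; ring
      rw [e']
      push_cast
      ring

/-- **the axis in a tile of a straight stretch** -/
theorem ax_mem (P : FPath M W) (hA : 0 < A) (hs : ∀ j, a ≤ j → j < b → ge W (j + 1) = ge W j)
    (h3 : a ≤ k) (h4 : k ≤ b) (h1 : a ≤ i) (h2 : i < b) {x : ℝ}
    (hx : |x - (h * (i - k) + h / 2)| < B) : ax h W k x ∈ RR A B h W i := by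
  have e1 : cz (W (i + 1) - W i) = ge W k := by
    rw [← ge_str' hs (i := i + 1) (k := k) (by omega) (by omega) h3 h4]
    unfold ge
    rw [add_sub_cancel_right]
  have e2 : cz (W (i - 1) - W i) = -ge W k := by
    rw [← ge_str' hs (i := i) (k := k) (by omega) (by omega) h3 h4]
    unfold ge
    rw [← cz_neg, neg_sub]
  have e3 : ax h W k x - cen h W i = ge W k * ((x - (h * (i - k) + h / 2) : ℝ) : ℂ) := by
    rw [cen_str hs h3 h4 (by omega) h2.le h]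
    unfold ax
    push_cast
    ring
  have hX : X (cen h W i) (ge W k) (ax h W k x) = x - (h * (i - k) + h / 2) := by
    unfold X
    rw [e3, mul_div_cancel_left₀ _ (ge_ne P k), Complex.ofReal_re]
  have hY : Y (cen h W i) (ge W k) (ax h W k x) = 0 := by
    unfold Y
    rw [e3, mul_div_cancel_left₀ _ (ge_ne P k), Complex.ofReal_im]
  rw [abs_lt] at hx
  rcases le_total 0 (x - (h * (i - k) + h / 2)) with h5 | h5
  · refine Or.inr ?_
    rw [e1]
    refine ⟨⟨?_, ?_⟩, ?_⟩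
    · rw [hX]; linarith
    · rw [hX]; exact hx.2
    · rw [hY, abs_zero]; exact hA
  · refine Or.inl ?_
    rw [e2]
    refine ⟨⟨?_, ?_⟩, ?_⟩
    · rw [(XY_neg _ _ _).1, hX]; linarith
    · rw [(XY_neg _ _ _).1, hX]; linarith [hx.1]
    · rw [(XY_neg _ _ _).2, hY, neg_zero, abs_zero]; exact hA

/-! ### (5) six straight tiles around a gate -/

/-- the tiles `k - 3, …, k + 2` are straight -/
def Str6 (W : ℤ → ℤ × ℤ) (k : ℤ) : Prop := ∀ j, k - 3 ≤ j → j ≤ k + 2 → ge W (j + 1) = ge W j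

theorem Str6.lt (H : Str6 W k) : ∀ j, k - 3 ≤ j → j < k + 3 → ge W (j + 1) = ge W j :=
  fun j h1 h2 => H j h1 (by omega)

theorem Str6.ge (H : Str6 W k) (h1 : k - 3 ≤ i) (h2 : i ≤ k + 3) : ge W i = ge W k :=
  ge_str' H.lt h1 h2 (by omega) (by omega)

theorem Str6.mem (P : FPath M W) (H : Str6 W k) (hA : 0 < A) (h1 : k - 3 ≤ i) (h2 : i ≤ k + 2)
    {x : ℝ} (hx : |x - (h * (i - k) + h / 2)| < B) : ax h W k x ∈ RR A B h W i :=
  ax_mem P hA H.lt (by omega) (by omega) h1 (by omega) hx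


/-- the axis in the tile `k - 3` -/
theorem ax_m3 (P : FPath M W) (H : Str6 W k) (hA : 0 < A) (hh : 0 < h) {r : ℝ}
    (h1 : |r| < B - h / 2) : ax h W k (-2 * h + r) ∈ RR A B h W (k - 3) := by
  refine H.mem P hA (by omega) (by omega) ?_
  push_cast
  rw [abs_lt] at h1 ⊢
  constructor <;> nlinarith [h1.1, h1.2]


/-- the axis in the tile `k + 2` -/
theorem ax_2 (P : FPath M W) (H : Str6 W k) (hA : 0 < A) (hh : 0 < h) {r : ℝ}
    (h1 : |r| < B - h / 2) : ax h W k (2 * h + r) ∈ RR A B h W (k + 2) := by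
  refine H.mem P hA (by omega) (by omega) ?_
  push_cast
  rw [abs_lt] at h1 ⊢
  constructor <;> nlinarith [h1.1, h1.2]

/-- **(5) the inner set** -/
theorem cin_pre (P : FPath M W) (H : Str6 W k) (hA : 0 < A) (hB' : h / 2 < B) (hB : B ≤ h)
    (hh : 0 < h) (ha : a ≤ k - 3) {c : ℝ} (hc : c ≤ h) :
    IsPreconnected ((⋃ j ∈ Set.Icc a (k - 3), RR A B h W j) ∪
      {z | ∃ x, -2 * h ≤ x ∧ x ≤ -h - c ∧ z = ax h W k x}) := by
  refine IsPreconnected.union (ax h W k (-2 * h)) ?_ ⟨-2 * h, le_rfl, by linarith, rfl⟩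
    (tiles_pre P hA (by linarith) hB' hB ha) (ax_pre h W k _ _)
  simp only [Set.mem_iUnion, Set.mem_Icc, exists_prop]
  refine ⟨k - 3, ⟨ha, le_rfl⟩, ?_⟩
  have := ax_m3 P H hA hh (r := 0) (B := B) (by rw [abs_zero]; linarith)
  rwa [add_zero] at this

/-- **(5) the outer set** -/
theorem cout_pre (P : FPath M W) (H : Str6 W k) (hA : 0 < A) (hB' : h / 2 < B) (hB : B ≤ h)
    (hh : 0 < h) (hb : k + 2 ≤ b) {c : ℝ} (hc : c ≤ h) :
    IsPreconnected ((⋃ j ∈ Set.Icc (k + 2) b, RR A B h W j) ∪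
      {z | ∃ x, h + c ≤ x ∧ x ≤ 2 * h ∧ z = ax h W k x}) := by
  refine IsPreconnected.union (ax h W k (2 * h)) ?_ ⟨2 * h, by linarith, le_rfl, rfl⟩
    (tiles_pre P hA (by linarith) hB' hB hb) (ax_pre h W k _ _)
  simp only [Set.mem_iUnion, Set.mem_Icc, exists_prop]
  refine ⟨k + 2, ⟨le_rfl, hb⟩, ?_⟩
  have := ax_2 P H hA hh (r := 0) (B := B) (by rw [abs_zero]; linarith)
  rwa [add_zero] at this

end Crest.Agent.R143.TilUx496
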