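import Crest.Agent.R143.TileP_176
import Crest.Agent.R143.Dbl2_609
import Crest.Agent.R143.CorM_970

-- ▼ part R143/TileQ_176
section

/-!
# Row 143 (S0194), box R6, model half, part 2 (helper176): from the sums over the colourings of the
sites of a box to the sample

* `quench` : a bound between the sums over all pairs of colourings (609's `paint2`) of the points of
  the box, for almost every sample, gives the bound of the integrals; left side: any function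
* `quench1` : the same with one colouring
* `tileQ` : **box R6, model half**: on 978's `Net`, for a window `I₁`, `J₁`: if for almost every
  environment the sum over the pairs of colourings of `g_off win X` is at most `K` times the sum of
  `g_off Hd`, then `c^#J₁ ∏ E a_i · E[g X] ≤ K C s² E[g]`
-/

set_option autoImplicit false

noncomputable section

namespace Crest.Agent.R143.TileQx176

open MeasureTheory Set Filter Topology
open Crest.ProbabilityR.Voronoi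
open Crest.Agent.R143.PP0x831 Crest.Agent.R143.Poisx304 Crest.Agent.R143.Janx304
open Crest.Agent.R143.Prodx609 Crest.Agent.R143.ColSumx304 Crest.Agent.R143.Lawx831
open Crest.Agent.R143.Dblx609 Crest.Agent.R143.Dbl2x609
open Crest.Agent.R143.IndLocx279 Crest.Agent.R143.PWx978 Crest.Agent.R143.TilePx176
open Crest.Agent.R143.SumScx302 (sq)
open scoped ENNReal

variable {ε : ℝ} {B : Set ℂ}


/-- **quenched bound, one colouring** -/
theorem quench1 (hε : 0 < ε) (hB : MeasurableSet B) (hb : Bornology.IsBounded B)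
    {Φ Ψ : Set (ℂ × Bool) → ℝ≥0∞} (hΨ : FM Ψ) {K : ℝ≥0∞} (hK : K ≠ ∞)
    (h : ∀ᵐ ω ∂sampleLaw, ∑ β ∈ (Ap ε B ω).powerset, Φ (paint (Ap ε B ω) β) ≤
      K * ∑ β ∈ (Ap ε B ω).powerset, Ψ (paint (Ap ε B ω) β)) :
    ∫⁻ ω, Φ (cfg ε ω ∩ ovr B) ∂sampleLaw ≤ K * ∫⁻ ω, Ψ (cfg ε ω ∩ ovr B) ∂sampleLaw := by
  have h1 := lint_le_qav (d := dec) ε B Φ
  have h2 := lint_eq_qav measurable_dec hε hB hb hΨ
  have h3 : ∫⁻ ω, qav dec ε B Φ ω ∂sampleLaw ≤ ∫⁻ ω, K * qav dec ε B Ψ ω ∂sampleLaw := by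
    refine lintegral_mono_ae ?_
    filter_upwards [ae_injω hε, h] with ω hi hω
    have hA := coe_Ap hε hb ω
    rw [qav_bool hi hA Φ, qav_bool hi hA Ψ]
    calc ((2 : ℝ≥0∞) ^ (Ap ε B ω).card)⁻¹ * ∑ β ∈ (Ap ε B ω).powerset, Φ (paint (Ap ε B ω) β)
        ≤ ((2 : ℝ≥0∞) ^ (Ap ε B ω).card)⁻¹ * (K * ∑ β ∈ (Ap ε B ω).powerset,
          Ψ (paint (Ap ε B ω) β)) := by gcongr
      _ = _ := by ring
  rw [lintegral_const_mul' _ _ hK, h2] at h3
  exact h1.trans h3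



end Crest.Agent.R143.TileQx176
end
end

-- ▼ part R143/TileR_176

/-!
# Row 143 (S0194), box R6, model half, part 3 (helper176): measurable majorants (fields `Q`, `Q'` of
970's `Env`)

* `Hd_paint` : the local energy depends only on the sites; `Hd_fin`
* `Qf M I I₁ J J₁ D d B ω` = mean over the colours of `g_off Hd`; `Qf_meas`, `Qf_bound` :
  `c^#J₁ ∏ E a_i · E Qf ≤ C s² E g`; `Qf_eq` : the mean over the colourings of the points of `B`
* `av_le` : quenched inequality relative to `g_off` ⟹ `av (g · av X) ≤ K Qf`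
-/

set_option autoImplicit false
set_option linter.unusedSectionVars false

noncomputable section

namespace Crest.Agent.R143.TileRx176

open MeasureTheory Set Filter Topology
open Crest.ProbabilityR.Voronoi
open Crest.Agent.R143.PP0x831 Crest.Agent.R143.Poisx304 Crest.Agent.R143.Janx304
open Crest.Agent.R143.Prodx609 Crest.Agent.R143.ColSumx304 Crest.Agent.R143.Lawx831
open Crest.Agent.R143.Dblx609 Crest.Agent.R143.Dbl2x609
open Crest.Agent.R143.IndLocx279 Crest.Agent.R143.PWx978 Crest.Agent.R143.TilePx176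
  Crest.Agent.R143.TileQx176
open Crest.Agent.R143.B0x346
open Crest.Agent.R143.SumScx302 (sq)
open Crest.Agent.R143.Mass1x302 (T3)
open Crest.Agent.R143.CorMx970 (av)
open scoped ENNReal

/-! ### the energy of painted sites -/

theorem ps_paint (A β : Finset ℂ) : FinMx609.ps (paint A β) = (A : Set ℂ) := by
  classical
  ext z
  unfold FinMx609.ps paint
  simp only [mem_image, mem_ofPred_eq, Finset.mem_coe]
  constructor
  · rintro ⟨q, ⟨h, -⟩, rfl⟩; exact h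
  · intro h
    refine ⟨(z, decide (z ∈ β)), ⟨h, ?_⟩, rfl⟩
    simp

theorem Ht_congr {D : Set ℂ} {d : ℝ} {X Y : Set (ℂ × Bool)} (h : FinMx609.ps X = FinMx609.ps Y)
    (t : T3) : Ht D d X t ↔ Ht D d Y t := by
  unfold Ht; rw [h]

theorem Hd_congr {D : Set ℂ} {d : ℝ} {X Y : Set (ℂ × Bool)} (h : FinMx609.ps X = FinMx609.ps Y) :
    Hd D d X = Hd D d Y := by
  unfold Hd
  refine finsum_congr fun t => ?_
  rw [show Ht D d X t = Ht D d Y t from propext (Ht_congr h t)]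

theorem Hd_paint (D : Set ℂ) (d : ℝ) (A β β' : Finset ℂ) :
    Hd D d (paint A β) = Hd D d (paint A β') :=
  Hd_congr ((ps_paint A β).trans (ps_paint A β').symm)

open scoped Classical in
/-- the energy of finitely many sites is a finite sum -/
theorem Hd_sum {D : Set ℂ} {d : ℝ} {X : Set (ℂ × Bool)} {A : Finset ℂ}
    (hA : FinMx609.ps X = (A : Set ℂ)) :
    Hd D d X = ∑ t ∈ (A ×ˢ A ×ˢ A).filter fun t => Ht D d X t, ENNReal.ofReal (FinMx609.rad3 t ^ 2) := by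
  unfold Hd
  have hsub : Function.support (fun t : T3 => ∑ᶠ (_ : Ht D d X t),
      ENNReal.ofReal (FinMx609.rad3 t ^ 2)) ⊆ ((A ×ˢ A ×ˢ A).filter fun t => Ht D d X t : Finset T3) := by
    intro t ht
    have h : Ht D d X t := by
      by_contra h
      exact ht (by simp [h])
    have h1 := h.1
    rw [hA] at h1
    rw [Finset.mem_coe, Finset.mem_filter, Finset.mem_product, Finset.mem_product]
    exact ⟨⟨h1.1, h1.2.1, h1.2.2.1⟩, h⟩
  rw [finsum_eq_sum_of_support_subset _ hsub]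
  refine Finset.sum_congr rfl fun t ht => ?_
  have h := (Finset.mem_filter.1 ht).2
  simp [h]

theorem Hd_fin {D : Set ℂ} {d : ℝ} {X : Set (ℂ × Bool)} (hX : X.Finite) : Hd D d X ≠ ∞ := by
  classical
  have h1 : (FinMx609.ps X).Finite := hX.image _
  rw [Hd_sum (A := h1.toFinset) (by simp)]
  exact ENNReal.sum_ne_top.2 fun t _ => ENNReal.ofReal_ne_top

theorem paint_finite (A β : Finset ℂ) : (paint A β).Finite := by
  refine ((A.finite_toSet.prod (Set.finite_univ (α := Bool)))).subset ?_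
  rintro q ⟨h, -⟩
  exact ⟨h, mem_univ _⟩

/-! ### the majorant -/

section net

variable {ε : ℝ} {ι κ : Type*} [DecidableEq ι] [DecidableEq κ] (M : Net ε ι κ)

/-- **the majorant**: mean over the colours of the weight off the window times the local energy -/
def Qf (I I₁ : Finset ι) (J J₁ : Finset κ) (D : Set ℂ) (d : ℝ) (B : Set ℂ) (ω : Sample) : ℝ≥0∞ :=
  qav dec ε B (fun Y => M.gw (I \ I₁) (J \ J₁) Y * Hd D d Y) ω

variable {I I₁ : Finset ι} {J J₁ : Finset κ} {D W B : Set ℂ} {d : ℝ}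

theorem Qf_meas (hB : MeasurableSet B) (hb : Bornology.IsBounded B) (hD : MeasurableSet D) :
    Measurable (Qf M I I₁ J J₁ D d B) :=
  qav_measω measurable_dec M.eps hB hb fun n => (M.gw_meas _ _ n).mul (Hd_meas hD d n)

theorem Qf_lint (hN₁ : ∀ k ∈ J \ J₁, M.N k ⊆ I \ I₁) (hB : MeasurableSet B)
    (hb : Bornology.IsBounded B) (hD : MeasurableSet D) (hW : MeasurableSet W) (hWB : W ⊆ B)
    (hreg : M.reg (I \ I₁) (J \ J₁) ⊆ B) (hDW : ∀ o ∈ D, Metric.closedBall o d ⊆ W)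
    (hd : Disjoint (M.reg (I \ I₁) (J \ J₁)) W) :
    ∫⁻ ω, Qf M I I₁ J J₁ D d B ω ∂sampleLaw =
      (∫⁻ ω, M.gw (I \ I₁) (J \ J₁) (cfg ε ω) ∂sampleLaw) *
        ∫⁻ ω, Hd D d (cfg ε ω) ∂sampleLaw := by
  have g0 : LocalOn B (M.gw (I \ I₁) (J \ J₁)) := LocalOn.mono hreg (M.gw_local hN₁)
  have h0 : LocalOn B (Hd D d) := LocalOn.mono hWB (Hd_local hDW)
  unfold Qf
  rw [lint_eq_qav measurable_dec M.eps hB hb fun n => (M.gw_meas _ _ n).mul (Hd_meas hD d n),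
    ← lint_mul M.eps (M.reg_meas _ _) (M.reg_bdd _ _) hW (hb.subset hWB) hd (M.gw_local hN₁)
      (Hd_local hDW) (M.gw_meas _ _) (Hd_meas hD d)]
  refine lintegral_congr fun ω => ?_
  show M.gw (I \ I₁) (J \ J₁) (cfg ε ω ∩ {p | p.1 ∈ B}) * Hd D d (cfg ε ω ∩ {p | p.1 ∈ B}) = _
  rw [← g0 (cfg ε ω), ← h0 (cfg ε ω)]

/-- the majorant as a mean over the colourings of the points of `B` -/
theorem Qf_eq {ω : Sample} (hi : ∀ c, Inj ε (toPos ω) c) {A : Finset ℂ}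
    (hA : (A : Set ℂ) = points ε ω ∩ B) :
    Qf M I I₁ J J₁ D d B ω = ((2 : ℝ≥0∞) ^ A.card)⁻¹ * ∑ β ∈ A.powerset,
      M.gw (I \ I₁) (J \ J₁) (paint A β) * Hd D d (paint A β) :=
  qav_bool hi hA _

theorem gw_fin_one {I : Finset ι} {J : Finset κ} (h : ∀ k ∈ J, M.N k ⊆ I) {S : Cf}
    (hS : S.Finite) : M.gw I J S ≤ 1 :=
  (M.gw_le_fin h hS).trans (Finset.prod_le_one' fun i _ => M.a1 i _)


theorem toReal_Qf (hN₁ : ∀ k ∈ J \ J₁, M.N k ⊆ I \ I₁) {ω : Sample}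
    (hi : ∀ c, Inj ε (toPos ω) c) {A : Finset ℂ} (hA : (A : Set ℂ) = points ε ω ∩ B) :
    (Qf M I I₁ J J₁ D d B ω).toReal = ((2 : ℝ) ^ A.card)⁻¹ * ∑ β ∈ A.powerset,
      (M.gw (I \ I₁) (J \ J₁) (paint A β)).toReal * (Hd D d (paint A β)).toReal := by
  rw [Qf_eq M hi hA, ENNReal.toReal_mul, ENNReal.toReal_sum]
  · simp only [ENNReal.toReal_mul, ENNReal.toReal_inv, ENNReal.toReal_pow, ENNReal.toReal_ofNat]
  · exact fun β _ => ENNReal.mul_ne_top (ne_top_of_le_ne_top ENNReal.one_ne_top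
      (gw_fin_one M hN₁ (paint_finite A β))) (Hd_fin (paint_finite A β))

/-- **the quenched inequality relative to the weight off the window gives the majorant** -/
theorem av_le (hI : I₁ ⊆ I) (hJ : J₁ ⊆ J) (hN : ∀ k ∈ J, M.N k ⊆ I)
    (hN₁ : ∀ k ∈ J \ J₁, M.N k ⊆ I \ I₁) {ω : Sample}
    (hi : ∀ c, Inj ε (toPos ω) c) {A : Finset ℂ} (hA : (A : Set ℂ) = points ε ω ∩ B)
    {K : ℝ} {X : Finset ℂ → Finset ℂ → ℝ} (hX : ∀ β ∈ A.powerset, ∀ β' ∈ A.powerset, 0 ≤ X β β')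
    (h : ∑ β ∈ A.powerset, ∑ β' ∈ A.powerset, (M.gw (I \ I₁) (J \ J₁) (paint A β)).toReal *
        ((win M I₁ J₁ (paint A β)).toReal * X β β') ≤
      K * ((2 : ℝ) ^ A.card * ∑ β ∈ A.powerset,
        (M.gw (I \ I₁) (J \ J₁) (paint A β)).toReal * (Hd D d (paint A β)).toReal)) :
    av A.powerset (fun β => (M.gw I J (paint A β)).toReal * av A.powerset (X β)) ≤
      K * (Qf M I I₁ J J₁ D d B ω).toReal := by
  rw [toReal_Qf M hN₁ hi hA]
  have hc : ((A.powerset.card : ℕ) : ℝ) = 2 ^ A.card := by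
    rw [Finset.card_powerset]; push_cast; rfl
  have h1 : ∀ β ∈ A.powerset, (M.gw I J (paint A β)).toReal * ∑ β' ∈ A.powerset, X β β' ≤
      ∑ β' ∈ A.powerset, (M.gw (I \ I₁) (J \ J₁) (paint A β)).toReal *
        ((win M I₁ J₁ (paint A β)).toReal * X β β') := by
    intro β hβ
    have h2 := gw_off_fin M hI hJ hN (paint_finite A β)
    have t1 : M.gw (I \ I₁) (J \ J₁) (paint A β) ≠ ∞ :=
      ne_top_of_le_ne_top ENNReal.one_ne_top (gw_fin_one M hN₁ (paint_finite A β))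
    have t2 : win M I₁ J₁ (paint A β) ≠ ∞ :=
      ne_top_of_le_ne_top ENNReal.one_ne_top (win_le_one M _)
    have h3 : (M.gw I J (paint A β)).toReal ≤ (M.gw (I \ I₁) (J \ J₁) (paint A β)).toReal *
        (win M I₁ J₁ (paint A β)).toReal := by
      rw [← ENNReal.toReal_mul]
      exact ENNReal.toReal_mono (ENNReal.mul_ne_top t1 t2) h2
    rw [Finset.mul_sum]
    refine Finset.sum_le_sum fun β' hβ' => ?_
    rw [← mul_assoc]
    exact mul_le_mul_of_nonneg_right h3 (hX β hβ β' hβ')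
  have h4 := (Finset.sum_le_sum h1).trans h
  unfold CorMx970.av
  simp only [smul_eq_mul]
  rw [hc]
  have e1 : ∑ β ∈ A.powerset, (M.gw I J (paint A β)).toReal *
      (((2 : ℝ) ^ A.card)⁻¹ * ∑ β' ∈ A.powerset, X β β') = ((2 : ℝ) ^ A.card)⁻¹ *
        ∑ β ∈ A.powerset, (M.gw I J (paint A β)).toReal * ∑ β' ∈ A.powerset, X β β' := by
    rw [Finset.mul_sum]
    exact Finset.sum_congr rfl fun β _ => by ring
  rw [e1]
  have hp : (0 : ℝ) < 2 ^ A.card := by positivity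
  calc ((2 : ℝ) ^ A.card)⁻¹ * (((2 : ℝ) ^ A.card)⁻¹ *
        ∑ β ∈ A.powerset, (M.gw I J (paint A β)).toReal * ∑ β' ∈ A.powerset, X β β')
      ≤ ((2 : ℝ) ^ A.card)⁻¹ * (((2 : ℝ) ^ A.card)⁻¹ * (K * ((2 : ℝ) ^ A.card *
          ∑ β ∈ A.powerset, (M.gw (I \ I₁) (J \ J₁) (paint A β)).toReal *
            (Hd D d (paint A β)).toReal))) := by gcongr
    _ = _ := by field_simp

end net

/-- **mean of the majorant** -/
theorem Qf_bound : ∃ C : ℝ≥0∞, C ≠ ∞ ∧ ∀ {ε s : ℝ} {ι κ : Type} [DecidableEq ι] [DecidableEq κ]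
    (M : Net ε ι κ) (I I₁ : Finset ι) (J J₁ : Finset κ), ε ≤ s → I₁ ⊆ I → J₁ ⊆ J →
    (∀ k ∈ J, M.N k ⊆ I) → (∀ k ∈ J \ J₁, M.N k ⊆ I \ I₁) →
    ∀ (z : ℂ) (D W B : Set ℂ) (d : ℝ), MeasurableSet D → MeasurableSet W → MeasurableSet B →
    Bornology.IsBounded B → W ⊆ B → M.reg I J ⊆ B → W ⊆ sq z s →
    (∀ o ∈ D, Metric.closedBall o d ⊆ W) → Disjoint (M.reg (I \ I₁) (J \ J₁)) W →
    (M.c ^ J₁.card * ∏ i ∈ I₁, ∫⁻ ω, M.a i (cfg ε ω) ∂sampleLaw) *
        ∫⁻ ω, Qf M I I₁ J J₁ D d B ω ∂sampleLaw ≤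
      C * ENNReal.ofReal (s ^ 2) * ∫⁻ ω, M.gw I J (cfg ε ω) ∂sampleLaw := by
  obtain ⟨C, hC, h⟩ := Hd_mean
  refine ⟨C, hC, ?_⟩
  intro ε s ι κ _ _ M I I₁ J J₁ hs hI hJ hN hN₁ z D W B d hD hW hB hBb hWB hregB hWs hDW hd
  rw [Qf_lint M hN₁ hB hBb hD hW hWB
    ((M.reg_mono Finset.sdiff_subset Finset.sdiff_subset).trans hregB) hDW hd]
  calc (M.c ^ J₁.card * ∏ i ∈ I₁, ∫⁻ ω, M.a i (cfg ε ω) ∂sampleLaw) *
        ((∫⁻ ω, M.gw (I \ I₁) (J \ J₁) (cfg ε ω) ∂sampleLaw) *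
          ∫⁻ ω, Hd D d (cfg ε ω) ∂sampleLaw)
      = (∫⁻ ω, Hd D d (cfg ε ω) ∂sampleLaw) *
          ((M.c ^ J₁.card * ∏ i ∈ I₁, ∫⁻ ω, M.a i (cfg ε ω) ∂sampleLaw) *
            ∫⁻ ω, M.gw (I \ I₁) (J \ J₁) (cfg ε ω) ∂sampleLaw) := by ring
    _ = (∫⁻ ω, Hd D d (cfg ε ω) ∂sampleLaw) * ∫⁻ ω, M.gw I J (cfg ε ω) ∂sampleLaw := by
        rw [mass_off M hI hJ hN hN₁]
    _ ≤ _ := by
        gcongr
        exact h ε s M.eps hs z D d fun o ho => (hDW o ho).trans hWs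

end Crest.Agent.R143.TileRx176
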