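import Crest.Agent.R143.Frame10_395
import Crest.Agent.R143.Loc_922
import Crest.Agent.R143.FinM_609

-- ▼ part R143/WLoc_713
section

/-!
# Row 143 (S0194), CORE-C block V, leaf V3 (helper713): locality of the walks and of the segment sums

* `nx S χ e` : next state of the walker at the directed edge `e` (left site `e.1`, right site `e.2`,
  entering the triangle on the left of `e`), colours `χ : ℂ → ZMod 2` on the sites
* `stp_eq`  : it is `stp (cm0 hS) (cfg _ χ')` on the occupied darts, if `χ' (mk v) = χ v`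
* `nx_loc`, `it_loc` : two configurations which agree near `W` have the same walk as long as the
  left sites stay in `W`
* `Zw S χ f e n` : segment sum: sum of `f` over the left gaps at the times `< n` which are not
  pinched inside the segment (no left site visited both at a time `≤ i` and at a time in `(i, n]`)
* `Zw_loc` : locality of the segment sum
-/

set_option autoImplicit false
set_option linter.all false

noncomputable section

open scoped Classical

namespace Crest.Agent.R143.WLocx713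

open Crest.Agent.R143.B0x346 Crest.Agent.R143.DelGx806 Crest.Agent.R143.DelRx806
  Crest.Agent.R143.JColx54
open Crest.Agent.R143.Frame1x395 Crest.Agent.R143.Frame3x395 Crest.Agent.R143.Frame8x395
  Crest.Agent.R143.Frame10x395 Crest.Agent.R143.Locx922
open Crest.Agent.R143.Frame5x395 (sd mem_sd th th_spec)

/-- next state of the walker -/
def nx (S : Finset ℂ) (χ : ℂ → ZMod 2) (e : ℂ × ℂ) : ℂ × ℂ :=
  if χ e.2 + χ (th S e) = 1 then (th S e, e.2) else (e.1, th S e)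

/-- the walker makes a left gap at `e` (the left site changes) -/
def lg (S : Finset ℂ) (χ : ℂ → ZMod 2) (e : ℂ × ℂ) : Prop := χ e.2 + χ (th S e) = 1

/-- the gap at the time `i` of the walk from `e` is not pinched by left sites up to the time `n` -/
def Np (S : Finset ℂ) (χ : ℂ → ZMod 2) (e : ℂ × ℂ) (n i : ℕ) : Prop :=
  ∀ u ≤ i, ∀ v, i < v → v ≤ n → ((nx S χ)^[u] e).1 ≠ ((nx S χ)^[v] e).1

/-- segment sum of the field `f` (a function of the left, right and third site of the gap face; the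
gap is the side `(third, left)`) -/
def Zw (S : Finset ℂ) (χ : ℂ → ZMod 2) (f : ℂ → ℂ → ℂ → ℂ) (e : ℂ × ℂ) (n : ℕ) : ℂ :=
  ∑ i ∈ Finset.range n,
    if lg S χ ((nx S χ)^[i] e) ∧ Np S χ e n i then
      f ((nx S χ)^[i] e).1 ((nx S χ)^[i] e).2 (th S ((nx S χ)^[i] e))
    else 0

variable {S S' : Finset ℂ} {W : Set ℂ} {d : ℝ} {χ χ' : ℂ → ZMod 2}

/-- the colours agree near `W` -/
def CAgr (S : Finset ℂ) (χ χ' : ℂ → ZMod 2) (W : Set ℂ) (r : ℝ) : Prop :=
  ∀ w ∈ W, ∀ v ∈ S, ‖v - w‖ < r → χ v = χ' v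

theorem th_loc (hS' : GP (S' : Set ℂ)) (hd : 0 < d)
    (hH : Hol (S : Set ℂ) W d) (hA : Agr (S : Set ℂ) (S' : Set ℂ) W (2 * d)) {e : ℂ × ℂ}
    (he : e ∈ sd S) (hW : e.1 ∈ W ∨ e.2 ∈ W) : e ∈ sd S' ∧ th S' e = th S e := by
  have h1 := th_spec he
  have h2 : (e.1, e.2, th S e) ∈ delT S' := by
    rcases hW with hW | hW
    · exact (delT_vertex hd hH hA hW).1 h1
    · exact (delT_vertex2 hd hH hA hW).1 h1
  exact ⟨mem_sd.2 ⟨_, h2⟩, th0 hS' h2⟩

/-- a state near `W` : the sites and the third site are at distance `< 2 d` of the left site -/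
theorem near (hd : 0 < d) (hH : Hol (S : Set ℂ) W d) {e : ℂ × ℂ}
    (he : e ∈ sd S) (hW : e.1 ∈ W) :
    e.1 ∈ S ∧ e.2 ∈ S ∧ th S e ∈ S ∧ ‖e.2 - e.1‖ < 2 * d ∧ ‖th S e - e.1‖ < 2 * d := by
  have h1 := mem_delT.1 (th_spec he)
  have h2 := del_side hd hH hW (inD_self _ _ _) h1
  obtain ⟨m1, m2, m3, -⟩ := h1
  refine ⟨m1, m2, m3, ?_, h2.2.2⟩
  rw [norm_sub_rev]
  exact h2.1

/-- **locality of one step** -/
theorem nx_loc (hS' : GP (S' : Set ℂ)) (hd : 0 < d)
    (hH : Hol (S : Set ℂ) W d) (hA : Agr (S : Set ℂ) (S' : Set ℂ) W (2 * d))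
    (hc : CAgr S χ χ' W (2 * d)) {e : ℂ × ℂ} (he : e ∈ sd S) (hW : e.1 ∈ W) :
    nx S' χ' e = nx S χ e ∧ (lg S' χ' e ↔ lg S χ e) ∧ th S' e = th S e := by
  obtain ⟨h1, h2⟩ := th_loc hS' hd hH hA he (Or.inl hW)
  obtain ⟨m1, m2, m3, h3, h4⟩ := near hd hH he hW
  have c2 := hc _ hW _ m2 h3
  have c3 := hc _ hW _ m3 h4
  refine ⟨?_, ?_, h2⟩
  · unfold nx
    rw [h2, ← c2, ← c3]
  · unfold lg
    rw [h2, ← c2, ← c3]

/-- two sites of a side have different colours -/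
def Occ (S : Finset ℂ) (χ : ℂ → ZMod 2) (e : ℂ × ℂ) : Prop := e ∈ sd S ∧ χ e.1 + χ e.2 = 1

/-- the colouring is constant on the hull -/
def HullC (S : Finset ℂ) (χ : ℂ → ZMod 2) : Prop := ∀ a b, hullE S a b → χ a = χ b

theorem z_cases : ∀ a b c : ZMod 2, a + b = 1 → b + c ≠ 1 → a + c = 1 := by decide

theorem z_ne1 : ∀ a : ZMod 2, a + a ≠ 1 := by decide

theorem twin (hχ : HullC S χ) {a b : ℂ} (h : (a, b) ∈ sd S) (hab : χ a + χ b = 1) :
    (b, a) ∈ sd S := by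
  by_contra hn
  have h1 : hullE S a b := ⟨mem_sd.1 h, fun c hc => hn (mem_sd.2 ⟨c, hc⟩)⟩
  rw [hχ a b h1] at hab
  exact z_ne1 _ hab

/-- the walk stays on occupied live sides -/
theorem Occ.nx (hS : GP (S : Set ℂ)) (hχ : HullC S χ) {e : ℂ × ℂ} (h : Occ S χ e) :
    Occ S χ (nx S χ e) := by
  obtain ⟨a, b⟩ := e
  obtain ⟨h1, h2⟩ := h
  have t1 := th_spec h1
  have t2 := delT_rot hS t1
  have t3 := delT_rot hS t2
  unfold WLocx713.nx
  split_ifs with hc
  · refine ⟨?_, ?_⟩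
    · exact twin hχ (mem_sd.2 ⟨_, t2⟩) hc
    · show χ (th S (a, b)) + χ b = 1
      rw [add_comm]; exact hc
  · have h3 := z_cases _ _ _ h2 hc
    refine ⟨?_, h3⟩
    refine twin hχ (mem_sd.2 ⟨_, t3⟩) ?_
    show χ (th S (a, b)) + χ a = 1
    rw [add_comm]; exact h3

theorem Occ.it (hS : GP (S : Set ℂ)) (hχ : HullC S χ) {e : ℂ × ℂ} (h : Occ S χ e) (n : ℕ) :
    Occ S χ ((WLocx713.nx S χ)^[n] e) := by
  induction n with
  | zero => exact h
  | succ n ih => rw [Function.iterate_succ_apply']; exact ih.nx hS hχ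

/-- **locality of the walk**: same walk as long as the left sites stay in `W` -/
theorem it_loc (hS : GP (S : Set ℂ)) (hS' : GP (S' : Set ℂ)) (hχ : HullC S χ) (hd : 0 < d)
    (hH : Hol (S : Set ℂ) W d) (hA : Agr (S : Set ℂ) (S' : Set ℂ) W (2 * d))
    (hc : CAgr S χ χ' W (2 * d)) {e : ℂ × ℂ} (he : Occ S χ e) {n : ℕ}
    (hn : ∀ i < n, ((nx S χ)^[i] e).1 ∈ W) :
    ∀ i ≤ n, (nx S' χ')^[i] e = (nx S χ)^[i] e := by
  intro i
  induction i with
  | zero => intro _; rfl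
  | succ i ih =>
    intro hi
    rw [Function.iterate_succ_apply', Function.iterate_succ_apply', ih (by omega)]
    exact (nx_loc hS' hd hH hA hc (he.it hS hχ i).1 (hn i (by omega))).1

theorem np_loc (hS : GP (S : Set ℂ)) (hS' : GP (S' : Set ℂ)) (hχ : HullC S χ) (hd : 0 < d)
    (hH : Hol (S : Set ℂ) W d) (hA : Agr (S : Set ℂ) (S' : Set ℂ) W (2 * d))
    (hc : CAgr S χ χ' W (2 * d)) {e : ℂ × ℂ} (he : Occ S χ e) {n : ℕ}
    (hn : ∀ i < n, ((nx S χ)^[i] e).1 ∈ W) {i : ℕ} (hi : i < n) :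
    Np S' χ' e n i ↔ Np S χ e n i := by
  have h1 := it_loc hS hS' hχ hd hH hA hc he hn
  unfold Np
  constructor
  · intro h u hu v hv hvn
    have := h u hu v hv hvn
    rwa [h1 u (by omega), h1 v hvn] at this
  · intro h u hu v hv hvn
    rw [h1 u (by omega), h1 v hvn]
    exact h u hu v hv hvn


/-! ### the walker of `Frame1_395` on `cm0` -/

/-- colouring of the cells of `cm0` -/
def lift (S : Finset ℂ) (hχ : HullC S χ) : Quot (hullE S) → ZMod 2 := Quot.lift χ hχ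

theorem cfg_lift (hS : GP (S : Set ℂ)) (hχ : HullC S χ) (p : D0 S) :
    cfg (cm0 hS) (lift S hχ) p = χ p.1.1 + χ p.1.2 := rfl

/-- **the walker of `Frame1_395` is the planar walker** -/
theorem stp_eq (hS : GP (S : Set ℂ)) (hχ : HullC S χ) {p : D0 S}
    (hp : cfg (cm0 hS) (lift S hχ) p = 1) :
    (stp (cm0 hS) (cfg (cm0 hS) (lift S hχ)) p).1 = nx S χ p.1 := by
  obtain ⟨⟨a, b⟩, he⟩ := p
  have t1 := th_spec he
  have t2 := delT_rot hS t1
  have t3 := delT_rot hS t2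
  rw [cfg_lift] at hp
  unfold stp nx
  have e1 : cfg (cm0 hS) (lift S hχ) ((cm0 hS).rho ⟨(a, b), he⟩) = χ b + χ (th S (a, b)) := rfl
  rw [e1]
  split_ifs with hc
  · have h3 : ((b, th S (a, b)) : ℂ × ℂ) ∈ sd S := mem_sd.2 ⟨_, t2⟩
    have h4 := twin hχ h3 hc
    show (io0 (⟨(b, th S (a, b)), h3⟩ : D0 S)).1 = _
    rw [io0_live (e := ⟨(b, th S (a, b)), h3⟩) h4]
  · have h3 : ((th S (a, b), a) : ℂ × ℂ) ∈ sd S := mem_sd.2 ⟨_, t3⟩
    have h5 := z_cases _ _ _ hp hc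
    have h4 : (a, th S (a, b)) ∈ sd S := twin hχ h3 (by rw [add_comm]; exact h5)
    have e2 : (cm0 hS).rho ((cm0 hS).rho ⟨(a, b), he⟩) = (⟨(th S (a, b), a), h3⟩ : D0 S) := by
      apply Subtype.ext
      show (th S (a, b), th S (b, th S (a, b))) = (th S (a, b), a)
      rw [th0 hS t2]
    rw [e2]
    show (io0 (⟨(th S (a, b), a), h3⟩ : D0 S)).1 = _
    rw [io0_live (e := ⟨(th S (a, b), a), h3⟩) h4]

theorem it_eq (hS : GP (S : Set ℂ)) (hχ : HullC S χ) {p : D0 S}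
    (hp : cfg (cm0 hS) (lift S hχ) p = 1) (n : ℕ) :
    ((stp (cm0 hS) (cfg (cm0 hS) (lift S hχ)))^[n] p).1 = (nx S χ)^[n] p.1 := by
  induction n with
  | zero => rfl
  | succ n ih =>
    rw [Function.iterate_succ_apply', Function.iterate_succ_apply',
      stp_eq hS hχ (occ_it (cfg_isC _) hp n), ih]


end Crest.Agent.R143.WLocx713
end
end

-- ▼ part R143/WLoc2_713
section

/-!
# Row 143 (S0194), CORE-C block V, leaf V3 (helper713): stopped walks and stopped segment sums are local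

* `Arr S χ W T e n` : the walk from `e` is in `T` at the time `n`, not earlier, and its left sites at
  the times `< n` are in `W`
* `arr_loc` : locality; `arr_uniq` : at most one such time
* `Fst S χ W T F e` : stopped functional of the trace (`0` if the walk leaves `W` before it hits `T`)
* `fst_loc` : locality of every such functional whose values `F S χ e n` are local;
  `Zst`, `zst_loc` : the segment sum
* `cutS`, `cutC` : sites and colours in `R`; `zst_cut` : `Zst` is a function of `(cutS S R, cutC χ R)`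
-/

set_option autoImplicit false
set_option linter.all false

noncomputable section

open scoped Classical

namespace Crest.Agent.R143.WLocx713

open Crest.Agent.R143.B0x346 Crest.Agent.R143.DelGx806 Crest.Agent.R143.DelRx806
  Crest.Agent.R143.JColx54
open Crest.Agent.R143.Frame1x395 Crest.Agent.R143.Frame3x395 Crest.Agent.R143.Frame8x395
  Crest.Agent.R143.Frame10x395 Crest.Agent.R143.Locx922
open Crest.Agent.R143.Frame5x395 (sd mem_sd th th_spec)

variable {S S' : Finset ℂ} {W : Set ℂ} {d : ℝ} {χ χ' : ℂ → ZMod 2}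

/-- first arrival in `T` at the time `n`, left sites in `W` before -/
def Arr (S : Finset ℂ) (χ : ℂ → ZMod 2) (W : Set ℂ) (T : Set (ℂ × ℂ)) (e : ℂ × ℂ) (n : ℕ) : Prop :=
  (nx S χ)^[n] e ∈ T ∧ ∀ i < n, (nx S χ)^[i] e ∉ T ∧ ((nx S χ)^[i] e).1 ∈ W

theorem arr_uniq {T : Set (ℂ × ℂ)} {e : ℂ × ℂ} {n m : ℕ} (h : Arr S χ W T e n)
    (h' : Arr S χ W T e m) : n = m := by
  rcases lt_trichotomy n m with h1 | h1 | h1
  · exact absurd h.1 (h'.2 n h1).1
  · exact h1
  · exact absurd h'.1 (h.2 m h1).1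

/-- **locality of the first arrival** -/
theorem arr_loc (hS : GP (S : Set ℂ)) (hS' : GP (S' : Set ℂ)) (hχ : HullC S χ) (hd : 0 < d)
    (hH : Hol (S : Set ℂ) W d) (hA : Agr (S : Set ℂ) (S' : Set ℂ) W (2 * d))
    (hc : CAgr S χ χ' W (2 * d)) {T : Set (ℂ × ℂ)} {e : ℂ × ℂ} (he : Occ S χ e) (n : ℕ) :
    Arr S' χ' W T e n ↔ Arr S χ W T e n := by
  induction n using Nat.strong_induction_on with
  | _ n ih =>
    constructor
    · intro h
      -- the walks agree up to every time at which the left sites of the first are in `W`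
      have key : ∀ m ≤ n, ∀ i < m, ((nx S χ)^[i] e).1 ∈ W := by
        intro m
        induction m with
        | zero => intro _ i hi; omega
        | succ m ihm =>
          intro hm i hi
          have h1 := ihm (by omega)
          rcases Nat.lt_succ_iff_lt_or_eq.1 hi with h2 | h2
          · exact h1 i h2
          · subst h2
            have h3 := it_loc hS hS' hχ hd hH hA hc he h1 i le_rfl
            rw [← h3]
            exact (h.2 i (by omega)).2
      have h4 := it_loc hS hS' hχ hd hH hA hc he (key n le_rfl)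
      refine ⟨by rw [← h4 n le_rfl]; exact h.1, fun i hi => ⟨?_, key n le_rfl i hi⟩⟩
      rw [← h4 i hi.le]
      exact (h.2 i hi).1
    · intro h
      have h4 := it_loc hS hS' hχ hd hH hA hc he (fun i hi => (h.2 i hi).2)
      refine ⟨by rw [h4 n le_rfl]; exact h.1, fun i hi => ?_⟩
      rw [h4 i hi.le]
      exact h.2 i hi

/-- stopped functional of the trace -/
def Fst {α : Type*} [Zero α] (S : Finset ℂ) (χ : ℂ → ZMod 2) (W : Set ℂ) (T : Set (ℂ × ℂ))
    (F : ℂ × ℂ → ℕ → α) (e : ℂ × ℂ) : α :=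
  if h : ∃ n, Arr S χ W T e n then F e h.choose else 0

theorem fst_eq {α : Type*} [Zero α] {T : Set (ℂ × ℂ)} (F : ℂ × ℂ → ℕ → α) {e : ℂ × ℂ} {n : ℕ}
    (h : Arr S χ W T e n) : Fst S χ W T F e = F e n := by
  unfold Fst
  have h1 : ∃ n, Arr S χ W T e n := ⟨n, h⟩
  rw [dif_pos h1, arr_uniq h1.choose_spec h]

theorem fst_zero {α : Type*} [Zero α] {T : Set (ℂ × ℂ)} (F : ℂ × ℂ → ℕ → α) {e : ℂ × ℂ}
    (h : ∀ n, ¬ Arr S χ W T e n) : Fst S χ W T F e = 0 :=
  dif_neg fun ⟨n, hn⟩ => h n hn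


/-- stopped segment sum -/
def Zst (S : Finset ℂ) (χ : ℂ → ZMod 2) (f : ℂ → ℂ → ℂ → ℂ) (W : Set ℂ) (T : Set (ℂ × ℂ))
    (e : ℂ × ℂ) : ℂ := Fst S χ W T (Zw S χ f) e


/-! ### restriction of the data to a region -/










end Crest.Agent.R143.WLocx713
end
end

-- ▼ part R143/WLoc3_713
section

/-!
# Row 143 (S0194), CORE-C block V, leaf V3 (helper713): the stopped segment sum as a sum over triangles

* `arr_inj` : before the first arrival the states are pairwise different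
* `Cnt S χ W T e t` : the triangle `t = (left, right, third)` is a counted gap of the stopped walk
* `zst_sum` : `Zst = Σ_{t ∈ delT S, Cnt t} f t`
* `cnt_loc`, `cnt_cut` : locality of `Cnt`
* `sP`, `cP` : sites and colours of a configuration `P : Set (ℂ × Bool)`
* `zw_dart` : `Zw` in terms of the walker of `Frame1_395` on `cm0`
-/

set_option autoImplicit false
set_option linter.all false

noncomputable section

open scoped Classical

namespace Crest.Agent.R143.WLocx713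

open Crest.Agent.R143.B0x346 Crest.Agent.R143.DelGx806 Crest.Agent.R143.DelRx806
  Crest.Agent.R143.JColx54
open Crest.Agent.R143.Frame1x395 Crest.Agent.R143.Frame3x395 Crest.Agent.R143.Frame8x395
  Crest.Agent.R143.Frame10x395 Crest.Agent.R143.Locx922
open Crest.Agent.R143.Frame5x395 (sd mem_sd th th_spec)

variable {S S' : Finset ℂ} {W : Set ℂ} {d : ℝ} {χ χ' : ℂ → ZMod 2}

theorem arr_inj {T : Set (ℂ × ℂ)} {e : ℂ × ℂ} {n : ℕ} (h : Arr S χ W T e n) {i j : ℕ}
    (hij : i < j) (hj : j ≤ n) : (nx S χ)^[i] e ≠ (nx S χ)^[j] e := by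
  intro hc
  have h1 : (nx S χ)^[n] e = (nx S χ)^[n - j + i] e := by
    have e1 : n = (n - j) + j := by omega
    conv_lhs => rw [e1, Function.iterate_add_apply, ← hc]
    rw [Function.iterate_add_apply]
  exact (h.2 (n - j + i) (by omega)).1 (h1 ▸ h.1)

/-- the triangle `t` is a counted gap of the stopped walk -/
def Cnt (S : Finset ℂ) (χ : ℂ → ZMod 2) (W : Set ℂ) (T : Set (ℂ × ℂ)) (e : ℂ × ℂ)
    (t : ℂ × ℂ × ℂ) : Prop :=
  ∃ n, Arr S χ W T e n ∧ ∃ i < n, (nx S χ)^[i] e = (t.1, t.2.1) ∧ t.2.2 = th S (t.1, t.2.1) ∧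
    lg S χ (t.1, t.2.1) ∧ Np S χ e n i

theorem cnt_mem (hS : GP (S : Set ℂ)) (hχ : HullC S χ) {T : Set (ℂ × ℂ)} {e : ℂ × ℂ}
    (he : Occ S χ e) {t : ℂ × ℂ × ℂ} (h : Cnt S χ W T e t) : t ∈ delT S := by
  obtain ⟨n, -, i, -, h1, h2, -⟩ := h
  have h3 := (he.it hS hχ i).1
  rw [h1] at h3
  have h4 := th_spec h3
  rw [← h2] at h4
  exact h4

/-- **the stopped segment sum is a sum over the Delaunay triangles** -/
theorem zst_sum (hS : GP (S : Set ℂ)) (hχ : HullC S χ) (f : ℂ → ℂ → ℂ → ℂ) {T : Set (ℂ × ℂ)}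
    {e : ℂ × ℂ} (he : Occ S χ e) :
    Zst S χ f W T e = ∑ t ∈ delT S, if Cnt S χ W T e t then f t.1 t.2.1 t.2.2 else 0 := by
  by_cases hn : ∃ n, Arr S χ W T e n
  · obtain ⟨n, hn⟩ := hn
    unfold Zst
    rw [fst_eq _ hn]
    unfold Zw
    rw [← Finset.sum_filter, ← Finset.sum_filter]
    refine Finset.sum_bij (fun i _ => (((nx S χ)^[i] e).1, ((nx S χ)^[i] e).2,
      th S ((nx S χ)^[i] e))) ?_ ?_ ?_ ?_
    · intro i hi
      rw [Finset.mem_filter, Finset.mem_range] at hi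
      obtain ⟨h1, h2, h3⟩ := hi
      rw [Finset.mem_filter]
      have h4 : Cnt S χ W T e (((nx S χ)^[i] e).1, ((nx S χ)^[i] e).2,
          th S ((nx S χ)^[i] e)) := ⟨n, hn, i, h1, rfl, rfl, h2, h3⟩
      exact ⟨cnt_mem hS hχ he h4, h4⟩
    · intro i hi j hj hij
      rw [Finset.mem_filter, Finset.mem_range] at hi hj
      have h1 : (nx S χ)^[i] e = (nx S χ)^[j] e :=
        Prod.ext (congrArg (fun t : ℂ × ℂ × ℂ => t.1) hij)
          (congrArg (fun t : ℂ × ℂ × ℂ => t.2.1) hij)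
      rcases lt_trichotomy i j with h2 | h2 | h2
      · exact absurd h1 (arr_inj hn h2 hj.1.le)
      · exact h2
      · exact absurd h1.symm (arr_inj hn h2 hi.1.le)
    · rintro ⟨a, b, c⟩ ht
      rw [Finset.mem_filter] at ht
      obtain ⟨-, m, hm, i, hi, h1, h2, h3, h4⟩ := ht
      have hmn := arr_uniq hm hn
      subst hmn
      refine ⟨i, ?_, ?_⟩
      · rw [Finset.mem_filter, Finset.mem_range]
        refine ⟨hi, ?_, h4⟩
        rw [h1]
        exact h3
      · rw [h1]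
        simp only at h2
        rw [h2]
    · intro i hi
      rfl
  · have hn' : ∀ n, ¬ Arr S χ W T e n := fun n h => hn ⟨n, h⟩
    unfold Zst
    rw [fst_zero _ hn', Finset.sum_eq_zero]
    intro t _
    rw [if_neg]
    rintro ⟨n, h, -⟩
    exact hn' n h





/-! ### the gap darts of `cm0` -/



end Crest.Agent.R143.WLocx713
end
end

-- ▼ part R143/WLoc4_713

/-!
# Row 143 (S0194), CORE-C block V, leaf V3 (helper713): measurability of the stopped segment sums

Everything as a function of the coloured configuration `X : Set (ℂ × Bool)` (831's `cfg ε ω`).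

* `sX X`, `cX X` : sites and colours of `X`
* `U3` : the third site of a directed side is unique
* `ArrS`, `CntS` : as `Arr`, `Cnt`, with all states at the times `< n` in `sd S` (automatic for an
  occupied start if the hull is wired: `arrS_iff`, `cntS_iff`)
* `PIso.cnt` : transport of `CntS` along the isomorphisms `PIso` of 609
* `zS` : the stopped segment sum with start darts `St X` and target `Tg X`; `zS_fme` : it is
  measurable in the points; `zS_eq` : it is `Zst`; `zS_cut` : it is a function of `X ∩ ovr R`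
-/

set_option autoImplicit false
set_option linter.all false

noncomputable section

open scoped Classical

namespace Crest.Agent.R143.WLocx713

open Set MeasureTheory
open Crest.Agent.R143.B0x346 Crest.Agent.R143.DelGx806 Crest.Agent.R143.DelRx806
  Crest.Agent.R143.JColx54
open Crest.Agent.R143.Frame1x395 Crest.Agent.R143.Frame3x395 Crest.Agent.R143.Frame8x395
  Crest.Agent.R143.Frame10x395 Crest.Agent.R143.Locx922
open Crest.Agent.R143.Frame5x395 (sd mem_sd th th_spec)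
open Crest.Agent.R143.PP0x831 Crest.Agent.R143.Poisx304 Crest.Agent.R143.Janx304
open Crest.Agent.R143.Prodx609 Crest.Agent.R143.FinMx609

variable {S S' : Finset ℂ} {W : Set ℂ} {d : ℝ} {χ χ' : ℂ → ZMod 2}

/-! ### safe versions -/

/-- first arrival with live states before -/
def ArrS (S : Finset ℂ) (χ : ℂ → ZMod 2) (W : Set ℂ) (T : Set (ℂ × ℂ)) (e : ℂ × ℂ) (n : ℕ) : Prop :=
  Arr S χ W T e n ∧ ∀ i < n, (nx S χ)^[i] e ∈ sd S


/-- counted gap of the stopped walk, safe version -/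
def CntS (S : Finset ℂ) (χ : ℂ → ZMod 2) (W : Set ℂ) (T : Set (ℂ × ℂ)) (e : ℂ × ℂ)
    (t : ℂ × ℂ × ℂ) : Prop :=
  ∃ n, ArrS S χ W T e n ∧ ∃ i < n, (nx S χ)^[i] e = (t.1, t.2.1) ∧ t.2.2 = th S (t.1, t.2.1) ∧
    lg S χ (t.1, t.2.1) ∧ Np S χ e n i





/-! ### configurations -/

/-- the sites as a finite set -/
def sX (X : Set (ℂ × Bool)) : Finset ℂ := if h : (ps X).Finite then h.toFinset else ∅

/-- the colours -/
def cX (X : Set (ℂ × Bool)) (v : ℂ) : ZMod 2 := if (v, true) ∈ X then 1 else 0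

theorem coe_sX {X : Set (ℂ × Bool)} (hX : X.Finite) : (sX X : Set ℂ) = ps X := by
  have h : (ps X).Finite := hX.image _
  unfold sX
  rw [dif_pos h, Set.Finite.coe_toFinset]

theorem mem_sX {X : Set (ℂ × Bool)} (hX : X.Finite) {v : ℂ} : v ∈ sX X ↔ v ∈ ps X := by
  rw [← Finset.mem_coe, coe_sX hX]

theorem del_sX {X : Set (ℂ × Bool)} (hX : X.Finite) {a b c : ℂ} :
    (a, b, c) ∈ delT (sX X) ↔ Del (ps X) a b c := by
  rw [mem_delT, coe_sX hX]

theorem ps_of_del {X : Set (ℂ × Bool)} (hX : X.Finite) {a b c : ℂ} (h : (a, b, c) ∈ delT (sX X)) :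
    a ∈ ps X ∧ b ∈ ps X ∧ c ∈ ps X := by
  have h1 := (del_sX hX).1 h
  exact ⟨h1.1, h1.2.1, h1.2.2.1⟩

/-- the third site is unique -/
def U3 (S : Finset ℂ) : Prop :=
  ∀ a b c c' : ℂ, (a, b, c) ∈ delT S → (a, b, c') ∈ delT S → c = c'

theorem u3_of_gp (hS : GP (S : Set ℂ)) : U3 S := (g1 S hS).2.1

theorem U3.th_eq (h : U3 S) {a b c : ℂ} (hc : (a, b, c) ∈ delT S) : th S (a, b) = c :=
  h a b _ _ (th_spec (e := (a, b)) (mem_sd.2 ⟨c, hc⟩)) hc

section transport

variable {ι κ : Type*} [Finite ι] [Finite κ] {U : ι → Set ℂ} {R : κ → ℂ × ℂ × ℂ → Prop}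
  {X X' : Set (ℂ × Bool)} {e : ℂ → ℂ}

theorem iso_del (hX : X.Finite) (hX' : X'.Finite) (he : PIso U R X X' e) {a b c : ℂ}
    (ha : a ∈ ps X) (hb : b ∈ ps X) (hc : c ∈ ps X) :
    (a, b, c) ∈ delT (sX X) ↔ (e a, e b, e c) ∈ delT (sX X') := by
  rw [del_sX hX, del_sX hX', he.del a ha b hb c hc]

theorem iso_col (he : PIso U R X X' e) {a : ℂ} (ha : a ∈ ps X) : cX X' (e a) = cX X a := by
  unfold cX
  have := he.col a ha true
  simp only [this]

theorem iso_u3 (hX : X.Finite) (hX' : X'.Finite) (he : PIso U R X X' e) (h : U3 (sX X)) :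
    U3 (sX X') := by
  intro a b c c' h1 h2
  obtain ⟨ha, hb, hc⟩ := ps_of_del hX' h1
  obtain ⟨-, -, hc'⟩ := ps_of_del hX' h2
  obtain ⟨a, qa, rfl⟩ := he.bij.surjOn ha
  obtain ⟨b, qb, rfl⟩ := he.bij.surjOn hb
  obtain ⟨c, qc, rfl⟩ := he.bij.surjOn hc
  obtain ⟨c', qc', rfl⟩ := he.bij.surjOn hc'
  rw [h a b c c' ((iso_del hX hX' he qa qb qc).2 h1) ((iso_del hX hX' he qa qb qc').2 h2)]

/-- image of a state -/
def mp (e : ℂ → ℂ) (p : ℂ × ℂ) : ℂ × ℂ := (e p.1, e p.2)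

theorem sd_ps (hX : X.Finite) {p : ℂ × ℂ} (hp : p ∈ sd (sX X)) : p.1 ∈ ps X ∧ p.2 ∈ ps X := by
  obtain ⟨c, hc⟩ := mem_sd.1 hp
  obtain ⟨h1, h2, -⟩ := ps_of_del hX hc
  exact ⟨h1, h2⟩

theorem iso_th (hX : X.Finite) (hX' : X'.Finite) (he : PIso U R X X' e) (h : U3 (sX X))
    {p : ℂ × ℂ} (hp : p ∈ sd (sX X)) :
    mp e p ∈ sd (sX X') ∧ th (sX X') (mp e p) = e (th (sX X) p) ∧ th (sX X) p ∈ ps X := by
  obtain ⟨a, b⟩ := p
  have h1 := th_spec hp
  obtain ⟨ha, hb, hc⟩ := ps_of_del hX h1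
  have h2 := (iso_del hX hX' he ha hb hc).1 h1
  exact ⟨mem_sd.2 ⟨_, h2⟩, (iso_u3 hX hX' he h).th_eq h2, hc⟩


theorem iso_lg (hX : X.Finite) (hX' : X'.Finite) (he : PIso U R X X' e) (h : U3 (sX X))
    {p : ℂ × ℂ} (hp : p ∈ sd (sX X)) : lg (sX X') (cX X') (mp e p) ↔ lg (sX X) (cX X) p := by
  obtain ⟨-, h2, h3⟩ := iso_th hX hX' he h hp
  unfold lg
  rw [h2, iso_col he h3]
  show cX X' (e p.2) + _ = 1 ↔ _
  rw [iso_col he (sd_ps hX hp).2]

theorem iso_nx (hX : X.Finite) (hX' : X'.Finite) (he : PIso U R X X' e) (h : U3 (sX X))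
    {p : ℂ × ℂ} (hp : p ∈ sd (sX X)) :
    nx (sX X') (cX X') (mp e p) = mp e (nx (sX X) (cX X) p) ∧
      (nx (sX X) (cX X) p).1 ∈ ps X ∧ (nx (sX X) (cX X) p).2 ∈ ps X := by
  obtain ⟨-, h2, h3⟩ := iso_th hX hX' he h hp
  have h4 := iso_lg hX hX' he h hp
  obtain ⟨h5, h6⟩ := sd_ps hX hp
  unfold lg at h4
  unfold nx
  by_cases hc : cX X p.2 + cX X (th (sX X) p) = 1
  · rw [if_pos hc, if_pos (h4.2 hc), h2]
    exact ⟨rfl, h3, h6⟩
  · rw [if_neg hc, if_neg (fun h => hc (h4.1 h)), h2]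
    exact ⟨rfl, h5, h3⟩

theorem iso_it (hX : X.Finite) (hX' : X'.Finite) (he : PIso U R X X' e) (h : U3 (sX X))
    {p : ℂ × ℂ} (h1 : p.1 ∈ ps X) (h2 : p.2 ∈ ps X) {n : ℕ}
    (hn : ∀ i < n, (nx (sX X) (cX X))^[i] p ∈ sd (sX X)) :
    ∀ i ≤ n, (nx (sX X') (cX X'))^[i] (mp e p) = mp e ((nx (sX X) (cX X))^[i] p) ∧
      ((nx (sX X) (cX X))^[i] p).1 ∈ ps X ∧ ((nx (sX X) (cX X))^[i] p).2 ∈ ps X := by
  intro i
  induction i with
  | zero => intro _; exact ⟨rfl, h1, h2⟩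
  | succ i ih =>
    intro hi
    obtain ⟨e1, e2, e3⟩ := ih (by omega)
    rw [Function.iterate_succ_apply', Function.iterate_succ_apply', e1]
    exact iso_nx hX hX' he h (hn i (by omega))



theorem iso_np (hX : X.Finite) (hX' : X'.Finite) (he : PIso U R X X' e) (h : U3 (sX X))
    {p : ℂ × ℂ} (h1 : p.1 ∈ ps X) (h2 : p.2 ∈ ps X) {n : ℕ}
    (hn : ∀ i < n, (nx (sX X) (cX X))^[i] p ∈ sd (sX X)) {i : ℕ} (hi : i < n)
    (hp : Np (sX X) (cX X) p n i) : Np (sX X') (cX X') (mp e p) n i := by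
  have h3 := iso_it hX hX' he h h1 h2 hn
  intro u hu v hv hvn hc
  rw [(h3 u (by omega)).1, (h3 v hvn).1] at hc
  exact hp u hu v hv hvn (he.bij.injOn (h3 u (by omega)).2.1 (h3 v hvn).2.1 hc)



end transport

/-! ### the stopped segment sum of a configuration -/

/-- counted gaps -/
def pS (W : Set ℂ) (St : Set (ℂ × Bool) → ℂ × ℂ → Prop) (Tg : Set (ℂ × Bool) → Set (ℂ × ℂ))
    (X : Set (ℂ × Bool)) (t : ℂ × ℂ × ℂ) : Prop :=
  X.Finite ∧ U3 (sX X) ∧ ∃ p, St X p ∧ CntS (sX X) (cX X) W (Tg X) p t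

/-- **the stopped segment sum** with start darts `St` and target `Tg` -/
def zS (f : ℂ × ℂ × ℂ → ℂ) (W : Set ℂ) (St : Set (ℂ × Bool) → ℂ × ℂ → Prop)
    (Tg : Set (ℂ × Bool) → Set (ℂ × ℂ)) (X : Set (ℂ × Bool)) : ℂ :=
  ∑ᶠ (t : ℂ × ℂ × ℂ) (_ : pS W St Tg X t), f t

section meas

variable {ι κ : Type*} [Finite ι] [Finite κ] {U : ι → Set ℂ} {R : κ → ℂ × ℂ × ℂ → Prop}
  {St : Set (ℂ × Bool) → ℂ × ℂ → Prop} {Tg : Set (ℂ × Bool) → Set (ℂ × ℂ)}



end meas

section eval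

variable {St : Set (ℂ × Bool) → ℂ × ℂ → Prop} {Tg : Set (ℂ × Bool) → Set (ℂ × ℂ)}



theorem ps_inter {X : Set (ℂ × Bool)} {R : Set ℂ} : ps (X ∩ ovr R) = ps X ∩ R := by
  ext v
  simp only [ps, ovr, mem_image, mem_inter_iff]
  constructor
  · rintro ⟨x, ⟨h1, h2⟩, rfl⟩
    exact ⟨⟨x, h1, rfl⟩, h2⟩
  · rintro ⟨⟨x, h1, rfl⟩, h2⟩
    exact ⟨x, ⟨h1, h2⟩, rfl⟩

theorem cX_inter {X : Set (ℂ × Bool)} {R : Set ℂ} {v : ℂ} (hv : v ∈ R) :
    cX (X ∩ ovr R) v = cX X v := by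
  unfold cX
  have : (v, true) ∈ X ∩ ovr R ↔ (v, true) ∈ X := ⟨fun h => h.1, fun h => ⟨h, hv⟩⟩
  simp only [this]


end eval

end Crest.Agent.R143.WLocx713
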